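import Crest.Agent.R166.Spine_419

/-!
# R166 / CayDet_93 (helper93)

Deterministic facts on the Cayley transform `Cay` of real symmetric matrices.
-/

set_option autoImplicit false

open Matrix
open scoped BigOperators

namespace Crest.Agent.R166.CayDet93

open Crest.Agent.R166

section basic
variable {m : ℕ}

/-- complexification -/
noncomputable abbrev cx (C : Matrix (Fin m) (Fin m) ℝ) : Matrix (Fin m) (Fin m) ℂ :=
  C.map (fun x : ℝ => (x : ℂ))

lemma cx_mul (A B : Matrix (Fin m) (Fin m) ℝ) : cx (A * B) = cx A * cx B := by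
  ext i j; simp [cx, Matrix.mul_apply]

lemma cx_add (A B : Matrix (Fin m) (Fin m) ℝ) : cx (A + B) = cx A + cx B := by
  ext i j; simp [cx]

lemma cx_sub (A B : Matrix (Fin m) (Fin m) ℝ) : cx (A - B) = cx A - cx B := by
  ext i j; simp [cx]

lemma cx_one : cx (1 : Matrix (Fin m) (Fin m) ℝ) = 1 := by
  ext i j
  by_cases h : i = j <;> simp [cx, Matrix.one_apply, h]

lemma cx_transpose (A : Matrix (Fin m) (Fin m) ℝ) : cx Aᵀ = (cx A)ᵀ := by
  ext i j; simp [cx]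

lemma cx_herm (A : Matrix (Fin m) (Fin m) ℝ) (hA : Aᵀ = A) : (cx A)ᴴ = cx A := by
  ext i j
  simp only [cx, Matrix.conjTranspose_apply, Matrix.map_apply, Complex.star_def,
    Complex.conj_ofReal]
  have := congrFun (congrFun hA i) j
  rw [Matrix.transpose_apply] at this
  rw [this]

/-- `(C + i)` is invertible for symmetric `C`. -/
lemma isUnit_add_I (C : Matrix (Fin m) (Fin m) ℝ) (hC : Cᵀ = C) :
    IsUnit (cx C + Complex.I • (1 : Matrix (Fin m) (Fin m) ℂ)) := by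
  rw [Matrix.isUnit_iff_isUnit_det, isUnit_iff_ne_zero]
  intro h0
  obtain ⟨v, hv, hv0⟩ := Matrix.exists_mulVec_eq_zero_iff.mpr h0
  have h1 : star v ⬝ᵥ ((cx C + Complex.I • (1 : Matrix (Fin m) (Fin m) ℂ)) *ᵥ v) = 0 := by
    rw [hv0]; simp
  rw [Matrix.add_mulVec, dotProduct_add, Matrix.smul_mulVec, Matrix.one_mulVec,
    dotProduct_smul] at h1
  have hherm : (cx C).IsHermitian := cx_herm C hC
  have h2 : (star v ⬝ᵥ (cx C *ᵥ v)).im = 0 := hherm.im_star_dotProduct_mulVec_self v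
  have h3 : star v ⬝ᵥ v = ((∑ i, ‖v i‖ ^ 2 : ℝ) : ℂ) := by
    simp only [dotProduct, Pi.star_apply, Complex.star_def]
    push_cast
    refine Finset.sum_congr rfl fun i _ => ?_
    rw [← Complex.normSq_eq_conj_mul_self, Complex.normSq_eq_norm_sq]
    push_cast; rfl
  have h4 := congrArg Complex.im h1
  rw [Complex.add_im, h2, h3] at h4
  simp only [smul_eq_mul, Complex.mul_im, Complex.I_re, Complex.I_im, Complex.ofReal_im,
    Complex.ofReal_re, zero_mul, one_mul, zero_add, Complex.zero_im] at h4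
  apply hv
  ext i
  have h5 := (Finset.sum_eq_zero_iff_of_nonneg (fun i _ => sq_nonneg ‖v i‖)).mp h4 i
    (Finset.mem_univ i)
  have h6 : ‖v i‖ = 0 := by simpa using h5
  simpa using h6

lemma isUnit_sub_I (C : Matrix (Fin m) (Fin m) ℝ) (hC : Cᵀ = C) :
    IsUnit (cx C - Complex.I • (1 : Matrix (Fin m) (Fin m) ℂ)) := by
  have h := isUnit_add_I C hC
  have h1 : (cx C + Complex.I • (1 : Matrix (Fin m) (Fin m) ℂ))ᴴ
      = cx C - Complex.I • (1 : Matrix (Fin m) (Fin m) ℂ) := by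
    rw [Matrix.conjTranspose_add, cx_herm C hC, Matrix.conjTranspose_smul,
      Matrix.conjTranspose_one]
    simp [sub_eq_add_neg]
  rw [← h1]
  rw [Matrix.isUnit_iff_isUnit_det] at h ⊢
  rw [Matrix.det_conjTranspose]
  exact h.star

/-- `(C + i)⁻¹`. -/
noncomputable def Yi (C : Matrix (Fin m) (Fin m) ℝ) : Matrix (Fin m) (Fin m) ℂ :=
  (cx C + Complex.I • (1 : Matrix (Fin m) (Fin m) ℂ))⁻¹

lemma Yi_mul (C : Matrix (Fin m) (Fin m) ℝ) (hC : Cᵀ = C) :
    Yi C * (cx C + Complex.I • (1 : Matrix (Fin m) (Fin m) ℂ)) = 1 :=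
  Matrix.nonsing_inv_mul _ ((Matrix.isUnit_iff_isUnit_det _).mp (isUnit_add_I C hC))

lemma mul_Yi (C : Matrix (Fin m) (Fin m) ℝ) (hC : Cᵀ = C) :
    (cx C + Complex.I • (1 : Matrix (Fin m) (Fin m) ℂ)) * Yi C = 1 :=
  Matrix.mul_nonsing_inv _ ((Matrix.isUnit_iff_isUnit_det _).mp (isUnit_add_I C hC))

lemma Cay_eq (C : Matrix (Fin m) (Fin m) ℝ) :
    Cay C = (cx C - Complex.I • (1 : Matrix (Fin m) (Fin m) ℂ)) * Yi C := rfl

lemma Cay_eq_one_sub (C : Matrix (Fin m) (Fin m) ℝ) (hC : Cᵀ = C) :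
    Cay C = 1 - (2 * Complex.I) • Yi C := by
  have h1 : cx C - Complex.I • (1 : Matrix (Fin m) (Fin m) ℂ)
      = (cx C + Complex.I • (1 : Matrix (Fin m) (Fin m) ℂ))
        - (2 * Complex.I) • (1 : Matrix (Fin m) (Fin m) ℂ) := by
    rw [mul_smul, two_smul]; abel
  rw [Cay_eq, h1, Matrix.sub_mul, mul_Yi C hC, Matrix.smul_mul, Matrix.one_mul]

lemma Cay_conj_mul (C : Matrix (Fin m) (Fin m) ℝ) (hC : Cᵀ = C) : (Cay C)ᴴ * Cay C = 1 := by
  set P := cx C + Complex.I • (1 : Matrix (Fin m) (Fin m) ℂ) with hP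
  set Q := cx C - Complex.I • (1 : Matrix (Fin m) (Fin m) ℂ) with hQ
  have hPQ : P * Q = Q * P := by
    rw [hP, hQ]
    simp only [Matrix.add_mul, Matrix.mul_sub, Matrix.sub_mul, Matrix.mul_add, Matrix.mul_smul,
      Matrix.smul_mul, Matrix.mul_one, Matrix.one_mul, smul_add, smul_sub]
    abel
  have hPh : Pᴴ = Q := by
    rw [hP, hQ, Matrix.conjTranspose_add, cx_herm C hC, Matrix.conjTranspose_smul,
      Matrix.conjTranspose_one]
    simp [sub_eq_add_neg]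
  have hQh : Qᴴ = P := by rw [← hPh, Matrix.conjTranspose_conjTranspose]
  have hPu : IsUnit P.det := (Matrix.isUnit_iff_isUnit_det _).mp (isUnit_add_I C hC)
  have hQu : IsUnit Q.det := (Matrix.isUnit_iff_isUnit_det _).mp (isUnit_sub_I C hC)
  have h1 : Cay C = Q * P⁻¹ := rfl
  rw [h1, Matrix.conjTranspose_mul, Matrix.conjTranspose_nonsing_inv, hPh, hQh]
  calc Q⁻¹ * P * (Q * P⁻¹) = Q⁻¹ * (P * Q) * P⁻¹ := by simp only [Matrix.mul_assoc]
    _ = (Q⁻¹ * Q) * (P * P⁻¹) := by rw [hPQ]; simp only [Matrix.mul_assoc]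
    _ = 1 := by rw [Matrix.nonsing_inv_mul _ hQu, Matrix.mul_nonsing_inv _ hPu, Matrix.mul_one]

lemma Cay_mem_unitary (C : Matrix (Fin m) (Fin m) ℝ) (hC : Cᵀ = C) :
    Cay C ∈ Matrix.unitaryGroup (Fin m) ℂ :=
  Matrix.mem_unitaryGroup_iff'.mpr (Cay_conj_mul C hC)

lemma norm_Cay_le (C : Matrix (Fin m) (Fin m) ℝ) (hC : Cᵀ = C) (i j : Fin m) :
    ‖Cay C i j‖ ≤ 1 := entry_norm_bound_of_unitary (Cay_mem_unitary C hC) i j

lemma norm_Yi_le (C : Matrix (Fin m) (Fin m) ℝ) (hC : Cᵀ = C) (i j : Fin m) :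
    ‖Yi C i j‖ ≤ 1 := by
  have h1 := Cay_eq_one_sub C hC
  have h2 : (2 * Complex.I) * Yi C i j = (1 : Matrix (Fin m) (Fin m) ℂ) i j - Cay C i j := by
    rw [h1]; simp
  have h3 : ‖(2 * Complex.I) * Yi C i j‖ = 2 * ‖Yi C i j‖ := by simp
  have h4 : ‖(1 : Matrix (Fin m) (Fin m) ℂ) i j‖ ≤ 1 := by
    by_cases h : i = j
    · subst h; simp
    · rw [Matrix.one_apply_ne h]; simp
  have h5 := norm_sub_le ((1 : Matrix (Fin m) (Fin m) ℂ) i j) (Cay C i j)
  rw [← h2, h3] at h5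
  have h6 := norm_Cay_le C hC i j
  linarith

/-- entrywise product bound -/
lemma norm_mul_le' (A B : Matrix (Fin m) (Fin m) ℂ) {a b : ℝ}
    (hA : ∀ i j, ‖A i j‖ ≤ a) (hB : ∀ i j, ‖B i j‖ ≤ b) (i j : Fin m) :
    ‖(A * B) i j‖ ≤ m * (a * b) := by
  rw [Matrix.mul_apply]
  calc ‖∑ k, A i k * B k j‖ ≤ ∑ k : Fin m, a * b := by
        refine norm_sum_le_of_le _ fun k _ => ?_
        rw [norm_mul]
        have ha : 0 ≤ a := le_trans (norm_nonneg _) (hA i k)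
        exact mul_le_mul (hA i k) (hB k j) (norm_nonneg _) ha
    _ = m * (a * b) := by simp

/-! ### additive perturbation -/

lemma Yi_sub (C C' : Matrix (Fin m) (Fin m) ℝ) (hC : Cᵀ = C) (hC' : C'ᵀ = C') :
    Yi C - Yi C' = Yi C * (cx C' - cx C) * Yi C' := by
  have h : cx C' - cx C = (cx C' + Complex.I • (1 : Matrix (Fin m) (Fin m) ℂ))
      - (cx C + Complex.I • (1 : Matrix (Fin m) (Fin m) ℂ)) := by abel
  rw [h, Matrix.mul_sub, Matrix.sub_mul, Yi_mul C hC, Matrix.one_mul, Matrix.mul_assoc,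
    mul_Yi C' hC', Matrix.mul_one]

lemma Cay_sub (C C' : Matrix (Fin m) (Fin m) ℝ) (hC : Cᵀ = C) (hC' : C'ᵀ = C') :
    Cay C - Cay C' = -((2 * Complex.I) • (Yi C - Yi C')) := by
  rw [Cay_eq_one_sub C hC, Cay_eq_one_sub C' hC', smul_sub]; abel

/-- `Cay` is Lipschitz for additive real symmetric perturbations (entrywise form). -/
lemma norm_Cay_sub_le (C C' : Matrix (Fin m) (Fin m) ℝ) (hC : Cᵀ = C) (hC' : C'ᵀ = C') {η : ℝ}
    (hη : ∀ i j, |C i j - C' i j| ≤ η) (i j : Fin m) :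
    ‖Cay C i j - Cay C' i j‖ ≤ 2 * (m * (m * η)) := by
  have h1 : Cay C i j - Cay C' i j = (Cay C - Cay C') i j := rfl
  have hc : ∀ i j, ‖(cx C' - cx C) i j‖ ≤ η := by
    intro i j
    have : (cx C' - cx C) i j = ((C' i j - C i j : ℝ) : ℂ) := by simp [cx]
    rw [this, Complex.norm_real, Real.norm_eq_abs, abs_sub_comm]
    exact hη i j
  rw [h1, Cay_sub C C' hC hC', Yi_sub C C' hC hC']
  have h2 := norm_mul_le' (Yi C * (cx C' - cx C)) (Yi C') (a := m * (1 * η)) (b := 1)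
    (fun i j => norm_mul_le' _ _ (norm_Yi_le C hC) hc i j) (norm_Yi_le C' hC') i j
  simp only [Matrix.neg_apply, Matrix.smul_apply, smul_eq_mul, norm_neg, norm_mul,
    Complex.norm_I, mul_one, RCLike.norm_ofNat]
  have h3 : (m:ℝ) * (m * (1 * η) * 1) = m * (m * η) := by ring
  rw [h3] at h2
  linarith

/-! ### congruence -/

lemma Yi_congr (C S R : Matrix (Fin m) (Fin m) ℝ) (hC : Cᵀ = C) (hSR : Sᵀ * R = 1) :
    Yi (Sᵀ * C * S) - Yi C
      = (1 - cx S) * Yi (Sᵀ * C * S) + cx S * Yi (Sᵀ * C * S) * (1 - cx Sᵀ)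
        + Complex.I • (Yi C * (cx S - cx R) * Yi (Sᵀ * C * S) * cx Sᵀ) := by
  set C' := Sᵀ * C * S with hC'
  have hC's : C'ᵀ = C' := by
    rw [hC', Matrix.transpose_mul, Matrix.transpose_mul, Matrix.transpose_transpose, hC,
      Matrix.mul_assoc]
  have hRS : R * Sᵀ = 1 := mul_eq_one_comm.mp hSR
  have hRSc : cx R * cx Sᵀ = 1 := by rw [← cx_mul, hRS, cx_one]
  set X := Yi C' with hX
  set Y := Yi C with hY
  -- key identity: C S X S^T = 1 - i R X S^T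
  have h1 : cx C' * X = 1 - Complex.I • X := by
    have := mul_Yi C' hC's
    rw [Matrix.add_mul, Matrix.smul_mul, Matrix.one_mul] at this
    rw [← this]; abel
  have h2 : cx C * cx S * X = cx R - Complex.I • (cx R * X) := by
    have h3 : cx R * (cx C' * X) = cx C * cx S * X := by
      rw [hC', cx_mul, cx_mul]
      calc cx R * (cx Sᵀ * cx C * cx S * X) = (cx R * cx Sᵀ) * cx C * cx S * X := by
            simp only [Matrix.mul_assoc]
        _ = _ := by rw [hRSc, Matrix.one_mul]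
    rw [← h3, h1, Matrix.mul_sub, Matrix.mul_one, Matrix.mul_smul]
  have h4 : cx S * X * cx Sᵀ - Y = Complex.I • (Y * (cx S - cx R) * X * cx Sᵀ) := by
    have h5 : cx S * X * cx Sᵀ
        = Y * ((cx C + Complex.I • (1 : Matrix (Fin m) (Fin m) ℂ)) * (cx S * X * cx Sᵀ)) := by
      rw [← Matrix.mul_assoc Y, Yi_mul C hC, Matrix.one_mul]
    have h6 : (cx C + Complex.I • (1 : Matrix (Fin m) (Fin m) ℂ)) * (cx S * X * cx Sᵀ)
        = 1 + Complex.I • ((cx S - cx R) * X * cx Sᵀ) := by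
      rw [Matrix.add_mul, Matrix.smul_mul, Matrix.one_mul]
      have h7 : cx C * (cx S * X * cx Sᵀ) = (cx C * cx S * X) * cx Sᵀ := by
        simp only [Matrix.mul_assoc]
      rw [h7, h2, Matrix.sub_mul, hRSc, Matrix.smul_mul, Matrix.sub_mul, Matrix.sub_mul, smul_sub]
      abel
    rw [h5, h6, Matrix.mul_add, Matrix.mul_one, Matrix.mul_smul]
    simp only [Matrix.mul_assoc]
    abel
  have h8 : X - Y = (1 - cx S) * X + cx S * X * (1 - cx Sᵀ) + (cx S * X * cx Sᵀ - Y) := by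
    rw [Matrix.sub_mul, Matrix.mul_sub, Matrix.one_mul, Matrix.mul_one]; abel
  rw [h8, h4]

/-- closeness of `Cay (Sᵀ C S)` and `Cay C` when `S ≈ 1`, uniformly in `C`. -/
lemma norm_Cay_congr_le (C S R : Matrix (Fin m) (Fin m) ℝ) (hC : Cᵀ = C) (hSR : Sᵀ * R = 1)
    {η : ℝ} (hη1 : η ≤ 1)
    (hS : ∀ i j, |S i j - (1 : Matrix (Fin m) (Fin m) ℝ) i j| ≤ η)
    (hR : ∀ i j, |S i j - R i j| ≤ η) (i j : Fin m) :
    ‖Cay (Sᵀ * C * S) i j - Cay C i j‖
      ≤ 2 * ((m:ℝ) * η + (m:ℝ) * ((m:ℝ) * 2 * η) + (m:ℝ) * ((m:ℝ) * ((m:ℝ) * η) * 2)) := by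
  set C' := Sᵀ * C * S with hC'
  have hC's : C'ᵀ = C' := by
    rw [hC', Matrix.transpose_mul, Matrix.transpose_mul, Matrix.transpose_transpose, hC,
      Matrix.mul_assoc]
  have hone : ∀ i j, |(1 : Matrix (Fin m) (Fin m) ℝ) i j| ≤ 1 := by
    intro i j
    by_cases h : i = j
    · subst h; simp
    · rw [Matrix.one_apply_ne h]; simp
  have hS2 : ∀ i j, ‖cx S i j‖ ≤ 2 := by
    intro i j
    have : cx S i j = ((S i j : ℝ) : ℂ) := rfl
    rw [this, Complex.norm_real, Real.norm_eq_abs]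
    calc |S i j| = |(S i j - (1 : Matrix (Fin m) (Fin m) ℝ) i j)
            + (1 : Matrix (Fin m) (Fin m) ℝ) i j| := by ring_nf
      _ ≤ |S i j - (1 : Matrix (Fin m) (Fin m) ℝ) i j|
            + |(1 : Matrix (Fin m) (Fin m) ℝ) i j| := abs_add_le _ _
      _ ≤ 2 := by linarith [hS i j, hone i j]
  have hS1 : ∀ i j, ‖(1 - cx S) i j‖ ≤ η := by
    intro i j
    have : (1 - cx S) i j = (((1 : Matrix (Fin m) (Fin m) ℝ) i j - S i j : ℝ) : ℂ) := by
      have h : (1 : Matrix (Fin m) (Fin m) ℂ) - cx S = cx (1 - S) := by rw [cx_sub, cx_one]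
      rw [h]; rfl
    rw [this, Complex.norm_real, Real.norm_eq_abs, abs_sub_comm]
    exact hS i j
  have hS1' : ∀ i j, ‖(1 - cx Sᵀ) i j‖ ≤ η := by
    intro i j
    have : (1 - cx Sᵀ) i j = (1 - cx S) j i := by
      rw [cx_transpose]
      simp only [Matrix.sub_apply, Matrix.transpose_apply]
      by_cases h : i = j
      · subst h; rfl
      · rw [Matrix.one_apply_ne h, Matrix.one_apply_ne (Ne.symm h)]
    rw [this]; exact hS1 j i
  have hS2' : ∀ i j, ‖cx Sᵀ i j‖ ≤ 2 := fun i j => hS2 j i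
  have hSR' : ∀ i j, ‖(cx S - cx R) i j‖ ≤ η := by
    intro i j
    have : (cx S - cx R) i j = ((S i j - R i j : ℝ) : ℂ) := by simp [cx]
    rw [this, Complex.norm_real, Real.norm_eq_abs]
    exact hR i j
  have b1 := norm_mul_le' (1 - cx S) (Yi C') hS1 (norm_Yi_le C' hC's) i j
  have b2 := norm_mul_le' (cx S * Yi C') (1 - cx Sᵀ) (a := (m:ℝ) * (2 * 1)) (b := η)
    (fun i j => norm_mul_le' _ _ hS2 (norm_Yi_le C' hC's) i j) hS1' i j
  have b3a : ∀ i j, ‖(Yi C * (cx S - cx R) * Yi C') i j‖ ≤ (m:ℝ) * ((m:ℝ) * (1 * η) * 1) :=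
    fun i j => norm_mul_le' _ _
      (fun i j => norm_mul_le' _ _ (norm_Yi_le C hC) hSR' i j) (norm_Yi_le C' hC's) i j
  have b3 := norm_mul_le' (Yi C * (cx S - cx R) * Yi C') (cx Sᵀ) b3a hS2' i j
  have h1 : Cay C' i j - Cay C i j = (Cay C' - Cay C) i j := rfl
  rw [h1, Cay_sub C' C hC's hC, Yi_congr C S R hC hSR]
  simp only [Matrix.neg_apply, Matrix.smul_apply, smul_eq_mul, norm_neg, norm_mul,
    Complex.norm_I, mul_one, RCLike.norm_ofNat, Matrix.add_apply]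
  have h2 : ‖((1 - cx S) * Yi C') i j + (cx S * Yi C' * (1 - cx Sᵀ)) i j
      + Complex.I * (Yi C * (cx S - cx R) * Yi C' * cx Sᵀ) i j‖
      ≤ ‖((1 - cx S) * Yi C') i j‖ + ‖(cx S * Yi C' * (1 - cx Sᵀ)) i j‖
        + ‖(Yi C * (cx S - cx R) * Yi C' * cx Sᵀ) i j‖ := by
    refine (norm_add_le _ _).trans ?_
    refine add_le_add (norm_add_le _ _) ?_
    rw [norm_mul, Complex.norm_I, one_mul]
  have e1 : (m:ℝ) * (η * 1) = (m:ℝ) * η := by ring
  have e2 : (m:ℝ) * ((m:ℝ) * (2 * 1) * η) = (m:ℝ) * ((m:ℝ) * 2 * η) := by ring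
  have e3 : (m:ℝ) * ((m:ℝ) * ((m:ℝ) * (1 * η) * 1) * 2) = (m:ℝ) * ((m:ℝ) * ((m:ℝ) * η) * 2) := by
    ring
  rw [e1] at b1
  rw [e2] at b2
  rw [e3] at b3
  linarith

/-! ### conjugation by orthogonal matrices -/

lemma Yi_conj (C O : Matrix (Fin m) (Fin m) ℝ) (hC : Cᵀ = C) (hO : O * Oᵀ = 1) :
    Yi (O * C * Oᵀ) = cx O * Yi C * (cx O)ᵀ := by
  have hO' : Oᵀ * O = 1 := mul_eq_one_comm.mp hO
  have hc : cx O * (cx O)ᵀ = 1 := by rw [← cx_transpose, ← cx_mul, hO, cx_one]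
  have hc' : (cx O)ᵀ * cx O = 1 := by rw [← cx_transpose, ← cx_mul, hO', cx_one]
  unfold Yi
  apply Matrix.inv_eq_right_inv
  have h1 : cx (O * C * Oᵀ) + Complex.I • (1 : Matrix (Fin m) (Fin m) ℂ)
      = cx O * (cx C + Complex.I • (1 : Matrix (Fin m) (Fin m) ℂ)) * (cx O)ᵀ := by
    rw [Matrix.mul_add, Matrix.add_mul, cx_mul, cx_mul, cx_transpose, Matrix.mul_smul,
      Matrix.mul_one, Matrix.smul_mul, hc]
  have h2 := mul_Yi C hC
  unfold Yi at h2
  rw [h1]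
  calc cx O * (cx C + Complex.I • 1) * (cx O)ᵀ * (cx O * (cx C + Complex.I • 1)⁻¹ * (cx O)ᵀ)
      = cx O * (cx C + Complex.I • 1) * ((cx O)ᵀ * cx O) * (cx C + Complex.I • 1)⁻¹ * (cx O)ᵀ := by
        simp only [Matrix.mul_assoc]
    _ = cx O * ((cx C + Complex.I • 1) * (cx C + Complex.I • 1)⁻¹) * (cx O)ᵀ := by
        rw [hc', Matrix.mul_one]; simp only [Matrix.mul_assoc]
    _ = 1 := by rw [h2, Matrix.mul_one, hc]

lemma Cay_conj (C O : Matrix (Fin m) (Fin m) ℝ) (hC : Cᵀ = C) (hO : O * Oᵀ = 1) :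
    Cay (O * C * Oᵀ) = cx O * Cay C * (cx O)ᵀ := by
  have hc : cx O * (cx O)ᵀ = 1 := by rw [← cx_transpose, ← cx_mul, hO, cx_one]
  have hC' : (O * C * Oᵀ)ᵀ = O * C * Oᵀ := by
    rw [Matrix.transpose_mul, Matrix.transpose_mul, Matrix.transpose_transpose, hC,
      Matrix.mul_assoc]
  rw [Cay_eq_one_sub _ hC', Cay_eq_one_sub _ hC, Yi_conj C O hC hO, Matrix.mul_sub,
    Matrix.sub_mul, Matrix.mul_one, hc, Matrix.mul_smul, Matrix.smul_mul]

end basic

end Crest.Agent.R166.CayDet93
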