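import Crest.Agent.R166.Gauss_286

/-!
# Row 166 (helper286): common Gaussian toolkit, part 2 (moments and quadratic forms)

* `integrable_gv`, `integrable_gm` : polynomially bounded functions are integrable
* one-dimensional moments
* `quad_diag` : `E (∑ aᵢ(xᵢ² - 1))² = 2 ∑ aᵢ²`
* `exists_diag` : spectral theorem in the form needed here
* `quad_sym`, `quad_complex` : `E |xᵀ A x - tr A|² ≤ 2 ∑ |A i j|²`
* `bilin` : `E |xᵀ A y|² = ∑ |A i j|²`
* `lower_tail`
-/

set_option autoImplicit false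
set_option linter.unusedSectionVars false

noncomputable section

open MeasureTheory ProbabilityTheory Matrix
open scoped ENNReal

namespace Crest.Agent.R166.Gauss286

variable {ι κ : Type*} [Fintype ι] [Fintype κ]

/-! ### Integrability of polynomially bounded functions -/

lemma integrable_exp_abs : Integrable (fun x : ℝ => Real.exp |x|) (gaussianReal 0 1) := by
  have h1 := (integrable_exp_mul_gaussianReal (μ := 0) (v := 1) 1).add
    (integrable_exp_mul_gaussianReal (μ := 0) (v := 1) (-1))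
  refine h1.mono' (by fun_prop) (Filter.Eventually.of_forall fun x => ?_)
  rw [Real.norm_eq_abs, abs_of_pos (Real.exp_pos _)]
  simp only [Pi.add_apply, one_mul, neg_mul]
  rcases le_or_gt 0 x with h | h
  · rw [abs_of_nonneg h]; linarith [Real.exp_pos (-x)]
  · rw [abs_of_neg h]; linarith [Real.exp_pos x]

lemma integrable_exp_sum_abs : Integrable (fun x : ι → ℝ => Real.exp (∑ i, |x i|)) (gv ι) := by
  have h := Integrable.fintype_prod (f := fun (_ : ι) (x : ℝ) => Real.exp |x|)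
    (μ := fun _ => gaussianReal 0 1) (fun _ => integrable_exp_abs)
  refine h.congr (Filter.Eventually.of_forall fun x => ?_)
  simp only [Real.exp_sum]

lemma pow_le_factorial_exp (k : ℕ) {t : ℝ} (ht : 0 ≤ t) :
    (1 + t) ^ k ≤ (k.factorial * Real.exp 1) * Real.exp t := by
  have h := Real.pow_div_factorial_le_exp (x := 1 + t) (by linarith) k
  rw [div_le_iff₀ (by positivity)] at h
  calc (1 + t) ^ k ≤ Real.exp (1 + t) * k.factorial := h
    _ = _ := by rw [Real.exp_add]; ring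

/-- polynomially bounded functions are integrable -/
theorem integrable_gv {E : Type*} [NormedAddCommGroup E] {f : (ι → ℝ) → E}
    (hf : AEStronglyMeasurable f (gv ι)) (C : ℝ) (k : ℕ)
    (h : ∀ x, ‖f x‖ ≤ C * (1 + ∑ i, |x i|) ^ k) : Integrable f (gv ι) := by
  refine (integrable_exp_sum_abs.const_mul (|C| * (k.factorial * Real.exp 1))).mono' hf
    (Filter.Eventually.of_forall fun x => (h x).trans ?_)
  have h0 : 0 ≤ ∑ i, |x i| := Finset.sum_nonneg fun _ _ => abs_nonneg _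
  calc C * (1 + ∑ i, |x i|) ^ k ≤ |C| * (1 + ∑ i, |x i|) ^ k := by
        gcongr; exact le_abs_self C
    _ ≤ |C| * ((k.factorial * Real.exp 1) * Real.exp (∑ i, |x i|)) := by
        gcongr; exact pow_le_factorial_exp k h0
    _ = _ := by ring

/-- polynomially bounded functions are integrable -/
theorem integrable_gm {E : Type*} [NormedAddCommGroup E] {f : (ι → κ → ℝ) → E}
    (hf : AEStronglyMeasurable f (gm ι κ)) (C : ℝ) (k : ℕ)
    (h : ∀ g, ‖f g‖ ≤ C * (1 + ∑ i, ∑ j, |g i j|) ^ k) : Integrable f (gm ι κ) := by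
  rw [← gv_map_curry] at hf ⊢
  rw [integrable_map_measure hf measurable_curry'.aemeasurable]
  refine integrable_gv (hf.comp_measurable measurable_curry') C k fun x => ?_
  refine (h _).trans (le_of_eq ?_)
  rw [Fintype.sum_prod_type]

/-! ### One-dimensional moments -/

lemma int_x : ∫ x, x ∂(gaussianReal 0 1) = 0 := integral_id_gaussianReal

lemma int_x2 : ∫ x, x ^ 2 ∂(gaussianReal 0 1) = 1 := by
  have h := variance_fun_id_gaussianReal (μ := 0) (v := 1)
  rw [variance_eq_integral (by fun_prop), integral_id_gaussianReal] at h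
  simpa using h

lemma mgf_std : mgf id (gaussianReal 0 1) = fun t => Real.exp (t ^ 2 / 2) := by
  rw [mgf_id_gaussianReal]
  ext t; simp

lemma hd (p q : ℝ → ℝ) (hp : ∀ t, HasDerivAt p (q t) t) (t : ℝ) :
    HasDerivAt (fun t => p t * Real.exp (t ^ 2 / 2)) ((q t + t * p t) * Real.exp (t ^ 2 / 2)) t := by
  have h2 : HasDerivAt (fun t : ℝ => Real.exp (t ^ 2 / 2)) (Real.exp (t ^ 2 / 2) * t) t := by
    have h1 : HasDerivAt (fun t : ℝ => t ^ 2 / 2) t t := by
      have := (hasDerivAt_pow 2 t).div_const 2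
      refine this.congr_deriv ?_
      simp
    exact h1.exp
  refine ((hp t).mul h2).congr_deriv ?_
  ring

lemma int_x4 : ∫ x, x ^ 4 ∂(gaussianReal 0 1) = 3 := by
  have h := iteratedDeriv_mgf_zero (X := id) (μ := gaussianReal 0 1)
    (by rw [integrableExpSet_id_gaussianReal]; simp) 4
  have e : ∫ x, x ^ 4 ∂(gaussianReal 0 1) = iteratedDeriv 4 (mgf id (gaussianReal 0 1)) 0 := by
    rw [h]; rfl
  rw [e, mgf_std]
  have d1 : deriv (fun t : ℝ => Real.exp (t ^ 2 / 2)) = fun t => t * Real.exp (t ^ 2 / 2) := by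
    ext t
    have := hd (fun _ => 1) (fun _ => 0) (fun t => hasDerivAt_const t 1) t
    simp only [one_mul, mul_one, zero_add] at this
    exact this.deriv
  have d2 : deriv (fun t : ℝ => t * Real.exp (t ^ 2 / 2)) =
      fun t => (1 + t ^ 2) * Real.exp (t ^ 2 / 2) := by
    ext t
    have := hd (fun t => t) (fun _ => 1) (fun t => hasDerivAt_id t) t
    rw [this.deriv]; ring
  have d3 : deriv (fun t : ℝ => (1 + t ^ 2) * Real.exp (t ^ 2 / 2)) =
      fun t => (3 * t + t ^ 3) * Real.exp (t ^ 2 / 2) := by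
    ext t
    have := hd (fun t => 1 + t ^ 2) (fun t => 2 * t)
      (fun t => by simpa using (hasDerivAt_pow 2 t).const_add 1) t
    rw [this.deriv]; ring
  have d4 : deriv (fun t : ℝ => (3 * t + t ^ 3) * Real.exp (t ^ 2 / 2)) =
      fun t => (3 + 6 * t ^ 2 + t ^ 4) * Real.exp (t ^ 2 / 2) := by
    ext t
    have := hd (fun t => 3 * t + t ^ 3) (fun t => 3 + 3 * t ^ 2)
      (fun t => by
        have h1 := ((hasDerivAt_id t).const_mul 3).add (hasDerivAt_pow 3 t)
        refine h1.congr_deriv ?_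
        simp) t
    rw [this.deriv]; ring
  rw [iteratedDeriv_succ', iteratedDeriv_succ', iteratedDeriv_succ', iteratedDeriv_succ',
    iteratedDeriv_zero, d1, d2, d3, d4]
  simp

lemma integrable_x4 : Integrable (fun x : ℝ => x ^ 4) (gaussianReal 0 1) := by
  have h := (memLp_id_gaussianReal (μ := 0) (v := 1) 4).integrable_norm_pow (by norm_num)
  refine h.congr (Filter.Eventually.of_forall fun x => ?_)
  simp only [id, Real.norm_eq_abs]
  exact Even.pow_abs (by decide) x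

lemma integrable_x2 : Integrable (fun x : ℝ => x ^ 2) (gaussianReal 0 1) :=
  (memLp_id_gaussianReal (μ := 0) (v := 1) 2).integrable_sq

lemma memLp_sq_sub : MemLp (fun x : ℝ => x ^ 2 - 1) 2 (gaussianReal 0 1) := by
  rw [memLp_two_iff_integrable_sq (by fun_prop)]
  have h4 := integrable_x4
  have h2 := integrable_x2
  have : (fun x : ℝ => (x ^ 2 - 1) ^ 2) = fun x => x ^ 4 - 2 * x ^ 2 + 1 := by
    ext x; ring
  rw [this]
  exact (h4.sub (h2.const_mul 2)).add (integrable_const 1)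

lemma int_sq_sub : ∫ x, (x ^ 2 - 1) ∂(gaussianReal 0 1) = 0 := by
  have h2 : Integrable (fun x : ℝ => x ^ 2) (gaussianReal 0 1) :=
    (memLp_id_gaussianReal (μ := 0) (v := 1) 2).integrable_sq
  rw [integral_sub h2 (integrable_const 1), int_x2]
  simp

lemma int_sq_sub_sq : ∫ x, (x ^ 2 - 1) ^ 2 ∂(gaussianReal 0 1) = 2 := by
  have h4 := integrable_x4
  have h2 := integrable_x2
  have : (fun x : ℝ => (x ^ 2 - 1) ^ 2) = fun x => x ^ 4 - 2 * x ^ 2 + 1 := by
    ext x; ring
  rw [this, integral_add (f := fun x => x ^ 4 - 2 * x ^ 2) (g := fun _ => 1)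
    (h4.sub (h2.const_mul 2)) (integrable_const 1),
    integral_sub h4 (h2.const_mul 2), integral_const_mul, int_x4, int_x2]
  norm_num

/-! ### Diagonal quadratic forms -/

/-- the general principle for sums of functions of independent coordinates -/
lemma sum_indep {Y : ι → ℝ → ℝ} (hY : ∀ i, MemLp (Y i) 2 (gaussianReal 0 1))
    (h0 : ∀ i, ∫ x, Y i x ∂(gaussianReal 0 1) = 0) :
    ∫ x, (∑ i, Y i (x i)) ^ 2 ∂(gv ι) = ∑ i, ∫ x, Y i x ^ 2 ∂(gaussianReal 0 1) := by
  have h := variance_sum_pi (μ := fun _ : ι => gaussianReal 0 1) hY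
  have hi : ∀ i, Integrable (fun x : ι → ℝ => Y i (x i)) (gv ι) := fun i =>
    integrable_comp_eval ((hY i).integrable (by norm_num))
  have hm : AEMeasurable (∑ i, fun x : ι → ℝ => Y i (x i)) (gv ι) :=
    Finset.aemeasurable_sum _ fun i _ => (hi i).aemeasurable
  rw [variance_eq_integral hm] at h
  have e0 : ∫ x, (∑ i, fun x : ι → ℝ => Y i (x i)) x ∂(gv ι) = 0 := by
    simp only [Finset.sum_apply]
    rw [integral_finsetSum _ fun i _ => hi i]
    refine Finset.sum_eq_zero fun i _ => ?_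
    rw [integral_comp_eval (hY i).aestronglyMeasurable]
    exact h0 i
  rw [e0] at h
  simp only [Finset.sum_apply, sub_zero] at h
  rw [h]
  refine Finset.sum_congr rfl fun i _ => ?_
  rw [variance_eq_integral (hY i).aemeasurable, h0 i]
  simp

/-- `E (∑ aᵢ xᵢ)² = ∑ aᵢ²` -/
lemma lin_sq (a : ι → ℝ) : ∫ x, (∑ i, a i * x i) ^ 2 ∂(gv ι) = ∑ i, a i ^ 2 := by
  rw [sum_indep (Y := fun i x => a i * x) (fun i => (memLp_id_gaussianReal 2).const_mul _)
    (fun i => by rw [integral_const_mul, int_x, mul_zero])]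
  refine Finset.sum_congr rfl fun i _ => ?_
  simp only [mul_pow]
  rw [integral_const_mul, int_x2, mul_one]

/-- `E (∑ aᵢ(xᵢ² - 1))² = 2 ∑ aᵢ²` -/
lemma quad_diag (a : ι → ℝ) :
    ∫ x, (∑ i, a i * (x i ^ 2 - 1)) ^ 2 ∂(gv ι) = 2 * ∑ i, a i ^ 2 := by
  rw [sum_indep (Y := fun i x => a i * (x ^ 2 - 1)) (fun i => memLp_sq_sub.const_mul _)
    (fun i => by rw [integral_const_mul, int_sq_sub, mul_zero]), Finset.mul_sum]
  refine Finset.sum_congr rfl fun i _ => ?_
  simp only [mul_pow]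
  rw [integral_const_mul, int_sq_sub_sq]
  ring

/-! ### Spectral theorem -/

/-- real spectral theorem, elementary form -/
theorem exists_diag [DecidableEq ι] {S : Matrix ι ι ℝ} (hS : S.IsHermitian) :
    ∃ O : Matrix ι ι ℝ, O * Oᵀ = 1 ∧ Oᵀ * O = 1 ∧ S = Oᵀ * diagonal hS.eigenvalues * O := by
  refine ⟨(hS.eigenvectorUnitary : Matrix ι ι ℝ)ᵀ, ?_, ?_, ?_⟩
  · rw [Matrix.transpose_transpose]
    have h := Matrix.mem_unitaryGroup_iff'.mp hS.eigenvectorUnitary.2
    rw [Matrix.star_eq_conjTranspose, Matrix.conjTranspose_eq_transpose_of_trivial] at h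
    exact h
  · rw [Matrix.transpose_transpose]
    have h := Matrix.mem_unitaryGroup_iff.mp hS.eigenvectorUnitary.2
    rw [Matrix.star_eq_conjTranspose, Matrix.conjTranspose_eq_transpose_of_trivial] at h
    exact h
  · rw [Matrix.transpose_transpose]
    have h := hS.spectral_theorem
    rw [Unitary.conjStarAlgAut_apply, Matrix.star_eq_conjTranspose,
      Matrix.conjTranspose_eq_transpose_of_trivial] at h
    exact h

lemma quad_eq [DecidableEq ι] (O : Matrix ι ι ℝ) (a : ι → ℝ) (x : ι → ℝ) :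
    x ⬝ᵥ (Oᵀ * diagonal a * O) *ᵥ x = ∑ i, a i * ((O *ᵥ x) i) ^ 2 := by
  rw [← Matrix.mulVec_mulVec, ← Matrix.mulVec_mulVec, Matrix.dotProduct_mulVec,
    Matrix.vecMul_transpose]
  simp only [dotProduct, Matrix.mulVec_diagonal]
  exact Finset.sum_congr rfl fun i _ => by ring

lemma sum_sq_eq [DecidableEq ι] {O : Matrix ι ι ℝ} (h1 : O * Oᵀ = 1) (a : ι → ℝ) :
    ∑ i, ∑ j, ((Oᵀ * diagonal a * O) i j) ^ 2 = ∑ i, a i ^ 2 := by
  set S := Oᵀ * diagonal a * O with hS
  have e1 : ∑ i, ∑ j, (S i j) ^ 2 = (S * Sᵀ).trace := by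
    simp only [Matrix.trace, Matrix.diag, Matrix.mul_apply, Matrix.transpose_apply, sq]
  have e2 : S * Sᵀ = Oᵀ * (diagonal a * diagonal a) * O := by
    rw [hS, Matrix.transpose_mul, Matrix.transpose_mul, Matrix.transpose_transpose,
      Matrix.diagonal_transpose]
    calc Oᵀ * diagonal a * O * (Oᵀ * (diagonal a * O))
        = Oᵀ * diagonal a * (O * Oᵀ) * (diagonal a * O) := by simp only [Matrix.mul_assoc]
      _ = _ := by rw [h1]; simp only [Matrix.mul_assoc, Matrix.mul_one]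
  rw [e1, e2, Matrix.mul_assoc, Matrix.trace_mul_comm, Matrix.mul_assoc, h1, Matrix.mul_one,
    Matrix.diagonal_mul_diagonal, Matrix.trace_diagonal]
  exact Finset.sum_congr rfl fun i _ => (sq (a i)).symm

lemma trace_eq [DecidableEq ι] {O : Matrix ι ι ℝ} (h1 : O * Oᵀ = 1) (a : ι → ℝ) :
    (Oᵀ * diagonal a * O).trace = ∑ i, a i := by
  rw [Matrix.mul_assoc, Matrix.trace_mul_comm, Matrix.mul_assoc, h1, Matrix.mul_one,
    Matrix.trace_diagonal]

/-- law of a quadratic form -/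
theorem integral_quad [DecidableEq ι] {E : Type*} [NormedAddCommGroup E] [NormedSpace ℝ E]
    {O : Matrix ι ι ℝ} (h1 : O * Oᵀ = 1) (a : ι → ℝ) (F : ℝ → E)
    (hF : StronglyMeasurable F) :
    ∫ x, F (x ⬝ᵥ (Oᵀ * diagonal a * O) *ᵥ x) ∂(gv ι) = ∫ x, F (∑ i, a i * x i ^ 2) ∂(gv ι) := by
  simp only [quad_eq]
  have h := gv_map_mulVec O h1
  conv_rhs => rw [← h]
  rw [integral_map (f := fun y : ι → ℝ => F (∑ i, a i * y i ^ 2))
    (measurable_mulVec O).aemeasurable
    (hF.comp_measurable (g := fun y : ι → ℝ => ∑ i, a i * y i ^ 2)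
      (by fun_prop)).aestronglyMeasurable]

/-- `E (xᵀSx - tr S)² = 2 ∑ S_ij²` for symmetric `S` -/
theorem quad_sym {S : Matrix ι ι ℝ} (hS : Sᵀ = S) :
    ∫ x, (x ⬝ᵥ S *ᵥ x - S.trace) ^ 2 ∂(gv ι) = 2 * ∑ i, ∑ j, S i j ^ 2 := by
  classical
  have hS' : S.IsHermitian := by
    rw [Matrix.IsHermitian, Matrix.conjTranspose_eq_transpose_of_trivial]; exact hS
  obtain ⟨O, h1, h2, h3⟩ := exists_diag hS'
  set a := hS'.eigenvalues
  clear_value a
  subst h3
  rw [trace_eq h1, sum_sq_eq h1, integral_quad h1 a (fun y => (y - ∑ i, a i) ^ 2)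
    (by fun_prop), ← quad_diag]
  refine integral_congr_ae (Filter.Eventually.of_forall fun x => ?_)
  simp only
  congr 1
  rw [← Finset.sum_sub_distrib]
  exact Finset.sum_congr rfl fun i _ => by ring

lemma sum_sym_sq_le (A : Matrix ι ι ℝ) :
    ∑ i, ∑ j, ((A i j + A j i) / 2) ^ 2 ≤ ∑ i, ∑ j, A i j ^ 2 := by
  have h1 : ∑ i, ∑ j, A j i ^ 2 = ∑ i, ∑ j, A i j ^ 2 := Finset.sum_comm
  have h2 : ∑ i, ∑ j, ((A i j + A j i) / 2) ^ 2 ≤ ∑ i, ∑ j, (A i j ^ 2 + A j i ^ 2) / 2 :=
    Finset.sum_le_sum fun i _ => Finset.sum_le_sum fun j _ => by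
      nlinarith [sq_nonneg (A i j - A j i)]
  refine h2.trans (le_of_eq ?_)
  simp only [← Finset.sum_div, Finset.sum_add_distrib]
  rw [h1]; ring

lemma dotProduct_mulVec_eq (A : Matrix ι κ ℝ) (x : ι → ℝ) (y : κ → ℝ) :
    x ⬝ᵥ A *ᵥ y = ∑ i, ∑ j, x i * A i j * y j := by
  simp only [dotProduct, Matrix.mulVec, Finset.mul_sum]
  exact Finset.sum_congr rfl fun i _ => Finset.sum_congr rfl fun j _ => by ring

lemma quad_symm_eq (A : Matrix ι ι ℝ) (x : ι → ℝ) :
    ∑ i, ∑ j, x i * A i j * x j = x ⬝ᵥ (Matrix.of fun i j => (A i j + A j i) / 2) *ᵥ x := by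
  rw [dotProduct_mulVec_eq]
  have h1 : ∑ i, ∑ j, x i * A j i * x j = ∑ i, ∑ j, x i * A i j * x j := by
    rw [Finset.sum_comm]
    exact Finset.sum_congr rfl fun i _ => Finset.sum_congr rfl fun j _ => by ring
  have h2 : ∑ i, ∑ j, x i * (Matrix.of fun i j => (A i j + A j i) / 2) i j * x j =
      (∑ i, ∑ j, x i * A i j * x j + ∑ i, ∑ j, x i * A j i * x j) / 2 := by
    rw [← Finset.sum_add_distrib, Finset.sum_div]
    refine Finset.sum_congr rfl fun i _ => ?_
    rw [← Finset.sum_add_distrib, Finset.sum_div]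
    refine Finset.sum_congr rfl fun j _ => ?_
    simp only [Matrix.of_apply]; ring
  rw [h2, h1]; ring

/-- `E (∑ xᵢ Aᵢⱼ xⱼ - tr A)² ≤ 2 ∑ Aᵢⱼ²`, any real `A` -/
theorem quad_real (A : Matrix ι ι ℝ) :
    ∫ x, (∑ i, ∑ j, x i * A i j * x j - A.trace) ^ 2 ∂(gv ι) ≤ 2 * ∑ i, ∑ j, A i j ^ 2 := by
  have ht : A.trace = (Matrix.of fun i j => (A i j + A j i) / 2).trace := by
    simp only [Matrix.trace, Matrix.diag, Matrix.of_apply]
    exact Finset.sum_congr rfl fun i _ => by ring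
  simp only [quad_symm_eq, ht]
  rw [quad_sym]
  · have := sum_sym_sq_le A
    simp only [Matrix.of_apply]
    linarith
  · ext i j
    simp only [Matrix.transpose_apply, Matrix.of_apply]; ring

lemma abs_le_base (x : ι → ℝ) (i : ι) : |x i| ≤ 1 + ∑ j, |x j| := by
  have := Finset.single_le_sum (f := fun j => |x j|) (fun _ _ => abs_nonneg _) (Finset.mem_univ i)
  linarith

lemma one_le_base (x : ι → ℝ) : 1 ≤ 1 + ∑ j, |x j| := by
  have : 0 ≤ ∑ j, |x j| := Finset.sum_nonneg fun _ _ => abs_nonneg _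
  linarith

lemma quad_bound (A : Matrix ι ι ℝ) (x : ι → ℝ) :
    |∑ i, ∑ j, x i * A i j * x j - A.trace| ≤
      (∑ i, ∑ j, |A i j| + |A.trace|) * (1 + ∑ j, |x j|) ^ 2 := by
  have hb := one_le_base x
  have h1 : |∑ i, ∑ j, x i * A i j * x j| ≤ (∑ i, ∑ j, |A i j|) * (1 + ∑ j, |x j|) ^ 2 := by
    refine (Finset.abs_sum_le_sum_abs _ _).trans ?_
    rw [Finset.sum_mul]
    refine Finset.sum_le_sum fun i _ => (Finset.abs_sum_le_sum_abs _ _).trans ?_
    rw [Finset.sum_mul]
    refine Finset.sum_le_sum fun j _ => ?_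
    rw [abs_mul, abs_mul]
    calc |x i| * |A i j| * |x j| ≤ (1 + ∑ j, |x j|) * |A i j| * (1 + ∑ j, |x j|) := by
          gcongr
          · exact abs_le_base x i
          · exact abs_le_base x j
      _ = _ := by ring
  have h2 : |A.trace| ≤ |A.trace| * (1 + ∑ j, |x j|) ^ 2 :=
    le_mul_of_one_le_right (abs_nonneg _) (one_le_pow₀ hb)
  calc _ ≤ |∑ i, ∑ j, x i * A i j * x j| + |A.trace| := abs_sub _ _
    _ ≤ _ := by rw [add_mul]; exact add_le_add h1 h2

lemma measurable_quad (A : Matrix ι ι ℝ) :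
    Measurable fun x : ι → ℝ => ∑ i, ∑ j, x i * A i j * x j :=
  Finset.measurable_sum _ fun i _ => Finset.measurable_sum _ fun j _ =>
    ((measurable_pi_apply i).mul_const _).mul (measurable_pi_apply j)

lemma integrable_quad_sq (A : Matrix ι ι ℝ) :
    Integrable (fun x : ι → ℝ => (∑ i, ∑ j, x i * A i j * x j - A.trace) ^ 2) (gv ι) := by
  refine integrable_gv (((measurable_quad A).sub_const _).pow_const 2).aestronglyMeasurable
    ((∑ i, ∑ j, |A i j| + |A.trace|) ^ 2) 4 fun x => ?_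
  rw [Real.norm_eq_abs, abs_pow]
  calc _ ≤ ((∑ i, ∑ j, |A i j| + |A.trace|) * (1 + ∑ j, |x j|) ^ 2) ^ 2 :=
        pow_le_pow_left₀ (abs_nonneg _) (quad_bound A x) 2
    _ = _ := by ring

/-- `E |∑ xᵢ Aᵢⱼ xⱼ - tr A|² ≤ 2 ∑ |Aᵢⱼ|²`, any complex `A` -/
theorem quad_complex (A : Matrix ι ι ℂ) :
    ∫ x, ‖∑ i, ∑ j, (x i : ℂ) * A i j * (x j : ℂ) - A.trace‖ ^ 2 ∂(gv ι) ≤
      2 * ∑ i, ∑ j, ‖A i j‖ ^ 2 := by
  set R : Matrix ι ι ℝ := Matrix.of fun i j => (A i j).re with hR
  set I : Matrix ι ι ℝ := Matrix.of fun i j => (A i j).im with hI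
  have e1 : ∀ x : ι → ℝ, ‖∑ i, ∑ j, (x i : ℂ) * A i j * (x j : ℂ) - A.trace‖ ^ 2 =
      (∑ i, ∑ j, x i * R i j * x j - R.trace) ^ 2 +
        (∑ i, ∑ j, x i * I i j * x j - I.trace) ^ 2 := by
    intro x
    rw [← Complex.normSq_eq_norm_sq, Complex.normSq_apply]
    have h1 : (∑ i, ∑ j, (x i : ℂ) * A i j * (x j : ℂ) - A.trace).re =
        ∑ i, ∑ j, x i * R i j * x j - R.trace := by
      simp only [Complex.sub_re, Complex.re_sum, Matrix.trace, Matrix.diag, hR, Matrix.of_apply,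
        Complex.re_mul_ofReal, Complex.re_ofReal_mul]
    have h2 : (∑ i, ∑ j, (x i : ℂ) * A i j * (x j : ℂ) - A.trace).im =
        ∑ i, ∑ j, x i * I i j * x j - I.trace := by
      simp only [Complex.sub_im, Complex.im_sum, Matrix.trace, Matrix.diag, hI, Matrix.of_apply,
        Complex.im_mul_ofReal, Complex.im_ofReal_mul]
    rw [h1, h2]; ring
  simp only [e1]
  rw [integral_add (integrable_quad_sq R) (integrable_quad_sq I)]
  have h1 := quad_real R
  have h2 := quad_real I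
  have e2 : ∑ i, ∑ j, ‖A i j‖ ^ 2 = ∑ i, ∑ j, R i j ^ 2 + ∑ i, ∑ j, I i j ^ 2 := by
    rw [← Finset.sum_add_distrib]
    refine Finset.sum_congr rfl fun i _ => ?_
    rw [← Finset.sum_add_distrib]
    refine Finset.sum_congr rfl fun j _ => ?_
    rw [← Complex.normSq_eq_norm_sq, Complex.normSq_apply]
    simp only [hR, hI, Matrix.of_apply]; ring
  rw [e2]; linarith

/-! ### Bilinear forms -/

lemma int_lin_sq_complex (v : ι → ℂ) :
    ∫ x, ‖∑ i, (x i : ℂ) * v i‖ ^ 2 ∂(gv ι) = ∑ i, ‖v i‖ ^ 2 := by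
  have e1 : ∀ x : ι → ℝ, ‖∑ i, (x i : ℂ) * v i‖ ^ 2 =
      (∑ i, (v i).re * x i) ^ 2 + (∑ i, (v i).im * x i) ^ 2 := by
    intro x
    rw [← Complex.normSq_eq_norm_sq, Complex.normSq_apply]
    simp only [Complex.re_sum, Complex.im_sum, Complex.re_ofReal_mul, Complex.im_ofReal_mul]
    simp only [mul_comm (x _)]
    ring
  have hint : ∀ a : ι → ℝ, Integrable (fun x : ι → ℝ => (∑ i, a i * x i) ^ 2) (gv ι) := by
    intro a
    refine integrable_gv (Measurable.pow_const (Finset.measurable_sum _ fun i _ =>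
      (measurable_pi_apply i).const_mul _) 2).aestronglyMeasurable ((∑ i, |a i|) ^ 2) 2 fun x => ?_
    rw [Real.norm_eq_abs, abs_pow, ← mul_pow]
    refine pow_le_pow_left₀ (abs_nonneg _) ?_ 2
    refine (Finset.abs_sum_le_sum_abs _ _).trans ?_
    rw [Finset.sum_mul]
    refine Finset.sum_le_sum fun i _ => ?_
    rw [abs_mul]
    gcongr
    exact abs_le_base x i
  simp only [e1]
  rw [integral_add (hint _) (hint _), lin_sq, lin_sq, ← Finset.sum_add_distrib]
  refine Finset.sum_congr rfl fun i _ => ?_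
  rw [← Complex.normSq_eq_norm_sq, Complex.normSq_apply]; ring

/-- `E |∑ xᵢ Aᵢⱼ yⱼ|² = ∑ |Aᵢⱼ|²` for independent `x, y`, iterated form -/
theorem bilin_iter (A : Matrix ι κ ℂ) :
    ∫ y, ∫ x, ‖∑ i, ∑ j, (x i : ℂ) * A i j * (y j : ℂ)‖ ^ 2 ∂(gv ι) ∂(gv κ) =
      ∑ i, ∑ j, ‖A i j‖ ^ 2 := by
  have e1 : ∀ (y : κ → ℝ), ∫ x, ‖∑ i, ∑ j, (x i : ℂ) * A i j * (y j : ℂ)‖ ^ 2 ∂(gv ι) =
      ∑ i, ‖∑ j, (y j : ℂ) * A i j‖ ^ 2 := by
    intro y
    rw [← int_lin_sq_complex]
    refine integral_congr_ae (Filter.Eventually.of_forall fun x => ?_)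
    simp only [Finset.mul_sum]
    congr 2
    exact Finset.sum_congr rfl fun i _ => Finset.sum_congr rfl fun j _ => by ring
  simp only [e1]
  rw [integral_finsetSum]
  · exact Finset.sum_congr rfl fun i _ => int_lin_sq_complex _
  · intro i _
    refine integrable_gv ?_ ((∑ j, ‖A i j‖) ^ 2) 2 fun y => ?_
    · exact (Measurable.pow_const (Measurable.norm (Finset.measurable_sum _ fun j _ =>
        (Complex.measurable_ofReal.comp (measurable_pi_apply j)).mul_const _)) 2).aestronglyMeasurable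
    · rw [norm_pow, norm_norm, ← mul_pow]
      refine pow_le_pow_left₀ (norm_nonneg _) ?_ 2
      refine (norm_sum_le _ _).trans ?_
      rw [Finset.sum_mul]
      refine Finset.sum_le_sum fun j _ => ?_
      rw [norm_mul, Complex.norm_real, Real.norm_eq_abs, mul_comm]
      gcongr
      exact abs_le_base y j

/-! ### Lower tail -/

lemma int_exp_neg_sq {s : ℝ} (hs : 0 ≤ s) :
    ∫ x, Real.exp (-s * x ^ 2) ∂(gaussianReal 0 1) = (Real.sqrt (1 + 2 * s))⁻¹ := by
  rw [integral_gaussianReal_eq_integral_smul (by norm_num)]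
  have e1 : ∀ x : ℝ, gaussianPDFReal 0 1 x • Real.exp (-s * x ^ 2) =
      (Real.sqrt (2 * Real.pi))⁻¹ * Real.exp (-(1 / 2 + s) * x ^ 2) := by
    intro x
    rw [gaussianPDFReal]
    simp only [NNReal.coe_one, mul_one, sub_zero, smul_eq_mul]
    rw [mul_assoc, ← Real.exp_add]
    congr 2
    ring
  simp only [e1]
  rw [integral_const_mul, integral_gaussian, ← Real.sqrt_inv, ← Real.sqrt_mul (by positivity),
    ← Real.sqrt_inv]
  congr 1
  have := Real.pi_pos
  field_simp

lemma inv_sqrt_le {u : ℝ} (h0 : 0 ≤ u) (h1 : u ≤ 1) :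
    (Real.sqrt (1 + u))⁻¹ ≤ Real.exp (-(u / 4)) := by
  have h2 : Real.exp (u / 2) ≤ 1 + u := by
    have h := Real.exp_bound' (x := u / 2) (by linarith) (by linarith) (n := 2) (by norm_num)
    simp only [Finset.sum_range_succ, Finset.sum_range_zero] at h
    norm_num at h
    nlinarith
  rw [Real.exp_neg]
  apply inv_anti₀ (Real.exp_pos _)
  apply Real.le_sqrt_of_sq_le
  rw [← Real.exp_nat_mul]
  refine le_trans (le_of_eq ?_) h2
  congr 1
  push_cast; ring

lemma int_exp_neg_quad {a : ι → ℝ} {b t : ℝ} (ha : ∀ i, 0 ≤ a i) (hab : ∀ i, a i ≤ b)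
    (ht : 0 ≤ t) (htb : 2 * t * b ≤ 1) :
    ∫ x, Real.exp (-(t * ∑ i, a i * x i ^ 2)) ∂(gv ι) ≤ Real.exp (-(t / 2 * ∑ i, a i)) := by
  have e1 : ∀ x : ι → ℝ, Real.exp (-(t * ∑ i, a i * x i ^ 2)) =
      ∏ i, Real.exp (-(t * a i) * x i ^ 2) := by
    intro x
    rw [← Real.exp_sum, Finset.mul_sum, ← Finset.sum_neg_distrib]
    congr 1
    exact Finset.sum_congr rfl fun i _ => by ring
  simp only [e1]
  rw [integral_fintype_prod_eq_prod (fun i x => Real.exp (-(t * a i) * x ^ 2))]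
  have e2 : Real.exp (-(t / 2 * ∑ i, a i)) = ∏ i, Real.exp (-(2 * (t * a i) / 4)) := by
    rw [← Real.exp_sum, Finset.mul_sum, ← Finset.sum_neg_distrib]
    congr 1
    exact Finset.sum_congr rfl fun i _ => by ring
  rw [e2]
  refine Finset.prod_le_prod (fun i _ => integral_nonneg fun x => (Real.exp_pos _).le) fun i _ => ?_
  have h0 : 0 ≤ t * a i := mul_nonneg ht (ha i)
  rw [int_exp_neg_sq h0]
  refine inv_sqrt_le (by linarith) ?_
  have : t * a i ≤ t * b := mul_le_mul_of_nonneg_left (hab i) ht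
  linarith

/-- lower tail, diagonal form -/
theorem lower_tail_diag {a : ι → ℝ} {b : ℝ} (hb : 0 < b) (ha : ∀ i, 0 ≤ a i)
    (hab : ∀ i, a i ≤ b) :
    (gv ι).real {x | ∑ i, a i * x i ^ 2 ≤ (∑ i, a i) / 4} ≤ Real.exp (-((∑ i, a i) / (8 * b))) := by
  set S := ∑ i, a i with hS
  set t : ℝ := 1 / (2 * b) with ht
  have ht0 : 0 < t := by positivity
  have hint : Integrable (fun x : ι → ℝ => Real.exp (-(t * ∑ i, a i * x i ^ 2))) (gv ι) := by
    refine (integrable_const (1 : ℝ)).mono' ?_ (Filter.Eventually.of_forall fun x => ?_)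
    · exact (Real.measurable_exp.comp ((Finset.measurable_sum _ fun i _ =>
        ((measurable_pi_apply i).pow_const 2).const_mul _).const_mul t).neg).aestronglyMeasurable
    · rw [Real.norm_eq_abs, abs_of_pos (Real.exp_pos _)]
      apply Real.exp_le_one_iff.mpr
      have : 0 ≤ ∑ i, a i * x i ^ 2 := Finset.sum_nonneg fun i _ => mul_nonneg (ha i) (sq_nonneg _)
      have := mul_nonneg ht0.le this
      linarith
  have hmk := mul_meas_ge_le_integral_of_nonneg (μ := gv ι)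
    (Filter.Eventually.of_forall fun x => (Real.exp_pos _).le) hint (Real.exp (-(t * (S / 4))))
  have hset : {x : ι → ℝ | ∑ i, a i * x i ^ 2 ≤ S / 4} =
      {x | Real.exp (-(t * (S / 4))) ≤ Real.exp (-(t * ∑ i, a i * x i ^ 2))} := by
    ext x
    simp only [Set.mem_ofPred_eq, Real.exp_le_exp, neg_le_neg_iff]
    exact (mul_le_mul_iff_right₀ ht0).symm
  rw [← hset] at hmk
  have h2 := int_exp_neg_quad (b := b) ha hab ht0.le (by rw [ht]; field_simp; norm_num)
  have h3 : Real.exp (-(t * (S / 4))) * (gv ι).real {x : ι → ℝ | ∑ i, a i * x i ^ 2 ≤ S / 4} ≤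
      Real.exp (-(t / 2 * S)) := hmk.trans h2
  have h4 : Real.exp (-(S / (8 * b))) = Real.exp (t * (S / 4)) * Real.exp (-(t / 2 * S)) := by
    rw [← Real.exp_add]
    congr 1
    rw [ht]; field_simp; ring
  rw [h4]
  calc (gv ι).real {x : ι → ℝ | ∑ i, a i * x i ^ 2 ≤ S / 4}
      = Real.exp (t * (S / 4)) * (Real.exp (-(t * (S / 4))) *
        (gv ι).real {x : ι → ℝ | ∑ i, a i * x i ^ 2 ≤ S / 4}) := by
        rw [← mul_assoc, ← Real.exp_add]; simp
    _ ≤ _ := by gcongr

/-- lower tail for a positive semidefinite matrix with operator norm `≤ b` -/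
theorem lower_tail {B : Matrix ι ι ℝ} (hB : B.PosSemidef) {b : ℝ} (hb : 0 < b)
    (hle : ∀ x : ι → ℝ, x ⬝ᵥ B *ᵥ x ≤ b * (x ⬝ᵥ x)) :
    (gv ι).real {x | x ⬝ᵥ B *ᵥ x ≤ B.trace / 4} ≤ Real.exp (-(B.trace / (8 * b))) := by
  classical
  obtain ⟨O, h1, h2, h3⟩ := exists_diag hB.1
  have ha : ∀ i, 0 ≤ hB.1.eigenvalues i := fun i => hB.eigenvalues_nonneg i
  set a := hB.1.eigenvalues
  clear_value a
  subst h3
  have hab : ∀ i, a i ≤ b := by
    intro i
    have h := hle (Oᵀ *ᵥ (Pi.single i 1))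
    rw [quad_eq, Matrix.mulVec_mulVec, h1, Matrix.one_mulVec] at h
    have e1 : ∑ j, a j * (Pi.single i (1 : ℝ) : ι → ℝ) j ^ 2 = a i := by
      rw [Finset.sum_eq_single i]
      · simp
      · intro j _ hj; simp [hj]
      · intro h; exact absurd (Finset.mem_univ i) h
    have e2 : (Oᵀ *ᵥ (Pi.single i (1 : ℝ))) ⬝ᵥ (Oᵀ *ᵥ (Pi.single i (1 : ℝ))) = 1 := by
      rw [Matrix.dotProduct_mulVec, Matrix.vecMul_transpose, Matrix.mulVec_mulVec, h1,
        Matrix.one_mulVec]
      simp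
    rw [e1, e2, mul_one] at h
    exact h
  have hset : {x : ι → ℝ | x ⬝ᵥ (Oᵀ * diagonal a * O) *ᵥ x ≤ (Oᵀ * diagonal a * O).trace / 4} =
      (fun x => O *ᵥ x) ⁻¹' {x | ∑ i, a i * x i ^ 2 ≤ (∑ i, a i) / 4} := by
    ext x
    simp only [Set.mem_ofPred_eq, Set.mem_preimage, quad_eq, trace_eq h1]
  have hmeas : MeasurableSet {x : ι → ℝ | ∑ i, a i * x i ^ 2 ≤ (∑ i, a i) / 4} :=
    measurableSet_le (Finset.measurable_sum _ fun i _ =>
      ((measurable_pi_apply i).pow_const 2).const_mul _) measurable_const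
  rw [hset, trace_eq h1, ← map_measureReal_apply (measurable_mulVec O) hmeas, gv_map_mulVec O h1]
  exact lower_tail_diag hb ha hab

/-! ### Columns of Gaussian matrices -/

lemma measurable_col (k : κ) : Measurable fun (g : ι → κ → ℝ) (i : ι) => g i k :=
  measurable_pi_lambda _ fun i => measurable_entry i k

/-- a column of a Gaussian matrix is a Gaussian vector -/
theorem gm_map_col (k : κ) : (gm ι κ).map (fun g i => g i k) = gv ι := by
  rw [← gm_map_transpose (ι := κ) (κ := ι), Measure.map_map (measurable_col k) (by fun_prop)]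
  have : ((fun (g : ι → κ → ℝ) (i : ι) => g i k) ∘ fun (g : κ → ι → ℝ) k i => g i k) =
    fun g => g k := rfl
  rw [this]
  exact (measurePreserving_eval (fun _ : κ => gv ι) k).map_eq

/-- two different columns are independent -/
theorem gm_map_col2 {k l : κ} (hkl : k ≠ l) :
    (gm ι κ).map (fun g => (fun i => g i k, fun i => g i l)) = (gv ι).prod (gv ι) := by
  have hind := (iIndepFun_pi (μ := fun _ : κ => gv ι) (X := fun _ x => x)
    (fun _ => aemeasurable_id)).indepFun hkl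
  have h := hind.map_prod_eq_prod_map_map (measurable_pi_apply k).aemeasurable
    (measurable_pi_apply l).aemeasurable
  have e1 : (Measure.pi fun _ : κ => gv ι).map (fun g => g k) = gv ι :=
    (measurePreserving_eval (fun _ : κ => gv ι) k).map_eq
  have e2 : (Measure.pi fun _ : κ => gv ι).map (fun g => g l) = gv ι :=
    (measurePreserving_eval (fun _ : κ => gv ι) l).map_eq
  rw [e1, e2] at h
  rw [← gm_map_transpose (ι := κ) (κ := ι), Measure.map_map
    ((measurable_col k).prodMk (measurable_col l)) (by fun_prop)]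
  exact h

/-- `E |(gᵀ A g)_{kk} - tr A|² ≤ 2 ‖A‖²` -/
theorem gm_quad (A : Matrix ι ι ℂ) (k : κ) :
    ∫ g, ‖∑ i, ∑ j, (g i k : ℂ) * A i j * (g j k : ℂ) - A.trace‖ ^ 2 ∂(gm ι κ) ≤
      2 * ∑ i, ∑ j, ‖A i j‖ ^ 2 := by
  have h := quad_complex A
  rw [← gm_map_col (ι := ι) k, integral_map (measurable_col k).aemeasurable] at h
  · exact h
  · refine Measurable.aestronglyMeasurable (Measurable.pow_const (Measurable.norm
      (Measurable.sub_const ?_ _)) 2)
    exact Finset.measurable_sum _ fun i _ => Finset.measurable_sum _ fun j _ =>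
      ((Complex.measurable_ofReal.comp (measurable_pi_apply i)).mul_const _).mul
        (Complex.measurable_ofReal.comp (measurable_pi_apply j))

lemma measurable_bilin (A : Matrix ι κ ℂ) : Measurable fun p : (ι → ℝ) × (κ → ℝ) =>
    ∑ i, ∑ j, (p.1 i : ℂ) * A i j * (p.2 j : ℂ) :=
  Finset.measurable_sum _ fun i _ => Finset.measurable_sum _ fun j _ =>
    ((Complex.measurable_ofReal.comp ((measurable_pi_apply i).comp measurable_fst)).mul_const
      (A i j)).mul (Complex.measurable_ofReal.comp ((measurable_pi_apply j).comp measurable_snd))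

lemma integrable_base_pow (k : ℕ) :
    Integrable (fun x : ι → ℝ => (1 + ∑ i, |x i|) ^ k) (gv ι) := by
  refine integrable_gv (Measurable.pow_const (measurable_const.add
    (Finset.measurable_sum _ fun i _ => (measurable_pi_apply i).abs)) k).aestronglyMeasurable 1 k
    fun x => ?_
  have := one_le_base x
  rw [Real.norm_eq_abs, abs_of_nonneg (by positivity), one_mul]

lemma integrable_bilin (A : Matrix ι κ ℂ) : Integrable (fun p : (ι → ℝ) × (κ → ℝ) =>
    ‖∑ i, ∑ j, (p.1 i : ℂ) * A i j * (p.2 j : ℂ)‖ ^ 2) ((gv ι).prod (gv κ)) := by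
  have h := (integrable_base_pow (ι := ι) 2).mul_prod (integrable_base_pow (ι := κ) 2)
  refine (h.const_mul ((∑ i, ∑ j, ‖A i j‖) ^ 2)).mono'
    ((measurable_bilin A).norm.pow_const 2).aestronglyMeasurable
    (Filter.Eventually.of_forall fun p => ?_)
  rw [norm_pow, norm_norm, ← mul_pow, ← mul_pow]
  refine pow_le_pow_left₀ (norm_nonneg _) ?_ 2
  refine (norm_sum_le _ _).trans ?_
  rw [Finset.sum_mul]
  refine Finset.sum_le_sum fun i _ => (norm_sum_le _ _).trans ?_
  rw [Finset.sum_mul]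
  refine Finset.sum_le_sum fun j _ => ?_
  rw [norm_mul, norm_mul, Complex.norm_real, Complex.norm_real, Real.norm_eq_abs,
    Real.norm_eq_abs]
  calc |p.1 i| * ‖A i j‖ * |p.2 j| ≤ (1 + ∑ i, |p.1 i|) * ‖A i j‖ * (1 + ∑ j, |p.2 j|) := by
        gcongr
        · exact abs_le_base p.1 i
        · exact abs_le_base p.2 j
    _ = _ := by ring

/-- `E |(gᵀ A g)_{kl}|² = ‖A‖²`, `k ≠ l` -/
theorem gm_bilin (A : Matrix ι ι ℂ) {k l : κ} (hkl : k ≠ l) :
    ∫ g, ‖∑ i, ∑ j, (g i k : ℂ) * A i j * (g j l : ℂ)‖ ^ 2 ∂(gm ι κ) =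
      ∑ i, ∑ j, ‖A i j‖ ^ 2 := by
  rw [← bilin_iter A]
  have h2 := integral_map (μ := gm ι κ) (φ := fun g => (fun i => g i k, fun i => g i l))
    (f := fun p : (ι → ℝ) × (ι → ℝ) => ‖∑ i, ∑ j, (p.1 i : ℂ) * A i j * (p.2 j : ℂ)‖ ^ 2)
    ((measurable_col k).prodMk (measurable_col l)).aemeasurable
    ((measurable_bilin A).norm.pow_const 2).aestronglyMeasurable
  rw [gm_map_col2 hkl, integral_prod_symm _ (integrable_bilin A)] at h2
  exact h2.symm

end Crest.Agent.R166.Gauss286
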