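import Crest.Agent.R166.Asm_423
import Crest.Agent.R166.GaussQ_286
import Crest.Agent.R166.CayDet_93

/-!
Row 166, section 81: assembly, part 1 (helper423): tightness of the centring.
-/

set_option autoImplicit false

namespace Crest.Agent.R166.Asm423

open MeasureTheory ProbabilityTheory Crest.ProbabilityR.RandomMatrix Crest.Agent.R166
open Crest.Agent.R166.Meas423 Crest.Agent.R166.Gauss286

/-! ### The functional -/

/-- continuous functional detecting large entries of `C` through `U = Cay C` -/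
noncomputable def clampT (T : ℝ) (U : Matrix (Fin 4) (Fin 4) ℂ) : ℝ :=
  max 0 (min 1 (2 - ‖(1 - U).det‖ * T / 16))

theorem clampT_continuous (T : ℝ) : Continuous (clampT T) := by
  unfold clampT
  have h1 : Continuous fun U : Matrix (Fin 4) (Fin 4) ℂ => (1 - U).det :=
    (continuous_const.sub continuous_id).matrix_det
  exact continuous_const.max (continuous_const.min
    (continuous_const.sub ((h1.norm.mul continuous_const).div_const _)))

theorem clampT_nonneg (T : ℝ) (U : Matrix (Fin 4) (Fin 4) ℂ) : 0 ≤ clampT T U := le_max_left _ _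

theorem clampT_le_one (T : ℝ) (U : Matrix (Fin 4) (Fin 4) ℂ) : clampT T U ≤ 1 :=
  max_le zero_le_one (min_le_left _ _)

/-- `C + i` -/
noncomputable abbrev cpI (C : Matrix (Fin 4) (Fin 4) ℝ) : Matrix (Fin 4) (Fin 4) ℂ :=
  C.map (fun x : ℝ => (x : ℂ)) + Complex.I • (1 : Matrix (Fin 4) (Fin 4) ℂ)

theorem det_one_sub_Cay {C : Matrix (Fin 4) (Fin 4) ℝ} (hC : C.transpose = C) :
    (1 - Cay C).det = 16 / (cpI C).det := by
  have hu := CayDet93.isUnit_add_I C hC
  have hdet : (cpI C).det ≠ 0 := by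
    have := (Matrix.isUnit_iff_isUnit_det _).1 hu
    exact this.ne_zero
  have h1 : 1 - Cay C = (2 * Complex.I) • (cpI C)⁻¹ := by
    have h2 : (cpI C) * (cpI C)⁻¹ = 1 := Matrix.mul_nonsing_inv _ (isUnit_iff_ne_zero.2 hdet)
    unfold Cay
    calc 1 - (C.map (fun x : ℝ => (x : ℂ)) - Complex.I • (1 : Matrix (Fin 4) (Fin 4) ℂ)) *
          (cpI C)⁻¹
        = (cpI C) * (cpI C)⁻¹ - (C.map (fun x : ℝ => (x : ℂ)) -
          Complex.I • (1 : Matrix (Fin 4) (Fin 4) ℂ)) * (cpI C)⁻¹ := by rw [h2]
      _ = ((2 * Complex.I) • (1 : Matrix (Fin 4) (Fin 4) ℂ)) * (cpI C)⁻¹ := by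
          rw [← Matrix.sub_mul]
          congr 1
          rw [cpI, mul_smul, two_smul]
          abel
      _ = _ := by rw [Matrix.smul_mul, Matrix.one_mul]
  rw [h1, Matrix.det_smul, Matrix.det_nonsing_inv, Ring.inverse_eq_inv', Fintype.card_fin]
  have h3 : (2 * Complex.I) ^ 4 = 16 := by
    rw [mul_pow, Complex.I_pow_four]; norm_num
  rw [h3, div_eq_mul_inv]

theorem norm_det_ge {C : Matrix (Fin 4) (Fin 4) ℝ} (hC : C.IsHermitian) (k : Fin 4) :
    |C k k| ≤ ‖(cpI C).det‖ := by
  obtain ⟨O, h1, h2, h3⟩ := exists_diag hC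
  set a := hC.eigenvalues with ha
  -- the determinant
  have hdet : (cpI C).det = ∏ i, ((a i : ℂ) + Complex.I) := by
    set Q : Matrix (Fin 4) (Fin 4) ℂ := O.map (fun x : ℝ => (x : ℂ)) with hQ
    have hQ2 : Q.transpose * Q = 1 := by
      have h4 : CayDet93.cx (O.transpose * O) = CayDet93.cx 1 := by rw [h2]
      rw [CayDet93.cx_mul, CayDet93.cx_one, CayDet93.cx_transpose] at h4
      exact h4
    have hD : (Matrix.diagonal a).map (fun x : ℝ => (x : ℂ)) =
        Matrix.diagonal (fun i => (a i : ℂ)) := by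
      rw [Matrix.diagonal_map (by simp)]
    have e1 : cpI C = Q.transpose * (Matrix.diagonal (fun i => (a i : ℂ) + Complex.I)) * Q := by
      have e2 : Matrix.diagonal (fun i => (a i : ℂ) + Complex.I) =
          Matrix.diagonal (fun i => (a i : ℂ)) + Complex.I • (1 : Matrix (Fin 4) (Fin 4) ℂ) := by
        rw [← Matrix.diagonal_one, ← Matrix.diagonal_smul, Matrix.diagonal_add]
        congr 1
        ext i
        simp
      rw [e2, Matrix.mul_add, Matrix.add_mul, Matrix.mul_smul, Matrix.smul_mul, Matrix.mul_one,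
        hQ2, cpI]
      congr 1
      have h5 : CayDet93.cx C = CayDet93.cx (O.transpose * Matrix.diagonal a * O) :=
        congrArg CayDet93.cx h3
      rw [CayDet93.cx_mul, CayDet93.cx_mul, CayDet93.cx_transpose] at h5
      rw [← hD]
      exact h5
    have hdQ : Q.transpose.det * Q.det = 1 := by
      rw [← Matrix.det_mul, hQ2, Matrix.det_one]
    rw [e1, Matrix.det_mul, Matrix.det_mul, Matrix.det_diagonal]
    calc Q.transpose.det * (∏ i, ((a i : ℂ) + Complex.I)) * Q.det
        = (Q.transpose.det * Q.det) * ∏ i, ((a i : ℂ) + Complex.I) := by ring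
      _ = _ := by rw [hdQ, one_mul]
  have hge1 : ∀ i, 1 ≤ ‖(a i : ℂ) + Complex.I‖ := by
    intro i
    have := Complex.abs_im_le_norm ((a i : ℂ) + Complex.I)
    simpa using this
  have hgea : ∀ i, |a i| ≤ ‖(a i : ℂ) + Complex.I‖ := by
    intro i
    have := Complex.abs_re_le_norm ((a i : ℂ) + Complex.I)
    simpa using this
  have hle : ∀ j, |a j| ≤ ‖(cpI C).det‖ := by
    intro j
    rw [hdet, norm_prod, ← Finset.mul_prod_erase _ _ (Finset.mem_univ j)]
    refine (hgea j).trans (le_mul_of_one_le_right (norm_nonneg _) ?_)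
    calc (1 : ℝ) = ∏ i ∈ Finset.univ.erase j, (1 : ℝ) := by simp
      _ ≤ _ := Finset.prod_le_prod (fun _ _ => zero_le_one) fun i _ => hge1 i
  -- the diagonal entry
  have hent : C k k = ∑ i, a i * (O i k) ^ 2 := by
    have := congrFun (congrFun h3 k) k
    rw [this, Matrix.mul_apply]
    simp only [Matrix.transpose_apply, Matrix.mul_diagonal]
    exact Finset.sum_congr rfl fun i _ => by ring
  have hone : ∑ i, (O i k) ^ 2 = 1 := by
    have := congrFun (congrFun h2 k) k
    simp only [Matrix.mul_apply, Matrix.transpose_apply, Matrix.one_apply_eq] at this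
    rw [← this]
    exact Finset.sum_congr rfl fun i _ => by ring
  rw [hent]
  calc |∑ i, a i * (O i k) ^ 2| ≤ ∑ i, |a i * (O i k) ^ 2| := Finset.abs_sum_le_sum_abs _ _
    _ ≤ ∑ i, ‖(cpI C).det‖ * (O i k) ^ 2 := by
        refine Finset.sum_le_sum fun i _ => ?_
        rw [abs_mul, abs_of_nonneg (sq_nonneg (O i k))]
        exact mul_le_mul_of_nonneg_right (hle i) (sq_nonneg _)
    _ = ‖(cpI C).det‖ := by rw [← Finset.mul_sum, hone, mul_one]

theorem norm_det_le {C : Matrix (Fin 4) (Fin 4) ℝ} {B : ℝ} (h : ∀ k l, |C k l| ≤ B) :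
    ‖(cpI C).det‖ ≤ 24 * (B + 1) ^ 4 := by
  have hent : ∀ k l, ‖cpI C k l‖ ≤ B + 1 := by
    intro k l
    rw [cpI, Matrix.add_apply, Matrix.map_apply, Matrix.smul_apply, smul_eq_mul]
    refine (norm_add_le _ _).trans (add_le_add ?_ ?_)
    · rw [Complex.norm_real]; exact h k l
    · rw [norm_mul, Complex.norm_I, one_mul, Matrix.one_apply]
      split_ifs <;> simp
  rw [Matrix.det_apply]
  refine (norm_sum_le _ _).trans ?_
  have h1 : ∀ σ : Equiv.Perm (Fin 4), ‖Equiv.Perm.sign σ • ∏ i, cpI C (σ i) i‖ ≤ (B + 1) ^ 4 := by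
    intro σ
    have h2 : ‖Equiv.Perm.sign σ • ∏ i, cpI C (σ i) i‖ = ‖∏ i, cpI C (σ i) i‖ := by
      rcases Int.units_eq_one_or (Equiv.Perm.sign σ) with h | h <;> rw [h] <;> simp
    rw [h2, norm_prod]
    calc ∏ i, ‖cpI C (σ i) i‖ ≤ ∏ _i : Fin 4, (B + 1) :=
          Finset.prod_le_prod (fun i _ => norm_nonneg _) fun i _ => hent _ _
      _ = (B + 1) ^ 4 := by simp
  refine (Finset.sum_le_sum fun σ _ => h1 σ).trans ?_
  rw [Finset.sum_const, nsmul_eq_mul, Finset.card_univ, Fintype.card_perm, Fintype.card_fin]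
  norm_num [Nat.factorial]

theorem clampT_eq {C : Matrix (Fin 4) (Fin 4) ℝ} (hC : C.transpose = C) (T : ℝ) :
    clampT T (Cay C) = max 0 (min 1 (2 - T / ‖(cpI C).det‖)) := by
  unfold clampT
  rw [det_one_sub_Cay hC, norm_div]
  have : ‖(16 : ℂ)‖ = 16 := by simp
  rw [this]
  congr 3
  ring

/-- a large diagonal entry saturates the functional -/
theorem clampT_eq_one {C : Matrix (Fin 4) (Fin 4) ℝ} (hC : C.transpose = C) {T : ℝ} (hT : 0 < T)
    (k : Fin 4) (h : T ≤ |C k k|) : clampT T (Cay C) = 1 := by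
  rw [clampT_eq hC]
  have h1 : T ≤ ‖(cpI C).det‖ := h.trans (norm_det_ge (isHermitian_of_transpose hC) k)
  have h2 : T / ‖(cpI C).det‖ ≤ 1 := (div_le_one (lt_of_lt_of_le hT h1)).2 h1
  rw [min_eq_left (by linarith), max_eq_right zero_le_one]

/-- bounded entries: the functional vanishes -/
theorem clampT_eq_zero {C : Matrix (Fin 4) (Fin 4) ℝ} (hC : C.transpose = C) {T B : ℝ}
    (hB : 48 * (B + 1) ^ 4 ≤ T) (h : ∀ k l, |C k l| ≤ B) :
    clampT T (Cay C) = 0 := by
  rw [clampT_eq hC]
  have h1 := norm_det_le h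
  have hpos : 0 < ‖(cpI C).det‖ := by
    rw [norm_pos_iff]
    exact ((Matrix.isUnit_iff_isUnit_det _).1 (CayDet93.isUnit_add_I C hC)).ne_zero
  have h2 : 2 ≤ T / ‖(cpI C).det‖ := by
    rw [le_div_iff₀ hpos]
    linarith
  rw [min_eq_right (by linarith), max_eq_left (by linarith)]

/-! ### Polarisation: entries of the `4 × 4` array through one-dimensional arrays -/

/-- unit vectors: `e_k` and `(e_k + e_l)/√2` -/
noncomputable def uv (k l : Fin 4) : Fin 4 → ℝ := fun j =>
  if k = l then (if j = k then 1 else 0)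
  else ((if j = k then 1 else 0) + (if j = l then 1 else 0)) / Real.sqrt 2

theorem uv_sq (k l : Fin 4) : ∑ j, uv k l j ^ 2 = 1 := by
  unfold uv
  by_cases h : k = l
  · simp [h]
  · simp only [h, if_false, div_pow, Real.sq_sqrt (by norm_num : (0 : ℝ) ≤ 2)]
    rw [← Finset.sum_div]
    have : ∀ j : Fin 4, ((if j = k then (1 : ℝ) else 0) + (if j = l then (1 : ℝ) else 0)) ^ 2 =
        (if j = k then (1 : ℝ) else 0) + (if j = l then (1 : ℝ) else 0) := by
      intro j
      by_cases h1 : j = k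
      · have h2 : ¬ j = l := fun h3 => h (h1.symm.trans h3)
        simp [h1, h]
      · by_cases h2 : j = l <;> simp [h1, h2]
        simp [Ne.symm h]
    simp only [this, Finset.sum_add_distrib, Finset.sum_ite_eq', Finset.mem_univ, if_true]
    norm_num

/-- quadratic form of a symmetric matrix along `uv k l` -/
noncomputable def qv (C : Matrix (Fin 4) (Fin 4) ℝ) (k l : Fin 4) : ℝ :=
  ∑ i, ∑ j, uv k l i * C i j * uv k l j

theorem qv_self (C : Matrix (Fin 4) (Fin 4) ℝ) (k : Fin 4) : qv C k k = C k k := by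
  unfold qv uv
  simp

theorem qv_ne {C : Matrix (Fin 4) (Fin 4) ℝ} (hC : C.transpose = C) {k l : Fin 4} (h : k ≠ l) :
    qv C k l = (C k k + C l l) / 2 + C k l := by
  have hs : C l k = C k l := congrFun (congrFun hC k) l
  have h2 : Real.sqrt 2 * Real.sqrt 2 = 2 := Real.mul_self_sqrt (by norm_num)
  have h3 : ∀ i j, uv k l i * C i j * uv k l j = (((if i = k then 1 else 0) +
      (if i = l then 1 else 0)) * C i j * ((if j = k then 1 else 0) +
      (if j = l then 1 else 0))) / 2 := by
    intro i j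
    unfold uv
    simp only [h, if_false]
    rw [div_mul_eq_mul_div, div_mul_div_comm, h2]
  unfold qv
  simp only [h3, ← Finset.sum_div, add_mul, mul_add, ite_mul, mul_ite, one_mul, mul_one, zero_mul,
    mul_zero, Finset.sum_add_distrib, Finset.sum_ite_eq', Finset.mem_univ, if_true]
  rw [hs]
  ring

theorem entry_le {C : Matrix (Fin 4) (Fin 4) ℝ} (hC : C.transpose = C) {B : ℝ}
    (h : ∀ k l, |qv C k l| ≤ B / 2) (k l : Fin 4) : |C k l| ≤ B := by
  have hB : 0 ≤ B := by linarith [(abs_nonneg _).trans (h k l)]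
  by_cases hkl : k = l
  · subst hkl
    have := h k k
    rw [qv_self] at this
    linarith
  · have e1 := abs_le.1 (h k k)
    have e2 := abs_le.1 (h l l)
    have e3 := abs_le.1 (h k l)
    rw [qv_self] at e1 e2
    rw [qv_ne hC hkl] at e3
    refine abs_le.2 ⟨?_, ?_⟩ <;> linarith [e1.1, e1.2, e2.1, e2.2, e3.1, e3.2]

/-- the one-dimensional test vector `g · uv k l` -/
noncomputable def gw {n : ℕ} (k l : Fin 4) (g : Fin n → Fin 4 → ℝ) : Fin n → Fin 1 → ℝ :=
  fun i _ => ∑ j, g i j * uv k l j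

theorem measurable_gw {n : ℕ} (k l : Fin 4) : Measurable (gw (n := n) k l) := by
  unfold gw
  exact measurable_pi_lambda _ fun i => measurable_pi_lambda _ fun _ =>
    Finset.measurable_sum _ fun j _ =>
      ((measurable_pi_apply j).comp (measurable_pi_apply i)).mul_const _

theorem gaussM_map_gw {n : ℕ} (k l : Fin 4) : (gaussM n 4).map (gw k l) = gaussM n 1 := by
  have h := gm_map_right (ι := Fin n) (κ := Fin 4) (κ' := Fin 1)
    (Matrix.of fun j _ => uv k l j) (by
      ext a b
      simp only [Matrix.mul_apply, Matrix.transpose_apply, Matrix.of_apply]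
      rw [Subsingleton.elim a b, Matrix.one_apply_eq, ← uv_sq k l]
      exact Finset.sum_congr rfl fun j _ => by ring)
  exact h

theorem testArr_gw {n : ℕ} (H : Matrix (Fin n) (Fin n) ℝ) (e : ℝ) (g : Fin n → Fin 4 → ℝ)
    (k l : Fin 4) : testArr H e (gw k l g) 0 0 = qv (testArr H e g) k l := by
  unfold testArr qv
  have h : Matrix.of (gw k l g) = Matrix.of g * (Matrix.of fun j (_ : Fin 1) => uv k l j) := by
    ext i a
    simp only [gw, Matrix.of_apply, Matrix.mul_apply]
  set R := (H - e • (1 : Matrix (Fin n) (Fin n) ℝ))⁻¹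
  set W : Matrix (Fin 4) (Fin 1) ℝ := Matrix.of fun j (_ : Fin 1) => uv k l j with hW
  have h2 : (Matrix.of (gw k l g)).transpose * R * Matrix.of (gw k l g) =
      W.transpose * ((Matrix.of g).transpose * R * Matrix.of g) * W := by
    rw [h, Matrix.transpose_mul]
    simp only [Matrix.mul_assoc]
  rw [h2]
  set A := (Matrix.of g).transpose * R * Matrix.of g
  simp only [Matrix.smul_apply, smul_eq_mul]
  rw [Matrix.mul_apply, Finset.mul_sum, Finset.sum_comm]
  refine Finset.sum_congr rfl fun j _ => ?_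
  rw [Matrix.mul_apply, Finset.sum_mul, Finset.mul_sum]
  refine Finset.sum_congr rfl fun i _ => ?_
  simp only [hW, Matrix.transpose_apply, Matrix.of_apply]
  ring

theorem qv_sub_smul (C : Matrix (Fin 4) (Fin 4) ℝ) (a : ℝ) (k l : Fin 4) :
    qv (C - a • (1 : Matrix (Fin 4) (Fin 4) ℝ)) k l = qv C k l - a := by
  unfold qv
  have h1 : ∀ i j, uv k l i * (C - a • (1 : Matrix (Fin 4) (Fin 4) ℝ)) i j * uv k l j =
      uv k l i * C i j * uv k l j - (if i = j then a * uv k l j ^ 2 else 0) := by
    intro i j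
    simp only [Matrix.sub_apply, Matrix.smul_apply, Matrix.one_apply, smul_eq_mul]
    by_cases h : i = j
    · subst h; simp; ring
    · simp [h]
  simp only [h1, Finset.sum_sub_distrib]
  congr 1
  simp only [Finset.sum_ite_eq, Finset.mem_univ, if_true, ← Finset.mul_sum, uv_sq, mul_one]

theorem qv_smul (C : Matrix (Fin 4) (Fin 4) ℝ) (a : ℝ) (k l : Fin 4) :
    qv (a • C) k l = a * qv C k l := by
  unfold qv
  simp only [Matrix.smul_apply, smul_eq_mul, Finset.mul_sum]
  exact Finset.sum_congr rfl fun i _ => Finset.sum_congr rfl fun j _ => by ring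

/-! ### One-dimensional tails -/

section Tail

variable {n : ℕ}

/-- the bad set of the one-dimensional array -/
def tset (H : Matrix (Fin n) (Fin n) ℝ) (E a T x : ℝ) : Set (Fin n → Fin 1 → ℝ) :=
  {g | T < |testArr H (E + x / n) g 0 0 - a|}

theorem measurable_testArr1 (H : Matrix (Fin n) (Fin n) ℝ) (E : ℝ) :
    Measurable fun q : ℝ × (Fin n → Fin 1 → ℝ) => testArr H (E + q.1 / n) q.2 0 0 := by
  refine EM_testArr (EM.const H) (measurable_const.add (measurable_fst.div_const _))
    (fun i k => ?_) 0 0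
  exact (measurable_pi_apply k).comp ((measurable_pi_apply i).comp measurable_snd)

theorem measurableSet_tset_prod (H : Matrix (Fin n) (Fin n) ℝ) (E a T : ℝ) :
    MeasurableSet {q : ℝ × (Fin n → Fin 1 → ℝ) | q.2 ∈ tset H E a T q.1} := by
  have h1 : Measurable fun q : ℝ × (Fin n → Fin 1 → ℝ) =>
      |testArr H (E + q.1 / n) q.2 0 0 - a| := by
    have := (measurable_testArr1 H E).sub_const a
    exact measurable_norm.comp this
  exact measurableSet_lt measurable_const h1

theorem measurableSet_tset (H : Matrix (Fin n) (Fin n) ℝ) (E a T x : ℝ) :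
    MeasurableSet (tset H E a T x) :=
  measurable_prodMk_left (x := x) (measurableSet_tset_prod H E a T)

theorem measurable_tail (H : Matrix (Fin n) (Fin n) ℝ) (E a T : ℝ) :
    Measurable fun x : ℝ => ((gaussM n 1) (tset H E a T x)).toReal :=
  (measurable_measure_prodMk_left (measurableSet_tset_prod H E a T)).ennreal_toReal

theorem intervalIntegrable_tail (H : Matrix (Fin n) (Fin n) ℝ) (E a T u v : ℝ) :
    IntervalIntegrable (fun x : ℝ => ((gaussM n 1) (tset H E a T x)).toReal) volume u v := by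
  rw [intervalIntegrable_iff]
  refine Measure.integrableOn_of_bounded (M := 1) (by simp)
    (measurable_tail H E a T).aestronglyMeasurable ?_
  refine Filter.Eventually.of_forall fun x => ?_
  rw [Real.norm_eq_abs, abs_of_nonneg ENNReal.toReal_nonneg]
  exact measureReal_le_one

theorem real_gw (H : Matrix (Fin n) (Fin n) ℝ) (E a T x : ℝ) (k l : Fin 4) :
    (gaussM n 4).real (gw k l ⁻¹' tset H E a T x) = ((gaussM n 1) (tset H E a T x)).toReal := by
  rw [Measure.real, ← gaussM_map_gw k l, Measure.map_apply (measurable_gw k l)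
    (measurableSet_tset H E a T x)]

/-- upper bound of the test value of `clampT` -/
theorem testVal_upper {H : Matrix (Fin n) (Fin n) ℝ} (hH : H.IsHermitian) {E ρ K δ T TO a B : ℝ}
    (hρ : 0 < ρ) (hδ : 0 < δ) (ha : |(mn H (zz E K n)).re - a| ≤ 2)
    (hB : TO + 2 ≤ Real.pi * ρ * (B / 2)) (hT : 48 * (B + 1) ^ 4 ≤ T) :
    TestVal H E ρ K δ 4 (clampT T) ≤
      16 * (δ⁻¹ * ∫ x in (0 : ℝ)..δ, ((gaussM n 1) (tset H E a TO x)).toReal) := by
  have hpr : 0 < Real.pi * ρ := mul_pos Real.pi_pos hρ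
  have hpt : ∀ (x : ℝ) (g : Fin n → Fin 4 → ℝ), clampT T (uOf H E ρ K x g) ≤
      ∑ k, ∑ l, (gw k l ⁻¹' tset H E a TO x).indicator (fun _ => (1 : ℝ)) g := by
    intro x g
    have hnn : ∀ k l, 0 ≤ (gw k l ⁻¹' tset H E a TO x).indicator (fun _ => (1 : ℝ)) g :=
      fun k l => Set.indicator_nonneg (fun _ _ => zero_le_one) _
    by_cases hall : ∀ k l, g ∉ gw k l ⁻¹' tset H E a TO x
    · rw [uOf_eq, clampT_eq_zero (B := B) ?_ hT ?_]
      · exact Finset.sum_nonneg fun k _ => Finset.sum_nonneg fun l _ => hnn k l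
      · have := cArr_hermitian hH E ρ K x g
        rwa [Matrix.IsHermitian, Matrix.conjTranspose_eq_transpose_of_trivial] at this
      · have hsym : (cArr H E ρ K x g).transpose = cArr H E ρ K x g := by
          have := cArr_hermitian hH E ρ K x g
          rwa [Matrix.IsHermitian, Matrix.conjTranspose_eq_transpose_of_trivial] at this
        refine entry_le hsym fun k l => ?_
        have h1 := hall k l
        simp only [Set.mem_preimage, tset, Set.mem_ofPred_eq, not_lt, testArr_gw] at h1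
        rw [cArr, qv_smul, qv_sub_smul, abs_mul, abs_of_pos (one_div_pos.2 hpr)]
        have h2 : |qv (testArr H (E + x / n) g) k l - (mn H (zz E K n)).re| ≤ TO + 2 := by
          have e1 := abs_le.1 h1
          have e2 := abs_le.1 ha
          refine abs_le.2 ⟨?_, ?_⟩ <;> linarith [e1.1, e1.2, e2.1, e2.2]
        rw [one_div, inv_mul_le_iff₀ hpr]
        exact h2.trans hB
    · push Not at hall
      obtain ⟨k, l, hkl⟩ := hall
      refine (clampT_le_one _ _).trans ?_
      have h1 : (1 : ℝ) = (gw k l ⁻¹' tset H E a TO x).indicator (fun _ => (1 : ℝ)) g := by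
        rw [Set.indicator_of_mem hkl]
      refine h1.le.trans ?_
      refine (Finset.single_le_sum (fun l _ => hnn k l) (Finset.mem_univ l)).trans ?_
      exact Finset.single_le_sum (f := fun k => ∑ l, (gw k l ⁻¹' tset H E a TO x).indicator
        (fun _ => (1 : ℝ)) g) (fun k _ => Finset.sum_nonneg fun l _ => hnn k l)
        (Finset.mem_univ k)
  have hint : ∀ (k l : Fin 4) (x : ℝ), Integrable
      ((gw k l ⁻¹' tset H E a TO x).indicator (fun _ => (1 : ℝ))) (gaussM n 4) := fun k l x =>
    (integrable_const (1 : ℝ)).indicator ((measurable_gw k l) (measurableSet_tset H E a TO x))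
  have hin : ∀ x : ℝ, ∫ g, clampT T (uOf H E ρ K x g) ∂gaussM n 4 ≤
      16 * ((gaussM n 1) (tset H E a TO x)).toReal := by
    intro x
    calc ∫ g, clampT T (uOf H E ρ K x g) ∂gaussM n 4
        ≤ ∫ g, (∑ k, ∑ l, (gw k l ⁻¹' tset H E a TO x).indicator (fun _ => (1 : ℝ)) g)
            ∂gaussM n 4 := by
          refine integral_mono (integrable_g H E ρ K x (clampT_continuous T) (B := 1) fun g => ?_)
            (integrable_finsetSum _ fun k _ => integrable_finsetSum _ fun l _ => hint k l x)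
            (hpt x)
          rw [abs_of_nonneg (clampT_nonneg _ _)]
          exact clampT_le_one _ _
      _ = ∑ k : Fin 4, ∑ l : Fin 4, ((gaussM n 1) (tset H E a TO x)).toReal := by
          rw [integral_finsetSum _ fun k _ => integrable_finsetSum _ fun l _ => hint k l x]
          refine Finset.sum_congr rfl fun k _ => ?_
          rw [integral_finsetSum _ fun l _ => hint k l x]
          refine Finset.sum_congr rfl fun l _ => ?_
          rw [integral_indicator ((measurable_gw k l) (measurableSet_tset H E a TO x)),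
            ← real_gw H E a TO x k l]
          simp
      _ = _ := by
          simp only [Finset.sum_const, Finset.card_univ, Fintype.card_fin, nsmul_eq_mul]
          push_cast
          ring
  unfold TestVal
  have h3 : ∫ x in (0 : ℝ)..δ, ∫ g, clampT T (uOf H E ρ K x g) ∂gaussM n 4 ≤
      ∫ x in (0 : ℝ)..δ, 16 * ((gaussM n 1) (tset H E a TO x)).toReal :=
    intervalIntegral.integral_mono_on hδ.le
      (intervalIntegrable_inner (clampT_continuous T) (fun _ _ => clampT_nonneg _ _)
        (fun _ _ => clampT_le_one _ _) 0 δ)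
      ((intervalIntegrable_tail H E a TO 0 δ).const_mul 16) fun x _ => hin x
  rw [intervalIntegral.integral_const_mul] at h3
  calc δ⁻¹ * _ ≤ δ⁻¹ * (16 * _) := mul_le_mul_of_nonneg_left h3 (inv_nonneg.2 hδ.le)
    _ = _ := by ring

/-- lower bound of the test value of `clampT` when the centrings differ much -/
theorem testVal_lower {H : Matrix (Fin n) (Fin n) ℝ} (hH : H.IsHermitian) {E ρ K δ T T1 a : ℝ}
    (hρ : 0 < ρ) (hδ : 0 < δ) (hT : 0 < T)
    (hgap : T1 + Real.pi * ρ * T < |(mn H (zz E K n)).re - a|) :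
    1 - δ⁻¹ * ∫ x in (0 : ℝ)..δ, ((gaussM n 1) (tset H E a T1 x)).toReal ≤
      TestVal H E ρ K δ 4 (clampT T) := by
  have hpr : 0 < Real.pi * ρ := mul_pos Real.pi_pos hρ
  have hpt : ∀ (x : ℝ) (g : Fin n → Fin 4 → ℝ), 1 ≤ clampT T (uOf H E ρ K x g) +
      (gw 0 0 ⁻¹' tset H E a T1 x).indicator (fun _ => (1 : ℝ)) g := by
    intro x g
    by_cases hg : g ∈ gw 0 0 ⁻¹' tset H E a T1 x
    · rw [Set.indicator_of_mem hg]
      linarith [clampT_nonneg T (uOf H E ρ K x g)]
    · rw [Set.indicator_of_notMem hg, add_zero, uOf_eq, clampT_eq_one _ hT 0]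
      · simp only [Set.mem_preimage, tset, Set.mem_ofPred_eq, not_lt, testArr_gw, qv_self] at hg
        have h1 : cArr H E ρ K x g 0 0 = (1 / (Real.pi * ρ)) *
            (testArr H (E + x / n) g 0 0 - (mn H (zz E K n)).re) := by
          simp [cArr]
        rw [h1, abs_mul, abs_of_pos (one_div_pos.2 hpr), one_div, le_inv_mul_iff₀ hpr]
        have h2 : |(mn H (zz E K n)).re - a| ≤
            |testArr H (E + x / n) g 0 0 - (mn H (zz E K n)).re| +
              |testArr H (E + x / n) g 0 0 - a| := by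
          have := abs_sub_le (mn H (zz E K n)).re (testArr H (E + x / n) g 0 0) a
          rwa [abs_sub_comm (mn H (zz E K n)).re (testArr H (E + x / n) g 0 0)] at this
        linarith
      · have := cArr_hermitian hH E ρ K x g
        rwa [Matrix.IsHermitian, Matrix.conjTranspose_eq_transpose_of_trivial] at this
  have hint : ∀ x : ℝ, Integrable
      ((gw 0 0 ⁻¹' tset H E a T1 x).indicator (fun _ => (1 : ℝ))) (gaussM n 4) := fun x =>
    (integrable_const (1 : ℝ)).indicator ((measurable_gw 0 0) (measurableSet_tset H E a T1 x))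
  have hig : ∀ x : ℝ, Integrable (fun g => clampT T (uOf H E ρ K x g)) (gaussM n 4) := fun x =>
    integrable_g H E ρ K x (clampT_continuous T) (B := 1) fun g => by
      rw [abs_of_nonneg (clampT_nonneg _ _)]
      exact clampT_le_one _ _
  have hin : ∀ x : ℝ, 1 ≤ ∫ g, clampT T (uOf H E ρ K x g) ∂gaussM n 4 +
      ((gaussM n 1) (tset H E a T1 x)).toReal := by
    intro x
    have h1 : ∫ g, (1 : ℝ) ∂gaussM n 4 ≤ ∫ g, (clampT T (uOf H E ρ K x g) +
        (gw 0 0 ⁻¹' tset H E a T1 x).indicator (fun _ => (1 : ℝ)) g) ∂gaussM n 4 :=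
      integral_mono (integrable_const _) ((hig x).add (hint x)) (hpt x)
    rw [integral_add (hig x) (hint x),
      integral_indicator ((measurable_gw 0 0) (measurableSet_tset H E a T1 x))] at h1
    rw [← real_gw H E a T1 x 0 0]
    simpa using h1
  have hI1 : IntervalIntegrable (fun x => ∫ g, clampT T (uOf H E ρ K x g) ∂gaussM n 4)
      volume 0 δ := intervalIntegrable_inner (clampT_continuous T) (fun _ _ => clampT_nonneg _ _)
        (fun _ _ => clampT_le_one _ _) 0 δ
  have h3 : ∫ x in (0 : ℝ)..δ, (1 : ℝ) ≤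
      ∫ x in (0 : ℝ)..δ, (∫ g, clampT T (uOf H E ρ K x g) ∂gaussM n 4 +
        ((gaussM n 1) (tset H E a T1 x)).toReal) :=
    intervalIntegral.integral_mono_on hδ.le (by simp)
      (hI1.add (intervalIntegrable_tail H E a T1 0 δ)) fun x _ => hin x
  rw [intervalIntegral.integral_add hI1 (intervalIntegrable_tail H E a T1 0 δ),
    intervalIntegral.integral_const, sub_zero, smul_eq_mul, mul_one] at h3
  have h4 := mul_le_mul_of_nonneg_left h3 (inv_nonneg.2 hδ.le)
  rw [inv_mul_cancel₀ hδ.ne', mul_add] at h4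
  unfold TestVal
  linarith

end Tail

/-! ### Tightness of the difference of the centrings -/

/-- (81) assembly, part 1 -/
theorem asm1 {d : ℕ} {s E ρ : ℝ} (hρ : 0 < ρ) (hIm : ImLim d s E ρ) (hImO : ImLimO)
    (hTT : TightTest) (hC : CompareGO d s E ρ) : TightRe d s E := by
  intro ε hε
  set e : ℝ := min (ε / 64) (1 / 4) with he
  have hepos : 0 < e := lt_min (by positivity) (by norm_num)
  have he4 : e ≤ 1 / 4 := min_le_right _ _
  have heε : e ≤ ε / 64 := min_le_left _ _
  obtain ⟨Ka, hKa, hIa⟩ := hIm e hepos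
  obtain ⟨Kb, hKb, hIb⟩ := hImO e hepos
  -- GOE side
  obtain ⟨TO, hTO⟩ := hTT 2 Kb 1 e hKb one_pos hepos
  set B : ℝ := 2 * (|TO| + 2) with hBdef
  have hB0 : 0 ≤ B := by positivity
  set T : ℝ := 48 * (B + 1) ^ 4 with hTdef
  have hTpos : 0 < T := by positivity
  obtain ⟨Kc, hKc, hCo⟩ := hC 4 le_rfl (clampT T) (clampT_continuous T) 1 one_pos e hepos
  refine ⟨Ka, fun L hL => ?_⟩
  have hLpos : 0 < L := lt_of_lt_of_le hKa hL
  obtain ⟨T1, hT1⟩ := hTT (Real.pi * ρ + 1) L 1 e hLpos one_pos hepos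
  refine ⟨T1 + Real.pi * ρ * T, max Kc Kb, fun K hK => ?_⟩
  have hKKc : Kc ≤ K := (le_max_left _ _).trans hK
  have hKKb : Kb ≤ K := (le_max_right _ _).trans hK
  obtain ⟨N1, hN1⟩ := hIa L hL
  obtain ⟨N2, hN2⟩ := hCo K hKKc
  obtain ⟨N3, hN3⟩ := hIb Kb le_rfl
  obtain ⟨N4, hN4⟩ := hIb K hKKb
  refine ⟨max (max N1 N2) (max (max N3 N4) 1), fun n hn hne => ?_⟩
  have hn1 : N1 ≤ n := by omega
  have hn2 : N2 ≤ n := by omega
  have hn3 : N3 ≤ n := by omega
  have hn4 : N4 ≤ n := by omega
  have hnpos : 0 < n := by omega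
  have hprob := law_prob hne
  have h01 : ∀ (H : Matrix (Fin n) (Fin n) ℝ) (E ρ K : ℝ),
      0 ≤ TestVal H E ρ K 1 4 (clampT T) ∧ TestVal H E ρ K 1 4 (clampT T) ≤ 1 := fun H E ρ K =>
    ⟨TestVal_nonneg zero_le_one fun _ _ => clampT_nonneg _ _,
      TestVal_le_one one_pos (clampT_continuous T) (fun _ _ => clampT_nonneg _ _)
        fun _ _ => clampT_le_one _ _⟩
  -- GOE expectation is small
  have hO : EO n (fun H => TestVal H 0 (1 / Real.pi) K 1 4 (clampT T)) ≤ 16 * e + (e + e) := by
    have hbad : (goeDisorderLaw n) ({g | e < ‖mn (goeMatrix g) (zz 0 Kb n) - Complex.I‖} ∪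
        {g | e < ‖mn (goeMatrix g) (zz 0 K n) - Complex.I‖}) ≤ ENNReal.ofReal (e + e) := by
      rw [ENNReal.ofReal_add hepos.le hepos.le]
      exact (measure_union_le _ _).trans (add_le_add (hN3 n hn3) (hN4 n hn4))
    have hcmp := abs_integral_sub_le (μ := goeDisorderLaw n)
      (A := fun g => max (TestVal (goeMatrix g) 0 (1 / Real.pi) K 1 4 (clampT T)) 0)
      (B := fun _ => (0 : ℝ)) (ε := 16 * e) (p := e + e) ?_ measurable_const
      (fun g => le_max_right _ _) (fun g => max_le (h01 _ _ _ _).2 zero_le_one)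
      (fun _ => le_rfl) (fun _ => zero_le_one) (by positivity) (by positivity) hbad ?_
    · have h1 : ∀ g : GOEDisorder n,
          max (TestVal (goeMatrix g) 0 (1 / Real.pi) K 1 4 (clampT T)) 0 =
            TestVal (goeMatrix g) 0 (1 / Real.pi) K 1 4 (clampT T) := fun g =>
        max_eq_left (h01 _ _ _ _).1
      simp only [h1, integral_zero, sub_zero] at hcmp
      exact (abs_le.1 hcmp).2
    · exact (measurable_TestVal (EM_goe n) 0 (1 / Real.pi) K zero_le_one
        (clampT_continuous T)).max measurable_const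
    · intro g hg
      simp only [Set.mem_union, Set.mem_ofPred_eq, not_or, not_lt] at hg
      obtain ⟨hg1, hg2⟩ := hg
      rw [sub_zero, abs_of_nonneg (le_max_right _ _), max_eq_left (h01 _ _ _ _).1]
      have hre (z : ℂ) (hz : ‖z - Complex.I‖ ≤ e) : |z.re| ≤ 1 := by
        have h1 := (Complex.abs_re_le_norm (z - Complex.I)).trans hz
        rw [Complex.sub_re, Complex.I_re, sub_zero] at h1
        linarith
      have him : (mn (goeMatrix g) (zz 0 Kb n)).im ≤ 2 := by
        have h1 := (Complex.abs_im_le_norm (mn (goeMatrix g) (zz 0 Kb n) - Complex.I)).trans hg1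
        rw [Complex.sub_im, Complex.I_im] at h1
        have h2 := (abs_le.1 h1).2
        linarith
      have ha : |(mn (goeMatrix g) (zz 0 K n)).re - (mn (goeMatrix g) (zz 0 Kb n)).re| ≤ 2 := by
        have e1 := abs_le.1 (hre _ hg1)
        have e2 := abs_le.1 (hre _ hg2)
        refine abs_le.2 ⟨?_, ?_⟩ <;> linarith [e1.1, e1.2, e2.1, e2.2]
      have hpi : Real.pi * (1 / Real.pi) = 1 := by
        rw [mul_one_div, div_self Real.pi_pos.ne']
      refine (testVal_upper (goe_isHermitian g) (by positivity) one_pos ha (TO := TO) (B := B)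
        ?_ le_rfl).trans ?_
      · rw [hpi, hBdef]
        linarith [le_abs_self TO]
      · exact mul_le_mul_of_nonneg_left
          (hTO 0 n hnpos (goeMatrix g) (goe_isHermitian g) him) (by norm_num)
  -- graph expectation is small
  have hcomp := hN2 n hn2 hne
  have hG : ∫ x, TestVal (Hm x.1 s x.2) E ρ K 1 4 (clampT T) ∂(law n d) ≤ 19 * e := by
    have hb : ∀ x : SimpleGraph (Fin n) × (Fin n → ℝ),
        |TestVal (Hm x.1 s x.2) E ρ K 1 4 (clampT T)| ≤ 1 := fun x => by
      rw [abs_of_nonneg (h01 _ _ _ _).1]; exact (h01 _ _ _ _).2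
    rw [EG_eq hne (Φ := fun H => TestVal H E ρ K 1 4 (clampT T))
      (measurable_TestVal (EM_Hm s) E ρ K zero_le_one (clampT_continuous T)) hb] at hcomp
    have := (abs_le.1 hcomp).2
    linarith
  -- Markov
  have hmeas : Measurable fun x : SimpleGraph (Fin n) × (Fin n → ℝ) =>
      TestVal (Hm x.1 s x.2) E ρ K 1 4 (clampT T) :=
    measurable_TestVal (EM_Hm s) E ρ K zero_le_one (clampT_continuous T)
  have hint : Integrable (fun x : SimpleGraph (Fin n) × (Fin n → ℝ) =>
      TestVal (Hm x.1 s x.2) E ρ K 1 4 (clampT T)) (law n d) :=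
    Integrable.of_bound hmeas.aestronglyMeasurable 1
      (Filter.Eventually.of_forall fun x => by
        rw [Real.norm_eq_abs, abs_of_nonneg (h01 _ _ _ _).1]; exact (h01 _ _ _ _).2)
  have hmk := mul_meas_ge_le_integral_of_nonneg (μ := law n d)
    (Filter.Eventually.of_forall fun x => (h01 (Hm x.1 s x.2) E ρ K).1) hint (1 / 2)
  have hmk2 : (law n d) {x | 1 / 2 ≤ TestVal (Hm x.1 s x.2) E ρ K 1 4 (clampT T)} ≤
      ENNReal.ofReal (38 * e) := by
    rw [← ENNReal.ofReal_toReal (measure_ne_top (law n d) _)]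
    refine ENNReal.ofReal_le_ofReal ?_
    change (law n d).real _ ≤ _
    linarith
  unfold Whp
  calc (law n d) {x | ¬ |(mn (Hm x.1 s x.2) (zz E K n)).re -
        (mn (Hm x.1 s x.2) (zz E L n)).re| ≤ T1 + Real.pi * ρ * T}
      ≤ (law n d) ({x | ¬ |(mn (Hm x.1 s x.2) (zz E L n)).im - Real.pi * ρ| ≤ e} ∪
        {x | 1 / 2 ≤ TestVal (Hm x.1 s x.2) E ρ K 1 4 (clampT T)}) := by
        refine measure_mono fun x hx => ?_
        simp only [Set.mem_ofPred_eq, not_le] at hx
        by_cases hx2 : |(mn (Hm x.1 s x.2) (zz E L n)).im - Real.pi * ρ| ≤ e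
        · refine Or.inr ?_
          simp only [Set.mem_ofPred_eq]
          have him : (mn (Hm x.1 s x.2) (zz E L n)).im ≤ Real.pi * ρ + 1 := by
            have := (abs_le.1 hx2).2
            linarith
          have h1 := testVal_lower (Hm_isHermitian x.1 s x.2) hρ one_pos hTpos hx
          have h2 := hT1 E n hnpos (Hm x.1 s x.2) (Hm_isHermitian x.1 s x.2) him
          have h3 : (1 : ℝ)⁻¹ * ∫ y in (0 : ℝ)..1, ((gaussM n 1) (tset (Hm x.1 s x.2) E
            (mn (Hm x.1 s x.2) (zz E L n)).re T1 y)).toReal ≤ e := h2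
          linarith
        · exact Or.inl hx2
    _ ≤ ENNReal.ofReal e + ENNReal.ofReal (38 * e) :=
        (measure_union_le _ _).trans (add_le_add (hN1 n hn1 hne) hmk2)
    _ = ENNReal.ofReal (39 * e) := by
        rw [← ENNReal.ofReal_add hepos.le (by positivity)]
        congr 1; ring
    _ ≤ ENNReal.ofReal ε := ENNReal.ofReal_le_ofReal (by linarith)

end Crest.Agent.R166.Asm423
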