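import Mathlib
import Crest.Agent.R166.PairCount_356

/-!
# R166, 40.4: a uniform pairing of `V × Fin d` is simple with polynomial probability (helper356)
-/

set_option autoImplicit false
set_option linter.unusedSectionVars false
set_option linter.unusedSimpArgs false

namespace Crest.Agent.R166.Simple356

open Finset Crest.Agent.R166.PairCount356

variable {V : Type*} [Fintype V] [DecidableEq V] {d : ℕ}

/-- simple pairings: no loops, no parallel pairs -/
def IsSimple (p : Equiv.Perm (V × Fin d)) : Prop :=
  (∀ h, (p h).1 ≠ h.1) ∧ ∀ h h', h.1 = h'.1 → (p h).1 = (p h').1 → h = h'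

/-- half-edges in a loop or in a multiple edge -/
def BadH (p : Equiv.Perm (V × Fin d)) (h : V × Fin d) : Prop :=
  (p h).1 = h.1 ∨ ∃ h', h' ≠ h ∧ h'.1 = h.1 ∧ (p h').1 = (p h).1

instance (p : Equiv.Perm (V × Fin d)) : DecidablePred (BadH p) := by
  intro h; unfold BadH; infer_instance

instance (p : Equiv.Perm (V × Fin d)) : Decidable (IsSimple p) := by
  unfold IsSimple; infer_instance

/-- number of bad half-edges -/
def nB (p : Equiv.Perm (V × Fin d)) : ℕ := (univ.filter (BadH p)).card

lemma nB_eq_zero (p : Equiv.Perm (V × Fin d)) : nB p = 0 ↔ IsSimple p := by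
  unfold nB IsSimple
  rw [Finset.card_eq_zero, Finset.filter_eq_empty_iff]
  constructor
  · intro h
    refine ⟨fun x hx => h (Finset.mem_univ x) (Or.inl hx), ?_⟩
    intro x y hxy hp
    by_contra hne
    exact h (Finset.mem_univ y) (Or.inr ⟨x, hne, hxy, hp⟩)
  · rintro ⟨h1, h2⟩ x _ (hx | ⟨y, hy1, hy2, hy3⟩)
    · exact h1 x hx
    · exact hy1 (h2 y x hy2 hy3)

/-- the simple pairings -/
def simples (V : Type*) [Fintype V] [DecidableEq V] (d : ℕ) : Finset (Equiv.Perm (V × Fin d)) :=
  (pairings (V × Fin d)).filter IsSimple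

/-! ### the switching -/

/-- switch by conjugation with one transposition -/
def sw (p : Equiv.Perm (V × Fin d)) (a b : V × Fin d) : Equiv.Perm (V × Fin d) :=
  Equiv.swap a b * p * Equiv.swap a b

lemma sw_sw (p : Equiv.Perm (V × Fin d)) (a b : V × Fin d) : sw (sw p a b) a b = p := by
  unfold sw
  ext x
  all_goals simp [Equiv.Perm.mul_apply]

lemma isPairing_sw {p : Equiv.Perm (V × Fin d)} (hp : IsPairing p) (a b : V × Fin d) :
    IsPairing (sw p a b) := by
  constructor
  · intro x
    simp [sw, Equiv.Perm.mul_apply, hp.1]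
  · intro x hx
    apply hp.2 (Equiv.swap a b x)
    have := congrArg (Equiv.swap a b) hx
    simpa [sw, Equiv.Perm.mul_apply] using this

/-- closed neighbourhood of two vertices in the multigraph of `p` -/
def nbh (p : Equiv.Perm (V × Fin d)) (x y : V) : Finset V :=
  insert x (insert y ((univ.image fun i : Fin d => (p (x, i)).1) ∪
    univ.image fun i : Fin d => (p (y, i)).1))

lemma card_nbh_le (p : Equiv.Perm (V × Fin d)) (x y : V) : (nbh p x y).card ≤ 2 * d + 2 := by
  unfold nbh
  refine le_trans (Finset.card_insert_le _ _) ?_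
  refine le_trans (Nat.succ_le_succ (Finset.card_insert_le _ _)) ?_
  have h1 := Finset.card_union_le (univ.image fun i : Fin d => (p (x, i)).1)
    (univ.image fun i : Fin d => (p (y, i)).1)
  have h2 : (univ.image fun i : Fin d => (p (x, i)).1).card ≤ d := by
    simpa using (Finset.card_image_le (s := (univ : Finset (Fin d)))
      (f := fun i : Fin d => (p (x, i)).1))
  have h3 : (univ.image fun i : Fin d => (p (y, i)).1).card ≤ d := by
    simpa using (Finset.card_image_le (s := (univ : Finset (Fin d)))
      (f := fun i : Fin d => (p (y, i)).1))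
  omega

lemma mem_nbh_left (p : Equiv.Perm (V × Fin d)) (x y : V) : x ∈ nbh p x y := by
  simp [nbh]

lemma mem_nbh_right (p : Equiv.Perm (V × Fin d)) (x y : V) : y ∈ nbh p x y := by
  simp [nbh]

lemma mem_nbh_of_left (p : Equiv.Perm (V × Fin d)) (x y : V) (h : V × Fin d) (hx : h.1 = x) :
    (p h).1 ∈ nbh p x y := by
  obtain ⟨v, i⟩ := h
  simp only at hx
  subst hx
  unfold nbh
  apply Finset.mem_insert_of_mem
  apply Finset.mem_insert_of_mem
  apply Finset.mem_union_left
  exact Finset.mem_image_of_mem (fun i : Fin d => (p (v, i)).1) (Finset.mem_univ i)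

lemma mem_nbh_of_right (p : Equiv.Perm (V × Fin d)) (x y : V) (h : V × Fin d) (hx : h.1 = y) :
    (p h).1 ∈ nbh p x y := by
  obtain ⟨v, i⟩ := h
  simp only at hx
  subst hx
  unfold nbh
  apply Finset.mem_insert_of_mem
  apply Finset.mem_insert_of_mem
  apply Finset.mem_union_right
  exact Finset.mem_image_of_mem (fun i : Fin d => (p (v, i)).1) (Finset.mem_univ i)

/-- The key step: a good switching removes the bad half-edge `h1` and creates none. -/
lemma nB_sw_lt {p : Equiv.Perm (V × Fin d)} (hp : IsPairing p) {h1 h3 : V × Fin d}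
    (hbad : BadH p h1)
    (ha : h3.1 ∉ nbh p h1.1 (p h1).1) (hb : (p h3).1 ∉ nbh p h1.1 (p h1).1)
    (hab : h3.1 ≠ (p h3).1) :
    nB (sw p (p h1) h3) < nB p := by
  set x := h1.1 with hx
  set y := (p h1).1 with hy
  set h2 := p h1 with hh2
  set h4 := p h3 with hh4
  set a := h3.1 with haa
  set b := h4.1 with hbb
  have p1 : p h1 = h2 := rfl
  have p2 : p h2 = h1 := hp.1 h1
  have p3 : p h3 = h4 := rfl
  have p4 : p h4 = h3 := hp.1 h3
  have xN : x ∈ nbh p x y := mem_nbh_left p x y
  have yN : y ∈ nbh p x y := mem_nbh_right p x y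
  have n12 : h1 ≠ h2 := fun h => hp.2 h1 h.symm
  have n34 : h3 ≠ h4 := fun h => hp.2 h3 h.symm
  have hax : a ≠ x := fun h => ha (h ▸ xN)
  have hay : a ≠ y := fun h => ha (h ▸ yN)
  have hbx : b ≠ x := fun h => hb (h ▸ xN)
  have hby : b ≠ y := fun h => hb (h ▸ yN)
  have n31 : h3 ≠ h1 := fun h => hax (by rw [haa, h])
  have n32 : h3 ≠ h2 := fun h => hay (by rw [haa, h])
  have n41 : h4 ≠ h1 := fun h => hbx (by rw [hbb, h])
  have n42 : h4 ≠ h2 := fun h => hby (by rw [hbb, h])
  set q := sw p h2 h3 with hq
  have hqp : IsPairing q := isPairing_sw hp _ _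
  have q1 : q h1 = h3 := by
    simp only [hq, sw, Equiv.Perm.mul_apply]
    rw [Equiv.swap_apply_of_ne_of_ne n12 n31.symm, p1, Equiv.swap_apply_left]
  have q3 : q h3 = h1 := by rw [← q1]; exact hqp.1 h1
  have q2 : q h2 = h4 := by
    simp only [hq, sw, Equiv.Perm.mul_apply]
    rw [Equiv.swap_apply_left, p3, Equiv.swap_apply_of_ne_of_ne n42 n34.symm]
  have q4 : q h4 = h2 := by rw [← q2]; exact hqp.1 h2
  have qo : ∀ h, h ≠ h1 → h ≠ h2 → h ≠ h3 → h ≠ h4 → q h = p h := by
    intro h e1 e2 e3 e4
    simp only [hq, sw, Equiv.Perm.mul_apply]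
    rw [Equiv.swap_apply_of_ne_of_ne e2 e3]
    apply Equiv.swap_apply_of_ne_of_ne
    · intro h5; apply e1; rw [← p2, ← h5, hp.1]
    · intro h5; apply e4; rw [← p3, ← h5, hp.1]
  -- a half-edge not among the four cannot join `x` with `a` etc.
  have nxa : ∀ h : V × Fin d, h.1 = x → (p h).1 ≠ a := fun h e1 e2 =>
    ha (e2 ▸ mem_nbh_of_left p x y h e1)
  have nxb : ∀ h : V × Fin d, h.1 = x → (p h).1 ≠ b := fun h e1 e2 =>
    hb (e2 ▸ mem_nbh_of_left p x y h e1)
  have nya : ∀ h : V × Fin d, h.1 = y → (p h).1 ≠ a := fun h e1 e2 =>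
    ha (e2 ▸ mem_nbh_of_right p x y h e1)
  have nyb : ∀ h : V × Fin d, h.1 = y → (p h).1 ≠ b := fun h e1 e2 =>
    hb (e2 ▸ mem_nbh_of_right p x y h e1)
  have nax : ∀ h : V × Fin d, h.1 = a → (p h).1 ≠ x := fun h e1 e2 =>
    nxa (p h) e2 (by rw [hp.1]; exact e1)
  have nby : ∀ h : V × Fin d, h.1 = b → (p h).1 ≠ y := fun h e1 e2 =>
    nyb (p h) e2 (by rw [hp.1]; exact e1)
  have g1 : ¬ BadH q h1 := by
    rintro (h | ⟨h, e1, e2, e3⟩)
    · rw [q1] at h; exact hax h
    · rw [q1] at e3
      by_cases c2 : h = h2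
      · subst c2; rw [q2] at e3; exact hab e3.symm
      by_cases c3 : h = h3
      · subst c3; exact hax e2
      by_cases c4 : h = h4
      · subst c4; exact hbx e2
      rw [qo h e1 c2 c3 c4] at e3
      exact nxa h e2 e3
  have g3 : ¬ BadH q h3 := by
    rintro (h | ⟨h, e1, e2, e3⟩)
    · rw [q3] at h; exact hax h.symm
    · rw [q3] at e3
      by_cases c1 : h = h1
      · subst c1; exact hax e2.symm
      by_cases c2 : h = h2
      · subst c2; exact hay e2.symm
      by_cases c4 : h = h4
      · subst c4; exact hab e2.symm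
      rw [qo h c1 c2 e1 c4] at e3
      exact nax h e2 e3
  have g2 : ¬ BadH q h2 := by
    rintro (h | ⟨h, e1, e2, e3⟩)
    · rw [q2] at h; exact hby h
    · rw [q2] at e3
      by_cases c1 : h = h1
      · subst c1; rw [q1] at e3; exact hab e3
      by_cases c3 : h = h3
      · subst c3; exact hay e2
      by_cases c4 : h = h4
      · subst c4; exact hby e2
      rw [qo h c1 e1 c3 c4] at e3
      exact nyb h e2 e3
  have g4 : ¬ BadH q h4 := by
    rintro (h | ⟨h, e1, e2, e3⟩)
    · rw [q4] at h; exact hby h.symm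
    · rw [q4] at e3
      by_cases c1 : h = h1
      · subst c1; exact hbx e2.symm
      by_cases c2 : h = h2
      · subst c2; exact hby e2.symm
      by_cases c3 : h = h3
      · subst c3; exact hab e2
      rw [qo h c1 c2 c3 e1] at e3
      exact nby h e2 e3
  apply Finset.card_lt_card
  rw [Finset.ssubset_iff_of_subset]
  · exact ⟨h1, by simpa using hbad, by simpa using g1⟩
  · intro h hh
    simp only [Finset.mem_filter, Finset.mem_univ, true_and] at hh ⊢
    have c1 : h ≠ h1 := fun e => g1 (e ▸ hh)
    have c2 : h ≠ h2 := fun e => g2 (e ▸ hh)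
    have c3 : h ≠ h3 := fun e => g3 (e ▸ hh)
    have c4 : h ≠ h4 := fun e => g4 (e ▸ hh)
    rcases hh with hh | ⟨k, e1, e2, e3⟩
    · left; rw [← qo h c1 c2 c3 c4]; exact hh
    · right
      rw [qo h c1 c2 c3 c4] at e3
      by_cases k1 : k = h1
      · subst k1; rw [q1] at e3; exact absurd e3.symm (nxa h e2.symm)
      by_cases k2 : k = h2
      · subst k2; rw [q2] at e3; exact absurd e3.symm (nyb h e2.symm)
      by_cases k3 : k = h3
      · subst k3; rw [q3] at e3; exact absurd e3.symm (nax h e2.symm)
      by_cases k4 : k = h4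
      · subst k4; rw [q4] at e3; exact absurd e3.symm (nby h e2.symm)
      rw [qo k k1 k2 k3 k4] at e3
      exact ⟨k, e1, e2, e3⟩

/-- existence of a good switching -/
lemma exists_sw {p : Equiv.Perm (V × Fin d)} (hp : IsPairing p) (hpos : 0 < nB p)
    (hN : 2 * ((2 * d + 2) * d) + nB p < Fintype.card V * d) :
    ∃ a b, nB (sw p a b) < nB p := by
  classical
  obtain ⟨h1, hh1⟩ := Finset.card_pos.1 hpos
  have hbad : BadH p h1 := by simpa using hh1
  set M := nbh p h1.1 (p h1).1 with hM
  have hMc : M.card ≤ 2 * d + 2 := card_nbh_le _ _ _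
  -- the three sets of forbidden `h3`
  set A1 : Finset (V × Fin d) := M ×ˢ univ with hA1
  set A2 : Finset (V × Fin d) := A1.image p with hA2
  set A3 : Finset (V × Fin d) := univ.filter (BadH p) with hA3
  have c1 : A1.card ≤ (2 * d + 2) * d := by
    rw [hA1, Finset.card_product, Finset.card_univ, Fintype.card_fin]
    exact Nat.mul_le_mul_right _ hMc
  have c2 : A2.card ≤ (2 * d + 2) * d := le_trans Finset.card_image_le c1
  have c3 : A3.card = nB p := rfl
  have hlt : (A1 ∪ (A2 ∪ A3)).card < (univ : Finset (V × Fin d)).card := by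
    have e1 := Finset.card_union_le A1 (A2 ∪ A3)
    have e2 := Finset.card_union_le A2 A3
    rw [Finset.card_univ, Fintype.card_prod, Fintype.card_fin]
    omega
  obtain ⟨h3, _, hh3⟩ := Finset.exists_mem_notMem_of_card_lt_card hlt
  simp only [Finset.mem_union, not_or] at hh3
  refine ⟨p h1, h3, nB_sw_lt hp hbad ?_ ?_ ?_⟩
  · intro h
    apply hh3.1
    rw [hA1, Finset.mem_product]
    exact ⟨h, Finset.mem_univ _⟩
  · intro h
    apply hh3.2.1
    rw [hA2, Finset.mem_image]
    refine ⟨p h3, ?_, hp.1 h3⟩
    rw [hA1, Finset.mem_product]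
    exact ⟨h, Finset.mem_univ _⟩
  · intro h
    apply hh3.2.2
    rw [hA3, Finset.mem_filter]
    exact ⟨Finset.mem_univ _, Or.inl h.symm⟩

/-- number of pairings with at most `J` bad half-edges, compared with the simple ones -/
lemma card_le_simples (J : ℕ) (hN : 2 * ((2 * d + 2) * d) + J < Fintype.card V * d) :
    ((pairings (V × Fin d)).filter fun p => nB p ≤ J).card ≤
      (1 + (Fintype.card V * d) ^ 2) ^ J * (simples V d).card := by
  classical
  induction J with
  | zero =>
    rw [pow_zero, one_mul]
    apply Finset.card_le_card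
    intro p hp
    rw [Finset.mem_filter] at hp
    rw [simples, Finset.mem_filter]
    exact ⟨hp.1, (nB_eq_zero p).1 (Nat.le_zero.1 hp.2)⟩
  | succ J ih =>
    have ih' := ih (by omega)
    set F := (pairings (V × Fin d)).filter (fun p => nB p ≤ J) with hF
    set G := (pairings (V × Fin d)).filter (fun p => nB p ≤ J + 1) with hG
    have hsub : G ⊆ F ∪ ((F ×ˢ (univ : Finset ((V × Fin d) × (V × Fin d)))).image
        fun t => sw t.1 t.2.1 t.2.2) := by
      intro p hp
      rw [hG, Finset.mem_filter, mem_pairings] at hp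
      rw [Finset.mem_union]
      by_cases h : nB p ≤ J
      · left; rw [hF, Finset.mem_filter, mem_pairings]; exact ⟨hp.1, h⟩
      · right
        have hb : nB p = J + 1 := by omega
        obtain ⟨a, b, hab⟩ := exists_sw hp.1 (by omega) (by rw [hb]; exact hN)
        rw [Finset.mem_image]
        refine ⟨(sw p a b, (a, b)), ?_, sw_sw p a b⟩
        rw [Finset.mem_product]
        refine ⟨?_, Finset.mem_univ _⟩
        rw [hF, Finset.mem_filter, mem_pairings]
        exact ⟨isPairing_sw hp.1 a b, by
          show nB (sw p a b) ≤ J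
          omega⟩
    have h1 : G.card ≤ F.card + F.card * (Fintype.card V * d) ^ 2 := by
      refine le_trans (Finset.card_le_card hsub) ?_
      refine le_trans (Finset.card_union_le _ _) ?_
      apply Nat.add_le_add_left
      refine le_trans Finset.card_image_le ?_
      rw [Finset.card_product, Finset.card_univ, Fintype.card_prod, Fintype.card_prod,
        Fintype.card_fin, sq]
    calc G.card ≤ F.card + F.card * (Fintype.card V * d) ^ 2 := h1
      _ = (1 + (Fintype.card V * d) ^ 2) * F.card := by ring
      _ ≤ (1 + (Fintype.card V * d) ^ 2) *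
          ((1 + (Fintype.card V * d) ^ 2) ^ J * (simples V d).card) :=
          Nat.mul_le_mul_left _ ih'
      _ = (1 + (Fintype.card V * d) ^ 2) ^ (J + 1) * (simples V d).card := by ring

/-! ### first moment of the number of bad half-edges -/

lemma card_loop_le (h : V × Fin d) :
    ((pairings (V × Fin d)).filter fun p => (p h).1 = h.1).card ≤
      d * np (Fintype.card V * d - 2) := by
  classical
  have hsub : ((pairings (V × Fin d)).filter fun p => (p h).1 = h.1) ⊆
      (univ : Finset (Fin d)).biUnion fun i =>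
        (pairings (V × Fin d)).filter fun p => p h = (h.1, i) := by
    intro p hp
    rw [Finset.mem_filter] at hp
    rw [Finset.mem_biUnion]
    exact ⟨(p h).2, Finset.mem_univ _, by
      rw [Finset.mem_filter]; exact ⟨hp.1, Prod.ext hp.2 rfl⟩⟩
  refine le_trans (Finset.card_le_card hsub) ?_
  refine le_trans Finset.card_biUnion_le ?_
  refine le_trans (Finset.sum_le_card_nsmul _ _ (np (Fintype.card V * d - 2)) ?_) ?_
  · intro i _
    by_cases hi : h = (h.1, i)
    · rw [Finset.card_eq_zero.2]
      · exact Nat.zero_le _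
      · rw [Finset.filter_eq_empty_iff]
        intro p hp e
        rw [mem_pairings] at hp
        exact hp.2 h (e.trans hi.symm)
    · rw [card_fix_pair h (h.1, i) hi, Fintype.card_prod, Fintype.card_fin]
  · simp

lemma card_par_le (h h' : V × Fin d) (hne : h' ≠ h) :
    ((pairings (V × Fin d)).filter fun p => (p h').1 = (p h).1).card ≤
      np (Fintype.card V * d - 2) + (Fintype.card V * d) * (d * np (Fintype.card V * d - 4)) := by
  classical
  have hcard : Fintype.card (V × Fin d) = Fintype.card V * d := by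
    rw [Fintype.card_prod, Fintype.card_fin]
  have hsub : ((pairings (V × Fin d)).filter fun p => (p h').1 = (p h).1) ⊆
      ((pairings (V × Fin d)).filter fun p => p h = h') ∪
      ((univ : Finset (V × Fin d)).biUnion fun k => (univ : Finset (Fin d)).biUnion fun i =>
        (pairings (V × Fin d)).filter fun p => (p h = k ∧ p h' = (k.1, i)) ∧ p h ≠ h') := by
    intro p hp
    rw [Finset.mem_filter] at hp
    rw [Finset.mem_union]
    by_cases e : p h = h'
    · left; rw [Finset.mem_filter]; exact ⟨hp.1, e⟩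
    · right
      rw [Finset.mem_biUnion]
      refine ⟨p h, Finset.mem_univ _, ?_⟩
      rw [Finset.mem_biUnion]
      refine ⟨(p h').2, Finset.mem_univ _, ?_⟩
      rw [Finset.mem_filter]
      exact ⟨hp.1, ⟨rfl, Prod.ext hp.2 rfl⟩, e⟩
  refine le_trans (Finset.card_le_card hsub) ?_
  refine le_trans (Finset.card_union_le _ _) ?_
  apply Nat.add_le_add
  · rw [card_fix_pair h h' hne.symm, hcard]
  · refine le_trans Finset.card_biUnion_le ?_
    refine le_trans (Finset.sum_le_card_nsmul _ _ (d * np (Fintype.card V * d - 4)) ?_) ?_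
    · intro k _
      refine le_trans Finset.card_biUnion_le ?_
      refine le_trans (Finset.sum_le_card_nsmul _ _ (np (Fintype.card V * d - 4)) ?_) ?_
      · intro i _
        by_cases hne2 : ((pairings (V × Fin d)).filter fun p =>
            (p h = k ∧ p h' = (k.1, i)) ∧ p h ≠ h').Nonempty
        · obtain ⟨p0, hp0⟩ := hne2
          rw [Finset.mem_filter, mem_pairings] at hp0
          obtain ⟨hP, ⟨e1, e2⟩, e3⟩ := hp0
          set k' : V × Fin d := (k.1, i) with hk'
          have f1 : h ≠ k := fun e => hP.2 h (e1.trans e.symm)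
          have f2 : h' ≠ k' := fun e => hP.2 h' (e2.trans e.symm)
          have f3 : k ≠ h' := fun e => e3 (e1.trans e)
          have f4 : k' ≠ h := by
            intro e
            apply e3
            rw [← hP.1 h']
            rw [e2, e]
          have f5 : k ≠ k' := by
            intro e
            apply hne
            apply p0.injective
            rw [e1, e2, e]
          have hD := card_contain_le (α := V × Fin d) ({(h, k), (k, h), (h', k'), (k', h')} :
            Finset ((V × Fin d) × (V × Fin d))) (by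
              intro x y hxy
              simp only [Finset.mem_insert, Finset.mem_singleton, Prod.mk.injEq] at hxy ⊢
              rcases hxy with ⟨rfl, rfl⟩ | ⟨rfl, rfl⟩ | ⟨rfl, rfl⟩ | ⟨rfl, rfl⟩ <;> simp)
          have hDc : ({(h, k), (k, h), (h', k'), (k', h')} :
            Finset ((V × Fin d) × (V × Fin d))).card = 4 := by
            rw [Finset.card_insert_of_notMem, Finset.card_insert_of_notMem,
              Finset.card_insert_of_notMem, Finset.card_singleton]
            · simp only [Finset.mem_singleton, Prod.mk.injEq, not_and]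
              exact fun e => absurd e f2
            · simp only [Finset.mem_insert, Finset.mem_singleton, Prod.mk.injEq, not_or, not_and]
              exact ⟨fun e => absurd e f3, fun e => absurd e f5⟩
            · simp only [Finset.mem_insert, Finset.mem_singleton, Prod.mk.injEq, not_or, not_and]
              exact ⟨fun e => absurd e f1, fun e => absurd e.symm hne, fun e => absurd e.symm f4⟩
          rw [hDc, hcard] at hD
          refine le_trans (Finset.card_le_card ?_) hD
          intro p hp
          rw [Finset.mem_filter, mem_pairings] at hp ⊢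
          refine ⟨hp.1, ?_⟩
          intro e he
          simp only [Finset.mem_insert, Finset.mem_singleton] at he
          obtain ⟨hP', ⟨e1', e2'⟩, _⟩ := hp
          rcases he with rfl | rfl | rfl | rfl
          · exact e1'
          · simp only; rw [← e1', hP'.1]
          · exact e2'
          · show p k' = h'
            rw [← e2', hP'.1]
        · rw [Finset.not_nonempty_iff_eq_empty] at hne2
          rw [hne2]; simp
      · simp
    · rw [Finset.card_univ, hcard, smul_eq_mul]

/-- first moment bound -/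
lemma sum_nB_le : ∑ p ∈ pairings (V × Fin d), nB p ≤
    (Fintype.card V * d) * (d * np (Fintype.card V * d - 2) +
      d * (np (Fintype.card V * d - 2) +
        (Fintype.card V * d) * (d * np (Fintype.card V * d - 4)))) := by
  classical
  have h0 : ∑ p ∈ pairings (V × Fin d), nB p =
      ∑ h : V × Fin d, ((pairings (V × Fin d)).filter fun p => BadH p h).card := by
    unfold nB
    simp only [Finset.card_filter]
    rw [Finset.sum_comm]
  rw [h0]
  have hcard : (univ : Finset (V × Fin d)).card = Fintype.card V * d := by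
    rw [Finset.card_univ, Fintype.card_prod, Fintype.card_fin]
  refine le_trans (Finset.sum_le_card_nsmul _ _ (d * np (Fintype.card V * d - 2) +
      d * (np (Fintype.card V * d - 2) +
        (Fintype.card V * d) * (d * np (Fintype.card V * d - 4)))) ?_) ?_
  · intro h _
    have hsub : ((pairings (V × Fin d)).filter fun p => BadH p h) ⊆
        ((pairings (V × Fin d)).filter fun p => (p h).1 = h.1) ∪
        ((univ : Finset (Fin d)).biUnion fun i =>
          (pairings (V × Fin d)).filter fun p => (h.1, i) ≠ h ∧ (p (h.1, i)).1 = (p h).1) := by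
      intro p hp
      rw [Finset.mem_filter] at hp
      rw [Finset.mem_union]
      rcases hp.2 with h1 | ⟨h', e1, e2, e3⟩
      · left; rw [Finset.mem_filter]; exact ⟨hp.1, h1⟩
      · right
        rw [Finset.mem_biUnion]
        have he : (h.1, h'.2) = h' := Prod.ext e2.symm rfl
        refine ⟨h'.2, Finset.mem_univ _, ?_⟩
        rw [Finset.mem_filter, he]
        exact ⟨hp.1, e1, e3⟩
    refine le_trans (Finset.card_le_card hsub) ?_
    refine le_trans (Finset.card_union_le _ _) ?_
    apply Nat.add_le_add (card_loop_le h)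
    refine le_trans Finset.card_biUnion_le ?_
    refine le_trans (Finset.sum_le_card_nsmul _ _ _ ?_) (le_of_eq (by
      rw [Finset.card_univ, Fintype.card_fin, smul_eq_mul]))
    intro i _
    by_cases hi : (h.1, i) = h
    · rw [Finset.card_eq_zero.2]
      · exact Nat.zero_le _
      · rw [Finset.filter_eq_empty_iff]
        rintro p _ ⟨h1, _⟩
        exact h1 hi
    · refine le_trans (Finset.card_le_card ?_) (card_par_le h (h.1, i) hi)
      intro p hp
      rw [Finset.mem_filter] at hp ⊢
      exact ⟨hp.1, hp.2.2⟩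
  · rw [hcard, smul_eq_mul]

/-- Main bound: `np N ≤ 2 (1+N²)^(14 d²) #simples`, `N = |V| d` even and large. -/
theorem np_le_simples (hd : 1 ≤ d)
    (hN : 2 * ((2 * d + 2) * d) + 14 * d ^ 2 + 6 ≤ Fintype.card V * d) :
    np (Fintype.card V * d) ≤
      2 * ((1 + (Fintype.card V * d) ^ 2) ^ (14 * d ^ 2) * (simples V d).card) := by
  classical
  set N := Fintype.card V * d with hNdef
  have hcard : (pairings (V × Fin d)).card = np N := by
    rw [card_pairings, Fintype.card_prod, Fintype.card_fin]
  -- recursion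
  have r1 : np N = (N - 1) * np (N - 2) := by
    have := np_add_two (N - 2)
    rwa [show N - 2 + 2 = N by omega, show N - 2 + 1 = N - 1 by omega] at this
  have r2 : np (N - 2) = (N - 3) * np (N - 4) := by
    have := np_add_two (N - 4)
    rwa [show N - 4 + 2 = N - 2 by omega, show N - 4 + 1 = N - 3 by omega] at this
  have hS : (∑ p ∈ pairings (V × Fin d), nB p : ℕ) ≤ 7 * d ^ 2 * np N := by
    refine le_trans sum_nB_le ?_
    rw [← hNdef]
    set A := np (N - 4) with hA
    obtain ⟨M, hM⟩ : ∃ M, N = M + 6 := ⟨N - 6, by omega⟩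
    have e1 : np (N - 2) = (M + 3) * A := by rw [r2, hM]; congr 1
    have e2 : np N = (M + 5) * ((M + 3) * A) := by rw [r1, e1, hM]; congr 1
    rw [e1, e2, hM]
    have hd2 : d ≤ d ^ 2 := by nlinarith
    have k1 : (M + 6) * (d * ((M + 3) * A)) ≤ 2 * d ^ 2 * ((M + 5) * ((M + 3) * A)) := by
      calc (M + 6) * (d * ((M + 3) * A)) = d * ((M + 6) * ((M + 3) * A)) := by ring
        _ ≤ d ^ 2 * ((2 * (M + 5)) * ((M + 3) * A)) := by
            apply Nat.mul_le_mul hd2
            apply Nat.mul_le_mul_right
            omega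
        _ = 2 * d ^ 2 * ((M + 5) * ((M + 3) * A)) := by ring
    have k2 : (M + 6) * (d * ((M + 6) * (d * A))) ≤ 3 * d ^ 2 * ((M + 5) * ((M + 3) * A)) := by
      calc (M + 6) * (d * ((M + 6) * (d * A))) = d ^ 2 * (((M + 6) * (M + 6)) * A) := by ring
        _ ≤ d ^ 2 * ((3 * ((M + 5) * (M + 3))) * A) := by
            apply Nat.mul_le_mul_left
            apply Nat.mul_le_mul_right
            nlinarith
        _ = 3 * d ^ 2 * ((M + 5) * ((M + 3) * A)) := by ring
    calc (M + 6) * (d * ((M + 3) * A) + d * ((M + 3) * A + (M + 6) * (d * A)))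
        = 2 * ((M + 6) * (d * ((M + 3) * A))) + (M + 6) * (d * ((M + 6) * (d * A))) := by ring
      _ ≤ 2 * (2 * d ^ 2 * ((M + 5) * ((M + 3) * A))) +
          3 * d ^ 2 * ((M + 5) * ((M + 3) * A)) := by
          apply Nat.add_le_add (Nat.mul_le_mul_left _ k1) k2
      _ = 7 * d ^ 2 * ((M + 5) * ((M + 3) * A)) := by ring
  -- Markov
  set G := (pairings (V × Fin d)).filter (fun p => nB p ≤ 14 * d ^ 2) with hG
  set B := (pairings (V × Fin d)).filter (fun p => ¬ nB p ≤ 14 * d ^ 2) with hB
  have hGB : G.card + B.card = np N := by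
    rw [← hcard]; exact Finset.card_filter_add_card_filter_not _
  have hBm : (14 * d ^ 2) * B.card ≤ 7 * d ^ 2 * np N := by
    refine le_trans ?_ hS
    calc (14 * d ^ 2) * B.card = ∑ p ∈ B, 14 * d ^ 2 := by
          rw [Finset.sum_const, smul_eq_mul, mul_comm]
      _ ≤ ∑ p ∈ B, nB p := by
          apply Finset.sum_le_sum
          intro p hp
          rw [hB, Finset.mem_filter] at hp
          omega
      _ ≤ ∑ p ∈ pairings (V × Fin d), nB p :=
          Finset.sum_le_sum_of_subset (Finset.filter_subset _ _)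
  have hB2 : 2 * B.card ≤ np N := by
    have h7 : 0 < 7 * d ^ 2 := by positivity
    have : 7 * d ^ 2 * (2 * B.card) ≤ 7 * d ^ 2 * np N := by
      calc 7 * d ^ 2 * (2 * B.card) = (14 * d ^ 2) * B.card := by ring
        _ ≤ _ := hBm
    exact Nat.le_of_mul_le_mul_left this h7
  have hG2 : np N ≤ 2 * G.card := by omega
  have := card_le_simples (V := V) (d := d) (14 * d ^ 2) (by omega)
  calc np N ≤ 2 * G.card := hG2
    _ ≤ _ := Nat.mul_le_mul_left _ this

/-- `P(simple) ≥ n^{-C}`, `V = Fin n`. -/
theorem exists_np_le_simples (d : ℕ) (hd : 1 ≤ d) :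
    ∃ C n0 : ℕ, ∀ n : ℕ, n0 ≤ n → Even (n * d) →
      np (n * d) ≤ n ^ C * (simples (Fin n) d).card := by
  refine ⟨1 + 5 * (14 * d ^ 2), 2 * ((2 * d + 2) * d) + 14 * d ^ 2 + 6 + d, ?_⟩
  intro n hn _
  have h1 := np_le_simples (V := Fin n) (d := d) hd (by
    rw [Fintype.card_fin]
    calc 2 * ((2 * d + 2) * d) + 14 * d ^ 2 + 6 ≤ n := by omega
      _ = n * 1 := (mul_one n).symm
      _ ≤ n * d := Nat.mul_le_mul_left n hd)
  rw [Fintype.card_fin] at h1
  refine le_trans h1 ?_
  have hn2 : 2 ≤ n := by omega
  have hnd : d ≤ n := by omega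
  have h2 : 1 + (n * d) ^ 2 ≤ n ^ 5 := by
    have h3 : (n * d) ^ 2 ≤ n ^ 4 := by
      calc (n * d) ^ 2 ≤ (n * n) ^ 2 := Nat.pow_le_pow_left (Nat.mul_le_mul_left n hnd) 2
        _ = n ^ 4 := by ring
    have h4 : 1 ≤ n ^ 4 := Nat.one_le_pow _ _ (by omega)
    calc 1 + (n * d) ^ 2 ≤ n ^ 4 + n ^ 4 := by omega
      _ = 2 * n ^ 4 := by ring
      _ ≤ n * n ^ 4 := Nat.mul_le_mul_right _ hn2
      _ = n ^ 5 := by ring
  calc 2 * ((1 + (n * d) ^ 2) ^ (14 * d ^ 2) * (simples (Fin n) d).card)
      ≤ n * ((n ^ 5) ^ (14 * d ^ 2) * (simples (Fin n) d).card) := by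
        apply Nat.mul_le_mul hn2
        apply Nat.mul_le_mul_right
        exact Nat.pow_le_pow_left h2 _
    _ = n ^ (1 + 5 * (14 * d ^ 2)) * (simples (Fin n) d).card := by
        rw [pow_add, pow_one, pow_mul]; ring

/-- simple pairings exist -/
theorem simples_nonempty (d : ℕ) (hd : 1 ≤ d) :
    ∃ n0 : ℕ, ∀ n : ℕ, n0 ≤ n → Even (n * d) → (simples (Fin n) d).Nonempty := by
  obtain ⟨C, n0, h⟩ := exists_np_le_simples d hd
  refine ⟨n0, fun n hn hev => ?_⟩
  rw [← Finset.card_pos]
  by_contra hc
  have h0 : (simples (Fin n) d).card = 0 := by omega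
  have h1 := h n hn hev
  rw [h0, mul_zero] at h1
  have := np_pos_of_even hev
  omega

end Crest.Agent.R166.Simple356
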