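import Mathlib
import Crest.Agent.R166.Simple_356
import Crest.Agent.R166.Ports_269

/-!
# R166, 40.4 for port-numbered graphs and for `regularGraphs` (helper356)
-/

set_option autoImplicit false

namespace Crest.Agent.R166.Simple356

open Finset Crest.Agent.R166 Crest.Agent.R166.PairCount356 Crest.ProbabilityR.RandomMatrix

lemma isPort_iff {n d : ℕ} (p : Equiv.Perm (HE n d)) : IsPort p ↔ IsPairing p ∧ IsSimple p := by
  constructor
  · intro h
    refine ⟨⟨h.inv, h.ne_self⟩, h.noloop, ?_⟩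
    intro a b h1 h2
    exact h.fst_inj h1 h2
  · rintro ⟨h1, h2, h3⟩
    exact ⟨h1.1, h2, fun v i j h => (Prod.ext_iff.1 (h3 (v, i) (v, j) rfl h)).2⟩

lemma Ports_eq_simples (n d : ℕ) : Ports n d = simples (Fin n) d := by
  ext p
  rw [mem_Ports, simples, Finset.mem_filter, mem_pairings, isPort_iff]

/-- (40.4) `(nd-1)!! ≤ n^C · #Ports`. -/
theorem exists_np_le_Ports (d : ℕ) (hd : 1 ≤ d) :
    ∃ C n0 : ℕ, ∀ n : ℕ, n0 ≤ n → Even (n * d) →
      np (n * d) ≤ n ^ C * (Ports n d).card := by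
  simpa only [Ports_eq_simples] using exists_np_le_simples d hd

/-- (40.4) `(nd-1)!! ≤ n^C · (d!)^n · #regularGraphs`. -/
theorem exists_np_le_regularGraphs (d : ℕ) (hd : 1 ≤ d) :
    ∃ C n0 : ℕ, ∀ n : ℕ, n0 ≤ n → Even (n * d) →
      np (n * d) ≤ n ^ C * (Nat.factorial d ^ n * (regularGraphs n d).card) := by
  simpa only [card_Ports] using exists_np_le_Ports d hd

/-- there are `d`-regular graphs on all large `n` with `nd` even -/
theorem regularGraphs_nonempty (d : ℕ) (hd : 1 ≤ d) :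
    ∃ n0 : ℕ, ∀ n : ℕ, n0 ≤ n → Even (n * d) → (regularGraphs n d).Nonempty := by
  obtain ⟨n0, h⟩ := simples_nonempty d hd
  refine ⟨n0, fun n hn hev => ?_⟩
  rw [← Ports_nonempty_iff, Ports_eq_simples]
  exact h n hn hev

lemma card_Ports_le_np (n d : ℕ) : (Ports n d).card ≤ np (n * d) := by
  rw [Ports_eq_simples, simples]
  refine le_trans (Finset.card_filter_le _ _) (le_of_eq ?_)
  rw [card_pairings, Fintype.card_prod, Fintype.card_fin, Fintype.card_fin]

/-- logarithmic form: `log #Ports ≥ log np (nd) - C log n`. -/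
theorem exists_log_card_Ports (d : ℕ) (hd : 1 ≤ d) :
    ∃ C : ℝ, 0 ≤ C ∧ ∃ n0 : ℕ, ∀ n : ℕ, n0 ≤ n → Even (n * d) →
      0 < (Ports n d).card ∧
      Real.log (np (n * d)) - C * Real.log n ≤ Real.log ((Ports n d).card) ∧
      Real.log ((Ports n d).card) ≤ Real.log (np (n * d)) := by
  obtain ⟨C, n0, h⟩ := exists_np_le_Ports d hd
  refine ⟨C, by positivity, max n0 1, fun n hn hev => ?_⟩
  have hn0 : n0 ≤ n := le_trans (le_max_left _ _) hn
  have hn1 : 1 ≤ n := le_trans (le_max_right _ _) hn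
  have h1 := h n hn0 hev
  have hnp : 0 < np (n * d) := np_pos_of_even hev
  have hc : 0 < (Ports n d).card := by
    rcases Nat.eq_zero_or_pos (Ports n d).card with h0 | h0
    · rw [h0, mul_zero] at h1; omega
    · exact h0
  refine ⟨hc, ?_, ?_⟩
  · have h2 : (np (n * d) : ℝ) ≤ (n : ℝ) ^ C * ((Ports n d).card : ℝ) := by exact_mod_cast h1
    have h3 := Real.log_le_log (by exact_mod_cast hnp) h2
    rw [Real.log_mul (by positivity) (by positivity), Real.log_pow] at h3
    linarith
  · apply Real.log_le_log (by exact_mod_cast hc)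
    exact_mod_cast card_Ports_le_np n d

end Crest.Agent.R166.Simple356
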