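import Crest.Agent.R166.TreeLike2_942
import Crest.Agent.R166.PairCount_356
import Crest.Agent.R166.Ports_269

/-!
Row 166, section 40.5 (helper942): consequences of `TreeAt`, bridge to `PairCount_356` and
`Ports_269`.
-/

set_option autoImplicit false

namespace Crest.Agent.R166.TreeLike942

open Finset
open scoped Nat

noncomputable section

variable {α V : Type*}

theorem TreeAt.mono {vert : α → V} {p : α → α} {R R' : ℕ} {v : V} (h : R' ≤ R)
    (ht : TreeAt vert p R v) : TreeAt vert p R' v :=
  fun l1 l2 w h1 h2 h3 h4 h5 h6 => ht l1 l2 w h1 h2 h3 h4 (h5.trans h) (h6.trans h)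

/-- at a tree-like place there is no nontrivial reduced closed walk of length `≤ 2 R` -/
theorem TreeAt.closed_eq_nil {vert : α → V} {p : α → α} (hp : ∀ z, p (p z) = z) {R : ℕ} {v : V}
    (ht : TreeAt vert p R v) {c : List α} (hc : IsWalk vert p v c v) (hr : Reduced p c)
    (hl : c.length ≤ 2 * R) : c = [] := by
  classical
  set k := (c.length + 1) / 2 with hk
  have hsplit : c.take k ++ c.drop k = c := List.take_append_drop k c
  rw [← hsplit, isWalk_append] at hc
  obtain ⟨w, hw1, hw2⟩ := hc
  have hr' : Reduced p (c.take k ++ c.drop k) := by rw [hsplit]; exact hr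
  have hr1 : Reduced p (c.take k) := hr'.left_of_append
  have hr2 : Reduced p (c.drop k) := hr'.right_of_append
  have heq : c.take k = (c.drop k).reverse.map p := by
    apply ht _ _ w hw1 (isWalk_reverse hp hw2) hr1 (reduced_reverse hp hr2)
    · rw [List.length_take]; omega
    · rw [List.length_map, List.length_reverse, List.length_drop]; omega
  rcases hd : c.drop k with _ | ⟨y, l⟩
  · rw [hd] at heq
    simp only [List.reverse_nil, List.map_nil] at heq
    rw [← hsplit, hd, heq]; rfl
  · exfalso
    rw [hd] at heq hr'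
    simp only [List.reverse_cons, List.map_append, List.map_cons, List.map_nil] at heq
    rw [heq] at hr'
    have h2 : ((l.reverse.map p ++ [p y]) ++ (y :: l)).IsChain (fun x y => y ≠ p x) := hr'
    rw [List.isChain_append] at h2
    have h3 := h2.2.2 (p y) (by simp) y (by simp)
    exact h3 (hp y).symm

/-- two reduced walks from a tree-like vertex to the same end, of total length `≤ 2 R`, agree -/
theorem TreeAt.eq_of_add {vert : α → V} {p : α → α} (hp : ∀ z, p (p z) = z) {R : ℕ} {v w : V}
    (ht : TreeAt vert p R v) {l1 l2 : List α} (h1 : IsWalk vert p v l1 w)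
    (h2 : IsWalk vert p v l2 w) (hr1 : Reduced p l1) (hr2 : Reduced p l2)
    (hl : l1.length + l2.length ≤ 2 * R) : l1 = l2 := by
  by_contra hne
  obtain ⟨c, hc1, hc2, hc3, hc4⟩ := exists_closed_walk hp (2 * R) l1 l2 v w hl h1 h2 hr1 hr2 hne
  exact hc1 (ht.closed_eq_nil hp hc3 hc4 hc2)

/-- `TreeAt` is equivalent to the absence of nontrivial reduced closed walks of length `≤ 2 R` -/
theorem treeAt_iff {vert : α → V} {p : α → α} (hp : ∀ z, p (p z) = z) {R : ℕ} {v : V} :
    TreeAt vert p R v ↔
      ∀ c : List α, IsWalk vert p v c v → Reduced p c → c.length ≤ 2 * R → c = [] := by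
  constructor
  · intro ht c h1 h2 h3
    exact ht.closed_eq_nil hp h1 h2 h3
  · intro h l1 l2 w h1 h2 h3 h4 h5 h6
    by_contra hne
    obtain ⟨c, hc1, hc2, hc3, hc4⟩ :=
      exists_closed_walk hp (2 * R) l1 l2 v w (by omega) h1 h2 h3 h4 hne
    exact hc1 (h c hc3 hc4 hc2)

/-- moving to a neighbour costs one unit of radius -/
theorem TreeAt.step {vert : α → V} {p : α → α} (hp : ∀ z, p (p z) = z) {R : ℕ} {v : V}
    (ht : TreeAt vert p (R + 1) v) {x : α} (hx : vert x = v) : TreeAt vert p R (vert (p x)) := by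
  intro l1 l2 w h1 h2 h3 h4 h5 h6
  -- transport a walk from `vert (p x)` to a walk from `v`
  have key : ∀ l : List α, IsWalk vert p (vert (p x)) l w → Reduced p l → l.length ≤ R →
      (∃ m, l = p x :: m ∧ IsWalk vert p v m w ∧ Reduced p m ∧ m.length ≤ R + 1) ∨
      (Reduced p (x :: l) ∧ IsWalk vert p v (x :: l) w ∧ (x :: l).length ≤ R + 1) := by
    intro l hw hr hl
    cases l with
    | nil => exact Or.inr ⟨List.isChain_singleton _, ⟨hx, hw⟩, by simp⟩
    | cons y m =>
      by_cases hy : y = p x
      · left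
        subst hy
        simp only [IsWalk, hp] at hw
        refine ⟨m, rfl, ?_, hr.tail, ?_⟩
        · rw [← hx]; exact hw.2
        · simp only [List.length_cons] at hl; omega
      · right
        refine ⟨List.isChain_cons_cons.2 ⟨hy, hr⟩, ⟨hx, hw⟩, ?_⟩
        simp only [List.length_cons] at hl ⊢; omega
  rcases key l1 h1 h3 h5 with ⟨m1, e1, a1, b1, c1⟩ | ⟨a1, b1, c1⟩
  · rcases key l2 h2 h4 h6 with ⟨m2, e2, a2, b2, c2⟩ | ⟨a2, b2, c2⟩
    · rw [e1, e2, ht m1 m2 w a1 a2 b1 b2 c1 c2]
    · exfalso
      have := ht m1 (x :: l2) w a1 b2 b1 a2 c1 c2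
      rw [e1, this] at h3
      exact (List.isChain_cons_cons.1 h3).1 (hp x).symm
  · rcases key l2 h2 h4 h6 with ⟨m2, e2, a2, b2, c2⟩ | ⟨a2, b2, c2⟩
    · exfalso
      have := ht m2 (x :: l1) w a2 b1 b2 a1 c2 c1
      rw [e2, this] at h4
      exact (List.isChain_cons_cons.1 h4).1 (hp x).symm
    · have := ht (x :: l1) (x :: l2) w b1 b2 a1 a2 c1 c2
      exact (List.cons.inj this).2

/-- the vertices near a tree-like vertex are tree-like: if `v` is `R + r`-tree-like and `u` is at
the end of a walk of length `≤ r` from `v`, then `u` is `R`-tree-like -/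
theorem TreeAt.of_walk {vert : α → V} {p : α → α} (hp : ∀ z, p (p z) = z) {R : ℕ} :
    ∀ (r : ℕ) (l : List α) (v u : V), TreeAt vert p (R + r) v → IsWalk vert p v l u →
      l.length ≤ r → TreeAt vert p R u := by
  intro r
  induction r with
  | zero =>
    intro l v u ht hw hl
    have : l = [] := List.length_eq_zero_iff.1 (by omega)
    subst this
    simp only [IsWalk] at hw
    subst hw
    exact ht
  | succ r ih =>
    intro l v u ht hw hl
    cases l with
    | nil =>
      simp only [IsWalk] at hw
      subst hw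
      exact ht.mono (by omega)
    | cons x l =>
      simp only [IsWalk] at hw
      have h1 : TreeAt vert p (R + r) (vert (p x)) :=
        TreeAt.step hp (R := R + r) (by rw [← add_assoc] at ht; exact ht) hw.1
      exact ih l _ u h1 hw.2 (by simpa using hl)

/-- every walk can be reduced without increasing its length -/
theorem reduced_of_walk {vert : α → V} {p : α → α} (hp : ∀ z, p (p z) = z) :
    ∀ (k : ℕ) (l : List α) (u v : V), l.length ≤ k → IsWalk vert p u l v →
      ∃ l', l'.length ≤ l.length ∧ IsWalk vert p u l' v ∧ Reduced p l' := by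
  classical
  intro k
  induction k with
  | zero =>
    intro l u v hk h
    have : l = [] := List.length_eq_zero_iff.1 (by omega)
    subst this
    exact ⟨[], le_rfl, h, List.IsChain.nil⟩
  | succ k ih =>
    intro l u v hk h
    cases l with
    | nil => exact ⟨[], le_rfl, h, List.IsChain.nil⟩
    | cons x l =>
      simp only [IsWalk] at h
      obtain ⟨l', h1, h2, h3⟩ := ih l (vert (p x)) v (by simpa using hk) h.2
      cases l' with
      | nil => exact ⟨[x], by simp, ⟨h.1, h2⟩, List.isChain_singleton _⟩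
      | cons y l'' =>
        by_cases hy : y = p x
        · subst hy
          simp only [IsWalk, hp] at h2
          refine ⟨l'', ?_, ?_, h3.tail⟩
          · simp only [List.length_cons] at h1 ⊢; omega
          · rw [← h.1]; exact h2.2
        · refine ⟨x :: y :: l'', ?_, ?_, ?_⟩
          · simp only [List.length_cons] at h1 ⊢; omega
          · simp only [IsWalk] at h2 ⊢
            exact ⟨h.1, h2⟩
          · exact List.isChain_cons_cons.2 ⟨hy, h3⟩

theorem isPairing_iff {p : Equiv.Perm α} : IsPairing p ↔ PairCount356.IsPairing p := Iff.rfl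

theorem _root_.Crest.Agent.R166.IsPort.isPairing {n d : ℕ} {p : Equiv.Perm (HE n d)}
    (hp : IsPort p) : IsPairing p := ⟨hp.inv, hp.ne_self⟩

/-- superexponential tree-likeness, in terms of `PairCount356.pairings` -/
theorem superexp_pairings (d R : ℕ) (ε : ℝ) (hε : 0 < ε) :
    ∃ c : ℝ, 0 < c ∧ ∃ n0 : ℕ, ∀ n ≥ n0, ∀ S : Finset (Equiv.Perm (HE n d)),
      (∀ p ∈ S, PairCount356.IsPairing p ∧
        ε * n ≤ (Nat.card {v : Fin n // ¬ TreeAt Prod.fst p R v} : ℝ)) →
      (S.card : ℝ) ≤ ((n * d - 1)‼ : ℝ) * Real.exp (-c * n * Real.log n) := by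
  classical
  obtain ⟨c, hc, n0, h⟩ := superexp d R ε hε
  refine ⟨c, hc, n0, fun n hn S hS => ?_⟩
  refine le_trans ?_ (h n hn)
  have h1 : Nat.card S ≤ Nat.card {p : Equiv.Perm (Fin n × Fin d) // IsPairing p ∧
        ε * n ≤ (Nat.card {v : Fin n // ¬ TreeAt Prod.fst p R v} : ℝ)} := by
    refine Nat.card_le_card_of_injective (fun q => ⟨q.1, hS q.1 q.2⟩) ?_
    intro a b hab
    have h2 := congrArg Subtype.val hab
    exact Subtype.ext h2
  rw [Nat.card_eq_fintype_card, Fintype.card_coe] at h1
  exact_mod_cast h1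

end

end Crest.Agent.R166.TreeLike942
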