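import Mathlib
import Crest.Agent.R166.EnvA_536

/-!
Row 166 (helper536): law of large numbers for local functions of the environment, and `Whp` tools.
-/

set_option autoImplicit false

namespace Crest.Agent.R166.Env536

open MeasureTheory ProbabilityTheory Finset Crest.ProbabilityR.RandomMatrix

/-- law of one potential -/
noncomputable def mu0 : Measure ℝ := (2⁻¹ : NNReal) • volume.restrict (Set.Icc (-1 : ℝ) 1)

instance mu0_prob : IsProbabilityMeasure mu0 := by
  constructor
  rw [mu0, Measure.smul_apply, Measure.restrict_apply_univ, Real.volume_Icc]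
  have h2 : ENNReal.ofReal (1 - -1) = 2 := by norm_num
  rw [h2, ENNReal.smul_def, smul_eq_mul, ENNReal.coe_inv (by norm_num)]
  exact ENNReal.inv_mul_cancel (by norm_num) (by norm_num)

theorem mu0_ae : ∀ᵐ x ∂mu0, |x| ≤ 1 := by
  have h : mu0 ≪ volume.restrict (Set.Icc (-1 : ℝ) 1) := by
    rw [mu0]
    exact Measure.smul_absolutelyContinuous
  apply h.ae_le
  filter_upwards [ae_restrict_mem measurableSet_Icc] with x hx
  exact abs_le.2 hx

theorem potentialLaw_eq (n : ℕ) : potentialLaw n = Measure.pi fun _ : Fin n => mu0 := rfl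

/-- the potentials are almost surely in `[-1,1]` -/
theorem potentialLaw_ae (n : ℕ) : ∀ᵐ ω ∂(potentialLaw n), ∀ i, |ω i| ≤ 1 := by
  rw [potentialLaw_eq, ae_all_iff]
  intro i
  exact (Measure.quasiMeasurePreserving_eval (fun _ : Fin n => mu0) i).ae mu0_ae

section gen

variable {ι B : Type*} [Fintype ι] [Fintype B] {μ : Measure ℝ} [IsProbabilityMeasure μ]

theorem coords_indep : iIndepFun (fun (i : ι) (ω : ι → ℝ) => ω i) (Measure.pi fun _ : ι => μ) :=
  iIndepFun_pi (X := fun _ x => x) (fun _ => aemeasurable_id)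

/-- restriction of a product measure along an injection -/
theorem map_comp_inj {f : B → ι} (hf : Function.Injective f) :
    (Measure.pi fun _ : ι => μ).map (fun ω b => ω (f b)) = Measure.pi fun _ : B => μ := by
  have h2 := (coords_indep (ι := ι) (μ := μ)).precomp hf
  rw [iIndepFun_iff_map_fun_eq_pi_map
    (fun b => (measurable_pi_apply (f b)).aemeasurable)] at h2
  rw [h2]
  congr 1
  funext b
  exact (measurePreserving_eval (fun _ : ι => μ) (f b)).map_eq

theorem integral_comp_inj {f : B → ι} (hf : Function.Injective f) {g : (B → ℝ) → ℝ}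
    (hg : Measurable g) :
    ∫ ω, g (fun b => ω (f b)) ∂(Measure.pi fun _ : ι => μ) =
      ∫ ξ, g ξ ∂(Measure.pi fun _ : B => μ) := by
  rw [← map_comp_inj (μ := μ) hf, integral_map]
  · exact (measurable_pi_lambda _ fun b => measurable_pi_apply (f b)).aemeasurable
  · exact hg.aestronglyMeasurable

theorem indep_disjoint {f f' : B → ι} (hd : ∀ x y, f x ≠ f' y) {g g' : (B → ℝ) → ℝ}
    (hg : Measurable g) (hg' : Measurable g') :
    IndepFun (fun ω : ι → ℝ => g (fun b => ω (f b))) (fun ω => g' (fun b => ω (f' b)))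
      (Measure.pi fun _ : ι => μ) := by
  classical
  have h1 := (coords_indep (ι := ι) (μ := μ)).indepFun_finset (univ.image f) (univ.image f')
    (by
      rw [disjoint_left]
      intro a ha ha'
      simp only [mem_image, mem_univ, true_and] at ha ha'
      obtain ⟨x, hx⟩ := ha
      obtain ⟨y, hy⟩ := ha'
      exact hd x y (hx.trans hy.symm)) (fun i => measurable_pi_apply i)
  have h2 := h1.comp
    (φ := fun ξ : ↥(Finset.image f Finset.univ) → ℝ => g (fun b => ξ ⟨f b, by simp⟩))
    (ψ := fun ξ : ↥(Finset.image f' Finset.univ) → ℝ => g' (fun b => ξ ⟨f' b, by simp⟩))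
    (hg.comp (measurable_pi_lambda _ fun b => measurable_pi_apply _))
    (hg'.comp (measurable_pi_lambda _ fun b => measurable_pi_apply _))
  exact h2

open Classical in
/-- second moment of a sum of centred local functions -/
theorem lln_sq {κ : Type*} (S : Finset κ) (π : κ → B → ι)
    (hinj : ∀ h ∈ S, Function.Injective (π h)) {g : (B → ℝ) → ℝ} (hg : Measurable g) {M : ℝ}
    (hM : ∀ ξ, |g ξ| ≤ M) (K : ℕ)
    (hK : ∀ T : Finset (κ × κ), (∀ q ∈ T, ∃ x y, π q.1 x = π q.2 y) → T.card ≤ K) :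
    ∫ ω, (∑ h ∈ S, (g (fun b => ω (π h b)) - ∫ ξ, g ξ ∂(Measure.pi fun _ : B => μ))) ^ 2
      ∂(Measure.pi fun _ : ι => μ) ≤ (2 * M) ^ 2 * K := by
  set c : ℝ := ∫ ξ, g ξ ∂(Measure.pi fun _ : B => μ) with hc
  set P : Measure (ι → ℝ) := Measure.pi fun _ : ι => μ with hP
  have hM0 : 0 ≤ M := (abs_nonneg _).trans (hM fun _ => 0)
  have hcM : |c| ≤ M := by
    have := norm_integral_le_of_norm_le_const (μ := Measure.pi fun _ : B => μ) (f := g) (C := M)
      (Filter.Eventually.of_forall fun ξ => hM ξ)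
    simpa using this
  set Y : κ → (ι → ℝ) → ℝ := fun h ω => g (fun b => ω (π h b)) - c with hY
  have hYm : ∀ h, Measurable (Y h) := fun h =>
    (hg.comp (measurable_pi_lambda _ fun b => measurable_pi_apply _)).sub measurable_const
  have hYb : ∀ h ω, |Y h ω| ≤ 2 * M := by
    intro h ω
    have := abs_sub (g (fun b => ω (π h b))) c
    have h1 := hM (fun b => ω (π h b))
    simp only [hY]
    linarith
  have hprod : ∀ h h' ω, |Y h ω * Y h' ω| ≤ (2 * M) ^ 2 := by
    intro h h' ω
    rw [abs_mul, sq]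
    exact mul_le_mul (hYb h ω) (hYb h' ω) (abs_nonneg _) (by linarith)
  have hint : ∀ h h', Integrable (fun ω => Y h ω * Y h' ω) P := by
    intro h h'
    refine Integrable.of_bound ((hYm h).mul (hYm h')).aestronglyMeasurable ((2 * M) ^ 2) ?_
    exact Filter.Eventually.of_forall fun ω => hprod h h' ω
  have e1 : ∀ ω, (∑ h ∈ S, Y h ω) ^ 2 = ∑ q ∈ S ×ˢ S, Y q.1 ω * Y q.2 ω := by
    intro ω
    rw [sq, sum_mul_sum, sum_product]
  have e2 : ∫ ω, (∑ h ∈ S, Y h ω) ^ 2 ∂P = ∑ q ∈ S ×ˢ S, ∫ ω, Y q.1 ω * Y q.2 ω ∂P := by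
    simp only [e1]
    exact integral_finsetSum _ fun q _ => hint _ _
  have hzero : ∀ q ∈ S ×ˢ S, (¬ ∃ x y, π q.1 x = π q.2 y) → ∫ ω, Y q.1 ω * Y q.2 ω ∂P = 0 := by
    intro q hq hne
    rw [mem_product] at hq
    push Not at hne
    have hi := indep_disjoint (μ := μ) hne (g := fun ξ => g ξ - c) (g' := fun ξ => g ξ - c)
      (hg.sub measurable_const) (hg.sub measurable_const)
    have h1 := hi.integral_fun_mul_eq_mul_integral (hYm q.1).aestronglyMeasurable
      (hYm q.2).aestronglyMeasurable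
    have h2 : ∫ ω, Y q.1 ω ∂P = 0 := by
      have h3 := integral_comp_inj (μ := μ) (hinj _ hq.1) (g := fun ξ => g ξ - c)
        (hg.sub measurable_const)
      have h5 : ∫ ω, Y q.1 ω ∂P = ∫ ξ, (g ξ - c) ∂(Measure.pi fun _ : B => μ) := h3
      rw [h5, integral_sub, integral_const]
      · simp [hc]
      · exact Integrable.of_bound hg.aestronglyMeasurable M
          (Filter.Eventually.of_forall fun ξ => hM ξ)
      · exact integrable_const _
    have h4 : ∫ ω, Y q.1 ω * Y q.2 ω ∂P = (∫ ω, Y q.1 ω ∂P) * ∫ ω, Y q.2 ω ∂P := h1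
    rw [h4, h2, zero_mul]
  rw [e2, ← sum_filter_add_sum_filter_not (S ×ˢ S) (fun q => ∃ x y, π q.1 x = π q.2 y)]
  rw [sum_eq_zero (s := (S ×ˢ S).filter fun q => ¬ ∃ x y, π q.1 x = π q.2 y)
    (fun q hq => hzero q (mem_filter.1 hq).1 (mem_filter.1 hq).2), add_zero]
  calc ∑ q ∈ (S ×ˢ S).filter (fun q => ∃ x y, π q.1 x = π q.2 y), ∫ ω, Y q.1 ω * Y q.2 ω ∂P
      ≤ ∑ q ∈ (S ×ˢ S).filter (fun q => ∃ x y, π q.1 x = π q.2 y), (2 * M) ^ 2 := by
        refine sum_le_sum fun q _ => ?_
        have h1 := norm_integral_le_of_norm_le_const (μ := P)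
          (f := fun ω => Y q.1 ω * Y q.2 ω) (C := (2 * M) ^ 2)
          (Filter.Eventually.of_forall fun ω => hprod _ _ ω)
        have h2 := le_abs_self (∫ ω, Y q.1 ω * Y q.2 ω ∂P)
        rw [Real.norm_eq_abs, probReal_univ, mul_one] at h1
        exact h2.trans h1
    _ = (2 * M) ^ 2 * (((S ×ˢ S).filter fun q => ∃ x y, π q.1 x = π q.2 y).card : ℝ) := by
        rw [sum_const, nsmul_eq_mul, mul_comm]
    _ ≤ (2 * M) ^ 2 * K := by
        refine mul_le_mul_of_nonneg_left ?_ (sq_nonneg _)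
        exact_mod_cast hK _ fun q hq => (mem_filter.1 hq).2

open Classical in
/-- Chebyshev for local functions -/
theorem lln_cheb {κ : Type*} (S : Finset κ) (π : κ → B → ι)
    (hinj : ∀ h ∈ S, Function.Injective (π h)) {g : (B → ℝ) → ℝ} (hg : Measurable g) {M : ℝ}
    (hM : ∀ ξ, |g ξ| ≤ M) (K : ℕ)
    (hK : ∀ T : Finset (κ × κ), (∀ q ∈ T, ∃ x y, π q.1 x = π q.2 y) → T.card ≤ K) {t : ℝ} (ht : 0 < t) :
    (Measure.pi fun _ : ι => μ)
      {ω | t ≤ |∑ h ∈ S, (g (fun b => ω (π h b)) - ∫ ξ, g ξ ∂(Measure.pi fun _ : B => μ))|} ≤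
      ENNReal.ofReal ((2 * M) ^ 2 * K / t ^ 2) := by
  have h1 := lln_sq (μ := μ) S π hinj hg hM K hK
  set P : Measure (ι → ℝ) := Measure.pi fun _ : ι => μ with hP
  set c : ℝ := ∫ ξ, g ξ ∂(Measure.pi fun _ : B => μ) with hc
  have hM0 : 0 ≤ M := (abs_nonneg _).trans (hM fun _ => 0)
  have hcM : |c| ≤ M := by
    have := norm_integral_le_of_norm_le_const (μ := Measure.pi fun _ : B => μ) (f := g) (C := M)
      (Filter.Eventually.of_forall fun ξ => hM ξ)
    simpa using this
  have hZm : Measurable fun ω : ι → ℝ => ∑ h ∈ S, (g (fun b => ω (π h b)) - c) :=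
    measurable_fun_sum _ fun h _ =>
      (hg.comp (measurable_pi_lambda _ fun b => measurable_pi_apply _)).sub measurable_const
  have hZb : ∀ ω : ι → ℝ, |∑ h ∈ S, (g (fun b => ω (π h b)) - c)| ≤ S.card * (2 * M) := by
    intro ω
    refine (abs_sum_le_sum_abs _ _).trans ?_
    rw [← nsmul_eq_mul]
    refine sum_le_card_nsmul _ _ _ fun h _ => ?_
    have := abs_sub (g (fun b => ω (π h b))) c
    have h1 := hM (fun b => ω (π h b))
    linarith
  have hint : Integrable (fun ω : ι → ℝ => (∑ h ∈ S, (g (fun b => ω (π h b)) - c)) ^ 2) P := by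
    refine Integrable.of_bound (hZm.pow_const 2).aestronglyMeasurable
      ((S.card * (2 * M)) ^ 2) (Filter.Eventually.of_forall fun ω => ?_)
    rw [Real.norm_eq_abs, abs_pow]
    exact pow_le_pow_left₀ (abs_nonneg _) (hZb ω) 2
  have h2 := mul_meas_ge_le_integral_of_nonneg (μ := P)
    (Filter.Eventually.of_forall fun ω => sq_nonneg (∑ h ∈ S, (g (fun b => ω (π h b)) - c)))
    hint (t ^ 2)
  have h3 : P.real {ω | t ^ 2 ≤ (∑ h ∈ S, (g (fun b => ω (π h b)) - c)) ^ 2} ≤
      (2 * M) ^ 2 * K / t ^ 2 := by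
    rw [le_div_iff₀ (by positivity), mul_comm]
    exact h2.trans h1
  have h4 : {ω : ι → ℝ | t ≤ |∑ h ∈ S, (g (fun b => ω (π h b)) - c)|} ⊆
      {ω | t ^ 2 ≤ (∑ h ∈ S, (g (fun b => ω (π h b)) - c)) ^ 2} := by
    intro ω hω
    simp only [Set.mem_ofPred_eq] at hω ⊢
    rw [← sq_abs (∑ h ∈ S, (g (fun b => ω (π h b)) - c))]
    exact pow_le_pow_left₀ ht.le hω 2
  refine (measure_mono h4).trans ?_
  rw [← ofReal_measureReal]
  exact ENNReal.ofReal_le_ofReal h3

end gen

/-! ### overlapping pairs -/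

section Pairs

variable {n d : ℕ} [NeZero d]

theorem hf_injective (p : Equiv.Perm (HE n d)) (b : Bool) (l : List (Lt d)) :
    Function.Injective fun h => hf p h b l := by
  induction l with
  | nil => cases b <;> simp [Function.Injective]
  | cons k l ih =>
    intro h h' e
    exact ih (child_injective p k.1 e)

open Classical in
theorem card_nv_eq_le (p : Equiv.Perm (HE n d)) (y : Node d) (v : Fin n) :
    ((univ : Finset (HE n d)).filter fun h => v = nv p h y).card ≤ d := by
  have h1 : (((univ : Finset (HE n d)).filter fun h => v = nv p h y).image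
      fun h => (p (hf p h y.1 y.2)).2).card ≤ d := by
    refine (card_le_univ _).trans ?_
    simp
  refine le_trans (le_of_eq ?_) h1
  rw [card_image_of_injOn]
  intro h hh h' hh' e
  rw [mem_coe, mem_filter] at hh hh'
  apply hf_injective p y.1 y.2
  apply p.injective
  exact Prod.ext (hh.2.symm.trans hh'.2) e

open Classical in
/-- the number of overlapping pairs of balls -/
theorem card_overlap_le {B : Type*} [Fintype B] (p : Equiv.Perm (HE n d)) (e : B → Node d)
    (T : Finset (HE n d × HE n d)) (hT : ∀ q ∈ T, ∃ x y, nv p q.1 (e x) = nv p q.2 (e y)) :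
    T.card ≤ (Fintype.card B * Fintype.card B) * ((n * d) * d) := by
  have hsub : T ⊆
      (univ : Finset (B × B)).biUnion fun xy => (univ : Finset (HE n d)).biUnion fun h =>
        ((univ : Finset (HE n d)).filter fun h' => nv p h (e xy.1) = nv p h' (e xy.2)).map
          ⟨fun h' => (h, h'), fun a b hab => (Prod.ext_iff.1 hab).2⟩ := by
    rintro ⟨h, h'⟩ hq
    obtain ⟨x, y, hxy⟩ := hT _ hq
    simp only [mem_biUnion, mem_univ, true_and, mem_map, mem_filter, Function.Embedding.coeFn_mk,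
      Prod.mk.injEq]
    exact ⟨(x, y), h, h', hxy, rfl, rfl⟩
  refine (card_le_card hsub).trans ?_
  refine (card_biUnion_le_card_mul _ _ ((n * d) * d) fun xy _ => ?_).trans ?_
  · refine (card_biUnion_le_card_mul _ _ d fun h _ => ?_).trans ?_
    · rw [card_map]
      exact card_nv_eq_le p _ _
    · rw [card_univ, IsPort.card_HE]
  · rw [card_univ, Fintype.card_prod]

end Pairs

end Crest.Agent.R166.Env536
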