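import Mathlib
/-!
Row 166, sections 32/70 (tree half): deterministic inequalities for the cavity recursion
`X = -1/(z - t + Σ x_j)` on the upper half plane.  (helper350)
-/
set_option autoImplicit false

namespace Crest.Agent.R166.TreeDet350

open Complex Finset

noncomputable section

/-- Bounded coordinate vanishing at `m` (second fixed point `1/m` sent to infinity). -/
def uu (m x : ℂ) : ℂ := (x - m) / (1 - m * x)

/-- The same coordinate in terms of the displacement `D = x - m`. -/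
def ut (m D : ℂ) : ℂ := D / (1 - m ^ 2 - m * D)

/-- the cavity map with potential value `t` and children values `x`. -/
def cav {b : ℕ} (z : ℂ) (t : ℝ) (x : Fin b → ℂ) : ℂ := -1 / (z - t + ∑ j, x j)

/-- squared pseudo-hyperbolic distance. -/
def rho2 (x y : ℂ) : ℝ := ‖x - y‖ ^ 2 / ‖x - (starRingEnd ℂ) y‖ ^ 2

/-- admissible data: `m` solves the clean recursion at `z`, `Im m ≥ y0`. -/
structure Adm (b : ℕ) (y0 : ℝ) (z m : ℂ) : Prop where
  hb : 2 ≤ b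
  hy : 0 < y0
  hz : 0 ≤ z.im
  hm : m * (z + b * m) = -1
  him : y0 ≤ m.im

variable {b : ℕ} {y0 : ℝ} {z m : ℂ}

theorem uu_eq_ut (m x : ℂ) : uu m x = ut m (x - m) := by
  unfold uu ut
  congr 1
  ring

theorem Adm.im_pos (h : Adm b y0 z m) : 0 < m.im := lt_of_lt_of_le h.hy h.him

theorem Adm.normSq_eq (h : Adm b y0 z m) : normSq m * (z.im + b * m.im) = m.im := by
  have h1 : (starRingEnd ℂ) m * (m * (z + b * m)) = -(starRingEnd ℂ) m := by rw [h.hm]; ring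
  have h2 : (normSq m : ℂ) * (z + b * m) = -(starRingEnd ℂ) m := by
    rw [← h1, ← mul_assoc, mul_comm ((starRingEnd ℂ) m) m, mul_conj]
  have h3 := congrArg Complex.im h2
  simpa using h3

theorem Adm.b_normSq (h : Adm b y0 z m) : (b : ℝ) * normSq m ≤ 1 := by
  have h1 := h.normSq_eq
  have h2 := h.im_pos
  have h3 : 0 ≤ normSq m * z.im := mul_nonneg (normSq_nonneg m) h.hz
  have h4 : (b : ℝ) * normSq m * m.im ≤ 1 * m.im := by nlinarith
  exact le_of_mul_le_mul_right h4 h2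

theorem Adm.b2 (h : Adm b y0 z m) : (2 : ℝ) ≤ b := by exact_mod_cast h.hb

theorem Adm.normSq_le (h : Adm b y0 z m) : normSq m ≤ 1 / 2 := by
  have h1 := h.b_normSq
  have h2 := h.b2
  have := normSq_nonneg m
  nlinarith

theorem Adm.sq_norm (m : ℂ) : ‖m‖ ^ 2 = normSq m := (normSq_eq_norm_sq m).symm

theorem Adm.norm_le (h : Adm b y0 z m) : ‖m‖ ≤ 3 / 4 := by
  have h1 := h.normSq_le
  rw [← Adm.sq_norm] at h1
  have := norm_nonneg m
  nlinarith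

theorem Adm.y0_le_norm (h : Adm b y0 z m) : y0 ≤ ‖m‖ :=
  h.him.trans ((le_abs_self _).trans (abs_im_le_norm m))

theorem Adm.im_le_norm (_h : Adm b y0 z m) : m.im ≤ ‖m‖ :=
  ((le_abs_self _).trans (abs_im_le_norm m))

theorem Adm.norm_pos (h : Adm b y0 z m) : 0 < ‖m‖ := lt_of_lt_of_le h.hy h.y0_le_norm

theorem Adm.ne_zero (h : Adm b y0 z m) : m ≠ 0 := norm_pos_iff.1 h.norm_pos

theorem Adm.y0_le (h : Adm b y0 z m) : y0 ≤ 3 / 4 := h.y0_le_norm.trans h.norm_le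

theorem Adm.norm_a_ge (h : Adm b y0 z m) : 1 / 2 ≤ ‖1 - m ^ 2‖ := by
  have h1 : ‖(1 : ℂ)‖ - ‖m ^ 2‖ ≤ ‖1 - m ^ 2‖ := norm_sub_norm_le _ _
  have h2 := h.normSq_le
  rw [← Adm.sq_norm] at h2
  rw [norm_pow, norm_one] at h1
  linarith

theorem Adm.norm_a_le (h : Adm b y0 z m) : ‖1 - m ^ 2‖ ≤ 3 / 2 := by
  have h1 : ‖1 - m ^ 2‖ ≤ ‖(1 : ℂ)‖ + ‖m ^ 2‖ := norm_sub_le _ _
  have h2 := h.normSq_le
  rw [← Adm.sq_norm] at h2
  rw [norm_pow, norm_one] at h1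
  linarith

/-- the key lower bound for denominators. -/
theorem Adm.den_ge (h : Adm b y0 z m) {D : ℂ} (hD : -(b * m.im) ≤ D.im) :
    ‖m‖ * m.im ≤ ‖1 - m ^ 2 - m * D‖ := by
  have hm0 := h.norm_pos
  have hi := h.im_pos
  have hb := h.b_normSq
  have hn := normSq_nonneg m
  have e1 : ((starRingEnd ℂ) m * (1 - m ^ 2 - m * D)) =
      (starRingEnd ℂ) m - (normSq m : ℂ) * m - (normSq m : ℂ) * D := by
    rw [← mul_conj m]; ring
  have e2 : ((starRingEnd ℂ) m * (1 - m ^ 2 - m * D)).im =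
      - m.im - normSq m * m.im - normSq m * D.im := by
    rw [e1]; simp
  have e3 : ((starRingEnd ℂ) m * (1 - m ^ 2 - m * D)).im ≤ - (normSq m * m.im) := by
    rw [e2]
    have h5 : -(b * normSq m * m.im) ≤ normSq m * D.im := by nlinarith
    have h6 : b * normSq m * m.im ≤ m.im := by nlinarith
    linarith
  have e4 : normSq m * m.im ≤ ‖(starRingEnd ℂ) m * (1 - m ^ 2 - m * D)‖ := by
    refine le_trans ?_ (abs_im_le_norm _)
    rw [abs_of_nonpos (by nlinarith [mul_nonneg hn hi.le])]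
    linarith
  rw [norm_mul, norm_conj, ← Adm.sq_norm, pow_two, mul_assoc] at e4
  exact le_of_mul_le_mul_left e4 hm0

theorem Adm.y_sq_le (h : Adm b y0 z m) : y0 ^ 2 ≤ ‖m‖ * m.im := by
  have h1 := h.y0_le_norm
  have h2 := h.him
  have h3 := h.hy
  nlinarith

theorem Adm.den_ge' (h : Adm b y0 z m) {D : ℂ} (hD : -(b * m.im) ≤ D.im) :
    y0 ^ 2 ≤ ‖1 - m ^ 2 - m * D‖ := h.y_sq_le.trans (h.den_ge hD)

theorem Adm.den_ne (h : Adm b y0 z m) {D : ℂ} (hD : -(b * m.im) ≤ D.im) :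
    1 - m ^ 2 - m * D ≠ 0 := by
  have h1 := h.den_ge' hD
  have h2 : 0 < y0 ^ 2 := pow_pos h.hy 2
  exact norm_pos_iff.1 (lt_of_lt_of_le h2 h1)

/-- bound constants -/
def BB (y0 : ℝ) : ℝ := 3 / y0 ^ 3
def KK (y0 : ℝ) : ℝ := 3 / y0

theorem Adm.y0_lt_one (h : Adm b y0 z m) : y0 < 1 := lt_of_le_of_lt h.y0_le (by norm_num)

theorem Adm.norm_ut_le (h : Adm b y0 z m) {D : ℂ} (hD : -(b * m.im) ≤ D.im) :
    ‖ut m D‖ ≤ BB y0 := by
  have hne := h.den_ne hD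
  have hy := h.hy
  have hy1 := h.y0_lt_one
  have e1 : m * ut m D = (1 - m ^ 2) / (1 - m ^ 2 - m * D) - 1 := by
    unfold ut; field_simp; ring
  have e2 : ‖m‖ * ‖ut m D‖ ≤ ‖1 - m ^ 2‖ / ‖1 - m ^ 2 - m * D‖ + 1 := by
    rw [← norm_mul, e1]
    refine (norm_sub_le _ _).trans ?_
    rw [norm_div, norm_one]
  have e3 : ‖1 - m ^ 2‖ / ‖1 - m ^ 2 - m * D‖ ≤ (3 / 2) / y0 ^ 2 :=
    div_le_div₀ (by norm_num) h.norm_a_le (pow_pos hy 2) (h.den_ge' hD)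
  have e4 : y0 * ‖ut m D‖ ≤ (3 / 2) / y0 ^ 2 + 1 := by
    have := mul_le_mul_of_nonneg_right h.y0_le_norm (norm_nonneg (ut m D))
    linarith
  have e5 : (3 / 2) / y0 ^ 2 + 1 ≤ 3 / y0 ^ 2 := by
    rw [div_add_one (by positivity), div_le_div_iff_of_pos_right (by positivity)]
    nlinarith
  have e6 : ‖ut m D‖ ≤ (3 / y0 ^ 2) / y0 := by
    rw [le_div_iff₀ hy, mul_comm]; linarith
  unfold BB
  refine e6.trans (le_of_eq ?_)
  field_simp

theorem ut_add (m x y : ℂ) (hx : 1 - m ^ 2 - m * x ≠ 0) (hy : 1 - m ^ 2 - m * y ≠ 0)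
    (hxy : 1 - m ^ 2 - m * (x + y) ≠ 0) :
    ut m (x + y) = ut m x + ut m y +
      m * (1 + (1 - m ^ 2) / (1 - m ^ 2 - m * (x + y))) * ut m x * ut m y := by
  unfold ut
  obtain ⟨A, hA⟩ : ∃ A, A = 1 - m ^ 2 - m * x := ⟨_, rfl⟩
  obtain ⟨B, hB⟩ : ∃ B, B = 1 - m ^ 2 - m * y := ⟨_, rfl⟩
  obtain ⟨P, hP⟩ : ∃ P, P = 1 - m ^ 2 - m * (x + y) := ⟨_, rfl⟩
  have key : (x + y) * (A * B) = x * P * B + y * P * A + m * (P + (1 - m ^ 2)) * x * y := by
    rw [hA, hB, hP]; ring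
  rw [← hA, ← hB, ← hP]
  rw [← hA] at hx
  rw [← hB] at hy
  rw [← hP] at hxy
  have e : x / A + y / B + m * (1 + (1 - m ^ 2) / P) * (x / A) * (y / B) =
      (x * P * B + y * P * A + m * (P + (1 - m ^ 2)) * x * y) / (P * (A * B)) := by
    field_simp
  rw [e, ← key, div_eq_div_iff hxy (mul_ne_zero hxy (mul_ne_zero hx hy))]
  ring

theorem Adm.norm_kappa_le (h : Adm b y0 z m) {D : ℂ} (hD : -(b * m.im) ≤ D.im) :
    ‖m * (1 + (1 - m ^ 2) / (1 - m ^ 2 - m * D))‖ ≤ KK y0 := by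
  have hy := h.hy
  have hi := h.im_pos
  have hm0 := h.norm_pos
  have h1 : ‖m * (1 + (1 - m ^ 2) / (1 - m ^ 2 - m * D))‖ ≤
      ‖m‖ + ‖m‖ * (‖1 - m ^ 2‖ / ‖1 - m ^ 2 - m * D‖) := by
    rw [norm_mul]
    have : ‖1 + (1 - m ^ 2) / (1 - m ^ 2 - m * D)‖ ≤ 1 + ‖1 - m ^ 2‖ / ‖1 - m ^ 2 - m * D‖ := by
      refine (norm_add_le _ _).trans ?_
      rw [norm_one, norm_div]
    nlinarith
  have h2 : ‖1 - m ^ 2‖ / ‖1 - m ^ 2 - m * D‖ ≤ (3 / 2) / (‖m‖ * m.im) :=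
    div_le_div₀ (by norm_num) h.norm_a_le (by positivity) (h.den_ge hD)
  have h3 : ‖m‖ * (‖1 - m ^ 2‖ / ‖1 - m ^ 2 - m * D‖) ≤ (3 / 2) / m.im := by
    refine (mul_le_mul_of_nonneg_left h2 hm0.le).trans (le_of_eq ?_)
    field_simp
  have h4 : (3 / 2) / m.im ≤ (3 / 2) / y0 := div_le_div_of_nonneg_left (by norm_num) hy h.him
  have h5 : ‖m‖ ≤ (3 / 4) / y0 := by
    rw [le_div_iff₀ hy]
    nlinarith [h.norm_le, h.y0_lt_one]
  unfold KK
  have : (3 / 4) / y0 + (3 / 2) / y0 ≤ 3 / y0 := by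
    rw [← add_div, div_le_div_iff_of_pos_right hy]; norm_num
  linarith

/-- one step of quasi-additivity, as norm bounds. -/
theorem Adm.norm_ut_add (h : Adm b y0 z m) {x y : ℂ} (hx : -(b * m.im) ≤ x.im)
    (hy : -(b * m.im) ≤ y.im) (hxy : -(b * m.im) ≤ (x + y).im) :
    ‖ut m (x + y) - (ut m x + ut m y)‖ ≤ KK y0 * (‖ut m x‖ * ‖ut m y‖) := by
  rw [ut_add m x y (h.den_ne hx) (h.den_ne hy) (h.den_ne hxy), add_sub_cancel_left, norm_mul,
    norm_mul, mul_assoc]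
  exact mul_le_mul_of_nonneg_right (h.norm_kappa_le hxy) (by positivity)

/-- constants for sums -/
def K2 (y0 : ℝ) : ℝ := 1 + KK y0 * BB y0
def K3 (y0 : ℝ) : ℝ := KK y0 * K2 y0

theorem KK_pos (hy : 0 < y0) : 0 < KK y0 := by unfold KK; positivity
theorem BB_pos (hy : 0 < y0) : 0 < BB y0 := by unfold BB; positivity
theorem K2_pos (hy : 0 < y0) : 0 < K2 y0 := by
  have := KK_pos hy; have := BB_pos hy; unfold K2; positivity
theorem one_le_K2 (hy : 0 < y0) : 1 ≤ K2 y0 := by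
  have := KK_pos hy; have := BB_pos hy; unfold K2; nlinarith [mul_pos (KK_pos hy) (BB_pos hy)]
theorem K3_pos (hy : 0 < y0) : 0 < K3 y0 := by
  have := KK_pos hy; have := K2_pos hy; unfold K3; positivity

theorem im_sum_ge {ι : Type*} (s : Finset ι) (D : ι → ℂ) (c : ℝ) (hc : 0 ≤ c)
    (hD : ∀ j ∈ s, -c ≤ (D j).im) {N : ℕ} (hN : s.card ≤ N) :
    -(N * c) ≤ (∑ j ∈ s, D j).im := by
  rw [Complex.im_sum]
  have h1 : ∑ j ∈ s, (-c) ≤ ∑ j ∈ s, (D j).im := Finset.sum_le_sum hD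
  rw [Finset.sum_const, nsmul_eq_mul] at h1
  have h2 : (s.card : ℝ) * c ≤ N * c := mul_le_mul_of_nonneg_right (by exact_mod_cast hN) hc
  linarith

/-- quasi-additivity of `ut` over a finite set of displacements. -/
theorem Adm.ut_sum (h : Adm b y0 z m) {ι : Type*} [DecidableEq ι] (s : Finset ι) (D : ι → ℂ)
    (hD : ∀ j ∈ s, -m.im ≤ (D j).im) (hs : s.card ≤ b) :
    ‖ut m (∑ j ∈ s, D j)‖ ≤ K2 y0 * ∑ j ∈ s, ‖ut m (D j)‖ ∧
    ‖ut m (∑ j ∈ s, D j) - ∑ j ∈ s, ut m (D j)‖ ≤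
      K3 y0 * ∑ p ∈ s.offDiag, ‖ut m (D p.1)‖ * ‖ut m (D p.2)‖ := by
  induction s using Finset.induction_on with
  | empty => simp [ut]
  | insert k s hk ih =>
    have hsc : s.card ≤ b := by rw [Finset.card_insert_of_notMem hk] at hs; omega
    obtain ⟨ih1, ih2⟩ := ih (fun j hj => hD j (Finset.mem_insert_of_mem hj)) hsc
    have hi := h.im_pos
    have hyp := h.hy
    have hb2 := h.b2
    have hKK := KK_pos hyp
    have hBB := BB_pos hyp
    have hK2 := K2_pos hyp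
    have hK3 := K3_pos hyp
    have hDk : -(b * m.im) ≤ (D k).im := by
      have := hD k (Finset.mem_insert_self k s)
      nlinarith
    have hDs : -(b * m.im) ≤ (∑ j ∈ s, D j).im :=
      im_sum_ge s D m.im hi.le (fun j hj => hD j (Finset.mem_insert_of_mem hj)) hsc
    have hDsk : -(b * m.im) ≤ (∑ j ∈ insert k s, D j).im :=
      im_sum_ge _ D m.im hi.le hD hs
    rw [Finset.sum_insert hk, add_comm] at hDsk
    have key := h.norm_ut_add hDs hDk hDsk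
    have e0 : ∑ j ∈ insert k s, D j = ∑ j ∈ s, D j + D k := by
      rw [Finset.sum_insert hk, add_comm]
    have hBk : ‖ut m (D k)‖ ≤ BB y0 := h.norm_ut_le hDk
    have hBs : ‖ut m (∑ j ∈ s, D j)‖ ≤ BB y0 := h.norm_ut_le hDs
    have hn1 := norm_nonneg (ut m (D k))
    have hn2 := norm_nonneg (ut m (∑ j ∈ s, D j))
    constructor
    · rw [e0, Finset.sum_insert hk]
      have t1 : ‖ut m (∑ j ∈ s, D j + D k)‖ ≤
          ‖ut m (∑ j ∈ s, D j)‖ + ‖ut m (D k)‖ +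
            KK y0 * (‖ut m (∑ j ∈ s, D j)‖ * ‖ut m (D k)‖) := by
        have t2 := norm_add_le (ut m (∑ j ∈ s, D j + D k) - (ut m (∑ j ∈ s, D j) + ut m (D k)))
          (ut m (∑ j ∈ s, D j) + ut m (D k))
        rw [sub_add_cancel] at t2
        have t3 := norm_add_le (ut m (∑ j ∈ s, D j)) (ut m (D k))
        linarith
      have t4 : KK y0 * (‖ut m (∑ j ∈ s, D j)‖ * ‖ut m (D k)‖) ≤ KK y0 * BB y0 * ‖ut m (D k)‖ := by
        rw [mul_assoc]
        exact mul_le_mul_of_nonneg_left (mul_le_mul_of_nonneg_right hBs hn1) hKK.le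
      have t5 : K2 y0 * (‖ut m (D k)‖ + ∑ j ∈ s, ‖ut m (D j)‖) =
          ‖ut m (D k)‖ + KK y0 * BB y0 * ‖ut m (D k)‖ + K2 y0 * ∑ j ∈ s, ‖ut m (D j)‖ := by
        unfold K2; ring
      rw [t5]
      linarith
    · rw [e0, Finset.sum_insert hk, Finset.offDiag_insert hk]
      have t2 := norm_add_le
        (ut m (∑ j ∈ s, D j + D k) - (ut m (∑ j ∈ s, D j) + ut m (D k)))
        (ut m (∑ j ∈ s, D j) - ∑ j ∈ s, ut m (D j))
      have t3 : ut m (∑ j ∈ s, D j + D k) - (ut m (∑ j ∈ s, D j) + ut m (D k)) +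
          (ut m (∑ j ∈ s, D j) - ∑ j ∈ s, ut m (D j)) =
          ut m (∑ j ∈ s, D j + D k) - (ut m (D k) + ∑ j ∈ s, ut m (D j)) := by ring
      rw [t3] at t2
      have t6 : s.offDiag ∪ {k} ×ˢ s ∪ s ×ˢ {k} = s.offDiag ∪ ({k} ×ˢ s ∪ s ×ˢ {k}) := by
        rw [Finset.union_assoc]
      have t7 : ∑ p ∈ s.offDiag, ‖ut m (D p.1)‖ * ‖ut m (D p.2)‖ +
          ∑ p ∈ s ×ˢ {k}, ‖ut m (D p.1)‖ * ‖ut m (D p.2)‖ ≤
          ∑ p ∈ s.offDiag ∪ {k} ×ˢ s ∪ s ×ˢ {k}, ‖ut m (D p.1)‖ * ‖ut m (D p.2)‖ := by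
        rw [← Finset.sum_union]
        · apply Finset.sum_le_sum_of_subset_of_nonneg
          · intro p hp
            simp only [Finset.mem_union] at hp ⊢
            tauto
          · intros; positivity
        · rw [Finset.disjoint_left]
          rintro ⟨p, q⟩ hp hq
          simp only [Finset.mem_offDiag, Finset.mem_product, Finset.mem_singleton] at hp hq
          exact hk (hq.2 ▸ hp.2.1)
      have t8 : ∑ p ∈ s ×ˢ {k}, ‖ut m (D p.1)‖ * ‖ut m (D p.2)‖ =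
          (∑ j ∈ s, ‖ut m (D j)‖) * ‖ut m (D k)‖ := by
        rw [Finset.sum_product]
        simp [Finset.sum_mul]
      have t9 : KK y0 * (‖ut m (∑ j ∈ s, D j)‖ * ‖ut m (D k)‖) ≤
          K3 y0 * ((∑ j ∈ s, ‖ut m (D j)‖) * ‖ut m (D k)‖) := by
        unfold K3
        have := mul_le_mul_of_nonneg_right ih1 hn1
        calc KK y0 * (‖ut m (∑ j ∈ s, D j)‖ * ‖ut m (D k)‖)
            ≤ KK y0 * ((K2 y0 * ∑ j ∈ s, ‖ut m (D j)‖) * ‖ut m (D k)‖) :=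
              mul_le_mul_of_nonneg_left this hKK.le
          _ = _ := by ring
      calc _ ≤ KK y0 * (‖ut m (∑ j ∈ s, D j)‖ * ‖ut m (D k)‖) +
            K3 y0 * ∑ p ∈ s.offDiag, ‖ut m (D p.1)‖ * ‖ut m (D p.2)‖ := by linarith
        _ ≤ K3 y0 * (∑ p ∈ s.offDiag, ‖ut m (D p.1)‖ * ‖ut m (D p.2)‖ +
            ∑ p ∈ s ×ˢ {k}, ‖ut m (D p.1)‖ * ‖ut m (D p.2)‖) := by rw [t8]; nlinarith
        _ ≤ _ := mul_le_mul_of_nonneg_left t7 hK3.le

/-- adding a real shift. -/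
theorem Adm.ut_shift (h : Adm b y0 z m) {D : ℂ} (hD : -(b * m.im) ≤ D.im) (t : ℝ) :
    ‖ut m (D - t) - ut m D‖ ≤ K2 y0 / y0 ^ 2 * |t| := by
  have hyp := h.hy
  have hi := h.im_pos
  have hb2 := h.b2
  have hKK := KK_pos hyp
  have hBB := BB_pos hyp
  have ht : -(b * m.im) ≤ (-(t : ℂ)).im := by simp; positivity
  have hDt : -(b * m.im) ≤ (D + -(t : ℂ)).im := by simpa using hD
  have key := h.norm_ut_add hD ht hDt
  have e1 : ‖ut m (-(t : ℂ))‖ ≤ |t| / y0 ^ 2 := by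
    unfold ut
    rw [norm_div, norm_neg, norm_real, Real.norm_eq_abs]
    exact div_le_div_of_nonneg_left (abs_nonneg _) (by positivity) (h.den_ge' ht)
  have e2 := norm_add_le (ut m (D + -(t : ℂ)) - (ut m D + ut m (-(t : ℂ)))) (ut m (-(t : ℂ)))
  have e3 : ut m (D + -(t : ℂ)) - (ut m D + ut m (-(t : ℂ))) + ut m (-(t : ℂ)) =
      ut m (D - t) - ut m D := by rw [sub_eq_add_neg D]; ring
  rw [e3] at e2
  have e4 : ‖ut m D‖ ≤ BB y0 := h.norm_ut_le hD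
  have e5 : KK y0 * (‖ut m D‖ * ‖ut m (-(t : ℂ))‖) ≤ KK y0 * BB y0 * ‖ut m (-(t : ℂ))‖ := by
    rw [mul_assoc]
    exact mul_le_mul_of_nonneg_left (mul_le_mul_of_nonneg_right e4 (norm_nonneg _)) hKK.le
  have e6 : ‖ut m (-(t : ℂ))‖ + KK y0 * BB y0 * ‖ut m (-(t : ℂ))‖ =
      K2 y0 * ‖ut m (-(t : ℂ))‖ := by unfold K2; ring
  have e7 : K2 y0 * ‖ut m (-(t : ℂ))‖ ≤ K2 y0 * (|t| / y0 ^ 2) :=
    mul_le_mul_of_nonneg_left e1 (K2_pos hyp).le
  calc _ ≤ KK y0 * (‖ut m D‖ * ‖ut m (-(t : ℂ))‖) + ‖ut m (-(t : ℂ))‖ := by linarith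
    _ ≤ K2 y0 * ‖ut m (-(t : ℂ))‖ := by linarith
    _ ≤ K2 y0 * (|t| / y0 ^ 2) := e7
    _ = _ := by ring

/-- displacement of the sum: `z - t + Σ x_j = -1/m + (Σ (x_j - m) - t)`. -/
theorem Adm.cav_eq (h : Adm b y0 z m) (t : ℝ) (x : Fin b → ℂ) :
    z - t + ∑ j, x j = -1 / m + (∑ j, (x j - m) - t) := by
  have hm := h.ne_zero
  have : -1 / m = z + b * m := by rw [← h.hm]; field_simp
  rw [this, Finset.sum_sub_distrib]
  simp
  ring

/-- the exact formula `u(X) = m² ũ(D)`. -/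
theorem Adm.uu_cav (h : Adm b y0 z m) (t : ℝ) (x : Fin b → ℂ)
    (hx : ∀ j, 0 ≤ (x j).im) (hS : z - t + ∑ j, x j ≠ 0) :
    uu m (cav z t x) = m ^ 2 * ut m (∑ j, (x j - m) - t) := by
  have hm := h.ne_zero
  have hi := h.im_pos
  have hD : -(b * m.im) ≤ (∑ j, (x j - m) - (t : ℂ)).im := by
    have := im_sum_ge (Finset.univ : Finset (Fin b)) (fun j => x j - m) m.im hi.le
      (fun j _ => by simp; exact hx j) (N := b) (by simp)
    simpa using this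
  have hne := h.den_ne hD
  have e := h.cav_eq t x
  unfold cav uu ut
  obtain ⟨D, hDd⟩ : ∃ D, D = ∑ j, (x j - m) - (t : ℂ) := ⟨_, rfl⟩
  rw [← hDd] at e hne ⊢
  rw [e] at hS ⊢
  have e2 : -1 / m + D = (m * D - 1) / m := by field_simp; ring
  rw [e2] at hS ⊢
  have hS' : m * D - 1 ≠ 0 := by
    intro h0; exact hS (by rw [h0]; simp)
  have e3 : -1 / ((m * D - 1) / m) = m / (1 - m * D) := by
    rw [div_div_eq_mul_div, neg_one_mul, ← neg_sub 1 (m * D), neg_div_neg_eq]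
  rw [e3]
  have hS2 : 1 - m * D ≠ 0 := by
    intro h0; apply hS'; rw [← neg_sub 1 (m * D), h0, neg_zero]
  have e4 : m / (1 - m * D) - m = m ^ 2 * D / (1 - m * D) := by field_simp; ring
  have e5 : 1 - m * (m / (1 - m * D)) = (1 - m ^ 2 - m * D) / (1 - m * D) := by
    field_simp; ring
  rw [e4, e5, div_div_div_cancel_right₀ hS2, mul_div_assoc]

theorem Adm.im_D_ge (h : Adm b y0 z m) (t : ℝ) (x : Fin b → ℂ) (hx : ∀ j, 0 ≤ (x j).im) :
    -(b * m.im) ≤ (∑ j, (x j - m) - (t : ℂ)).im := by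
  have := im_sum_ge (Finset.univ : Finset (Fin b)) (fun j => x j - m) m.im h.im_pos.le
      (fun j _ => by simp; exact hx j) (N := b) (by simp)
  simpa using this

theorem Adm.im_D_ge0 (h : Adm b y0 z m) (x : Fin b → ℂ) (hx : ∀ j, 0 ≤ (x j).im) :
    -(b * m.im) ≤ (∑ j, (x j - m)).im := by
  have := h.im_D_ge 0 x hx
  simpa using this

/-- `K4 = K2 / y0^2`. -/
def K4 (y0 : ℝ) : ℝ := K2 y0 / y0 ^ 2

/-- sum over off-diagonal pairs -/
def off (u : Fin b → ℝ) : ℝ := ∑ p ∈ (Finset.univ : Finset (Fin b)).offDiag, u p.1 * u p.2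

theorem Adm.ut_D (h : Adm b y0 z m) (t : ℝ) (x : Fin b → ℂ) (hx : ∀ j, 0 ≤ (x j).im) :
    ‖ut m (∑ j, (x j - m) - t) - ∑ j, uu m (x j)‖ ≤
      K3 y0 * off (fun j => ‖uu m (x j)‖) + K4 y0 * |t| := by
  have h1 := (h.ut_sum Finset.univ (fun j => x j - m) (fun j _ => by simp; exact hx j)
    (by simp)).2
  have h2 := h.ut_shift (h.im_D_ge0 x hx) t
  have h3 := norm_add_le (ut m (∑ j, (x j - m) - t) - ut m (∑ j, (x j - m)))
    (ut m (∑ j, (x j - m)) - ∑ j, ut m (x j - m))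
  rw [sub_add_sub_cancel] at h3
  simp only [uu_eq_ut]
  unfold off K4
  linarith

theorem Adm.uu_cav_sub (h : Adm b y0 z m) (t : ℝ) (x : Fin b → ℂ)
    (hx : ∀ j, 0 ≤ (x j).im) (hS : z - t + ∑ j, x j ≠ 0) :
    ‖uu m (cav z t x) - m ^ 2 * ∑ j, uu m (x j)‖ ≤
      ‖m‖ ^ 2 * (K3 y0 * off (fun j => ‖uu m (x j)‖) + K4 y0 * |t|) := by
  rw [h.uu_cav t x hx hS, ← mul_sub, norm_mul, norm_pow]
  exact mul_le_mul_of_nonneg_left (h.ut_D t x hx) (by positivity)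

/-! ### pseudo-hyperbolic distance -/

/-- pseudo-hyperbolic distance. -/
def rho (x y : ℂ) : ℝ := ‖x - y‖ / ‖x - (starRingEnd ℂ) y‖

theorem rho_nonneg (x y : ℂ) : 0 ≤ rho x y := by unfold rho; positivity

theorem norm_sub_conj_sq (x y : ℂ) :
    ‖x - (starRingEnd ℂ) y‖ ^ 2 = ‖x - y‖ ^ 2 + 4 * x.im * y.im := by
  rw [← normSq_eq_norm_sq, ← normSq_eq_norm_sq, normSq_apply, normSq_apply]
  simp
  ring

theorem norm_sub_conj_pos {x y : ℂ} (hx : 0 < x.im) (hy : 0 < y.im) :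
    0 < ‖x - (starRingEnd ℂ) y‖ := by
  have h1 := norm_sub_conj_sq x y
  have h2 : 0 < 4 * x.im * y.im := by positivity
  have h3 : 0 < ‖x - (starRingEnd ℂ) y‖ ^ 2 := by rw [h1]; positivity
  refine lt_of_le_of_ne (norm_nonneg _) ?_
  intro h0
  rw [← h0] at h3
  simp at h3

theorem rho_sq {x y : ℂ} : rho x y ^ 2 = ‖x - y‖ ^ 2 / (‖x - y‖ ^ 2 + 4 * x.im * y.im) := by
  unfold rho
  rw [div_pow, norm_sub_conj_sq]

theorem rho_lt_one {x y : ℂ} (hx : 0 < x.im) (hy : 0 < y.im) : rho x y < 1 := by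
  have h1 := norm_sub_conj_pos hx hy
  unfold rho
  rw [div_lt_one h1]
  have h2 := norm_sub_conj_sq x y
  have h3 : 0 < 4 * x.im * y.im := by positivity
  exact lt_of_pow_lt_pow_left₀ 2 h1.le (by linarith)

theorem rho_le_one {x y : ℂ} (hx : 0 < x.im) (hy : 0 < y.im) : rho x y ≤ 1 :=
  (rho_lt_one hx hy).le

theorem norm_sub_eq_rho {x y : ℂ} (hx : 0 < x.im) (hy : 0 < y.im) :
    ‖x - y‖ = rho x y * ‖x - (starRingEnd ℂ) y‖ := by
  unfold rho
  rw [div_mul_cancel₀ _ (norm_sub_conj_pos hx hy).ne']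

theorem rho_neg_inv {x y : ℂ} (hx : x ≠ 0) (hy : y ≠ 0) : rho (-1 / x) (-1 / y) = rho x y := by
  unfold rho
  have hy' : (starRingEnd ℂ) y ≠ 0 := by simpa using hy
  have e1 : -1 / x - -1 / y = (x - y) / (x * y) := by field_simp; ring
  have e2 : -1 / x - (starRingEnd ℂ) (-1 / y) = (x - (starRingEnd ℂ) y) / (x * (starRingEnd ℂ) y) := by
    rw [map_div₀, map_neg, map_one]; field_simp; ring
  rw [e1, e2, norm_div, norm_div, norm_mul, norm_mul, norm_conj]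
  have : ‖x‖ * ‖y‖ ≠ 0 := by
    have := norm_pos_iff.2 hx; have := norm_pos_iff.2 hy; positivity
  rw [div_div_div_cancel_right₀ this]

/-- Cauchy-Schwarz: sums do not increase the hyperbolic ratio. -/
theorem norm_sum_le_kappa {ι : Type*} (s : Finset ι) (x y : ι → ℂ) (κ : ℝ) (hκ : 0 ≤ κ)
    (hx : ∀ j ∈ s, 0 ≤ (x j).im) (hy : ∀ j ∈ s, 0 ≤ (y j).im)
    (h : ∀ j ∈ s, ‖x j - y j‖ ≤ κ * (2 * (Real.sqrt (x j).im * Real.sqrt (y j).im))) :
    ‖∑ j ∈ s, (x j - y j)‖ ≤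
      κ * (2 * (Real.sqrt (∑ j ∈ s, (x j).im) * Real.sqrt (∑ j ∈ s, (y j).im))) := by
  refine (norm_sum_le _ _).trans ((Finset.sum_le_sum h).trans ?_)
  rw [← Finset.mul_sum, ← Finset.mul_sum]
  refine mul_le_mul_of_nonneg_left (mul_le_mul_of_nonneg_left ?_ (by norm_num)) hκ
  have key := Finset.sum_mul_sq_le_sq_mul_sq s (fun j => Real.sqrt (x j).im)
    (fun j => Real.sqrt (y j).im)
  have e1 : ∑ j ∈ s, Real.sqrt (x j).im ^ 2 = ∑ j ∈ s, (x j).im :=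
    Finset.sum_congr rfl fun j hj => Real.sq_sqrt (hx j hj)
  have e2 : ∑ j ∈ s, Real.sqrt (y j).im ^ 2 = ∑ j ∈ s, (y j).im :=
    Finset.sum_congr rfl fun j hj => Real.sq_sqrt (hy j hj)
  rw [e1, e2] at key
  rw [← Real.sqrt_mul (Finset.sum_nonneg hx)]
  exact Real.le_sqrt_of_sq_le key

theorem rho_le_of_kappa {S T : ℂ} (hS : 0 < S.im) (hT : 0 < T.im) {κ : ℝ}
    (h : ‖S - T‖ ≤ κ * (2 * (Real.sqrt S.im * Real.sqrt T.im))) :
    rho S T ^ 2 ≤ κ ^ 2 / (κ ^ 2 + 1) := by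
  rw [rho_sq]
  have h4 : 0 < 4 * S.im * T.im := by positivity
  have h2 : ‖S - T‖ ^ 2 ≤ κ ^ 2 * (4 * S.im * T.im) := by
    have h0 : 0 ≤ ‖S - T‖ := norm_nonneg _
    calc ‖S - T‖ ^ 2 ≤ (κ * (2 * (Real.sqrt S.im * Real.sqrt T.im))) ^ 2 :=
          pow_le_pow_left₀ h0 h 2
      _ = κ ^ 2 * (4 * (Real.sqrt S.im ^ 2 * Real.sqrt T.im ^ 2)) := by ring
      _ = _ := by rw [Real.sq_sqrt hS.le, Real.sq_sqrt hT.le]; ring
  have h3 : 0 ≤ ‖S - T‖ ^ 2 := by positivity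
  rw [div_le_div_iff₀ (by positivity) (by positivity)]
  nlinarith

/-- the maximum principle for the recursion. -/
theorem rho_sum_le_max {ι : Type*} (s : Finset ι) (hs : s.Nonempty) (x y : ι → ℂ) (c : ℂ)
    (hc : 0 ≤ c.im) (hx : ∀ j ∈ s, 0 < (x j).im) (hy : ∀ j ∈ s, 0 < (y j).im) :
    ∃ j ∈ s, rho (c + ∑ j ∈ s, x j) (c + ∑ j ∈ s, y j) ≤ rho (x j) (y j) := by
  obtain ⟨j0, hj0, hmax⟩ := Finset.exists_max_image s
    (fun j => ‖x j - y j‖ / (2 * (Real.sqrt (x j).im * Real.sqrt (y j).im))) hs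
  refine ⟨j0, hj0, ?_⟩
  obtain ⟨κ, hκdef⟩ : ∃ κ, κ = ‖x j0 - y j0‖ / (2 * (Real.sqrt (x j0).im * Real.sqrt (y j0).im)) :=
    ⟨_, rfl⟩
  have hκ : 0 ≤ κ := by rw [hκdef]; positivity
  have hpos : ∀ j ∈ s, 0 < 2 * (Real.sqrt (x j).im * Real.sqrt (y j).im) := fun j hj => by
    have := Real.sqrt_pos.2 (hx j hj); have := Real.sqrt_pos.2 (hy j hj); positivity
  have hle : ∀ j ∈ s, ‖x j - y j‖ ≤ κ * (2 * (Real.sqrt (x j).im * Real.sqrt (y j).im)) := by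
    intro j hj
    have := hmax j hj
    rw [← hκdef] at this
    exact (div_le_iff₀ (hpos j hj)).1 this
  have h1 := norm_sum_le_kappa s x y κ hκ (fun j hj => (hx j hj).le) (fun j hj => (hy j hj).le) hle
  have hsx : 0 < ∑ j ∈ s, (x j).im := Finset.sum_pos hx hs
  have hsy : 0 < ∑ j ∈ s, (y j).im := Finset.sum_pos hy hs
  have e1 : (c + ∑ j ∈ s, x j).im = c.im + ∑ j ∈ s, (x j).im := by simp
  have e2 : (c + ∑ j ∈ s, y j).im = c.im + ∑ j ∈ s, (y j).im := by simp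
  have h2 : ‖(c + ∑ j ∈ s, x j) - (c + ∑ j ∈ s, y j)‖ ≤
      κ * (2 * (Real.sqrt (c + ∑ j ∈ s, x j).im * Real.sqrt (c + ∑ j ∈ s, y j).im)) := by
    rw [add_sub_add_left_eq_sub, ← Finset.sum_sub_distrib]
    refine h1.trans ?_
    refine mul_le_mul_of_nonneg_left (mul_le_mul_of_nonneg_left ?_ (by norm_num)) hκ
    rw [e1, e2]
    exact mul_le_mul (Real.sqrt_le_sqrt (by linarith)) (Real.sqrt_le_sqrt (by linarith))
      (Real.sqrt_nonneg _) (Real.sqrt_nonneg _)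
  have h3 := rho_le_of_kappa (by rw [e1]; linarith) (by rw [e2]; linarith) h2
  have h4 : κ ^ 2 / (κ ^ 2 + 1) = rho (x j0) (y j0) ^ 2 := by
    have hx0 := hx j0 hj0
    have hy0 := hy j0 hj0
    have hk2 : κ ^ 2 * (4 * (x j0).im * (y j0).im) = ‖x j0 - y j0‖ ^ 2 := by
      rw [hκdef, div_pow]
      have : (2 * (Real.sqrt (x j0).im * Real.sqrt (y j0).im)) ^ 2 = 4 * (x j0).im * (y j0).im := by
        rw [mul_pow, mul_pow, Real.sq_sqrt hx0.le, Real.sq_sqrt hy0.le]; ring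
      rw [this, div_mul_cancel₀]
      positivity
    rw [rho_sq, ← hk2]
    have : 0 < 4 * (x j0).im * (y j0).im := by positivity
    rw [div_eq_div_iff (by positivity) (by positivity)]
    ring
  rw [h4] at h3
  exact (pow_le_pow_iff_left₀ (rho_nonneg _ _) (rho_nonneg _ _) (by norm_num)).1 h3

/-- the value of the sum in the cavity map. -/
def SS (z : ℂ) (t : ℝ) (x : Fin b → ℂ) : ℂ := z - t + ∑ j, x j

theorem SS_im (z : ℂ) (t : ℝ) (x : Fin b → ℂ) : (SS z t x).im = z.im + ∑ j, (x j).im := by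
  simp [SS]

theorem Adm.SS_im_pos (h : Adm b y0 z m) (t : ℝ) (x : Fin b → ℂ) (hx : ∀ j, 0 < (x j).im) :
    0 < (SS z t x).im := by
  rw [SS_im]
  have hb := h.hb
  have : NeZero b := ⟨by omega⟩
  have : 0 < ∑ j, (x j).im := Finset.sum_pos (fun j _ => hx j) ⟨0, Finset.mem_univ _⟩
  linarith [h.hz]

theorem ne_zero_of_im_pos {S : ℂ} (h : 0 < S.im) : S ≠ 0 := by
  rintro rfl; simp at h

theorem Adm.rho_cav (h : Adm b y0 z m) (t : ℝ) (x y : Fin b → ℂ)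
    (hx : ∀ j, 0 < (x j).im) (hy : ∀ j, 0 < (y j).im) :
    rho (cav z t x) (cav z t y) = rho (SS z t x) (SS z t y) :=
  rho_neg_inv (ne_zero_of_im_pos (h.SS_im_pos t x hx)) (ne_zero_of_im_pos (h.SS_im_pos t y hy))

theorem Adm.rho_cav_le_max (h : Adm b y0 z m) (t : ℝ) (x y : Fin b → ℂ)
    (hx : ∀ j, 0 < (x j).im) (hy : ∀ j, 0 < (y j).im) :
    ∃ j, rho (cav z t x) (cav z t y) ≤ rho (x j) (y j) := by
  rw [h.rho_cav t x y hx hy]
  have hb := h.hb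
  have : NeZero b := ⟨by omega⟩
  obtain ⟨j, -, hj⟩ := rho_sum_le_max (Finset.univ : Finset (Fin b)) ⟨0, Finset.mem_univ _⟩ x y
    (z - t) (by simpa using h.hz) (fun j _ => hx j) (fun j _ => hy j)
  exact ⟨j, hj⟩

theorem Adm.rho_cav_le_sum (h : Adm b y0 z m) (t : ℝ) (x y : Fin b → ℂ)
    (hx : ∀ j, 0 < (x j).im) (hy : ∀ j, 0 < (y j).im) :
    rho (cav z t x) (cav z t y) ≤ ∑ j, rho (x j) (y j) := by
  obtain ⟨j, hj⟩ := h.rho_cav_le_max t x y hx hy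
  exact hj.trans (Finset.single_le_sum (f := fun j => rho (x j) (y j))
    (fun j _ => rho_nonneg _ _) (Finset.mem_univ j))

theorem Adm.rho_cav_sq_le_sum (h : Adm b y0 z m) (t : ℝ) (x y : Fin b → ℂ)
    (hx : ∀ j, 0 < (x j).im) (hy : ∀ j, 0 < (y j).im) :
    rho (cav z t x) (cav z t y) ^ 2 ≤ ∑ j, rho (x j) (y j) ^ 2 := by
  obtain ⟨j, hj⟩ := h.rho_cav_le_max t x y hx hy
  exact (pow_le_pow_left₀ (rho_nonneg _ _) hj 2).trans
    (Finset.single_le_sum (f := fun j => rho (x j) (y j) ^ 2)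
    (fun j _ => by positivity) (Finset.mem_univ j))

theorem im_neg_inv_pos {S : ℂ} (hS : 0 < S.im) : 0 < (-1 / S).im := by
  have hne := ne_zero_of_im_pos hS
  have h1 : (-1 / S).im = S.im / normSq S := by
    rw [neg_div, one_div, Complex.neg_im, Complex.inv_im]; ring
  rw [h1]
  exact div_pos hS (normSq_pos.2 hne)

theorem Adm.cav_im_pos (h : Adm b y0 z m) (t : ℝ) (x : Fin b → ℂ) (hx : ∀ j, 0 < (x j).im) :
    0 < (cav z t x).im := im_neg_inv_pos (h.SS_im_pos t x hx)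

/-- `1 - m x` in terms of the displacement. -/
theorem one_sub_mul (m x : ℂ) : 1 - m * x = 1 - m ^ 2 - m * (x - m) := by ring

theorem Adm.disp_im (h : Adm b y0 z m) {x : ℂ} (hx : 0 ≤ x.im) :
    -(b * m.im) ≤ (x - m).im := by
  have := h.im_pos
  have := h.b2
  simp
  nlinarith

theorem Adm.one_sub_ne (h : Adm b y0 z m) {x : ℂ} (hx : 0 ≤ x.im) : 1 - m * x ≠ 0 := by
  rw [one_sub_mul]; exact h.den_ne (h.disp_im hx)

theorem Adm.norm_uu_le (h : Adm b y0 z m) {x : ℂ} (hx : 0 ≤ x.im) : ‖uu m x‖ ≤ BB y0 := by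
  rw [uu_eq_ut]; exact h.norm_ut_le (h.disp_im hx)

theorem Adm.uu_sub (h : Adm b y0 z m) {x y : ℂ} (hx : 0 ≤ x.im) (hy : 0 ≤ y.im) :
    uu m x - uu m y = (1 - m ^ 2) * (x - y) / ((1 - m * x) * (1 - m * y)) := by
  have h1 := h.one_sub_ne hx
  have h2 := h.one_sub_ne hy
  unfold uu
  rw [div_sub_div _ _ h1 h2]
  congr 1
  ring

/-- Lipschitz bound of the bounded coordinate in the pseudo-hyperbolic metric. -/
theorem Adm.uu_lip (h : Adm b y0 z m) {x y : ℂ} (hx : 0 < x.im) (hy : 0 < y.im) :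
    ‖uu m x - uu m y‖ ≤ 3 / y0 * rho x y := by
  have h1 := h.one_sub_ne hx.le
  have h2 := h.one_sub_ne hy.le
  have hm := h.ne_zero
  have hi := h.im_pos
  have hyp := h.hy
  have hm0 := h.norm_pos
  obtain ⟨w, hw⟩ : ∃ w, w = 1 / m := ⟨_, rfl⟩
  have ex : ‖1 - m * x‖ = ‖m‖ * ‖x - w‖ := by
    rw [← norm_mul, hw, ← norm_neg]; congr 1; field_simp; ring
  have ey : ‖1 - m * y‖ = ‖m‖ * ‖y - w‖ := by
    rw [← norm_mul, hw, ← norm_neg]; congr 1; field_simp; ring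
  have hwim : w.im = - (m.im / normSq m) := by
    rw [hw, one_div, Complex.inv_im]; ring
  have hnm : 0 < normSq m := normSq_pos.2 hm
  have hwneg : 0 < m.im / normSq m := div_pos hi hnm
  have hxw : m.im / normSq m ≤ ‖x - w‖ := by
    refine le_trans ?_ (abs_im_le_norm _)
    rw [sub_im, hwim, abs_of_pos (by linarith)]; linarith
  have hyw : m.im / normSq m ≤ ‖y - w‖ := by
    refine le_trans ?_ (abs_im_le_norm _)
    rw [sub_im, hwim, abs_of_pos (by linarith)]; linarith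
  have hyc : ‖(starRingEnd ℂ) y - w‖ ≤ ‖y - w‖ := by
    refine (pow_le_pow_iff_left₀ (norm_nonneg _) (norm_nonneg _) two_ne_zero).1 ?_
    rw [← normSq_eq_norm_sq, ← normSq_eq_norm_sq, normSq_apply, normSq_apply]
    simp only [sub_re, sub_im, conj_re, conj_im]
    rw [hwim]
    nlinarith
  have hxy : ‖x - (starRingEnd ℂ) y‖ ≤ ‖x - w‖ + ‖y - w‖ := by
    have : x - (starRingEnd ℂ) y = (x - w) - ((starRingEnd ℂ) y - w) := by ring
    rw [this]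
    exact (norm_sub_le _ _).trans (by linarith)
  rw [h.uu_sub hx.le hy.le, norm_div, norm_mul, norm_mul, ex, ey, norm_sub_eq_rho hx hy]
  have hX : 0 < ‖x - w‖ := lt_of_lt_of_le hwneg hxw
  have hY : 0 < ‖y - w‖ := lt_of_lt_of_le hwneg hyw
  have hr := rho_nonneg x y
  have ha := h.norm_a_le
  have key : ‖x - (starRingEnd ℂ) y‖ / (‖m‖ * ‖x - w‖ * (‖m‖ * ‖y - w‖)) ≤ 2 / y0 := by
    have e1 : ‖m‖ * ‖x - w‖ * (‖m‖ * ‖y - w‖) = normSq m * (‖x - w‖ * ‖y - w‖) := by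
      rw [← Adm.sq_norm]; ring
    rw [e1, div_le_div_iff₀ (by positivity) hyp]
    have h3 : m.im ≤ normSq m * ‖x - w‖ := by
      rw [div_le_iff₀ hnm] at hxw; linarith
    have h4 : m.im ≤ normSq m * ‖y - w‖ := by
      rw [div_le_iff₀ hnm] at hyw; linarith
    have h5 : y0 ≤ m.im := h.him
    calc ‖x - (starRingEnd ℂ) y‖ * y0 ≤ (‖x - w‖ + ‖y - w‖) * m.im := by
          apply mul_le_mul hxy h5 hyp.le (by positivity)
      _ = ‖x - w‖ * m.im + ‖y - w‖ * m.im := by ring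
      _ ≤ ‖x - w‖ * (normSq m * ‖y - w‖) + ‖y - w‖ * (normSq m * ‖x - w‖) := by
          exact add_le_add (mul_le_mul_of_nonneg_left h4 hX.le)
            (mul_le_mul_of_nonneg_left h3 hY.le)
      _ = 2 * (normSq m * (‖x - w‖ * ‖y - w‖)) := by ring
  calc ‖1 - m ^ 2‖ * (rho x y * ‖x - (starRingEnd ℂ) y‖) / (‖m‖ * ‖x - w‖ * (‖m‖ * ‖y - w‖))
      = ‖1 - m ^ 2‖ * rho x y * (‖x - (starRingEnd ℂ) y‖ / (‖m‖ * ‖x - w‖ * (‖m‖ * ‖y - w‖))) := by
        ring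
    _ ≤ (3 / 2) * rho x y * (2 / y0) := by
        apply mul_le_mul (mul_le_mul_of_nonneg_right ha hr) key (by positivity) (by positivity)
    _ = _ := by ring

/-- points with small coordinate are close to `m`. -/
theorem Adm.disp_le (h : Adm b y0 z m) {x : ℂ} (hx : 0 ≤ x.im) {r : ℝ} (hr : r ≤ 1 / 4)
    (hu : ‖uu m x‖ ≤ r) : ‖x - m‖ ≤ 2 * r := by
  have hne := h.one_sub_ne hx
  have e0 : uu m x * (1 - m * x) = x - m := div_mul_cancel₀ _ hne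
  have e1 : x - m = uu m x * (1 - m ^ 2) - m * uu m x * (x - m) := by
    linear_combination -e0
  have hr0 : 0 ≤ r := (norm_nonneg _).trans hu
  have ha := h.norm_a_le
  have hm := h.norm_le
  have h1 : ‖x - m‖ ≤ ‖uu m x‖ * ‖1 - m ^ 2‖ + ‖m‖ * ‖uu m x‖ * ‖x - m‖ := by
    calc ‖x - m‖ = ‖uu m x * (1 - m ^ 2) - m * uu m x * (x - m)‖ := by rw [← e1]
      _ ≤ _ := by
        refine (norm_sub_le _ _).trans ?_
        rw [norm_mul, norm_mul, norm_mul]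
  have h2 : ‖uu m x‖ * ‖1 - m ^ 2‖ ≤ r * (3 / 2) := mul_le_mul hu ha (norm_nonneg _) hr0
  have h3 : ‖m‖ * ‖uu m x‖ ≤ 3 / 4 * (1 / 4) :=
    mul_le_mul hm (hu.trans hr) (norm_nonneg _) (by norm_num)
  have h4 := mul_le_mul_of_nonneg_right h3 (norm_nonneg (x - m))
  have h5 := norm_nonneg (x - m)
  nlinarith

end

end Crest.Agent.R166.TreeDet350
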