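import Mathlib
import Crest.Prelude.Def_AndersonTree
import Crest.Agent.R166.TreeDet_350
/-!
Row 166, sections 32/70: the cavity field on the infinite `b`-ary tree (`b = d - 1`).
The tree is `List (Fin b)`, HEAD = first step from the root; `ω : List (Fin b) → ℝ`.
(helper350)
-/
set_option autoImplicit false

namespace Crest.Agent.R166.TreeDefs350

open MeasureTheory Crest.Agent.R166.TreeDet350

noncomputable section

/-- uniform law on `[-1,1]` (one factor of `potentialLaw`). -/
def unif : Measure ℝ := (2⁻¹ : NNReal) • volume.restrict (Set.Icc (-1 : ℝ) 1)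

instance : IsProbabilityMeasure unif := by
  constructor
  simp only [unif, Measure.smul_apply, Measure.restrict_apply MeasurableSet.univ, Set.univ_inter,
    Real.volume_Icc]
  norm_num
  rw [ENNReal.smul_def]
  simp
  rw [ENNReal.inv_mul_cancel] <;> simp

/-- law of the disorder on the `b`-ary tree. -/
def PT (b : ℕ) : Measure (List (Fin b) → ℝ) := Measure.infinitePi fun _ => unif

instance (b : ℕ) : IsProbabilityMeasure (PT b) := by unfold PT; infer_instance

/-- the disorder seen from the `j`-th child of the root. -/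
def sub {b : ℕ} (j : Fin b) (ω : List (Fin b) → ℝ) : List (Fin b) → ℝ := fun p => ω (j :: p)

/-- cavity value at the root of the depth-`N` tree. -/
def Xn (b : ℕ) (s : ℝ) (z : ℂ) : ℕ → (List (Fin b) → ℝ) → ℂ
  | 0, ω => -1 / (z - (s * ω [] : ℝ))
  | N + 1, ω => cav z (s * ω []) fun j : Fin b => Xn b s z N (sub j ω)

/-- cavity value at the root of the infinite tree (limit of `Xn`; meaningful for `0 < Im z`). -/
def XX (b : ℕ) (s : ℝ) (z : ℂ) (ω : List (Fin b) → ℝ) : ℂ :=
  Filter.limUnder Filter.atTop fun N => Xn b s z N ω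

/-- averaged Green function at the root of the infinite `d`-regular tree, `d = b+1`. -/
def Gav (b : ℕ) (s : ℝ) (z : ℂ) : ℂ :=
  ∫ w : ℝ, ∫ ω : Fin (b + 1) → List (Fin b) → ℝ,
    -1 / (z - (s * w : ℝ) + ∑ i, XX b s z (ω i)) ∂(Measure.pi fun _ => PT b) ∂unif

end

end Crest.Agent.R166.TreeDefs350
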