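import Crest.Agent.R166.EnvA_536
import Crest.Agent.R166.TreeDefs_350

/-!
# Row 166, section 32/70: moments of the tree operator (helper356)

`Env536.Node d` = nodes of the `d`-regular tree seen from a directed edge, `Env536.Tl s Ω` the tree
operator on it.  `phi : Node d → List (Fin d)` is an isomorphism onto the tree of
`Def_AndersonTree` (words without repeated letters), and

`∫ ((Tl s Ω) ^ k δ_root) root d(⊗ unif) = treeMoment d s k` (`integral_Tl_pow`).
-/

set_option autoImplicit false

namespace Crest.Agent.R166.TreeWalk356

open Finset MeasureTheory Crest.ProbabilityR.RandomMatrix Crest.Agent.R166.Env536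
  Crest.Agent.R166.TreeDefs350

/-! ### the operator on words -/

section words

variable {d : ℕ}

/-- the tree operator on words -/
def Hw (s : ℝ) (ω : List (Fin d) → ℝ) : Module.End ℝ (List (Fin d) → ℝ) where
  toFun F l := ((treeMoves d l).map F).sum + s * ω l * F l
  map_add' F G := by
    funext l
    have : ((treeMoves d l).map (F + G)).sum =
        ((treeMoves d l).map F).sum + ((treeMoves d l).map G).sum := by
      rw [← List.sum_map_add]; rfl
    simp only [this, Pi.add_apply]
    ring
  map_smul' c F := by
    funext l
    have : ((treeMoves d l).map (c • F)).sum = c * ((treeMoves d l).map F).sum := by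
      rw [← List.sum_map_mul_left]; rfl
    simp only [this, Pi.smul_apply, smul_eq_mul, RingHom.id_apply]
    ring

lemma Hw_apply (s : ℝ) (ω : List (Fin d) → ℝ) (F : List (Fin d) → ℝ) (l : List (Fin d)) :
    Hw s ω F l = ((treeMoves d l).map F).sum + s * ω l * F l := rfl

/-- weight of a lazy walk -/
def wt (s : ℝ) (ω : List (Fin d) → ℝ) : List (List (Fin d)) → ℝ
  | u :: v :: w => (if u = v then s * ω v else 1) * wt s ω (v :: w)
  | _ => 1

lemma wt_cons_cons (s : ℝ) (ω : List (Fin d) → ℝ) (u v : List (Fin d)) (w : List (List (Fin d))) :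
    wt s ω (u :: v :: w) = (if u = v then s * ω v else 1) * wt s ω (v :: w) := rfl

lemma ne_of_mem_treeMoves {l u : List (Fin d)} (h : u ∈ treeMoves d l) : u ≠ l := by
  unfold treeMoves at h
  rw [List.mem_append] at h
  rcases h with h | h
  · rw [List.mem_map] at h
    obtain ⟨b, _, rfl⟩ := h
    intro he
    have := congrArg List.length he
    simp at this
  · by_cases hl : l = []
    · rw [if_pos hl] at h; simp at h
    · rw [if_neg hl] at h
      simp only [List.mem_singleton] at h
      subst h
      obtain ⟨a, l', rfl⟩ := List.exists_cons_of_ne_nil hl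
      intro he
      have := congrArg List.length he
      simp at this

lemma lazyWalks_ne_nil : ∀ (k : ℕ) (w : List (List (Fin d))), w ∈ lazyWalks d k → w ≠ []
  | 0, w, h => by
    simp only [lazyWalks, List.mem_singleton] at h
    rw [h]; simp
  | k + 1, w, h => by
    simp only [lazyWalks, List.mem_flatMap, List.mem_map] at h
    obtain ⟨w', _, u, _, rfl⟩ := h
    simp

lemma sum_flatMap_map {α β : Type*} (l : List α) (f : α → List β) (g : β → ℝ) :
    ((l.flatMap f).map g).sum = (l.map fun a => ((f a).map g).sum).sum := by
  induction l with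
  | nil => simp
  | cons a l ih => simp [List.flatMap_cons, ih]

/-- expansion into lazy walks -/
theorem Hw_pow (s : ℝ) (ω : List (Fin d) → ℝ) (k : ℕ) (F : List (Fin d) → ℝ) :
    ((Hw s ω) ^ k) F [] = ((lazyWalks d k).map fun w => wt s ω w * F (w.headD [])).sum := by
  induction k generalizing F with
  | zero => simp [lazyWalks, wt]
  | succ k ih =>
    rw [pow_succ, Module.End.mul_apply, ih]
    show _ = ((lazyWalks d (k + 1)).map fun w => wt s ω w * F (w.headD [])).sum
    rw [lazyWalks, sum_flatMap_map]
    congr 1
    apply List.map_congr_left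
    intro w hw
    obtain ⟨v, w', rfl⟩ := List.exists_cons_of_ne_nil (lazyWalks_ne_nil k w hw)
    simp only [List.headD_cons, List.map_cons, List.sum_cons, List.map_map, wt_cons_cons,
      if_true, Hw_apply]
    have : ((treeMoves d v).map ((fun w => wt s ω w * F (w.headD [])) ∘ fun u => u :: v :: w')).sum
        = wt s ω (v :: w') * ((treeMoves d v).map F).sum := by
      rw [← List.sum_map_mul_left]
      congr 1
      apply List.map_congr_left
      intro u hu
      simp only [Function.comp, wt_cons_cons, if_neg (ne_of_mem_treeMoves hu), one_mul,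
        List.headD_cons]
    rw [this]
    ring

lemma stayCount_cons (u v x : List (Fin d)) (w : List (List (Fin d))) :
    stayCount (u :: v :: w) x = stayCount (v :: w) x + if u = x ∧ v = x then 1 else 0 := by
  simp only [stayCount, List.tail_cons, List.zip_cons_cons, List.countP_cons, decide_eq_true_eq]

lemma wt_eq (s : ℝ) (ω : List (Fin d) → ℝ) (w : List (List (Fin d))) (S : Finset (List (Fin d)))
    (hS : ∀ v ∈ w, v ∈ S) : wt s ω w = ∏ v ∈ S, (s * ω v) ^ stayCount w v := by
  induction w with
  | nil => simp [wt, stayCount]
  | cons u w ih =>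
    rcases w with _ | ⟨v, w⟩
    · simp [wt, stayCount]
    · rw [wt_cons_cons, ih (fun x hx => hS x (List.mem_cons_of_mem _ hx))]
      simp only [stayCount_cons, pow_add, Finset.prod_mul_distrib]
      rw [mul_comm]
      congr 1
      by_cases h : u = v
      · subst h
        rw [if_pos rfl]
        simp only [and_self]
        rw [Finset.prod_eq_single u]
        · simp
        · intro b _ hb
          rw [if_neg (fun h => hb h.symm), pow_zero]
        · intro hu
          exact absurd (hS u (by simp)) hu
      · rw [if_neg h]
        symm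
        apply Finset.prod_eq_one
        intro b _
        rw [if_neg (fun hb => h (hb.1.trans hb.2.symm)), pow_zero]

end words

/-! ### moments of the uniform law -/

lemma integrable_pow_unif (m : ℕ) : Integrable (fun x : ℝ => x ^ m) unif := by
  unfold unif
  apply Integrable.smul_measure_nnreal
  exact (_root_.continuous_pow m).integrableOn_Icc

lemma integral_pow_unif (m : ℕ) : ∫ x, x ^ m ∂unif = uniformMoment m := by
  unfold unif
  rw [integral_smul_nnreal_measure, integral_Icc_eq_integral_Ioc,
    ← intervalIntegral.integral_of_le (by norm_num), integral_pow]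
  unfold uniformMoment
  split_ifs with h
  · rw [Odd.neg_one_pow (h.add_one), NNReal.smul_def]
    simp only [one_pow, NNReal.coe_inv, NNReal.coe_ofNat, smul_eq_mul]
    ring
  · rw [Nat.not_even_iff_odd] at h
    rw [Even.neg_one_pow h.add_one]
    simp

variable {ι : Type*}

/-- product of powers of finitely many coordinates -/
lemma integral_prod_pow (s : ℝ) (S : Finset ι) (m : ι → ℕ) :
    ∫ ω, ∏ v ∈ S, (s * ω v) ^ m v ∂(Measure.infinitePi fun _ : ι => unif) =
      ∏ v ∈ S, (s ^ m v * uniformMoment (m v)) := by
  classical
  have h1 : ∀ ω : ι → ℝ, ∏ v ∈ S, (s * ω v) ^ m v =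
      (fun y : (S → ℝ) => ∏ i : S, (s ^ m i * (y i) ^ m i)) (S.restrict ω) := by
    intro ω
    simp only [Finset.restrict]
    rw [← Finset.prod_coe_sort]
    simp only [mul_pow]
  rw [integral_congr_ae (ae_of_all _ h1), integral_restrict_infinitePi
    (μ := fun _ : ι => unif) (s := S) (f := fun y : (S → ℝ) => ∏ i : S, (s ^ m i * (y i) ^ m i))
    (Measurable.aestronglyMeasurable (by fun_prop)),
    integral_fintype_prod_eq_prod (f := fun (i : S) (x : ℝ) => s ^ m i * x ^ m i),
    ← Finset.prod_coe_sort S (fun v => s ^ m v * uniformMoment (m v))]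
  apply Finset.prod_congr rfl
  intro i _
  rw [integral_const_mul, integral_pow_unif]

lemma integrable_prod_pow (s : ℝ) (S : Finset ι) (m : ι → ℕ) :
    Integrable (fun ω => ∏ v ∈ S, (s * ω v) ^ m v) (Measure.infinitePi fun _ : ι => unif) := by
  classical
  have h1 : (fun ω : ι → ℝ => ∏ v ∈ S, (s * ω v) ^ m v) =
      (fun y : (S → ℝ) => ∏ i : S, (s ^ m i * (y i) ^ m i)) ∘ (S.restrict) := by
    funext ω
    simp only [Function.comp, Finset.restrict]
    rw [← Finset.prod_coe_sort]
    simp only [mul_pow]
  rw [h1]
  have h2 : MeasurePreserving (S.restrict (π := fun _ : ι => ℝ))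
      (Measure.infinitePi fun _ : ι => unif) (Measure.pi fun _ : S => unif) :=
    ⟨by fun_prop, Measure.infinitePi_map_restrict _⟩
  apply h2.integrable_comp_of_integrable
  exact Integrable.fintype_prod (f := fun (i : S) (x : ℝ) => s ^ m i * x ^ m i)
    (fun i => (integrable_pow_unif _).const_mul _)

lemma integral_list_sum {α Ω : Type*} [MeasurableSpace Ω] (μ : Measure Ω) (l : List α)
    (f : α → Ω → ℝ) (hf : ∀ a ∈ l, Integrable (f a) μ) :
    ∫ ω, (l.map fun a => f a ω).sum ∂μ = (l.map fun a => ∫ ω, f a ω ∂μ).sum := by
  have h : Integrable (fun ω => (l.map fun a => f a ω).sum) μ ∧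
      ∫ ω, (l.map fun a => f a ω).sum ∂μ = (l.map fun a => ∫ ω, f a ω ∂μ).sum := by
    induction l with
    | nil => simp
    | cons a l ih =>
      obtain ⟨ih1, ih2⟩ := ih (fun b hb => hf b (List.mem_cons_of_mem _ hb))
      have ha := hf a (by simp)
      simp only [List.map_cons, List.sum_cons]
      exact ⟨ha.add ih1, by rw [integral_add ha ih1, ih2]⟩
  exact h.2

lemma sum_filter_map {α : Type*} (l : List α) (p : α → Prop) [DecidablePred p] (g h : α → ℝ)
    (h1 : ∀ a ∈ l, p a → g a = h a) (h0 : ∀ a ∈ l, ¬ p a → g a = 0) :
    (l.map g).sum = ((l.filter p).map h).sum := by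
  induction l with
  | nil => simp
  | cons a l ih =>
    have ih' := ih (fun b hb => h1 b (List.mem_cons_of_mem _ hb))
      (fun b hb => h0 b (List.mem_cons_of_mem _ hb))
    by_cases hp : p a
    · rw [List.filter_cons_of_pos (by simpa using hp), List.map_cons, List.map_cons, List.sum_cons,
        List.sum_cons, ih', h1 a (by simp) hp]
    · rw [List.filter_cons_of_neg (by simpa using hp), List.map_cons, List.sum_cons, ih',
        h0 a (by simp) hp, zero_add]

/-- moments of the word operator -/
theorem integral_Hw_pow (d : ℕ) (s : ℝ) (k : ℕ) :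
    ∫ ω, ((Hw s ω) ^ k) (fun l => if l = [] then 1 else 0) []
      ∂(Measure.infinitePi fun _ : List (Fin d) => unif) = treeMoment d s k := by
  simp only [Hw_pow]
  have hw : ∀ (ω : List (Fin d) → ℝ) (w : List (List (Fin d))),
      wt s ω w = ∏ v ∈ w.toFinset, (s * ω v) ^ stayCount w v := fun ω w =>
    wt_eq s ω w _ (fun v hv => by simpa using hv)
  rw [integral_list_sum]
  · unfold treeMoment
    apply sum_filter_map
    · intro w _ hp
      simp only [hw, if_pos hp, mul_one]
      have hd : w.toFinset = w.dedup.toFinset := by ext; simp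
      rw [integral_prod_pow, hd, List.prod_toFinset _ (List.nodup_dedup w)]
    · intro w _ hp
      simp only [if_neg hp, mul_zero, integral_zero]
  · intro w _
    simp only [hw]
    exact (integrable_prod_pow s w.toFinset _).mul_const _

/-! ### the isomorphism `Node d → words` -/

section iso

variable {d : ℕ} [NeZero d]

/-- word of a node -/
def phiA (b : Bool) : List (Lt d) → List (Fin d)
  | [] => if b then [] else [0]
  | k :: l => ((phiA b l).headD 0 + k.1) :: phiA b l

/-- word of a node -/
def phi (x : Node d) : List (Fin d) := phiA x.1 x.2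

@[simp] lemma phi_true : phi ((true, []) : Node d) = [] := rfl
@[simp] lemma phi_false : phi ((false, []) : Node d) = [0] := rfl
lemma phi_cons (b : Bool) (k : Lt d) (l : List (Lt d)) :
    phi (b, k :: l) = ((phi (b, l)).headD 0 + k.1) :: phi (b, l) := rfl

lemma phi_eq_nil {x : Node d} : phi x = [] ↔ x = (true, []) := by
  rcases x with ⟨b, _ | ⟨k, l⟩⟩
  · cases b <;> simp [phi, phiA]
  · rw [phi_cons]; simp

lemma phi_injective : Function.Injective (phi : Node d → List (Fin d)) := by
  rintro ⟨b, l⟩
  induction l with
  | nil =>
    rintro ⟨b', l'⟩ h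
    rcases l' with _ | ⟨k, l'⟩
    · cases b <;> cases b' <;> simp_all
    · rw [phi_cons] at h
      cases b
      · rw [phi_false] at h
        simp only [List.cons.injEq] at h
        have h2 := phi_eq_nil.1 h.2.symm
        rw [h2, phi_true] at h
        simp only [List.headD_nil, zero_add] at h
        exact absurd h.1.symm k.2
      · simp at h
  | cons k l ih =>
    rintro ⟨b', l'⟩ h
    rcases l' with _ | ⟨k', l'⟩
    · rw [phi_cons] at h
      cases b'
      · rw [phi_false] at h
        simp only [List.cons.injEq] at h
        have h2 := phi_eq_nil.1 h.2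
        rw [h2, phi_true] at h
        simp only [List.headD_nil, zero_add] at h
        exact absurd h.1 k.2
      · simp at h
    · rw [phi_cons, phi_cons] at h
      simp only [List.cons.injEq] at h
      have h2 := ih h.2
      rw [h.2] at h
      have h3 : k = k' := Subtype.ext (add_left_cancel h.1)
      simp only [Prod.mk.injEq] at h2 ⊢
      exact ⟨h2.1, by rw [h2.2, h3]⟩

lemma sum_ne (c : Fin d) (g : Fin d → ℝ) :
    ∑ b ∈ univ.filter (fun b : Fin d => c ≠ b), g b = ∑ k : Lt d, g (c + k.1) := by
  rw [Finset.sum_subtype (p := fun k : Fin d => k ≠ 0) (univ.filter fun k : Fin d => k ≠ 0)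
    (by simp) (fun k => g (c + k)) |>.symm]
  symm
  refine Finset.sum_nbij' (fun k => c + k) (fun b => -c + b) ?_ ?_ ?_ ?_ ?_
  · intro k hk
    simp only [Finset.mem_filter, Finset.mem_univ, true_and] at hk ⊢
    intro h
    apply hk
    have : c + 0 = c + k := by rw [add_zero]; exact h
    exact (add_left_cancel this).symm
  · intro b hb
    simp only [Finset.mem_filter, Finset.mem_univ, true_and] at hb ⊢
    intro h
    apply hb
    have := congrArg (fun x => c + x) h
    simpa using this.symm
  · intro k _; simp
  · intro b _; simp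
  · intro k _; rfl

/-- the neighbours of a node -/
lemma sum_moves (x : Node d) (F : List (Fin d) → ℝ) :
    ((treeMoves d (phi x)).map F).sum = F (phi (par x)) + ∑ k : Lt d, F (phi (x.1, k :: x.2)) := by
  have key : ∀ l : List (Fin d),
      ((((List.finRange d).filter fun b => l.head? ≠ some b).map fun b => b :: l).map F).sum =
        ∑ b ∈ univ.filter (fun b : Fin d => l.head? ≠ some b), F (b :: l) := by
    intro l
    rw [List.map_map, ← List.sum_toFinset _ ((List.nodup_finRange d).filter _)]
    apply Finset.sum_congr
    · ext b; simp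
    · intro b _; rfl
  unfold treeMoves
  rw [List.map_append, List.sum_append, key]
  rcases x with ⟨b, _ | ⟨k, l⟩⟩
  · cases b
    · -- root `(false, [])`
      have h1 : phi (par ((false, []) : Node d)) = [] := rfl
      rw [h1, phi_false]
      have h2 : (univ.filter fun b : Fin d => ([0] : List (Fin d)).head? ≠ some b) =
          univ.filter fun b : Fin d => (0 : Fin d) ≠ b := by
        ext b; simp
      rw [h2, sum_ne (0 : Fin d) (fun b => F (b :: [0]))]
      simp only [List.cons_ne_self, if_false]
      rw [add_comm]
      congr 1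
      simp
    · have h1 : phi (par ((true, []) : Node d)) = [0] := rfl
      rw [h1, phi_true]
      have h2 : (univ.filter fun b : Fin d => ([] : List (Fin d)).head? ≠ some b) =
          univ := by
        ext b; simp
      rw [h2, if_pos rfl]
      simp only [List.map_nil, List.sum_nil, add_zero]
      rw [← Finset.add_sum_erase univ _ (Finset.mem_univ (0 : Fin d))]
      congr 1
      have h3 : (univ : Finset (Fin d)).erase 0 = univ.filter fun b : Fin d => (0 : Fin d) ≠ b := by
        ext b; simp [eq_comm]
      rw [h3, sum_ne (0 : Fin d) (fun b => F [b])]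
      apply Finset.sum_congr rfl
      intro k _
      rw [phi_cons]; rfl
  · have h1 : phi (par ((b, k :: l) : Node d)) = phi (b, l) := rfl
    rw [h1, phi_cons]
    set c : Fin d := (phi (b, l)).headD 0 + k.1 with hc
    have h2 : (univ.filter fun b' : Fin d => (c :: phi (b, l)).head? ≠ some b') =
        univ.filter fun b' : Fin d => c ≠ b' := by
      ext b'; simp
    rw [h2, sum_ne c (fun b' => F (b' :: c :: phi (b, l)))]
    simp only [List.cons_ne_nil, if_false, List.map_cons, List.map_nil, List.sum_cons,
      List.sum_nil, add_zero, List.tail_cons]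
    rw [add_comm]
    congr 1

/-- the covering identity for `phi` -/
lemma Tl_phi (s : ℝ) (ω : List (Fin d) → ℝ) (F : List (Fin d) → ℝ) (x : Node d) :
    Tl s (ω ∘ phi) (F ∘ phi) x = Hw s ω F (phi x) := by
  rw [Tl_apply, Hw_apply, sum_moves]
  rfl

lemma Tl_pow_phi (s : ℝ) (ω : List (Fin d) → ℝ) (k : ℕ) (F : List (Fin d) → ℝ) (x : Node d) :
    ((Tl s (ω ∘ phi)) ^ k) (F ∘ phi) x = ((Hw s ω) ^ k) F (phi x) := by
  induction k generalizing F x with
  | zero => simp
  | succ k ih =>
    rw [pow_succ, pow_succ, Module.End.mul_apply, Module.End.mul_apply, ← ih]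
    have : (Tl s (ω ∘ phi)) (F ∘ phi) = (Hw s ω F) ∘ phi := funext fun y => Tl_phi s ω F y
    rw [this]

lemma single_comp : (fun l : List (Fin d) => if l = [] then (1 : ℝ) else 0) ∘ phi =
    (Pi.single ((true, []) : Node d) (1 : ℝ) : Node d → ℝ) := by
  funext x
  simp only [Function.comp]
  by_cases h : x = (true, [])
  · rw [h]; simp
  · rw [if_neg (fun hx => h (phi_eq_nil.1 hx)), Pi.single_eq_of_ne h]

/-- **the averaged moments of the tree operator on `Node d` are the tree moments** -/
theorem integral_Tl_pow (s : ℝ) (k : ℕ) :
    ∫ Ω, ((Tl s Ω) ^ k) (Pi.single ((true, []) : Node d) (1 : ℝ)) (true, [])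
      ∂(Measure.infinitePi fun _ : Node d => unif) = treeMoment d s k := by
  have h1 := Measure.map_infinitePi_infinitePi_of_inj (P := fun _ : List (Fin d) => unif)
    (phi_injective (d := d))
  rw [← h1, integral_map]
  · rw [← integral_Hw_pow]
    apply integral_congr_ae
    refine ae_of_all _ fun ω => ?_
    simp only
    rw [← single_comp]
    exact Tl_pow_phi s ω k _ (true, [])
  · exact (measurable_pi_lambda _ fun i => measurable_pi_apply _).aemeasurable
  · exact (Env536.continuous_pow s _ k _).aestronglyMeasurable

end iso

end Crest.Agent.R166.TreeWalk356
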