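import Crest.Agent.R166.DosB_420
import Crest.Agent.R166.EnvB_536
import Crest.Agent.R166.EnvC_536
import Crest.Agent.R166.TreeWalk_356

/-!
Row 166, section 32 (graph half), helper420: the moments of the empirical spectral measure converge
to the tree moments (`momLim_of_word`), given the word identity `WordId`.
-/

set_option autoImplicit false

namespace Crest.Agent.R166.DosC420

open MeasureTheory Filter Topology Set Crest.ProbabilityR.RandomMatrix
open Crest.Agent.R166.DosB420 Crest.Agent.R166.Env536 TreeLike942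

variable {n d : ℕ} [NeZero d]

/-- nodes at depth at most `R` -/
noncomputable def ballF (d : ℕ) [NeZero d] (R : ℕ) : Finset (Node d) :=
  ((Set.finite_univ (α := Bool)).prod (List.finite_length_le (Lt d) R)).toFinset

theorem mem_ballF {R : ℕ} {y : Node d} : y ∈ ballF d R ↔ y.2.length ≤ R := by
  simp [ballF]

/-- extension by zero -/
noncomputable def ext (R : ℕ) (ξ : ↥(ballF d R) → ℝ) : Node d → ℝ := fun y =>
  by classical exact if h : y ∈ ballF d R then ξ ⟨y, h⟩ else 0

theorem ext_apply {R : ℕ} (ξ : ↥(ballF d R) → ℝ) {y : Node d} (h : y ∈ ballF d R) :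
    ext R ξ y = ξ ⟨y, h⟩ := by
  unfold ext
  rw [dif_pos h]

theorem continuous_ext (R : ℕ) : Continuous (ext (d := d) R) := by
  classical
  refine continuous_pi fun y => ?_
  unfold ext
  by_cases h : y ∈ ballF d R
  · simp only [dif_pos h]
    exact continuous_apply _
  · simp only [dif_neg h]
    exact continuous_const

open Classical in
/-- the unit vector at the root -/
noncomputable def rootV (d : ℕ) [NeZero d] : Node d → ℝ := Pi.single (true, []) 1

/-- the `k`-th moment at the root as a function of the potentials in the ball -/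
noncomputable def mom (s : ℝ) (R k : ℕ) (ξ : ↥(ballF d R) → ℝ) : ℝ :=
  ((Tl s (ext R ξ)) ^ k) (rootV d) (true, [])

/-- word identity (helper356) -/
def WordId (d : ℕ) [NeZero d] (s : ℝ) : Prop :=
  ∀ k R : ℕ, k ≤ R → ∫ ξ, mom (d := d) s R k ξ ∂(Measure.pi fun _ => mu0) = treeMoment d s k

theorem continuous_mom (s : ℝ) (R k : ℕ) : Continuous (mom (d := d) s R k) :=
  (continuous_pow s (rootV d) k (true, [])).comp (continuous_ext R)

/-- bound of the powers of the tree operator -/
theorem abs_pow_le {s : ℝ} (hs : 0 ≤ s) (hd : 1 ≤ d) {Ω : Node d → ℝ} (hΩ : ∀ y, |Ω y| ≤ 1)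
    {F : Node d → ℝ} {M : ℝ} (hF : ∀ y, |F y| ≤ M) (k : ℕ) (x : Node d) :
    |((Tl s Ω) ^ k) F x| ≤ ((d : ℝ) + s) ^ k * M := by
  induction k generalizing x with
  | zero => simpa using hF x
  | succ k ih =>
    rw [pow_succ', Module.End.mul_apply, Tl_apply]
    have hcard : (Fintype.card (Lt d) : ℝ) = (d : ℝ) - 1 := by
      have h1 : Fintype.card (Lt d) = d - 1 := by
        have := Fintype.card_subtype_compl (fun k : Fin d => k = 0)
        simp only [Fintype.card_fin, Fintype.card_subtype_eq] at this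
        exact this
      rw [h1, Nat.cast_sub hd, Nat.cast_one]
    set A : ℝ := ((d : ℝ) + s) ^ k * M with hA
    have h2 : |((Tl s Ω) ^ k) F (par x)| ≤ A := ih _
    have h3 : |∑ j : Lt d, ((Tl s Ω) ^ k) F (x.1, j :: x.2)| ≤ ((d : ℝ) - 1) * A := by
      refine (Finset.abs_sum_le_sum_abs _ _).trans ?_
      calc ∑ j : Lt d, |((Tl s Ω) ^ k) F (x.1, j :: x.2)| ≤ ∑ _j : Lt d, A :=
            Finset.sum_le_sum fun j _ => ih _
        _ = ((d : ℝ) - 1) * A := by rw [Finset.sum_const, Finset.card_univ, nsmul_eq_mul, hcard]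
    have h4 : |s * Ω x * ((Tl s Ω) ^ k) F x| ≤ s * A := by
      rw [abs_mul, abs_mul, abs_of_nonneg hs]
      have hA0 : 0 ≤ A := (abs_nonneg _).trans h2
      calc s * |Ω x| * |((Tl s Ω) ^ k) F x| ≤ s * 1 * A :=
            mul_le_mul (mul_le_mul_of_nonneg_left (hΩ x) hs) (ih x) (abs_nonneg _) (by linarith)
        _ = s * A := by ring
    calc _ ≤ |((Tl s Ω) ^ k) F (par x)| + |∑ j : Lt d, ((Tl s Ω) ^ k) F (x.1, j :: x.2)| +
          |s * Ω x * ((Tl s Ω) ^ k) F x| := abs_add_three _ _ _
      _ ≤ A + ((d : ℝ) - 1) * A + s * A := by linarith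
      _ = ((d : ℝ) + s) ^ (k + 1) * M := by rw [hA]; ring

/-- diagonal entry of the power at a tree-like vertex -/
theorem pow_diag {p : Equiv.Perm (HE n d)} (hp : IsPort p) {s : ℝ} {ω : Fin n → ℝ} {k R : ℕ}
    (hk : k ≤ R) {h : HE n d} (ht : TreeAt Prod.fst p (R + 1) h.1) :
    ((Hm (graphOf p) s ω) ^ k) h.1 h.1 = mom s R k (fun y : ↥(ballF d R) => ω (nv p h y.1)) := by
  classical
  have h1 := pow_nv hp s ω (Pi.single h.1 1) h k (true, [])
  rw [nv_true hp, Matrix.mulVec_single_one] at h1
  have h2 : ((Hm (graphOf p) s ω) ^ k).col h.1 h.1 = ((Hm (graphOf p) s ω) ^ k) h.1 h.1 := rfl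
  rw [h2] at h1
  rw [h1]
  unfold mom
  refine pow_local s k 0 ?_ ?_ (true, []) (by simp)
  · intro y hy
    rw [zero_add] at hy
    simp only [Function.comp_apply, rootV]
    by_cases hy0 : y = (true, [])
    · rw [hy0, nv_true hp, Pi.single_eq_same, Pi.single_eq_same]
    · rw [Pi.single_eq_of_ne hy0, Pi.single_eq_of_ne]
      intro hcon
      apply hy0
      refine nv_inj hp ht (by omega) (by simp) ?_
      rw [nv_true hp]
      exact hcon
  · intro y hy
    rw [zero_add] at hy
    rw [ext_apply _ (mem_ballF.2 (hy.trans hk))]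
    rfl

/-- crude bound of the diagonal entries of the powers -/
theorem abs_pow_diag_le {p : Equiv.Perm (HE n d)} (hp : IsPort p) {s : ℝ} (hs : 0 ≤ s)
    (hd : 1 ≤ d) {ω : Fin n → ℝ} (hω : ∀ i, |ω i| ≤ 1) (k : ℕ) (h : HE n d) :
    |((Hm (graphOf p) s ω) ^ k) h.1 h.1| ≤ ((d : ℝ) + s) ^ k := by
  classical
  have h1 := pow_nv hp s ω (Pi.single h.1 1) h k (true, [])
  rw [nv_true hp, Matrix.mulVec_single_one] at h1
  have h2 : ((Hm (graphOf p) s ω) ^ k).col h.1 h.1 = ((Hm (graphOf p) s ω) ^ k) h.1 h.1 := rfl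
  rw [h2] at h1
  rw [h1]
  have := abs_pow_le hs hd (Ω := ω ∘ nv p h) (fun y => hω _)
    (F := (Pi.single h.1 1 : Fin n → ℝ) ∘ nv p h) (M := 1) (fun y => by
      simp only [Function.comp_apply, Pi.single_apply]
      split_ifs <;> simp) k (true, [])
  rwa [mul_one] at this

omit [NeZero d] in
/-- the trace as a sum over the half-edges -/
theorem trace_eq (hd : 1 ≤ d) (M : Matrix (Fin n) (Fin n) ℝ) :
    M.trace / n = (∑ h : HE n d, M h.1 h.1) / (n * d : ℝ) := by
  have := IsPort.vAvg_eq (n := n) (d := d) (by omega) (fun v => M v v)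
  rw [← this]
  rfl

/-- clipping to `[-M, M]` -/
def clip (M x : ℝ) : ℝ := max (-M) (min M x)

theorem abs_clip_le {M : ℝ} (hM : 0 ≤ M) (x : ℝ) : |clip M x| ≤ M := by
  unfold clip
  rw [abs_le]
  exact ⟨le_max_left _ _, max_le (by linarith) (min_le_left _ _)⟩

theorem clip_eq {M x : ℝ} (h : |x| ≤ M) : clip M x = x := by
  unfold clip
  rw [abs_le] at h
  rw [min_eq_right h.2, max_eq_right h.1]

theorem continuous_clip (M : ℝ) : Continuous (clip M) := by
  unfold clip; fun_prop

theorem mom_ae {s : ℝ} (hs : 0 ≤ s) (hd : 1 ≤ d) (R k : ℕ) :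
    ∀ᵐ ξ ∂(Measure.pi fun _ : ↥(ballF d R) => mu0),
      clip (((d : ℝ) + s) ^ k) (mom s R k ξ) = mom s R k ξ := by
  have h1 : ∀ᵐ ξ ∂(Measure.pi fun _ : ↥(ballF d R) => mu0), ∀ i, |ξ i| ≤ 1 := by
    rw [ae_all_iff]
    intro i
    exact (Measure.quasiMeasurePreserving_eval (fun _ : ↥(ballF d R) => mu0) i).ae mu0_ae
  filter_upwards [h1] with ξ hξ
  apply clip_eq
  have h2 := abs_pow_le hs hd (Ω := ext R ξ) (fun y => by
    classical
    unfold ext
    split_ifs with h
    · exact hξ _
    · simp) (F := rootV d) (M := 1) (fun y => by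
      unfold rootV
      simp only [Pi.single_apply]
      split_ifs <;> simp) k (true, [])
  rwa [mul_one] at h2

/-- Chebyshev for local functions of the potentials -/
theorem cheb_ports {B : Type*} [Fintype B] (p : Equiv.Perm (HE n d)) (e : B → Node d)
    (S : Finset (HE n d)) (hinj : ∀ h ∈ S, Function.Injective fun y : B => nv p h (e y))
    {g : (B → ℝ) → ℝ} (hg : Measurable g) {M : ℝ} (hM : ∀ ξ, |g ξ| ≤ M) {t : ℝ} (ht : 0 < t) :
    (potentialLaw n) {ω | t ≤ |∑ h ∈ S, (g (fun b => ω (nv p h (e b))) -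
      ∫ ξ, g ξ ∂(Measure.pi fun _ : B => mu0))|} ≤
      ENNReal.ofReal ((2 * M) ^ 2 *
        (((Fintype.card B * Fintype.card B) * ((n * d) * d) : ℕ) : ℝ) / t ^ 2) :=
  lln_cheb (μ := mu0) (ι := Fin n) S (fun h (y : B) => nv p h (e y)) hinj hg hM _
    (fun T hT => card_overlap_le p e T hT) ht

/-- the quenched estimate: few bad vertices imply concentration of the moment -/
theorem quenched {s : ℝ} (hs : 0 ≤ s) (hd : 1 ≤ d) (hW : WordId d s) (k : ℕ) {ε : ℝ}
    (hε : 0 < ε) :
    ∃ N : ℕ, ∀ n : ℕ, N ≤ n → ∀ p : Equiv.Perm (HE n d), IsPort p →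
      ((nbad (k + 1) p : ℝ) < ε / (4 * (((d : ℝ) + s) ^ k + 1)) * n) →
      (potentialLaw n) {ω | ¬ (|((Hm (graphOf p) s ω) ^ k).trace / n - treeMoment d s k| ≤ ε)} ≤
        ENNReal.ofReal ε := by
  classical
  set M : ℝ := ((d : ℝ) + s) ^ k with hMdef
  have hM0 : 0 ≤ M := by positivity
  set c := treeMoment d s k with hc
  set C : ℝ := (2 * M) ^ 2 * ((Fintype.card ↥(ballF d k) * Fintype.card ↥(ballF d k) : ℕ) : ℝ) /
    (ε / 2) ^ 2 with hC
  have hC0 : 0 ≤ C := by positivity
  obtain ⟨N, hN⟩ := exists_nat_ge (C / ε)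
  refine ⟨N + 1, fun n hn p hp hb => ?_⟩
  have hn1 : 1 ≤ n := by omega
  have hn0 : (0 : ℝ) < n := by exact_mod_cast hn1
  have hd0 : (0 : ℝ) < d := by exact_mod_cast hd
  set S : Finset (HE n d) := Finset.univ.filter fun h => TreeAt Prod.fst p (k + 1) h.1 with hS
  -- number of the bad half-edges
  have hbad : ((Finset.univ.filter fun h : HE n d => ¬ TreeAt Prod.fst p (k + 1) h.1).card : ℝ) ≤
      d * (nbad (k + 1) p : ℝ) := by
    have e1 : (Finset.univ.filter fun h : HE n d => ¬ TreeAt Prod.fst p (k + 1) h.1) =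
        (Finset.univ.filter fun v : Fin n => ¬ TreeAt Prod.fst p (k + 1) v) ×ˢ
          (Finset.univ : Finset (Fin d)) := by
      ext h
      simp
    rw [e1, Finset.card_product, Finset.card_univ, Fintype.card_fin, nbad, Nat.card_eq_fintype_card,
      Fintype.card_subtype]
    push_cast
    rw [mul_comm]
  -- Chebyshev
  have hg : Measurable fun ξ : ↥(ballF d k) → ℝ => clip M (mom s k k ξ) :=
    ((continuous_clip M).comp (continuous_mom s k k)).measurable
  have hinj : ∀ h ∈ S, Function.Injective fun y : ↥(ballF d k) => nv p h y.1 := by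
    intro h hh x y hxy
    rw [hS, Finset.mem_filter] at hh
    have hx := mem_ballF.1 x.2
    have hy := mem_ballF.1 y.2
    exact Subtype.ext (nv_inj hp hh.2 (by omega) (by omega) hxy)
  have ht : 0 < ε / 2 * ((n : ℝ) * d) := by positivity
  have hch := cheb_ports p (fun y : ↥(ballF d k) => y.1) S hinj hg
    (fun ξ => abs_clip_le hM0 _) ht
  have hcint : ∫ ξ, clip M (mom (d := d) s k k ξ) ∂(Measure.pi fun _ : ↥(ballF d k) => mu0) = c := by
    rw [hc, ← hW k k le_rfl]
    exact integral_congr_ae (mom_ae hs hd k k)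
  rw [hcint] at hch
  -- inclusion
  have hsub : {ω : Fin n → ℝ | ¬ (|((Hm (graphOf p) s ω) ^ k).trace / n - c| ≤ ε)} ⊆
      {ω | ε / 2 * (n * d) ≤ |∑ h ∈ S, (clip M (mom s k k
        (fun y : ↥(ballF d k) => ω (nv p h y.1))) - c)|} ∪ {ω | ¬ ∀ i, |ω i| ≤ 1} := by
    intro ω hω
    rw [mem_union]
    by_contra hcon
    rw [not_or] at hcon
    obtain ⟨h1, h2⟩ := hcon
    simp only [mem_ofPred_eq, not_not, not_le] at h1 h2 hω
    have hterm : ∀ h ∈ S, clip M (mom s k k (fun y : ↥(ballF d k) => ω (nv p h y.1))) =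
        ((Hm (graphOf p) s ω) ^ k) h.1 h.1 := by
      intro h hh
      rw [hS, Finset.mem_filter] at hh
      rw [← pow_diag hp le_rfl hh.2]
      exact clip_eq (abs_pow_diag_le hp hs hd h2 k h)
    rw [Finset.sum_congr rfl fun h hh => by rw [hterm h hh]] at h1
    have hcabs : |c| ≤ M := by
      rw [← hcint]
      have := norm_integral_le_of_norm_le_const (μ := Measure.pi fun _ : ↥(ballF d k) => mu0)
        (f := fun ξ => clip M (mom (d := d) s k k ξ)) (C := M)
        (Filter.Eventually.of_forall fun ξ => abs_clip_le hM0 _)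
      simpa using this
    have e1 : (∑ h : HE n d, ((Hm (graphOf p) s ω) ^ k) h.1 h.1) / (n * d : ℝ) - c =
        (∑ h ∈ S, (((Hm (graphOf p) s ω) ^ k) h.1 h.1 - c) +
          ∑ h ∈ Finset.univ.filter (fun h : HE n d => ¬ TreeAt Prod.fst p (k + 1) h.1),
            (((Hm (graphOf p) s ω) ^ k) h.1 h.1 - c)) / (n * d : ℝ) := by
      rw [hS, Finset.sum_filter_add_sum_filter_not, Finset.sum_sub_distrib, Finset.sum_const,
        Finset.card_univ, IsPort.card_HE, nsmul_eq_mul]
      push_cast
      field_simp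
    rw [trace_eq hd, e1, abs_div, abs_of_pos (show (0:ℝ) < n * d by positivity),
      lt_div_iff₀ (by positivity)] at hω
    have e2 : |∑ h ∈ Finset.univ.filter (fun h : HE n d => ¬ TreeAt Prod.fst p (k + 1) h.1),
            (((Hm (graphOf p) s ω) ^ k) h.1 h.1 - c)| ≤ ε / 2 * (n * d) := by
      refine (Finset.abs_sum_le_sum_abs _ _).trans ?_
      calc ∑ h ∈ Finset.univ.filter (fun h : HE n d => ¬ TreeAt Prod.fst p (k + 1) h.1),
            |((Hm (graphOf p) s ω) ^ k) h.1 h.1 - c|
          ≤ ∑ h ∈ Finset.univ.filter (fun h : HE n d => ¬ TreeAt Prod.fst p (k + 1) h.1),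
            (2 * M) := by
            refine Finset.sum_le_sum fun h _ => ?_
            have := abs_sub (((Hm (graphOf p) s ω) ^ k) h.1 h.1) c
            have h3 := abs_pow_diag_le hp hs hd h2 k h
            linarith
        _ ≤ (d * (nbad (k + 1) p : ℝ)) * (2 * M) := by
            rw [Finset.sum_const, nsmul_eq_mul]
            exact mul_le_mul_of_nonneg_right hbad (by positivity)
        _ ≤ (d * (ε / (4 * (M + 1)) * n)) * (2 * M) := by
            refine mul_le_mul_of_nonneg_right ?_ (by positivity)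
            exact mul_le_mul_of_nonneg_left hb.le hd0.le
        _ = ε / 2 * (n * d) * (M / (M + 1)) := by
            field_simp
            ring
        _ ≤ ε / 2 * (n * d) * 1 := by
            refine mul_le_mul_of_nonneg_left ?_ (by positivity)
            rw [div_le_one (by positivity)]
            linarith
        _ = ε / 2 * (n * d) := mul_one _
    have e3 := abs_add_le (∑ h ∈ S, (((Hm (graphOf p) s ω) ^ k) h.1 h.1 - c))
      (∑ h ∈ Finset.univ.filter (fun h : HE n d => ¬ TreeAt Prod.fst p (k + 1) h.1),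
            (((Hm (graphOf p) s ω) ^ k) h.1 h.1 - c))
    linarith
  refine (measure_mono hsub).trans ((measure_union_le _ _).trans ?_)
  have hz : (potentialLaw n) {ω | ¬ ∀ i, |ω i| ≤ 1} = 0 := by
    have := potentialLaw_ae n
    rwa [ae_iff] at this
  rw [hz, add_zero]
  refine hch.trans (ENNReal.ofReal_le_ofReal ?_)
  have e5 : (2 * M) ^ 2 * ((Fintype.card ↥(ballF d k) * Fintype.card ↥(ballF d k) *
      (n * d * d) : ℕ) : ℝ) / (ε / 2 * (n * d)) ^ 2 = C / n := by
    rw [hC]
    push_cast
    field_simp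
  rw [e5, div_le_iff₀ hn0]
  have hNn : (N : ℝ) ≤ n := by
    have : N ≤ n := by omega
    exact_mod_cast this
  have := hN.trans hNn
  rw [div_le_iff₀ hε] at this
  linarith

/-- **the moments converge**, given the word identity -/
theorem momLim_of_word {s : ℝ} (hs : 0 ≤ s) (hd : 1 ≤ d) (hW : WordId d s) : MomLim d s := by
  classical
  intro k ε hε
  obtain ⟨N1, h1⟩ := quenched hs hd hW k (show 0 < ε / 2 by positivity)
  set δ : ℝ := min (ε / 2) (ε / 2 / (4 * (((d : ℝ) + s) ^ k + 1))) with hδ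
  have hδ0 : 0 < δ := lt_min (by positivity) (by positivity)
  obtain ⟨N2, h2⟩ := few_bad d hd (k + 1) δ hδ0
  refine ⟨N1 + N2, fun n hn hne => ?_⟩
  have a1 := h1 n (by omega)
  have a2 := h2 n (by omega)
  rw [Whp_iff]
  have hcard : 0 < (Ports n d).card := Finset.card_pos.2 (Ports_nonempty_iff.2 hne)
  have hc0 : ((Ports n d).card : ENNReal) ≠ 0 := by exact_mod_cast hcard.ne'
  have hct : ((Ports n d).card : ENNReal) ≠ ⊤ := ENNReal.natCast_ne_top _
  have key : ∑ p ∈ Ports n d, (potentialLaw n)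
      {ω | ¬ (|((Hm (graphOf p) s ω) ^ k).trace / n - treeMoment d s k| ≤ ε)} ≤
      (Ports n d).card * ENNReal.ofReal ε := by
    rw [← Finset.sum_filter_add_sum_filter_not (Ports n d) (fun p => δ * n ≤ (nbad (k + 1) p : ℝ))]
    have b1 : ∑ p ∈ (Ports n d).filter (fun p => δ * n ≤ (nbad (k + 1) p : ℝ)), (potentialLaw n)
        {ω | ¬ (|((Hm (graphOf p) s ω) ^ k).trace / n - treeMoment d s k| ≤ ε)} ≤
        (Ports n d).card * ENNReal.ofReal (ε / 2) := by
      calc _ ≤ ∑ p ∈ (Ports n d).filter (fun p => δ * n ≤ (nbad (k + 1) p : ℝ)), (1 : ENNReal) :=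
            Finset.sum_le_sum fun p _ => prob_le_one
        _ = (((Ports n d).filter (fun p => δ * n ≤ (nbad (k + 1) p : ℝ))).card : ENNReal) := by
            rw [Finset.sum_const, nsmul_eq_mul, mul_one]
        _ ≤ ENNReal.ofReal (δ * (Ports n d).card) := by
            rw [← ENNReal.ofReal_natCast]
            exact ENNReal.ofReal_le_ofReal a2
        _ ≤ ENNReal.ofReal ((Ports n d).card * (ε / 2)) := by
            refine ENNReal.ofReal_le_ofReal ?_
            rw [mul_comm]
            exact mul_le_mul_of_nonneg_left (min_le_left _ _) (Nat.cast_nonneg _)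
        _ = (Ports n d).card * ENNReal.ofReal (ε / 2) := by
            rw [ENNReal.ofReal_mul (Nat.cast_nonneg _), ENNReal.ofReal_natCast]
    have b2 : ∑ p ∈ (Ports n d).filter (fun p => ¬ (δ * n ≤ (nbad (k + 1) p : ℝ))),
        (potentialLaw n)
        {ω | ¬ (|((Hm (graphOf p) s ω) ^ k).trace / n - treeMoment d s k| ≤ ε)} ≤
        (Ports n d).card * ENNReal.ofReal (ε / 2) := by
      calc _ ≤ ∑ p ∈ (Ports n d).filter (fun p => ¬ (δ * n ≤ (nbad (k + 1) p : ℝ))),
            ENNReal.ofReal (ε / 2) := by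
            refine Finset.sum_le_sum fun p hp => ?_
            rw [Finset.mem_filter] at hp
            have hp1 := mem_Ports.1 hp.1
            have hp2 : (nbad (k + 1) p : ℝ) <
                ε / 2 / (4 * (((d : ℝ) + s) ^ k + 1)) * n := by
              refine (not_le.1 hp.2).trans_le ?_
              exact mul_le_mul_of_nonneg_right (min_le_right _ _) (Nat.cast_nonneg _)
            refine le_trans (measure_mono ?_) (a1 p hp1 hp2)
            intro ω hω
            simp only [mem_ofPred_eq, not_le] at hω ⊢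
            linarith
        _ ≤ (Ports n d).card * ENNReal.ofReal (ε / 2) := by
            rw [Finset.sum_const, nsmul_eq_mul]
            exact mul_le_mul_left (by exact_mod_cast Finset.card_filter_le _ _) _
    calc _ ≤ (Ports n d).card * ENNReal.ofReal (ε / 2) + (Ports n d).card * ENNReal.ofReal (ε / 2) :=
          add_le_add b1 b2
      _ = (Ports n d).card * ENNReal.ofReal ε := by
          rw [← mul_add, ← ENNReal.ofReal_add (by positivity) (by positivity), add_halves]
  calc ((Ports n d).card : ENNReal)⁻¹ * _ ≤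
        ((Ports n d).card : ENNReal)⁻¹ * ((Ports n d).card * ENNReal.ofReal ε) :=
        mul_le_mul_right key _
    _ = ENNReal.ofReal ε := by
        rw [← mul_assoc, ENNReal.inv_mul_cancel hc0 hct, one_mul]

/-- the word identity, from helper356's `integral_Tl_pow` -/
theorem wordId (d : ℕ) [NeZero d] (s : ℝ) : WordId d s := by
  classical
  intro k R hk
  rw [← TreeWalk356.integral_Tl_pow s k]
  have h1 : (Measure.pi fun _ : ↥(ballF d R) => mu0) =
      (Measure.infinitePi fun _ : Node d => TreeDefs350.unif).map (ballF d R).restrict :=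
    (Measure.infinitePi_map_restrict (μ := fun _ : Node d => TreeDefs350.unif)).symm
  rw [h1, integral_map (Finset.measurable_restrict _).aemeasurable
    (continuous_mom s R k).aestronglyMeasurable]
  refine integral_congr_ae (Filter.Eventually.of_forall fun Ω => ?_)
  simp only [mom]
  have h2 : (Pi.single (true, []) 1 : Node d → ℝ) = rootV d := by
    unfold rootV
    congr
  rw [h2]
  refine pow_local s k 0 (fun y _ => rfl) ?_ (true, []) (by simp)
  intro y hy
  rw [zero_add] at hy
  rw [ext_apply _ (mem_ballF.2 (hy.trans hk))]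
  rfl

/-- **the moments of the empirical spectral measures converge to the tree moments** -/
theorem momLim {d : ℕ} (hd : 1 ≤ d) {s : ℝ} (hs : 0 ≤ s) : MomLim d s := by
  have : NeZero d := ⟨by omega⟩
  exact momLim_of_word hs hd (wordId d s)

/-- **`ImFix` from the density of the tree DOS** (all `s ≥ 0`, all energies of continuity) -/
theorem imFix {d : ℕ} (hd : 1 ≤ d) {s : ℝ} (hs : 0 ≤ s) {ν : Measure ℝ}
    (hν : IsTreeDOS d s ν) {ρ : ℝ → ℝ} {U : Set ℝ}
    (hU : IsOpen U) (hρ : ContinuousOn ρ U) (hρ0 : ∀ t ∈ U, 0 ≤ ρ t)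
    (hνU : ν.restrict U = (volume.restrict U).withDensity (fun t => ENNReal.ofReal (ρ t)))
    {E : ℝ} (hE : E ∈ U) : ImFix d s E (ρ E) :=
  imFix_of_momLim (momLim hd hs) hν hs hU hρ hρ0 hνU hE

end Crest.Agent.R166.DosC420
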