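import Crest.Agent.R166.Defs_419

/-!
Row 166: interface statements (Props) between the modules (helper419).  DRAFT v1.
`n → ∞` first, then `K → ∞`.
-/

set_option autoImplicit false

namespace Crest.Agent.R166

open MeasureTheory ProbabilityTheory Crest.ProbabilityR.RandomMatrix

/-! ### Local law outputs (sections 30-32) -/

/-- (A1) the imaginary part of the normalised trace converges to `π ρ`. -/
def ImLim (d : ℕ) (s E ρ : ℝ) : Prop :=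
  ∀ ε : ℝ, 0 < ε → ∃ K0 : ℝ, 0 < K0 ∧ ∀ K : ℝ, K0 ≤ K → ∃ N : ℕ, ∀ n : ℕ, N ≤ n →
    (regularGraphs n d).Nonempty →
    Whp n d ε fun G ω => |(mn (Hm G s ω) (zz E K n)).im - Real.pi * ρ| ≤ ε

/-- (A1') the same at fixed small `η`. -/
def ImFix (d : ℕ) (s E ρ : ℝ) : Prop :=
  ∀ ε : ℝ, 0 < ε → ∃ η0 : ℝ, 0 < η0 ∧ ∀ η : ℝ, 0 < η → η ≤ η0 → ∃ N : ℕ, ∀ n : ℕ, N ≤ n →
    (regularGraphs n d).Nonempty →
    Whp n d ε fun G ω => |(mn (Hm G s ω) (ze E η)).im - Real.pi * ρ| ≤ ε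

/-- (A2) the blocks at scale `K/n` agree with the blocks at fixed small `η` (local functions). -/
def LocLim (d : ℕ) (s E : ℝ) : Prop :=
  ∀ ε : ℝ, 0 < ε → ∃ η0 : ℝ, 0 < η0 ∧ ∃ K0 : ℝ, 0 < K0 ∧ ∀ η : ℝ, 0 < η → η ≤ η0 →
    ∀ K : ℝ, K0 ≤ K → ∃ N : ℕ, ∀ n : ℕ, N ≤ n → (regularGraphs n d).Nonempty →
    Whp n d ε fun G ω =>
      eAvg G (fun u w => min 1 (bnorm (Blk (Res (Hm G s ω) (zz E K n)) u w -
        Blk (Res (Hm G s ω) (ze E η)) u w))) ≤ ε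

/-- (A3) no mass escape at every fixed `K > 0`. -/
def NoEsc (d : ℕ) (s E : ℝ) : Prop :=
  ∀ K : ℝ, 0 < K → ∀ ε : ℝ, 0 < ε → ∃ M : ℝ, ∃ N : ℕ, ∀ n : ℕ, N ≤ n →
    (regularGraphs n d).Nonempty →
    Whp n d ε fun G ω =>
      vAvg (fun v => if M < (Res (Hm G s ω) (zz E K n) v v).im then
        (Res (Hm G s ω) (zz E K n) v v).im else 0) ≤ ε

/-- (A4) the imaginary parts of the blocks are non-degenerate. -/
def NonDeg (d : ℕ) (s E : ℝ) : Prop :=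
  ∀ ε : ℝ, 0 < ε → ∃ δ : ℝ, 0 < δ ∧ ∃ η0 : ℝ, 0 < η0 ∧ ∀ η : ℝ, 0 < η → η ≤ η0 →
    ∃ N : ℕ, ∀ n : ℕ, N ≤ n → (regularGraphs n d).Nonempty →
    Whp n d ε fun G ω =>
      eAvg G (fun u w => by
        classical exact if ∀ x : Fin 2 → ℝ, δ * (x 0 ^ 2 + x 1 ^ 2) ≤
          ∑ a, ∑ b, x a * (Blk (Res (Hm G s ω) (ze E η)) u w a b).im * x b then 0 else 1) ≤ ε

/-- clean cavity value: the root `m` of `m = -1/(z + (d-1) m)` with positive imaginary part. -/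
noncomputable def mc (d : ℕ) (z : ℂ) : ℂ := by
  classical exact if h : ∃ m : ℂ, 0 < m.im ∧ m * (z + ((d : ℂ) - 1) * m) = -1 then h.choose else 0

/-- clean tree block at an edge at the real energy `E`: `(m⁻¹ I + W)⁻¹`. -/
noncomputable def Bclean (d : ℕ) (z : ℂ) : Matrix (Fin 2) (Fin 2) ℂ :=
  (!![(mc d z)⁻¹, 1; 1, (mc d z)⁻¹])⁻¹

/-- (A5) most blocks are `r`-close to the clean block. -/
def NearClean (d : ℕ) (s E r : ℝ) : Prop :=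
  ∃ η0 : ℝ, 0 < η0 ∧ ∀ η : ℝ, 0 < η → η ≤ η0 → ∃ N : ℕ, ∀ n : ℕ, N ≤ n →
    (regularGraphs n d).Nonempty →
    Whp n d (1 / 4) fun G ω =>
      eAvg G (fun u w => by
        classical exact if bnorm (Blk (Res (Hm G s ω) (ze E η)) u w - Bclean d (E : ℂ)) ≤ r
          then 0 else 1) ≤ 1 / 4

/-- (A7) law of large numbers for the resolvent blocks at FIXED `η` (local functions). -/
def EnvDet (d : ℕ) (s E : ℝ) : Prop :=
  ∀ χ : Matrix (Fin 2) (Fin 2) ℂ → ℝ, Continuous χ → HasCompactSupport χ → ∀ η : ℝ, 0 < η →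
    ∃ c : ℝ, ∀ ε : ℝ, 0 < ε → ∃ N : ℕ, ∀ n : ℕ, N ≤ n → (regularGraphs n d).Nonempty →
      Whp n d ε fun G ω =>
        |eAvg G (fun u w => χ (Blk (Res (Hm G s ω) (ze E η)) u w)) - c| ≤ ε

/-! ### Theorem B (sections 40-43) -/

/-- Gaussianity of all near-window frames, in characteristic-function form. -/
def ThmB (d : ℕ) (s E ρ : ℝ) : Prop :=
  ∀ (k : ℕ) (K' : ℝ) (τ : Fin k → Fin 2 → ℝ) (χ : Matrix (Fin 2) (Fin 2) ℂ → ℝ),
    Continuous χ → HasCompactSupport χ →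
    ∀ ε : ℝ, 0 < ε → ∃ η0 : ℝ, 0 < η0 ∧ ∀ η : ℝ, 0 < η → η ≤ η0 → ∃ N : ℕ, ∀ n : ℕ, N ≤ n →
    (regularGraphs n d).Nonempty →
    Whp n d ε fun G ω => ∀ F : Fin k → Fin n → ℝ, IsFrame (Hm G s ω) E K' k F →
      ‖(∑ p ∈ darts G, (χ (Blk (Res (Hm G s ω) (ze E η)) p.1 p.2) : ℂ) *
        (Complex.exp (Complex.I *
            ((∑ i, (τ i 0 * F i p.1 + τ i 1 * F i p.2) : ℝ) : ℂ)) -
          ((Real.exp (-(1 / 2) * ∑ i, ∑ a, ∑ b, τ i a *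
            ((Blk (Res (Hm G s ω) (ze E η)) p.1 p.2 a b).im / (Real.pi * ρ)) * τ i b) : ℝ) : ℂ)))
        / ((darts G).card : ℂ)‖ ≤ ε

/-! ### Test arrays (sections 50-52, 60) -/

/-- iid standard Gaussian `n × m` array -/
noncomputable def gaussM (n m : ℕ) : Measure (Fin n → Fin m → ℝ) :=
  Measure.pi fun _ => Measure.pi fun _ => gaussianReal 0 1

/-- `(1/n) gᵀ (H - e)⁻¹ g` -/
noncomputable def testArr {n m : ℕ} (H : Matrix (Fin n) (Fin n) ℝ) (e : ℝ)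
    (g : Fin n → Fin m → ℝ) : Matrix (Fin m) (Fin m) ℝ :=
  (1 / (n : ℝ)) • ((Matrix.of g).transpose * (H - e • (1 : Matrix (Fin n) (Fin n) ℝ))⁻¹ *
    Matrix.of g)

/-- Cayley transform of a real (symmetric) matrix -/
noncomputable def Cay {m : ℕ} (C : Matrix (Fin m) (Fin m) ℝ) : Matrix (Fin m) (Fin m) ℂ :=
  (C.map (fun x : ℝ => (x : ℂ)) - Complex.I • (1 : Matrix (Fin m) (Fin m) ℂ)) *
    (C.map (fun x : ℝ => (x : ℂ)) + Complex.I • (1 : Matrix (Fin m) (Fin m) ℂ))⁻¹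

/-- the normalised symmetric unitary test array -/
noncomputable def uOf {n m : ℕ} (H : Matrix (Fin n) (Fin n) ℝ) (E ρ K x : ℝ)
    (g : Fin n → Fin m → ℝ) : Matrix (Fin m) (Fin m) ℂ :=
  Cay ((1 / (Real.pi * ρ)) • (testArr H (E + x / n) g -
    (mn H (zz E K n)).re • (1 : Matrix (Fin m) (Fin m) ℝ)))

/-- average of `f` over the Gaussian test directions and the energy shift `x ∈ [0,δ]` -/
noncomputable def TestVal {n : ℕ} (H : Matrix (Fin n) (Fin n) ℝ) (E ρ K δ : ℝ) (m : ℕ)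
    (f : Matrix (Fin m) (Fin m) ℂ → ℝ) : ℝ :=
  δ⁻¹ * ∫ x in (0 : ℝ)..δ, ∫ g, f (uOf H E ρ K x g) ∂(gaussM n m)

/-- graph expectation -/
noncomputable def EG (n d : ℕ) (s : ℝ) (Φ : Matrix (Fin n) (Fin n) ℝ → ℝ) : ℝ :=
  regularAverage n d fun G => ∫ ω, Φ (Hm G s ω) ∂potentialLaw n

/-- GOE expectation -/
noncomputable def EO (n : ℕ) (Φ : Matrix (Fin n) (Fin n) ℝ → ℝ) : ℝ :=
  ∫ g, Φ (goeMatrix g) ∂goeDisorderLaw n

/-- (C) asymptotic `SU(m)`-invariance of the test array, graph side -/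
def InvG (d : ℕ) (s E ρ : ℝ) : Prop :=
  ∀ (m : ℕ), 4 ≤ m → ∀ (V : Matrix (Fin m) (Fin m) ℂ), V ∈ Matrix.unitaryGroup (Fin m) ℂ →
    V.det = 1 →
    ∀ f : Matrix (Fin m) (Fin m) ℂ → ℝ, Continuous f →
    ∀ δ : ℝ, 0 < δ → ∀ ε : ℝ, 0 < ε → ∃ K0 : ℝ, 0 < K0 ∧ ∀ K : ℝ, K0 ≤ K → ∃ N : ℕ,
    ∀ n : ℕ, N ≤ n → (regularGraphs n d).Nonempty →
      |EG n d s (fun H => TestVal H E ρ K δ m fun U => f (V * U * V.transpose)) -
        EG n d s (fun H => TestVal H E ρ K δ m f)| ≤ ε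

/-- (C) asymptotic `SU(m)`-invariance of the test array, GOE side (`E = 0`, `ρ = 1/π`) -/
def InvO : Prop :=
  ∀ (m : ℕ), 4 ≤ m → ∀ (V : Matrix (Fin m) (Fin m) ℂ), V ∈ Matrix.unitaryGroup (Fin m) ℂ →
    V.det = 1 →
    ∀ f : Matrix (Fin m) (Fin m) ℂ → ℝ, Continuous f →
    ∀ δ : ℝ, 0 < δ → ∀ ε : ℝ, 0 < ε → ∃ K0 : ℝ, 0 < K0 ∧ ∀ K : ℝ, K0 ≤ K → ∃ N : ℕ,
    ∀ n : ℕ, N ≤ n →
      |EO n (fun H => TestVal H 0 (1 / Real.pi) K δ m fun U => f (V * U * V.transpose)) -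
        EO n (fun H => TestVal H 0 (1 / Real.pi) K δ m f)| ≤ ε

/-- (A1) for the GOE: `m_n(i K/n) → i` in probability -/
def ImLimO : Prop :=
  ∀ ε : ℝ, 0 < ε → ∃ K0 : ℝ, 0 < K0 ∧ ∀ K : ℝ, K0 ≤ K → ∃ N : ℕ, ∀ n : ℕ, N ≤ n →
    (goeDisorderLaw n) {g | ε < ‖mn (goeMatrix g) (zz 0 K n) - Complex.I‖} ≤ ENNReal.ofReal ε

/-- (51) comparison of the two models, conclusion of the COE lemma in sequential form -/
def CompareGO (d : ℕ) (s E ρ : ℝ) : Prop :=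
  ∀ (m : ℕ), 4 ≤ m → ∀ (f : Matrix (Fin m) (Fin m) ℂ → ℝ), Continuous f →
    ∀ δ : ℝ, 0 < δ → ∀ ε : ℝ, 0 < ε → ∃ K0 : ℝ, 0 < K0 ∧ ∀ K : ℝ, K0 ≤ K → ∃ N : ℕ,
    ∀ n : ℕ, N ≤ n → (regularGraphs n d).Nonempty →
      |EG n d s (fun H => TestVal H E ρ K δ m f) -
        EO n (fun H => TestVal H 0 (1 / Real.pi) K δ m f)| ≤ ε

/-- (51) -/
def COEStatement (d : ℕ) (s E ρ : ℝ) : Prop := InvG d s E ρ → InvO → CompareGO d s E ρ

/-- `f (Cay C) = exp (-∑ h (m / (π c_i)))` over the eigenvalues `c_i` of `C` (value `0` of the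
summand at `c_i = 0`). -/
def IsLapFun (h : ℝ → ℝ) (m : ℕ) (f : Matrix (Fin m) (Fin m) ℂ → ℝ) : Prop :=
  ∀ (C : Matrix (Fin m) (Fin m) ℝ) (hC : C.IsHermitian),
    f (Cay C) = Real.exp (-∑ i, (if hC.eigenvalues i = 0 then 0 else
      h ((m : ℝ) / (Real.pi * hC.eigenvalues i))))

/-- (52a) the functional is the restriction of a continuous function of `U` -/
def LapFunExists : Prop :=
  ∀ (h : ℝ → ℝ), Continuous h → HasCompactSupport h → (∀ t, 0 ≤ h t) → ∀ m : ℕ,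
    ∃ f : Matrix (Fin m) (Fin m) ℂ → ℝ, Continuous f ∧ IsLapFun h m f

/-- (52b) reconstruction of the Laplace functional; deterministic in `H`.
`Y` bounds the imaginary part of the normalised trace at the scale `L`; `T` bounds the difference of
the real parts at the scales `K` and `L` (the centring uses the scale `K`; `K` comes last). -/
def ReconStatement : Prop :=
  ∀ (h : ℝ → ℝ), Continuous h → HasCompactSupport h → (∀ t, 0 ≤ h t) →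
    ∀ (ρ : ℝ), 0 < ρ → ∀ (Y : ℝ), ∀ ε : ℝ, 0 < ε →
    ∃ L0 : ℝ, ∀ L : ℝ, L0 ≤ L → ∃ δ0 : ℝ, 0 < δ0 ∧ ∀ δ : ℝ, 0 < δ → δ ≤ δ0 → ∀ T : ℝ,
    ∃ m0 : ℕ, ∀ m : ℕ, m0 ≤ m → ∀ f : Matrix (Fin m) (Fin m) ℂ → ℝ, IsLapFun h m f →
      ∀ (E K : ℝ), 0 < K → ∀ (n : ℕ), 0 < n →
        ∀ (H : Matrix (Fin n) (Fin n) ℝ) (hH : H.IsHermitian),
        (mn H (zz E L n)).im ≤ Y →
        |(mn H (zz E K n)).re - (mn H (zz E L n)).re| ≤ T →
        |laplaceWeight H hH (unfoldAt h (n * ρ) E) - TestVal H E ρ K δ m f| ≤ ε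

/-- (52c) tightness of the one-dimensional test array centred at the scale `L`; deterministic
in `H`. -/
def TightTest : Prop :=
  ∀ (Y L δ ε : ℝ), 0 < L → 0 < δ → 0 < ε → ∃ T : ℝ, ∀ (E : ℝ) (n : ℕ), 0 < n →
    ∀ (H : Matrix (Fin n) (Fin n) ℝ), H.IsHermitian → (mn H (zz E L n)).im ≤ Y →
      δ⁻¹ * ∫ x in (0 : ℝ)..δ, ((gaussM n 1)
        {g | T < |testArr H (E + x / n) g 0 0 - (mn H (zz E L n)).re|}).toReal ≤ ε

/-- tightness of the difference of the centrings (consequence of `CompareGO` with `m = 4`,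
`TightTest`, `ImLim`, `ImLimO`) -/
def TightRe (d : ℕ) (s E : ℝ) : Prop :=
  ∀ ε : ℝ, 0 < ε → ∃ L1 : ℝ, ∀ L : ℝ, L1 ≤ L → ∃ T : ℝ, ∃ K0 : ℝ, ∀ K : ℝ, K0 ≤ K → ∃ N : ℕ,
    ∀ n : ℕ, N ≤ n → (regularGraphs n d).Nonempty →
    Whp n d ε fun G ω => |(mn (Hm G s ω) (zz E K n)).re - (mn (Hm G s ω) (zz E L n)).re| ≤ T

/-- the Laplace functional comparison = statement of the theorem for one `(d,s,E,ρ,h)` -/
def FinalGO (d : ℕ) (s E ρ : ℝ) (h : ℝ → ℝ) : Prop :=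
  ∀ ε : ℝ, 0 < ε → ∃ N : ℕ, ∀ n : ℕ, N ≤ n → (regularGraphs n d).Nonempty →
    |regularAverage n d (fun G => ∫ ω, disorderedLaplaceWeight G s ω
        (unfoldAt h (n * ρ) E) ∂potentialLaw n) -
      ∫ g, goeLaplaceWeight g (unfoldAt h (n / Real.pi) 0) ∂goeDisorderLaw n| < ε

/-- assembly, part 1: tightness of the centring -/
def Asm1 (d : ℕ) (s E ρ : ℝ) : Prop :=
  ImLim d s E ρ → ImLimO → TightTest → CompareGO d s E ρ → TightRe d s E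

/-- assembly, part 2 -/
def Asm2 (d : ℕ) (s E ρ : ℝ) : Prop :=
  ImLim d s E ρ → ImLimO → TightRe d s E → CompareGO d s E ρ → LapFunExists → ReconStatement →
    ∀ h : ℝ → ℝ, Continuous h → HasCompactSupport h → (∀ t, 0 ≤ h t) → FinalGO d s E ρ h

end Crest.Agent.R166
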