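import Crest.Agent.R166.NoEscS_583
import Crest.Agent.R166.Ports_269
import Crest.Agent.R166.Spine_419

/-!
Row 166 (helper583), section 32.E2, second half: the Wegner estimate
`E[Im R_vv g] ≤ (π / 2s) E[g]` (`g ≥ 0` independent of `ω_v`), uniform integrability of the
diagonal of the resolvent and no mass escape for `s > 0`.

* `wegner`
* `tail_single`, `whp_tail`
* `LowTail`, `UIS`, `uis_of_lowTail`, `noEsc_of_lowTail`
-/

set_option autoImplicit false

open MeasureTheory ProbabilityTheory Matrix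
open Crest.ProbabilityR.RandomMatrix
open scoped ENNReal NNReal

namespace Crest.Agent.R166.NoEsc583

open Res789 (cx imM)

/-- the uniform law on `[-1,1]` -/
noncomputable def unif : Measure ℝ := (2⁻¹ : NNReal) • volume.restrict (Set.Icc (-1 : ℝ) 1)

instance unif_prob : IsProbabilityMeasure unif := by
  constructor
  unfold unif
  rw [Measure.smul_apply, Measure.restrict_apply_univ, Real.volume_Icc]
  have h2 : ENNReal.ofReal (1 - -1) = 2 := by norm_num
  rw [h2, ENNReal.smul_def, smul_eq_mul, ENNReal.coe_inv (by norm_num)]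
  exact ENNReal.inv_mul_cancel (by norm_num) (by norm_num)

lemma potentialLaw_eq (n : ℕ) : potentialLaw n = Measure.pi fun _ : Fin n => unif := rfl

/-- one-dimensional Wegner integral -/
lemma wegner1 {s y : ℝ} (hs : 0 < s) (hy : 0 < y) (x : ℝ) :
    ∫⁻ t, ENNReal.ofReal (y / ((s * t - x) ^ 2 + y ^ 2)) ∂unif ≤
      ENNReal.ofReal (Real.pi / (2 * s)) := by
  have hcont : Continuous fun t : ℝ => y / ((s * t - x) ^ 2 + y ^ 2) := by
    refine continuous_const.div (by fun_prop) fun t => ?_
    positivity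
  have hder : ∀ t ∈ Set.uIcc (-1:ℝ) 1,
      HasDerivAt (fun t : ℝ => Real.arctan ((s * t - x) / y) / s)
        (y / ((s * t - x) ^ 2 + y ^ 2)) t := by
    intro t _
    have h1 : HasDerivAt (fun t : ℝ => (s * t - x) / y) (s / y) t := by
      simpa using (((hasDerivAt_id t).const_mul s).sub_const x).div_const y
    refine (h1.arctan.div_const s).congr_deriv ?_
    field_simp
    ring
  have hint := intervalIntegral.integral_eq_sub_of_hasDerivAt hder (hcont.intervalIntegrable _ _)
  have hle : ∫ t in Set.Icc (-1 : ℝ) 1, y / ((s * t - x) ^ 2 + y ^ 2) ≤ Real.pi / s := by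
    rw [integral_Icc_eq_integral_Ioc, ← intervalIntegral.integral_of_le (by norm_num), hint]
    have h1 := Real.arctan_lt_pi_div_two ((s * 1 - x) / y)
    have h2 := Real.neg_pi_div_two_lt_arctan ((s * (-1) - x) / y)
    rw [← sub_div]
    gcongr
    linarith
  unfold unif
  rw [lintegral_smul_measure, ← ofReal_integral_eq_lintegral_ofReal
    (hcont.integrableOn_Icc) (Filter.Eventually.of_forall fun t => by positivity)]
  rw [ENNReal.smul_def, smul_eq_mul]
  have h3 : ((2⁻¹ : NNReal) : ℝ≥0∞) = ENNReal.ofReal (1 / 2) := by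
    rw [ENNReal.ofReal, Real.toNNReal_div (by norm_num)]
    simp
  rw [h3, ← ENNReal.ofReal_mul (by norm_num)]
  apply ENNReal.ofReal_le_ofReal
  calc 1 / 2 * ∫ t in Set.Icc (-1 : ℝ) 1, y / ((s * t - x) ^ 2 + y ^ 2)
      ≤ 1 / 2 * (Real.pi / s) := by gcongr
    _ = Real.pi / (2 * s) := by field_simp

section wegner

variable {V : Type*} [Fintype V] [DecidableEq V]

/-- replacing one coordinate by an independent copy preserves the product law -/
lemma map_update (ν : Measure ℝ) [IsProbabilityMeasure ν] (k : V) :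
    (ν.prod (Measure.pi fun _ : V => ν)).map
      (fun p : ℝ × (V → ℝ) => Function.update p.2 k p.1) = Measure.pi fun _ : V => ν := by
  symm
  apply Measure.pi_eq
  intro s hs
  have hmeas : Measurable (fun p : ℝ × (V → ℝ) => Function.update p.2 k p.1) :=
    Stein583.measurable_update' k
  rw [Measure.map_apply hmeas (MeasurableSet.univ_pi hs)]
  have hpre : (fun p : ℝ × (V → ℝ) => Function.update p.2 k p.1) ⁻¹' (Set.univ.pi s) =
      (s k) ×ˢ (Set.univ.pi fun j => if j = k then Set.univ else s j) := by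
    ext ⟨t, x⟩
    simp only [Set.mem_preimage, Set.mem_pi, Set.mem_univ, true_implies, Set.mem_prod]
    constructor
    · intro h
      refine ⟨by simpa using h k, fun j => ?_⟩
      by_cases hj : j = k
      · simp [hj]
      · simpa [hj] using h j
    · rintro ⟨h1, h2⟩ j
      by_cases hj : j = k
      · subst hj; simpa using h1
      · have := h2 j
        simpa [hj] using this
  rw [hpre, Measure.prod_prod, Measure.pi_pi]
  rw [← Finset.mul_prod_erase Finset.univ _ (Finset.mem_univ k),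
    ← Finset.mul_prod_erase Finset.univ (fun i => ν (s i)) (Finset.mem_univ k)]
  simp only [if_true, measure_univ, one_mul]
  congr 1
  refine Finset.prod_congr rfl fun j hj => ?_
  rw [if_neg (Finset.ne_of_mem_erase hj)]

/-- entries of the resolvent are measurable functions of the potentials -/
lemma measurable_res (A : Matrix V V ℝ) (s : ℝ) (z : ℂ) (i j : V) :
    Measurable fun ω : V → ℝ => Res789.Res (HA A s ω) z i j := by
  have hM : Continuous fun ω : V → ℝ => (cx (HA A s ω) - z • (1 : Matrix V V ℂ)) := by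
    refine continuous_matrix fun a b => ?_
    simp only [Matrix.sub_apply, Res789.cx_apply, HA, Matrix.add_apply, Matrix.smul_apply,
      Matrix.diagonal_apply, smul_eq_mul]
    by_cases hab : a = b
    · simp only [hab, if_true]
      fun_prop
    · simp only [hab, if_false]
      fun_prop
  unfold Res789.Res
  simp only [Matrix.inv_def, Matrix.smul_apply, smul_eq_mul, Ring.inverse_eq_inv']
  refine Measurable.mul ?_ ?_
  · exact (hM.matrix_det.measurable).inv
  · exact ((hM.matrix_adjugate).matrix_elem i j).measurable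

lemma im_res_update {A : Matrix V V ℝ} (hA : Aᵀ = A) (s : ℝ) (ω : V → ℝ) {z : ℂ} (hz : 0 < z.im)
    (v : V) (t : ℝ) :
    (Res789.Res (HA A s (Function.update ω v t)) z v v).im =
      yv (HA A s ω) z v /
        ((s * t - (s * ω v - ((Res789.Res (HA A s ω) z v v)⁻¹).re)) ^ 2 + yv (HA A s ω) z v ^ 2) := by
  have h1 := inv_res_update hA s ω hz v t
  have h2 : Res789.Res (HA A s (Function.update ω v t)) z v v =
      ((Res789.Res (HA A s ω) z v v)⁻¹ + (s * (t - ω v) : ℝ))⁻¹ := by
    rw [← h1, inv_inv]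
  rw [h2, Complex.inv_im, Complex.normSq_apply, Complex.add_im, Complex.add_re, Complex.ofReal_im,
    Complex.ofReal_re, add_zero]
  unfold yv
  rw [Complex.neg_im]
  congr 1
  ring

/-- **Wegner estimate**. -/
theorem wegner {A : Matrix V V ℝ} (hA : Aᵀ = A) {s : ℝ} (hs : 0 < s) {z : ℂ} (hz : 0 < z.im)
    (v : V) {g : (V → ℝ) → ℝ≥0∞} (hg : Measurable g)
    (hgv : ∀ ω t, g (Function.update ω v t) = g ω) :
    ∫⁻ ω, ENNReal.ofReal (Res789.Res (HA A s ω) z v v).im * g ω ∂(Measure.pi fun _ : V => unif) ≤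
      ENNReal.ofReal (Real.pi / (2 * s)) * ∫⁻ ω, g ω ∂(Measure.pi fun _ : V => unif) := by
  have hu := Stein583.measurable_update' (κ := V) v
  have hm : Measurable fun ω : V → ℝ => ENNReal.ofReal (Res789.Res (HA A s ω) z v v).im * g ω :=
    ((Complex.measurable_im.comp (measurable_res A s z v v)).ennreal_ofReal).mul hg
  have e1 : ∫⁻ ω, ENNReal.ofReal (Res789.Res (HA A s ω) z v v).im * g ω
      ∂(Measure.pi fun _ : V => unif) =
      ∫⁻ p : ℝ × (V → ℝ), ENNReal.ofReal
        (Res789.Res (HA A s (Function.update p.2 v p.1)) z v v).im *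
          g (Function.update p.2 v p.1) ∂(unif.prod (Measure.pi fun _ : V => unif)) := by
    conv_lhs => rw [← map_update unif v]
    rw [lintegral_map hm hu]
  have hAE : AEMeasurable (fun p : ℝ × (V → ℝ) => ENNReal.ofReal
        (Res789.Res (HA A s (Function.update p.2 v p.1)) z v v).im *
          g (Function.update p.2 v p.1)) (unif.prod (Measure.pi fun _ : V => unif)) :=
    (hm.comp hu).aemeasurable
  rw [e1, lintegral_prod_symm _ hAE, ← lintegral_const_mul _ hg]
  refine lintegral_mono fun ω => ?_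
  simp only [hgv]
  rw [lintegral_mul_const]
  · gcongr
    simp only [im_res_update hA s ω hz]
    exact wegner1 hs (yv_pos (HA_symm hA s ω) hz v) _
  · exact ((Complex.measurable_im.comp (measurable_res A s z v v)).comp
      (hu.comp (measurable_id.prodMk measurable_const))).ennreal_ofReal

end wegner

/-! ### the tail average -/

section tail

variable {n : ℕ}

/-- **single graph tail bound** (Wegner + Markov).  `y v` is any function of the potentials not
depending on `ω v`. -/
theorem tail_single {A : Matrix (Fin n) (Fin n) ℝ} (hA : Aᵀ = A) {s : ℝ} (hs : 0 < s) {z : ℂ}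
    (hz : 0 < z.im) {M κ ε ε' : ℝ} (hε : 0 < ε)
    {y : (Fin n → ℝ) → Fin n → ℝ} (hym : ∀ v, Measurable fun ω => y ω v)
    (hyu : ∀ ω v t, y (Function.update ω v t) v = y ω v)
    (hM : ∀ ω v, M < (Res789.Res (HA A s ω) z v v).im → y ω v < κ) :
    potentialLaw n {ω | ¬ vAvg (fun v => if M < (Res789.Res (HA A s ω) z v v).im then
        (Res789.Res (HA A s ω) z v v).im else 0) ≤ ε} ≤
      ENNReal.ofReal (Real.pi / (2 * s * ε)) * (ENNReal.ofReal ε' +
        potentialLaw n {ω | ¬ vAvg (fun v => if y ω v < κ then 1 else 0) ≤ ε'}) := by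
  classical
  rw [potentialLaw_eq]
  set P : Measure (Fin n → ℝ) := Measure.pi fun _ : Fin n => unif with hP
  set T : (Fin n → ℝ) → ℝ := fun ω => vAvg (fun v => if M < (Res789.Res (HA A s ω) z v v).im then
        (Res789.Res (HA A s ω) z v v).im else 0) with hT
  set L : (Fin n → ℝ) → ℝ := fun ω => vAvg (fun v => if y ω v < κ then (1 : ℝ) else 0) with hL
  have hpos : ∀ ω v, 0 < (Res789.Res (HA A s ω) z v v).im := fun ω v =>
    res_im_pos (HA_symm hA s ω) hz v
  set g : Fin n → (Fin n → ℝ) → ℝ≥0∞ := fun v ω => if y ω v < κ then 1 else 0 with hg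
  have hgm : ∀ v, Measurable (g v) := fun v =>
    Measurable.ite (measurableSet_lt (hym v) measurable_const) measurable_const measurable_const
  have hgu : ∀ v ω t, g v (Function.update ω v t) = g v ω := fun v ω t => by
    simp only [hg, hyu]
  have hIm : ∀ v, Measurable fun ω : Fin n → ℝ => (Res789.Res (HA A s ω) z v v).im := fun v =>
    Complex.measurable_im.comp (measurable_res A s z v v)
  have hn : (0 : ℝ) ≤ (n : ℝ)⁻¹ := by positivity
  -- step 1
  have h1 : ∀ ω, ENNReal.ofReal (T ω) ≤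
      ENNReal.ofReal (n : ℝ)⁻¹ * ∑ v, ENNReal.ofReal (Res789.Res (HA A s ω) z v v).im * g v ω := by
    intro ω
    simp only [hT, vAvg]
    rw [div_eq_inv_mul, ENNReal.ofReal_mul hn, ENNReal.ofReal_sum_of_nonneg]
    · gcongr with v
      by_cases hv : M < (Res789.Res (HA A s ω) z v v).im
      · have := hM ω v hv
        simp [hg, hv, this]
      · simp [hv]
    · intro v _
      split_ifs
      · exact (hpos ω v).le
      · exact le_rfl
  have h2 : ∫⁻ ω, ENNReal.ofReal (T ω) ∂P ≤
      ENNReal.ofReal (Real.pi / (2 * s)) * ∫⁻ ω, ENNReal.ofReal (L ω) ∂P := by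
    calc ∫⁻ ω, ENNReal.ofReal (T ω) ∂P ≤ ∫⁻ ω, ENNReal.ofReal (n : ℝ)⁻¹ *
          ∑ v, ENNReal.ofReal (Res789.Res (HA A s ω) z v v).im * g v ω ∂P := lintegral_mono h1
      _ = ENNReal.ofReal (n : ℝ)⁻¹ * ∑ v, ∫⁻ ω,
            ENNReal.ofReal (Res789.Res (HA A s ω) z v v).im * g v ω ∂P := by
          rw [lintegral_const_mul, lintegral_finsetSum]
          · exact fun v _ => (hIm v).ennreal_ofReal.mul (hgm v)
          · exact Finset.measurable_sum _ fun v _ => (hIm v).ennreal_ofReal.mul (hgm v)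
      _ ≤ ENNReal.ofReal (n : ℝ)⁻¹ * ∑ v, (ENNReal.ofReal (Real.pi / (2 * s)) *
            ∫⁻ ω, g v ω ∂P) := by
          gcongr with v
          exact wegner hA hs hz v (hgm v) (hgu v)
      _ = ENNReal.ofReal (Real.pi / (2 * s)) * ∫⁻ ω, ENNReal.ofReal (L ω) ∂P := by
          have h3 : ∀ ω, ENNReal.ofReal (L ω) = ENNReal.ofReal (n : ℝ)⁻¹ * ∑ v, g v ω := by
            intro ω
            simp only [hL, vAvg]
            rw [div_eq_inv_mul, ENNReal.ofReal_mul hn, ENNReal.ofReal_sum_of_nonneg]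
            · congr 1
              refine Finset.sum_congr rfl fun v _ => ?_
              simp only [hg]
              split_ifs <;> simp
            · intro v _
              split_ifs <;> norm_num
          simp only [h3]
          rw [lintegral_const_mul _ (Finset.measurable_sum _ fun v _ => hgm v),
            lintegral_finsetSum _ fun v _ => hgm v, ← Finset.mul_sum]
          ring
  have hL1 : ∀ ω, L ω ≤ 1 := by
    intro ω
    simp only [hL, vAvg]
    refine div_le_one_of_le₀ ?_ (Nat.cast_nonneg _)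
    calc ∑ v, (if y ω v < κ then (1 : ℝ) else 0) ≤ ∑ v : Fin n, (1 : ℝ) :=
          Finset.sum_le_sum fun v _ => by split_ifs <;> norm_num
      _ = n := by simp
  have hLm : Measurable L := by
    simp only [hL, vAvg]
    refine Measurable.div_const ?_ _
    exact Finset.measurable_sum _ fun v _ =>
      Measurable.ite (measurableSet_lt (hym v) measurable_const) measurable_const measurable_const
  have h4 : ∫⁻ ω, ENNReal.ofReal (L ω) ∂P ≤ ENNReal.ofReal ε' + P {ω | ¬ L ω ≤ ε'} := by
    have hms : MeasurableSet {ω | ¬ L ω ≤ ε'} := (measurableSet_le hLm measurable_const).compl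
    calc ∫⁻ ω, ENNReal.ofReal (L ω) ∂P ≤
        ∫⁻ ω, ENNReal.ofReal ε' + Set.indicator {ω | ¬ L ω ≤ ε'} 1 ω ∂P := by
          refine lintegral_mono fun ω => ?_
          by_cases h : L ω ≤ ε'
          · exact (ENNReal.ofReal_le_ofReal h).trans le_self_add
          · have : ω ∈ {ω | ¬ L ω ≤ ε'} := h
            rw [Set.indicator_of_mem this]
            refine le_trans ?_ le_add_self
            simpa using ENNReal.ofReal_le_ofReal (hL1 ω)
      _ = ENNReal.ofReal ε' + P {ω | ¬ L ω ≤ ε'} := by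
          rw [lintegral_add_left measurable_const, lintegral_const, measure_univ, mul_one,
            lintegral_indicator_one hms]
  have hTm : Measurable T := by
    simp only [hT, vAvg]
    refine Measurable.div_const ?_ _
    exact Finset.measurable_sum _ fun v _ =>
      Measurable.ite (measurableSet_lt measurable_const (hIm v)) (hIm v) measurable_const
  have h5 : P {ω | ¬ T ω ≤ ε} ≤ (∫⁻ ω, ENNReal.ofReal (T ω) ∂P) / ENNReal.ofReal ε := by
    refine le_trans (measure_mono ?_) (meas_ge_le_lintegral_div hTm.ennreal_ofReal.aemeasurable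
      (by simpa using hε) ENNReal.ofReal_ne_top)
    intro ω hω
    exact ENNReal.ofReal_le_ofReal (not_le.1 hω).le
  calc P {ω | ¬ T ω ≤ ε} ≤ (∫⁻ ω, ENNReal.ofReal (T ω) ∂P) / ENNReal.ofReal ε := h5
    _ ≤ (ENNReal.ofReal (Real.pi / (2 * s)) * (ENNReal.ofReal ε' + P {ω | ¬ L ω ≤ ε'})) /
        ENNReal.ofReal ε := by
        gcongr
        exact h2.trans (by gcongr)
    _ = ENNReal.ofReal (Real.pi / (2 * s * ε)) * (ENNReal.ofReal ε' + P {ω | ¬ L ω ≤ ε'}) := by
        have h6 : ENNReal.ofReal (Real.pi / (2 * s * ε)) =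
            ENNReal.ofReal (Real.pi / (2 * s)) / ENNReal.ofReal ε := by
          rw [← ENNReal.ofReal_div_of_pos hε, div_div]
        rw [h6, ENNReal.div_eq_inv_mul, ENNReal.div_eq_inv_mul, mul_assoc]

end tail

/-! ### the statements for random regular graphs -/

/-- adjacency matrix -/
noncomputable def adjM {n : ℕ} (G : SimpleGraph (Fin n)) : Matrix (Fin n) (Fin n) ℝ := by
  classical exact G.adjMatrix ℝ

lemma Hm_eq {n : ℕ} (G : SimpleGraph (Fin n)) (s : ℝ) (ω : Fin n → ℝ) :
    Hm G s ω = HA (adjM G) s ω := rfl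

lemma adjM_symm {n : ℕ} (G : SimpleGraph (Fin n)) : (adjM G)ᵀ = adjM G := by
  classical
  unfold adjM
  exact SimpleGraph.transpose_adjMatrix G

lemma measurable_yv {n : ℕ} (A : Matrix (Fin n) (Fin n) ℝ) (s : ℝ) (z : ℂ) (v : Fin n) :
    Measurable fun ω : Fin n → ℝ => yv (HA A s ω) z v :=
  Complex.measurable_im.comp ((measurable_res A s z v v).inv.neg)

theorem whp_tail {n d : ℕ} {s : ℝ} (hs : 0 < s) {z z' : ℂ} (hz : 0 < z.im) (hz' : 0 < z'.im)
    {M κ ε ε' : ℝ} (hε : 0 < ε) (hε' : 0 ≤ ε') (hεε' : Real.pi * ε' ≤ s * ε ^ 2)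
    (hM : ∀ (G : SimpleGraph (Fin n)) (ω : Fin n → ℝ) (v : Fin n),
      M < (Res789.Res (Hm G s ω) z v v).im → yv (Hm G s ω) z' v < κ)
    (hlow : Whp n d ε' fun G ω => vAvg (fun v => if yv (Hm G s ω) z' v < κ then 1 else 0) ≤ ε') :
    Whp n d ε fun G ω => vAvg (fun v => if M < (Res789.Res (Hm G s ω) z v v).im then
      (Res789.Res (Hm G s ω) z v v).im else 0) ≤ ε := by
  classical
  rw [Whp_iff] at hlow ⊢
  set C : ℝ≥0∞ := ENNReal.ofReal (Real.pi / (2 * s * ε)) with hC
  set c : ℝ≥0∞ := ((Ports n d).card : ℝ≥0∞) with hc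
  have h1 : ∀ p ∈ Ports n d, potentialLaw n {ω | ¬ vAvg (fun v =>
      if M < (Res789.Res (Hm (graphOf p) s ω) z v v).im then
      (Res789.Res (Hm (graphOf p) s ω) z v v).im else 0) ≤ ε} ≤
      C * (ENNReal.ofReal ε' + potentialLaw n {ω | ¬ vAvg (fun v =>
        if yv (Hm (graphOf p) s ω) z' v < κ then 1 else 0) ≤ ε'}) := by
    intro p _
    simp only [Hm_eq]
    exact tail_single (adjM_symm _) hs hz hε (fun v => measurable_yv _ s z' v)
      (fun ω v t => yv_update (adjM_symm _) s ω hz' v t) (fun ω v => hM (graphOf p) ω v)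
  calc c⁻¹ * ∑ p ∈ Ports n d, potentialLaw n {ω | ¬ vAvg (fun v =>
      if M < (Res789.Res (Hm (graphOf p) s ω) z v v).im then
      (Res789.Res (Hm (graphOf p) s ω) z v v).im else 0) ≤ ε}
      ≤ c⁻¹ * ∑ p ∈ Ports n d, C * (ENNReal.ofReal ε' + potentialLaw n {ω | ¬ vAvg (fun v =>
        if yv (Hm (graphOf p) s ω) z' v < κ then 1 else 0) ≤ ε'}) := by
        gcongr with p hp
        exact h1 p hp
    _ = C * (c⁻¹ * c * ENNReal.ofReal ε' + c⁻¹ * ∑ p ∈ Ports n d, potentialLaw n {ω | ¬ vAvg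
        (fun v => if yv (Hm (graphOf p) s ω) z' v < κ then 1 else 0) ≤ ε'}) := by
        rw [← Finset.mul_sum, Finset.sum_add_distrib, Finset.sum_const, nsmul_eq_mul]
        ring
    _ ≤ C * (1 * ENNReal.ofReal ε' + ENNReal.ofReal ε') := by
        gcongr
        exact ENNReal.inv_mul_le_one _
    _ = ENNReal.ofReal (Real.pi / (2 * s * ε) * (ε' + ε')) := by
        rw [one_mul, ← ENNReal.ofReal_add hε' hε', hC, ← ENNReal.ofReal_mul (by positivity)]
    _ ≤ ENNReal.ofReal ε := by
        apply ENNReal.ofReal_le_ofReal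
        rw [div_mul_eq_mul_div, div_le_iff₀ (by positivity)]
        nlinarith

/-- the low tail of `y_v = Im(-1/R_vv)`, uniformly in `η ∈ [K1/n, η1]` -/
def LowTail (d : ℕ) (s E : ℝ) : Prop :=
  ∀ ε : ℝ, 0 < ε → ∃ κ : ℝ, 0 < κ ∧ ∃ K1 : ℝ, 0 < K1 ∧ ∃ η1 : ℝ, 0 < η1 ∧
    ∃ N : ℕ, ∀ n : ℕ, N ≤ n → (regularGraphs n d).Nonempty →
    ∀ η : ℝ, K1 / n ≤ η → η ≤ η1 →
    Whp n d ε fun G ω => vAvg (fun v =>
      if (-(Res (Hm G s ω) (ze E η) v v)⁻¹).im < κ then 1 else 0) ≤ ε

/-- uniform integrability of `Im R_vv`, uniformly in `η ∈ [K1/n, η1]` -/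
def UIS (d : ℕ) (s E : ℝ) : Prop :=
  ∀ ε : ℝ, 0 < ε → ∃ M : ℝ, 0 < M ∧ ∃ K1 : ℝ, 0 < K1 ∧ ∃ η1 : ℝ, 0 < η1 ∧
    ∃ N : ℕ, ∀ n : ℕ, N ≤ n → (regularGraphs n d).Nonempty →
    ∀ η : ℝ, K1 / n ≤ η → η ≤ η1 →
    Whp n d ε fun G ω => vAvg (fun v => if M < (Res (Hm G s ω) (ze E η) v v).im then
      (Res (Hm G s ω) (ze E η) v v).im else 0) ≤ ε

theorem uis_of_lowTail {d : ℕ} {s E : ℝ} (hs : 0 < s) (h : LowTail d s E) : UIS d s E := by
  intro ε hε
  set ε' : ℝ := s * ε ^ 2 / Real.pi with hε'
  have hε'0 : 0 < ε' := by have := Real.pi_pos; positivity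
  obtain ⟨κ, hκ, K1, hK1, η1, hη1, N, hN⟩ := h ε' hε'0
  refine ⟨1 / κ, by positivity, K1, hK1, η1, hη1, max N 1, fun n hn hne η hη hη' => ?_⟩
  have hn1 : (0 : ℝ) < n := by
    have : 1 ≤ n := (le_max_right _ _).trans hn
    exact_mod_cast this
  have hη0 : 0 < η := lt_of_lt_of_le (by positivity) hη
  have hz : 0 < (ze E η).im := by simpa [ze] using hη0
  refine whp_tail (κ := κ) (ε' := ε') hs hz hz hε hε'0.le ?_ ?_
    (hN n ((le_max_left _ _).trans hn) hne η hη hη')
  · rw [hε', mul_div_cancel₀ _ Real.pi_ne_zero]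
  · intro G ω v hv
    have h1 := im_le_inv_yv (Stab269.Hm_symm G s ω) hz v
    have h2 := yv_pos (Stab269.Hm_symm G s ω) hz v
    have h3 := lt_of_lt_of_le hv h1
    exact (one_div_lt_one_div hκ h2).1 h3

/-- **no mass escape for `s > 0`** -/
theorem noEsc_of_lowTail {d : ℕ} {s E : ℝ} (hs : 0 < s) (h : LowTail d s E) : NoEsc d s E := by
  intro K hK ε hε
  set ε' : ℝ := s * ε ^ 2 / Real.pi with hε'
  have hε'0 : 0 < ε' := by have := Real.pi_pos; positivity
  obtain ⟨κ, hκ, K1, hK1, η1, hη1, N, hN⟩ := h ε' hε'0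
  set K' : ℝ := max K K1 with hK'
  have hKK' : K ≤ K' := le_max_left _ _
  have hK'0 : 0 < K' := hK.trans_le hKK'
  obtain ⟨N1, hN1⟩ := exists_nat_gt (K' / η1)
  refine ⟨K' / (K * κ), max N (max N1 1), fun n hn hne => ?_⟩
  have hn1 : (0 : ℝ) < n := by
    have : 1 ≤ n := (le_max_right _ _).trans ((le_max_right _ _).trans hn)
    exact_mod_cast this
  have hnN1 : (N1 : ℝ) ≤ n := by
    have : N1 ≤ n := (le_max_left _ _).trans ((le_max_right _ _).trans hn)
    exact_mod_cast this
  have hz : 0 < (ze E (K / n)).im := by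
    have : 0 < K / n := by positivity
    simpa [ze] using this
  have hz' : 0 < (ze E (K' / n)).im := by
    have : 0 < K' / n := by positivity
    simpa [ze] using this
  refine whp_tail (z := ze E (K / n)) (z' := ze E (K' / n)) (κ := κ) (ε' := ε') hs hz hz' hε
    hε'0.le ?_ ?_ (hN n ((le_max_left _ _).trans hn) hne (K' / n) ?_ ?_)
  · rw [hε', mul_div_cancel₀ _ Real.pi_ne_zero]
  · intro G ω v hv
    have h1 := im_le_inv_yv (Stab269.Hm_symm G s ω) hz v
    have h2 := yv_pos (Stab269.Hm_symm G s ω) hz v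
    have h2' := yv_pos (Stab269.Hm_symm G s ω) hz' v
    have h3 := lt_of_lt_of_le hv h1
    have h4 := yv_mono (Stab269.Hm_symm G s ω) (E := E) (η := K / n) (η' := K' / n) (by positivity)
      (by gcongr) v
    have h5 : yv (Hm G s ω) (ze E (K / n)) v < K * κ / K' := by
      rw [lt_div_iff₀ h2, div_mul_eq_mul_div, div_lt_one (by positivity)] at h3
      rw [lt_div_iff₀ hK'0]
      linarith
    rw [div_div_eq_mul_div, div_div_eq_mul_div, div_le_div_iff₀ hK'0 hK] at h4
    rw [lt_div_iff₀ hK'0] at h5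
    have h6 : yv (Hm G s ω) (ze E (K' / n)) v * K ≤ yv (Hm G s ω) (ze E (K / n)) v * K' := by
      have : (yv (Hm G s ω) (ze E (K' / n)) v * K) * n ≤
          (yv (Hm G s ω) (ze E (K / n)) v * K') * n := by linarith
      exact le_of_mul_le_mul_right this hn1
    have h7 : yv (Hm G s ω) (ze E (K' / n)) v * K < κ * K := by linarith
    exact lt_of_mul_lt_mul_right h7 hK.le
  · gcongr
    exact le_max_right _ _
  · rw [div_le_iff₀ hn1]
    rw [div_lt_iff₀ hη1] at hN1
    nlinarith

end Crest.Agent.R166.NoEsc583
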