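import Crest.Agent.R166.ImLimS_424
import Crest.Agent.R166.NoEscS2_583

/-!
# R166 / ImLimS2_424 (helper424)

Task E3 of 32G, final form: `ImFix → LocLim → UIS → ImLim` (`UIS` of `NoEscS2_583`), and from
`LowTail` for `s > 0`.
-/

set_option autoImplicit false

open Matrix MeasureTheory

namespace Crest.Agent.R166.ImLimS424

open Crest.Agent.R166 Crest.ProbabilityR.RandomMatrix Crest.Agent.R166.NoEsc583

theorem zz_eq_ze (E K : ℝ) (n : ℕ) : zz E K n = ze E (K / n) := rfl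

theorem uiscale_of_UIS {d : ℕ} {s E : ℝ} (h : UIS d s E) : UIscale d s E := by
  intro ε hε
  obtain ⟨M, hM, K1, hK1, η1, hη1, N, hN⟩ := h ε hε
  refine ⟨M, K1, hK1, fun K hK => ⟨max N (max 1 ⌈K / η1⌉₊), fun n hn hne => ?_⟩⟩
  have hn1 : N ≤ n := (le_max_left _ _).trans hn
  have hn2 : 1 ≤ n := ((le_max_left _ _).trans (le_max_right _ _)).trans hn
  have hn3 : ⌈K / η1⌉₊ ≤ n := ((le_max_right _ _).trans (le_max_right _ _)).trans hn
  have hnp : (0 : ℝ) < n := by exact_mod_cast hn2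
  have h1 : K1 / n ≤ K / n := div_le_div_of_nonneg_right hK hnp.le
  have h2 : K / n ≤ η1 := by
    rw [div_le_iff₀ hnp, mul_comm, ← div_le_iff₀ hη1]
    exact (Nat.le_ceil _).trans (by exact_mod_cast hn3)
  exact hN n hn1 hne (K / n) h1 h2

theorem uifix_of_UIS {d : ℕ} {s E : ℝ} (h : UIS d s E) : UIfix d s E := by
  intro ε hε
  obtain ⟨M, hM, K1, hK1, η1, hη1, N, hN⟩ := h ε hε
  refine ⟨M, η1, hη1, fun η hη hη' => ⟨max N (max 1 ⌈K1 / η⌉₊), fun n hn hne => ?_⟩⟩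
  have hn1 : N ≤ n := (le_max_left _ _).trans hn
  have hn2 : 1 ≤ n := ((le_max_left _ _).trans (le_max_right _ _)).trans hn
  have hn3 : ⌈K1 / η⌉₊ ≤ n := ((le_max_right _ _).trans (le_max_right _ _)).trans hn
  have hnp : (0 : ℝ) < n := by exact_mod_cast hn2
  have h1 : K1 / n ≤ η := by
    rw [div_le_iff₀ hnp, mul_comm, ← div_le_iff₀ hη]
    exact (Nat.le_ceil _).trans (by exact_mod_cast hn3)
  exact hN n hn1 hne η h1 hη'

/-- **E3**: `ImLim` from `ImFix`, `LocLim` and uniform integrability -/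
theorem imLim_of_UIS {d : ℕ} (hd : 0 < d) {s E ρ : ℝ} (hfix : ImFix d s E ρ)
    (hloc : LocLim d s E) (h : UIS d s E) : ImLim d s E ρ :=
  imLim_of hd hfix hloc (uiscale_of_UIS h) (uifix_of_UIS h)

/-- **E3** for `s > 0` from the low tail of `Im (-1/R_vv)` -/
theorem imLim_of_lowTail {d : ℕ} (hd : 0 < d) {s E ρ : ℝ} (hs : 0 < s) (hfix : ImFix d s E ρ)
    (hloc : LocLim d s E) (h : LowTail d s E) : ImLim d s E ρ :=
  imLim_of_UIS hd hfix hloc (uis_of_lowTail hs h)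

end Crest.Agent.R166.ImLimS424
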