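import Crest.Agent.R166.Mob_598

/-!
# Row 166, section 10/30.3: block matrices (helper598)

* `bd π Z` block diagonal part, `near_bd` (decoupling of weakly coupled groups);
* `Siegel`, `mob`, `Near` for `fromBlocks _ 0 0 _` and `blockDiagonal`.
-/

set_option autoImplicit false
set_option linter.unusedSectionVars false

open Matrix

namespace Crest.Agent.R166.Dec598

open Crest.Agent.R166.Res598

variable {ι κ μ : Type*} [Fintype ι] [DecidableEq ι] [Fintype κ] [DecidableEq κ]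
  [Fintype μ] [DecidableEq μ]

/-! ## groups -/

/-- restriction of a vector to a group -/
def restr (π : ι → κ) (a : κ) (x : ι → ℂ) : ι → ℂ := fun i => if π i = a then x i else 0

lemma sum_restr (π : ι → κ) (x : ι → ℂ) : ∑ a, restr π a x = x := by
  ext i
  simp [restr, Finset.sum_apply]

/-- block diagonal part -/
def bd (π : ι → κ) (Z : Matrix ι ι ℂ) : Matrix ι ι ℂ := fun i j => if π i = π j then Z i j else 0

lemma bd_symm (π : ι → κ) {Z : Matrix ι ι ℂ} (hZ : Zᵀ = Z) : (bd π Z)ᵀ = bd π Z := by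
  ext i j
  have : Z j i = Z i j := by
    have := congrFun (congrFun hZ i) j
    simpa using this
  simp only [Matrix.transpose_apply, bd, this]
  by_cases h : π i = π j
  · simp [h]
  · rw [if_neg (fun h' => h h'.symm), if_neg h]

lemma dot_bd (π : ι → κ) (Z : Matrix ι ι ℂ) (x y : ι → ℂ) :
    x ⬝ᵥ (bd π Z *ᵥ y) = ∑ a, restr π a x ⬝ᵥ (Z *ᵥ restr π a y) := by
  have e1 : x ⬝ᵥ (bd π Z *ᵥ y) = ∑ i, ∑ j, x i * (bd π Z i j * y j) := by
    simp only [dotProduct, Matrix.mulVec, Finset.mul_sum]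
  have e2 : ∀ a, restr π a x ⬝ᵥ (Z *ᵥ restr π a y) =
      ∑ i, ∑ j, restr π a x i * (Z i j * restr π a y j) := by
    intro a
    simp only [dotProduct, Matrix.mulVec, Finset.mul_sum]
  rw [e1]
  simp only [e2]
  rw [Finset.sum_comm (s := (Finset.univ : Finset κ))]
  refine Finset.sum_congr rfl fun i _ => ?_
  rw [Finset.sum_comm (s := (Finset.univ : Finset κ))]
  refine Finset.sum_congr rfl fun j _ => ?_
  rw [Finset.sum_eq_single (π i)]
  · by_cases h : π i = π j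
    · simp [restr, bd, h]
    · have h2 : restr π (π i) y j = 0 := if_neg (fun h' => h h'.symm)
      rw [bd, if_neg h, h2]
      simp
  · intro b _ hb
    have h2 : restr π b x i = 0 := if_neg (fun h' => hb h'.symm)
    rw [h2, zero_mul]
  · simp

lemma star_restr (π : ι → κ) (a : κ) (x : ι → ℂ) : star (restr π a x) = restr π a (star x) := by
  ext i
  simp only [restr, Pi.star_apply]
  split_ifs <;> simp

lemma qf_bd (π : ι → κ) {Z : Matrix ι ι ℂ} (hZ : Zᵀ = Z) (x : ι → ℂ) :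
    qf (imM (bd π Z)) x = ∑ a, qf (imM Z) (restr π a x) := by
  rw [← im_form (bd_symm π hZ), dot_bd, Complex.im_sum]
  refine Finset.sum_congr rfl fun a _ => ?_
  rw [← star_restr, im_form hZ]

lemma restr_ne_zero (π : ι → κ) {x : ι → ℂ} (hx : x ≠ 0) : ∃ a, restr π a x ≠ 0 := by
  by_contra h
  push Not at h
  apply hx
  rw [← sum_restr π x]
  simp [h]

theorem _root_.Crest.Agent.R166.Res598.Siegel.bd (π : ι → κ) {Z : Matrix ι ι ℂ}
    (hZ : Siegel Z) : Siegel (bd π Z) := by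
  refine ⟨bd_symm π hZ.symm, posDef_of_qf (imM_symm (bd_symm π hZ.symm)) fun x hx => ?_⟩
  rw [qf_bd π hZ.symm]
  obtain ⟨a, ha⟩ := restr_ne_zero π hx
  exact Finset.sum_pos' (fun _ _ => qf_nonneg hZ.pos.posSemidef _)
    ⟨a, Finset.mem_univ _, qf_pos hZ.pos ha⟩

lemma nq_restr_le (π : ι → κ) {Z : Matrix ι ι ℂ} (hZ : Siegel Z) (x : ι → ℂ) (a : κ) :
    nq (imM Z) (restr π a x) ≤ nq (imM (bd π Z)) x := by
  unfold nq
  apply Real.sqrt_le_sqrt
  rw [qf_bd π hZ.symm]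
  exact Finset.single_le_sum (f := fun a => qf (imM Z) (restr π a x))
    (fun _ _ => qf_nonneg hZ.pos.posSemidef _) (Finset.mem_univ a)

/-- DECOUPLING: weakly coupled groups are close to independent groups. -/
theorem near_bd (π : ι → κ) {Z : Matrix ι ι ℂ} (hZ : Siegel Z) (ε : κ → κ → ℝ)
    (hε : ∀ a b, 0 ≤ ε a b)
    (h : ∀ a b, a ≠ b → ∀ x y : ι → ℂ, ‖restr π a x ⬝ᵥ (Z *ᵥ restr π b y)‖ ≤
      ε a b * nq (imM Z) (restr π a x) * nq (imM Z) (restr π b y)) :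
    Near (∑ a, ∑ b, if a = b then 0 else ε a b) (bd π Z) Z := by
  refine ⟨hZ.symm, fun x y => ?_⟩
  have e1 : x ⬝ᵥ ((Z - bd π Z) *ᵥ y) =
      ∑ a, ∑ b, if a = b then 0 else restr π a x ⬝ᵥ (Z *ᵥ restr π b y) := by
    rw [Matrix.sub_mulVec, dotProduct_sub, dot_bd]
    have e2 : x ⬝ᵥ (Z *ᵥ y) = ∑ a, ∑ b, restr π a x ⬝ᵥ (Z *ᵥ restr π b y) := by
      conv_lhs => rw [← sum_restr π x, ← sum_restr π y]
      rw [sum_dotProduct]
      refine Finset.sum_congr rfl fun a _ => ?_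
      rw [Matrix.mulVec_sum, dotProduct_sum]
    rw [e2, ← Finset.sum_sub_distrib]
    refine Finset.sum_congr rfl fun a _ => ?_
    rw [← Finset.sum_erase_eq_sub (Finset.mem_univ a)]
    rw [← Finset.add_sum_erase Finset.univ _ (Finset.mem_univ a)]
    simp only [if_true, zero_add]
    refine Finset.sum_congr rfl fun b hb => ?_
    rw [if_neg (fun h => (Finset.ne_of_mem_erase hb) h.symm)]
  rw [e1, Finset.sum_mul, Finset.sum_mul]
  refine le_trans (norm_sum_le _ _) (Finset.sum_le_sum fun a _ => ?_)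
  rw [Finset.sum_mul, Finset.sum_mul]
  refine le_trans (norm_sum_le _ _) (Finset.sum_le_sum fun b _ => ?_)
  by_cases hab : a = b
  · simp [hab]
  · rw [if_neg hab, if_neg hab]
    refine le_trans (h a b hab x y) ?_
    have h1 := nq_restr_le π hZ x a
    have h2 := nq_restr_le π hZ y b
    have h3 := nq_nonneg (imM Z) (restr π a x)
    have h4 := nq_nonneg (imM Z) (restr π b y)
    exact mul_le_mul (mul_le_mul_of_nonneg_left h1 (hε a b)) h2 h4
      (mul_nonneg (hε a b) (nq_nonneg _ _))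

/-! ## `fromBlocks` -/

lemma dot_fromBlocks (Z1 : Matrix ι ι ℂ) (Z2 : Matrix κ κ ℂ) (x y : ι ⊕ κ → ℂ) :
    x ⬝ᵥ (fromBlocks Z1 0 0 Z2 *ᵥ y) =
      (x ∘ Sum.inl) ⬝ᵥ (Z1 *ᵥ (y ∘ Sum.inl)) + (x ∘ Sum.inr) ⬝ᵥ (Z2 *ᵥ (y ∘ Sum.inr)) := by
  simp [dotProduct, Matrix.mulVec, Fintype.sum_sum_type]

lemma fromBlocks_symm {Z1 : Matrix ι ι ℂ} {Z2 : Matrix κ κ ℂ} (h1 : Z1ᵀ = Z1) (h2 : Z2ᵀ = Z2) :
    (fromBlocks Z1 0 0 Z2)ᵀ = fromBlocks Z1 0 0 Z2 := by
  rw [fromBlocks_transpose, h1, h2, Matrix.transpose_zero, Matrix.transpose_zero]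

lemma qf_fromBlocks {Z1 : Matrix ι ι ℂ} {Z2 : Matrix κ κ ℂ} (h1 : Z1ᵀ = Z1) (h2 : Z2ᵀ = Z2)
    (x : ι ⊕ κ → ℂ) :
    qf (imM (fromBlocks Z1 0 0 Z2)) x =
      qf (imM Z1) (x ∘ Sum.inl) + qf (imM Z2) (x ∘ Sum.inr) := by
  rw [← im_form (fromBlocks_symm h1 h2), dot_fromBlocks, Complex.add_im, ← im_form h1,
    ← im_form h2]
  rfl

theorem siegel_fromBlocks {Z1 : Matrix ι ι ℂ} {Z2 : Matrix κ κ ℂ} (h1 : Siegel Z1)
    (h2 : Siegel Z2) : Siegel (fromBlocks Z1 0 0 Z2) := by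
  refine ⟨fromBlocks_symm h1.symm h2.symm,
    posDef_of_qf (imM_symm (fromBlocks_symm h1.symm h2.symm)) fun x hx => ?_⟩
  rw [qf_fromBlocks h1.symm h2.symm]
  by_cases h : x ∘ Sum.inl = 0
  · have h' : x ∘ Sum.inr ≠ 0 := by
      intro h'
      apply hx
      ext i
      rcases i with i | i
      · exact congrFun h i
      · exact congrFun h' i
    exact add_pos_of_nonneg_of_pos (qf_nonneg h1.pos.posSemidef _) (qf_pos h2.pos h')
  · exact add_pos_of_pos_of_nonneg (qf_pos h1.pos h) (qf_nonneg h2.pos.posSemidef _)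

lemma cx_fromBlocks {α β γ δ : Type*} (A : Matrix α γ ℝ) (B : Matrix α δ ℝ) (C : Matrix β γ ℝ)
    (D : Matrix β δ ℝ) : cx (fromBlocks A B C D) = fromBlocks (cx A) (cx B) (cx C) (cx D) := by
  rw [cx, fromBlocks_map]; rfl

lemma cx_zero' {α β : Type*} : cx (0 : Matrix α β ℝ) = 0 := by ext i j; simp

theorem mob_fromBlocks {Z1 : Matrix ι ι ℂ} {Z2 : Matrix κ κ ℂ} (h1 : Siegel Z1) (h2 : Siegel Z2)
    {V1 : Matrix ι ι ℝ} {V2 : Matrix κ κ ℝ} (hV1 : V1ᵀ = V1) (hV2 : V2ᵀ = V2) :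
    mob (fromBlocks V1 0 0 V2) (fromBlocks Z1 0 0 Z2) =
      fromBlocks (mob V1 Z1) 0 0 (mob V2 Z2) := by
  symm
  apply mob_unique (siegel_fromBlocks h1 h2)
  · rw [fromBlocks_transpose, hV1, hV2, Matrix.transpose_zero, Matrix.transpose_zero]
  · rw [cx_fromBlocks, cx_zero', cx_zero', fromBlocks_multiply, fromBlocks_multiply,
      fromBlocks_add]
    congr 1
    · simpa using mob_fixed h1 hV1
    · simp
    · simp
    · simpa using mob_fixed h2 hV2

theorem near_fromBlocks {ε : ℝ} {Z1 Z1' : Matrix ι ι ℂ} {Z2 Z2' : Matrix κ κ ℂ}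
    (h1 : Siegel Z1) (h2 : Siegel Z2) (hε : 0 ≤ ε)
    (hn1 : Near ε Z1 Z1') (hn2 : Near ε Z2 Z2') :
    Near ε (fromBlocks Z1 0 0 Z2) (fromBlocks Z1' 0 0 Z2') := by
  refine ⟨fromBlocks_symm hn1.1 hn2.1, fun x y => ?_⟩
  have e : fromBlocks Z1' 0 0 Z2' - fromBlocks Z1 0 0 Z2 =
      fromBlocks (Z1' - Z1) 0 0 (Z2' - Z2) := by
    ext (i | i) (j | j) <;> simp
  rw [e, dot_fromBlocks]
  have ha := hn1.2 (x ∘ Sum.inl) (y ∘ Sum.inl)
  have hb := hn2.2 (x ∘ Sum.inr) (y ∘ Sum.inr)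
  set a1 := nq (imM Z1) (x ∘ Sum.inl) with ha1
  set a2 := nq (imM Z2) (x ∘ Sum.inr) with ha2
  set b1 := nq (imM Z1) (y ∘ Sum.inl) with hb1
  set b2 := nq (imM Z2) (y ∘ Sum.inr) with hb2
  have hx : nq (imM (fromBlocks Z1 0 0 Z2)) x = Real.sqrt (a1 ^ 2 + a2 ^ 2) := by
    rw [nq, qf_fromBlocks h1.symm h2.symm, ha1, ha2, nq_sq h1.pos.posSemidef,
      nq_sq h2.pos.posSemidef]
  have hy : nq (imM (fromBlocks Z1 0 0 Z2)) y = Real.sqrt (b1 ^ 2 + b2 ^ 2) := by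
    rw [nq, qf_fromBlocks h1.symm h2.symm, hb1, hb2, nq_sq h1.pos.posSemidef,
      nq_sq h2.pos.posSemidef]
  rw [hx, hy]
  have h3 : a1 * b1 + a2 * b2 ≤ Real.sqrt (a1 ^ 2 + a2 ^ 2) * Real.sqrt (b1 ^ 2 + b2 ^ 2) := by
    rw [← Real.sqrt_mul (by positivity)]
    apply Real.le_sqrt_of_sq_le
    nlinarith [sq_nonneg (a1 * b2 - a2 * b1)]
  calc _ ≤ ε * a1 * b1 + ε * a2 * b2 := le_trans (norm_add_le _ _) (add_le_add ha hb)
    _ = ε * (a1 * b1 + a2 * b2) := by ring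
    _ ≤ ε * (Real.sqrt (a1 ^ 2 + a2 ^ 2) * Real.sqrt (b1 ^ 2 + b2 ^ 2)) :=
        mul_le_mul_of_nonneg_left h3 hε
    _ = _ := by ring

theorem near_refl {ε : ℝ} (hε : 0 ≤ ε) {Z : Matrix ι ι ℂ} (hZ : Siegel Z) : Near ε Z Z := by
  refine ⟨hZ.symm, fun x y => ?_⟩
  rw [sub_self, Matrix.zero_mulVec, dotProduct_zero, norm_zero]
  exact mul_nonneg (mul_nonneg hε (nq_nonneg _ _)) (nq_nonneg _ _)

/-! ## `blockDiagonal` -/

lemma dot_blockDiagonal (B : κ → Matrix ι ι ℂ) (x y : ι × κ → ℂ) :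
    x ⬝ᵥ (blockDiagonal B *ᵥ y) = ∑ k, (fun i => x (i, k)) ⬝ᵥ (B k *ᵥ fun i => y (i, k)) := by
  simp only [dotProduct, Matrix.mulVec, Fintype.sum_prod_type, blockDiagonal_apply, Finset.mul_sum]
  rw [Finset.sum_comm]
  refine Finset.sum_congr rfl fun k _ => Finset.sum_congr rfl fun i _ =>
    Finset.sum_congr rfl fun j _ => ?_
  rw [Finset.sum_eq_single k]
  · simp
  · intro b _ hb
    rw [if_neg (fun h => hb h.symm)]
    simp
  · simp

lemma blockDiagonal_symm {B : κ → Matrix ι ι ℂ} (h : ∀ k, (B k)ᵀ = B k) :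
    (blockDiagonal B)ᵀ = blockDiagonal B := by
  rw [blockDiagonal_transpose]; congr 1; ext k : 1; exact h k

lemma qf_blockDiagonal {B : κ → Matrix ι ι ℂ} (h : ∀ k, (B k)ᵀ = B k) (x : ι × κ → ℂ) :
    qf (imM (blockDiagonal B)) x = ∑ k, qf (imM (B k)) (fun i => x (i, k)) := by
  rw [← im_form (blockDiagonal_symm h), dot_blockDiagonal, Complex.im_sum]
  refine Finset.sum_congr rfl fun k _ => ?_
  rw [← im_form (h k)]
  rfl

theorem siegel_blockDiagonal {B : κ → Matrix ι ι ℂ} (h : ∀ k, Siegel (B k)) :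
    Siegel (blockDiagonal B) := by
  have hs := blockDiagonal_symm fun k => (h k).symm
  refine ⟨hs, posDef_of_qf (imM_symm hs) fun x hx => ?_⟩
  rw [qf_blockDiagonal fun k => (h k).symm]
  obtain ⟨⟨i, k⟩, hk⟩ : ∃ p, x p ≠ 0 := by
    by_contra h'
    push Not at h'
    exact hx (funext h')
  refine Finset.sum_pos' (fun k _ => qf_nonneg (h k).pos.posSemidef _)
    ⟨k, Finset.mem_univ _, qf_pos (h k).pos ?_⟩
  intro h0
  exact hk (congrFun h0 i)

lemma cx_blockDiagonal (B : κ → Matrix ι ι ℝ) :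
    cx (blockDiagonal B) = blockDiagonal fun k => cx (B k) := by
  ext ⟨i, k⟩ ⟨j, l⟩
  simp only [cx_apply, blockDiagonal_apply]
  split_ifs <;> simp

theorem mob_blockDiagonal {B : κ → Matrix ι ι ℂ} (h : ∀ k, Siegel (B k))
    {V : κ → Matrix ι ι ℝ} (hV : ∀ k, (V k)ᵀ = V k) :
    mob (blockDiagonal V) (blockDiagonal B) = blockDiagonal fun k => mob (V k) (B k) := by
  symm
  apply mob_unique (siegel_blockDiagonal h)
  · rw [blockDiagonal_transpose]; congr 1; ext k : 1; exact hV k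
  · rw [cx_blockDiagonal, ← blockDiagonal_mul, ← blockDiagonal_mul, ← blockDiagonal_add]
    congr 1
    ext k : 1
    exact mob_fixed (h k) (hV k)

theorem near_blockDiagonal {ε : ℝ} (hε : 0 ≤ ε) {B B' : κ → Matrix ι ι ℂ}
    (h : ∀ k, Siegel (B k)) (hn : ∀ k, Near ε (B k) (B' k)) :
    Near ε (blockDiagonal B) (blockDiagonal B') := by
  refine ⟨blockDiagonal_symm fun k => (hn k).1, fun x y => ?_⟩
  rw [← blockDiagonal_sub, dot_blockDiagonal]
  set a : κ → ℝ := fun k => nq (imM (B k)) (fun i => x (i, k)) with ha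
  set b : κ → ℝ := fun k => nq (imM (B k)) (fun i => y (i, k)) with hb
  have hx : nq (imM (blockDiagonal B)) x = Real.sqrt (∑ k, a k ^ 2) := by
    rw [nq, qf_blockDiagonal fun k => (h k).symm]
    congr 1
    exact Finset.sum_congr rfl fun k _ => (nq_sq (h k).pos.posSemidef _).symm
  have hy : nq (imM (blockDiagonal B)) y = Real.sqrt (∑ k, b k ^ 2) := by
    rw [nq, qf_blockDiagonal fun k => (h k).symm]
    congr 1
    exact Finset.sum_congr rfl fun k _ => (nq_sq (h k).pos.posSemidef _).symm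
  rw [hx, hy]
  calc _ ≤ ∑ k, ε * (a k * b k) := by
        refine le_trans (norm_sum_le _ _) (Finset.sum_le_sum fun k _ => ?_)
        have := (hn k).2 (fun i => x (i, k)) (fun i => y (i, k))
        rw [mul_assoc] at this
        exact this
    _ = ε * ∑ k, a k * b k := by rw [Finset.mul_sum]
    _ ≤ ε * (Real.sqrt (∑ k, a k ^ 2) * Real.sqrt (∑ k, b k ^ 2)) :=
        mul_le_mul_of_nonneg_left (Real.sum_mul_le_sqrt_mul_sqrt _ _ _) hε
    _ = _ := by ring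

/-! ## reindexing -/

theorem mob_reindex (e : κ ≃ ι) {Z : Matrix ι ι ℂ} (hZ : Siegel Z) {V : Matrix ι ι ℝ}
    (hV : Vᵀ = V) : (mob V Z).submatrix e e = mob (V.submatrix e e) (Z.submatrix e e) := by
  apply mob_unique (hZ.sub e.injective)
  · rw [Matrix.transpose_submatrix, hV]
  · have h1 : cx (V.submatrix e e) = (cx V).submatrix e e := rfl
    rw [h1, Matrix.submatrix_mul_equiv, Matrix.submatrix_mul_equiv]
    have h2 := congrArg (fun M : Matrix ι ι ℂ => M.submatrix e e) (mob_fixed hZ hV)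
    exact h2

end Crest.Agent.R166.Dec598
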