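import Crest.Agent.R166.Res_789

/-!
# R166, section 10: resolvent toolkit, part 2 (helper789)

weighted Cauchy-Schwarz, `Qm Z K = K (1 + Z K)⁻¹`, Woodbury formula for perturbations on an index
set, (10.1) matrix Ward identity, (10.2) perturbation bound.
-/

set_option autoImplicit false
set_option linter.unusedSectionVars false

open Matrix Complex

namespace Crest.Agent.R166.Res789

variable {V : Type*} [Fintype V] [DecidableEq V]
variable {P : Type*} [Fintype P] [DecidableEq P]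
variable {Q : Type*} [Fintype Q] [DecidableEq Q]

/-- the sesquilinear form of a real symmetric matrix is hermitian -/
lemma form_conj {Y : Matrix P P ℝ} (hY : Yᵀ = Y) (u v : P → ℂ) :
    star (star u ⬝ᵥ (cx Y *ᵥ v)) = star v ⬝ᵥ (cx Y *ᵥ u) := by
  have hs : (cx Y)ᴴ = cx Y := by rw [cx_conjTranspose, hY]
  rw [← Matrix.star_dotProduct, Matrix.star_mulVec, hs, Matrix.dotProduct_mulVec]

lemma qf_sub_vec {Y : Matrix P P ℝ} (hY : Yᵀ = Y) (u v : P → ℂ) :
    qf Y (u - v) = qf Y u - 2 * (star u ⬝ᵥ (cx Y *ᵥ v)).re + qf Y v := by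
  unfold qf
  rw [star_sub, sub_dotProduct, Matrix.mulVec_sub, dotProduct_sub, dotProduct_sub,
    ← form_conj hY u v]
  simp only [Complex.sub_re, RCLike.star_def, Complex.conj_re]
  ring

lemma qf_add_vec {Y : Matrix P P ℝ} (hY : Yᵀ = Y) (u v : P → ℂ) :
    qf Y (u + v) = qf Y u + 2 * (star u ⬝ᵥ (cx Y *ᵥ v)).re + qf Y v := by
  have := qf_sub_vec hY u (-v)
  rw [sub_neg_eq_add, qf_neg_vec, Matrix.mulVec_neg, dotProduct_neg, Complex.neg_re] at this
  linarith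

/-- Cauchy-Schwarz for a nonnegative real form -/
lemma qf_cs {Y : Matrix P P ℝ} (hY : Yᵀ = Y) (hn : ∀ u, 0 ≤ qf Y u) (u v : P → ℂ) :
    ‖star u ⬝ᵥ (cx Y *ᵥ v)‖ ^ 2 ≤ qf Y u * qf Y v := by
  set c := star u ⬝ᵥ (cx Y *ᵥ v) with hc
  -- phase
  obtain ⟨ph, hph, hphc⟩ : ∃ ph : ℂ, ‖ph‖ = 1 ∧ ph * c = (‖c‖ : ℂ) := by
    by_cases h0 : c = 0
    · exact ⟨1, by simp, by simp [h0]⟩
    · refine ⟨star c / ‖c‖, ?_, ?_⟩
      · rw [norm_div]; simp [h0]
      · have h1 : (‖c‖ : ℂ) ≠ 0 := by simpa using h0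
        field_simp
        rw [RCLike.star_def, ← Complex.normSq_eq_conj_mul_self, Complex.normSq_eq_norm_sq]
        push_cast
        ring
  have hq : ∀ t : ℝ, 0 ≤ qf Y v * (t * t) + (-(2 * ‖c‖)) * t + qf Y u := by
    intro t
    have h1 := hn (u - ((t : ℂ) * ph) • v)
    rw [qf_sub_vec hY, qf_smul_vec, Matrix.mulVec_smul, dotProduct_smul, ← hc, smul_eq_mul,
      mul_assoc, hphc] at h1
    have h2 : ‖(t : ℂ) * ph‖ ^ 2 = t * t := by
      rw [norm_mul, hph, mul_one]; simp [sq]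
    rw [h2] at h1
    have h3 : ((t : ℂ) * (‖c‖ : ℂ)).re = t * ‖c‖ := by
      rw [← Complex.ofReal_mul, Complex.ofReal_re]
    rw [h3] at h1
    linarith
  have hd := discrim_le_zero hq
  unfold discrim at hd
  nlinarith

lemma qf_inv_vec {Y : Matrix P P ℝ} (h : Y.PosDef) (u : P → ℂ) :
    qf Y (cx Y⁻¹ *ᵥ u) = qf Y⁻¹ u := by
  have hs : Yᵀ = Y := by
    have := h.isHermitian
    rwa [Matrix.IsHermitian, Matrix.conjTranspose_eq_transpose_of_trivial] at this
  have hdet : IsUnit Y.det := isUnit_iff_ne_zero.2 h.det_pos.ne'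
  unfold qf
  rw [Matrix.mulVec_mulVec, ← cx_mul, Matrix.mul_nonsing_inv _ hdet, cx_one, Matrix.one_mulVec,
    Matrix.star_mulVec, cx_conjTranspose, Matrix.transpose_nonsing_inv, hs,
    Matrix.dotProduct_mulVec]

/-- weighted Cauchy-Schwarz `|a^* c| ≤ ‖Y^{-1/2} a‖ ‖Y^{1/2} c‖` -/
lemma wcs {Y : Matrix P P ℝ} (h : Y.PosDef) (a c : P → ℂ) :
    ‖star a ⬝ᵥ c‖ ≤ Real.sqrt (qf Y⁻¹ a) * Real.sqrt (qf Y c) := by
  have hs : Yᵀ = Y := by
    have := h.isHermitian
    rwa [Matrix.IsHermitian, Matrix.conjTranspose_eq_transpose_of_trivial] at this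
  have hdet : IsUnit Y.det := isUnit_iff_ne_zero.2 h.det_pos.ne'
  have hn : ∀ u, 0 ≤ qf Y u := by
    intro u
    by_cases hu : u = 0
    · subst hu; simp [qf_expand]
    · exact (qf_pos_of_posDef h hu).le
  have h1 := qf_cs hs hn (cx Y⁻¹ *ᵥ a) c
  have h2 : star (cx Y⁻¹ *ᵥ a) ⬝ᵥ (cx Y *ᵥ c) = star a ⬝ᵥ c := by
    rw [Matrix.star_mulVec, cx_conjTranspose, Matrix.transpose_nonsing_inv, hs,
      ← Matrix.dotProduct_mulVec, Matrix.mulVec_mulVec, ← cx_mul, Matrix.nonsing_inv_mul _ hdet,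
      cx_one, Matrix.one_mulVec]
  rw [h2, qf_inv_vec h] at h1
  rw [← Real.sqrt_mul' _ (hn c)]
  exact Real.le_sqrt_of_sq_le h1

lemma qf_inv_nonneg {Y : Matrix P P ℝ} (h : Y.PosDef) (u : P → ℂ) : 0 ≤ qf Y⁻¹ u := by
  by_cases hu : u = 0
  · subst hu; simp [qf_expand]
  · exact (qf_pos_of_posDef h.inv hu).le

/-- `K (1 + Z K)⁻¹`, the effective perturbation -/
noncomputable def Qm (Z : Matrix P P ℂ) (K : Matrix P P ℝ) : Matrix P P ℂ :=
  cx K * (1 + Z * cx K)⁻¹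

/-- `Z (1 + K Z)⁻¹ = (Z⁻¹ + K)⁻¹`, the perturbed block -/
noncomputable def Pm (Z : Matrix P P ℂ) (K : Matrix P P ℝ) : Matrix P P ℂ :=
  (Z⁻¹ + cx K)⁻¹

lemma Sieg.isUnit_inv_add {Z : Matrix P P ℂ} (h : Sieg Z) {K : Matrix P P ℝ} (hK : Kᵀ = K) :
    IsUnit (Z⁻¹ + cx K).det := by
  have hK' : (-K)ᵀ = -K := by rw [Matrix.transpose_neg, hK]
  have h1 := (h.neg_inv.add_real hK').isUnit_det
  have h2 : Z⁻¹ + cx K = -(-Z⁻¹ + cx (-K)) := by rw [cx_neg]; abel
  rw [h2, Matrix.det_neg]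
  rw [isUnit_iff_ne_zero] at h1 ⊢
  exact mul_ne_zero (pow_ne_zero _ (by norm_num)) h1

lemma Sieg.isUnit_one_add {Z : Matrix P P ℂ} (h : Sieg Z) {K : Matrix P P ℝ} (hK : Kᵀ = K) :
    IsUnit (1 + Z * cx K).det := by
  have h1 : 1 + Z * cx K = Z * (Z⁻¹ + cx K) := by rw [mul_add, h.mul_inv]
  rw [h1, Matrix.det_mul]
  exact h.isUnit_det.mul (h.isUnit_inv_add hK)

lemma Sieg.isUnit_one_add' {Z : Matrix P P ℂ} (h : Sieg Z) {K : Matrix P P ℝ} (hK : Kᵀ = K) :
    IsUnit (1 + cx K * Z).det := by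
  have h1 : 1 + cx K * Z = (Z⁻¹ + cx K) * Z := by rw [add_mul, h.inv_mul]
  rw [h1, Matrix.det_mul]
  exact (h.isUnit_inv_add hK).mul h.isUnit_det

lemma Sieg.Pm_eq {Z : Matrix P P ℂ} (h : Sieg Z) {K : Matrix P P ℝ} (hK : Kᵀ = K) :
    Pm Z K = Z * (1 + cx K * Z)⁻¹ := by
  unfold Pm
  apply Matrix.inv_eq_right_inv
  have h1 : (Z⁻¹ + cx K) * Z = 1 + cx K * Z := by rw [add_mul, h.inv_mul]
  rw [← mul_assoc, h1, Matrix.mul_nonsing_inv _ (h.isUnit_one_add' hK)]

lemma Sieg.Pm_eq' {Z : Matrix P P ℂ} (h : Sieg Z) {K : Matrix P P ℝ} (hK : Kᵀ = K) :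
    Pm Z K = (1 + Z * cx K)⁻¹ * Z := by
  unfold Pm
  apply Matrix.inv_eq_left_inv
  have h1 : Z * (Z⁻¹ + cx K) = 1 + Z * cx K := by rw [mul_add, h.mul_inv]
  rw [mul_assoc, h1, Matrix.nonsing_inv_mul _ (h.isUnit_one_add hK)]

/-- the perturbed block is again in the Siegel space -/
theorem Sieg.Pm {Z : Matrix P P ℂ} (h : Sieg Z) {K : Matrix P P ℝ} (hK : Kᵀ = K) :
    Sieg (Pm Z K) := by
  have hK' : (-K)ᵀ = -K := by rw [Matrix.transpose_neg, hK]
  have h1 := (h.neg_inv.add_real hK').neg_inv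
  have h2 : Res789.Pm Z K = -(-Z⁻¹ + cx (-K))⁻¹ := by
    unfold Res789.Pm
    apply Matrix.inv_eq_right_inv
    have h3 : Z⁻¹ + cx K = -(-Z⁻¹ + cx (-K)) := by rw [cx_neg]; abel
    rw [h3, neg_mul_neg, Matrix.mul_nonsing_inv _ (h.neg_inv.add_real hK').isUnit_det]
  rw [h2]
  exact h1

lemma Sieg.Qm_eq' {Z : Matrix P P ℂ} (h : Sieg Z) {K : Matrix P P ℝ} (hK : Kᵀ = K) :
    Qm Z K = (1 + cx K * Z)⁻¹ * cx K := by
  unfold Qm
  have h1 : (1 + cx K * Z) * cx K = cx K * (1 + Z * cx K) := by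
    rw [add_mul, mul_add, one_mul, mul_one, mul_assoc]
  have h2 : (1 + cx K * Z)⁻¹ * ((1 + cx K * Z) * cx K) * (1 + Z * cx K)⁻¹ =
      (1 + cx K * Z)⁻¹ * (cx K * (1 + Z * cx K)) * (1 + Z * cx K)⁻¹ := by rw [h1]
  rw [← mul_assoc, Matrix.nonsing_inv_mul _ (h.isUnit_one_add' hK), one_mul, mul_assoc, mul_assoc,
    Matrix.mul_nonsing_inv _ (h.isUnit_one_add hK), mul_one] at h2
  exact h2

lemma im_real_form {K : Matrix P P ℝ} (hK : Kᵀ = K) (u : P → ℂ) :
    (star u ⬝ᵥ (cx K *ᵥ u)).im = 0 := by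
  rw [im_form (by rw [← cx_transpose, hK])]
  have : imM (cx K) = 0 := by ext i j; simp
  rw [this]
  simp [qf_expand]

/-- `-Im (b^* Q b) = qf Y (Q b)` -/
lemma Sieg.Qm_im {Z : Matrix P P ℂ} (h : Sieg Z) {K : Matrix P P ℝ} (hK : Kᵀ = K) (b : P → ℂ) :
    (star b ⬝ᵥ (Qm Z K *ᵥ b)).im = - qf (imM Z) (Qm Z K *ᵥ b) := by
  set c := (1 + Z * cx K)⁻¹ *ᵥ b with hc
  have h1 : Qm Z K *ᵥ b = cx K *ᵥ c := by
    rw [hc, Matrix.mulVec_mulVec]; rfl
  have h2 : b = c + Z *ᵥ (cx K *ᵥ c) := by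
    have : (1 + Z * cx K) *ᵥ c = b := by
      rw [hc, Matrix.mulVec_mulVec, Matrix.mul_nonsing_inv _ (h.isUnit_one_add hK),
        Matrix.one_mulVec]
    rw [← this, Matrix.add_mulVec, Matrix.one_mulVec, ← Matrix.mulVec_mulVec]
  set w := cx K *ᵥ c with hw
  rw [h1]
  conv_lhs => rw [h2]
  rw [star_add, add_dotProduct, Complex.add_im, hw, im_real_form hK, zero_add, ← hw]
  rw [← h.form w, Matrix.star_dotProduct]
  simp

/-- `‖Y^{1/2} Q b‖ ≤ ‖Y^{-1/2} b‖` -/
lemma Sieg.qf_Qm_le {Z : Matrix P P ℂ} (h : Sieg Z) {K : Matrix P P ℝ} (hK : Kᵀ = K)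
    (b : P → ℂ) : qf (imM Z) (Qm Z K *ᵥ b) ≤ qf (imM Z)⁻¹ b := by
  set w := Qm Z K *ᵥ b with hw
  have h1 : qf (imM Z) w ≤ ‖star b ⬝ᵥ w‖ := by
    have h2 := h.Qm_im hK b
    rw [← hw] at h2
    have h3 := Complex.abs_im_le_norm (star b ⬝ᵥ w)
    rw [h2, abs_neg, abs_of_nonneg (h.nonneg w)] at h3
    exact h3
  have h2 := h1.trans (wcs h.posDef b w)
  have hA := qf_inv_nonneg h.posDef b
  have hB := h.nonneg w
  set α := Real.sqrt (qf (imM Z)⁻¹ b) with hα
  set β := Real.sqrt (qf (imM Z) w) with hβ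
  have e1 : α ^ 2 = qf (imM Z)⁻¹ b := Real.sq_sqrt hA
  have e2 : β ^ 2 = qf (imM Z) w := Real.sq_sqrt hB
  have p1 : 0 ≤ α := Real.sqrt_nonneg _
  have p2 : 0 ≤ β := Real.sqrt_nonneg _
  rw [← e2] at h2 ⊢
  rw [← e1]
  have h3 : β ≤ α := by
    by_contra hcon
    push Not at hcon
    nlinarith
  nlinarith

/-- the basic perturbation estimate -/
theorem Sieg.Qm_bound {Z : Matrix P P ℂ} (h : Sieg Z) {K : Matrix P P ℝ} (hK : Kᵀ = K)
    (a b : P → ℂ) :
    ‖a ⬝ᵥ (Qm Z K *ᵥ b)‖ ≤ Real.sqrt (qf (imM Z)⁻¹ a) * Real.sqrt (qf (imM Z)⁻¹ b) := by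
  have h1 := wcs h.posDef (star a) (Qm Z K *ᵥ b)
  rw [star_star, qf_star] at h1
  refine h1.trans ?_
  gcongr
  exact h.qf_Qm_le hK b

/-- selection matrix of `f : P → V` -/
def sel (f : P → V) : Matrix V P ℝ := Matrix.of fun x p => if f p = x then 1 else 0

@[simp] lemma sel_apply (f : P → V) (x : V) (p : P) : sel f x p = if f p = x then 1 else 0 := rfl

/-- embed a perturbation supported on the index set `f` -/
def emb (f : P → V) (K : Matrix P P ℝ) : Matrix V V ℝ := sel f * K * (sel f)ᵀ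

lemma emb_symm (f : P → V) {K : Matrix P P ℝ} (hK : Kᵀ = K) : (emb f K)ᵀ = emb f K := by
  unfold emb
  rw [Matrix.transpose_mul, Matrix.transpose_mul, Matrix.transpose_transpose, hK,
    Matrix.mul_assoc]

lemma emb_apply (f : P → V) (K : Matrix P P ℝ) (x y : V) :
    emb f K x y = ∑ p, ∑ q, if f p = x ∧ f q = y then K p q else 0 := by
  unfold emb
  simp only [Matrix.mul_apply, Matrix.transpose_apply, sel_apply, Finset.sum_mul]
  rw [Finset.sum_comm]
  refine Finset.sum_congr rfl fun p _ => Finset.sum_congr rfl fun q _ => ?_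
  by_cases h1 : f p = x <;> by_cases h2 : f q = y <;> simp [h1, h2]

lemma emb_apply_range {f : P → V} (hf : Function.Injective f) (K : Matrix P P ℝ) (p q : P) :
    emb f K (f p) (f q) = K p q := by
  rw [emb_apply, Finset.sum_eq_single p, Finset.sum_eq_single q]
  · simp
  · intro b _ hb
    rw [if_neg]
    rintro ⟨_, h⟩
    exact hb (hf h)
  · simp
  · intro b _ hb
    apply Finset.sum_eq_zero
    intro c _
    rw [if_neg]
    rintro ⟨h, _⟩
    exact hb (hf h)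
  · simp

lemma emb_apply_left {f : P → V} (K : Matrix P P ℝ) {x : V} (hx : x ∉ Set.range f) (y : V) :
    emb f K x y = 0 := by
  rw [emb_apply]
  apply Finset.sum_eq_zero
  intro p _
  apply Finset.sum_eq_zero
  intro q _
  rw [if_neg]
  rintro ⟨h, _⟩
  exact hx ⟨p, h⟩

lemma emb_apply_right {f : P → V} (K : Matrix P P ℝ) (x : V) {y : V} (hy : y ∉ Set.range f) :
    emb f K x y = 0 := by
  rw [emb_apply]
  apply Finset.sum_eq_zero
  intro p _
  apply Finset.sum_eq_zero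
  intro q _
  rw [if_neg]
  rintro ⟨_, h⟩
  exact hy ⟨q, h⟩

lemma sel_tmul_mul_sel (f : P → V) (R : Matrix V V ℂ) :
    (cx (sel f))ᵀ * R * cx (sel f) = R.submatrix f f := by
  ext p q
  simp only [Matrix.mul_apply, Matrix.transpose_apply, cx_apply, sel_apply, Matrix.submatrix_apply]
  rw [Finset.sum_eq_single (f q)]
  · rw [Finset.sum_eq_single (f p)]
    · simp
    · intro b _ hb; rw [if_neg (Ne.symm hb)]; simp
    · simp
  · intro b _ hb; rw [if_neg (Ne.symm hb)]; simp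
  · simp

lemma mul_sel (f : P → V) (R : Matrix V V ℂ) : R * cx (sel f) = R.submatrix id f := by
  ext x q
  simp only [Matrix.mul_apply, cx_apply, sel_apply, Matrix.submatrix_apply, id]
  rw [Finset.sum_eq_single (f q)]
  · simp
  · intro b _ hb; rw [if_neg (Ne.symm hb)]; simp
  · simp

lemma sel_tmul (f : P → V) (R : Matrix V V ℂ) : (cx (sel f))ᵀ * R = R.submatrix f id := by
  ext p y
  simp only [Matrix.mul_apply, Matrix.transpose_apply, cx_apply, sel_apply, Matrix.submatrix_apply,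
    id]
  rw [Finset.sum_eq_single (f p)]
  · simp
  · intro b _ hb; rw [if_neg (Ne.symm hb)]; simp
  · simp

/-- **Woodbury** for a perturbation on an index set -/
theorem Res_emb {H : Matrix V V ℝ} (hH : Hᵀ = H) {z : ℂ} (hz : 0 < z.im) {f : P → V}
    (hf : Function.Injective f) {K : Matrix P P ℝ} (hK : Kᵀ = K) :
    Res (H + emb f K) z = Res H z -
      (Res H z).submatrix id f * Qm ((Res H z).submatrix f f) K * (Res H z).submatrix f id := by
  set R := Res H z with hR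
  set S := cx (sel f) with hS
  set Z := R.submatrix f f with hZ
  have hsZ : Sieg Z := (Res_sieg hH hz).submatrix hf
  have hH' : (H + emb f K)ᵀ = H + emb f K := by rw [Matrix.transpose_add, hH, emb_symm f hK]
  rw [← mul_sel, ← sel_tmul, ← hS]
  unfold Res
  apply Matrix.inv_eq_right_inv
  have e1 : cx (H + emb f K) - z • (1 : Matrix V V ℂ) =
      (cx H - z • (1 : Matrix V V ℂ)) + S * cx K * Sᵀ := by
    rw [cx_add]
    unfold emb
    rw [cx_mul, cx_mul, cx_transpose, ← hS]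
    abel
  have e2 : (cx H - z • (1 : Matrix V V ℂ)) * R = 1 := sub_mul_Res hH hz
  have e3 : Sᵀ * R * S = Z := sel_tmul_mul_sel f R
  rw [e1]
  have e4 : ((cx H - z • (1 : Matrix V V ℂ)) + S * cx K * Sᵀ) * (R - R * S * Qm Z K * (Sᵀ * R)) =
      1 + S * (cx K - Qm Z K - cx K * Z * Qm Z K) * (Sᵀ * R) := by
    have a1 : (cx H - z • (1 : Matrix V V ℂ)) * (R * S * Qm Z K * (Sᵀ * R)) =
        S * Qm Z K * (Sᵀ * R) := by
      have : (cx H - z • (1 : Matrix V V ℂ)) * (R * S * Qm Z K * (Sᵀ * R)) =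
          ((cx H - z • (1 : Matrix V V ℂ)) * R) * S * Qm Z K * (Sᵀ * R) := by
        simp only [Matrix.mul_assoc]
      rw [this, e2, Matrix.one_mul]
    have a2 : S * cx K * Sᵀ * (R * S * Qm Z K * (Sᵀ * R)) =
        S * (cx K * Z * Qm Z K) * (Sᵀ * R) := by
      have : S * cx K * Sᵀ * (R * S * Qm Z K * (Sᵀ * R)) =
          S * (cx K * (Sᵀ * R * S) * Qm Z K) * (Sᵀ * R) := by
        simp only [Matrix.mul_assoc]
      rw [this, e3]
    have a3 : S * cx K * Sᵀ * R = S * cx K * (Sᵀ * R) := by simp only [Matrix.mul_assoc]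
    rw [Matrix.add_mul, Matrix.mul_sub, Matrix.mul_sub, e2, a1, a2, a3]
    simp only [Matrix.mul_sub, Matrix.sub_mul]
    abel
  rw [e4]
  have e5 : cx K - Qm Z K - cx K * Z * Qm Z K = 0 := by
    have : Qm Z K + cx K * Z * Qm Z K = cx K := by
      have h1 : Qm Z K + cx K * Z * Qm Z K = (1 + cx K * Z) * Qm Z K := by
        rw [add_mul, one_mul]
      rw [h1, hsZ.Qm_eq' hK, ← mul_assoc, Matrix.mul_nonsing_inv _ (hsZ.isUnit_one_add' hK),
        one_mul]
    rw [sub_sub, this, sub_self]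
  rw [e5]
  simp

/-- entries of the perturbed resolvent -/
theorem Res_emb_apply {H : Matrix V V ℝ} (hH : Hᵀ = H) {z : ℂ} (hz : 0 < z.im) {f : P → V}
    (hf : Function.Injective f) {K : Matrix P P ℝ} (hK : Kᵀ = K) (x y : V) :
    Res (H + emb f K) z x y = Res H z x y -
      (fun p => Res H z x (f p)) ⬝ᵥ
        (Qm ((Res H z).submatrix f f) K *ᵥ fun p => Res H z (f p) y) := by
  rw [Res_emb hH hz hf hK]
  simp only [Matrix.sub_apply, Matrix.mul_apply, Matrix.submatrix_apply, id, dotProduct, mulVec,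
    Finset.sum_mul, Finset.mul_sum]
  congr 1
  rw [Finset.sum_comm]
  refine Finset.sum_congr rfl fun p _ => Finset.sum_congr rfl fun q _ => ?_
  ring

/-- the block of the perturbed resolvent on the index set -/
theorem Res_emb_block {H : Matrix V V ℝ} (hH : Hᵀ = H) {z : ℂ} (hz : 0 < z.im) {f : P → V}
    (hf : Function.Injective f) {K : Matrix P P ℝ} (hK : Kᵀ = K) :
    (Res (H + emb f K) z).submatrix f f = Pm ((Res H z).submatrix f f) K := by
  have hsZ : Sieg ((Res H z).submatrix f f) := (Res_sieg hH hz).submatrix hf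
  rw [Res_emb hH hz hf hK, hsZ.Pm_eq' hK]
  set Z := (Res H z).submatrix f f with hZ
  have h1 : (Res H z - (Res H z).submatrix id f * Qm Z K * (Res H z).submatrix f id).submatrix f f =
      Z - Z * Qm Z K * Z := by
    ext p q
    simp only [Matrix.sub_apply, Matrix.mul_apply, Matrix.submatrix_apply, id, hZ]
  rw [h1]
  have h2 : Z * Qm Z K = 1 - (1 + Z * cx K)⁻¹ := by
    unfold Qm
    have : (1 + Z * cx K) * (1 + Z * cx K)⁻¹ = 1 :=
      Matrix.mul_nonsing_inv _ (hsZ.isUnit_one_add hK)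
    rw [add_mul, one_mul, mul_assoc] at this
    exact eq_sub_of_add_eq' this
  rw [h2, sub_mul, one_mul, sub_sub_cancel]

/-- `gam f R y = ‖(Im R_S)^{-1/2} R_{S y}‖`, `S = range f` -/
noncomputable def gam (f : P → V) (R : Matrix V V ℂ) (y : V) : ℝ :=
  Real.sqrt (qf (imM (R.submatrix f f))⁻¹ (fun p => R (f p) y))

lemma gam_nonneg (f : P → V) (R : Matrix V V ℂ) (y : V) : 0 ≤ gam f R y := Real.sqrt_nonneg _

/-- **(10.2)** -/
theorem norm_Res_emb_sub_le {H : Matrix V V ℝ} (hH : Hᵀ = H) {z : ℂ} (hz : 0 < z.im) {f : P → V}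
    (hf : Function.Injective f) {K : Matrix P P ℝ} (hK : Kᵀ = K) (x y : V) :
    ‖Res (H + emb f K) z x y - Res H z x y‖ ≤ gam f (Res H z) x * gam f (Res H z) y := by
  have hsZ : Sieg ((Res H z).submatrix f f) := (Res_sieg hH hz).submatrix hf
  rw [Res_emb_apply hH hz hf hK, sub_sub_cancel_left, norm_neg]
  have h1 : (fun p => Res H z x (f p)) = fun p => Res H z (f p) x := by
    ext p
    have := congrFun (congrFun (Res_transpose hH hz) (f p)) x
    simpa using this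
  rw [h1]
  exact hsZ.Qm_bound hK _ _

/-- **(10.1)** matrix Ward identity: `∑_y ‖(Im R_S)^{-1/2} R_{S y}‖² = |S| / η` -/
theorem sum_gam_sq {H : Matrix V V ℝ} (hH : Hᵀ = H) {z : ℂ} (hz : 0 < z.im) {f : P → V}
    (hf : Function.Injective f) :
    ∑ y, gam f (Res H z) y ^ 2 = Fintype.card P / z.im := by
  set R := Res H z with hR
  have hsZ : Sieg (R.submatrix f f) := (Res_sieg hH hz).submatrix hf
  set Y := imM (R.submatrix f f) with hY
  have hYp : Y.PosDef := hsZ.posDef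
  have hdet : IsUnit Y.det := isUnit_iff_ne_zero.2 hYp.det_pos.ne'
  have h1 : ∀ y, gam f R y ^ 2 = qf Y⁻¹ (fun p => R (f p) y) := fun y =>
    Real.sq_sqrt (qf_inv_nonneg hYp _)
  simp only [h1, qf_expand]
  rw [Finset.sum_comm]
  have h2 : ∀ p q, ∑ y, ((R (f p) y).re * (R (f q) y).re + (R (f p) y).im * (R (f q) y).im) =
      Y q p / z.im := by
    intro p q
    have hw := congrFun (congrFun (ward hH hz) (f q)) (f p)
    rw [← hR] at hw
    simp only [cx_apply, imM_apply, Matrix.smul_apply, Matrix.mul_apply, smul_eq_mul,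
      Matrix.conjTranspose_apply] at hw
    have hre := congrArg Complex.re hw
    rw [Complex.ofReal_re, Complex.re_ofReal_mul, Complex.re_sum] at hre
    rw [hY, imM_apply, Matrix.submatrix_apply, hre, mul_div_assoc, mul_comm, div_mul_cancel₀ _ hz.ne']
    refine Finset.sum_congr rfl fun y _ => ?_
    simp
    ring
  have h3 : ∀ p, ∑ y, ∑ q, Y⁻¹ p q *
      ((R (f p) y).re * (R (f q) y).re + (R (f p) y).im * (R (f q) y).im) = 1 / z.im := by
    intro p
    rw [Finset.sum_comm]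
    simp only [← Finset.mul_sum, h2]
    have h4 := congrFun (congrFun (Matrix.nonsing_inv_mul _ hdet) p) p
    rw [Matrix.mul_apply, Matrix.one_apply_eq] at h4
    rw [← h4, Finset.sum_div]
    refine Finset.sum_congr rfl fun q _ => ?_
    ring
  simp only [h3, Finset.sum_const, Finset.card_univ, nsmul_eq_mul]
  ring

end Crest.Agent.R166.Res789
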