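import Crest.Agent.R166.Ports_269
import Crest.Agent.R166.Res2_789

/-!
Row 166, section 30.5 (helper269): stability of edge-block observables under switching.

* `cavB B = (B⁻¹ - W)⁻¹`, `W = [[0,1],[1,0]]`: the block after removing the edge.
* `cavB_lip`: for Siegel blocks `B, B'` and an observable `φ` (bounded by 1, `Λ`-Lipschitz,
  constant outside the ball of radius `β`): `|φ (cavB B') - φ (cavB B)| ≤ 2 (1+β)² (Λ+2) ‖B' - B‖`.
* `stab_ports`: for two port-numbered graphs `p, p'` differing in the half-edges `Ch`: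
  `∑_h |φ(B⁰_h(p')) - φ(B⁰_h(p))| ≤ C d |Ch| / η + 2 |Ch|`.
-/

set_option autoImplicit false

open Matrix Finset

namespace Crest.Agent.R166.Stab269

open Crest.Agent.R166

attribute [local instance] Matrix.linftyOpNormedRing Matrix.linftyOpNormedAlgebra

/-- `[[0,1],[1,0]]` -/
def W2 : Matrix (Fin 2) (Fin 2) ℂ := !![0, 1; 1, 0]

/-- the block after removal of the edge -/
noncomputable def cavB (B : Matrix (Fin 2) (Fin 2) ℂ) : Matrix (Fin 2) (Fin 2) ℂ :=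
  (B⁻¹ - W2)⁻¹

theorem norm_W2_le : ‖W2‖ ≤ 1 := by
  rw [Matrix.linfty_opNorm_def]
  have : (Finset.univ.sup fun i : Fin 2 => ∑ j, ‖W2 i j‖₊) ≤ (1 : NNReal) := by
    refine Finset.sup_le fun i _ => ?_
    fin_cases i <;> simp [W2]
  exact_mod_cast this

/-- entrywise bound for the norm of a `2×2` matrix -/
theorem norm_le_of_entries {A : Matrix (Fin 2) (Fin 2) ℂ} {c : ℝ}
    (h : ∀ i j, ‖A i j‖ ≤ c) : ‖A‖ ≤ 2 * c := by
  have hc : 0 ≤ c := (norm_nonneg _).trans (h 0 0)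
  rw [Matrix.linfty_opNorm_def]
  have : (Finset.univ.sup fun i : Fin 2 => ∑ j, ‖A i j‖₊) ≤ (⟨2 * c, by positivity⟩ : NNReal) := by
    refine Finset.sup_le fun i _ => ?_
    rw [← NNReal.coe_le_coe]
    push_cast
    rw [Fin.sum_univ_two]
    have h0 := h i 0
    have h1 := h i 1
    change ‖A i 0‖ + ‖A i 1‖ ≤ 2 * c
    linarith
  exact_mod_cast this

theorem entry_le_norm (A : Matrix (Fin 2) (Fin 2) ℂ) (i j : Fin 2) : ‖A i j‖ ≤ ‖A‖ := by
  rw [Matrix.linfty_opNorm_def]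
  have h1 : ‖A i j‖₊ ≤ ∑ j, ‖A i j‖₊ :=
    Finset.single_le_sum (f := fun j => ‖A i j‖₊) (fun _ _ => bot_le) (Finset.mem_univ j)
  have h2 : ∑ j, ‖A i j‖₊ ≤ Finset.univ.sup fun i : Fin 2 => ∑ j, ‖A i j‖₊ :=
    Finset.le_sup (f := fun i => ∑ j, ‖A i j‖₊) (Finset.mem_univ i)
  exact_mod_cast h1.trans h2

/-- the resolvent-type identity `B0' - B0 = (1 + B0 W)(B' - B)(1 + W B0')` -/
theorem cavB_sub {B B' : Matrix (Fin 2) (Fin 2) ℂ} (hB : IsUnit B.det) (hB' : IsUnit B'.det)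
    (h0 : IsUnit (B⁻¹ - W2).det) (h0' : IsUnit (B'⁻¹ - W2).det) :
    cavB B' - cavB B = (1 + cavB B * W2) * (B' - B) * (1 + W2 * cavB B') := by
  have e1 : cavB B * (B⁻¹ - W2) = 1 := Matrix.nonsing_inv_mul _ h0
  have e2 : (B'⁻¹ - W2) * cavB B' = 1 := Matrix.mul_nonsing_inv _ h0'
  have b1 : B⁻¹ * B = 1 := Matrix.nonsing_inv_mul _ hB
  have b2 : B' * B'⁻¹ = 1 := Matrix.mul_nonsing_inv _ hB'
  have f1 : 1 + cavB B * W2 = cavB B * B⁻¹ := by
    rw [mul_sub] at e1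
    rw [← e1]
    abel
  have f2 : 1 + W2 * cavB B' = B'⁻¹ * cavB B' := by
    rw [sub_mul] at e2
    rw [← e2]
    abel
  rw [f1, f2]
  have g1 : cavB B * B⁻¹ * (B' - B) * (B'⁻¹ * cavB B')
      = cavB B * (B⁻¹ * (B' * B'⁻¹) - (B⁻¹ * B) * B'⁻¹) * cavB B' := by noncomm_ring
  rw [g1, b1, b2, mul_one, one_mul]
  have g2 : B⁻¹ - B'⁻¹ = (B⁻¹ - W2) - (B'⁻¹ - W2) := by abel
  rw [g2, mul_sub, sub_mul, e1, mul_assoc, e2, one_mul, mul_one]

theorem cavB_near {B B' : Matrix (Fin 2) (Fin 2) ℂ} (hB : IsUnit B.det) (hB' : IsUnit B'.det)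
    (h0 : IsUnit (B⁻¹ - W2).det) (h0' : IsUnit (B'⁻¹ - W2).det) {β : ℝ}
    (hβ : ‖cavB B‖ ≤ β) (hsmall : (1 + β) * ‖B' - B‖ ≤ 1 / 2) :
    ‖cavB B' - cavB B‖ ≤ 2 * (1 + β) ^ 2 * ‖B' - B‖ := by
  have hβ0 : 0 ≤ β := (norm_nonneg _).trans hβ
  set X := (1 + cavB B * W2) * (B' - B) with hX
  have h1 : ‖1 + cavB B * W2‖ ≤ 1 + β := by
    refine (norm_add_le _ _).trans ?_
    have : ‖cavB B * W2‖ ≤ β := by
      refine (norm_mul_le _ _).trans ?_
      calc ‖cavB B‖ * ‖W2‖ ≤ β * 1 := mul_le_mul hβ norm_W2_le (norm_nonneg _) hβ0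
        _ = β := mul_one _
    have h1 : ‖(1 : Matrix (Fin 2) (Fin 2) ℂ)‖ = 1 := norm_one
    rw [h1]
    linarith
  have h1' : ‖1 + W2 * cavB B‖ ≤ 1 + β := by
    refine (norm_add_le _ _).trans ?_
    have : ‖W2 * cavB B‖ ≤ β := by
      refine (norm_mul_le _ _).trans ?_
      calc ‖W2‖ * ‖cavB B‖ ≤ 1 * β := mul_le_mul norm_W2_le hβ (norm_nonneg _) zero_le_one
        _ = β := one_mul _
    have h1 : ‖(1 : Matrix (Fin 2) (Fin 2) ℂ)‖ = 1 := norm_one
    rw [h1]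
    linarith
  have hXn : ‖X‖ ≤ (1 + β) * ‖B' - B‖ :=
    (norm_mul_le _ _).trans (mul_le_mul_of_nonneg_right h1 (norm_nonneg _))
  have hid := cavB_sub hB hB' h0 h0'
  rw [← hX] at hid
  have hid2 : cavB B' - cavB B = X * (1 + W2 * cavB B) + X * (W2 * (cavB B' - cavB B)) := by
    conv_lhs => rw [hid]
    noncomm_ring
  set δ := ‖cavB B' - cavB B‖ with hδ
  have hδ1 : δ ≤ ‖X‖ * (1 + β) + ‖X‖ * δ := by
    calc δ = ‖X * (1 + W2 * cavB B) + X * (W2 * (cavB B' - cavB B))‖ := by rw [hδ, ← hid2]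
      _ ≤ ‖X * (1 + W2 * cavB B)‖ + ‖X * (W2 * (cavB B' - cavB B))‖ := norm_add_le _ _
      _ ≤ ‖X‖ * (1 + β) + ‖X‖ * δ := by
        refine add_le_add ((norm_mul_le _ _).trans (mul_le_mul_of_nonneg_left h1' (norm_nonneg _)))
          ((norm_mul_le _ _).trans (mul_le_mul_of_nonneg_left ?_ (norm_nonneg _)))
        refine (norm_mul_le _ _).trans ?_
        calc ‖W2‖ * ‖cavB B' - cavB B‖ ≤ 1 * ‖cavB B' - cavB B‖ :=
              mul_le_mul_of_nonneg_right norm_W2_le (norm_nonneg _)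
          _ = δ := one_mul _
  have hX2 : ‖X‖ ≤ 1 / 2 := hXn.trans hsmall
  have hδ0 : 0 ≤ δ := norm_nonneg _
  have hδ2 : δ ≤ 2 * (‖X‖ * (1 + β)) := by nlinarith
  calc δ ≤ 2 * (‖X‖ * (1 + β)) := hδ2
    _ ≤ 2 * (((1 + β) * ‖B' - B‖) * (1 + β)) := by
        have := mul_le_mul_of_nonneg_right hXn (by linarith : (0 : ℝ) ≤ 1 + β)
        linarith
    _ = 2 * (1 + β) ^ 2 * ‖B' - B‖ := by ring

/-- an admissible observable of the `2×2` cavity blocks -/
structure Obs (φ : Matrix (Fin 2) (Fin 2) ℂ → ℝ) (Λ β : ℝ) : Prop where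
  bdd : ∀ A, |φ A| ≤ 1
  lip : ∀ A A', |φ A' - φ A| ≤ Λ * ‖A' - A‖
  const : ∀ A A', β < ‖A‖ → β < ‖A'‖ → φ A = φ A'
  Λ0 : 0 ≤ Λ
  β0 : 0 ≤ β

/-- regular blocks: invertible, and invertible after removal of the edge -/
structure RegB (B : Matrix (Fin 2) (Fin 2) ℂ) : Prop where
  det : IsUnit B.det
  det0 : IsUnit (B⁻¹ - W2).det

theorem Obs.diff_le {φ : Matrix (Fin 2) (Fin 2) ℂ → ℝ} {Λ β : ℝ} (h : Obs φ Λ β)
    {B B' : Matrix (Fin 2) (Fin 2) ℂ} (hB : RegB B) (hB' : RegB B') :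
    |φ (cavB B') - φ (cavB B)| ≤ 2 * (1 + β) ^ 2 * (Λ + 2) * ‖B' - B‖ := by
  have hβ0 := h.β0
  have hΛ0 := h.Λ0
  -- the case where one of the two is in the ball
  have key : ∀ {A A' : Matrix (Fin 2) (Fin 2) ℂ}, RegB A → RegB A' → ‖cavB A‖ ≤ β →
      |φ (cavB A') - φ (cavB A)| ≤ 2 * (1 + β) ^ 2 * (Λ + 2) * ‖A' - A‖ := by
    intro A A' hA hA' hn
    by_cases hs : (1 + β) * ‖A' - A‖ ≤ 1 / 2
    · have h1 := cavB_near hA.det hA'.det hA.det0 hA'.det0 hn hs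
      calc |φ (cavB A') - φ (cavB A)| ≤ Λ * ‖cavB A' - cavB A‖ := h.lip _ _
        _ ≤ Λ * (2 * (1 + β) ^ 2 * ‖A' - A‖) := mul_le_mul_of_nonneg_left h1 hΛ0
        _ ≤ 2 * (1 + β) ^ 2 * (Λ + 2) * ‖A' - A‖ := by
            have : 0 ≤ (1 + β) ^ 2 * ‖A' - A‖ := by positivity
            nlinarith
    · rw [not_le] at hs
      have h2 : |φ (cavB A') - φ (cavB A)| ≤ 2 := by
        have h3 := h.bdd (cavB A')
        have h4 := h.bdd (cavB A)
        have := abs_sub (φ (cavB A')) (φ (cavB A))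
        linarith
      have h5 : 0 ≤ ‖A' - A‖ := norm_nonneg _
      have h6 : (1 + β) * ‖A' - A‖ ≤ (1 + β) ^ 2 * ‖A' - A‖ := by
        have : 0 ≤ β * ((1 + β) * ‖A' - A‖) := by positivity
        nlinarith
      have h7 : 0 ≤ (1 + β) ^ 2 * Λ * ‖A' - A‖ := by positivity
      nlinarith
  by_cases h1 : ‖cavB B‖ ≤ β
  · exact key hB hB' h1
  · by_cases h2 : ‖cavB B'‖ ≤ β
    · rw [abs_sub_comm, norm_sub_rev]
      exact key hB' hB h2
    · rw [not_le] at h1 h2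
      rw [h.const _ _ h2 h1, sub_self, abs_zero]
      positivity

/-! ### Siegel blocks are regular -/

open Crest.Agent.R166.Res789 (Sieg imM cx gam emb)

theorem W2_eq : W2 = cx !![0, 1; 1, 0] := by
  ext i j
  fin_cases i <;> fin_cases j <;> simp [W2]

theorem regB_of_sieg {B : Matrix (Fin 2) (Fin 2) ℂ} (h : Sieg B) : RegB B := by
  refine ⟨h.isUnit_det, ?_⟩
  have h1 : Sieg (-B⁻¹ + cx !![0, 1; 1, 0]) := by
    refine h.neg_inv.add_real ?_
    ext i j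
    fin_cases i <;> fin_cases j <;> rfl
  have h2 := h1.isUnit_det
  rw [← W2_eq] at h2
  have h3 : -B⁻¹ + W2 = -(B⁻¹ - W2) := by abel
  rw [h3, Matrix.det_neg] at h2
  simpa using h2

/-! ### Two port-numbered graphs -/

theorem Res_eq {ι : Type*} [Fintype ι] [DecidableEq ι] (H : Matrix ι ι ℝ) (z : ℂ) :
    Crest.Agent.R166.Res H z = Res789.Res H z := rfl

section Graph

variable {n d : ℕ}

theorem Hm_apply (G : SimpleGraph (Fin n)) (s : ℝ) (ω : Fin n → ℝ) (x y : Fin n)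
    [Decidable (G.Adj x y)] :
    Hm G s ω x y = (if G.Adj x y then 1 else 0) + s * (if x = y then ω x else 0) := by
  classical
  unfold Hm
  rw [Matrix.add_apply, Matrix.smul_apply, Matrix.diagonal_apply, SimpleGraph.adjMatrix_apply,
    smul_eq_mul]
  congr

theorem Hm_symm (G : SimpleGraph (Fin n)) (s : ℝ) (ω : Fin n → ℝ) : (Hm G s ω)ᵀ = Hm G s ω := by
  classical
  ext x y
  rw [Matrix.transpose_apply, Hm_apply, Hm_apply]
  by_cases hxy : x = y
  · subst hxy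
    rfl
  · rw [if_neg hxy, if_neg (Ne.symm hxy)]
    by_cases ha : G.Adj x y
    · rw [if_pos ha, if_pos ha.symm]
    · rw [if_neg ha, if_neg (fun h => ha h.symm)]

/-- the half-edges where two port-numbered graphs differ -/
def Ch (p p' : Equiv.Perm (HE n d)) : Finset (HE n d) := Finset.univ.filter fun h => p h ≠ p' h

theorem Hm_eq_of_notMem {p p' : Equiv.Perm (HE n d)} (hp : IsPort p) (hp' : IsPort p') (s : ℝ)
    (ω : Fin n → ℝ) {x : Fin n} (hx : x ∉ (Ch p p').image Prod.fst) (y : Fin n) :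
    Hm (graphOf p') s ω x y = Hm (graphOf p) s ω x y := by
  classical
  have hall : ∀ i, p (x, i) = p' (x, i) := by
    intro i
    by_contra hne
    exact hx (Finset.mem_image.2 ⟨(x, i), Finset.mem_filter.2 ⟨Finset.mem_univ _, hne⟩, rfl⟩)
  have hadj : (graphOf p').Adj x y ↔ (graphOf p).Adj x y := by
    rw [hp.adj_iff, hp'.adj_iff]
    simp [hall]
  rw [Hm_apply, Hm_apply]
  by_cases ha : (graphOf p).Adj x y
  · rw [if_pos ha, if_pos (hadj.2 ha)]
  · rw [if_neg ha, if_neg (fun h => ha (hadj.1 h))]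

/-- the two matrices differ by a perturbation on the changed vertices -/
theorem Hm_emb {p p' : Equiv.Perm (HE n d)} (hp : IsPort p) (hp' : IsPort p') (s : ℝ)
    (ω : Fin n → ℝ) :
    Hm (graphOf p') s ω = Hm (graphOf p) s ω +
      emb (Subtype.val : {x // x ∈ (Ch p p').image Prod.fst} → Fin n)
        ((Hm (graphOf p') s ω - Hm (graphOf p) s ω).submatrix Subtype.val Subtype.val) := by
  classical
  set f : {x // x ∈ (Ch p p').image Prod.fst} → Fin n := Subtype.val with hf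
  have hinj : Function.Injective f := Subtype.val_injective
  ext x y
  rw [Matrix.add_apply]
  by_cases hx : x ∈ (Ch p p').image Prod.fst
  · by_cases hy : y ∈ (Ch p p').image Prod.fst
    · have h1 := Res789.emb_apply_range hinj
        ((Hm (graphOf p') s ω - Hm (graphOf p) s ω).submatrix f f) ⟨x, hx⟩ ⟨y, hy⟩
      have hx' : f ⟨x, hx⟩ = x := rfl
      have hy' : f ⟨y, hy⟩ = y := rfl
      rw [hx', hy'] at h1
      rw [h1, Matrix.submatrix_apply, hx', hy', Matrix.sub_apply]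
      ring
    · have hy' : y ∉ Set.range f := by
        rintro ⟨a, rfl⟩
        exact hy a.2
      rw [Res789.emb_apply_right _ x hy', add_zero]
      have h1 := congrFun (congrFun (Hm_symm (graphOf p') s ω) x) y
      have h2 := congrFun (congrFun (Hm_symm (graphOf p) s ω) x) y
      rw [Matrix.transpose_apply] at h1 h2
      rw [← h1, ← h2]
      exact Hm_eq_of_notMem hp hp' s ω hy x
  · have hx' : x ∉ Set.range f := by
      rintro ⟨a, rfl⟩
      exact hx a.2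
    rw [Res789.emb_apply_left _ hx' y, add_zero]
    exact Hm_eq_of_notMem hp hp' s ω hx y

/-- **core estimate**: the resolvents of two port-numbered graphs, with the Ward identity.
Valid for all `p, p'`, no assumption on the blocks. -/
theorem exists_gamma {p p' : Equiv.Perm (HE n d)} (hp : IsPort p) (hp' : IsPort p') (s : ℝ)
    (ω : Fin n → ℝ) {z : ℂ} (hz : 0 < z.im) :
    ∃ γ : Fin n → ℝ, (∀ x, 0 ≤ γ x) ∧
      (∀ x y, ‖Res (Hm (graphOf p') s ω) z x y - Res (Hm (graphOf p) s ω) z x y‖ ≤ γ x * γ y) ∧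
      ∑ x, γ x ^ 2 ≤ ((Ch p p').card : ℝ) / z.im := by
  classical
  set f : {x // x ∈ (Ch p p').image Prod.fst} → Fin n := Subtype.val with hf
  have hinj : Function.Injective f := Subtype.val_injective
  set K := (Hm (graphOf p') s ω - Hm (graphOf p) s ω).submatrix f f with hK
  have hKs : Kᵀ = K := by
    rw [hK, Matrix.transpose_submatrix, Matrix.transpose_sub, Hm_symm, Hm_symm]
  have hH := Hm_symm (graphOf p) s ω
  refine ⟨fun x => gam f (Res789.Res (Hm (graphOf p) s ω) z) x, fun x => Res789.gam_nonneg _ _ _,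
    ?_, ?_⟩
  · intro x y
    rw [Res_eq, Res_eq, Hm_emb hp hp' s ω]
    exact Res789.norm_Res_emb_sub_le hH hz hinj hKs x y
  · rw [Res789.sum_gam_sq hH hz hinj]
    refine div_le_div_of_nonneg_right ?_ hz.le
    rw [Fintype.card_coe]
    exact_mod_cast Finset.card_image_le

/-- the edge block at the half-edge `h` -/
noncomputable def BE (p : Equiv.Perm (HE n d)) (s : ℝ) (ω : Fin n → ℝ) (z : ℂ) (h : HE n d) :
    Matrix (Fin 2) (Fin 2) ℂ := Blk (Res (Hm (graphOf p) s ω) z) h.1 (p h).1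

/-- the cavity block `B⁰` at the half-edge `h` -/
noncomputable def B0 (p : Equiv.Perm (HE n d)) (s : ℝ) (ω : Fin n → ℝ) (z : ℂ) (h : HE n d) :
    Matrix (Fin 2) (Fin 2) ℂ := cavB (BE p s ω z h)

theorem sieg_BE {p : Equiv.Perm (HE n d)} (hp : IsPort p) (s : ℝ) (ω : Fin n → ℝ) {z : ℂ}
    (hz : 0 < z.im) (h : HE n d) : Sieg (BE p s ω z h) := by
  have h1 : Sieg (Res789.Res (Hm (graphOf p) s ω) z) := Res789.Res_sieg (Hm_symm _ _ _) hz
  have hinj : Function.Injective ![h.1, (p h).1] := by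
    intro i j hij
    have hne := hp.noloop h
    fin_cases i <;> fin_cases j
    · rfl
    · exact absurd hij.symm hne
    · exact absurd hij hne
    · rfl
  exact h1.submatrix hinj

theorem regB_BE {p : Equiv.Perm (HE n d)} (hp : IsPort p) (s : ℝ) (ω : Fin n → ℝ) {z : ℂ}
    (hz : 0 < z.im) (h : HE n d) : RegB (BE p s ω z h) := regB_of_sieg (sieg_BE hp s ω hz h)

/-- difference of the blocks at an unchanged half-edge -/
theorem norm_BE_sub_le {p p' : Equiv.Perm (HE n d)} (s : ℝ) (ω : Fin n → ℝ) {z : ℂ}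
    {γ : Fin n → ℝ} (hγ0 : ∀ x, 0 ≤ γ x)
    (hγ : ∀ x y, ‖Res (Hm (graphOf p') s ω) z x y - Res (Hm (graphOf p) s ω) z x y‖ ≤ γ x * γ y)
    {h : HE n d} (hh : p h = p' h) :
    ‖BE p' s ω z h - BE p s ω z h‖ ≤ 2 * (γ h.1 ^ 2 + γ (p h).1 ^ 2) := by
  refine norm_le_of_entries fun i j => ?_
  have e : ∀ a b : Fin n, a ∈ ({h.1, (p h).1} : Set (Fin n)) → b ∈ ({h.1, (p h).1} : Set (Fin n)) →
      γ a * γ b ≤ γ h.1 ^ 2 + γ (p h).1 ^ 2 := by
    intro a b ha hb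
    have h1 := hγ0 h.1
    have h2 := hγ0 (p h).1
    rcases ha with rfl | ha <;> rcases hb with rfl | hb
    · nlinarith [sq_nonneg (γ (p h).1)]
    · rw [Set.mem_singleton_iff.1 hb]
      nlinarith [sq_nonneg (γ h.1 - γ (p h).1), sq_nonneg (γ h.1), sq_nonneg (γ (p h).1)]
    · rw [Set.mem_singleton_iff.1 ha]
      nlinarith [sq_nonneg (γ h.1 - γ (p h).1), sq_nonneg (γ h.1), sq_nonneg (γ (p h).1)]
    · rw [Set.mem_singleton_iff.1 ha, Set.mem_singleton_iff.1 hb]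
      nlinarith [sq_nonneg (γ h.1)]
  have hmem : ∀ i : Fin 2, ![h.1, (p h).1] i ∈ ({h.1, (p h).1} : Set (Fin n)) := by
    intro i
    fin_cases i
    · exact Or.inl rfl
    · exact Or.inr rfl
  unfold BE Blk
  rw [← hh, Matrix.sub_apply, Matrix.submatrix_apply, Matrix.submatrix_apply]
  exact (hγ _ _).trans (e _ _ (hmem i) (hmem j))

/-- sums over half-edges of functions of the first vertex -/
theorem sum_fst (g : Fin n → ℝ) : ∑ h : HE n d, g h.1 = (d : ℝ) * ∑ v, g v := by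
  rw [Fintype.sum_prod_type]
  simp only [Finset.sum_const, Finset.card_univ, Fintype.card_fin, nsmul_eq_mul]
  rw [Finset.mul_sum]

theorem sum_snd (p : Equiv.Perm (HE n d)) (g : Fin n → ℝ) :
    ∑ h : HE n d, g (p h).1 = (d : ℝ) * ∑ v, g v := by
  rw [Equiv.sum_comp p (fun h => g h.1), sum_fst]

/-- **abstract averaged stability**: `F, F' : HE → ℝ` bounded by 1 and, at unchanged half-edges,
`|F' h - F h| ≤ C (γ² + γ²)` -/
theorem stab_abstract {p p' : Equiv.Perm (HE n d)} {η : ℝ}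
    {γ : Fin n → ℝ} (hsum : ∑ x, γ x ^ 2 ≤ ((Ch p p').card : ℝ) / η)
    {F F' : HE n d → ℝ} (hF : ∀ h, |F h| ≤ 1) (hF' : ∀ h, |F' h| ≤ 1) {C : ℝ} (hC : 0 ≤ C)
    (hd : ∀ h, p h = p' h → |F' h - F h| ≤ C * (γ h.1 ^ 2 + γ (p h).1 ^ 2)) :
    ∑ h, |F' h - F h| ≤ 2 * C * d * ((Ch p p').card : ℝ) / η + 2 * ((Ch p p').card : ℝ) := by
  classical
  have h1 : ∀ h, |F' h - F h| ≤ C * (γ h.1 ^ 2 + γ (p h).1 ^ 2) +
      if h ∈ Ch p p' then (2 : ℝ) else 0 := by
    intro h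
    by_cases hh : h ∈ Ch p p'
    · rw [if_pos hh]
      have h3 := hF h
      have h4 := hF' h
      have h5 := abs_sub (F' h) (F h)
      have h6 : 0 ≤ C * (γ h.1 ^ 2 + γ (p h).1 ^ 2) := by positivity
      linarith
    · rw [if_neg hh, add_zero]
      refine hd h ?_
      by_contra hne
      exact hh (Finset.mem_filter.2 ⟨Finset.mem_univ _, hne⟩)
  refine (Finset.sum_le_sum fun h _ => h1 h).trans ?_
  rw [Finset.sum_add_distrib, ← Finset.mul_sum, Finset.sum_add_distrib,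
    sum_fst (fun v => γ v ^ 2), sum_snd p (fun v => γ v ^ 2), ← Finset.sum_filter,
    Finset.sum_const, nsmul_eq_mul]
  have h2 : (Finset.univ.filter fun h => h ∈ Ch p p') = Ch p p' := by
    ext h
    simp
  rw [h2]
  have h3 : C * ((d : ℝ) * ∑ v, γ v ^ 2 + (d : ℝ) * ∑ v, γ v ^ 2)
      ≤ 2 * C * d * ((Ch p p').card : ℝ) / η := by
    have : C * ((d : ℝ) * ∑ v, γ v ^ 2 + (d : ℝ) * ∑ v, γ v ^ 2)
        = 2 * C * d * ∑ v, γ v ^ 2 := by ring
    rw [this, mul_div_assoc]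
    exact mul_le_mul_of_nonneg_left hsum (by positivity)
  linarith

/-- **30.5** -/
theorem stab_ports {p p' : Equiv.Perm (HE n d)} (hp : IsPort p) (hp' : IsPort p') (s : ℝ)
    (ω : Fin n → ℝ) {z : ℂ} (hz : 0 < z.im) {φ : Matrix (Fin 2) (Fin 2) ℂ → ℝ} {Λ β : ℝ}
    (hφ : Obs φ Λ β) :
    ∑ h, |φ (B0 p' s ω z h) - φ (B0 p s ω z h)| ≤
      8 * (1 + β) ^ 2 * (Λ + 2) * d * ((Ch p p').card : ℝ) / z.im
        + 2 * ((Ch p p').card : ℝ) := by
  obtain ⟨γ, hγ0, hγ, hsum⟩ := exists_gamma hp hp' s ω hz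
  have hβ0 := hφ.β0
  have hΛ0 := hφ.Λ0
  have := stab_abstract (p := p) (p' := p') hsum (F := fun h => φ (B0 p s ω z h))
    (F' := fun h => φ (B0 p' s ω z h)) (fun h => hφ.bdd _) (fun h => hφ.bdd _)
    (C := 4 * (1 + β) ^ 2 * (Λ + 2)) (by positivity) (by
      intro h hh
      have h1 := hφ.diff_le (regB_BE hp s ω hz h) (regB_BE hp' s ω hz h)
      have h2 := norm_BE_sub_le s ω hγ0 hγ hh
      have h3 : 0 ≤ 2 * (1 + β) ^ 2 * (Λ + 2) := by positivity
      calc |φ (B0 p' s ω z h) - φ (B0 p s ω z h)|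
          ≤ 2 * (1 + β) ^ 2 * (Λ + 2) * ‖BE p' s ω z h - BE p s ω z h‖ := h1
        _ ≤ 2 * (1 + β) ^ 2 * (Λ + 2) * (2 * (γ h.1 ^ 2 + γ (p h).1 ^ 2)) :=
            mul_le_mul_of_nonneg_left h2 h3
        _ = 4 * (1 + β) ^ 2 * (Λ + 2) * (γ h.1 ^ 2 + γ (p h).1 ^ 2) := by ring)
  refine this.trans (le_of_eq ?_)
  ring

end Graph

end Crest.Agent.R166.Stab269
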