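import Crest.Agent.R166.TwoPort2_522
import Crest.Agent.R166.Mob2_598
import Crest.Agent.R166.Stab_269

/-!
# Row 166, section 32: gluing two cavity blocks along an edge (helper522)

* `fine κ B`: `κ |x|² ≤ x^* (Im B) x` and entries `≤ 1/κ`.
* `near_of_cross`: a Siegel matrix with `κ`-fine diagonal blocks and small cross entries is near the
  block diagonal matrix.
* `glue_block`: the corner of `mob` of the gluing edge is the explicit glued block.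
* `tau_switch`: the single switching step for `tauM`.
-/

set_option autoImplicit false
set_option linter.unusedSectionVars false

open Matrix

namespace Crest.Agent.R166.Off522

open Crest.Agent.R166.Res598 Crest.Agent.R166.Dec598 Crest.Agent.R166.TwoPort522

variable {ι κ : Type*} [Fintype ι] [DecidableEq ι] [Fintype κ] [DecidableEq κ]

/-- lower bound of the imaginary part -/
def ImGe (c : ℝ) (Z : Matrix ι ι ℂ) : Prop := ∀ x : ι → ℂ, c * ∑ i, ‖x i‖ ^ 2 ≤ qf (imM Z) x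

/-- a `c`-fine matrix -/
structure Fine (c : ℝ) (Z : Matrix ι ι ℂ) : Prop where
  symm : Zᵀ = Z
  pos : 0 < c
  im : ImGe c Z
  le : ∀ i j, ‖Z i j‖ ≤ c⁻¹

lemma Fine.siegel {c : ℝ} {Z : Matrix ι ι ℂ} (h : Fine c Z) : Siegel Z := by
  refine ⟨h.symm, posDef_of_qf (imM_symm h.symm) fun x hx => ?_⟩
  refine lt_of_lt_of_le (mul_pos h.pos ?_) (h.im x)
  obtain ⟨i, hi⟩ := Function.ne_iff.mp hx
  have : 0 < ‖x i‖ ^ 2 := by
    have := norm_pos_iff.mpr hi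
    positivity
  exact lt_of_lt_of_le this (Finset.single_le_sum (f := fun i => ‖x i‖ ^ 2)
    (fun _ _ => by positivity) (Finset.mem_univ i))

/-- `sqrt` of the sum of squares -/
noncomputable def l2 (x : ι → ℂ) : ℝ := Real.sqrt (∑ i, ‖x i‖ ^ 2)

lemma l2_nonneg (x : ι → ℂ) : 0 ≤ l2 x := Real.sqrt_nonneg _

lemma l2_sq (x : ι → ℂ) : l2 x ^ 2 = ∑ i, ‖x i‖ ^ 2 := Real.sq_sqrt (by positivity)

lemma norm_le_l2 (x : ι → ℂ) (i : ι) : ‖x i‖ ≤ l2 x := by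
  apply Real.le_sqrt_of_sq_le
  exact Finset.single_le_sum (f := fun i => ‖x i‖ ^ 2) (fun _ _ => by positivity)
    (Finset.mem_univ i)

lemma sum_norm_le (x : ι → ℂ) : ∑ i, ‖x i‖ ≤ Real.sqrt (Fintype.card ι) * l2 x := by
  have h := Real.sum_mul_le_sqrt_mul_sqrt Finset.univ (fun _ : ι => (1 : ℝ)) (fun i => ‖x i‖)
  simpa [l2] using h

lemma ImGe.l2_le {c : ℝ} (hc : 0 < c) {Z : Matrix ι ι ℂ} (h : ImGe c Z) (x : ι → ℂ) :
    Real.sqrt c * l2 x ≤ nq (imM Z) x := by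
  unfold nq l2
  rw [← Real.sqrt_mul hc.le]
  exact Real.sqrt_le_sqrt (h x)

lemma norm_form_le {δ : ℝ} (hδ : 0 ≤ δ) {Z : Matrix ι κ ℂ} (h : ∀ i j, ‖Z i j‖ ≤ δ)
    (x : ι → ℂ) (y : κ → ℂ) :
    ‖x ⬝ᵥ (Z *ᵥ y)‖ ≤ δ * (Real.sqrt (Fintype.card ι) * Real.sqrt (Fintype.card κ)) * (l2 x * l2 y) := by
  have e : ‖x ⬝ᵥ (Z *ᵥ y)‖ ≤ ∑ i, ∑ j, ‖x i‖ * (δ * ‖y j‖) := by
    unfold dotProduct Matrix.mulVec dotProduct
    refine (norm_sum_le _ _).trans (Finset.sum_le_sum fun i _ => ?_)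
    rw [norm_mul, ← Finset.mul_sum]
    refine mul_le_mul_of_nonneg_left ?_ (norm_nonneg _)
    refine (norm_sum_le _ _).trans (Finset.sum_le_sum fun j _ => ?_)
    rw [norm_mul]
    exact mul_le_mul_of_nonneg_right (h i j) (norm_nonneg _)
  refine e.trans ?_
  have e2 : ∑ i, ∑ j, ‖x i‖ * (δ * ‖y j‖) = δ * ((∑ i, ‖x i‖) * ∑ j, ‖y j‖) := by
    rw [Finset.sum_mul_sum, Finset.mul_sum]
    refine Finset.sum_congr rfl fun i _ => ?_
    rw [Finset.mul_sum]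
    refine Finset.sum_congr rfl fun j _ => ?_
    ring
  rw [e2]
  have h1 := sum_norm_le x
  have h2 := sum_norm_le y
  have h3 : 0 ≤ ∑ i, ‖x i‖ := Finset.sum_nonneg fun _ _ => norm_nonneg _
  have h4 : 0 ≤ ∑ j, ‖y j‖ := Finset.sum_nonneg fun _ _ => norm_nonneg _
  calc δ * ((∑ i, ‖x i‖) * ∑ j, ‖y j‖)
      ≤ δ * ((Real.sqrt (Fintype.card ι) * l2 x) * (Real.sqrt (Fintype.card κ) * l2 y)) :=
        mul_le_mul_of_nonneg_left (mul_le_mul h1 h2 h4 (h3.trans h1)) hδ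
    _ = _ := by ring

/-- a small entrywise perturbation of a matrix with `Im ≥ c` is near -/
theorem near_of_entry {c δ : ℝ} (hc : 0 < c) (hδ : 0 ≤ δ) {Z Z' : Matrix ι ι ℂ} (hs : Z'ᵀ = Z')
    (h : ImGe c Z) (hd : ∀ i j, ‖Z' i j - Z i j‖ ≤ δ) :
    Near (δ * Fintype.card ι / c) Z Z' := by
  refine ⟨hs, fun x y => ?_⟩
  have h1 := norm_form_le hδ (Z := Z' - Z) (fun i j => hd i j) x y
  have h2 := h.l2_le hc x
  have h3 := h.l2_le hc y
  have hs : Real.sqrt (Fintype.card ι) * Real.sqrt (Fintype.card ι) = Fintype.card ι :=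
    Real.mul_self_sqrt (Nat.cast_nonneg _)
  rw [hs] at h1
  have hcs : 0 < Real.sqrt c := Real.sqrt_pos.mpr hc
  have hcc : Real.sqrt c * Real.sqrt c = c := Real.mul_self_sqrt hc.le
  have h4 : c * (l2 x * l2 y) ≤ nq (imM Z) x * nq (imM Z) y := by
    calc c * (l2 x * l2 y) = (Real.sqrt c * Real.sqrt c) * (l2 x * l2 y) := by rw [hcc]
      _ = (Real.sqrt c * l2 x) * (Real.sqrt c * l2 y) := by ring
      _ ≤ _ := mul_le_mul h2 h3 (mul_nonneg hcs.le (l2_nonneg _)) (nq_nonneg _ _)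
  calc ‖x ⬝ᵥ ((Z' - Z) *ᵥ y)‖ ≤ δ * Fintype.card ι * (l2 x * l2 y) := h1
    _ = δ * Fintype.card ι / c * (c * (l2 x * l2 y)) := by field_simp
    _ ≤ δ * Fintype.card ι / c * (nq (imM Z) x * nq (imM Z) y) :=
        mul_le_mul_of_nonneg_left h4 (by positivity)
    _ = _ := by ring

lemma ImGe.fromBlocks {c : ℝ} {Z1 : Matrix ι ι ℂ} {Z2 : Matrix κ κ ℂ} (hs1 : Z1ᵀ = Z1)
    (hs2 : Z2ᵀ = Z2) (h1 : ImGe c Z1) (h2 : ImGe c Z2) :
    ImGe c (Matrix.fromBlocks Z1 0 0 Z2) := by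
  intro x
  rw [qf_fromBlocks hs1 hs2, Fintype.sum_sum_type, mul_add]
  exact add_le_add (h1 (x ∘ Sum.inl)) (h2 (x ∘ Sum.inr))

/-- weakly coupled fine blocks -/
theorem near_of_cross {c δ : ℝ} (hc : 0 < c) (hδ : 0 ≤ δ) {Z : Matrix (ι ⊕ κ) (ι ⊕ κ) ℂ}
    (hs : Zᵀ = Z) (h1 : ImGe c Z.toBlocks₁₁) (h2 : ImGe c Z.toBlocks₂₂)
    (hd : ∀ i j, ‖Z (Sum.inl i) (Sum.inr j)‖ ≤ δ) :
    Near (δ * Fintype.card (ι ⊕ κ) / c) (Matrix.fromBlocks Z.toBlocks₁₁ 0 0 Z.toBlocks₂₂) Z := by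
  have e1 : (Z.toBlocks₁₁)ᵀ = Z.toBlocks₁₁ := by
    ext i j
    exact congrFun (congrFun hs (Sum.inl i)) (Sum.inl j)
  have e2 : (Z.toBlocks₂₂)ᵀ = Z.toBlocks₂₂ := by
    ext i j
    exact congrFun (congrFun hs (Sum.inr i)) (Sum.inr j)
  refine near_of_entry hc hδ hs (ImGe.fromBlocks e1 e2 h1 h2) ?_
  rintro (i | i) (j | j)
  · simp [Matrix.toBlocks₁₁, hδ]
  · simpa using hd i j
  · have : Z (Sum.inr i) (Sum.inl j) = Z (Sum.inl j) (Sum.inr i) :=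
      congrFun (congrFun hs (Sum.inl j)) (Sum.inr i)
    simpa [this] using hd j i
  · simp [Matrix.toBlocks₂₂, hδ]

/-! ### gluing -/

/-- the real symmetric matrix of the gluing edge between the port `inl 1` and the port `inr 0` -/
def VG : Matrix (Fin 2 ⊕ Fin 2) (Fin 2 ⊕ Fin 2) ℝ :=
  Matrix.fromBlocks 0 !![0, 0; 1, 0] !![0, 1; 0, 0] 0

lemma VG_symm : VGᵀ = VG := by
  ext (i | i) (j | j) <;> fin_cases i <;> fin_cases j <;> simp [VG]

/-- the new ports -/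
def PG : Fin 2 → Fin 2 ⊕ Fin 2 := ![Sum.inl 0, Sum.inr 1]

lemma PG_inj : Function.Injective PG := by
  intro i j h
  fin_cases i <;> fin_cases j <;> simp_all [PG]

/-- the glued `4 × 4` matrix -/
noncomputable def GM (a o b a1 o1 b1 : ℂ) : Matrix (Fin 2 ⊕ Fin 2) (Fin 2 ⊕ Fin 2) ℂ :=
  Matrix.fromBlocks
    !![a + o ^ 2 * a1 / (1 - b * a1), o / (1 - b * a1); o / (1 - b * a1), b / (1 - b * a1)]
    !![-(o * a1 / (1 - b * a1)), -(o * o1 / (1 - b * a1));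
       -(b * a1 / (1 - b * a1)), -(b * o1 / (1 - b * a1))]
    !![-(o * a1 / (1 - b * a1)), -(b * a1 / (1 - b * a1));
       -(o * o1 / (1 - b * a1)), -(b * o1 / (1 - b * a1))]
    !![a1 / (1 - b * a1), o1 / (1 - b * a1); o1 / (1 - b * a1), b1 + o1 ^ 2 * b / (1 - b * a1)]

theorem glue_mob {Z Z1 : Matrix (Fin 2) (Fin 2) ℂ} (hZ : Siegel Z) (hZ1 : Siegel Z1) :
    mob VG (Matrix.fromBlocks Z 0 0 Z1) =
      GM (Z 0 0) (Z 0 1) (Z 1 1) (Z1 0 0) (Z1 0 1) (Z1 1 1) := by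
  have hs : Z 1 0 = Z 0 1 := congrFun (congrFun hZ.symm 0) 1
  have hs1 : Z1 1 0 = Z1 0 1 := congrFun (congrFun hZ1.symm 0) 1
  have hg := sg_of_siegel hZ
  have hg1 := sg_of_siegel hZ1
  have hne : 1 - Z 1 1 * Z1 0 0 ≠ 0 := one_sub_ne hg.2.1 hg1.1
  symm
  apply mob_unique (siegel_fromBlocks hZ hZ1) VG_symm
  set D := 1 - Z 1 1 * Z1 0 0 with hD
  have hba : Z 1 1 * Z1 0 0 = 1 - D := by rw [hD]; ring
  have hcx : cx VG = Matrix.fromBlocks 0 !![0, 0; 1, 0] !![0, 1; 0, 0] 0 := by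
    ext (i | i) (j | j) <;> fin_cases i <;> fin_cases j <;> simp [VG]
  rw [hcx, GM, Matrix.fromBlocks_multiply, Matrix.fromBlocks_multiply, Matrix.fromBlocks_add]
  rw [← hD]
  congr 1
  · ext i j
    fin_cases i <;> fin_cases j <;>
      simp [Matrix.mul_apply, Fin.sum_univ_two, hs] <;> field_simp <;> ring
  · ext i j
    fin_cases i <;> fin_cases j <;>
      simp [Matrix.mul_apply, Fin.sum_univ_two, hs] <;> field_simp <;> ring
  · ext i j
    fin_cases i <;> fin_cases j <;>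
      simp [Matrix.mul_apply, Fin.sum_univ_two, hs1] <;> field_simp <;> ring
  · ext i j
    fin_cases i <;> fin_cases j <;>
      simp [Matrix.mul_apply, Fin.sum_univ_two, hs1] <;> field_simp <;> ring

/-- the corner of the glued matrix -/
theorem glue_corner {Z Z1 : Matrix (Fin 2) (Fin 2) ℂ} (hZ : Siegel Z) (hZ1 : Siegel Z1) :
    let M := (mob VG (Matrix.fromBlocks Z 0 0 Z1)).submatrix PG PG
    M 0 0 = ga (Z 0 0) (Z 0 1) (Z 1 1) (Z1 0 0) ∧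
    M 0 1 = go (Z 0 1) (Z 1 1) (Z1 0 0) (Z1 0 1) ∧
    M 1 1 = gb (Z 1 1) (Z1 0 0) (Z1 0 1) (Z1 1 1) := by
  intro M
  have hM : M = (GM (Z 0 0) (Z 0 1) (Z 1 1) (Z1 0 0) (Z1 0 1) (Z1 1 1)).submatrix PG PG := by
    rw [← glue_mob hZ hZ1]
  rw [hM]
  refine ⟨?_, ?_, ?_⟩
  · simp [GM, PG, ga]
  · simp [GM, PG, go]
  · simp [GM, PG, gb]
    rw [mul_comm (Z 1 1) (Z1 0 0)]

theorem siegel_glue {Z Z1 : Matrix (Fin 2) (Fin 2) ℂ} (hZ : Siegel Z) (hZ1 : Siegel Z1) :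
    Siegel ((mob VG (Matrix.fromBlocks Z 0 0 Z1)).submatrix PG PG) :=
  (siegel_mob (siegel_fromBlocks hZ hZ1) VG_symm).sub PG_inj

/-- gluing is submultiplicative for the gain -/
theorem tauM_glue {Z Z1 : Matrix (Fin 2) (Fin 2) ℂ} (hZ : Siegel Z) (hZ1 : Siegel Z1) :
    tauM ((mob VG (Matrix.fromBlocks Z 0 0 Z1)).submatrix PG PG) ≤ tauM Z * tauM Z1 := by
  obtain ⟨e0, e1, e2⟩ := glue_corner hZ hZ1
  have hS := sg_of_siegel (siegel_glue hZ hZ1)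
  have hb : 0 < (gb (Z 1 1) (Z1 0 0) (Z1 0 1) (Z1 1 1)).im := by
    rw [← e2]; exact hS.2.1
  unfold tauM
  rw [e0, e1, e2]
  exact tau_glue (sg_of_siegel hZ) (sg_of_siegel hZ1) hb

/-! ### the single switching step -/

/-- `W` as a real matrix -/
def W2r : Matrix (Fin 2) (Fin 2) ℝ := !![0, 1; 1, 0]

lemma W2r_symm : W2rᵀ = W2r := by
  ext i j
  fin_cases i <;> fin_cases j <;> rfl

lemma cx_W2r : cx W2r = Stab269.W2 := by
  ext i j
  fin_cases i <;> fin_cases j <;> simp [W2r, Stab269.W2]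

/-- the cavity block is `mob (-W)` of the block -/
theorem cavB_eq_mob {B : Matrix (Fin 2) (Fin 2) ℂ} (hB : Siegel B) :
    Stab269.cavB B = mob (-W2r) B := by
  have hV : (-W2r)ᵀ = -W2r := by rw [Matrix.transpose_neg, W2r_symm]
  have h1 := mob_inv hB hV
  have h2 := siegel_mob hB hV
  have h3 : cx (-W2r) = -Stab269.W2 := by
    rw [← cx_W2r]; ext i j; simp
  rw [Stab269.cavB, ← Matrix.nonsing_inv_nonsing_inv _ h2.isUnit, h1, h3, ← sub_eq_add_neg]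

lemma siegel_cavB {B : Matrix (Fin 2) (Fin 2) ℂ} (hB : Siegel B) : Siegel (Stab269.cavB B) := by
  rw [cavB_eq_mob hB]
  exact siegel_mob hB (by rw [Matrix.transpose_neg, W2r_symm])

/-- the perturbation of a single switching on the four ports
`inl 0 = u, inl 1 = w, inr 0 = w1, inr 1 = u1` without the new edge `u u1` -/
def VS : Matrix (Fin 2 ⊕ Fin 2) (Fin 2 ⊕ Fin 2) ℝ :=
  Matrix.fromBlocks (-W2r) 0 0 (-W2r) + VG

lemma VS_symm : VSᵀ = VS := by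
  rw [VS, Matrix.transpose_add, VG_symm, Matrix.fromBlocks_transpose, Matrix.transpose_neg,
    W2r_symm, Matrix.transpose_zero]

/-- the full perturbation of a single switching -/
def VF : Matrix (Fin 2 ⊕ Fin 2) (Fin 2 ⊕ Fin 2) ℝ := VS + lift (emb PG) W2r

lemma VF_symm : VFᵀ = VF := by
  rw [VF, Matrix.transpose_add, VS_symm, lift_symm _ W2r_symm]

/-- cavity block of the new edge -/
theorem cav_new {R : Matrix (Fin 2 ⊕ Fin 2) (Fin 2 ⊕ Fin 2) ℂ} (hR : Siegel R) :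
    Stab269.cavB ((mob VF R).submatrix PG PG) = (mob VS R).submatrix PG PG := by
  have hF := siegel_mob hR VF_symm
  rw [cavB_eq_mob (hF.sub PG_inj)]
  have hV : (-W2r)ᵀ = -W2r := by rw [Matrix.transpose_neg, W2r_symm]
  rw [← cor_emb, ← cor_emb, ← cor_mob (inj_emb PG_inj) hF hV]
  congr 1
  have h1 : mob VF R = mob (lift (emb PG) W2r) (mob VS R) := by
    rw [VF, mob_add hR VS_symm (lift_symm _ W2r_symm)]
  rw [h1, ← mob_add (siegel_mob hR VS_symm) (lift_symm _ W2r_symm) (lift_symm _ hV)]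
  have h2 : lift (emb PG) W2r + lift (emb PG) (-W2r) = 0 := by
    rw [← lift_add, add_neg_cancel]
    simp [lift]
  rw [h2, mob_zero]

/-- **single switching step**: the gain of the cavity block of the new edge -/
theorem tau_switch {c δ : ℝ} (hc : 0 < c) (hδ : 0 ≤ δ) (hsmall : δ * 4 / c ≤ 1 / 3)
    {R : Matrix (Fin 2 ⊕ Fin 2) (Fin 2 ⊕ Fin 2) ℂ} (hR : Siegel R)
    (h1 : ImGe c R.toBlocks₁₁) (h2 : ImGe c R.toBlocks₂₂)
    (hd : ∀ i j, ‖R (Sum.inl i) (Sum.inr j)‖ ≤ δ) :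
    tauM (Stab269.cavB ((mob VF R).submatrix PG PG)) ≤
      tauM (Stab269.cavB R.toBlocks₁₁) * tauM (Stab269.cavB R.toBlocks₂₂) + 72 * δ / c := by
  have s1 : Siegel R.toBlocks₁₁ := hR.sub (f := Sum.inl) Sum.inl_injective
  have s2 : Siegel R.toBlocks₂₂ := hR.sub (f := Sum.inr) Sum.inr_injective
  set ε := δ * Fintype.card (Fin 2 ⊕ Fin 2) / c with hε
  have hcard : (Fintype.card (Fin 2 ⊕ Fin 2) : ℝ) = 4 := by
    simp [Fintype.card_sum]
  rw [hcard] at hε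
  have hε0 : 0 ≤ ε := by rw [hε]; positivity
  have hε1 : ε ≤ 1 / 3 := hsmall
  have hn : Near ε (Matrix.fromBlocks R.toBlocks₁₁ 0 0 R.toBlocks₂₂) R := by
    have := near_of_cross hc hδ hR.symm h1 h2 hd
    rwa [hcard, ← hε] at this
  have hD := siegel_fromBlocks s1 s2
  have hn2 := Near.mob hε0 (by linarith) hD hn VS_symm
  have hn3 := hn2.sub PG (siegel_mob hD VS_symm)
  rw [cav_new hR]
  have hVW : (-W2r)ᵀ = -W2r := by rw [Matrix.transpose_neg, W2r_symm]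
  have hVB : (Matrix.fromBlocks (-W2r) (0 : Matrix (Fin 2) (Fin 2) ℝ) 0 (-W2r))ᵀ
      = Matrix.fromBlocks (-W2r) 0 0 (-W2r) := by
    rw [Matrix.fromBlocks_transpose, hVW, Matrix.transpose_zero]
  have e : mob VS (Matrix.fromBlocks R.toBlocks₁₁ 0 0 R.toBlocks₂₂)
      = mob VG (Matrix.fromBlocks (Stab269.cavB R.toBlocks₁₁) 0 0
          (Stab269.cavB R.toBlocks₂₂)) := by
    rw [VS, mob_add hD hVB VG_symm, mob_fromBlocks s1 s2 hVW hVW, cavB_eq_mob s1, cavB_eq_mob s2]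
  rw [e] at hn3
  have hc1 := siegel_cavB s1
  have hc2 := siegel_cavB s2
  have h4 : ε / (1 - ε) ≤ 3 / 2 * ε := by
    rw [div_le_iff₀ (by linarith)]
    nlinarith
  have h5 := Near.tauM_le (div_nonneg hε0 (by linarith)) (by linarith : ε / (1 - ε) ≤ 1 / 2)
    (siegel_glue hc1 hc2) hn3
  have h6 := tauM_glue hc1 hc2
  have h7 : 12 * (ε / (1 - ε)) ≤ 72 * δ / c := by
    have : 72 * δ / c = 18 * ε := by rw [hε]; ring
    rw [this]
    linarith
  linarith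

end Crest.Agent.R166.Off522
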