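import Crest.Agent.R166.NoEscS2_583
import Crest.Agent.R166.OffDet_522
import Crest.Agent.R166.EnvC_536

/-!
Row 166 (helper583), section 32: from the quenched statement `F1` ("most edge blocks are
`κ`-fine", helper522) to `LowTail`, `NonDeg`, `NoEsc`, `UIS`.

* `whp_of_quenched`: quenched (every fixed `ω` in the cube) ⟹ `Whp`.
-/

set_option autoImplicit false

open MeasureTheory ProbabilityTheory Matrix
open Crest.ProbabilityR.RandomMatrix
open scoped ENNReal NNReal

namespace Crest.Agent.R166.F1Out583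

open NoEsc583

/-- **transfer**: a bound on the number of bad port numberings for every fixed `ω` in the cube gives
`Whp`. -/
theorem whp_of_quenched {n d : ℕ} {ε : ℝ} {Q : SimpleGraph (Fin n) → (Fin n → ℝ) → Prop}
    (hm : ∀ G, MeasurableSet {ω | Q G ω})
    (hq : ∀ ω : Fin n → ℝ, (∀ v, |ω v| ≤ 1) → (open Classical in
      (((Ports n d).filter fun p => ¬ Q (graphOf p) ω).card : ℝ)) ≤ ε * (Ports n d).card) :
    Whp n d ε Q := by
  classical
  rw [Whp_iff]
  set c : ℝ≥0∞ := ((Ports n d).card : ℝ≥0∞) with hc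
  have h1 : ∑ p ∈ Ports n d, (potentialLaw n) {ω | ¬ Q (graphOf p) ω} =
      ∫⁻ ω, ((((Ports n d).filter fun p => ¬ Q (graphOf p) ω).card : ℕ) : ℝ≥0∞)
        ∂(potentialLaw n) := by
    have h2 : ∀ ω, ((((Ports n d).filter fun p => ¬ Q (graphOf p) ω).card : ℕ) : ℝ≥0∞) =
        ∑ p ∈ Ports n d, Set.indicator {ω | ¬ Q (graphOf p) ω} 1 ω := by
      intro ω
      rw [Finset.card_filter]
      push_cast
      refine Finset.sum_congr rfl fun p _ => ?_
      by_cases h : Q (graphOf p) ω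
      · simp [h]
      · simp [h]
    simp only [h2]
    rw [lintegral_finsetSum]
    · refine Finset.sum_congr rfl fun p _ => ?_
      rw [lintegral_indicator_one]
      exact (hm (graphOf p)).compl
    · intro p _
      exact measurable_one.indicator (hm (graphOf p)).compl
  rw [h1]
  have h3 : ∫⁻ ω, ((((Ports n d).filter fun p => ¬ Q (graphOf p) ω).card : ℕ) : ℝ≥0∞)
        ∂(potentialLaw n) ≤ ENNReal.ofReal ε * c := by
    calc ∫⁻ ω, ((((Ports n d).filter fun p => ¬ Q (graphOf p) ω).card : ℕ) : ℝ≥0∞)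
        ∂(potentialLaw n) ≤ ∫⁻ _, ENNReal.ofReal ε * c ∂(potentialLaw n) := by
          refine lintegral_mono_ae ?_
          filter_upwards [Env536.potentialLaw_ae n] with ω hω
          have h4 := hq ω hω
          have h5 : ENNReal.ofReal (((Ports n d).filter fun p => ¬ Q (graphOf p) ω).card : ℝ) ≤
              ENNReal.ofReal (ε * (Ports n d).card) := ENNReal.ofReal_le_ofReal (by
                convert h4 using 3)
          rw [ENNReal.ofReal_natCast, ENNReal.ofReal_mul' (Nat.cast_nonneg _),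
            ENNReal.ofReal_natCast] at h5
          exact h5
      _ = ENNReal.ofReal ε * c := by
          rw [lintegral_const, measure_univ, mul_one]
  calc c⁻¹ * ∫⁻ ω, ((((Ports n d).filter fun p => ¬ Q (graphOf p) ω).card : ℕ) : ℝ≥0∞)
        ∂(potentialLaw n) ≤ c⁻¹ * (ENNReal.ofReal ε * c) := by gcongr
    _ = ENNReal.ofReal ε * (c⁻¹ * c) := by ring
    _ ≤ ENNReal.ofReal ε * 1 := by
        gcongr
        exact ENNReal.inv_mul_le_one _
    _ = ENNReal.ofReal ε := mul_one _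

/-- `Whp` is monotone in the event and in `ε` -/
theorem Whp_mono {n d : ℕ} {ε ε' : ℝ} {Q Q' : SimpleGraph (Fin n) → (Fin n → ℝ) → Prop}
    (h : Whp n d ε Q) (hε : ε ≤ ε') (hQ : ∀ p ∈ Ports n d, ∀ ω, Q (graphOf p) ω → Q' (graphOf p) ω) :
    Whp n d ε' Q' := by
  rw [Whp_iff] at h ⊢
  refine le_trans ?_ (h.trans (ENNReal.ofReal_le_ofReal hε))
  gcongr with p hp ω
  exact hQ p hp _

open Classical in
/-- (F1), helper522: most edge blocks are fine, for every fixed `ω` in the cube, on average over the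
port numberings, uniformly in `η ∈ [K0/n, 1]`. -/
def F1 (d : ℕ) : Prop :=
  ∀ A : ℝ, 0 < A → A ^ 2 < 4 * ((d : ℝ) - 1) → ∃ s1 : ℝ, 0 < s1 ∧
    ∀ ε : ℝ, 0 < ε → ∃ κ : ℝ, 0 < κ ∧ ∃ K0 : ℝ, 0 < K0 ∧ ∃ N : ℕ, ∀ n : ℕ, N ≤ n →
      ∀ E s η : ℝ, |E| ≤ A → |s| ≤ s1 → K0 / n ≤ η → η ≤ 1 →
      ∀ ω : Fin n → ℝ, (∀ v, |ω v| ≤ 1) →
        (∑ p ∈ Ports n d, ((Finset.univ.filter fun h : HE n d =>
          ¬ Off522.Fine κ (Stab269.BE p s ω (ze E η) h)).card : ℝ)) ≤
          ε * (n * d) * (Ports n d).card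

/-! ### Fine blocks -/

/-- a measurable substitute of `Fine` -/
def MFine (κ : ℝ) (B : Matrix (Fin 2) (Fin 2) ℂ) : Prop :=
  κ ^ 2 ≤ (B 0 0).im * (B 1 1).im - (B 0 1).im ^ 2 ∧ (B 0 0).im + (B 1 1).im ≤ 2 * κ⁻¹ ∧
    0 < (B 0 0).im

lemma qf_eval {c : ℝ} {B : Matrix (Fin 2) (Fin 2) ℂ} (h : Off522.Fine c B) (x y : ℝ) :
    c * (x ^ 2 + y ^ 2) ≤ (B 0 0).im * x ^ 2 + 2 * (B 0 1).im * x * y + (B 1 1).im * y ^ 2 := by
  have h1 := h.im ![(x : ℂ), (y : ℂ)]
  have hs : B 1 0 = B 0 1 := by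
    have := congrFun (congrFun h.symm 0) 1
    simpa using this
  have e : Res598.qf (Res598.imM B) ![(x : ℂ), (y : ℂ)] =
      (B 0 0).im * x ^ 2 + 2 * (B 0 1).im * x * y + (B 1 1).im * y ^ 2 := by
    unfold Res598.qf
    simp only [dotProduct, Fin.sum_univ_two, mulVec]
    simp [Res598.imM, Res598.vre, Res598.vim, hs]
    ring
  rw [e] at h1
  simpa using h1

lemma Fine.mfine {κ : ℝ} {B : Matrix (Fin 2) (Fin 2) ℂ} (h : Off522.Fine κ B) : MFine κ B := by
  have hκ := h.pos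
  have h0 := qf_eval h 1 0
  have h1 := qf_eval h 0 1
  simp only [one_pow, mul_one, ne_eq, OfNat.ofNat_ne_zero, not_false_eq_true, zero_pow, add_zero,
    mul_zero, zero_add] at h0 h1
  refine ⟨?_, ?_, lt_of_lt_of_le hκ h0⟩
  · -- determinant
    set a := (B 0 0).im
    set b := (B 0 1).im
    set c := (B 1 1).im
    have h2 := qf_eval h (-b) a
    -- κ (b² + a²) ≤ a b² - 2 b² a + c a² = a (a c - b²)
    have ha : 0 < a := lt_of_lt_of_le hκ h0
    have h3 : κ * (b ^ 2 + a ^ 2) ≤ a * (a * c - b ^ 2) := by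
      have : κ * ((-b) ^ 2 + a ^ 2) ≤ a * (-b) ^ 2 + 2 * b * (-b) * a + c * a ^ 2 := h2
      nlinarith
    have h4 : κ * a ≤ a * c - b ^ 2 := by
      have h5 : κ * a ^ 2 ≤ a * (a * c - b ^ 2) := by nlinarith [sq_nonneg b]
      have h6 : a * (κ * a) ≤ a * (a * c - b ^ 2) := by nlinarith
      exact le_of_mul_le_mul_left h6 ha
    nlinarith
  · have h2 := (Complex.abs_im_le_norm _).trans (h.le 0 0)
    have h3 := (Complex.abs_im_le_norm _).trans (h.le 1 1)
    have h4 := (le_abs_self _).trans h2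
    have h5 := (le_abs_self _).trans h3
    linarith

lemma MFine.form {κ : ℝ} (hκ : 0 < κ) {B : Matrix (Fin 2) (Fin 2) ℂ} (h : MFine κ B) (x y : ℝ) :
    κ ^ 3 / 2 * (x ^ 2 + y ^ 2) ≤
      (B 0 0).im * x ^ 2 + 2 * (B 0 1).im * x * y + (B 1 1).im * y ^ 2 := by
  obtain ⟨h1, h2, h3⟩ := h
  set a := (B 0 0).im
  set b := (B 0 1).im
  set c := (B 1 1).im
  set δ := κ ^ 3 / 2 with hδ
  have hδ0 : 0 < δ := by positivity
  have hc : 0 < c := by
    have : 0 < a * c := by nlinarith [sq_nonneg b, pow_pos hκ 2]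
    exact (mul_pos_iff_of_pos_left h3).1 this
  have h4 : δ * (a + c) ≤ κ ^ 2 := by
    calc δ * (a + c) ≤ δ * (2 * κ⁻¹) := by gcongr
      _ = κ ^ 2 := by rw [hδ]; field_simp
  have h5 : b ^ 2 + δ ^ 2 ≤ (a - δ) * (c - δ) := by nlinarith
  have h6 : 0 < a - δ := by
    have h7 : 0 < (a - δ) * (c - δ) := by nlinarith [sq_nonneg b, pow_pos hδ0 2]
    by_contra hcon
    push Not at hcon
    have h8 : c - δ < 0 := by
      by_contra h9
      push Not at h9
      have := mul_nonpos_of_nonpos_of_nonneg hcon h9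
      linarith
    have : a + c < 2 * δ := by linarith
    have h10 : δ * (a + c) < 2 * δ ^ 2 := by nlinarith
    have : a * c ≤ δ ^ 2 := by
      have : a ≤ δ := by linarith
      have : c ≤ δ := by linarith
      nlinarith
    have h11 : κ ^ 2 ≤ δ ^ 2 := by nlinarith [sq_nonneg b]
    nlinarith
  have h12 : 0 ≤ (a - δ) * ((a - δ) * x ^ 2 + 2 * b * x * y + (c - δ) * y ^ 2) := by
    have : (a - δ) * ((a - δ) * x ^ 2 + 2 * b * x * y + (c - δ) * y ^ 2) =
        ((a - δ) * x + b * y) ^ 2 + ((a - δ) * (c - δ) - b ^ 2) * y ^ 2 := by ring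
    rw [this]
    have : 0 ≤ (a - δ) * (c - δ) - b ^ 2 := by nlinarith [sq_nonneg δ]
    positivity
  have h13 := nonneg_of_mul_nonneg_right h12 h6
  nlinarith

/-! ### consequences of (F1) -/

lemma yv_ge {n : ℕ} {H : Matrix (Fin n) (Fin n) ℝ} (hH : Hᵀ = H) {z : ℂ} (hz : 0 < z.im)
    {κ : ℝ} {u w : Fin n} (h : Off522.Fine κ (Blk (Res H z) u w)) : κ ^ 3 ≤ yv H z u := by
  have hκ := h.pos
  have h0 := qf_eval h 1 0
  simp only [one_pow, mul_one, ne_eq, OfNat.ofNat_ne_zero, not_false_eq_true, zero_pow, add_zero,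
    mul_zero] at h0
  have e : Blk (Res H z) u w 0 0 = Res789.Res H z u u := rfl
  have h1 := h.le 0 0
  rw [e] at h0 h1
  rw [yv_eq hH hz]
  have h2 : 0 < ‖Res789.Res H z u u‖ := norm_pos_iff.2 (res_ne_zero hH hz u)
  rw [le_div_iff₀ (by positivity)]
  have h3 : ‖Res789.Res H z u u‖ ^ 2 ≤ κ⁻¹ ^ 2 := pow_le_pow_left₀ h2.le h1 2
  calc κ ^ 3 * ‖Res789.Res H z u u‖ ^ 2 ≤ κ ^ 3 * κ⁻¹ ^ 2 := by gcongr
    _ = κ := by field_simp
    _ ≤ _ := h0

/-- counting: Markov over the port numberings -/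
lemma markov_ports {n d : ℕ} {ε : ℝ} (hε : 0 < ε) {f : Equiv.Perm (HE n d) → ℝ}
    (hf : ∀ p, 0 ≤ f p) (h : ∑ p ∈ Ports n d, f p ≤ ε ^ 2 * (Ports n d).card) :
    open Classical in
    (((Ports n d).filter fun p => ¬ f p ≤ ε).card : ℝ) ≤ ε * (Ports n d).card := by
  classical
  have h1 : (((Ports n d).filter fun p => ¬ f p ≤ ε).card : ℝ) * ε ≤ ∑ p ∈ Ports n d, f p := by
    calc (((Ports n d).filter fun p => ¬ f p ≤ ε).card : ℝ) * ε =
        ∑ p ∈ (Ports n d).filter fun p => ¬ f p ≤ ε, ε := by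
          rw [Finset.sum_const, nsmul_eq_mul]
      _ ≤ ∑ p ∈ (Ports n d).filter fun p => ¬ f p ≤ ε, f p := by
          refine Finset.sum_le_sum fun p hp => ?_
          exact (not_le.1 (Finset.mem_filter.1 hp).2).le
      _ ≤ ∑ p ∈ Ports n d, f p :=
          Finset.sum_le_sum_of_subset_of_nonneg (Finset.filter_subset _ _) fun p _ _ => hf p
  have h2 : (((Ports n d).filter fun p => ¬ f p ≤ ε).card : ℝ) * ε ≤
      (ε * (Ports n d).card) * ε := by
    calc _ ≤ _ := h1
      _ ≤ _ := h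
      _ = _ := by ring
  have h3 := le_of_mul_le_mul_right h2 hε
  convert h3 using 3

/-- fraction of the non-fine half-edges -/
noncomputable def badF {n d : ℕ} (κ s : ℝ) (z : ℂ) (p : Equiv.Perm (HE n d)) (ω : Fin n → ℝ) : ℝ := by
  classical
  exact ((Finset.univ.filter fun h : HE n d =>
    ¬ Off522.Fine κ (Stab269.BE p s ω z h)).card : ℝ) / (n * d)

/-- common step -/
theorem whp_of_badF {n d : ℕ} (hn : 0 < n) (hd : 0 < d) {ε κ s : ℝ} (hε : 0 < ε) {z : ℂ}
    {Q : SimpleGraph (Fin n) → (Fin n → ℝ) → Prop}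
    (hm : ∀ G, MeasurableSet {ω | Q G ω})
    (hF : ∀ ω : Fin n → ℝ, (∀ v, |ω v| ≤ 1) → (open Classical in
        (∑ p ∈ Ports n d, ((Finset.univ.filter fun h : HE n d =>
          ¬ Off522.Fine κ (Stab269.BE p s ω z h)).card : ℝ))) ≤
          ε ^ 2 * (n * d) * (Ports n d).card)
    (hQ : ∀ p ∈ Ports n d, ∀ ω : Fin n → ℝ, badF κ s z p ω ≤ ε → Q (graphOf p) ω) :
    Whp n d ε Q := by
  classical
  have hnd : (0 : ℝ) < n * d := by positivity
  refine whp_of_quenched hm fun ω hω => ?_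
  have h1 := hF ω hω
  have h2 : ∑ p ∈ Ports n d, badF κ s z p ω ≤ ε ^ 2 * (Ports n d).card := by
    unfold badF
    rw [← Finset.sum_div, div_le_iff₀ hnd]
    calc _ ≤ _ := h1
      _ = _ := by ring
  have h3 := markov_ports hε (f := fun p => badF κ s z p ω)
    (fun p => by unfold badF; positivity) h2
  refine le_trans (Nat.cast_le.2 (Finset.card_le_card ?_)) h3
  intro p hp
  rw [Finset.mem_filter] at hp ⊢
  exact ⟨hp.1, fun hcon => hp.2 (hQ p hp.1 ω hcon)⟩

/-- **(F1) ⟹ LowTail** -/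
theorem lowTail_of_F1 {d : ℕ} (hd : 0 < d) (hF : F1 d) {A : ℝ} (hA : 0 < A)
    (hA2 : A ^ 2 < 4 * ((d : ℝ) - 1)) :
    ∃ s1 : ℝ, 0 < s1 ∧ ∀ E s : ℝ, |E| ≤ A → |s| ≤ s1 → LowTail d s E ∧ NonDeg d s E := by
  classical
  obtain ⟨s1, hs1, hF⟩ := hF A hA hA2
  have hdR : (0 : ℝ) < d := by exact_mod_cast hd
  refine ⟨s1, hs1, fun E s hE hs => ⟨?_, ?_⟩⟩
  · intro ε hε
    obtain ⟨κ, hκ, K0, hK0, N, hN⟩ := hF (ε ^ 2) (by positivity)
    refine ⟨κ ^ 3, by positivity, K0, hK0, 1, one_pos, max N 1, fun n hn hne η hη hη1 => ?_⟩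
    have hn1 : 0 < n := (le_max_right _ _).trans hn
    have hnR : (0 : ℝ) < n := by exact_mod_cast hn1
    have hη0 : 0 < η := lt_of_lt_of_le (by positivity) hη
    have hz : 0 < (ze E η).im := by simpa [ze] using hη0
    have hnd : (0 : ℝ) < n * d := by positivity
    refine whp_of_badF hn1 hd hε (fun G => ?_)
      (hN n ((le_max_left _ _).trans hn) E s η hE hs hη hη1) (fun p hp ω hb => ?_)
    · refine measurableSet_le ?_ measurable_const
      unfold vAvg
      refine Measurable.div_const ?_ _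
      refine Finset.measurable_sum _ fun v _ => ?_
      exact Measurable.ite (measurableSet_lt (measurable_yv (adjM G) s (ze E η) v)
        measurable_const) measurable_const measurable_const
    · refine le_trans ?_ hb
      rw [IsPort.vAvg_eq hd]
      unfold badF
      rw [Finset.card_filter]
      push_cast
      refine div_le_div_of_nonneg_right (Finset.sum_le_sum fun h _ => ?_) hnd.le
      by_cases hfine : Off522.Fine κ (Stab269.BE p s ω (ze E η) h)
      · have h5 := yv_ge (Stab269.Hm_symm _ _ _) hz hfine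
        have h6 : ¬ (-(Res (Hm (graphOf p) s ω) (ze E η) h.1 h.1)⁻¹).im < κ ^ 3 := not_lt.2 h5
        rw [if_neg h6, if_neg (not_not.2 hfine)]
      · rw [if_pos hfine]
        split_ifs <;> norm_num
  · intro ε hε
    obtain ⟨κ, hκ, K0, hK0, N, hN⟩ := hF (ε ^ 2) (by positivity)
    refine ⟨κ ^ 3 / 2, by positivity, 1, one_pos, fun η hη0 hη1 => ?_⟩
    obtain ⟨N1, hN1⟩ := exists_nat_gt (K0 / η)
    refine ⟨max N (max N1 1), fun n hn hne => ?_⟩
    have hn1 : 0 < n := (le_max_right _ _).trans ((le_max_right _ _).trans hn)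
    have hnR : (0 : ℝ) < n := by exact_mod_cast hn1
    have hnN1 : (N1 : ℝ) ≤ n := by
      have : N1 ≤ n := (le_max_left _ _).trans ((le_max_right _ _).trans hn)
      exact_mod_cast this
    have hz : 0 < (ze E η).im := by simpa [ze] using hη0
    have hnd : (0 : ℝ) < n * d := by positivity
    have hη : K0 / n ≤ η := by
      rw [div_le_iff₀ hnR]
      rw [div_lt_iff₀ hη0] at hN1
      nlinarith
    -- a measurable event
    have hW : Whp n d ε fun G ω => eAvg G (fun u w =>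
        if MFine κ (Blk (Res (Hm G s ω) (ze E η)) u w) then 0 else 1) ≤ ε := by
      refine whp_of_badF hn1 hd hε (fun G => ?_)
        (hN n ((le_max_left _ _).trans hn) E s η hE hs hη hη1) (fun p hp ω hb => ?_)
      · refine measurableSet_le ?_ measurable_const
        unfold eAvg
        refine Measurable.div_const ?_ _
        refine Finset.measurable_sum _ fun q _ => ?_
        have hB : ∀ a b : Fin 2, Measurable fun ω : Fin n → ℝ =>
            (Blk (Res (Hm G s ω) (ze E η)) q.1 q.2 a b).im := fun a b =>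
          Complex.measurable_im.comp (measurable_res (adjM G) s (ze E η) _ _)
        refine Measurable.ite ?_ measurable_const measurable_const
        have m1 : MeasurableSet {ω : Fin n → ℝ | κ ^ 2 ≤
            (Blk (Res (Hm G s ω) (ze E η)) q.1 q.2 0 0).im *
              (Blk (Res (Hm G s ω) (ze E η)) q.1 q.2 1 1).im -
              (Blk (Res (Hm G s ω) (ze E η)) q.1 q.2 0 1).im ^ 2} :=
          measurableSet_le measurable_const (((hB 0 0).mul (hB 1 1)).sub ((hB 0 1).pow_const 2))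
        have m2 : MeasurableSet {ω : Fin n → ℝ |
            (Blk (Res (Hm G s ω) (ze E η)) q.1 q.2 0 0).im +
              (Blk (Res (Hm G s ω) (ze E η)) q.1 q.2 1 1).im ≤ 2 * κ⁻¹} :=
          measurableSet_le ((hB 0 0).add (hB 1 1)) measurable_const
        have m3 : MeasurableSet {ω : Fin n → ℝ |
            0 < (Blk (Res (Hm G s ω) (ze E η)) q.1 q.2 0 0).im} :=
          measurableSet_lt measurable_const (hB 0 0)
        exact m1.inter (m2.inter m3)
      · refine le_trans ?_ hb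
        rw [(mem_Ports.1 hp).eAvg_graphOf]
        unfold badF
        rw [Finset.card_filter]
        push_cast
        refine div_le_div_of_nonneg_right (Finset.sum_le_sum fun h _ => ?_) hnd.le
        by_cases hfine : Off522.Fine κ (Stab269.BE p s ω (ze E η) h)
        · have h5 : MFine κ (Blk (Res (Hm (graphOf p) s ω) (ze E η)) h.1 (p h).1) :=
            Fine.mfine hfine
          rw [if_pos h5, if_neg (not_not.2 hfine)]
        · rw [if_pos hfine]
          split_ifs <;> norm_num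
    refine Whp_mono hW le_rfl fun p hp ω hq => le_trans ?_ hq
    rw [(mem_Ports.1 hp).eAvg_graphOf, (mem_Ports.1 hp).eAvg_graphOf]
    refine div_le_div_of_nonneg_right (Finset.sum_le_sum fun h _ => ?_) hnd.le
    by_cases h5 : MFine κ (Blk (Res (Hm (graphOf p) s ω) (ze E η)) h.1 (p h).1)
    · rw [if_pos h5, if_pos]
      intro x
      have h6 := h5.form hκ (x 0) (x 1)
      have hs : (Blk (Res (Hm (graphOf p) s ω) (ze E η)) h.1 (p h).1 1 0) =
          (Blk (Res (Hm (graphOf p) s ω) (ze E η)) h.1 (p h).1 0 1) := by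
        have h7 := Res789.Res_transpose (Stab269.Hm_symm (graphOf p) s ω) hz
        exact congrFun (congrFun h7 h.1) (p h).1
      simp only [Fin.sum_univ_two, hs]
      linarith
    · rw [if_neg h5]
      split_ifs <;> norm_num

/-- all the consequences of (F1) for `0 < s ≤ s1` -/
theorem outputs_of_F1 {d : ℕ} (hd : 0 < d) (hF : F1 d) {A : ℝ} (hA : 0 < A)
    (hA2 : A ^ 2 < 4 * ((d : ℝ) - 1)) :
    ∃ s1 : ℝ, 0 < s1 ∧ ∀ E s : ℝ, |E| ≤ A → 0 < s → s ≤ s1 →
      NonDeg d s E ∧ NoEsc d s E ∧ UIS d s E := by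
  obtain ⟨s1, hs1, h⟩ := lowTail_of_F1 hd hF hA hA2
  refine ⟨s1, hs1, fun E s hE hs hs' => ?_⟩
  obtain ⟨h1, h2⟩ := h E s hE (by rwa [abs_of_pos hs])
  exact ⟨h2, noEsc_of_lowTail hs h1, uis_of_lowTail hs h1⟩

end Crest.Agent.R166.F1Out583
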