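import Crest.Agent.R166.SpecF3_798
import Crest.Agent.R166.F1Out_583

/-!
Row 166 (helper583), section 32: `F3P → LocLim` (`SpecF3.LocFrom`), and the consequences of
`SpecF3.F1`.
-/

set_option autoImplicit false

open MeasureTheory ProbabilityTheory Matrix
open Crest.ProbabilityR.RandomMatrix
open scoped ENNReal NNReal

namespace Crest.Agent.R166.LocFrom583

open NoEsc583 F1Out583

lemma f1_iff (d : ℕ) : SpecF3.F1 d ↔ F1 d := Iff.rfl

/-- the consequences of `SpecF3.F1` for `0 < s ≤ s1` -/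
theorem outputs_of_F1' {d : ℕ} (hd : 0 < d) (hF : SpecF3.F1 d) {A : ℝ} (hA : 0 < A)
    (hA2 : A ^ 2 < 4 * ((d : ℝ) - 1)) :
    ∃ s1 : ℝ, 0 < s1 ∧ ∀ E s : ℝ, |E| ≤ A → 0 < s → s ≤ s1 →
      NonDeg d s E ∧ NoEsc d s E ∧ UIS d s E := outputs_of_F1 hd hF hA hA2

lemma measurable_bnorm_sub {n : ℕ} (G : SimpleGraph (Fin n)) (s : ℝ) (z z' : ℂ) (u w : Fin n) :
    Measurable fun ω : Fin n → ℝ => bnorm (Blk (Res (Hm G s ω) z) u w -
      Blk (Res (Hm G s ω) z') u w) := by
  have hB : ∀ a b : Fin 2, Measurable fun ω : Fin n → ℝ =>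
      ‖(Blk (Res (Hm G s ω) z) u w - Blk (Res (Hm G s ω) z') u w) a b‖ := fun a b =>
    ((measurable_res (adjM G) s z _ _).sub (measurable_res (adjM G) s z' _ _)).norm
  unfold bnorm
  exact ((hB 0 0).max (hB 0 1)).max ((hB 1 0).max (hB 1 1))

lemma bnorm_nonneg (B : Matrix (Fin 2) (Fin 2) ℂ) : 0 ≤ bnorm B :=
  (norm_nonneg (B 0 0)).trans ((le_max_left _ _).trans (le_max_left _ _))

theorem locFrom (d : ℕ) : SpecF3.LocFrom d := by
  classical
  intro A s0 hF E s hE hs ε hε
  obtain ⟨η1, hη1, K0, hK0, N, hN⟩ := hF (ε ^ 2) (by positivity)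
  refine ⟨η1, hη1, K0, hK0, fun η hη hη' K hK => ?_⟩
  obtain ⟨N1, hN1⟩ := exists_nat_gt (K / η1)
  obtain ⟨N2, hN2⟩ := exists_nat_gt (K0 / η)
  refine ⟨max N (max N1 (max N2 1)), fun n hn hne => ?_⟩
  have hn1 : 0 < n := by omega
  have hnR : (0 : ℝ) < n := by exact_mod_cast hn1
  have hnN1 : (N1 : ℝ) ≤ n := by
    have : N1 ≤ n := by omega
    exact_mod_cast this
  have hnN2 : (N2 : ℝ) ≤ n := by
    have : N2 ≤ n := by omega
    exact_mod_cast this
  have h1 : K0 / n ≤ K / n := by gcongr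
  have h2 : K / n ≤ η1 := by
    rw [div_le_iff₀ hnR]
    rw [div_lt_iff₀ hη1] at hN1
    nlinarith
  have h3 : K0 / n ≤ η := by
    rw [div_le_iff₀ hnR]
    rw [div_lt_iff₀ hη] at hN2
    nlinarith
  refine whp_of_quenched (fun G => ?_) (fun ω hω => ?_)
  · refine measurableSet_le ?_ measurable_const
    unfold eAvg
    refine Measurable.div_const ?_ _
    exact Finset.measurable_sum _ fun q _ => measurable_const.min
      (measurable_bnorm_sub G s (ze E (K / n)) (ze E η) q.1 q.2)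
  · have h4 := hN n (by omega) E s (K / n) η hE hs h1 h2 h3 hη' ω hω
    rcases Nat.eq_zero_or_pos d with rfl | hd
    · -- degenerate `d = 0`: all averages vanish
      have h5 : ((Ports n 0).filter fun p => ¬ eAvg (graphOf p) (fun u w =>
          min 1 (bnorm (Blk (Res (Hm (graphOf p) s ω) (zz E K n)) u w -
            Blk (Res (Hm (graphOf p) s ω) (ze E η)) u w))) ≤ ε) = ∅ := by
        rw [Finset.filter_eq_empty_iff]
        intro p hp
        rw [not_not, (mem_Ports.1 hp).eAvg_graphOf]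
        simp [hε.le]
      rw [h5]
      simp
      positivity
    have hnd : (0 : ℝ) < n * d := by positivity
    set f : Equiv.Perm (HE n d) → ℝ := fun p => (∑ h : HE n d,
          min 1 (bnorm (Stab269.BE p s ω (ze E (K / n)) h - Stab269.BE p s ω (ze E η) h))) / (n * d)
      with hf
    have h5 : ∑ p ∈ Ports n d, f p ≤ ε ^ 2 * (Ports n d).card := by
      simp only [hf]
      rw [← Finset.sum_div, div_le_iff₀ hnd]
      calc _ ≤ _ := h4
        _ = _ := by ring
    have h6 := markov_ports hε (f := f) (fun p => by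
      simp only [hf]
      refine div_nonneg (Finset.sum_nonneg fun h _ => ?_) hnd.le
      exact le_min zero_le_one (bnorm_nonneg _)) h5
    refine le_trans (Nat.cast_le.2 (Finset.card_le_card ?_)) h6
    intro p hp
    rw [Finset.mem_filter] at hp ⊢
    refine ⟨hp.1, fun hcon => hp.2 ?_⟩
    rw [(mem_Ports.1 hp.1).eAvg_graphOf]
    exact hcon

end Crest.Agent.R166.LocFrom583
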