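import Crest.Agent.R166.Master_423
import Crest.Agent.R166.DosC_420
import Crest.Agent.R166.ImLimS2_424
import Crest.Agent.R166.LocFrom_583

/-!
Row 166 (helper583): assembly of the graph half of section 32 (`Master423.Stmt32G`) from
`F1`, `F2`, `F3From`, Theorem A and the Stieltjes transform of the tree DOS (`StmtM1`).
-/

set_option autoImplicit false

open MeasureTheory ProbabilityTheory
open Crest.ProbabilityR.RandomMatrix

namespace Crest.Agent.R166.Asm32G583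

open Master423 DosA420 DosB420

/-- `Im ∫ (x - z)⁻¹ dν = ∫ Poisson kernel dν` -/
lemma im_stj (ν : Measure ℝ) [IsProbabilityMeasure ν] (E : ℝ) {η : ℝ} (hη : 0 < η) :
    (∫ x : ℝ, ((x : ℂ) - ze E η)⁻¹ ∂ν).im = ∫ x, pk E η x ∂ν := by
  have hint : Integrable (fun x : ℝ => ((x : ℂ) - ze E η)⁻¹) ν := by
    refine Integrable.of_bound (C := 1 / η) ?_ (Filter.Eventually.of_forall fun x => ?_)
    · refine (Measurable.inv ?_).aestronglyMeasurable
      exact Complex.measurable_ofReal.sub measurable_const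
    · rw [norm_inv, ← one_div]
      apply one_div_le_one_div_of_le hη
      have h1 := Complex.abs_im_le_norm ((x : ℂ) - ze E η)
      rw [Complex.sub_im, Complex.ofReal_im, DosB420.ze_im, zero_sub, abs_neg, abs_of_pos hη] at h1
      exact h1
  have h2 := integral_im hint
  simp only [RCLike.im_to_complex] at h2
  rw [← h2]
  refine integral_congr_ae (Filter.Eventually.of_forall fun x => ?_)
  exact inv_im E x

theorem imFix_of_gavLim (hM1 : StmtM1) {d : ℕ} (hd : 3 ≤ d) {s : ℝ} (hs : 0 ≤ s) {E ρ : ℝ}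
    (h : GavLim d s E ρ) : ImFix d s E ρ := by
  obtain ⟨ν, hν, hStj⟩ := hM1 d s hd hs
  have := hν.1
  intro ε hε
  obtain ⟨η0, hη0, h1⟩ := h (ε / 2) (by positivity)
  refine ⟨η0, hη0, fun η hη hη' => ?_⟩
  have h2 := h1 η hη hη'
  rw [← hStj (ze E η) (by rw [DosB420.ze_im]; exact hη), im_stj ν E hη] at h2
  obtain ⟨N, hN⟩ := dosLim (DosC420.momLim (by omega) hs) hν hs (continuous_pk (E := E) hη)
    (show 0 < ε / 2 by positivity)
  refine ⟨N, fun n hn hne => ?_⟩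
  refine whp_mono (show ε / 2 ≤ ε by linarith) (hN n hn hne) ?_
  intro G ω h
  rw [im_mn_ze (Hm_herm G s ω) hη]
  have h7 := abs_sub_le ((∑ i, pk E η ((Hm_herm G s ω).eigenvalues i)) / n)
    (∫ x, pk E η x ∂ν) (Real.pi * ρ)
  linarith

/-- **the graph half of section 32** -/
theorem stmt32G (hM1 : StmtM1) (hA : ∀ d : ℕ, 3 ≤ d → SpecA.ThmA d)
    (h1 : ∀ d : ℕ, 3 ≤ d → SpecF3.F1 d) (h2 : ∀ d : ℕ, 3 ≤ d → SpecF3.F2 d)
    (h3 : ∀ d : ℕ, 3 ≤ d → SpecF3.F3From d) : Stmt32G := by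
  intro d hd κ hκ
  have hdR : (3 : ℝ) ≤ d := by exact_mod_cast hd
  set A : ℝ := max (2 * Real.sqrt ((d : ℝ) - 1) - κ) 1 with hAdef
  have hA0 : 0 < A := lt_of_lt_of_le one_pos (le_max_right _ _)
  have hsq : Real.sqrt ((d : ℝ) - 1) ^ 2 = (d : ℝ) - 1 := Real.sq_sqrt (by linarith)
  have hs0 : 0 ≤ Real.sqrt ((d : ℝ) - 1) := Real.sqrt_nonneg _
  have hA2 : A ^ 2 < 4 * ((d : ℝ) - 1) := by
    rcases le_total (2 * Real.sqrt ((d : ℝ) - 1) - κ) 1 with h | h
    · rw [hAdef, max_eq_right h]; linarith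
    · rw [hAdef, max_eq_left h]
      nlinarith
  obtain ⟨s1, hs1, H1⟩ := LocFrom583.outputs_of_F1' (by omega) (h1 d hd) hA0 hA2
  obtain ⟨s3, hs3, H3⟩ := h3 d hd hd (h1 d hd) (h2 d hd) (hA d hd) A hA0 hA2
  refine ⟨min s1 s3, lt_min hs1 hs3, fun s hs hs' E ρ hE hρ hG => ?_⟩
  have hs1' : s ≤ s1 := (hs'.trans_le (min_le_left _ _)).le
  have hs3' : |s| ≤ s3 := by
    rw [abs_of_pos hs]; exact (hs'.trans_le (min_le_right _ _)).le
  have hEA : |E| ≤ A := hE.trans (le_max_left _ _)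
  obtain ⟨hNd, hNo, hUI⟩ := H1 E s hEA hs hs1'
  have hLoc : LocLim d s E := LocFrom583.locFrom d A s3 H3 E s hEA hs3'
  have hFix : ImFix d s E ρ := imFix_of_gavLim hM1 hd hs.le hG
  exact ⟨ImLimS424.imLim_of_UIS (by omega) hFix hLoc hUI, hFix, hLoc, hNd, hNo⟩

end Crest.Agent.R166.Asm32G583
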