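import Crest.Agent.R166.Meas_423

/-!
Row 166, section 81: assembly (helper423).

`asm2`: `ImLim`, `ImLimO`, `TightRe`, `CompareGO`, `LapFunExists`, `ReconStatement2` ⇒ `FinalGO`.
-/

set_option autoImplicit false

namespace Crest.Agent.R166.Asm423

open MeasureTheory ProbabilityTheory Crest.ProbabilityR.RandomMatrix Crest.Agent.R166
open Crest.Agent.R166.Meas423

/-- 255's order of quantifiers (two scales `L1 ≪ L`). -/
def ReconStatement2 : Prop :=
  ∀ (h : ℝ → ℝ), Continuous h → HasCompactSupport h → (∀ t, 0 ≤ h t) →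
    ∀ (ρ : ℝ), 0 < ρ → ∀ (Y L1 : ℝ), 0 < L1 → ∀ ε : ℝ, 0 < ε →
    ∃ δ0 : ℝ, 0 < δ0 ∧ ∀ δ : ℝ, 0 < δ → δ ≤ δ0 →
    ∃ L0 : ℝ, 0 < L0 ∧ ∀ L : ℝ, L0 ≤ L → ∀ T : ℝ,
    ∃ m0 : ℕ, ∀ m : ℕ, m0 ≤ m → ∀ f : Matrix (Fin m) (Fin m) ℂ → ℝ, IsLapFun h m f →
      ∀ (E K : ℝ), 0 < K → ∀ (n : ℕ), 0 < n →
        ∀ (H : Matrix (Fin n) (Fin n) ℝ) (hH : H.IsHermitian),
        (mn H (zz E L1 n)).im ≤ Y → (mn H (zz E L n)).im ≤ Y →
        |(mn H (zz E K n)).re - (mn H (zz E L n)).re| ≤ T →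
        |laplaceWeight H hH (unfoldAt h (n * ρ) E) - TestVal H E ρ K δ m f| ≤ ε

/-- comparison of expectations off a (possibly non-measurable) bad set -/
theorem abs_integral_sub_le {Ω : Type*} [MeasurableSpace Ω] {μ : Measure Ω}
    [IsProbabilityMeasure μ] {A B : Ω → ℝ} (hA : Measurable A) (hB : Measurable B)
    (hA0 : ∀ x, 0 ≤ A x) (hA1 : ∀ x, A x ≤ 1) (hB0 : ∀ x, 0 ≤ B x) (hB1 : ∀ x, B x ≤ 1)
    {ε p : ℝ} (hε : 0 ≤ ε) (hp : 0 ≤ p) {S : Set Ω} (hS : μ S ≤ ENNReal.ofReal p)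
    (h : ∀ x, x ∉ S → |A x - B x| ≤ ε) : |∫ x, A x ∂μ - ∫ x, B x ∂μ| ≤ ε + p := by
  have iA : Integrable A μ := Integrable.of_bound hA.aestronglyMeasurable 1
    (Filter.Eventually.of_forall fun x => by
      rw [Real.norm_eq_abs, abs_of_nonneg (hA0 x)]; exact hA1 x)
  have iB : Integrable B μ := Integrable.of_bound hB.aestronglyMeasurable 1
    (Filter.Eventually.of_forall fun x => by
      rw [Real.norm_eq_abs, abs_of_nonneg (hB0 x)]; exact hB1 x)
  set T := toMeasurable μ S with hT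
  have mT : MeasurableSet T := measurableSet_toMeasurable μ S
  have hST : S ⊆ T := subset_toMeasurable μ S
  have hTS : μ.real T ≤ p := by
    rw [Measure.real, hT, measure_toMeasurable]
    exact ENNReal.toReal_le_of_le_ofReal hp hS
  have hpt : ∀ x, |A x - B x| ≤ ε + T.indicator (fun _ => (1 : ℝ)) x := by
    intro x
    by_cases hx : x ∈ T
    · rw [Set.indicator_of_mem hx]
      have : |A x - B x| ≤ 1 := abs_le.2 ⟨by linarith [hA0 x, hB1 x], by linarith [hA1 x, hB0 x]⟩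
      linarith
    · rw [Set.indicator_of_notMem hx, add_zero]
      exact h x fun hxS => hx (hST hxS)
  rw [← integral_sub iA iB]
  calc |∫ x, (A x - B x) ∂μ| ≤ ∫ x, |A x - B x| ∂μ := abs_integral_le_integral_abs
    _ ≤ ∫ x, (ε + T.indicator (fun _ => (1 : ℝ)) x) ∂μ := by
        refine integral_mono (iA.sub iB).abs ?_ hpt
        exact (integrable_const ε).add ((integrable_const (1 : ℝ)).indicator mT)
    _ = ε + μ.real T := by
        rw [integral_add (integrable_const ε) ((integrable_const (1 : ℝ)).indicator mT),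
          integral_indicator mT]
        simp
    _ ≤ ε + p := by linarith

/-! ### the functional of the test array is in `[0,1]` -/

theorem testArr_symm {n m : ℕ} {H : Matrix (Fin n) (Fin n) ℝ} (hH : H.IsHermitian) (e : ℝ)
    (g : Fin n → Fin m → ℝ) : (testArr H e g).transpose = testArr H e g := by
  have h1 : H.transpose = H := by
    have := hH
    rwa [Matrix.IsHermitian, Matrix.conjTranspose_eq_transpose_of_trivial] at this
  unfold testArr
  rw [Matrix.transpose_smul, Matrix.transpose_mul, Matrix.transpose_mul,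
    Matrix.transpose_transpose, Matrix.transpose_nonsing_inv, Matrix.transpose_sub,
    Matrix.transpose_smul, Matrix.transpose_one, h1, Matrix.mul_assoc]

theorem isHermitian_of_transpose {m : ℕ} {C : Matrix (Fin m) (Fin m) ℝ}
    (h : C.transpose = C) : C.IsHermitian := by
  rw [Matrix.IsHermitian, Matrix.conjTranspose_eq_transpose_of_trivial, h]

/-- the centred, normalised array inside `uOf` -/
noncomputable def cArr {n m : ℕ} (H : Matrix (Fin n) (Fin n) ℝ) (E ρ K x : ℝ)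
    (g : Fin n → Fin m → ℝ) : Matrix (Fin m) (Fin m) ℝ :=
  (1 / (Real.pi * ρ)) • (testArr H (E + x / n) g -
    (mn H (zz E K n)).re • (1 : Matrix (Fin m) (Fin m) ℝ))

theorem uOf_eq {n m : ℕ} (H : Matrix (Fin n) (Fin n) ℝ) (E ρ K x : ℝ) (g : Fin n → Fin m → ℝ) :
    uOf H E ρ K x g = Cay (cArr H E ρ K x g) := rfl

theorem cArr_hermitian {n m : ℕ} {H : Matrix (Fin n) (Fin n) ℝ} (hH : H.IsHermitian)
    (E ρ K x : ℝ) (g : Fin n → Fin m → ℝ) : (cArr H E ρ K x g).IsHermitian := by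
  apply isHermitian_of_transpose
  unfold cArr
  rw [Matrix.transpose_smul, Matrix.transpose_sub, Matrix.transpose_smul, Matrix.transpose_one,
    testArr_symm hH]

theorem lap_nonneg {h : ℝ → ℝ} {m : ℕ} {f : Matrix (Fin m) (Fin m) ℂ → ℝ} (hf : IsLapFun h m f)
    {n : ℕ} {H : Matrix (Fin n) (Fin n) ℝ} (hH : H.IsHermitian) (E ρ K x : ℝ)
    (g : Fin n → Fin m → ℝ) : 0 ≤ f (uOf H E ρ K x g) := by
  rw [uOf_eq, hf _ (cArr_hermitian hH E ρ K x g)]
  exact (Real.exp_pos _).le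

theorem lap_le_one {h : ℝ → ℝ} (h0 : ∀ t, 0 ≤ h t) {m : ℕ} {f : Matrix (Fin m) (Fin m) ℂ → ℝ}
    (hf : IsLapFun h m f) {n : ℕ} {H : Matrix (Fin n) (Fin n) ℝ} (hH : H.IsHermitian)
    (E ρ K x : ℝ) (g : Fin n → Fin m → ℝ) : f (uOf H E ρ K x g) ≤ 1 := by
  rw [uOf_eq, hf _ (cArr_hermitian hH E ρ K x g), Real.exp_le_one_iff, neg_nonpos]
  refine Finset.sum_nonneg fun i _ => ?_
  split_ifs
  · exact le_rfl
  · exact h0 _

theorem unfoldAt_continuous {h : ℝ → ℝ} (hc : Continuous h) (s E : ℝ) :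
    Continuous (unfoldAt h s E) := by
  unfold unfoldAt
  exact hc.comp (continuous_const.mul (continuous_id.sub continuous_const))

/-- abstract core: reconstruction in expectation -/
theorem core {Ω : Type*} [MeasurableSpace Ω] {μ : Measure Ω} [IsProbabilityMeasure μ] {n : ℕ}
    {M : Ω → Matrix (Fin n) (Fin n) ℝ} (hM : EM M) (hH : ∀ x, (M x).IsHermitian)
    {h : ℝ → ℝ} (hc : Continuous h) (h0 : ∀ t, 0 ≤ h t) {E ρ K δ : ℝ} (hδ : 0 < δ) {m : ℕ}
    {f : Matrix (Fin m) (Fin m) ℂ → ℝ} (hf : Continuous f) (hL : IsLapFun h m f)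
    {ε p : ℝ} (hε : 0 ≤ ε) (hp : 0 ≤ p) {S : Set Ω} (hS : μ S ≤ ENNReal.ofReal p)
    (hrec : ∀ x, x ∉ S → |laplaceWeight (M x) (hH x) (unfoldAt h (n * ρ) E) -
      TestVal (M x) E ρ K δ m f| ≤ ε) :
    |∫ x, laplaceWeight (M x) (hH x) (unfoldAt h (n * ρ) E) ∂μ -
      ∫ x, TestVal (M x) E ρ K δ m f ∂μ| ≤ ε + p :=
  abs_integral_sub_le (measurable_laplaceWeight hM hH (unfoldAt_continuous hc _ _))
    (measurable_TestVal hM E ρ K hδ.le hf) (fun _ => laplaceWeight_nonneg _ _)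
    (fun _ => laplaceWeight_le_one _ fun _ => h0 _)
    (fun x => TestVal_nonneg hδ.le fun y g => lap_nonneg hL (hH x) E ρ K y g)
    (fun x => TestVal_le_one hδ hf (fun y g => lap_nonneg hL (hH x) E ρ K y g)
      fun y g => lap_le_one h0 hL (hH x) E ρ K y g) hε hp hS hrec

theorem measure_union3 {Ω : Type*} [MeasurableSpace Ω] {μ : Measure Ω} {A B C : Set Ω}
    {a b c : ℝ} (ha : 0 ≤ a) (hb : 0 ≤ b) (hc : 0 ≤ c) (hA : μ A ≤ ENNReal.ofReal a)
    (hB : μ B ≤ ENNReal.ofReal b) (hC : μ C ≤ ENNReal.ofReal c) :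
    μ (A ∪ B ∪ C) ≤ ENNReal.ofReal (a + b + c) := by
  rw [ENNReal.ofReal_add (by positivity) hc, ENNReal.ofReal_add ha hb]
  exact (measure_union_le _ _).trans (add_le_add ((measure_union_le _ _).trans
    (add_le_add hA hB)) hC)

/-- (81) assembly, part 2 -/
theorem asm2 {d : ℕ} {s E ρ : ℝ} (hρ : 0 < ρ) (hIm : ImLim d s E ρ) (hImO : ImLimO)
    (hT : TightRe d s E) (hC : CompareGO d s E ρ) (hLF : LapFunExists) (hR : ReconStatement2)
    (h : ℝ → ℝ) (hc : Continuous h) (hs : HasCompactSupport h) (h0 : ∀ t, 0 ≤ h t) :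
    FinalGO d s E ρ h := by
  intro ε hε
  -- small parameter
  set e : ℝ := min (ε / 16) 1 with he
  have hepos : 0 < e := lt_min (by positivity) one_pos
  have he1 : e ≤ 1 := min_le_right _ _
  have heε : e ≤ ε / 16 := min_le_left _ _
  obtain ⟨Ka, hKa, hIa⟩ := hIm e hepos
  obtain ⟨Kb, hKb, hIb⟩ := hImO e hepos
  obtain ⟨L1t, hLt⟩ := hT e hepos
  set L1 : ℝ := max Ka Kb with hL1
  have hL1pos : 0 < L1 := lt_of_lt_of_le hKa (le_max_left _ _)
  set Y : ℝ := max (Real.pi * ρ + 1) 2 with hY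
  obtain ⟨δa, hδa, hRa⟩ := hR h hc hs h0 ρ hρ Y L1 hL1pos e hepos
  obtain ⟨δb, hδb, hRb⟩ := hR h hc hs h0 (1 / Real.pi) (by positivity) Y L1 hL1pos e hepos
  set δ : ℝ := min δa δb with hδdef
  have hδ : 0 < δ := lt_min hδa hδb
  obtain ⟨La, hLa, hRa⟩ := hRa δ hδ (min_le_left _ _)
  obtain ⟨Lb, hLb, hRb⟩ := hRb δ hδ (min_le_right _ _)
  set L : ℝ := max (max La Lb) (max L1t L1) with hLdef
  have hLLa : La ≤ L := (le_max_left _ _).trans (le_max_left _ _)
  have hLLb : Lb ≤ L := (le_max_right _ _).trans (le_max_left _ _)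
  have hLL1t : L1t ≤ L := (le_max_left _ _).trans (le_max_right _ _)
  have hLL1 : L1 ≤ L := (le_max_right _ _).trans (le_max_right _ _)
  obtain ⟨T1, K1, hTK⟩ := hLt L hLL1t
  set T : ℝ := max T1 2 with hTdef
  obtain ⟨ma, hRa⟩ := hRa L hLLa T
  obtain ⟨mb, hRb⟩ := hRb L hLLb T
  set m : ℕ := max (max ma mb) 4 with hm
  have hma : ma ≤ m := (le_max_left _ _).trans (le_max_left _ _)
  have hmb : mb ≤ m := (le_max_right _ _).trans (le_max_left _ _)
  have hm4 : 4 ≤ m := le_max_right _ _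
  obtain ⟨f, hf, hfL⟩ := hLF h hc hs h0 m
  have hRa := hRa m hma f hfL
  have hRb := hRb m hmb f hfL
  obtain ⟨Kc, hKc, hCo⟩ := hC m hm4 f hf δ hδ e hepos
  set K : ℝ := max (max K1 Kc) L1 with hKdef
  have hKK1 : K1 ≤ K := (le_max_left _ _).trans (le_max_left _ _)
  have hKKc : Kc ≤ K := (le_max_right _ _).trans (le_max_left _ _)
  have hKL1 : L1 ≤ K := le_max_right _ _
  have hKpos : 0 < K := lt_of_lt_of_le hL1pos hKL1
  have hKaL1 : Ka ≤ L1 := le_max_left _ _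
  have hKbL1 : Kb ≤ L1 := le_max_right _ _
  obtain ⟨N1, hN1⟩ := hIa L1 hKaL1
  obtain ⟨N2, hN2⟩ := hIa L (hKaL1.trans hLL1)
  obtain ⟨N3, hN3⟩ := hTK K hKK1
  obtain ⟨N4, hN4⟩ := hCo K hKKc
  obtain ⟨N5, hN5⟩ := hIb L1 hKbL1
  obtain ⟨N6, hN6⟩ := hIb L (hKbL1.trans hLL1)
  obtain ⟨N7, hN7⟩ := hIb K (hKbL1.trans hKL1)
  refine ⟨max (max (max N1 N2) (max N3 N4)) (max (max N5 N6) (max N7 1)), fun n hn hne => ?_⟩
  have hn1 : N1 ≤ n := by omega
  have hn2 : N2 ≤ n := by omega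
  have hn3 : N3 ≤ n := by omega
  have hn4 : N4 ≤ n := by omega
  have hn5 : N5 ≤ n := by omega
  have hn6 : N6 ≤ n := by omega
  have hn7 : N7 ≤ n := by omega
  have hnpos : 0 < n := by omega
  have hprob := law_prob hne
  -- graph side
  have hG : |∫ x, laplaceWeight (Hm x.1 s x.2) (Hm_isHermitian x.1 s x.2)
        (unfoldAt h (n * ρ) E) ∂(law n d) -
      ∫ x, TestVal (Hm x.1 s x.2) E ρ K δ m f ∂(law n d)| ≤ e + (e + e + e) := by
    refine core (EM_Hm s) (fun x => Hm_isHermitian x.1 s x.2) hc h0 hδ hf hfL hepos.le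
      (by positivity) (measure_union3 hepos.le hepos.le hepos.le (hN1 n hn1 hne) (hN2 n hn2 hne)
        (hN3 n hn3 hne)) ?_
    intro x hx
    simp only [Set.mem_union, Set.mem_ofPred_eq, not_or, not_not] at hx
    obtain ⟨⟨hx1, hx2⟩, hx3⟩ := hx
    refine hRa E K hKpos n hnpos (Hm x.1 s x.2) (Hm_isHermitian x.1 s x.2) ?_ ?_ ?_
    · have := (abs_le.1 hx1).2
      exact le_trans (by linarith) (le_max_left _ _)
    · have := (abs_le.1 hx2).2
      exact le_trans (by linarith) (le_max_left _ _)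
    · exact hx3.trans (le_max_left _ _)
  -- GOE side
  have hO : |∫ g, laplaceWeight (goeMatrix g) (goe_isHermitian g)
        (unfoldAt h (n * (1 / Real.pi)) 0) ∂(goeDisorderLaw n) -
      ∫ g, TestVal (goeMatrix g) 0 (1 / Real.pi) K δ m f ∂(goeDisorderLaw n)| ≤
        e + (e + e + e) := by
    refine core (EM_goe n) (fun g => goe_isHermitian g) hc h0 hδ hf hfL hepos.le
      (by positivity) (measure_union3 hepos.le hepos.le hepos.le (hN5 n hn5) (hN6 n hn6)
        (hN7 n hn7)) ?_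
    intro g hx
    simp only [Set.mem_union, Set.mem_ofPred_eq, not_or, not_lt] at hx
    obtain ⟨⟨hx1, hx2⟩, hx3⟩ := hx
    have him (z : ℂ) (hz : ‖z - Complex.I‖ ≤ e) : z.im ≤ Y := by
      have h1 := (Complex.abs_im_le_norm (z - Complex.I)).trans hz
      rw [Complex.sub_im, Complex.I_im] at h1
      have h2 := (abs_le.1 h1).2
      exact le_trans (by linarith) (le_max_right _ _)
    have hre (z : ℂ) (hz : ‖z - Complex.I‖ ≤ e) : |z.re| ≤ 1 := by
      have h1 := (Complex.abs_re_le_norm (z - Complex.I)).trans hz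
      rw [Complex.sub_re, Complex.I_re, sub_zero] at h1
      exact h1.trans he1
    refine hRb 0 K hKpos n hnpos (goeMatrix g) (goe_isHermitian g) (him _ hx1) (him _ hx2) ?_
    have h3 := abs_le.1 (hre _ hx3)
    have h2 := abs_le.1 (hre _ hx2)
    refine le_trans (abs_le.2 ⟨?_, ?_⟩) (le_max_right T1 2) <;> linarith [h3.1, h3.2, h2.1, h2.2]
  -- comparison
  have hcomp := hN4 n hn4 hne
  have hbound (x : SimpleGraph (Fin n) × (Fin n → ℝ)) :
      |TestVal (Hm x.1 s x.2) E ρ K δ m f| ≤ 1 := by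
    rw [abs_of_nonneg (TestVal_nonneg hδ.le fun y g =>
      lap_nonneg hfL (Hm_isHermitian x.1 s x.2) E ρ K y g)]
    exact TestVal_le_one hδ hf (fun y g => lap_nonneg hfL (Hm_isHermitian x.1 s x.2) E ρ K y g)
      fun y g => lap_le_one h0 hfL (Hm_isHermitian x.1 s x.2) E ρ K y g
  rw [EG_eq hne (Φ := fun H => TestVal H E ρ K δ m f)
    (measurable_TestVal (EM_Hm s) E ρ K hδ.le hf) hbound] at hcomp
  have hgraph : regularAverage n d (fun G => ∫ ω, disorderedLaplaceWeight G s ω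
        (unfoldAt h (n * ρ) E) ∂potentialLaw n) =
      ∫ x, laplaceWeight (Hm x.1 s x.2) (Hm_isHermitian x.1 s x.2)
        (unfoldAt h (n * ρ) E) ∂(law n d) := by
    refine avg_eq_integral_law hne (F := fun x => laplaceWeight (Hm x.1 s x.2)
      (Hm_isHermitian x.1 s x.2) (unfoldAt h (n * ρ) E)) ?_
    refine Integrable.of_bound (measurable_laplaceWeight (EM_Hm s)
      (fun x => Hm_isHermitian x.1 s x.2) (unfoldAt_continuous hc _ _)).aestronglyMeasurable 1 ?_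
    refine Filter.Eventually.of_forall fun x => ?_
    rw [Real.norm_eq_abs, abs_of_nonneg (laplaceWeight_nonneg _ _)]
    exact laplaceWeight_le_one _ fun t => h0 _
  have hgoe : ∫ g, goeLaplaceWeight g (unfoldAt h (n / Real.pi) 0) ∂goeDisorderLaw n =
      ∫ g, laplaceWeight (goeMatrix g) (goe_isHermitian g)
        (unfoldAt h (n * (1 / Real.pi)) 0) ∂(goeDisorderLaw n) := by
    rw [mul_one_div]; rfl
  rw [hgraph, hgoe]
  unfold EO at hcomp
  have e1 := abs_le.1 hG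
  have e2 := abs_le.1 hO
  have e3 := abs_le.1 hcomp
  refine lt_of_le_of_lt (abs_le.2 ⟨?_, ?_⟩ : _ ≤ 9 * e) (by linarith) <;>
    linarith [e1.1, e1.2, e2.1, e2.2, e3.1, e3.2]

end Crest.Agent.R166.Asm423
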