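import Crest.Agent.R166.PairCount_356

/-!
# R166, 40.3: counting coloured pairings with given star types (helper674)

Part 1: elementary bounds for `log m!`.
Part 2: number of pairings compatible with a type function.
-/

set_option autoImplicit false
set_option linter.unusedSectionVars false
set_option linter.unusedSimpArgs false

namespace Crest.Agent.R166.Count674

open Finset Crest.Agent.R166.PairCount356

/-! ### Part 1 -/

lemma log_fact_ge (m : ℕ) : (m : ℝ) * Real.log m - m ≤ Real.log (m.factorial) := by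
  induction m with
  | zero => simp
  | succ m ih =>
    rw [Nat.factorial_succ]
    push_cast
    have h1 : (0 : ℝ) < (m : ℝ) + 1 := by positivity
    have h2 : (0 : ℝ) < (m.factorial : ℝ) := by exact_mod_cast m.factorial_pos
    rw [Real.log_mul h1.ne' h2.ne']
    rcases Nat.eq_zero_or_pos m with rfl | hm
    · simp
    · have hm' : (0 : ℝ) < m := by exact_mod_cast hm
      have h3 : Real.log ((m + 1) / m) ≤ (m + 1) / m - 1 :=
        Real.log_le_sub_one_of_pos (by positivity)
      rw [Real.log_div h1.ne' hm'.ne'] at h3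
      have h4 : ((m : ℝ) + 1) / m - 1 = 1 / m := by field_simp; ring
      rw [h4] at h3
      have h5 : (m : ℝ) * (Real.log (m + 1) - Real.log m) ≤ 1 := by
        calc (m : ℝ) * (Real.log (m + 1) - Real.log m) ≤ m * (1 / m) :=
              mul_le_mul_of_nonneg_left h3 hm'.le
          _ = 1 := by field_simp
      nlinarith

lemma log_fact_le' (m : ℕ) (hm : 1 ≤ m) :
    Real.log (m.factorial) ≤ (m : ℝ) * Real.log m - m + Real.log m + 1 := by
  induction m, hm using Nat.le_induction with
  | base => simp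
  | succ m hm ih =>
    rw [Nat.factorial_succ]
    push_cast
    have hm' : (0 : ℝ) < m := by exact_mod_cast hm
    have h1 : (0 : ℝ) < (m : ℝ) + 1 := by positivity
    have h2 : (0 : ℝ) < (m.factorial : ℝ) := by exact_mod_cast m.factorial_pos
    rw [Real.log_mul h1.ne' h2.ne']
    have h3 : Real.log (m / (m + 1)) ≤ m / (m + 1) - 1 :=
      Real.log_le_sub_one_of_pos (by positivity)
    rw [Real.log_div hm'.ne' h1.ne'] at h3
    have h4 : (m : ℝ) / (m + 1) - 1 = - (1 / (m + 1)) := by field_simp; ring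
    rw [h4] at h3
    have h5 : 1 ≤ ((m : ℝ) + 1) * (Real.log (m + 1) - Real.log m) := by
      calc (1 : ℝ) = ((m : ℝ) + 1) * (1 / (m + 1)) := by field_simp
        _ ≤ _ := mul_le_mul_of_nonneg_left (by linarith) h1.le
    nlinarith

lemma log_fact_le (m : ℕ) :
    Real.log (m.factorial) ≤ (m : ℝ) * Real.log m - m + Real.log (m + 1) + 1 := by
  rcases Nat.eq_zero_or_pos m with rfl | hm
  · simp
  · have h := log_fact_le' m hm
    have hm' : (0 : ℝ) < m := by exact_mod_cast hm
    have : Real.log m ≤ Real.log (m + 1) := Real.log_le_log hm' (by linarith)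
    linarith

/-! ### Part 2 -/

section Compat

variable {α Θ : Type*} [Fintype α] [DecidableEq α] [Fintype Θ] [DecidableEq Θ]

/-- permutations that fix everything outside `T` and are pairings of `T` with `τ (p x) = r (τ x)`. -/
def PP (τ : α → Θ) (r : Θ → Θ) (T : Finset α) : Finset (Equiv.Perm α) :=
  univ.filter fun p => (∀ x, x ∉ T → p x = x) ∧
    ∀ x, x ∈ T → p x ∈ T ∧ p x ≠ x ∧ p (p x) = x ∧ τ (p x) = r (τ x)

lemma mem_PP {τ : α → Θ} {r : Θ → Θ} {T : Finset α} {p : Equiv.Perm α} :
    p ∈ PP τ r T ↔ (∀ x, x ∉ T → p x = x) ∧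
      ∀ x, x ∈ T → p x ∈ T ∧ p x ≠ x ∧ p (p x) = x ∧ τ (p x) = r (τ x) := by
  simp [PP]

lemma PP_empty (τ : α → Θ) (r : Θ → Θ) : PP τ r ∅ = {1} := by
  ext p
  rw [mem_PP, mem_singleton]
  constructor
  · rintro ⟨h, _⟩
    ext x
    exact h x (by simp)
  · rintro rfl
    simp

lemma swap_mul_mem {τ : α → Θ} {r : Θ → Θ} (hr : ∀ θ, r (r θ) = θ) {T : Finset α} {a b : α}
    (ha : a ∈ T) (hb : b ∈ T) (hab : b ≠ a) (ht : τ b = r (τ a)) {p : Equiv.Perm α}
    (hp : p ∈ PP τ r (T \ {a, b})) : Equiv.swap a b * p ∈ PP τ r T := by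
  rw [mem_PP] at hp ⊢
  obtain ⟨h1, h2⟩ := hp
  have hpa : p a = a := h1 a (by simp)
  have hpb : p b = b := h1 b (by simp)
  refine ⟨fun x hx => ?_, fun x hx => ?_⟩
  · have hxa : x ≠ a := fun h => hx (h ▸ ha)
    have hxb : x ≠ b := fun h => hx (h ▸ hb)
    rw [Equiv.Perm.mul_apply, h1 x (by simp [hx]), Equiv.swap_apply_of_ne_of_ne hxa hxb]
  · rcases eq_or_ne x a with rfl | hxa
    · rw [Equiv.Perm.mul_apply, hpa, Equiv.swap_apply_left, Equiv.Perm.mul_apply, hpb,
        Equiv.swap_apply_right]
      exact ⟨hb, hab, rfl, ht⟩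
    · rcases eq_or_ne x b with rfl | hxb
      · rw [Equiv.Perm.mul_apply, hpb, Equiv.swap_apply_right, Equiv.Perm.mul_apply, hpa,
          Equiv.swap_apply_left]
        refine ⟨ha, hab.symm, rfl, ?_⟩
        rw [ht, hr]
      · have hx' : x ∈ T \ {a, b} := by simp [hx, hxa, hxb]
        obtain ⟨h3, h4, h5, h6⟩ := h2 x hx'
        have h3' : p x ∈ T ∧ p x ≠ a ∧ p x ≠ b := by
          simp only [mem_sdiff, mem_insert, mem_singleton, not_or] at h3
          exact h3
        have h7 : Equiv.swap a b (p x) = p x := Equiv.swap_apply_of_ne_of_ne h3'.2.1 h3'.2.2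
        simp only [Equiv.Perm.mul_apply, h7]
        refine ⟨h3'.1, h4, ?_, h6⟩
        rw [h5, Equiv.swap_apply_of_ne_of_ne hxa hxb]

lemma mem_of_swap {τ : α → Θ} {r : Θ → Θ} {T : Finset α} {a b : α}
    (ha : a ∈ T) (hb : b ∈ T) {p : Equiv.Perm α}
    (hp : p ∈ PP τ r T) (hpa : p a = b) : Equiv.swap a b * p ∈ PP τ r (T \ {a, b}) := by
  rw [mem_PP] at hp ⊢
  obtain ⟨h1, h2⟩ := hp
  have hpb : p b = a := by rw [← hpa]; exact (h2 a ha).2.2.1
  refine ⟨fun x hx => ?_, fun x hx => ?_⟩
  · simp only [mem_sdiff, mem_insert, mem_singleton, not_and, not_not] at hx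
    by_cases hxT : x ∈ T
    · rcases hx hxT with rfl | rfl
      · rw [Equiv.Perm.mul_apply, hpa, Equiv.swap_apply_right]
      · rw [Equiv.Perm.mul_apply, hpb, Equiv.swap_apply_left]
    · have hxa : x ≠ a := fun h => hxT (h ▸ ha)
      have hxb : x ≠ b := fun h => hxT (h ▸ hb)
      rw [Equiv.Perm.mul_apply, h1 x hxT, Equiv.swap_apply_of_ne_of_ne hxa hxb]
  · simp only [mem_sdiff, mem_insert, mem_singleton, not_or] at hx
    obtain ⟨hxT, hxa, hxb⟩ := hx
    obtain ⟨h3, h4, h5, h6⟩ := h2 x hxT
    have h3a : p x ≠ a := by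
      intro h
      apply hxb
      have := congrArg p h
      rw [h5, hpa] at this
      exact this
    have h3b : p x ≠ b := by
      intro h
      apply hxa
      have := congrArg p h
      rw [h5, hpb] at this
      exact this
    have h7 : Equiv.swap a b (p x) = p x := Equiv.swap_apply_of_ne_of_ne h3a h3b
    simp only [Equiv.Perm.mul_apply, h7]
    refine ⟨by simp [h3, h3a, h3b], h4, ?_, h6⟩
    rw [h5, Equiv.swap_apply_of_ne_of_ne hxa hxb]

lemma card_PP_fiber {τ : α → Θ} {r : Θ → Θ} (hr : ∀ θ, r (r θ) = θ) {T : Finset α} {a b : α}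
    (ha : a ∈ T) (hb : b ∈ T) (hab : b ≠ a) (ht : τ b = r (τ a)) :
    ((PP τ r T).filter fun p => p a = b).card = (PP τ r (T \ {a, b})).card := by
  refine Finset.card_bij' (fun p _ => Equiv.swap a b * p) (fun p _ => Equiv.swap a b * p)
    ?_ ?_ ?_ ?_
  · intro p hp
    rw [mem_filter] at hp
    exact mem_of_swap ha hb hp.1 hp.2
  · intro p hp
    rw [mem_filter]
    refine ⟨swap_mul_mem hr ha hb hab ht hp, ?_⟩
    rw [Equiv.Perm.mul_apply, (mem_PP.1 hp).1 a (by simp), Equiv.swap_apply_left]
  · intro p _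
    simp
  · intro p _
    simp

/-- candidates for the partner of `a` -/
def cand (τ : α → Θ) (r : Θ → Θ) (T : Finset α) (a : α) : Finset α :=
  T.filter fun x => x ≠ a ∧ τ x = r (τ a)

lemma card_PP_rec {τ : α → Θ} {r : Θ → Θ} (hr : ∀ θ, r (r θ) = θ) {T : Finset α} {a : α}
    (ha : a ∈ T) :
    (PP τ r T).card = ∑ b ∈ cand τ r T a, (PP τ r (T \ {a, b})).card := by
  rw [Finset.card_eq_sum_card_fiberwise (f := fun p => p a) (t := cand τ r T a)]
  · refine Finset.sum_congr rfl fun b hb => ?_
    simp only [cand, mem_filter] at hb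
    exact card_PP_fiber hr ha hb.1 hb.2.1 hb.2.2
  · intro p hp
    have hp' := (mem_PP.1 (Finset.mem_coe.1 hp)).2 a ha
    simp only [cand, Finset.coe_filter, Set.mem_ofPred_eq]
    exact ⟨hp'.1, hp'.2.1, hp'.2.2.2⟩

/-- fibre sizes -/
def fs (τ : α → Θ) (T : Finset α) (θ : Θ) : ℕ := (T.filter fun x => τ x = θ).card

lemma fs_symm {τ : α → Θ} {r : Θ → Θ} (hr : ∀ θ, r (r θ) = θ) {T : Finset α}
    {p : Equiv.Perm α} (hp : p ∈ PP τ r T) (θ : Θ) : fs τ T (r θ) = fs τ T θ := by
  unfold fs
  rw [mem_PP] at hp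
  refine Finset.card_bij' (fun x _ => p x) (fun x _ => p x) ?_ ?_ ?_ ?_
  · intro x hx
    rw [mem_filter] at hx ⊢
    obtain ⟨h3, h4, h5, h6⟩ := hp.2 x hx.1
    exact ⟨h3, by rw [h6, hx.2, hr]⟩
  · intro x hx
    rw [mem_filter] at hx ⊢
    obtain ⟨h3, h4, h5, h6⟩ := hp.2 x hx.1
    exact ⟨h3, by rw [h6, hx.2]⟩
  · intro x hx
    rw [mem_filter] at hx
    exact (hp.2 x hx.1).2.2.1
  · intro x hx
    rw [mem_filter] at hx
    exact (hp.2 x hx.1).2.2.1

lemma fs_even {τ : α → Θ} {r : Θ → Θ} {T : Finset α}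
    {p : Equiv.Perm α} (hp : p ∈ PP τ r T) (θ : Θ) (hθ : r θ = θ) : Even (fs τ T θ) := by
  unfold fs
  rw [mem_PP] at hp
  have key : ∑ x ∈ T.filter (fun x => τ x = θ), (1 : ZMod 2) = 0 := by
    refine Finset.sum_involution (fun x _ => p x) ?_ ?_ ?_ ?_
    · intro x _
      decide
    · intro x hx _
      rw [mem_filter] at hx
      exact (hp.2 x hx.1).2.1
    · intro x hx
      rw [mem_filter] at hx ⊢
      obtain ⟨h3, h4, h5, h6⟩ := hp.2 x hx.1
      exact ⟨h3, by rw [h6, hx.2, hθ]⟩
    · intro x hx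
      rw [mem_filter] at hx
      exact (hp.2 x hx.1).2.2.1
  rw [Finset.sum_const, nsmul_eq_mul, mul_one] at key
  exact (ZMod.natCast_eq_zero_iff_even).1 key

/-- arithmetic condition for the existence of a compatible pairing -/
def Adm (r : Θ → Θ) (m : Θ → ℕ) : Prop := (∀ θ, m (r θ) = m θ) ∧ ∀ θ, r θ = θ → Even (m θ)

lemma adm_of_mem {τ : α → Θ} {r : Θ → Θ} (hr : ∀ θ, r (r θ) = θ) {T : Finset α}
    {p : Equiv.Perm α} (hp : p ∈ PP τ r T) : Adm r (fs τ T) :=
  ⟨fun θ => fs_symm hr hp θ, fun θ hθ => fs_even hp θ hθ⟩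

lemma fs_sdiff (τ : α → Θ) {T : Finset α} {a b : α} (ha : a ∈ T) (hb : b ∈ T) (hab : b ≠ a)
    (φ : Θ) : fs τ T φ = fs τ (T \ {a, b}) φ + (if φ = τ a then 1 else 0)
      + (if φ = τ b then 1 else 0) := by
  unfold fs
  have h1 : ∀ S : Finset α, (S.filter fun x => τ x = φ).card = ∑ x ∈ S, if τ x = φ then 1 else 0 := by
    intro S; rw [Finset.card_filter]
  rw [h1, h1]
  have hsub : ({a, b} : Finset α) ⊆ T := by
    intro x hx
    simp only [mem_insert, mem_singleton] at hx
    rcases hx with rfl | rfl <;> assumption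
  rw [← Finset.sum_sdiff hsub, Finset.sum_pair hab.symm, add_assoc]
  simp only [eq_comm (a := φ)]

/-- product of the factorials of the fibre sizes -/
def G (m : Θ → ℕ) : ℕ := ∏ θ, (m θ).factorial

/-- product of `max 1 m` -/
def W (m : Θ → ℕ) : ℕ := ∏ θ, max 1 (m θ)

lemma G_pos (m : Θ → ℕ) : 0 < G m := Finset.prod_pos fun θ _ => Nat.factorial_pos _

lemma W_pos (m : Θ → ℕ) : 0 < W m := Finset.prod_pos fun θ _ => by positivity

lemma card_cand {τ : α → Θ} {r : Θ → Θ} {T : Finset α} {a : α} (ha : a ∈ T) :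
    (cand τ r T a).card + (if r (τ a) = τ a then 1 else 0) = fs τ T (r (τ a)) := by
  unfold cand fs
  by_cases h : r (τ a) = τ a
  · rw [if_pos h, h]
    have : (T.filter fun x => τ x = τ a) = insert a (T.filter fun x => x ≠ a ∧ τ x = τ a) := by
      ext x
      simp only [mem_filter, mem_insert]
      constructor
      · intro hx
        by_cases hxa : x = a
        · exact Or.inl hxa
        · exact Or.inr ⟨hx.1, hxa, hx.2⟩
      · rintro (rfl | hx)
        · exact ⟨ha, rfl⟩
        · exact ⟨hx.1, hx.2.2⟩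
    rw [this, Finset.card_insert_of_notMem (by simp)]
  · rw [if_neg h, add_zero]
    congr 1
    ext x
    simp only [mem_filter]
    constructor
    · intro hx
      exact ⟨hx.1, hx.2.2⟩
    · intro hx
      refine ⟨hx.1, ?_, hx.2⟩
      rintro rfl
      exact h hx.2.symm

lemma G_step_ne {m m' : Θ → ℕ} {θ θ' : Θ} (hne : θ' ≠ θ)
    (h : ∀ φ, m φ = m' φ + (if φ = θ then 1 else 0) + (if φ = θ' then 1 else 0)) :
    G m = G m' * (m θ * m θ') := by
  unfold G
  have : ∀ φ, (m φ).factorial = (m' φ).factorial * ((if φ = θ then m θ else 1) *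
      (if φ = θ' then m θ' else 1)) := by
    intro φ
    by_cases h1 : φ = θ
    · subst h1
      have h2 : m φ = m' φ + 1 := by rw [h φ]; simp [hne.symm]
      rw [if_pos rfl, if_neg hne.symm, mul_one, h2, Nat.factorial_succ, mul_comm]
    · by_cases h3 : φ = θ'
      · subst h3
        have h2 : m φ = m' φ + 1 := by rw [h φ]; simp [hne]
        rw [if_neg h1, if_pos rfl, one_mul, h2, Nat.factorial_succ, mul_comm]
      · rw [if_neg h1, if_neg h3, mul_one, mul_one, h φ, if_neg h1, if_neg h3]
        simp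
  rw [Finset.prod_congr rfl fun φ _ => this φ, Finset.prod_mul_distrib, Finset.prod_mul_distrib]
  simp

lemma G_step_eq {m m' : Θ → ℕ} {θ : Θ}
    (h : ∀ φ, m φ = m' φ + (if φ = θ then 1 else 0) + (if φ = θ then 1 else 0)) :
    G m = G m' * ((m θ - 1) * m θ) := by
  unfold G
  have : ∀ φ, (m φ).factorial = (m' φ).factorial * (if φ = θ then (m θ - 1) * m θ else 1) := by
    intro φ
    by_cases h1 : φ = θ
    · subst h1
      have h2 : m φ = m' φ + 1 + 1 := by rw [h φ]; simp
      rw [if_pos rfl, h2, Nat.factorial_succ, Nat.factorial_succ]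
      simp only [Nat.add_sub_cancel]
      ring
    · rw [if_neg h1, mul_one, h φ, if_neg h1]
      simp
  rw [Finset.prod_congr rfl fun φ _ => this φ, Finset.prod_mul_distrib]
  simp

lemma W_mono {m m' : Θ → ℕ} (h : ∀ φ, m' φ ≤ m φ) : W m' ≤ W m :=
  Finset.prod_le_prod' fun φ _ => max_le_max le_rfl (h φ)

lemma W_step_eq {m m' : Θ → ℕ} {θ : Θ}
    (h : ∀ φ, m φ = m' φ + (if φ = θ then 1 else 0) + (if φ = θ then 1 else 0)) :
    W m * max 1 (m' θ) = W m' * m θ := by
  unfold W
  have h0 : m θ = m' θ + 1 + 1 := by rw [h θ]; simp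
  rw [← Finset.mul_prod_erase univ _ (mem_univ θ), ← Finset.mul_prod_erase univ (fun φ => max 1 (m' φ)) (mem_univ θ)]
  have : ∏ φ ∈ univ.erase θ, max 1 (m φ) = ∏ φ ∈ univ.erase θ, max 1 (m' φ) := by
    refine Finset.prod_congr rfl fun φ hφ => ?_
    rw [mem_erase] at hφ
    rw [h φ, if_neg hφ.1]
    simp
  rw [this]
  have h1 : max 1 (m θ) = m θ := by rw [h0]; simp
  rw [h1]
  ring

/-- one-step inequalities -/
lemma step {τ : α → Θ} {r : Θ → Θ} (hr : ∀ θ, r (r θ) = θ) {T : Finset α} {a b : α}
    (ha : a ∈ T) (hb : b ∈ cand τ r T a) (hadm : Adm r (fs τ T)) :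
    (cand τ r T a).card ^ 2 * G (fs τ (T \ {a, b})) ≤ G (fs τ T) ∧
    G (fs τ T) * W (fs τ (T \ {a, b})) ≤
      (cand τ r T a).card ^ 2 * G (fs τ (T \ {a, b})) * W (fs τ T) ∧
    Adm r (fs τ (T \ {a, b})) := by
  have hb' := hb
  simp only [cand, mem_filter] at hb'
  obtain ⟨hbT, hba, hbt⟩ := hb'
  have hf := fs_sdiff τ ha hbT hba
  rw [hbt] at hf
  set m := fs τ T with hm
  set m' := fs τ (T \ {a, b}) with hm'
  set θ := τ a with hθ
  have hc := card_cand (τ := τ) (r := r) ha
  rw [← hθ, ← hm] at hc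
  set k := (cand τ r T a).card with hk
  have hkpos : 0 < k := Finset.card_pos.2 ⟨b, hb⟩
  by_cases hself : r θ = θ
  · rw [if_pos hself, hself] at hc
    rw [hself] at hf
    have hG := G_step_eq hf
    have hW := W_step_eq hf
    have h0 : m θ = m' θ + 1 + 1 := by rw [hf θ]; simp
    have hk' : m θ - 1 = k := by omega
    have hmk : m θ = k + 1 := by omega
    rw [hk', hmk] at hG
    rw [hmk] at hW
    have hm'k : m' θ + 1 = k := by omega
    refine ⟨?_, ?_, ?_, ?_⟩
    · rw [hG]
      nlinarith [Nat.zero_le (G m')]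
    · -- G m * W m' ≤ k^2 * G m' * W m
      rw [hG]
      have h3 : max 1 (m' θ) ≤ k := by
        rw [← hm'k]
        simp
      have h4 : W m' * (k + 1) ≤ W m * k := by
        rw [← hW]
        exact Nat.mul_le_mul_left _ h3
      calc G m' * (k * (k + 1)) * W m' = (G m' * k) * (W m' * (k + 1)) := by ring
        _ ≤ (G m' * k) * (W m * k) := Nat.mul_le_mul_left _ h4
        _ = k ^ 2 * G m' * W m := by ring
    · intro φ
      have h1 := hadm.1 φ
      rw [hf φ, hf (r φ)] at h1
      by_cases h2 : φ = θ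
      · rw [h2, hself]
      · by_cases h3 : r φ = θ
        · -- then m φ = m θ ... handle directly
          simp only [h3, if_true, if_neg h2] at h1
          exfalso
          apply h2
          have := congrArg r h3
          rw [hr, hself] at this
          exact this
        · simp only [if_neg h2, if_neg h3] at h1
          simpa using h1
    · intro φ hφ
      have h1 := hadm.2 φ hφ
      rw [hf φ] at h1
      by_cases h2 : φ = θ
      · simp only [h2, if_true] at h1 ⊢
        rw [Nat.even_add_one, Nat.even_add_one, not_not] at h1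
        exact h1
      · simpa [h2] using h1
  · rw [if_neg hself, add_zero] at hc
    have hG := G_step_ne hself hf
    have hk' : m (r θ) = k := hc.symm
    have hk'' : m θ = k := by rw [← hadm.1 θ]; exact hk'
    rw [hk', hk''] at hG
    have hWm : W m' ≤ W m := W_mono fun φ => by rw [hf φ]; omega
    refine ⟨?_, ?_, ?_, ?_⟩
    · rw [hG]
      apply le_of_eq
      ring
    · rw [hG]
      calc G m' * (k * k) * W m' ≤ G m' * (k * k) * W m := Nat.mul_le_mul_left _ hWm
        _ = k ^ 2 * G m' * W m := by ring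
    · intro φ
      have h1 := hadm.1 φ
      rw [hf φ, hf (r φ)] at h1
      have e1 : (r φ = θ) = (φ = r θ) := by
        apply propext
        constructor
        · intro h; rw [← h, hr]
        · intro h; rw [h, hr]
      have e2 : (r φ = r θ) = (φ = θ) := by
        apply propext
        constructor
        · intro h
          have := congrArg r h
          rwa [hr, hr] at this
        · intro h; rw [h]
      simp only [e1, e2] at h1
      omega
    · intro φ hφ
      have h1 := hadm.2 φ hφ
      rw [hf φ] at h1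
      have h2 : φ ≠ θ := by
        rintro rfl
        exact hself hφ
      have h3 : φ ≠ r θ := by
        intro h
        rw [h, hr] at hφ
        exact hself hφ.symm
      simpa [h2, h3] using h1

/-- upper bound for the number of compatible pairings -/
theorem card_PP_le {τ : α → Θ} {r : Θ → Θ} (hr : ∀ θ, r (r θ) = θ) (T : Finset α) :
    ((PP τ r T).card : ℝ) ≤ Real.sqrt (G (fs τ T)) := by
  induction hn : T.card using Nat.strong_induction_on generalizing T with
  | _ n ih =>
    rcases T.eq_empty_or_nonempty with rfl | ⟨a, ha⟩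
    · rw [PP_empty]
      simp only [card_singleton, Nat.cast_one]
      rw [Real.one_le_sqrt]
      exact_mod_cast G_pos _
    · rcases (PP τ r T).eq_empty_or_nonempty with h0 | ⟨p, hp⟩
      · rw [h0]
        simp
      · have hadm := adm_of_mem hr hp
        have hpc : p a ∈ cand τ r T a := by
          have hp' := (mem_PP.1 hp).2 a ha
          simp only [cand, mem_filter]
          exact ⟨hp'.1, hp'.2.1, hp'.2.2.2⟩
        set k := (cand τ r T a).card with hk
        have hkpos : 0 < k := Finset.card_pos.2 ⟨_, hpc⟩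
        have hkpos' : (0 : ℝ) < k := by exact_mod_cast hkpos
        have hb : ∀ b ∈ cand τ r T a, ((PP τ r (T \ {a, b})).card : ℝ) ≤
            Real.sqrt (G (fs τ T)) / k := by
          intro b hb
          have hb' := hb
          simp only [cand, mem_filter] at hb'
          have hlt : (T \ {a, b}).card < n := by
            rw [← hn]
            refine Finset.card_lt_card ⟨Finset.sdiff_subset, fun h => ?_⟩
            have := h ha
            simp at this
          have h1 := ih _ hlt (T \ {a, b}) rfl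
          have h2 := (step hr ha hb hadm).1
          have h3 : (k : ℝ) ^ 2 * G (fs τ (T \ {a, b})) ≤ G (fs τ T) := by exact_mod_cast h2
          rw [le_div_iff₀ hkpos']
          calc ((PP τ r (T \ {a, b})).card : ℝ) * k
              ≤ Real.sqrt (G (fs τ (T \ {a, b}))) * k :=
                mul_le_mul_of_nonneg_right h1 hkpos'.le
            _ = Real.sqrt ((k : ℝ) ^ 2 * G (fs τ (T \ {a, b}))) := by
                rw [Real.sqrt_mul (by positivity), Real.sqrt_sq hkpos'.le, mul_comm]
            _ ≤ _ := Real.sqrt_le_sqrt h3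
        rw [card_PP_rec hr ha]
        push_cast
        calc ∑ b ∈ cand τ r T a, ((PP τ r (T \ {a, b})).card : ℝ)
            ≤ ∑ b ∈ cand τ r T a, Real.sqrt (G (fs τ T)) / k := Finset.sum_le_sum hb
          _ = Real.sqrt (G (fs τ T)) := by
              rw [Finset.sum_const, nsmul_eq_mul, ← hk]
              field_simp

/-- lower bound for the number of compatible pairings -/
theorem card_PP_ge {τ : α → Θ} {r : Θ → Θ} (hr : ∀ θ, r (r θ) = θ) (T : Finset α)
    (hadm : Adm r (fs τ T)) :
    Real.sqrt (G (fs τ T) / W (fs τ T)) ≤ ((PP τ r T).card : ℝ) := by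
  induction hn : T.card using Nat.strong_induction_on generalizing T with
  | _ n ih =>
    rcases T.eq_empty_or_nonempty with rfl | ⟨a, ha⟩
    · rw [PP_empty]
      have h1 : G (fs τ (∅ : Finset α)) = 1 := by simp [G, fs]
      have h2 : W (fs τ (∅ : Finset α)) = 1 := by simp [W, fs]
      rw [h1, h2]
      simp
    · have hcn : (cand τ r T a).Nonempty := by
        rw [← Finset.card_pos]
        have hc := card_cand (τ := τ) (r := r) ha
        have h1 : 0 < fs τ T (τ a) := Finset.card_pos.2 ⟨a, by simp [ha]⟩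
        by_cases hself : r (τ a) = τ a
        · rw [if_pos hself, hself] at hc
          have h2 := hadm.2 _ hself
          rcases h2 with ⟨j, hj⟩
          omega
        · rw [if_neg hself, hadm.1] at hc
          omega
      set k := (cand τ r T a).card with hk
      have hkpos : 0 < k := Finset.card_pos.2 hcn
      have hkpos' : (0 : ℝ) < k := by exact_mod_cast hkpos
      have hb : ∀ b ∈ cand τ r T a, Real.sqrt (G (fs τ T) / W (fs τ T)) / k ≤
          ((PP τ r (T \ {a, b})).card : ℝ) := by
        intro b hb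
        have hlt : (T \ {a, b}).card < n := by
          rw [← hn]
          refine Finset.card_lt_card ⟨Finset.sdiff_subset, fun h => ?_⟩
          have := h ha
          simp at this
        obtain ⟨-, h2, h3⟩ := step hr ha hb hadm
        have h1 := ih _ hlt (T \ {a, b}) h3 rfl
        refine le_trans ?_ h1
        have hW1 : (0 : ℝ) < W (fs τ T) := by exact_mod_cast W_pos _
        have hW2 : (0 : ℝ) < W (fs τ (T \ {a, b})) := by exact_mod_cast W_pos _
        have h4 : (G (fs τ T) : ℝ) * W (fs τ (T \ {a, b})) ≤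
            (k : ℝ) ^ 2 * G (fs τ (T \ {a, b})) * W (fs τ T) := by exact_mod_cast h2
        have h5 : (G (fs τ T) : ℝ) / W (fs τ T) ≤
            (k : ℝ) ^ 2 * (G (fs τ (T \ {a, b})) / W (fs τ (T \ {a, b}))) := by
          rw [← mul_div_assoc, div_le_div_iff₀ hW1 hW2]
          exact h4
        rw [div_le_iff₀ hkpos']
        calc Real.sqrt (G (fs τ T) / W (fs τ T)) ≤
            Real.sqrt ((k : ℝ) ^ 2 * (G (fs τ (T \ {a, b})) / W (fs τ (T \ {a, b})))) :=
              Real.sqrt_le_sqrt h5
          _ = _ := by rw [Real.sqrt_mul (by positivity), Real.sqrt_sq hkpos'.le, mul_comm]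
      rw [card_PP_rec hr ha]
      push_cast
      calc Real.sqrt (G (fs τ T) / W (fs τ T))
          = ∑ b ∈ cand τ r T a, Real.sqrt (G (fs τ T) / W (fs τ T)) / k := by
            rw [Finset.sum_const, nsmul_eq_mul, ← hk]
            field_simp
        _ ≤ _ := Finset.sum_le_sum hb

lemma PP_univ (τ : α → Θ) (r : Θ → Θ) :
    PP τ r univ = (pairings α).filter fun p => ∀ x, τ (p x) = r (τ x) := by
  ext p
  rw [mem_PP, mem_filter, mem_pairings]
  simp only [mem_univ, not_true_eq_false, IsEmpty.forall_iff, implies_true, true_and, forall_const]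
  constructor
  · intro h
    exact ⟨⟨fun x => (h x).2.1, fun x => (h x).1⟩, fun x => (h x).2.2⟩
  · rintro ⟨⟨h1, h2⟩, h3⟩ x
    exact ⟨h2 x, h1 x, h3 x⟩

end Compat

/-! ### bounds for `np` -/

lemma np_le_sqrt (M : ℕ) : (np M : ℝ) ≤ Real.sqrt (M.factorial) := by
  have h := card_PP_le (τ := fun _ : Fin M => ()) (r := id) (fun _ => rfl) univ
  rw [PP_univ] at h
  simpa [np, G, fs] using h

lemma np_ge_sqrt (M : ℕ) (hM : Even M) : Real.sqrt (M.factorial / max 1 M) ≤ (np M : ℝ) := by
  have h := card_PP_ge (τ := fun _ : Fin M => ()) (r := id) (fun _ => rfl) univ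
    ⟨fun _ => rfl, fun _ _ => by simpa [fs] using hM⟩
  rw [PP_univ] at h
  simpa [np, G, W, fs] using h

lemma even_of_np_pos {α : Type*} [Fintype α] [DecidableEq α] (h : (pairings α).Nonempty) :
    Even (Fintype.card α) := by
  obtain ⟨p, hp⟩ := h
  have : p ∈ PP (fun _ : α => ()) id univ := by
    rw [PP_univ, mem_filter]
    exact ⟨hp, fun _ => rfl⟩
  have h := fs_even this () rfl
  simpa [fs] using h

/-! ### Part 3: star types -/

section Star

/-- star types with colours in `S`: own colour; for each port, arrival port and neighbour colour -/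
abbrev St (S : Type*) (d : ℕ) : Type _ := S × (Fin d → Fin d × S)

/-- directed edge types `(own colour, own port, partner port, partner colour)` -/
abbrev Th (S : Type*) (d : ℕ) : Type _ := S × Fin d × Fin d × S

variable {V S : Type*} {d : ℕ}

/-- reversal of a directed edge type -/
def rv (t : Th S d) : Th S d := (t.2.2.2, t.2.2.1, t.2.1, t.1)

lemma rv_rv (t : Th S d) : rv (rv t) = t := rfl

/-- the star type of the vertex `v` -/
def starOf (p : Equiv.Perm (V × Fin d)) (c : V → S) (v : V) : St S d :=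
  (c v, fun i => ((p (v, i)).2, c (p (v, i)).1))

/-- directed edge type of a half-edge, given the star types -/
def tyOf (f : V → St S d) (h : V × Fin d) : Th S d :=
  ((f h.1).1, h.2, ((f h.1).2 h.2).1, ((f h.1).2 h.2).2)

lemma star_iff {p : Equiv.Perm (V × Fin d)} (hp : ∀ x, p (p x) = x) (f : V → St S d) :
    (∀ v, starOf p (fun v => (f v).1) v = f v) ↔ ∀ h, tyOf f (p h) = rv (tyOf f h) := by
  constructor
  · intro H h
    have h1 : ∀ h : V × Fin d, (f h.1).2 h.2 = ((p h).2, (f (p h).1).1) := by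
      intro h
      have := congrArg (fun s => s.2 h.2) (H h.1)
      simp only [starOf, Prod.mk.eta] at this
      exact this.symm
    simp only [tyOf, rv, h1, hp]
  · intro H v
    have h1 : ∀ h : V × Fin d, (f h.1).2 h.2 = ((p h).2, (f (p h).1).1) := by
      intro h
      have := H h
      simp only [tyOf, rv, Prod.mk.injEq] at this
      obtain ⟨h2, h3, h4, h5⟩ := this
      ext1
      · exact h3.symm
      · exact h2.symm
    unfold starOf
    ext1
    · rfl
    · funext i
      have := h1 (v, i)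
      simp only at this
      rw [this]

variable [Fintype V] [DecidableEq V] [Fintype S] [DecidableEq S]

/-- star counts -/
def starCnt (p : Equiv.Perm (V × Fin d)) (c : V → S) (s : St S d) : ℕ :=
  (univ.filter fun v => starOf p c v = s).card

/-- edge counts, as a function of the star counts -/
def edgeCnt (N : St S d → ℕ) (t : Th S d) : ℕ :=
  ∑ s : St S d, if s.1 = t.1 ∧ s.2 t.2.1 = (t.2.2.1, t.2.2.2) then N s else 0

/-- coloured pairings with given star counts -/
def cls (V : Type*) [Fintype V] [DecidableEq V] (N : St S d → ℕ) :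
    Finset (Equiv.Perm (V × Fin d) × (V → S)) :=
  (pairings (V × Fin d) ×ˢ univ).filter fun x => starCnt x.1 x.2 = N

/-- star assignments with given counts -/
def FN (V : Type*) [Fintype V] [DecidableEq V] (N : St S d → ℕ) : Finset (V → St S d) :=
  univ.filter fun f => ∀ s, (univ.filter fun v => f v = s).card = N s

lemma fs_tyOf (N : St S d → ℕ) {f : V → St S d} (hf : f ∈ FN V N) (t : Th S d) :
    fs (tyOf f) univ t = edgeCnt N t := by
  have hf' : ∀ s, (univ.filter fun v => f v = s).card = N s := by simpa [FN] using hf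
  unfold fs edgeCnt
  have h1 : (univ.filter fun h : V × Fin d => tyOf f h = t).card =
      (univ.filter fun v : V => (f v).1 = t.1 ∧ (f v).2 t.2.1 = (t.2.2.1, t.2.2.2)).card := by
    refine Finset.card_bij (fun h _ => h.1) ?_ ?_ ?_
    · rintro ⟨v, i⟩ h
      obtain ⟨t1, t2, t3, t4⟩ := t
      simp only [tyOf, mem_filter, mem_univ, true_and, Prod.mk.injEq] at h ⊢
      obtain ⟨h1, h2, h3, h4⟩ := h
      subst h2
      refine ⟨h1, ?_⟩
      ext1
      · exact h3
      · exact h4
    · rintro ⟨v, i⟩ h ⟨w, j⟩ h' hvw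
      obtain ⟨t1, t2, t3, t4⟩ := t
      simp only [tyOf, mem_filter, mem_univ, true_and, Prod.mk.injEq] at h h' hvw ⊢
      exact ⟨hvw, h.2.1.trans h'.2.1.symm⟩
    · intro v hv
      refine ⟨(v, t.2.1), ?_, rfl⟩
      obtain ⟨t1, t2, t3, t4⟩ := t
      simp only [tyOf, mem_filter, mem_univ, true_and, Prod.mk.injEq] at hv ⊢
      rw [hv.2]
      exact ⟨hv.1, rfl, rfl⟩
  rw [h1, Finset.card_eq_sum_card_fiberwise (f := f) (t := univ) (fun _ _ => by simp)]
  refine Finset.sum_congr rfl fun s _ => ?_
  split_ifs with hs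
  · rw [← hf' s]
    congr 1
    ext v
    simp only [mem_filter, mem_univ, true_and]
    constructor
    · exact fun h => h.2
    · intro h
      rw [h]
      exact ⟨hs, rfl⟩
  · rw [Finset.card_eq_zero]
    ext v
    simp only [mem_filter, mem_univ, true_and, notMem_empty, iff_false, not_and]
    intro h1 h2
    rw [h2] at h1
    exact hs h1

lemma card_cls (N : St S d → ℕ) :
    (cls V N).card = ∑ f ∈ FN V N, (PP (tyOf f) rv (univ : Finset (V × Fin d))).card := by
  rw [Finset.card_eq_sum_card_fiberwise (f := fun x => starOf x.1 x.2) (t := FN V N)]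
  · refine Finset.sum_congr rfl fun f hf => ?_
    rw [PP_univ]
    refine Finset.card_bij' (fun x _ => x.1) (fun p _ => (p, fun v => (f v).1)) ?_ ?_ ?_ ?_
    · rintro ⟨p, c⟩ hx
      simp only [cls, mem_filter, mem_product, mem_univ, and_true] at hx
      obtain ⟨⟨hp, hN⟩, hs⟩ := hx
      rw [mem_filter]
      refine ⟨hp, ?_⟩
      rw [← star_iff ((mem_pairings p).1 hp).1 f]
      have hc : c = fun v => (f v).1 := by
        funext v
        have := congrFun hs v
        rw [← this]
        rfl
      intro v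
      rw [← hc]
      exact congrFun hs v
    · intro p hp
      rw [mem_filter] at hp
      have h1 := (star_iff ((mem_pairings p).1 hp.1).1 f).2 hp.2
      have h2 : starOf p (fun v => (f v).1) = f := funext h1
      simp only [cls, mem_filter, mem_product, mem_univ, and_true]
      refine ⟨⟨hp.1, ?_⟩, h2⟩
      funext s
      unfold starCnt
      rw [h2]
      have hf' : ∀ s, (univ.filter fun v => f v = s).card = N s := by simpa [FN] using hf
      exact hf' s
    · rintro ⟨p, c⟩ hx
      simp only [cls, mem_filter, mem_product, mem_univ, and_true] at hx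
      obtain ⟨⟨hp, hN⟩, hs⟩ := hx
      have hc : (fun v => (f v).1) = c := by
        funext v
        have := congrFun hs v
        rw [← this]
        rfl
      simp only [hc]
    · intro p _
      rfl
  · rintro ⟨p, c⟩ hx
    simp only [cls, coe_filter, mem_product, mem_univ, and_true, Set.mem_ofPred_eq] at hx
    simp only [FN, coe_filter, mem_univ, true_and, Set.mem_ofPred_eq]
    intro s
    rw [← hx.2]
    rfl

lemma exists_perm {V T : Type*} [Fintype V] [DecidableEq V] [DecidableEq T] (f f0 : V → T)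
    (h : ∀ s, (univ.filter fun v => f v = s).card = (univ.filter fun v => f0 v = s).card) :
    ∃ g : Equiv.Perm V, f0 ∘ g = f := by
  have e : ∀ s, {v // f v = s} ≃ {v // f0 v = s} := by
    intro s
    refine Fintype.equivOfCardEq ?_
    rw [Fintype.card_subtype, Fintype.card_subtype]
    exact h s
  let E : V ≃ V := (Equiv.sigmaFiberEquiv f).symm.trans
    ((Equiv.sigmaCongrRight e).trans (Equiv.sigmaFiberEquiv f0))
  refine ⟨E, ?_⟩
  funext v
  have : f0 (E v) = f v := by
    have h1 := (e (f v) ⟨v, rfl⟩).2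
    exact h1
  exact this

lemma card_FN (N : St S d → ℕ) (hne : (FN V N).Nonempty) :
    (FN V N).card * ∏ s, (N s).factorial = (Fintype.card V).factorial := by
  obtain ⟨f0, hf0⟩ := hne
  have hf0' : ∀ s, (univ.filter fun v => f0 v = s).card = N s := by simpa [FN] using hf0
  have hcard : (univ : Finset (Equiv.Perm V)).card = (Fintype.card V).factorial := by
    rw [Finset.card_univ, Fintype.card_perm]
  rw [← hcard, Finset.card_eq_sum_card_fiberwise (f := fun g : Equiv.Perm V => f0 ∘ ⇑g)
    (t := FN V N)]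
  · have : ∀ f ∈ FN V N, ((univ : Finset (Equiv.Perm V)).filter fun g : Equiv.Perm V => f0 ∘ ⇑g = f).card
        = ∏ s, (N s).factorial := by
      intro f hf
      have hf' : ∀ s, (univ.filter fun v => f v = s).card = N s := by simpa [FN] using hf
      obtain ⟨g1, hg1⟩ := exists_perm f f0 (fun s => by rw [hf', hf0'])
      have h1 : ((univ : Finset (Equiv.Perm V)).filter fun g : Equiv.Perm V => f0 ∘ ⇑g = f).card =
          ((univ : Finset (Equiv.Perm V)).filter fun g : Equiv.Perm V => f0 ∘ ⇑g = f0).card := by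
        refine Finset.card_bij' (fun g _ => g * g1⁻¹) (fun g _ => g * g1) ?_ ?_ ?_ ?_
        · intro g hg
          rw [mem_filter] at hg ⊢
          refine ⟨mem_univ _, ?_⟩
          funext v
          have h2 := congrFun hg.2 (g1⁻¹ v)
          have h3 := congrFun hg1 (g1⁻¹ v)
          simp only [Function.comp_apply, Equiv.Perm.mul_apply] at h2 h3 ⊢
          rw [h2, ← h3]
          simp
        · intro g hg
          rw [mem_filter] at hg ⊢
          refine ⟨mem_univ _, ?_⟩
          funext v
          have h2 := congrFun hg.2 (g1 v)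
          have h3 := congrFun hg1 v
          simp only [Function.comp_apply, Equiv.Perm.mul_apply] at h2 h3 ⊢
          rw [h2, h3]
        · intro g _
          simp
        · intro g _
          simp
      rw [h1]
      have h2 := DomMulAct.stabilizer_card f0
      rw [Fintype.card_subtype] at h2
      rw [h2]
      refine Finset.prod_congr rfl fun s _ => ?_
      rw [Fintype.card_subtype, hf0']
    rw [Finset.sum_congr rfl this, Finset.sum_const, smul_eq_mul]
  · intro g _
    simp only [FN, coe_filter, mem_univ, true_and, Set.mem_ofPred_eq]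
    intro s
    rw [← hf0' s]
    refine Finset.card_bij' (fun v _ => g v) (fun v _ => g⁻¹ v) ?_ ?_ ?_ ?_
    · intro v hv
      simpa using hv
    · intro v hv
      simpa using hv
    · intro v _
      simp
    · intro v _
      simp

lemma sum_N (N : St S d → ℕ) (hne : (FN V N).Nonempty) : ∑ s, N s = Fintype.card V := by
  obtain ⟨f0, hf0⟩ := hne
  have hf0' : ∀ s, (univ.filter fun v => f0 v = s).card = N s := by simpa [FN] using hf0
  rw [← Finset.card_univ, Finset.card_eq_sum_card_fiberwise (f := f0) (t := univ)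
    (fun _ _ => by simp)]
  exact Finset.sum_congr rfl fun s _ => (hf0' s).symm

lemma sum_edgeCnt (N : St S d → ℕ) (hne : (FN V N).Nonempty) :
    ∑ t, edgeCnt N t = Fintype.card V * d := by
  obtain ⟨f0, hf0⟩ := hne
  have h1 : ∀ t, edgeCnt N t = fs (tyOf f0) univ t := fun t => (fs_tyOf N hf0 t).symm
  rw [Finset.sum_congr rfl fun t _ => h1 t]
  unfold fs
  rw [← Finset.card_eq_sum_card_fiberwise (f := tyOf f0) (t := univ) (fun _ _ => by simp)]
  simp

/-! ### Part 4: entropy form -/

/-- `H(star) - (d/2) H(edge)` of the empirical distribution with counts `N` on `n` vertices -/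
noncomputable def Psi (n : ℕ) (N : St S d → ℕ) : ℝ :=
  (∑ s, Real.negMulLog ((N s : ℝ) / n)) -
    (d : ℝ) / 2 * ∑ t, Real.negMulLog ((edgeCnt N t : ℝ) / (n * d))

/-- the constant in the error term `cC * log (n + 1)` -/
noncomputable def cC (S : Type*) [Fintype S] (d : ℕ) : ℝ :=
  ((Fintype.card (St S d) : ℝ) + Fintype.card (Th S d) + 3) * (3 + 2 * Real.log (d + 1))

lemma sum_negMulLog {ι : Type*} [Fintype ι] (m : ι → ℕ) (M : ℕ) (hM : 0 < M)
    (hs : ∑ i, m i = M) :
    (M : ℝ) * ∑ i, Real.negMulLog ((m i : ℝ) / M) =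
      (M : ℝ) * Real.log M - ∑ i, (m i : ℝ) * Real.log (m i) := by
  have hM' : (0 : ℝ) < M := by exact_mod_cast hM
  rw [Finset.mul_sum]
  have h1 : ∀ i, (M : ℝ) * Real.negMulLog ((m i : ℝ) / M) =
      (m i : ℝ) * Real.log M - (m i : ℝ) * Real.log (m i) := by
    intro i
    unfold Real.negMulLog
    rcases Nat.eq_zero_or_pos (m i) with h0 | h0
    · rw [h0]; simp
    · have h0' : (0 : ℝ) < m i := by exact_mod_cast h0
      rw [Real.log_div h0'.ne' hM'.ne']
      field_simp
      ring
  rw [Finset.sum_congr rfl fun i _ => h1 i, Finset.sum_sub_distrib, ← Finset.sum_mul]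
  congr 2
  exact_mod_cast hs

lemma log_G (m : Th S d → ℕ) : Real.log (G m) = ∑ t, Real.log ((m t).factorial) := by
  unfold G
  rw [Nat.cast_prod, Real.log_prod]
  intro t _
  exact_mod_cast (Nat.factorial_pos _).ne'

lemma le_of_sum_eq {ι : Type*} [Fintype ι] {m : ι → ℕ} {M : ℕ} (hs : ∑ i, m i = M) (i : ι) :
    m i ≤ M := by
  rw [← hs]
  exact Finset.single_le_sum (f := m) (fun _ _ => Nat.zero_le _) (mem_univ i)

lemma log_G_le (m : Th S d → ℕ) (M : ℕ) (hs : ∑ i, m i = M) :
    Real.log (G m) ≤ (∑ t, (m t : ℝ) * Real.log (m t)) - M +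
      Fintype.card (Th S d) * (Real.log (M + 1) + 1) := by
  rw [log_G]
  have h1 : ∀ t, Real.log ((m t).factorial) ≤
      ((m t : ℝ) * Real.log (m t) - m t) + (Real.log (M + 1) + 1) := by
    intro t
    have h2 := log_fact_le (m t)
    have h3 : (m t : ℝ) ≤ M := by exact_mod_cast le_of_sum_eq hs t
    have h4 : Real.log ((m t : ℝ) + 1) ≤ Real.log (M + 1) :=
      Real.log_le_log (by positivity) (by linarith)
    linarith
  refine (Finset.sum_le_sum fun t _ => h1 t).trans (le_of_eq ?_)
  rw [Finset.sum_add_distrib, Finset.sum_sub_distrib, Finset.sum_const, nsmul_eq_mul,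
    Finset.card_univ]
  congr 2
  exact_mod_cast hs

lemma log_G_ge (m : Th S d → ℕ) (M : ℕ) (hs : ∑ i, m i = M) :
    (∑ t, (m t : ℝ) * Real.log (m t)) - M ≤ Real.log (G m) := by
  rw [log_G]
  have h1 : ∀ t, ((m t : ℝ) * Real.log (m t) - m t) ≤ Real.log ((m t).factorial) := fun t =>
    log_fact_ge (m t)
  refine le_trans (le_of_eq ?_) (Finset.sum_le_sum fun t _ => h1 t)
  rw [Finset.sum_sub_distrib]
  congr 1
  exact_mod_cast hs.symm

lemma log_W_le (m : Th S d → ℕ) (M : ℕ) (hs : ∑ i, m i = M) :
    Real.log (W m) ≤ Fintype.card (Th S d) * Real.log (M + 1) := by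
  unfold W
  rw [Nat.cast_prod, Real.log_prod]
  · have h1 : ∀ t : Th S d, Real.log ((max 1 (m t) : ℕ) : ℝ) ≤ Real.log (M + 1) := by
      intro t
      have h3 : m t ≤ M := le_of_sum_eq hs t
      refine Real.log_le_log ?_ ?_
      · have : 0 < max 1 (m t) := by positivity
        exact_mod_cast this
      · have : max 1 (m t) ≤ M + 1 := by omega
        exact_mod_cast this
    refine (Finset.sum_le_sum fun t _ => h1 t).trans (le_of_eq ?_)
    rw [Finset.sum_const, nsmul_eq_mul, Finset.card_univ]
  · intro t _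
    have : 0 < max 1 (m t) := by positivity
    exact_mod_cast this.ne'

/-- `log card (FN N)` -/
lemma log_card_FN (N : St S d → ℕ) (hne : (FN V N).Nonempty) :
    Real.log ((FN V N).card) = Real.log ((Fintype.card V).factorial) -
      ∑ s, Real.log ((N s).factorial) := by
  have h := card_FN N hne
  have h1 : (0 : ℝ) < (FN V N).card := by exact_mod_cast Finset.card_pos.2 hne
  have h2 : (0 : ℝ) < ((∏ s, (N s).factorial : ℕ) : ℝ) := by
    exact_mod_cast Finset.prod_pos fun s _ => Nat.factorial_pos _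
  have h3 : Real.log (((FN V N).card * ∏ s, (N s).factorial : ℕ) : ℝ) =
      Real.log ((Fintype.card V).factorial) := by rw [h]
  rw [Nat.cast_mul, Real.log_mul h1.ne' h2.ne'] at h3
  have h4 : Real.log ((∏ s, (N s).factorial : ℕ) : ℝ) = ∑ s, Real.log ((N s).factorial) := by
    rw [Nat.cast_prod, Real.log_prod]
    intro t _
    exact_mod_cast (Nat.factorial_pos _).ne'
  linarith

lemma log_card_FN_le (N : St S d → ℕ) (hne : (FN V N).Nonempty) :
    Real.log ((FN V N).card) ≤ (Fintype.card V : ℝ) * Real.log (Fintype.card V) -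
      (∑ s, (N s : ℝ) * Real.log (N s)) + Real.log (Fintype.card V + 1) + 1 := by
  rw [log_card_FN N hne]
  have h1 := log_fact_le (Fintype.card V)
  have h2 : (∑ s, (N s : ℝ) * Real.log (N s)) - Fintype.card V ≤
      ∑ s, Real.log ((N s).factorial) := by
    refine le_trans (le_of_eq ?_) (Finset.sum_le_sum fun s _ => log_fact_ge (N s))
    rw [Finset.sum_sub_distrib]
    congr 1
    exact_mod_cast (sum_N N hne).symm
  linarith

lemma log_card_FN_ge (N : St S d → ℕ) (hne : (FN V N).Nonempty) :
    (Fintype.card V : ℝ) * Real.log (Fintype.card V) - (∑ s, (N s : ℝ) * Real.log (N s)) -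
      Fintype.card (St S d) * (Real.log (Fintype.card V + 1) + 1) ≤
      Real.log ((FN V N).card) := by
  rw [log_card_FN N hne]
  have h1 := log_fact_ge (Fintype.card V)
  have h2 : ∑ s, Real.log ((N s).factorial) ≤ (∑ s, (N s : ℝ) * Real.log (N s)) -
      Fintype.card V + Fintype.card (St S d) * (Real.log (Fintype.card V + 1) + 1) := by
    have h3 : ∀ s, Real.log ((N s).factorial) ≤
        ((N s : ℝ) * Real.log (N s) - N s) + (Real.log (Fintype.card V + 1) + 1) := by
      intro s
      have h2 := log_fact_le (N s)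
      have h3 : (N s : ℝ) ≤ Fintype.card V := by exact_mod_cast le_of_sum_eq (sum_N N hne) s
      have h4 : Real.log ((N s : ℝ) + 1) ≤ Real.log (Fintype.card V + 1) :=
        Real.log_le_log (by positivity) (by linarith)
      linarith
    refine (Finset.sum_le_sum fun t _ => h3 t).trans (le_of_eq ?_)
    rw [Finset.sum_add_distrib, Finset.sum_sub_distrib, Finset.sum_const, nsmul_eq_mul,
      Finset.card_univ]
    congr 2
    exact_mod_cast sum_N N hne
  linarith

lemma log_np_ge (M : ℕ) (hM : Even M) :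
    1 / 2 * ((M : ℝ) * Real.log M - M - Real.log (M + 1)) ≤ Real.log (np M) := by
  have h := np_ge_sqrt M hM
  push_cast at h
  have h0 : (0 : ℝ) < (M.factorial : ℝ) := by exact_mod_cast M.factorial_pos
  have h1 : (0 : ℝ) < max 1 (M : ℝ) := by positivity
  have h2 := Real.log_le_log (Real.sqrt_pos.2 (div_pos h0 h1)) h
  rw [Real.log_sqrt (div_pos h0 h1).le, Real.log_div h0.ne' h1.ne'] at h2
  have h3 := log_fact_ge M
  have h4 : Real.log (max 1 (M : ℝ)) ≤ Real.log (M + 1) :=
    Real.log_le_log h1 (max_le (by linarith [Nat.cast_nonneg (α := ℝ) M]) (by linarith))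
  linarith

lemma log_np_le (M : ℕ) (hM : 0 < np M) :
    Real.log (np M) ≤ 1 / 2 * ((M : ℝ) * Real.log M - M + Real.log (M + 1) + 1) := by
  have h := np_le_sqrt M
  have h0 : (0 : ℝ) < (M.factorial : ℝ) := by exact_mod_cast M.factorial_pos
  have h1 : (0 : ℝ) < (np M : ℝ) := by exact_mod_cast hM
  have h2 := Real.log_le_log h1 h
  rw [Real.log_sqrt h0.le] at h2
  have h3 := log_fact_le M
  linarith

lemma aux_log (n d : ℕ) (hn : 1 ≤ n) :
    Real.log ((n * d : ℕ) + 1) + 1 ≤ (3 + 2 * Real.log (d + 1)) * Real.log (n + 1) ∧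
    (1 : ℝ) / 2 ≤ Real.log (n + 1) := by
  have hn' : (1 : ℝ) ≤ n := by exact_mod_cast hn
  have hd' : (0 : ℝ) ≤ d := Nat.cast_nonneg d
  have h1 : (1 : ℝ) / 2 ≤ Real.log (n + 1) := by
    have h2 : Real.log 2 ≤ Real.log (n + 1) := Real.log_le_log (by norm_num) (by linarith)
    have h3 := Real.log_two_gt_d9
    linarith
  have h4 : Real.log ((n * d : ℕ) + 1) ≤ Real.log (n + 1) + Real.log (d + 1) := by
    rw [← Real.log_mul (by positivity) (by positivity)]
    refine Real.log_le_log (by positivity) ?_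
    push_cast
    nlinarith
  have h5 : 0 ≤ Real.log ((d : ℝ) + 1) := Real.log_nonneg (by linarith)
  refine ⟨?_, h1⟩
  nlinarith

theorem card_cls_le (N : St S d → ℕ) (hn : 1 ≤ Fintype.card V) :
    ((cls V N).card : ℝ) ≤ np (Fintype.card V * d) *
      Real.exp (Fintype.card V * Psi (Fintype.card V) N +
        cC S d * Real.log (Fintype.card V + 1)) := by
  rcases (cls V N).eq_empty_or_nonempty with h0 | hne
  · rw [h0]
    simp only [card_empty, Nat.cast_zero]
    positivity
  set n := Fintype.card V with hnV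
  have hpair : (pairings (V × Fin d)).Nonempty := by
    obtain ⟨x, hx⟩ := hne
    simp only [cls, mem_filter, mem_product] at hx
    exact ⟨x.1, hx.1.1⟩
  have hcardVd : Fintype.card (V × Fin d) = n * d := by simp [hnV]
  have heven : Even (n * d) := by
    rw [← hcardVd]; exact even_of_np_pos hpair
  have hFN : (FN V N).Nonempty := by
    rw [← Finset.card_pos] at hne
    rw [card_cls] at hne
    by_contra hcon
    rw [Finset.not_nonempty_iff_eq_empty] at hcon
    rw [hcon] at hne
    simp at hne
  have hnp : 0 < np (n * d) := by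
    rw [← hcardVd, ← card_pairings]
    exact Finset.card_pos.2 hpair
  have hnp' : (0 : ℝ) < np (n * d) := by exact_mod_cast hnp
  have hFN' : (0 : ℝ) < (FN V N).card := by exact_mod_cast Finset.card_pos.2 hFN
  have hG : (0 : ℝ) < G (edgeCnt N) := by exact_mod_cast G_pos _
  -- first bound
  have hb : ((cls V N).card : ℝ) ≤ (FN V N).card * Real.sqrt (G (edgeCnt N)) := by
    rw [card_cls]
    push_cast
    have : ∀ f ∈ FN V N, ((PP (tyOf f) rv (univ : Finset (V × Fin d))).card : ℝ) ≤
        Real.sqrt (G (edgeCnt N)) := by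
      intro f hf
      have h := card_PP_le (τ := tyOf f) (r := rv) rv_rv (univ : Finset (V × Fin d))
      have h2 : fs (tyOf f) univ = edgeCnt N := funext fun t => fs_tyOf N hf t
      rwa [h2] at h
    refine (Finset.sum_le_sum this).trans (le_of_eq ?_)
    rw [Finset.sum_const, nsmul_eq_mul]
  refine hb.trans ?_
  rw [← Real.log_le_log_iff (by positivity) (by positivity),
    Real.log_mul hFN'.ne' (Real.sqrt_pos.2 hG).ne', Real.log_sqrt hG.le,
    Real.log_mul hnp'.ne' (Real.exp_pos _).ne', Real.log_exp]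
  have e1 := log_card_FN_le N hFN
  have e2 := log_G_le (edgeCnt N) (n * d) (sum_edgeCnt N hFN)
  have e3 := log_np_ge (n * d) heven
  obtain ⟨e4, e5⟩ := aux_log n d hn
  have e6 := sum_negMulLog N n hn (sum_N N hFN)
  have e7 : ((n * d : ℕ) : ℝ) / 2 * ∑ t, Real.negMulLog ((edgeCnt N t : ℝ) / (n * d)) =
      1 / 2 * (((n * d : ℕ) : ℝ) * Real.log (n * d : ℕ) -
        ∑ t, (edgeCnt N t : ℝ) * Real.log (edgeCnt N t)) := by
    rcases Nat.eq_zero_or_pos (n * d) with h0 | h0
    · have hs := sum_edgeCnt N hFN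
      rw [← hnV, h0] at hs
      have : ∀ t, edgeCnt N t = 0 := fun t => by
        have := le_of_sum_eq hs t
        omega
      rw [h0]
      simp [this]
    · have := sum_negMulLog (edgeCnt N) (n * d) h0 (sum_edgeCnt N hFN)
      push_cast at this ⊢
      linarith
  have hPsi : (n : ℝ) * Psi n N = (n * Real.log n - ∑ s, (N s : ℝ) * Real.log (N s)) -
      1 / 2 * (((n * d : ℕ) : ℝ) * Real.log (n * d : ℕ) -
        ∑ t, (edgeCnt N t : ℝ) * Real.log (edgeCnt N t)) := by
    rw [← e7, ← e6]
    unfold Psi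
    push_cast
    ring
  rw [hPsi]
  have hL : 0 ≤ Real.log ((n : ℝ) + 1) := by linarith
  set Θc : ℝ := (Fintype.card (Th S d) : ℝ) with hΘ
  set Sc : ℝ := (Fintype.card (St S d) : ℝ) with hSc
  have hΘ0 : 0 ≤ Θc := Nat.cast_nonneg _
  have hSc0 : 0 ≤ Sc := Nat.cast_nonneg _
  set A : ℝ := 3 + 2 * Real.log ((d : ℝ) + 1) with hA
  have hA3 : 3 ≤ A := by
    have : 0 ≤ Real.log ((d : ℝ) + 1) := Real.log_nonneg (by linarith [Nat.cast_nonneg (α := ℝ) d])
    linarith
  have hcC : cC S d = (Sc + Θc + 3) * A := rfl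
  rw [hcC]
  set L := Real.log ((n : ℝ) + 1) with hLdef
  set B := Real.log (((n * d : ℕ) : ℝ) + 1) with hB
  have hB0 : 0 ≤ B := Real.log_nonneg (by linarith [Nat.cast_nonneg (α := ℝ) (n * d)])
  have f1 : Θc * (B + 1) ≤ Θc * (A * L) := mul_le_mul_of_nonneg_left e4 hΘ0
  have f2 : 3 * L ≤ A * L := mul_le_mul_of_nonneg_right hA3 hL
  have f3 : 0 ≤ A * L := by positivity
  nlinarith

theorem card_cls_ge (N : St S d → ℕ) (hn : 1 ≤ Fintype.card V) (hne : (cls V N).Nonempty) :
    np (Fintype.card V * d) *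
      Real.exp (Fintype.card V * Psi (Fintype.card V) N -
        cC S d * Real.log (Fintype.card V + 1)) ≤ ((cls V N).card : ℝ) := by
  set n := Fintype.card V with hnV
  obtain ⟨x, hx⟩ := hne
  simp only [cls, mem_filter, mem_product, mem_univ, and_true] at hx
  obtain ⟨hxp, hxN⟩ := hx
  have hpair : (pairings (V × Fin d)).Nonempty := ⟨x.1, hxp⟩
  have hcardVd : Fintype.card (V × Fin d) = n * d := by simp [hnV]
  have heven : Even (n * d) := by
    rw [← hcardVd]; exact even_of_np_pos hpair
  have hf0 : starOf x.1 x.2 ∈ FN V N := by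
    simp only [FN, mem_filter, mem_univ, true_and]
    intro s
    rw [← hxN]
    rfl
  have hFN : (FN V N).Nonempty := ⟨_, hf0⟩
  have hnp : 0 < np (n * d) := by
    rw [← hcardVd, ← card_pairings]
    exact Finset.card_pos.2 hpair
  have hnp' : (0 : ℝ) < np (n * d) := by exact_mod_cast hnp
  have hFN' : (0 : ℝ) < (FN V N).card := by exact_mod_cast Finset.card_pos.2 hFN
  have hG : (0 : ℝ) < G (edgeCnt N) := by exact_mod_cast G_pos _
  have hW : (0 : ℝ) < W (edgeCnt N) := by exact_mod_cast W_pos _
  have hadm : Adm rv (edgeCnt N) := by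
    have h1 : x.1 ∈ PP (tyOf (starOf x.1 x.2)) rv univ := by
      rw [PP_univ, mem_filter]
      refine ⟨hxp, ?_⟩
      rw [← star_iff ((mem_pairings _).1 hxp).1]
      intro v
      rfl
    have h2 := adm_of_mem rv_rv h1
    have h3 : fs (tyOf (starOf x.1 x.2)) univ = edgeCnt N := funext fun t => fs_tyOf N hf0 t
    rwa [h3] at h2
  have hb : (FN V N).card * Real.sqrt (G (edgeCnt N) / W (edgeCnt N)) ≤
      ((cls V N).card : ℝ) := by
    rw [card_cls]
    push_cast
    have : ∀ f ∈ FN V N, Real.sqrt (G (edgeCnt N) / W (edgeCnt N)) ≤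
        ((PP (tyOf f) rv (univ : Finset (V × Fin d))).card : ℝ) := by
      intro f hf
      have h2 : fs (tyOf f) univ = edgeCnt N := funext fun t => fs_tyOf N hf t
      have h := card_PP_ge (τ := tyOf f) (r := rv) rv_rv (univ : Finset (V × Fin d))
        (by rw [h2]; exact hadm)
      rwa [h2] at h
    refine le_trans (le_of_eq ?_) (Finset.sum_le_sum this)
    rw [Finset.sum_const, nsmul_eq_mul]
  refine le_trans ?_ hb
  have hGW : (0 : ℝ) < G (edgeCnt N) / W (edgeCnt N) := div_pos hG hW
  rw [← Real.log_le_log_iff (by positivity) (by positivity),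
    Real.log_mul hFN'.ne' (Real.sqrt_pos.2 hGW).ne', Real.log_sqrt hGW.le,
    Real.log_div hG.ne' hW.ne',
    Real.log_mul hnp'.ne' (Real.exp_pos _).ne', Real.log_exp]
  have e1 := log_card_FN_ge N hFN
  have e2 := log_G_ge (edgeCnt N) (n * d) (sum_edgeCnt N hFN)
  have e2' := log_W_le (edgeCnt N) (n * d) (sum_edgeCnt N hFN)
  have e3 := log_np_le (n * d) hnp
  obtain ⟨e4, e5⟩ := aux_log n d hn
  have e6 := sum_negMulLog N n hn (sum_N N hFN)
  have e7 : ((n * d : ℕ) : ℝ) / 2 * ∑ t, Real.negMulLog ((edgeCnt N t : ℝ) / (n * d)) =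
      1 / 2 * (((n * d : ℕ) : ℝ) * Real.log (n * d : ℕ) -
        ∑ t, (edgeCnt N t : ℝ) * Real.log (edgeCnt N t)) := by
    rcases Nat.eq_zero_or_pos (n * d) with h0 | h0
    · have hs := sum_edgeCnt N hFN
      rw [← hnV, h0] at hs
      have : ∀ t, edgeCnt N t = 0 := fun t => by
        have := le_of_sum_eq hs t
        omega
      rw [h0]
      simp [this]
    · have := sum_negMulLog (edgeCnt N) (n * d) h0 (sum_edgeCnt N hFN)
      push_cast at this ⊢
      linarith
  have hPsi : (n : ℝ) * Psi n N = (n * Real.log n - ∑ s, (N s : ℝ) * Real.log (N s)) -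
      1 / 2 * (((n * d : ℕ) : ℝ) * Real.log (n * d : ℕ) -
        ∑ t, (edgeCnt N t : ℝ) * Real.log (edgeCnt N t)) := by
    rw [← e7, ← e6]
    unfold Psi
    push_cast
    ring
  rw [hPsi]
  have hL : 0 ≤ Real.log ((n : ℝ) + 1) := by linarith
  set Θc : ℝ := (Fintype.card (Th S d) : ℝ) with hΘ
  set Sc : ℝ := (Fintype.card (St S d) : ℝ) with hSc
  have hΘ0 : 0 ≤ Θc := Nat.cast_nonneg _
  have hSc0 : 0 ≤ Sc := Nat.cast_nonneg _
  set A : ℝ := 3 + 2 * Real.log ((d : ℝ) + 1) with hA
  have hA3 : 3 ≤ A := by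
    have : 0 ≤ Real.log ((d : ℝ) + 1) := Real.log_nonneg (by linarith [Nat.cast_nonneg (α := ℝ) d])
    linarith
  have hcC : cC S d = (Sc + Θc + 3) * A := rfl
  rw [hcC]
  set L := Real.log ((n : ℝ) + 1) with hLdef
  set B := Real.log (((n * d : ℕ) : ℝ) + 1) with hB
  have hB0 : 0 ≤ B := Real.log_nonneg (by linarith [Nat.cast_nonneg (α := ℝ) (n * d)])
  have f1 : Θc * B ≤ Θc * (A * L) := mul_le_mul_of_nonneg_left (by linarith) hΘ0
  have f2 : 3 * L ≤ A * L := mul_le_mul_of_nonneg_right hA3 hL
  have f3 : 0 ≤ A * L := by positivity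
  have f4 : Sc * (L + 1) ≤ Sc * (A * L) := mul_le_mul_of_nonneg_left (by linarith) hSc0
  nlinarith

/-- number of possible count vectors -/
theorem card_counts_le (K : Finset (St S d → ℕ)) (n : ℕ) (hK : ∀ N ∈ K, ∀ s, N s ≤ n) :
    K.card ≤ (n + 1) ^ Fintype.card (St S d) := by
  have h : K ⊆ Fintype.piFinset (fun _ : St S d => Finset.range (n + 1)) := by
    intro N hN
    rw [Fintype.mem_piFinset]
    intro s
    rw [Finset.mem_range]
    exact Nat.lt_succ_of_le (hK N hN s)
  refine (Finset.card_le_card h).trans (le_of_eq ?_)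
  rw [Fintype.card_piFinset]
  simp

lemma starCnt_le (p : Equiv.Perm (V × Fin d)) (c : V → S) (s : St S d) :
    starCnt p c s ≤ Fintype.card V := by
  unfold starCnt
  exact Finset.card_le_univ _

lemma sum_starCnt (p : Equiv.Perm (V × Fin d)) (c : V → S) :
    ∑ s, starCnt p c s = Fintype.card V := by
  unfold starCnt
  rw [← Finset.card_univ, Finset.card_eq_sum_card_fiberwise (f := starOf p c) (t := univ)
    (fun _ _ => by simp)]

/-- the edge counts are the numbers of half-edges of the given directed type -/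
lemma edgeCnt_starCnt {p : Equiv.Perm (V × Fin d)} (c : V → S) (t : Th S d) :
    edgeCnt (starCnt p c) t =
      (univ.filter fun h : V × Fin d => (c h.1, h.2, (p h).2, c (p h).1) = t).card := by
  have h1 : starOf p c ∈ FN V (starCnt p c) := by
    simp only [FN, mem_filter, mem_univ, true_and]
    intro s
    rfl
  rw [← fs_tyOf (starCnt p c) h1 t]
  rfl

/-- total number of `(p, c)` whose star counts lie in a set `K` of count vectors -/
theorem card_union_le (K : Finset (St S d → ℕ)) (hn : 1 ≤ Fintype.card V) (ψ : ℝ)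
    (hK : ∀ N ∈ K, Psi (Fintype.card V) N ≤ ψ) :
    ((((pairings (V × Fin d)) ×ˢ (univ : Finset (V → S))).filter
      fun x => starCnt x.1 x.2 ∈ K).card : ℝ) ≤
      np (Fintype.card V * d) * Real.exp (Fintype.card V * ψ +
        (cC S d + Fintype.card (St S d)) * Real.log (Fintype.card V + 1)) := by
  classical
  set n := Fintype.card V with hnV
  set K' := K.filter fun N => ∀ s, N s ≤ n with hK'
  have h1 : (((pairings (V × Fin d)) ×ˢ (univ : Finset (V → S))).filter
      fun x => starCnt x.1 x.2 ∈ K) ⊆ K'.biUnion fun N => cls V N := by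
    intro x hx
    rw [mem_filter] at hx
    rw [mem_biUnion]
    refine ⟨starCnt x.1 x.2, ?_, ?_⟩
    · rw [hK', mem_filter]
      exact ⟨hx.2, fun s => starCnt_le _ _ s⟩
    · rw [cls, mem_filter]
      exact ⟨hx.1, rfl⟩
  have h2 : ((((pairings (V × Fin d)) ×ˢ (univ : Finset (V → S))).filter
      fun x => starCnt x.1 x.2 ∈ K).card : ℝ) ≤ ∑ N ∈ K', ((cls V N).card : ℝ) := by
    have := (Finset.card_le_card h1).trans Finset.card_biUnion_le
    exact_mod_cast this
  have hL : 0 ≤ Real.log ((n : ℝ) + 1) := by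
    have := (aux_log n d hn).2
    linarith
  have h3 : ∀ N ∈ K', ((cls V N).card : ℝ) ≤ np (n * d) *
      Real.exp (n * ψ + cC S d * Real.log (n + 1)) := by
    intro N hN
    rw [hK', mem_filter] at hN
    refine (card_cls_le N hn).trans ?_
    refine mul_le_mul_of_nonneg_left ?_ (Nat.cast_nonneg _)
    refine Real.exp_le_exp.2 ?_
    have := mul_le_mul_of_nonneg_left (hK N hN.1) (Nat.cast_nonneg (α := ℝ) n)
    linarith
  have h4 : (K'.card : ℝ) ≤ Real.exp (Fintype.card (St S d) * Real.log (n + 1)) := by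
    have h5 := card_counts_le K' n (fun N hN s => by
      rw [hK', mem_filter] at hN
      exact hN.2 s)
    have h6 : Real.exp (Fintype.card (St S d) * Real.log (n + 1)) =
        ((n : ℝ) + 1) ^ Fintype.card (St S d) := by
      rw [mul_comm, Real.exp_mul, Real.exp_log (by positivity), Real.rpow_natCast]
    rw [h6]
    exact_mod_cast h5
  calc ((((pairings (V × Fin d)) ×ˢ (univ : Finset (V → S))).filter
      fun x => starCnt x.1 x.2 ∈ K).card : ℝ) ≤ ∑ N ∈ K', ((cls V N).card : ℝ) := h2
    _ ≤ ∑ N ∈ K', np (n * d) * Real.exp (n * ψ + cC S d * Real.log (n + 1)) :=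
        Finset.sum_le_sum h3
    _ = K'.card * (np (n * d) * Real.exp (n * ψ + cC S d * Real.log (n + 1))) := by
        rw [Finset.sum_const, nsmul_eq_mul]
    _ ≤ Real.exp (Fintype.card (St S d) * Real.log (n + 1)) *
        (np (n * d) * Real.exp (n * ψ + cC S d * Real.log (n + 1))) :=
        mul_le_mul_of_nonneg_right h4 (by positivity)
    _ = _ := by
        rw [mul_left_comm, ← Real.exp_add]
        congr 2
        ring

end Star

end Crest.Agent.R166.Count674
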