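import Crest.Agent.R166.TreeLike_942

/-!
Row 166, section 40.5 (helper942), parts II and III: closed reduced walks contain a close step;
superexponential tree-likeness.
-/

set_option autoImplicit false

namespace Crest.Agent.R166.TreeLike942

open Finset
open scoped Nat

noncomputable section

variable {α V : Type*}

/-- `IsWalk vert g u l v`: the list of half-edges `l` is a walk from the vertex `u` to the vertex
`v`; a half-edge `x` leads from `vert x` to `vert (g x)`. -/
def IsWalk (vert : α → V) (g : α → α) : V → List α → V → Prop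
  | u, [], v => u = v
  | u, x :: l, v => vert x = u ∧ IsWalk vert g (vert (g x)) l v

/-- no backtracking -/
def Reduced (p : α → α) (l : List α) : Prop := l.IsChain (fun x y => y ≠ p x)

theorem isWalk_append {vert : α → V} {g : α → α} {u v : V} {l1 l2 : List α} :
    IsWalk vert g u (l1 ++ l2) v ↔ ∃ w, IsWalk vert g u l1 w ∧ IsWalk vert g w l2 v := by
  induction l1 generalizing u with
  | nil => simp [IsWalk]
  | cons x l ih => simp [IsWalk, ih, and_assoc]

theorem isWalk_congr {vert : α → V} {g g' : α → α} {u v : V} {l : List α}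
    (h : ∀ z ∈ l, g z = g' z) (hw : IsWalk vert g u l v) : IsWalk vert g' u l v := by
  induction l generalizing u with
  | nil => simpa [IsWalk] using hw
  | cons x l ih =>
    simp only [IsWalk] at hw ⊢
    refine ⟨hw.1, ?_⟩
    rw [← h x (by simp)]
    exact ih (fun z hz => h z (by simp [hz])) hw.2

theorem isWalk_reverse {vert : α → V} {g : α → α} (hg : ∀ z, g (g z) = z) {u v : V} {l : List α}
    (hw : IsWalk vert g u l v) : IsWalk vert g v (l.reverse.map g) u := by
  induction l generalizing u with
  | nil => simpa [IsWalk, eq_comm] using hw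
  | cons x l ih =>
    simp only [IsWalk] at hw
    rw [List.reverse_cons, List.map_append, isWalk_append]
    exact ⟨vert (g x), ih hw.2, by simp [IsWalk, hg, hw.1]⟩

theorem reduced_reverse {p : α → α} (hp : ∀ z, p (p z) = z) {l : List α}
    (h : Reduced p l) : Reduced p (l.reverse.map p) := by
  unfold Reduced at h ⊢
  rw [List.isChain_map, List.isChain_reverse]
  refine h.imp ?_
  intro a b hab h1
  rw [hp] at h1
  exact hab h1.symm

theorem isWalk_end_unique {vert : α → V} {g : α → α} {u v v' : V} {l : List α}
    (h : IsWalk vert g u l v) (h' : IsWalk vert g u l v') : v = v' := by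
  induction l generalizing u with
  | nil => simp only [IsWalk] at h h'; rw [← h, ← h']
  | cons x l ih => exact ih h.2 h'.2

/-- connected by a walk of length at most `L` -/
def Conn (vert : α → V) (g : α → α) (L : ℕ) (u v : V) : Prop :=
  ∃ l : List α, l.length ≤ L ∧ IsWalk vert g u l v

theorem Conn.symm {vert : α → V} {g : α → α} (hg : ∀ z, g (g z) = z) {L : ℕ} {u v : V}
    (h : Conn vert g L u v) : Conn vert g L v u := by
  obtain ⟨l, hl, hw⟩ := h
  exact ⟨l.reverse.map g, by simpa using hl, isWalk_reverse hg hw⟩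

section card
variable [Fintype α] [Fintype V]

open Classical in
theorem conn_card {vert : α → V} {g : α → α} {d : ℕ}
    (hd : ∀ u, (univ.filter fun x => vert x = u).card ≤ d) (L : ℕ) (u : V) :
    (univ.filter fun v => Conn vert g L u v).card ≤ (d + 1) ^ L := by
  induction L generalizing u with
  | zero =>
    rw [pow_zero, card_le_one]
    intro a ha b hb
    simp only [mem_filter, mem_univ, true_and, Conn, Nat.le_zero, List.length_eq_zero_iff] at ha hb
    obtain ⟨l, rfl, ha⟩ := ha
    obtain ⟨l, rfl, hb⟩ := hb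
    simp only [IsWalk] at ha hb
    rw [← ha, ← hb]
  | succ L ih =>
    have hsub : (univ.filter fun v => Conn vert g (L+1) u v) ⊆
        {u} ∪ (univ.filter fun x => vert x = u).biUnion
          (fun x => univ.filter fun v => Conn vert g L (vert (g x)) v) := by
      intro v hv
      simp only [mem_filter, mem_univ, true_and] at hv
      obtain ⟨l, hl, hw⟩ := hv
      cases l with
      | nil =>
        simp only [IsWalk] at hw
        simp [hw]
      | cons x l =>
        simp only [IsWalk] at hw
        apply mem_union_right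
        rw [mem_biUnion]
        refine ⟨x, by simp [hw.1], ?_⟩
        simp only [mem_filter, mem_univ, true_and]
        exact ⟨l, by simpa using hl, hw.2⟩
    refine (card_le_card hsub).trans ((card_union_le _ _).trans ?_)
    rw [card_singleton]
    have h1 : ((univ.filter fun x => vert x = u).biUnion
          (fun x => univ.filter fun v => Conn vert g L (vert (g x)) v)).card ≤
          (univ.filter fun x => vert x = u).card * (d + 1) ^ L :=
      card_biUnion_le_card_mul _ _ _ fun x _ => ih _
    have h2 : 1 ≤ (d + 1) ^ L := Nat.one_le_pow _ _ (by omega)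
    calc 1 + ((univ.filter fun x => vert x = u).biUnion
          (fun x => univ.filter fun v => Conn vert g L (vert (g x)) v)).card
        ≤ (d + 1) ^ L + d * (d + 1) ^ L :=
          Nat.add_le_add h2 (h1.trans (Nat.mul_le_mul_right _ (hd u)))
      _ = (d + 1) ^ (L + 1) := by ring

open Classical in
theorem close_card {vert : α → V} {d : ℕ}
    (hd : ∀ u, (univ.filter fun x => vert x = u).card ≤ d) (L : ℕ) (g : α → α) (x : α) :
    Nat.card {y // Conn vert g L (vert x) (vert y)} ≤ (d + 1) ^ (L + 1) := by
  rw [Nat.card_eq_fintype_card, Fintype.card_subtype]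
  have hsub : (univ.filter fun y => Conn vert g L (vert x) (vert y)) ⊆
      (univ.filter fun v => Conn vert g L (vert x) v).biUnion
        (fun v => univ.filter fun y => vert y = v) := by
    intro y hy
    simp only [mem_filter, mem_univ, true_and] at hy
    simp [hy]
  refine (card_le_card hsub).trans ((card_biUnion_le_card_mul _ _ d fun v _ => hd v).trans ?_)
  calc (univ.filter fun v => Conn vert g L (vert x) v).card * d
      ≤ (d + 1) ^ L * (d + 1) := Nat.mul_le_mul (conn_card hd L _) (by omega)
    _ = _ := by ring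

end card

theorem exists_first {P : α → Prop} {l : List α} (h : ∃ a ∈ l, P a) :
    ∃ l1 a l2, l = l1 ++ a :: l2 ∧ P a ∧ ∀ z ∈ l1, ¬ P z := by
  classical
  induction l with
  | nil => simp at h
  | cons x l ih =>
    by_cases hx : P x
    · exact ⟨[], x, l, rfl, hx, by simp⟩
    · obtain ⟨a, ha, hPa⟩ := h
      have : ∃ a ∈ l, P a := by
        rcases List.mem_cons.1 ha with h | h
        · subst h; exact absurd hPa hx
        · exact ⟨a, h, hPa⟩
      obtain ⟨l1, a, l2, h1, h2, h3⟩ := ih this
      refine ⟨x :: l1, a, l2, by simp [h1], h2, ?_⟩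
      intro z hz
      rcases List.mem_cons.1 hz with h | h
      · subst h; exact hx
      · exact h3 z h

theorem expo_invol {rk : α → ℕ} {p : Equiv.Perm α} (hp : IsPairing p) (x z : α) :
    expo rk p x (expo rk p x z) = z := by
  unfold expo
  by_cases h : min (rk z) (rk (p z)) < rk x
  · rw [if_pos h, hp.1, min_comm, if_pos h]
  · rw [if_neg h, if_neg h]

/-- every nontrivial reduced closed walk contains a close step -/
theorem exists_close {rk : α → ℕ} (hrk : Function.Injective rk) {vert : α → V}
    {p : Equiv.Perm α} (hp : IsPairing p) (L : ℕ) :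
    ∀ (k : ℕ) (l : List α) (u : V), l.length ≤ k → k ≤ L + 1 → l ≠ [] → IsWalk vert p u l u →
      Reduced p l →
      ∃ x, (x ∈ l ∨ p x ∈ l) ∧ rk x < rk (p x) ∧ Conn vert (expo rk p x) L (vert x) (vert (p x)) := by
  classical
  intro k
  induction k with
  | zero =>
    intro l u hk _ hne
    exact absurd (List.length_eq_zero_iff.1 (Nat.le_zero.1 hk)) hne
  | succ k ih =>
    intro l u hk hkL hne hw hred
    -- the last exposed edge
    obtain ⟨a0, ha0, hmax⟩ : ∃ a0 ∈ l, ∀ z ∈ l, min (rk z) (rk (p z)) ≤ min (rk a0) (rk (p a0)) := by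
      have := l.toFinset.exists_max_image (fun z => min (rk z) (rk (p z)))
        (by simpa using hne)
      simpa using this
    obtain ⟨e, he, hep, hea⟩ : ∃ e, (e ∈ l ∨ p e ∈ l) ∧ rk e < rk (p e) ∧
        min (rk a0) (rk (p a0)) = rk e := by
      rcases lt_trichotomy (rk a0) (rk (p a0)) with h | h | h
      · exact ⟨a0, Or.inl ha0, h, min_eq_left h.le⟩
      · exact absurd (hrk h).symm (hp.2 a0)
      · exact ⟨p a0, Or.inr (by rw [hp.1]; exact ha0), by rw [hp.1]; exact h, min_eq_right h.le⟩
    have hexp : ∀ z ∈ l, ¬ (z = e ∨ z = p e) → p z = expo rk p e z := by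
      intro z hz hne'
      have h1 := hmax z hz
      rw [hea] at h1
      have h2 : min (rk z) (rk (p z)) ≠ rk e := by
        intro h
        rcases min_choice (rk z) (rk (p z)) with h' | h'
        · rw [h'] at h; exact hne' (Or.inl (hrk h))
        · rw [h'] at h
          apply hne'
          right
          rw [← hrk h, hp.1]
      unfold expo
      rw [if_pos (lt_of_le_of_ne h1 h2)]
    have hinv := expo_invol (rk := rk) hp e
    -- first occurrence
    obtain ⟨l1, a, l2, hl, hPa, hl1⟩ : ∃ l1 a l2, l = l1 ++ a :: l2 ∧ (a = e ∨ a = p e) ∧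
        ∀ z ∈ l1, ¬ (z = e ∨ z = p e) := by
      apply exists_first
      rcases he with h | h
      · exact ⟨e, h, Or.inl rfl⟩
      · exact ⟨p e, h, Or.inr rfl⟩
    -- it suffices to connect `vert (p a)` and `vert a`
    have hsuff : Conn vert (expo rk p e) L (vert (p a)) (vert a) →
        ∃ x, (x ∈ l ∨ p x ∈ l) ∧ rk x < rk (p x) ∧
          Conn vert (expo rk p x) L (vert x) (vert (p x)) := by
      intro hc
      refine ⟨e, he, hep, ?_⟩
      rcases hPa with h | h
      · subst h; exact hc.symm hinv
      · subst h; rw [hp.1] at hc; exact hc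
    subst hl
    rw [isWalk_append] at hw
    obtain ⟨w, hw1, hw2⟩ := hw
    simp only [IsWalk] at hw2
    obtain ⟨hw2a, hw2b⟩ := hw2
    simp only [List.length_append, List.length_cons] at hk
    by_cases hocc : ∃ b ∈ l2, b = e ∨ b = p e
    · obtain ⟨l3, b, l4, hl2, hPb, hl3⟩ := exists_first hocc
      subst hl2
      rw [isWalk_append] at hw2b
      obtain ⟨w', hw3, hw4⟩ := hw2b
      simp only [IsWalk] at hw4
      simp only [List.length_append, List.length_cons] at hk
      by_cases hba : b = a
      · subst hba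
        apply hsuff
        refine ⟨l3, by omega, ?_⟩
        rw [hw4.1]
        apply isWalk_congr _ hw3
        intro z hz
        exact hexp z (by simp [hz]) (hl3 z hz)
      · have hbp : b = p a := by
          rcases hPa with h | h <;> rcases hPb with h' | h'
          · exact absurd (h'.trans h.symm) hba
          · rw [h, h']
          · rw [h, h', hp.1]
          · exact absurd (h'.trans h.symm) hba
        have hcw : IsWalk vert p (vert (p a)) l3 (vert (p a)) := by
          have hw' : w' = vert (p a) := by rw [← hw4.1, hbp]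
          rw [hw'] at hw3
          exact hw3
        have hred' : Reduced p (a :: (l3 ++ b :: l4)) := hred.right_of_append
        have hl3ne : l3 ≠ [] := by
          intro h
          subst h
          unfold Reduced at hred'
          simp only [List.nil_append, List.isChain_cons_cons] at hred'
          exact hred'.1 hbp
        have hred3 : Reduced p l3 := by
          have h1 : (a :: (l3 ++ b :: l4)).IsChain (fun x y => y ≠ p x) := hred'
          have h2 := h1.tail
          simp only [List.tail_cons] at h2
          exact h2.left_of_append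
        obtain ⟨x, hx1, hx2, hx3⟩ := ih l3 (vert (p a)) (by omega) (by omega) hl3ne hcw hred3
        refine ⟨x, ?_, hx2, hx3⟩
        rcases hx1 with h | h
        · left; simp [h]
        · right; simp [h]
    · push Not at hocc
      apply hsuff
      refine ⟨l2 ++ l1, by simp; omega, ?_⟩
      rw [isWalk_append]
      refine ⟨u, ?_, ?_⟩
      · apply isWalk_congr _ hw2b
        intro z hz
        refine hexp z (by simp [hz]) ?_
        have := hocc z hz
        tauto
      · rw [hw2a]
        apply isWalk_congr _ hw1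
        intro z hz
        exact hexp z (by simp [hz]) (hl1 z hz)

/-- the covering map is injective on the ball of radius `R` around `v` -/
def TreeAt (vert : α → V) (p : α → α) (R : ℕ) (v : V) : Prop :=
  ∀ (l1 l2 : List α) (w : V), IsWalk vert p v l1 w → IsWalk vert p v l2 w →
    Reduced p l1 → Reduced p l2 → l1.length ≤ R → l2.length ≤ R → l1 = l2

theorem exists_closed_walk {vert : α → V} {p : α → α} (hp : ∀ z, p (p z) = z) :
    ∀ (k : ℕ) (l1 l2 : List α) (v w : V), l1.length + l2.length ≤ k → IsWalk vert p v l1 w →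
      IsWalk vert p v l2 w → Reduced p l1 → Reduced p l2 → l1 ≠ l2 →
      ∃ c : List α, c ≠ [] ∧ c.length ≤ k ∧ IsWalk vert p v c v ∧ Reduced p c := by
  classical
  intro k
  induction k with
  | zero =>
    intro l1 l2 v w hk _ _ _ _ hne
    have h1 : l1 = [] := List.length_eq_zero_iff.1 (by omega)
    have h2 : l2 = [] := List.length_eq_zero_iff.1 (by omega)
    exact absurd (h1.trans h2.symm) hne
  | succ k ih =>
    intro l1 l2 v w hk hw1 hw2 hr1 hr2 hne
    rcases List.eq_nil_or_concat l1 with h1 | ⟨a1, x, h1⟩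
    · subst h1
      simp only [IsWalk] at hw1
      subst hw1
      exact ⟨l2, fun h => hne h.symm, by simpa using hk, hw2, hr2⟩
    rcases List.eq_nil_or_concat l2 with h2 | ⟨a2, y, h2⟩
    · subst h2
      simp only [IsWalk] at hw2
      subst hw2
      exact ⟨l1, hne, by simpa using hk, hw1, hr1⟩
    simp only [List.concat_eq_append] at h1 h2
    subst h1 h2
    by_cases hxy : x = y
    · subst hxy
      rw [isWalk_append] at hw1 hw2
      obtain ⟨w1, hw1a, hw1b⟩ := hw1
      obtain ⟨w2, hw2a, hw2b⟩ := hw2
      simp only [IsWalk] at hw1b hw2b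
      have e1 : w1 = w2 := hw1b.1.symm.trans hw2b.1
      subst e1
      simp only [List.length_append, List.length_cons, List.length_nil] at hk
      obtain ⟨c, hc1, hc2, hc3, hc4⟩ := ih a1 a2 v w1 (by omega) hw1a hw2a hr1.left_of_append
        hr2.left_of_append (by rintro rfl; exact hne rfl)
      exact ⟨c, hc1, by omega, hc3, hc4⟩
    · refine ⟨(a1 ++ [x]) ++ ((a2 ++ [y]).reverse.map p), by simp, ?_, ?_, ?_⟩
      · simp only [List.length_append, List.length_map, List.length_reverse,
          List.length_cons, List.length_nil] at hk ⊢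
        omega
      · rw [isWalk_append]
        exact ⟨w, hw1, isWalk_reverse hp hw2⟩
      · have h2 := reduced_reverse hp hr2
        refine List.IsChain.append hr1 h2 ?_
        intro a ha b hb
        simp only [List.getLast?_append, List.getLast?_singleton, Option.some_or,
          Option.mem_def, Option.some.injEq] at ha
        simp only [List.reverse_append, List.reverse_cons, List.reverse_nil, List.nil_append,
          List.map_cons, List.cons_append, List.head?_cons, Option.mem_def,
          Option.some.injEq] at hb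
        subst ha hb
        intro h
        apply hxy
        have := congrArg p h
        rw [hp, hp] at this
        exact this.symm

/-- a bad vertex is close to a close step -/
theorem bad_close {rk : α → ℕ} (hrk : Function.Injective rk) {vert : α → V}
    {p : Equiv.Perm α} (hp : IsPairing p) {R : ℕ} {v : V} (hv : ¬ TreeAt vert p R v) :
    ∃ x, rk x < rk (p x) ∧ Conn vert (expo rk p x) (2 * R) (vert x) (vert (p x)) ∧
      Conn vert p (2 * R) (vert x) v := by
  unfold TreeAt at hv
  push Not at hv
  obtain ⟨l1, l2, w, h1, h2, h3, h4, h5, h6, h7⟩ := hv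
  obtain ⟨c, hc1, hc2, hc3, hc4⟩ := exists_closed_walk hp.1 (2 * R) l1 l2 v w (by omega) h1 h2 h3 h4
    h7
  obtain ⟨x, hx1, hx2, hx3⟩ := exists_close hrk hp (2 * R) (2 * R) c v hc2 (by omega) hc1 hc3 hc4
  refine ⟨x, hx2, hx3, ?_⟩
  rcases hx1 with h | h
  · obtain ⟨c1, c2, rfl⟩ := List.append_of_mem h
    rw [isWalk_append] at hc3
    obtain ⟨w', hw1, hw2⟩ := hc3
    simp only [IsWalk] at hw2
    rw [hw2.1]
    refine Conn.symm hp.1 ⟨c1, ?_, hw1⟩
    simp only [List.length_append, List.length_cons] at hc2
    omega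
  · obtain ⟨c1, c2, rfl⟩ := List.append_of_mem h
    rw [isWalk_append] at hc3
    obtain ⟨w', hw1, hw2⟩ := hc3
    simp only [IsWalk, hp.1] at hw2
    refine ⟨c2, ?_, hw2.2⟩
    simp only [List.length_append, List.length_cons] at hc2
    omega

section bad
variable [Fintype α] [Fintype V]

open Classical in
theorem bad_card {rk : α → ℕ} (hrk : Function.Injective rk) {vert : α → V} {d : ℕ}
    (hd : ∀ u, (univ.filter fun x => vert x = u).card ≤ d)
    {p : Equiv.Perm α} (hp : IsPairing p) (R : ℕ) :
    Nat.card {v : V // ¬ TreeAt vert p R v} ≤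
      (closeSet rk (fun g x y => Conn vert g (2 * R) (vert x) (vert y)) p univ).card *
        (d + 1) ^ (2 * R) := by
  rw [Nat.card_eq_fintype_card, Fintype.card_subtype]
  have hsub : (univ.filter fun v => ¬ TreeAt vert p R v) ⊆
      (closeSet rk (fun g x y => Conn vert g (2 * R) (vert x) (vert y)) p univ).biUnion
        (fun x => univ.filter fun v => Conn vert p (2 * R) (vert x) v) := by
    intro v hv
    simp only [mem_filter, mem_univ, true_and] at hv
    obtain ⟨x, hx1, hx2, hx3⟩ := bad_close hrk hp hv
    rw [mem_biUnion]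
    refine ⟨x, ?_, by simp [hx3]⟩
    simp only [closeSet, mem_filter, mem_univ, true_and]
    exact ⟨hx1, hx2⟩
  exact (card_le_card hsub).trans (card_biUnion_le_card_mul _ _ _ fun x _ => conn_card hd _ _)

open Classical in
/-- combinatorial form of superexponential tree-likeness -/
theorem bad_bound [DecidableEq α] {vert : α → V} {d : ℕ}
    (hd : ∀ u, (univ.filter fun x => vert x = u).card ≤ d) (R m : ℕ) :
    Nat.card {p : Equiv.Perm α // IsPairing p ∧
        m * (d + 1) ^ (2 * R) ≤ Nat.card {v : V // ¬ TreeAt vert p R v}} * m ! ≤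
      (Fintype.card α / 2).choose m * ((d + 1) ^ (2 * R + 1)) ^ m * (Fintype.card α - 1)‼ := by
  have hrk : Function.Injective (fun x : α => ((Fintype.equivFin α) x : ℕ)) := by
    intro a b h
    exact (Fintype.equivFin α).injective (Fin.ext h)
  have h := closeCount_bound hrk (close := fun g x y => Conn vert g (2 * R) (vert x) (vert y))
    (C := (d + 1) ^ (2 * R + 1)) (fun g x => close_card hd _ g x) m
  refine le_trans (Nat.mul_le_mul_right _ ?_) h
  have hD : 0 < (d + 1) ^ (2 * R) := by positivity
  refine Nat.card_le_card_of_injective (fun q : {p : Equiv.Perm α // IsPairing p ∧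
      m * (d + 1) ^ (2 * R) ≤ Nat.card {v : V // ¬ TreeAt vert p R v}} =>
      (⟨q.1, q.2.1, ?_⟩ : {p : Equiv.Perm α // IsPairing p ∧ m ≤ (closeSet
        (fun x : α => ((Fintype.equivFin α) x : ℕ))
        (fun g x y => Conn vert g (2 * R) (vert x) (vert y)) p univ).card})) ?_
  · have h1 := bad_card hrk hd q.2.1 R
    exact Nat.le_of_mul_le_mul_right (q.2.2.trans h1) hD
  · intro a b h
    exact Subtype.ext (by simpa using h)

end bad

theorem final_asymp (d : ℕ) (C c0 : ℝ) (hC : 1 ≤ C) (hc0 : 0 < c0) :
    ∃ n0 : ℕ, ∀ n ≥ n0, ∀ m : ℕ, c0 * n ≤ m →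
      (2:ℝ) ^ (n * d) * C ^ m / m ! ≤ Real.exp (-(c0/2) * n * Real.log n) := by
  have hC0 : 0 < C := lt_of_lt_of_le one_pos hC
  set B : ℝ := 1 + Real.log C - Real.log c0 with hB
  have ht : Filter.Tendsto (fun n : ℕ => Real.log (n : ℝ)) Filter.atTop Filter.atTop :=
    Real.tendsto_log_atTop.comp tendsto_natCast_atTop_atTop
  have hev := ((ht.eventually_ge_atTop B).and
    (ht.eventually_ge_atTop (2 * (d * Real.log 2 + c0 * B) / c0))).and
      (Filter.eventually_ge_atTop 1)
  obtain ⟨n0, hn0⟩ := Filter.eventually_atTop.1 hev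
  refine ⟨n0, fun n hn m hm => ?_⟩
  obtain ⟨⟨h1, h2⟩, h3⟩ := hn0 n hn
  have hn1 : (1:ℝ) ≤ n := by exact_mod_cast h3
  have hnpos : (0:ℝ) < n := by linarith
  have hmpos : (0:ℝ) < m := lt_of_lt_of_le (by positivity) hm
  have hfac : (m:ℝ) ^ m / m ! ≤ Real.exp m := Real.pow_div_factorial_le_exp (m:ℝ) hmpos.le m
  have hfac' : (1:ℝ) / m ! ≤ Real.exp (m - m * Real.log m) := by
    have e1 : (m:ℝ) ^ m = Real.exp (m * Real.log m) := by
      rw [Real.exp_nat_mul, Real.exp_log hmpos]
    rw [e1, div_eq_mul_one_div] at hfac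
    rw [Real.exp_sub, le_div_iff₀ (Real.exp_pos _)]
    linarith
  have e2 : (2:ℝ) ^ (n * d) = Real.exp (n * d * Real.log 2) := by
    rw [← Nat.cast_mul, Real.exp_nat_mul, Real.exp_log two_pos]
  have e3 : C ^ m = Real.exp (m * Real.log C) := by
    rw [Real.exp_nat_mul, Real.exp_log hC0]
  have hlogm : Real.log n + Real.log c0 ≤ Real.log m := by
    rw [← Real.log_mul hnpos.ne' hc0.ne']
    apply Real.log_le_log (by positivity)
    rw [mul_comm]; exact hm
  calc (2:ℝ) ^ (n * d) * C ^ m / m ! = (2:ℝ) ^ (n * d) * C ^ m * (1 / m !) := by ring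
    _ ≤ (2:ℝ) ^ (n * d) * C ^ m * Real.exp (m - m * Real.log m) :=
        mul_le_mul_of_nonneg_left hfac' (by positivity)
    _ = Real.exp (n * d * Real.log 2 + m * Real.log C + (m - m * Real.log m)) := by
        rw [e2, e3, Real.exp_add, Real.exp_add]
    _ ≤ Real.exp (-(c0/2) * n * Real.log n) := by
        apply Real.exp_le_exp.2
        have k1 : (m:ℝ) * (1 + Real.log C - Real.log m) ≤ m * (B - Real.log n) := by
          apply mul_le_mul_of_nonneg_left _ hmpos.le
          rw [hB]; linarith
        have k2 : (m:ℝ) * (B - Real.log n) ≤ (c0 * n) * (B - Real.log n) := by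
          nlinarith
        have k3 : 2 * (d * Real.log 2 + c0 * B) ≤ c0 * Real.log n := by
          rw [div_le_iff₀ hc0] at h2
          linarith
        nlinarith

/-- SUPEREXPONENTIAL TREE-LIKENESS of the configuration model. -/
theorem superexp (d R : ℕ) (ε : ℝ) (hε : 0 < ε) :
    ∃ c : ℝ, 0 < c ∧ ∃ n0 : ℕ, ∀ n ≥ n0,
      (Nat.card {p : Equiv.Perm (Fin n × Fin d) // IsPairing p ∧
        ε * n ≤ (Nat.card {v : Fin n // ¬ TreeAt Prod.fst p R v} : ℝ)} : ℝ) ≤
      ((n * d - 1)‼ : ℝ) * Real.exp (-c * n * Real.log n) := by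
  classical
  set D : ℕ := (d + 1) ^ (2 * R) with hD
  set C : ℕ := (d + 1) ^ (2 * R + 1) with hC
  have hDpos : (0:ℝ) < D := by rw [hD]; positivity
  have hC1 : (1:ℝ) ≤ C := by
    have : 1 ≤ C := Nat.one_le_pow _ _ (by omega)
    exact_mod_cast this
  set c0 : ℝ := ε / (2 * D) with hc0
  have hc0pos : 0 < c0 := by positivity
  obtain ⟨n1, hn1⟩ := final_asymp d C c0 hC1 hc0pos
  refine ⟨c0 / 2, by positivity, max n1 ⌈2 * D / ε⌉₊, fun n hn => ?_⟩
  have hnn1 : n1 ≤ n := le_trans (le_max_left _ _) hn
  have hn2 : 2 * D / ε ≤ n := (Nat.le_ceil _).trans (by exact_mod_cast (le_max_right _ _).trans hn)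
  set m : ℕ := ⌊ε * n / D⌋₊ with hm
  have hm1 : (m:ℝ) * D ≤ ε * n := by
    have h1 : (m:ℝ) ≤ ε * n / D := Nat.floor_le (by positivity)
    rwa [le_div_iff₀ hDpos] at h1
  have hm2 : c0 * n ≤ m := by
    have h1 : ε * n / D < m + 1 := Nat.lt_floor_add_one _
    have h2 : 1 ≤ c0 * n := by
      rw [div_le_iff₀ hε] at hn2
      rw [hc0, div_mul_eq_mul_div, le_div_iff₀ (by positivity)]
      linarith
    have h3 : ε * n / D = 2 * (c0 * n) := by
      rw [hc0]; field_simp
    rw [h3] at h1
    linarith
  have hdv : ∀ u : Fin n, (univ.filter fun x : Fin n × Fin d => x.1 = u).card ≤ d := by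
    intro u
    have : (univ.filter fun x : Fin n × Fin d => x.1 = u) ⊆
        univ.image (fun i : Fin d => (u, i)) := by
      intro x hx
      simp only [mem_filter, mem_univ, true_and] at hx
      simp only [mem_image, mem_univ, true_and]
      exact ⟨x.2, by rw [← hx]⟩
    refine (card_le_card this).trans (card_image_le.trans ?_)
    simp
  have hmain := bad_bound (vert := (Prod.fst : Fin n × Fin d → Fin n)) (d := d)
    (fun u => by convert hdv u) R m
  rw [Fintype.card_prod, Fintype.card_fin, Fintype.card_fin] at hmain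
  have hle : Nat.card {p : Equiv.Perm (Fin n × Fin d) // IsPairing p ∧
        ε * n ≤ (Nat.card {v : Fin n // ¬ TreeAt Prod.fst p R v} : ℝ)} ≤
      Nat.card {p : Equiv.Perm (Fin n × Fin d) // IsPairing p ∧
        m * (d + 1) ^ (2 * R) ≤ Nat.card {v : Fin n // ¬ TreeAt Prod.fst p R v}} := by
    refine Nat.card_le_card_of_injective (fun q => ⟨q.1, q.2.1, ?_⟩) ?_
    · have h1 := hm1.trans q.2.2
      rw [hD] at h1
      exact_mod_cast h1
    · intro a b h
      exact Subtype.ext (by simpa using h)
  have hchoose : (n * d / 2).choose m ≤ 2 ^ (n * d) :=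
    (Nat.choose_le_two_pow _ _).trans (Nat.pow_le_pow_right (by norm_num) (Nat.div_le_self _ _))
  have hfacpos : (0:ℝ) < m ! := by exact_mod_cast Nat.factorial_pos m
  have h1 : (Nat.card {p : Equiv.Perm (Fin n × Fin d) // IsPairing p ∧
        m * (d + 1) ^ (2 * R) ≤ Nat.card {v : Fin n // ¬ TreeAt Prod.fst p R v}} : ℝ) * m ! ≤
        2 ^ (n * d) * (C:ℝ) ^ m * (n * d - 1)‼ := by
    have h2 := hmain.trans (Nat.mul_le_mul_right _ (Nat.mul_le_mul_right _ hchoose))
    rw [← hC] at h2
    exact_mod_cast h2
  calc (Nat.card {p : Equiv.Perm (Fin n × Fin d) // IsPairing p ∧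
        ε * n ≤ (Nat.card {v : Fin n // ¬ TreeAt Prod.fst p R v} : ℝ)} : ℝ)
      ≤ (Nat.card {p : Equiv.Perm (Fin n × Fin d) // IsPairing p ∧
        m * (d + 1) ^ (2 * R) ≤ Nat.card {v : Fin n // ¬ TreeAt Prod.fst p R v}} : ℝ) := by
          exact_mod_cast hle
    _ ≤ 2 ^ (n * d) * (C:ℝ) ^ m * (n * d - 1)‼ / m ! := by
        rw [le_div_iff₀ hfacpos]; exact h1
    _ = (n * d - 1)‼ * (2 ^ (n * d) * (C:ℝ) ^ m / m !) := by ring
    _ ≤ (n * d - 1)‼ * Real.exp (-(c0/2) * n * Real.log n) :=
        mul_le_mul_of_nonneg_left (hn1 n hnn1 m hm2) (by positivity)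

end

end Crest.Agent.R166.TreeLike942
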