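import Mathlib
import Crest.Agent.R166.PairCount_356

/-!
# R166, 40.7 (U), part 1: views, walks, closed walks (helper724)

Everything in terms of a port map `p : V × I → V × I` (an involution).
* `View A I r`, `viewOf p c r v`: the decorated radius `r` view (all walks, arrival labels recorded);
* `endV p v l`: end vertex of the port word `l` from `v`;
* `nb p v f l`: nonbacktracking words; `NoCl a p v`: no closed nonempty nonbacktracking word of
  length `≤ a` from `v`;
* `closed_iff`: for equal views and tree-like roots the same words are closed;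
* `Hp p s ω`: the (multi)graph Schrödinger matrix of a port map;
* `pow_apply_eq`: equal views and tree-like roots have the same local moments.
-/

set_option autoImplicit false
set_option linter.unusedSectionVars false
set_option linter.unusedSimpArgs false

namespace Crest.Agent.R166.Upp724

open Finset

/-! ### Views -/

/-- decorated views of radius `r` (all port walks, with the arrival labels) -/
def View (A I : Type) : ℕ → Type
  | 0 => A
  | (r + 1) => A × (I → I × View A I r)

instance instFiniteView (A I : Type) [Finite A] [Finite I] : ∀ r, Finite (View A I r)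
  | 0 => (inferInstance : Finite A)
  | (r + 1) => by
      have := instFiniteView A I r
      exact (inferInstance : Finite (A × (I → I × View A I r)))

noncomputable instance instFintypeView (A I : Type) [Finite A] [Finite I] (r : ℕ) :
    Fintype (View A I r) := Fintype.ofFinite _

noncomputable instance instDecEqView (A I : Type) (r : ℕ) : DecidableEq (View A I r) :=
  Classical.decEq _

section Views
variable {V V' I A : Type}

/-- the view of radius `r` at the vertex `v` -/
def viewOf (p : V × I → V × I) (c : V → A) : (r : ℕ) → V → View A I r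
  | 0, v => c v
  | (r + 1), v => (c v, fun i => ((p (v, i)).2, viewOf p c r (p (v, i)).1))

/-- the star type of a vertex for a colouring `c` -/
def starOf {S : Type} (p : V × I → V × I) (c : V → S) (v : V) : S × (I → I × S) :=
  (c v, fun i => ((p (v, i)).2, c (p (v, i)).1))

/-- root decoration of a view -/
def vroot : (r : ℕ) → View A I r → A
  | 0, x => x
  | (_ + 1), x => x.1

@[simp] lemma vroot_viewOf (p : V × I → V × I) (c : V → A) (r : ℕ) (v : V) :
    vroot r (viewOf p c r v) = c v := by
  cases r <;> rfl

/-- truncation of a view by one level -/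
def vtr : (r : ℕ) → View A I (r + 1) → View A I r
  | 0, x => x.1
  | (r + 1), x => (x.1, fun i => ((x.2 i).1, vtr r (x.2 i).2))

lemma vtr_viewOf (p : V × I → V × I) (c : V → A) : ∀ (r : ℕ) (v : V),
    vtr r (viewOf p c (r + 1) v) = viewOf p c r v
  | 0, v => rfl
  | (r + 1), v => by
      show ((c v), fun i => _) = _
      simp only [viewOf]
      congr 1
      funext i
      congr 1
      exact vtr_viewOf p c r _

/-- truncation of a view by `j` levels -/
def vtrn (r : ℕ) : (j : ℕ) → View A I (r + j) → View A I r
  | 0, x => x
  | (j + 1), x => vtrn r j (vtr (r + j) x)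

lemma vtrn_viewOf (p : V × I → V × I) (c : V → A) (r : ℕ) : ∀ (j : ℕ) (v : V),
    vtrn r j (viewOf p c (r + j) v) = viewOf p c r v
  | 0, v => rfl
  | (j + 1), v => by
      show vtrn r j (vtr (r + j) (viewOf p c (r + j + 1) v)) = _
      rw [vtr_viewOf, vtrn_viewOf p c r j v]

/-- two rooted structures have the same view of radius `r` -/
def SameView (p : V × I → V × I) (c : V → A) (p' : V' × I → V' × I) (c' : V' → A) :
    ℕ → V → V' → Prop
  | 0, v, v' => c v = c' v'
  | (r + 1), v, v' => c v = c' v' ∧ ∀ i, (p (v, i)).2 = (p' (v', i)).2 ∧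
      SameView p c p' c' r (p (v, i)).1 (p' (v', i)).1

lemma sameView_iff (p : V × I → V × I) (c : V → A) (p' : V' × I → V' × I) (c' : V' → A) :
    ∀ (r : ℕ) (v : V) (v' : V'),
      SameView p c p' c' r v v' ↔ viewOf p c r v = viewOf p' c' r v'
  | 0, v, v' => Iff.rfl
  | (r + 1), v, v' => by
      have h0 : (viewOf p c (r + 1) v = viewOf p' c' (r + 1) v') ↔
          ((c v, fun i => ((p (v, i)).2, viewOf p c r (p (v, i)).1)) :
            A × (I → I × View A I r)) =
          (c' v', fun i => ((p' (v', i)).2, viewOf p' c' r (p' (v', i)).1)) := Iff.rfl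
      rw [h0, Prod.mk.injEq, funext_iff]
      simp only [Prod.mk.injEq]
      constructor
      · rintro ⟨h1, h2⟩
        refine ⟨h1, fun i => ?_⟩
        exact ⟨(h2 i).1, (sameView_iff p c p' c' r _ _).1 (h2 i).2⟩
      · rintro ⟨h1, h2⟩
        refine ⟨h1, fun i => ?_⟩
        exact ⟨(h2 i).1, (sameView_iff p c p' c' r _ _).2 (h2 i).2⟩

lemma SameView.root {p : V × I → V × I} {c : V → A} {p' : V' × I → V' × I} {c' : V' → A}
    {r : ℕ} {v : V} {v' : V'} (h : SameView p c p' c' r v v') : c v = c' v' := by
  cases r with
  | zero => exact h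
  | succ r => exact h.1

lemma SameView.pred {p : V × I → V × I} {c : V → A} {p' : V' × I → V' × I} {c' : V' → A} :
    ∀ {r : ℕ} {v : V} {v' : V'}, SameView p c p' c' (r + 1) v v' → SameView p c p' c' r v v'
  | 0, _, _, h => h.1
  | (_ + 1), _, _, h => ⟨h.1, fun i => ⟨(h.2 i).1, (h.2 i).2.pred⟩⟩

lemma SameView.mono {p : V × I → V × I} {c : V → A} {p' : V' × I → V' × I} {c' : V' → A}
    {r s : ℕ} (hrs : r ≤ s) {v : V} {v' : V'} (h : SameView p c p' c' s v v') :
    SameView p c p' c' r v v' := by
  induction s, hrs using Nat.le_induction with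
  | base => exact h
  | succ s _ ih => exact ih h.pred

/-- end vertex of a port word -/
def endV (p : V × I → V × I) : V → List I → V
  | v, [] => v
  | v, i :: l => endV p (p (v, i)).1 l

lemma endV_append (p : V × I → V × I) (v : V) (l l' : List I) :
    endV p v (l ++ l') = endV p (endV p v l) l' := by
  induction l generalizing v with
  | nil => rfl
  | cons i l ih => simp [endV, ih]

lemma SameView.word {p : V × I → V × I} {c : V → A} {p' : V' × I → V' × I} {c' : V' → A} :
    ∀ {r : ℕ} {v : V} {v' : V'} (l : List I), SameView p c p' c' (r + l.length) v v' →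
      SameView p c p' c' r (endV p v l) (endV p' v' l)
  | _, _, _, [], h => h
  | r, v, v', i :: l, h => by
      have h' : SameView p c p' c' (r + l.length + 1) v v' := h
      exact SameView.word l (h'.2 i).2

/-- nonbacktracking words; `f` is the forbidden first port -/
def nb (p : V × I → V × I) : V → Option I → List I → Prop
  | _, _, [] => True
  | v, f, i :: l => f ≠ some i ∧ nb p (p (v, i)).1 (some (p (v, i)).2) l

/-- no closed nonempty nonbacktracking word of length `≤ a` from `v` -/
def NoCl (a : ℕ) (p : V × I → V × I) (v : V) : Prop :=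
  ∀ l : List I, l ≠ [] → l.length ≤ a → nb p v none l → endV p v l ≠ v

lemma NoCl.mono {a b : ℕ} (hab : a ≤ b) {p : V × I → V × I} {v : V} (h : NoCl b p v) :
    NoCl a p v := fun l h1 h2 h3 => h l h1 (h2.trans hab) h3

lemma not_nb (p : V × I → V × I) : ∀ (v : V) (f : Option I) (l : List I), ¬ nb p v f l →
    (∃ i l2, f = some i ∧ l = i :: l2) ∨
      ∃ l1 i l2, l = l1 ++ i :: (p (endV p v l1, i)).2 :: l2
  | v, f, [], h => absurd trivial h
  | v, f, i :: l, h => by
      by_cases hf : f = some i
      · exact Or.inl ⟨i, l, hf, rfl⟩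
      · have h' : ¬ nb p (p (v, i)).1 (some (p (v, i)).2) l := fun h2 => h ⟨hf, h2⟩
        rcases not_nb p _ _ l h' with ⟨j, l2, hj, hl⟩ | ⟨l1, j, l2, hl⟩
        · refine Or.inr ⟨[], i, l2, ?_⟩
          have : (p (v, i)).2 = j := by simpa using hj
          simp [endV, this, hl]
        · refine Or.inr ⟨i :: l1, j, l2, ?_⟩
          simp only [List.cons_append, endV]
          rw [← hl]

lemma nb_congr {p : V × I → V × I} {c : V → A} {p' : V' × I → V' × I} {c' : V' → A} :
    ∀ {r : ℕ} {v : V} {v' : V'} (f : Option I) (l : List I), l.length ≤ r →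
      SameView p c p' c' r v v' → (nb p v f l ↔ nb p' v' f l)
  | _, _, _, _, [], _, _ => Iff.rfl
  | 0, _, _, _, _ :: _, h, _ => absurd h (by simp)
  | (r + 1), v, v', f, i :: l, h, hs => by
      have h1 := hs.2 i
      simp only [nb]
      rw [h1.1, nb_congr (some (p' (v', i)).2) l (by simpa using h) h1.2]

/-- for equal views and tree-like roots the same port words are closed -/
lemma closed_iff {p : V × I → V × I} {c : V → A} {p' : V' × I → V' × I} {c' : V' → A}
    (hp : ∀ x, p (p x) = x) (hp' : ∀ x, p' (p' x) = x) {r : ℕ} {v : V} {v' : V'}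
    (hs : SameView p c p' c' r v v') (hv : NoCl r p v) (hv' : NoCl r p' v') :
    ∀ (m : ℕ) (l : List I), l.length = m → m ≤ r → (endV p v l = v ↔ endV p' v' l = v') := by
  intro m
  induction m using Nat.strong_induction_on with
  | _ m ih =>
    intro l hl hm
    by_cases hn : nb p v none l
    · by_cases hnil : l = []
      · subst hnil; simp [endV]
      · have hn' : nb p' v' none l := (nb_congr none l (by omega) hs).1 hn
        constructor
        · intro h; exact absurd h (hv l hnil (by omega) hn)
        · intro h; exact absurd h (hv' l hnil (by omega) hn')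
    · rcases not_nb p v none l hn with ⟨i, l2, h1, _⟩ | ⟨l1, i, l2, hl2⟩
      · exact absurd h1 (by simp)
      · -- the arrival labels agree
        have hlen : l.length = l1.length + l2.length + 2 := by
          rw [hl2]; simp; omega
        have hsv : SameView p c p' c' (r - l1.length) (endV p v l1) (endV p' v' l1) := by
          apply SameView.word l1
          have : r - l1.length + l1.length = r := by omega
          rw [this]; exact hs
        have hlab : (p (endV p v l1, i)).2 = (p' (endV p' v' l1, i)).2 := by
          have h3 : r - l1.length = (r - l1.length - 1) + 1 := by omega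
          rw [h3] at hsv
          exact (hsv.2 i).1
        have e1 : endV p v l = endV p v (l1 ++ l2) := by
          rw [hl2, endV_append, endV_append]
          simp only [endV]
          have : p ((p (endV p v l1, i)).1, (p (endV p v l1, i)).2) = (endV p v l1, i) := by
            rw [Prod.mk.eta]; exact hp _
          rw [this]
        have e2 : endV p' v' l = endV p' v' (l1 ++ l2) := by
          rw [hl2, hlab, endV_append, endV_append]
          simp only [endV]
          have : p' ((p' (endV p' v' l1, i)).1, (p' (endV p' v' l1, i)).2)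
              = (endV p' v' l1, i) := by
            rw [Prod.mk.eta]; exact hp' _
          rw [this]
        rw [e1, e2]
        exact ih (l1 ++ l2).length (by simp; omega) _ rfl (by simp; omega)

end Views

/-! ### The matrix of a port map -/

section Mat
variable {V I A : Type} [Fintype V] [DecidableEq V] [Fintype I]

/-- adjacency matrix (with multiplicities) of a port map -/
noncomputable def adjP (p : V × I → V × I) : Matrix V V ℝ :=
  fun v w => ∑ i, if (p (v, i)).1 = w then 1 else 0

/-- `adjP p + s diag ω` -/
noncomputable def Hp (p : V × I → V × I) (s : ℝ) (ω : V → ℝ) : Matrix V V ℝ :=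
  adjP p + s • Matrix.diagonal ω

lemma adjP_mulVec (p : V × I → V × I) (f : V → ℝ) (v : V) :
    (adjP p).mulVec f v = ∑ i, f (p (v, i)).1 := by
  simp only [Matrix.mulVec, dotProduct, adjP, Finset.sum_mul]
  rw [Finset.sum_comm]
  refine Finset.sum_congr rfl fun i _ => ?_
  simp

lemma Hp_mulVec (p : V × I → V × I) (s : ℝ) (ω : V → ℝ) (f : V → ℝ) (v : V) :
    (Hp p s ω).mulVec f v = ∑ i, f (p (v, i)).1 + s * ω v * f v := by
  rw [Hp, Matrix.add_mulVec, Pi.add_apply, adjP_mulVec, Matrix.smul_mulVec, Pi.smul_apply,
    Matrix.mulVec_diagonal, smul_eq_mul]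
  ring

lemma adjP_symm [DecidableEq I] (p : V × I → V × I) (hp : ∀ x, p (p x) = x) (v w : V) :
    adjP p v w = adjP p w v := by
  -- count of half-edges from `v` to `w`
  have key : ∀ v w : V, adjP p v w
      = ∑ x : V × I, if x.1 = v ∧ (p x).1 = w then (1 : ℝ) else 0 := by
    intro v w
    rw [Fintype.sum_prod_type]
    simp only [adjP]
    rw [Finset.sum_eq_single v]
    · simp
    · intro b _ hb
      simp [hb]
    · intro h; exact absurd (Finset.mem_univ _) h
  rw [key v w, key w v]
  let e : V × I ≃ V × I := ⟨p, p, hp, hp⟩
  rw [← Equiv.sum_comp e]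
  refine Finset.sum_congr rfl fun x _ => ?_
  show (if (p x).1 = v ∧ (p (p x)).1 = w then (1 : ℝ) else 0) = _
  rw [hp]
  congr 1
  exact propext and_comm

lemma Hp_isHermitian [DecidableEq I] (p : V × I → V × I) (hp : ∀ x, p (p x) = x) (s : ℝ)
    (ω : V → ℝ) : (Hp p s ω).IsHermitian := by
  ext v w
  simp only [Hp, Matrix.conjTranspose_apply, Matrix.add_apply, Matrix.smul_apply, star_trivial]
  rw [adjP_symm p hp w v]
  by_cases h : v = w
  · subst h; rfl
  · rw [Matrix.diagonal_apply_ne _ h, Matrix.diagonal_apply_ne _ (Ne.symm h)]

variable {V' : Type} [Fintype V'] [DecidableEq V']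

/-- moments along words agree for equal views -/
lemma pow_word_eq {p : V × I → V × I} {c : V → A} {p' : V' × I → V' × I} {c' : V' → A}
    (hp : ∀ x, p (p x) = x) (hp' : ∀ x, p' (p' x) = x) (w : A → ℝ) (s : ℝ)
    {r : ℕ} {v : V} {v' : V'}
    (hs : SameView p c p' c' r v v') (hv : NoCl r p v) (hv' : NoCl r p' v') :
    ∀ (m : ℕ) (l : List I), l.length + m ≤ r →
      ((Hp p s (w ∘ c)) ^ m).mulVec (Pi.single v 1) (endV p v l) =
        ((Hp p' s (w ∘ c')) ^ m).mulVec (Pi.single v' 1) (endV p' v' l) := by
  intro m
  induction m with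
  | zero =>
    intro l hl
    have h := closed_iff hp hp' hs hv hv' l.length l rfl (by omega)
    simp only [pow_zero, Matrix.one_mulVec, Pi.single_apply]
    by_cases h1 : endV p v l = v
    · rw [if_pos h1, if_pos (h.1 h1)]
    · rw [if_neg h1, if_neg (fun h2 => h1 (h.2 h2))]
  | succ m ih =>
    intro l hl
    rw [pow_succ', pow_succ', ← Matrix.mulVec_mulVec, ← Matrix.mulVec_mulVec, Hp_mulVec,
      Hp_mulVec]
    have hsv : SameView p c p' c' (r - l.length) (endV p v l) (endV p' v' l) := by
      apply SameView.word l
      have : r - l.length + l.length = r := by omega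
      rw [this]; exact hs
    have hroot : c (endV p v l) = c' (endV p' v' l) := hsv.root
    congr 1
    · refine Finset.sum_congr rfl fun i _ => ?_
      have := ih (l ++ [i]) (by simp; omega)
      simpa [endV_append, endV] using this
    · rw [ih l (by omega)]
      simp only [Function.comp, hroot]

/-- equal views and tree-like roots have the same local moments -/
lemma pow_apply_eq {p : V × I → V × I} {c : V → A} {p' : V' × I → V' × I} {c' : V' → A}
    (hp : ∀ x, p (p x) = x) (hp' : ∀ x, p' (p' x) = x) (w : A → ℝ) (s : ℝ)
    {r : ℕ} {v : V} {v' : V'}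
    (hs : viewOf p c r v = viewOf p' c' r v') (hv : NoCl r p v) (hv' : NoCl r p' v')
    (m : ℕ) (hm : m ≤ r) :
    ((Hp p s (w ∘ c)) ^ m) v v = ((Hp p' s (w ∘ c')) ^ m) v' v' := by
  have h := pow_word_eq hp hp' w s ((sameView_iff p c p' c' r v v').2 hs) hv hv' m []
    (by simpa using hm)
  simpa [endV, Matrix.mulVec_single_one] using h

end Mat

end Crest.Agent.R166.Upp724
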