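import Mathlib
import Crest.Agent.R166.UppView_724

/-!
# R166, 40.7 (U), part 2: the type class of a sample (helper724)

* `exists_perm_of_cnt`: equal star counts give a bijection of the vertices;
* `consist`: star consistency: the colours of a member of the class are the true views;
* `trace_close`: normalised traces of polynomials agree up to the non-tree-like vertices;
* `Qs`, `quad_eq`, `quad_close`: the star-local quadratic form.
-/

set_option autoImplicit false
set_option linter.unusedSectionVars false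
set_option linter.unusedSimpArgs false

namespace Crest.Agent.R166.Upp724

open Finset

/-- number of `v` with `f v = t` -/
noncomputable def cnt {V T : Type} [Fintype V] (f : V → T) (t : T) : ℕ := by
  classical exact (univ.filter fun v => f v = t).card

lemma exists_perm_of_cnt {V T : Type} [Fintype V] (f g : V → T) (h : ∀ t, cnt f t = cnt g t) :
    ∃ σ : Equiv.Perm V, ∀ v, f v = g (σ v) := by
  classical
  have hc : ∀ t, Nonempty ({a // f a = t} ≃ {b // g b = t}) := by
    intro t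
    apply Fintype.card_eq.1
    have := h t
    unfold cnt at this
    rw [Fintype.card_subtype, Fintype.card_subtype]
    convert this using 2
  let e : ∀ t, ({a // f a = t} ≃ {b // g b = t}) := fun t => (hc t).some
  exact ⟨Equiv.ofFiberEquiv e, fun v => (Equiv.ofFiberEquiv_map e v).symm⟩

section Consist
variable {V I A B : Type}

/-- star consistency -/
theorem consist_sv {p p0 : V × I → V × I} {o : V → A} {y : V → B} {a : ℕ}
    {c : V → View A I a × B} {σ : V → V}
    (hσ : ∀ v, starOf p c v = starOf p0 (fun v => (viewOf p0 o a v, y v)) (σ v)) :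
    ∀ r, r ≤ a → ∀ v, SameView p (o ∘ σ) p0 o r v (σ v) := by
  have hc : ∀ v, c v = (viewOf p0 o a (σ v), y (σ v)) := fun v => congrArg Prod.fst (hσ v)
  have hn : ∀ v i, (p (v, i)).2 = (p0 (σ v, i)).2 ∧
      c (p (v, i)).1 = (viewOf p0 o a (p0 (σ v, i)).1, y (p0 (σ v, i)).1) := by
    intro v i
    have h := congrFun (congrArg Prod.snd (hσ v)) i
    exact ⟨congrArg Prod.fst h, congrArg Prod.snd h⟩
  intro r
  induction r with
  | zero => intro _ v; exact rfl
  | succ r ih =>
    intro hr v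
    refine ⟨rfl, fun i => ⟨(hn v i).1, ?_⟩⟩
    have h1 := ih (by omega) (p (v, i)).1
    have h2 : viewOf p0 o a (σ (p (v, i)).1) = viewOf p0 o a (p0 (σ v, i)).1 := by
      have e1 := hc (p (v, i)).1
      have e2 := (hn v i).2
      rw [e1] at e2
      exact congrArg Prod.fst e2
    have h3 : SameView p0 o p0 o r (σ (p (v, i)).1) (p0 (σ v, i)).1 :=
      ((sameView_iff p0 o p0 o a _ _).2 h2).mono (by omega)
    rw [sameView_iff] at h1 h3 ⊢
    exact h1.trans h3

theorem consist {p p0 : V × I → V × I} {o : V → A} {y : V → B} {a : ℕ}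
    {c : V → View A I a × B} {σ : V → V}
    (hσ : ∀ v, starOf p c v = starOf p0 (fun v => (viewOf p0 o a v, y v)) (σ v)) (v : V) :
    c v = (viewOf p (o ∘ σ) a v, y (σ v)) := by
  have hc : c v = (viewOf p0 o a (σ v), y (σ v)) := congrArg Prod.fst (hσ v)
  rw [hc, (sameView_iff _ _ _ _ a v (σ v)).1 (consist_sv hσ a le_rfl v)]

theorem consist_nbr {p p0 : V × I → V × I} {o : V → A} {y : V → B} {a : ℕ}
    {c : V → View A I a × B} {σ : V → V}
    (hσ : ∀ v, starOf p c v = starOf p0 (fun v => (viewOf p0 o a v, y v)) (σ v)) (v : V) (i : I) :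
    (p (v, i)).2 = (p0 (σ v, i)).2 ∧ o (σ (p (v, i)).1) = o (p0 (σ v, i)).1 ∧
      y (σ (p (v, i)).1) = y (p0 (σ v, i)).1 := by
  have h := congrFun (congrArg Prod.snd (hσ v)) i
  have h1 : (p (v, i)).2 = (p0 (σ v, i)).2 := congrArg Prod.fst h
  have h2 : c (p (v, i)).1 = (viewOf p0 o a (p0 (σ v, i)).1, y (p0 (σ v, i)).1) :=
    congrArg Prod.snd h
  have h3 : c (p (v, i)).1 = (viewOf p0 o a (σ (p (v, i)).1), y (σ (p (v, i)).1)) :=
    congrArg Prod.fst (hσ (p (v, i)).1)
  rw [h3] at h2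
  refine ⟨h1, ?_, congrArg Prod.snd h2⟩
  have h4 := congrArg (vroot a) (congrArg Prod.fst h2)
  simpa using h4

end Consist

/-! ### Traces of polynomials -/

section Trace
variable {V I A : Type} [Fintype V] [DecidableEq V] [Fintype I]

lemma adjP_nonneg (p : V × I → V × I) (v w : V) : 0 ≤ adjP p v w :=
  Finset.sum_nonneg fun i _ => by split_ifs <;> norm_num

lemma adjP_row (p : V × I → V × I) (v : V) : ∑ w, adjP p v w = Fintype.card I := by
  simp only [adjP]
  rw [Finset.sum_comm]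
  simp

lemma Hp_row (p : V × I → V × I) (s : ℝ) (ω : V → ℝ) (W : ℝ) (hW : ∀ v, |ω v| ≤ W) (v : V) :
    ∑ w, |Hp p s ω v w| ≤ Fintype.card I + |s| * W := by
  have h1 : ∀ w, |Hp p s ω v w| ≤ adjP p v w + |s| * (if v = w then |ω v| else 0) := by
    intro w
    rw [Hp, Matrix.add_apply, Matrix.smul_apply, smul_eq_mul, Matrix.diagonal_apply]
    refine (abs_add_le _ _).trans ?_
    rw [abs_of_nonneg (adjP_nonneg p v w), abs_mul]
    split_ifs <;> simp
  refine (Finset.sum_le_sum fun w _ => h1 w).trans ?_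
  rw [Finset.sum_add_distrib, adjP_row, ← Finset.mul_sum]
  simp only [Finset.sum_ite_eq, Finset.mem_univ, if_true]
  gcongr
  exact hW v

lemma pow_row (H : Matrix V V ℝ) (C : ℝ) (hC : ∀ v, ∑ w, |H v w| ≤ C) (hC0 : 0 ≤ C) (m : ℕ)
    (v : V) : ∑ w, |(H ^ m) v w| ≤ C ^ m := by
  induction m generalizing v with
  | zero =>
    simp only [pow_zero, Matrix.one_apply]
    rw [Finset.sum_eq_single v]
    · simp
    · intro b _ hb; simp [Ne.symm hb]
    · intro h; exact absurd (Finset.mem_univ _) h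
  | succ m ih =>
    rw [pow_succ']
    calc ∑ w, |(H * H ^ m) v w| ≤ ∑ w, ∑ u, |H v u| * |(H ^ m) u w| := by
          refine Finset.sum_le_sum fun w _ => ?_
          rw [Matrix.mul_apply]
          refine (Finset.abs_sum_le_sum_abs _ _).trans ?_
          exact Finset.sum_le_sum fun u _ => (abs_mul _ _).le
      _ = ∑ u, |H v u| * ∑ w, |(H ^ m) u w| := by
          rw [Finset.sum_comm]
          exact Finset.sum_congr rfl fun u _ => (Finset.mul_sum _ _ _).symm
      _ ≤ ∑ u, |H v u| * C ^ m := by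
          refine Finset.sum_le_sum fun u _ => ?_
          exact mul_le_mul_of_nonneg_left (ih u) (abs_nonneg _)
      _ = (∑ u, |H v u|) * C ^ m := (Finset.sum_mul _ _ _).symm
      _ ≤ C * C ^ m := by
          exact mul_le_mul_of_nonneg_right (hC v) (pow_nonneg hC0 m)
      _ = C ^ m * C := by ring
      _ = C ^ (m + 1) := (pow_succ C m).symm

/-- sum of the absolute values of the coefficients times powers of `C` -/
noncomputable def polyBd (P : Polynomial ℝ) (C : ℝ) : ℝ :=
  ∑ j ∈ Finset.range (P.natDegree + 1), |P.coeff j| * C ^ j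

lemma polyBd_nonneg (P : Polynomial ℝ) {C : ℝ} (hC : 0 ≤ C) : 0 ≤ polyBd P C :=
  Finset.sum_nonneg fun j _ => mul_nonneg (abs_nonneg _) (pow_nonneg hC j)

lemma aeval_entry (H : Matrix V V ℝ) (P : Polynomial ℝ) (v w : V) :
    (Polynomial.aeval H P) v w = ∑ j ∈ Finset.range (P.natDegree + 1), P.coeff j * (H ^ j) v w := by
  rw [Polynomial.aeval_eq_sum_range, Matrix.sum_apply]
  rfl

lemma aeval_diag_le (H : Matrix V V ℝ) (C : ℝ) (hC : ∀ v, ∑ w, |H v w| ≤ C) (hC0 : 0 ≤ C)
    (P : Polynomial ℝ) (v : V) : |(Polynomial.aeval H P) v v| ≤ polyBd P C := by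
  rw [aeval_entry]
  refine (Finset.abs_sum_le_sum_abs _ _).trans (Finset.sum_le_sum fun j _ => ?_)
  rw [abs_mul]
  refine mul_le_mul_of_nonneg_left ?_ (abs_nonneg _)
  refine le_trans ?_ (pow_row H C hC hC0 j v)
  exact Finset.single_le_sum (f := fun w => |(H ^ j) v w|) (fun w _ => abs_nonneg _)
    (Finset.mem_univ v)

/-- the number of vertices which are not tree-like at radius `a` -/
noncomputable def nBad (a : ℕ) (p : V × I → V × I) : ℕ := by
  classical exact (univ.filter fun v => ¬ NoCl a p v).card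

/-- the polynomials have the same trace up to the non-tree-like vertices -/
theorem trace_close {p p0 : V × I → V × I} (hp : ∀ x, p (p x) = x) (hp0 : ∀ x, p0 (p0 x) = x)
    {o : V → A} {a : ℕ} {σ : Equiv.Perm V}
    (hσ : ∀ v, SameView p (o ∘ σ) p0 o a v (σ v)) (w : A → ℝ) (W : ℝ) (hW : ∀ x, |w x| ≤ W)
    (hW0 : 0 ≤ W) (s : ℝ) (P : Polynomial ℝ) (hP : P.natDegree ≤ a) :
    |(Polynomial.aeval (Hp p s (w ∘ (o ∘ σ))) P).trace -
        (Polynomial.aeval (Hp p0 s (w ∘ o)) P).trace| ≤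
      2 * polyBd P (Fintype.card I + |s| * W) * (nBad a p + nBad a p0) := by
  classical
  set C : ℝ := Fintype.card I + |s| * W with hCdef
  have hC0 : 0 ≤ C := by positivity
  set H := Hp p s (w ∘ (o ∘ σ)) with hH
  set H0 := Hp p0 s (w ∘ o) with hH0
  have hr : ∀ v, ∑ x, |H v x| ≤ C := Hp_row p s _ W (fun v => hW _)
  have hr0 : ∀ v, ∑ x, |H0 v x| ≤ C := Hp_row p0 s _ W (fun v => hW _)
  have htr : (Polynomial.aeval H0 P).trace = ∑ v, (Polynomial.aeval H0 P) (σ v) (σ v) := by
    rw [Matrix.trace]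
    exact (Equiv.sum_comp σ fun v => (Polynomial.aeval H0 P) v v).symm
  have hgood : ∀ v, NoCl a p v → NoCl a p0 (σ v) →
      (Polynomial.aeval H P) v v = (Polynomial.aeval H0 P) (σ v) (σ v) := by
    intro v h1 h2
    rw [aeval_entry, aeval_entry]
    refine Finset.sum_congr rfl fun j hj => ?_
    rw [Finset.mem_range] at hj
    congr 1
    exact pow_apply_eq hp hp0 w s ((sameView_iff _ _ _ _ a v (σ v)).1 (hσ v)) h1 h2 j (by omega)
  rw [htr, Matrix.trace, ← Finset.sum_sub_distrib]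
  refine (Finset.abs_sum_le_sum_abs _ _).trans ?_
  have hbd : ∀ v ∈ (univ : Finset V), |(Polynomial.aeval H P).diag v -
      (Polynomial.aeval H0 P) (σ v) (σ v)| ≤
      2 * polyBd P C * ((if ¬ NoCl a p v then 1 else 0) + (if ¬ NoCl a p0 (σ v) then 1 else 0)) := by
    intro v _
    rw [Matrix.diag_apply]
    have hb := polyBd_nonneg P hC0
    by_cases h1 : NoCl a p v
    · by_cases h2 : NoCl a p0 (σ v)
      · rw [hgood v h1 h2]; simp [h1, h2]
      · have e1 := aeval_diag_le H C hr hC0 P v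
        have e2 := aeval_diag_le H0 C hr0 hC0 P (σ v)
        have := abs_sub (Polynomial.aeval H P v v) (Polynomial.aeval H0 P (σ v) (σ v))
        simp only [h1, h2, not_true_eq_false, if_false, not_false_eq_true, if_true]
        linarith
    · have e1 := aeval_diag_le H C hr hC0 P v
      have e2 := aeval_diag_le H0 C hr0 hC0 P (σ v)
      have := abs_sub (Polynomial.aeval H P v v) (Polynomial.aeval H0 P (σ v) (σ v))
      simp only [h1, not_false_eq_true, if_true]
      have h3 : (0 : ℝ) ≤ (if ¬ NoCl a p0 (σ v) then 1 else 0) := by split_ifs <;> norm_num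
      nlinarith
  refine (Finset.sum_le_sum hbd).trans (le_of_eq ?_)
  rw [← Finset.mul_sum, Finset.sum_add_distrib]
  congr 2
  · rw [nBad, Finset.sum_boole]
  · rw [nBad, Equiv.sum_comp σ (fun v => (if ¬ NoCl a p0 v then (1 : ℝ) else 0)),
      Finset.sum_boole]

end Trace

/-! ### The star-local quadratic form -/

section Quad
variable {V I : Type} [Fintype V] [DecidableEq V] [Fintype I]

/-- the local quadratic form `∑_κ ((∑_i y(nbr_i) - (E - s ω) y)² + η² y²)` at `v` -/
noncomputable def Qs (k : ℕ) (p : V × I → V × I) (s E η : ℝ) (ω : V → ℝ) (x : V → Fin k → ℝ)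
    (v : V) : ℝ :=
  ∑ κ, ((∑ i, x (p (v, i)).1 κ - (E - s * ω v) * x v κ) ^ 2 + η ^ 2 * (x v κ) ^ 2)

lemma Qs_nonneg (k : ℕ) (p : V × I → V × I) (s E η : ℝ) (ω : V → ℝ) (x : V → Fin k → ℝ)
    (v : V) : 0 ≤ Qs k p s E η ω x v :=
  Finset.sum_nonneg fun κ _ => by positivity

lemma sum_Qs (k : ℕ) (p : V × I → V × I) (s E η : ℝ) (ω : V → ℝ) (x : V → Fin k → ℝ) :
    ∑ v, Qs k p s E η ω x v = ∑ κ, ∑ v, (((Hp p s ω).mulVec (fun v => x v κ) v - E * x v κ) ^ 2 +
      η ^ 2 * (x v κ) ^ 2) := by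
  simp only [Qs]
  rw [Finset.sum_comm]
  refine Finset.sum_congr rfl fun κ _ => Finset.sum_congr rfl fun v _ => ?_
  rw [Hp_mulVec]
  ring

/-- comparison of the quadratic forms at mesh `D` (no sup bound needed) -/
lemma Qs_close (k : ℕ) (p : V × I → V × I) (s E η : ℝ) (ω : V → ℝ) (W : ℝ)
    (hW : ∀ v, |ω v| ≤ W) (D : ℝ) (hD : 0 < D) (x y : V → Fin k → ℝ)
    (hxy : ∀ v κ, |x v κ - y v κ| ≤ D) (v : V) :
    Qs k p s E η ω x v ≤ (1 + D) * Qs k p s E η ω y v +
      k * (D * (1 + D) * ((Fintype.card I + |E| + |s| * W) ^ 2 + η ^ 2)) := by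
  have hsq : ∀ a b : ℝ, a ^ 2 ≤ (1 + D) * b ^ 2 + (1 + 1 / D) * (a - b) ^ 2 := by
    intro a b
    have h1 : (1 + D) * b ^ 2 + (1 + 1 / D) * (a - b) ^ 2 - a ^ 2 =
        (D * b - (a - b)) ^ 2 / D := by
      field_simp
      ring
    have h2 : 0 ≤ (D * b - (a - b)) ^ 2 / D := by positivity
    linarith
  have hterm : ∀ κ : Fin k, (∑ i, x (p (v, i)).1 κ - (E - s * ω v) * x v κ) ^ 2 +
      η ^ 2 * (x v κ) ^ 2 ≤ (1 + D) * ((∑ i, y (p (v, i)).1 κ - (E - s * ω v) * y v κ) ^ 2 +
      η ^ 2 * (y v κ) ^ 2) + D * (1 + D) * ((Fintype.card I + |E| + |s| * W) ^ 2 + η ^ 2) := by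
    intro κ
    set U : ℝ := Fintype.card I + |E| + |s| * W with hU
    have hW0 : 0 ≤ W := (abs_nonneg _).trans (hW v)
    have hU0 : 0 ≤ U := by positivity
    set X := ∑ i, x (p (v, i)).1 κ - (E - s * ω v) * x v κ with hX
    set Y := ∑ i, y (p (v, i)).1 κ - (E - s * ω v) * y v κ with hY
    have bXY : |X - Y| ≤ U * D := by
      have e : X - Y = ∑ i, (x (p (v, i)).1 κ - y (p (v, i)).1 κ) -
          (E - s * ω v) * (x v κ - y v κ) := by
        rw [hX, hY, Finset.sum_sub_distrib]; ring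
      rw [e]
      refine (abs_sub _ _).trans ?_
      have h1 : |∑ i, (x (p (v, i)).1 κ - y (p (v, i)).1 κ)| ≤ Fintype.card I * D := by
        refine (Finset.abs_sum_le_sum_abs _ _).trans ?_
        refine (Finset.sum_le_sum fun i _ => hxy _ κ).trans ?_
        simp
      have h2 : |(E - s * ω v) * (x v κ - y v κ)| ≤ (|E| + |s| * W) * D := by
        rw [abs_mul]
        refine mul_le_mul ?_ (hxy v κ) (abs_nonneg _) (by positivity)
        refine (abs_sub _ _).trans ?_
        rw [abs_mul]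
        gcongr
        exact hW v
      rw [hU]
      linarith
    have h1 : (X - Y) ^ 2 ≤ (U * D) ^ 2 := by
      rw [← sq_abs (X - Y)]
      exact pow_le_pow_left₀ (abs_nonneg _) bXY 2
    have h2 : (x v κ - y v κ) ^ 2 ≤ D ^ 2 := by
      rw [← sq_abs (x v κ - y v κ)]
      exact pow_le_pow_left₀ (abs_nonneg _) (hxy v κ) 2
    have h3 := hsq X Y
    have h4 := hsq (x v κ) (y v κ)
    have h5 : (1 + 1 / D) * (X - Y) ^ 2 ≤ (1 + 1 / D) * (U * D) ^ 2 :=
      mul_le_mul_of_nonneg_left h1 (by positivity)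
    have h6 : (1 + 1 / D) * (x v κ - y v κ) ^ 2 ≤ (1 + 1 / D) * D ^ 2 :=
      mul_le_mul_of_nonneg_left h2 (by positivity)
    have h7 : η ^ 2 * (x v κ) ^ 2 ≤ η ^ 2 * ((1 + D) * (y v κ) ^ 2 + (1 + 1 / D) * D ^ 2) :=
      mul_le_mul_of_nonneg_left (by linarith) (by positivity)
    have e1 : (1 + 1 / D) * (U * D) ^ 2 + η ^ 2 * ((1 + 1 / D) * D ^ 2) =
        D * (1 + D) * (U ^ 2 + η ^ 2) := by
      field_simp
      ring
    nlinarith
  unfold Qs
  refine (Finset.sum_le_sum fun κ _ => hterm κ).trans (le_of_eq ?_)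
  rw [Finset.sum_add_distrib, ← Finset.mul_sum]
  simp

end Quad

end Crest.Agent.R166.Upp724
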