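import Mathlib
import Crest.Agent.R166.UppClass_724
import Crest.Agent.R166.TreeLike2_942

/-!
# R166, 40.7 (U), part 3: cells, transfer of the quadratic form, `NoCl` from `TreeAt` (helper724)
-/

set_option autoImplicit false
set_option linter.unusedSectionVars false
set_option linter.unusedSimpArgs false

namespace Crest.Agent.R166.Upp724

open Finset MeasureTheory

/-! ### Counting cells by volume -/

/-- lower end point of the `i`-th cell -/
noncomputable def lo (L D : ℝ) {M : ℕ} (i : Fin M) : ℝ := -L + D * (i : ℕ)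

lemma lo_abs {L D : ℝ} (hD : 0 < D) {M : ℕ} (hM : D * M ≤ 2 * L) (i : Fin M) :
    |lo L D i| ≤ L := by
  have h1 : ((i : ℕ) : ℝ) + 1 ≤ M := by exact_mod_cast i.2
  have h2 : (0 : ℝ) ≤ ((i : ℕ) : ℝ) := by positivity
  rw [abs_le, lo]
  constructor
  · nlinarith
  · nlinarith

lemma cell_abs {L D : ℝ} (hD : 0 < D) {M : ℕ} (hM : D * M ≤ 2 * L) (i : Fin M) {x : ℝ}
    (hx : x ∈ Set.Ico (lo L D i) (lo L D i + D)) : |x| ≤ L ∧ |x - lo L D i| ≤ D := by
  have h1 : ((i : ℕ) : ℝ) + 1 ≤ M := by exact_mod_cast i.2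
  have h2 : (0 : ℝ) ≤ ((i : ℕ) : ℝ) := by positivity
  obtain ⟨hx1, hx2⟩ := hx
  unfold lo at *
  refine ⟨abs_le.2 ⟨?_, ?_⟩, abs_le.2 ⟨?_, ?_⟩⟩
  · nlinarith
  · nlinarith
  · linarith
  · linarith

lemma cell_abs' {L D : ℝ} (hD : 0 < D) {M : ℕ} (i : Fin M) {x : ℝ}
    (hx : x ∈ Set.Ico (lo L D i) (lo L D i + D)) : |x - lo L D i| ≤ D := by
  obtain ⟨hx1, hx2⟩ := hx
  exact abs_le.2 ⟨by linarith, by linarith⟩

/-- the box with cell indices `y` -/
def box (L D : ℝ) {J : Type} {M : ℕ} (y : J → Fin M) : Set (J → ℝ) :=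
  Set.pi Set.univ fun j => Set.Ico (lo L D (y j)) (lo L D (y j) + D)

lemma box_disjoint {L D : ℝ} (hD : 0 < D) {J : Type} {M : ℕ} {y y' : J → Fin M} (h : y ≠ y') :
    Disjoint (box L D y) (box L D y') := by
  rw [Set.disjoint_left]
  intro x hx hx'
  apply h
  funext j
  have h1 := hx j (Set.mem_univ j)
  have h2 := hx' j (Set.mem_univ j)
  simp only [lo, Set.mem_Ico] at h1 h2
  have a1 : ((y j : ℕ) : ℝ) < (y' j : ℕ) + 1 := by
    by_contra hc
    push Not at hc
    nlinarith
  have a2 : ((y' j : ℕ) : ℝ) < (y j : ℕ) + 1 := by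
    by_contra hc
    push Not at hc
    nlinarith
  have b1 : (y j : ℕ) < (y' j : ℕ) + 1 := by exact_mod_cast a1
  have b2 : (y' j : ℕ) < (y j : ℕ) + 1 := by exact_mod_cast a2
  exact Fin.ext (by omega)

lemma box_measurable {L D : ℝ} {J : Type} [Countable J] {M : ℕ} (y : J → Fin M) :
    MeasurableSet (box L D y) :=
  MeasurableSet.univ_pi fun _ => measurableSet_Ico

lemma volume_box {L D : ℝ} {J : Type} [Fintype J] {M : ℕ} (y : J → Fin M) :
    volume (box L D y) = ENNReal.ofReal D ^ Fintype.card J := by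
  rw [box, Real.volume_pi_Ico]
  simp [Finset.prod_const]

/-- number of cells contained in a set, by volume -/
lemma card_cells_le {L D : ℝ} (hD : 0 < D) {J : Type} [Fintype J] {M : ℕ}
    (S : Finset (J → Fin M)) (A : Set (J → ℝ)) (hA : ∀ y ∈ S, box L D y ⊆ A) :
    (S.card : ENNReal) * ENNReal.ofReal D ^ Fintype.card J ≤ volume A := by
  calc (S.card : ENNReal) * ENNReal.ofReal D ^ Fintype.card J
      = ∑ y ∈ S, volume (box L D y) := by
        rw [Finset.sum_congr rfl fun y _ => volume_box y]; simp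
    _ = volume (⋃ y ∈ S, box L D y) := by
        rw [measure_biUnion_finset]
        · intro y _ y' _ h
          exact box_disjoint hD h
        · intro y _
          exact box_measurable y
    _ ≤ volume A := measure_mono (Set.iUnion₂_subset hA)

/-! ### Transfer of the quadratic form -/

section
variable {V I A : Type} [Fintype V] [DecidableEq V] [Fintype I]

lemma Qs_transfer {k M : ℕ} {p p0 : V × I → V × I} {o : V → A} {y : V → Fin k → Fin M} {a : ℕ}
    {c : V → View A I a × (Fin k → Fin M)} {σ : V → V}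
    (hσ : ∀ v, starOf p c v = starOf p0 (fun v => (viewOf p0 o a v, y v)) (σ v))
    (w : A → ℝ) (r : Fin M → ℝ) (s E η : ℝ) (v : V) :
    Qs k p s E η (w ∘ (o ∘ σ)) (fun v κ => r (y (σ v) κ)) v =
      Qs k p0 s E η (w ∘ o) (fun v κ => r (y v κ)) (σ v) := by
  unfold Qs
  refine Finset.sum_congr rfl fun κ _ => ?_
  have h : ∀ i, y (σ (p (v, i)).1) = y (p0 (σ v, i)).1 := fun i => (consist_nbr hσ v i).2.2
  simp only [h, Function.comp]

lemma sum_Qs_transfer {k M : ℕ} {p p0 : V × I → V × I} {o : V → A} {y : V → Fin k → Fin M}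
    {a : ℕ} {c : V → View A I a × (Fin k → Fin M)} {σ : Equiv.Perm V}
    (hσ : ∀ v, starOf p c v = starOf p0 (fun v => (viewOf p0 o a v, y v)) (σ v))
    (w : A → ℝ) (r : Fin M → ℝ) (s E η : ℝ) :
    ∑ v, Qs k p s E η (w ∘ (o ∘ σ)) (fun v κ => r (y (σ v) κ)) v =
      ∑ v, Qs k p0 s E η (w ∘ o) (fun v κ => r (y v κ)) v := by
  rw [Finset.sum_congr rfl fun v _ => Qs_transfer hσ w r s E η v]
  exact Equiv.sum_comp σ fun v => Qs k p0 s E η (w ∘ o) (fun v κ => r (y v κ)) v

end

/-! ### `NoCl` from `TreeAt` -/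

section
variable {V I : Type}

/-- half-edges of a port word -/
def hs (p : V × I → V × I) : V → List I → List (V × I)
  | _, [] => []
  | v, i :: l => (v, i) :: hs p (p (v, i)).1 l

lemma hs_length (p : V × I → V × I) : ∀ (v : V) (l : List I), (hs p v l).length = l.length
  | _, [] => rfl
  | v, i :: l => by simp [hs, hs_length p _ l]

lemma hs_walk (p : V × I → V × I) : ∀ (v : V) (l : List I),
    TreeLike942.IsWalk Prod.fst p v (hs p v l) (endV p v l)
  | _, [] => rfl
  | v, i :: l => ⟨rfl, hs_walk p _ l⟩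

lemma hs_reduced (p : V × I → V × I) : ∀ (v : V) (f : Option I) (l : List I), nb p v f l →
    TreeLike942.Reduced p (hs p v l)
  | _, _, [], _ => by simp [hs, TreeLike942.Reduced]
  | v, f, [i], _ => by simp [hs, TreeLike942.Reduced]
  | v, f, i :: j :: l, h => by
      have h2 : nb p (p (v, i)).1 (some (p (v, i)).2) (j :: l) := h.2
      have ih := hs_reduced p _ _ (j :: l) h2
      unfold TreeLike942.Reduced at ih ⊢
      simp only [hs] at ih ⊢
      rw [List.isChain_cons_cons]
      refine ⟨?_, ih⟩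
      intro hc
      have : j = (p (v, i)).2 := congrArg Prod.snd hc
      exact h2.1 (by rw [this])

lemma noCl_of_treeAt {p : V × I → V × I} {a : ℕ} {v : V}
    (h : TreeLike942.TreeAt Prod.fst p a v) : NoCl a p v := by
  intro l hne hl hnb hcl
  have h1 := hs_walk p v l
  rw [hcl] at h1
  have h2 := h (hs p v l) [] v h1 rfl (hs_reduced p v none l hnb)
    (by simp [TreeLike942.Reduced]) (by rw [hs_length]; exact hl) (by simp)
  apply hne
  have := hs_length p v l
  rw [h2] at this
  exact List.length_eq_zero_iff.1 this.symm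

lemma nBad_le [Fintype V] [DecidableEq V] (a : ℕ) (p : V × I → V × I) :
    nBad a p ≤ Nat.card {v : V // ¬ TreeLike942.TreeAt Prod.fst p a v} := by
  classical
  rw [nBad, Nat.card_eq_fintype_card, Fintype.card_subtype]
  refine Finset.card_le_card fun v hv => ?_
  simp only [Finset.mem_filter, Finset.mem_univ, true_and] at hv ⊢
  exact fun h => hv (noCl_of_treeAt h)

end

end Crest.Agent.R166.Upp724
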