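import Crest.Agent.R166.View2_47
import Crest.Agent.R166.UppCell_724

/-!
Row 166, section 40.10 (helper47): the level-`m` quantisation.

* `cell L D M x` : index of the cell `[-L + D i, -L + D (i+1))`, `i < M`, clipped;
* values: `L = 2^m`, `D = 8^-m`, `M = 2 * 16^m` (so `L * D → 0`);
* potential: `L = 1`, `D = 2 / 2^m`, `M = 2^m`;
* `RefQ` : refining sequences of quantisers.
-/

set_option autoImplicit false

namespace Crest.Agent.R166.Lev47

open MeasureTheory Filter Topology Crest.Agent.R166.Words955 Crest.Agent.R166.Upp724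
  Crest.Agent.R166.EntTree397 Crest.Agent.R166.Ent397 Crest.Agent.R166.Lim47
  Crest.Agent.R166.View47

/-- index of the cell of `x` -/
noncomputable def cell (L D : ℝ) (M : ℕ) [NeZero M] (x : ℝ) : Fin M :=
  ⟨min (M - 1) ⌊(x + L) / D⌋₊, by have := NeZero.pos M; omega⟩

theorem measurable_cell (L D : ℝ) (M : ℕ) [NeZero M] : Measurable (cell L D M) := by
  have h1 : Measurable fun x : ℝ => min (M - 1) ⌊(x + L) / D⌋₊ :=
    measurable_const.min (Nat.measurable_floor.comp ((measurable_id.add_const L).div_const D))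
  have h2 : cell L D M = (fun j : ℕ => (Fin.ofNat M j)) ∘ fun x : ℝ => min (M - 1) ⌊(x + L) / D⌋₊ := by
    funext x
    apply Fin.ext
    simp only [cell, Function.comp, Fin.ofNat]
    rw [Nat.mod_eq_of_lt]
    have := NeZero.pos M; omega
  rw [h2]
  exact measurable_from_top.comp h1

theorem FM_cell (L D : ℝ) (M : ℕ) [NeZero M] : FM (cell L D M) := fun b =>
  measurable_cell L D M (measurableSet_singleton b)

/-- the lower end point of the cell of `x` is `D`-close to `x` -/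
theorem abs_lo_sub {L D : ℝ} (hD : 0 < D) {M : ℕ} [NeZero M] {x : ℝ} (h1 : -L ≤ x)
    (h2 : x ≤ -L + D * M) : |lo L D (cell L D M x) - x| ≤ D := by
  have hM : 1 ≤ M := NeZero.pos M
  have hu : 0 ≤ (x + L) / D := div_nonneg (by linarith) hD.le
  have hf1 : (⌊(x + L) / D⌋₊ : ℝ) ≤ (x + L) / D := Nat.floor_le hu
  have hf2 : (x + L) / D < ⌊(x + L) / D⌋₊ + 1 := Nat.lt_floor_add_one _
  rw [le_div_iff₀ hD] at hf1
  rw [div_lt_iff₀ hD] at hf2
  unfold lo cell
  simp only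
  rcases le_or_gt ⌊(x + L) / D⌋₊ (M - 1) with h | h
  · rw [min_eq_right h, abs_le]
    constructor <;> nlinarith
  · rw [min_eq_left h.le, abs_le, Nat.cast_sub hM]
    have h3 : (M : ℝ) ≤ ⌊(x + L) / D⌋₊ := by exact_mod_cast (by omega : M ≤ ⌊(x + L) / D⌋₊)
    push_cast
    constructor <;> nlinarith

/-- the representative is not much larger than the value -/
theorem abs_lo_cell_le {L D : ℝ} (hD : 0 < D) (hL : 0 ≤ L) {M : ℕ} [NeZero M]
    (hM : D * M = 2 * L) (x : ℝ) : |lo L D (cell L D M x)| ≤ |x| + D := by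
  have hM1 : 1 ≤ M := NeZero.pos M
  rcases lt_or_ge x (-L) with h | h
  · have h0 : ⌊(x + L) / D⌋₊ = 0 := Nat.floor_of_nonpos (div_nonpos_of_nonpos_of_nonneg (by linarith)
      hD.le)
    have h1 : lo L D (cell L D M x) = -L := by
      unfold lo cell; simp [h0]
    rw [h1, abs_neg, abs_of_nonneg hL, abs_of_neg (by linarith)]
    linarith
  · rcases le_or_gt x L with h' | h'
    · have := abs_lo_sub hD (M := M) h (by linarith)
      calc |lo L D (cell L D M x)| = |(lo L D (cell L D M x) - x) + x| := by ring_nf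
        _ ≤ |lo L D (cell L D M x) - x| + |x| := abs_add_le _ _
        _ ≤ _ := by linarith
    · have h2 : |lo L D (cell L D M x)| ≤ L := lo_abs hD (by linarith) _
      rw [abs_of_nonneg (by linarith : (0 : ℝ) ≤ x)]
      linarith

/-- refining sequence of finite quantisers -/
structure RefQ {B : ℕ → Type} (q : ∀ m, ℝ → B m) (rep : ∀ m, B m → ℝ) (S : Set ℝ) : Prop where
  fm : ∀ m, FM (q m)
  ref : ∀ m x x', q (m + 1) x = q (m + 1) x' → q m x = q m x'
  lim : ∀ x ∈ S, Tendsto (fun m => rep m (q m x)) atTop (𝓝 x)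

theorem RefQ.ref_le {B : ℕ → Type} {q : ∀ m, ℝ → B m} {rep : ∀ m, B m → ℝ} {S : Set ℝ}
    (h : RefQ q rep S) {m m' : ℕ} (hm : m ≤ m') (x x' : ℝ) (hx : q m' x = q m' x') :
    q m x = q m x' := by
  induction m', hm using Nat.le_induction with
  | base => exact hx
  | succ n _ ih => exact ih (h.ref n x x' hx)

theorem RefQ.measurable {B : ℕ → Type} [∀ m, Finite (B m)] {q : ∀ m, ℝ → B m}
    {rep : ∀ m, B m → ℝ} {S : Set ℝ} (h : RefQ q rep S) {α : Type*} [MeasurableSpace α]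
    {Y : α → ℝ} (hS : ∀ a, Y a ∈ S) (m0 : ℕ) (hY : ∀ m, m0 ≤ m → FM fun a => q m (Y a)) :
    Measurable Y := by
  have h1 : ∀ m : ℕ, Measurable fun a : α => rep (m + m0) (q (m + m0) (Y a)) := by
    intro m
    intro s _
    exact (hY (m + m0) (by omega)).preimage (rep (m + m0) ⁻¹' s)
  refine measurable_of_tendsto_metrizable h1 (tendsto_pi_nhds.mpr fun a => ?_)
  exact (h.lim (Y a) (hS a)).comp (tendsto_add_atTop_nat m0)

/-! ### The values -/

instance (m : ℕ) : NeZero (2 * 16 ^ m) := ⟨by positivity⟩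

instance (m : ℕ) : NeZero (2 ^ m) := ⟨by positivity⟩

/-- quantisation of the values -/
noncomputable def yq (m : ℕ) (x : ℝ) : Fin (2 * 16 ^ m) := cell (2 ^ m) ((1 / 8) ^ m) (2 * 16 ^ m) x

/-- representatives of the values -/
noncomputable def yrep (m : ℕ) (i : Fin (2 * 16 ^ m)) : ℝ := lo (2 ^ m) ((1 / 8) ^ m) i

/-- quantisation of the potential -/
noncomputable def oq (m : ℕ) (x : ℝ) : Fin (2 ^ m) := cell 1 (2 * (1 / 2) ^ m) (2 ^ m) x

/-- representatives of the potential -/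
noncomputable def orep (m : ℕ) (i : Fin (2 ^ m)) : ℝ := lo 1 (2 * (1 / 2) ^ m) i

theorem D_mul_M_y (m : ℕ) : ((1 / 8 : ℝ)) ^ m * ((2 * 16 ^ m : ℕ) : ℝ) = 2 * 2 ^ m := by
  push_cast
  rw [show (1 / 8 : ℝ) ^ m * (2 * 16 ^ m) = 2 * ((1 / 8) ^ m * 16 ^ m) by ring, ← mul_pow]
  norm_num

theorem D_mul_M_o (m : ℕ) : (2 * (1 / 2 : ℝ) ^ m) * ((2 ^ m : ℕ) : ℝ) = 2 * 1 := by
  push_cast
  rw [mul_assoc, ← mul_pow]
  norm_num

theorem yq_val (m : ℕ) (x : ℝ) :
    (yq m x : ℕ) = min (2 * 16 ^ m - 1) (⌊x * 8 ^ m⌋ + 16 ^ m).toNat := by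
  unfold yq cell
  simp only
  have h : (x + 2 ^ m) / (1 / 8 : ℝ) ^ m = x * 8 ^ m + ((16 ^ m : ℤ) : ℝ) := by
    rw [div_pow, one_pow, div_div_eq_mul_div, div_one, add_mul, ← mul_pow]
    push_cast
    norm_num
  rw [h, ← Int.floor_toNat, Int.floor_add_intCast]

theorem oq_val (m : ℕ) (x : ℝ) :
    (oq m x : ℕ) = min (2 ^ m - 1) (⌊((x + 1) / 2) * 2 ^ m⌋).toNat := by
  unfold oq cell
  simp only
  have h : (x + 1) / (2 * (1 / 2 : ℝ) ^ m) = ((x + 1) / 2) * 2 ^ m := by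
    rw [div_pow, one_pow]
    have : (2 : ℝ) ^ m ≠ 0 := by positivity
    field_simp
  rw [h, ← Int.floor_toNat]

theorem floor_eighth (x : ℝ) (m : ℕ) : ⌊x * 8 ^ m⌋ = ⌊x * 8 ^ (m + 1)⌋ / 8 := by
  have h : x * 8 ^ m = (x * 8 ^ (m + 1)) / ((8 : ℕ) : ℝ) := by
    rw [pow_succ]; push_cast; ring
  rw [h, Int.floor_div_natCast]
  rfl

theorem yq_ref (m : ℕ) (x x' : ℝ) (h : yq (m + 1) x = yq (m + 1) x') : yq m x = yq m x' := by
  have h1 : (yq (m + 1) x : ℕ) = yq (m + 1) x' := by rw [h]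
  apply Fin.ext
  rw [yq_val, yq_val] at h1 ⊢
  rw [floor_eighth x m, floor_eighth x' m]
  set j := ⌊x * 8 ^ (m + 1)⌋
  set j' := ⌊x' * 8 ^ (m + 1)⌋
  have e : (16 : ℕ) ^ (m + 1) = 16 * 16 ^ m := by rw [pow_succ]; ring
  have e' : (16 : ℤ) ^ (m + 1) = 16 * 16 ^ m := by rw [pow_succ]; ring
  rw [e, e'] at h1
  have hc : (16 : ℤ) ^ m = ((16 ^ m : ℕ) : ℤ) := by push_cast; rfl
  rw [hc] at h1 ⊢
  have hP : 1 ≤ 16 ^ m := Nat.one_le_pow _ _ (by norm_num)
  set P : ℕ := 16 ^ m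
  omega

theorem oq_ref (m : ℕ) (x x' : ℝ) (h : oq (m + 1) x = oq (m + 1) x') : oq m x = oq m x' := by
  have h1 : (oq (m + 1) x : ℕ) = oq (m + 1) x' := by rw [h]
  apply Fin.ext
  rw [oq_val, oq_val] at h1 ⊢
  rw [floor_half ((x + 1) / 2) m, floor_half ((x' + 1) / 2) m]
  set j := ⌊(x + 1) / 2 * 2 ^ (m + 1)⌋
  set j' := ⌊(x' + 1) / 2 * 2 ^ (m + 1)⌋
  have e : (2 : ℕ) ^ (m + 1) = 2 * 2 ^ m := by rw [pow_succ]; ring
  rw [e] at h1
  have hP : 1 ≤ 2 ^ m := Nat.one_le_pow _ _ (by norm_num)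
  set P : ℕ := 2 ^ m
  omega

theorem refQ_y : RefQ (fun m => yq m) (fun m => yrep m) Set.univ where
  fm m := FM_cell _ _ _
  ref := yq_ref
  lim x _ := by
    have hD : Tendsto (fun m : ℕ => (1 / 8 : ℝ) ^ m) atTop (𝓝 0) :=
      tendsto_pow_atTop_nhds_zero_of_lt_one (by norm_num) (by norm_num)
    rw [tendsto_iff_norm_sub_tendsto_zero]
    obtain ⟨m0, hm0⟩ := pow_unbounded_of_one_lt (|x|) (by norm_num : (1 : ℝ) < 2)
    refine squeeze_zero' (Eventually.of_forall fun m => norm_nonneg _) ?_ hD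
    filter_upwards [eventually_ge_atTop m0] with m hm
    have h2 : |x| < 2 ^ m := hm0.trans_le (pow_le_pow_right₀ (by norm_num) hm)
    obtain ⟨h3, h4⟩ := abs_lt.1 h2
    rw [Real.norm_eq_abs]
    exact abs_lo_sub (by positivity) h3.le (by rw [D_mul_M_y]; linarith)

theorem refQ_o : RefQ (fun m => oq m) (fun m => orep m) (Set.Icc (-1) 1) where
  fm m := FM_cell _ _ _
  ref := oq_ref
  lim x hx := by
    have hD : Tendsto (fun m : ℕ => 2 * (1 / 2 : ℝ) ^ m) atTop (𝓝 0) := by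
      have := (tendsto_pow_atTop_nhds_zero_of_lt_one (by norm_num : (0 : ℝ) ≤ 1 / 2)
        (by norm_num)).const_mul 2
      simpa using this
    rw [tendsto_iff_norm_sub_tendsto_zero]
    refine squeeze_zero (fun m => norm_nonneg _) (fun m => ?_) hD
    rw [Real.norm_eq_abs]
    exact abs_lo_sub (by positivity) hx.1 (by rw [D_mul_M_o]; linarith [hx.2])

end Crest.Agent.R166.Lev47
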