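import Mathlib

/-!
# Row 166 (helper286): common Gaussian toolkit, part 1

* `gv ι`   : standard Gaussian vector, `gm ι κ` : standard Gaussian `ι × κ` matrix
* `gv_map_eq_of`  : the law of a linear image depends only on the covariance `L Lᵀ`
* `gv_map_mulVec` : invariance under matrices with `O Oᵀ = 1`
* `gm_map_left`, `gm_map_right`, `gm_transpose`
-/

set_option autoImplicit false
set_option linter.unusedSectionVars false

noncomputable section

open MeasureTheory ProbabilityTheory Matrix WithLp
open scoped RealInnerProductSpace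

namespace Crest.Agent.R166.Gauss286

/-- standard Gaussian vector -/
abbrev gv (ι : Type*) [Fintype ι] : Measure (ι → ℝ) := Measure.pi fun _ => gaussianReal 0 1

/-- standard Gaussian matrix (`ι` rows, `κ` columns) -/
abbrev gm (ι κ : Type*) [Fintype ι] [Fintype κ] : Measure (ι → κ → ℝ) :=
  Measure.pi fun _ => gv κ

variable {ι κ ι' κ' : Type*} [Fintype ι] [Fintype κ] [Fintype ι'] [Fintype κ']

lemma measurable_mulVec (L : Matrix κ ι ℝ) : Measurable fun x : ι → ℝ => L *ᵥ x := by
  refine measurable_pi_lambda _ fun k => ?_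
  simp only [Matrix.mulVec, dotProduct]
  exact Finset.measurable_sum _ fun i _ => (measurable_pi_apply i).const_mul _

/-- characteristic function of a linear image of the standard Gaussian vector -/
lemma charFun_gv_map (L : Matrix κ ι ℝ) (t : EuclideanSpace ℝ κ) :
    charFun ((gv ι).map (fun x => toLp 2 (L *ᵥ x))) t =
      Complex.exp (-((ofLp t ⬝ᵥ (L * Lᵀ) *ᵥ ofLp t : ℝ) : ℂ) / 2) := by
  have hm : Measurable fun x : ι → ℝ => toLp 2 (L *ᵥ x) :=
    (WithLp.measurable_toLp 2 _).comp (measurable_mulVec L)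
  have h1 : charFun ((gv ι).map (fun x => toLp 2 (L *ᵥ x))) t =
      charFun ((gv ι).map (toLp 2)) (toLp 2 (Lᵀ *ᵥ ofLp t)) := by
    rw [charFun_apply, charFun_apply, integral_map hm.aemeasurable (by fun_prop),
      integral_map (by fun_prop) (by fun_prop)]
    refine integral_congr_ae (Filter.Eventually.of_forall fun x => ?_)
    simp only
    congr 3
    rw [EuclideanSpace.inner_eq_star_dotProduct, EuclideanSpace.inner_eq_star_dotProduct]
    simp only [star_trivial]
    rw [Matrix.mulVec_transpose, ← Matrix.dotProduct_mulVec]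
  rw [h1, map_pi_eq_stdGaussian, charFun_stdGaussian]
  congr 1
  rw [← Complex.ofReal_pow, EuclideanSpace.real_norm_sq_eq, ← Matrix.mulVec_mulVec,
    Matrix.dotProduct_mulVec, ← Matrix.mulVec_transpose]
  congr 3
  simp only [dotProduct]
  exact Finset.sum_congr rfl fun i _ => by ring

/-- the law of a linear image depends only on the covariance -/
theorem gv_map_eq_of (L₁ : Matrix κ ι ℝ) (L₂ : Matrix κ ι' ℝ) (h : L₁ * L₁ᵀ = L₂ * L₂ᵀ) :
    (gv ι).map (fun x => L₁ *ᵥ x) = (gv ι').map (fun x => L₂ *ᵥ x) := by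
  have h1 : (gv ι).map (fun x => toLp 2 (L₁ *ᵥ x)) = (gv ι').map (fun x => toLp 2 (L₂ *ᵥ x)) := by
    have hm := (WithLp.measurable_toLp 2 (κ → ℝ))
    have i1 : IsProbabilityMeasure ((gv ι).map (fun x => toLp 2 (L₁ *ᵥ x))) :=
      Measure.isProbabilityMeasure_map (hm.comp (measurable_mulVec L₁)).aemeasurable
    have i2 : IsProbabilityMeasure ((gv ι').map (fun x => toLp 2 (L₂ *ᵥ x))) :=
      Measure.isProbabilityMeasure_map (hm.comp (measurable_mulVec L₂)).aemeasurable
    apply Measure.ext_of_charFun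
    ext t
    rw [charFun_gv_map, charFun_gv_map, h]
  have e1 : (fun x : ι → ℝ => toLp 2 (L₁ *ᵥ x)) = (toLp 2) ∘ (fun x : ι → ℝ => L₁ *ᵥ x) := rfl
  have e2 : (fun x : ι' → ℝ => toLp 2 (L₂ *ᵥ x)) = (toLp 2) ∘ (fun x : ι' → ℝ => L₂ *ᵥ x) := rfl
  rw [e1, e2, ← Measure.map_map (WithLp.measurable_toLp 2 _) (measurable_mulVec _),
    ← Measure.map_map (WithLp.measurable_toLp 2 _) (measurable_mulVec _)] at h1
  have h2 := congrArg (fun μ => μ.map (ofLp : WithLp 2 (κ → ℝ) → κ → ℝ)) h1
  rw [Measure.map_map (WithLp.measurable_ofLp 2 _) (WithLp.measurable_toLp 2 _),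
    Measure.map_map (WithLp.measurable_ofLp 2 _) (WithLp.measurable_toLp 2 _)] at h2
  have e3 : (ofLp : WithLp 2 (κ → ℝ) → κ → ℝ) ∘ (toLp 2) = id := by ext x; simp
  rwa [e3, Measure.map_id, Measure.map_id] at h2

variable [DecidableEq κ]

/-- invariance of the standard Gaussian vector under co-isometries (in particular orthogonal
matrices) -/
theorem gv_map_mulVec (O : Matrix κ ι ℝ) (hO : O * Oᵀ = 1) :
    (gv ι).map (fun x => O *ᵥ x) = gv κ := by
  rw [gv_map_eq_of O (1 : Matrix κ κ ℝ) (by rw [hO]; simp)]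
  simp

/-! ### Gaussian matrices -/

omit [DecidableEq κ]

/-- the Gaussian matrix as a curried Gaussian vector -/
theorem gv_map_curry : (gv (ι × κ)).map (fun x i k => x (i, k)) = gm ι κ := by
  have h := Measure.infinitePi_map_curry (ι := ι) (κ := κ) (X := ℝ)
    (fun _ _ => gaussianReal 0 1)
  simp only [Measure.infinitePi_eq_pi] at h
  exact h

lemma measurable_uncurry' : Measurable fun (g : ι → κ → ℝ) (p : ι × κ) => g p.1 p.2 :=
  measurable_pi_lambda _ fun p =>
    (measurable_pi_apply p.2).comp (measurable_pi_apply p.1)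

lemma measurable_curry' : Measurable fun (x : ι × κ → ℝ) (i : ι) (k : κ) => x (i, k) :=
  measurable_pi_lambda _ fun i => measurable_pi_lambda _ fun k => measurable_pi_apply (i, k)

theorem gm_map_uncurry : (gm ι κ).map (fun g (p : ι × κ) => g p.1 p.2) = gv (ι × κ) := by
  rw [← gv_map_curry, Measure.map_map measurable_uncurry' measurable_curry']
  have : ((fun (g : ι → κ → ℝ) (p : ι × κ) => g p.1 p.2) ∘ fun (x : ι × κ → ℝ) i k => x (i, k)) =
      id := by
    ext x p; rfl
  rw [this, Measure.map_id]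

/-- general linear images of Gaussian matrices: the law depends only on the covariance -/
theorem gm_map_eq_of {τ : Type*} [Fintype τ] (L₁ : Matrix τ (ι × κ) ℝ) (L₂ : Matrix τ (ι' × κ') ℝ)
    (h : L₁ * L₁ᵀ = L₂ * L₂ᵀ) :
    (gm ι κ).map (fun g t => ∑ p, L₁ t p * g p.1 p.2) =
      (gm ι' κ').map (fun g t => ∑ p, L₂ t p * g p.1 p.2) := by
  have key := gv_map_eq_of L₁ L₂ h
  rw [← gm_map_uncurry (ι := ι) (κ := κ), ← gm_map_uncurry (ι := ι') (κ := κ'),
    Measure.map_map (measurable_mulVec _) measurable_uncurry',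
    Measure.map_map (measurable_mulVec _) measurable_uncurry'] at key
  exact key

lemma measurable_entry (i : ι) (k : κ) : Measurable fun g : ι → κ → ℝ => g i k :=
  (measurable_pi_apply k).comp (measurable_pi_apply i)

lemma measurable_left (O : Matrix ι' ι ℝ) :
    Measurable fun (g : ι → κ → ℝ) (i' : ι') (k : κ) => ∑ i, O i' i * g i k :=
  measurable_pi_lambda _ fun _ => measurable_pi_lambda _ fun k =>
    Finset.measurable_sum _ fun i _ => (measurable_entry i k).const_mul _

lemma measurable_right (P : Matrix κ κ' ℝ) :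
    Measurable fun (g : ι → κ → ℝ) (i : ι) (k' : κ') => ∑ k, g i k * P k k' :=
  measurable_pi_lambda _ fun i => measurable_pi_lambda _ fun k' =>
    Finset.measurable_sum _ fun k _ => (measurable_entry i k).mul_const (P k k')

/-- left invariance: `g ↦ O g`, `O Oᵀ = 1` -/
theorem gm_map_left [DecidableEq ι'] [DecidableEq κ] (O : Matrix ι' ι ℝ) (hO : O * Oᵀ = 1) :
    (gm ι κ).map (fun g i' k => ∑ i, O i' i * g i k) = gm ι' κ := by
  have h := gv_map_mulVec (Matrix.kroneckerMap (fun a b : ℝ => a * b) O (1 : Matrix κ κ ℝ)) (by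
    have h1 : (Matrix.kroneckerMap (fun a b : ℝ => a * b) O (1 : Matrix κ κ ℝ))ᵀ =
      Matrix.kroneckerMap (fun a b : ℝ => a * b) Oᵀ (1 : Matrix κ κ ℝ) := by
      ext p q
      simp only [Matrix.transpose_apply, Matrix.kroneckerMap_apply, Matrix.one_apply]
      congr 1
      simp only [eq_comm]
    have h2 := Matrix.mul_kronecker_mul O Oᵀ (1 : Matrix κ κ ℝ) (1 : Matrix κ κ ℝ)
    rw [hO, mul_one, Matrix.one_kronecker_one] at h2
    rw [h1]
    exact h2.symm)
  rw [← gm_map_uncurry (ι := ι) (κ := κ), Measure.map_map (measurable_mulVec _)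
    measurable_uncurry'] at h
  have h2 := congrArg (fun μ => μ.map (fun (x : ι' × κ → ℝ) i k => x (i, k))) h
  rw [gv_map_curry, Measure.map_map measurable_curry'
    ((measurable_mulVec _).comp measurable_uncurry')] at h2
  rw [← h2]
  congr 1
  ext g i' k
  simp only [Function.comp_apply, Matrix.mulVec, dotProduct, Matrix.kroneckerMap_apply,
    Fintype.sum_prod_type, Matrix.one_apply]
  refine Finset.sum_congr rfl fun i _ => ?_
  simp

/-- transposition -/
theorem gm_map_transpose : (gm ι κ).map (fun g k i => g i k) = gm κ ι := by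
  classical
  have h := gm_map_eq_of (ι := ι) (κ := κ) (ι' := κ) (κ' := ι) (τ := κ × ι)
    (Matrix.of fun t p => if p = (t.2, t.1) then 1 else 0)
    (Matrix.of fun t p => if p = t then 1 else 0) (by
      ext s t
      simp only [Matrix.mul_apply, Matrix.of_apply, Matrix.transpose_apply, ite_mul, one_mul, zero_mul,
        Finset.sum_ite_eq', Finset.mem_univ, if_true]
      congr 1
      simp only [Prod.mk.injEq, eq_iff_iff]
      constructor
      · rintro ⟨h1, h2⟩; exact Prod.ext h2 h1
      · rintro rfl; exact ⟨rfl, rfl⟩)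
  simp only [Matrix.of_apply, ite_mul, one_mul, zero_mul, Finset.sum_ite_eq', Finset.mem_univ,
    if_true] at h
  have h2 := congrArg (fun μ => μ.map (fun (x : κ × ι → ℝ) i k => x (i, k))) h
  rw [Measure.map_map measurable_curry' (measurable_pi_lambda _ fun t =>
      (measurable_pi_apply t.1).comp (measurable_pi_apply t.2)),
    Measure.map_map measurable_curry' measurable_uncurry'] at h2
  have e1 : ((fun (x : κ × ι → ℝ) i k => x (i, k)) ∘ fun (g : ι → κ → ℝ) (t : κ × ι) =>
      g t.2 t.1) = fun g k i => g i k := rfl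
  have e2 : ((fun (x : κ × ι → ℝ) i k => x (i, k)) ∘ fun (g : κ → ι → ℝ) (t : κ × ι) =>
      g t.1 t.2) = id := rfl
  rw [e1, e2, Measure.map_id] at h2
  exact h2

/-- right invariance: `g ↦ g P`, `Pᵀ P = 1` -/
theorem gm_map_right [DecidableEq κ'] (P : Matrix κ κ' ℝ) (hP : Pᵀ * P = 1) :
    (gm ι κ).map (fun g i k' => ∑ k, g i k * P k k') = gm ι κ' := by
  classical
  have h := gm_map_left (ι := κ) (κ := ι) (ι' := κ') Pᵀ (by rw [Matrix.transpose_transpose]; exact hP)
  rw [← gm_map_transpose (ι := κ) (κ := ι), ← gm_map_transpose (ι := κ') (κ := ι), ← h,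
    Measure.map_map (measurable_right P) (by fun_prop),
    Measure.map_map (by fun_prop) (measurable_left Pᵀ)]
  congr 1
  ext g i k'
  simp only [Function.comp_apply, Matrix.transpose_apply]
  exact Finset.sum_congr rfl fun k _ => mul_comm _ _

end Crest.Agent.R166.Gauss286
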