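import Mathlib
import Crest.Prelude.Def_RandomRegular
import Crest.Prelude.Def_AndersonTree

/-!
Row 166: common definitions (helper419).
-/

set_option autoImplicit false

namespace Crest.Agent.R166

open MeasureTheory Crest.ProbabilityR.RandomMatrix

/-- measurable structure on graphs: everything is measurable -/
instance instMSGraph (n : ℕ) : MeasurableSpace (SimpleGraph (Fin n)) := ⊤

instance instMSCGraph (n : ℕ) : MeasurableSingletonClass (SimpleGraph (Fin n)) := ⟨fun _ => trivial⟩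

/-- `A_G + s diag ω`. -/
noncomputable def Hm {n : ℕ} (G : SimpleGraph (Fin n)) (s : ℝ) (ω : Fin n → ℝ) :
    Matrix (Fin n) (Fin n) ℝ := by
  classical exact G.adjMatrix ℝ + s • Matrix.diagonal ω

/-- resolvent of a real matrix at a complex number -/
noncomputable def Res {ι : Type*} [Fintype ι] [DecidableEq ι] (H : Matrix ι ι ℝ) (z : ℂ) :
    Matrix ι ι ℂ := (H.map (fun x : ℝ => (x : ℂ)) - z • (1 : Matrix ι ι ℂ))⁻¹

/-- the uniform law on `regularGraphs n d` (zero measure if there are none) -/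
noncomputable def gLaw (n d : ℕ) : Measure (SimpleGraph (Fin n)) :=
  ((regularGraphs n d).card : ENNReal)⁻¹ • ∑ G ∈ regularGraphs n d, Measure.dirac G

/-- joint law of the graph and the potentials -/
noncomputable def law (n d : ℕ) : Measure (SimpleGraph (Fin n) × (Fin n → ℝ)) :=
  (gLaw n d).prod (potentialLaw n)

/-- directed edges of `G` -/
noncomputable def darts {n : ℕ} (G : SimpleGraph (Fin n)) : Finset (Fin n × Fin n) := by
  classical exact Finset.univ.filter fun p => G.Adj p.1 p.2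

/-- average over directed edges -/
noncomputable def eAvg {n : ℕ} (G : SimpleGraph (Fin n)) (f : Fin n → Fin n → ℝ) : ℝ :=
  (∑ p ∈ darts G, f p.1 p.2) / (darts G).card

/-- average over vertices -/
noncomputable def vAvg {n : ℕ} (f : Fin n → ℝ) : ℝ := (∑ v, f v) / n

/-- 2x2 block of a matrix at the pair `(u,w)` -/
def Blk {n : ℕ} (R : Matrix (Fin n) (Fin n) ℂ) (u w : Fin n) : Matrix (Fin 2) (Fin 2) ℂ :=
  R.submatrix ![u, w] ![u, w]

/-- `max` of the absolute values of the entries of a 2x2 complex matrix -/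
noncomputable def bnorm (B : Matrix (Fin 2) (Fin 2) ℂ) : ℝ :=
  max (max ‖B 0 0‖ ‖B 0 1‖) (max ‖B 1 0‖ ‖B 1 1‖)

/-- the energy `E + i K / n` -/
noncomputable def zz (E K : ℝ) (n : ℕ) : ℂ := (E : ℂ) + Complex.I * ((K / n : ℝ) : ℂ)

/-- the energy `E + i η` -/
noncomputable def ze (E η : ℝ) : ℂ := (E : ℂ) + Complex.I * (η : ℂ)

/-- normalised trace of the resolvent -/
noncomputable def mn {n : ℕ} (H : Matrix (Fin n) (Fin n) ℝ) (z : ℂ) : ℂ :=
  (Res H z).trace / n

/-- an orthonormal (w.r.t. the normalised inner product) `k`-frame of approximate eigenvectors: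
`(1/n) ∑ F i v F j v = δ_ij`, `‖(H-E) F i‖ ≤ (K'/n) ‖F i‖`. -/
def IsFrame {n : ℕ} (H : Matrix (Fin n) (Fin n) ℝ) (E K' : ℝ) (k : ℕ)
    (F : Fin k → Fin n → ℝ) : Prop :=
  (∀ i j, ∑ v, F i v * F j v = if i = j then (n : ℝ) else 0) ∧
  ∀ i, ∑ v, ((H.mulVec (F i)) v - E * F i v) ^ 2 ≤ (K' / n) ^ 2 * n

/-- the event statement "with probability at least `1 - ε`" for `(G, ω)` -/
def Whp (n d : ℕ) (ε : ℝ) (P : SimpleGraph (Fin n) → (Fin n → ℝ) → Prop) : Prop :=
  (law n d) {x | ¬ P x.1 x.2} ≤ ENNReal.ofReal ε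

end Crest.Agent.R166
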