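import Mathlib
import Crest.Agent.R166.Noise_547
import Crest.Agent.R166.Gauss_286

/-!
Row 166, section 40.2 (N4) (helper849): the Gaussian noise `Z = √g(H) ξ`, its characteristic
function and the `L²` law of large numbers for window averages of `exp (i τ·Z)`.
-/

set_option autoImplicit false
set_option linter.unusedSectionVars false

noncomputable section

namespace Crest.Agent.R166.NoiseLLN849

open MeasureTheory ProbabilityTheory Matrix
open Crest.Agent.R166.Noise547 Crest.Agent.R166.Gauss286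

variable {V J : Type*} [Fintype V] [DecidableEq V] [Fintype J] {H : Matrix V V ℝ}

/-- Gaussian noise with covariance `g(H)` in `J` independent components -/
def Zn (hH : H.IsHermitian) (g : ℝ → ℝ) (ξ : J → V → ℝ) (j : J) (x : V) : ℝ :=
  ∑ y, fM hH (fun t => Real.sqrt (g t)) x y * ξ j y

/-- covariance form -/
def Gf (hH : H.IsHermitian) (g : ℝ → ℝ) (a b : J → V → ℝ) : ℝ :=
  ∑ j, ∑ x, ∑ y, a j x * fM hH g x y * b j y

/-- linear functional of the noise -/
def Lf (hH : H.IsHermitian) (g : ℝ → ℝ) (a : J → V → ℝ) (ξ : J → V → ℝ) : ℝ :=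
  ∑ j, ∑ x, a j x * Zn hH g ξ j x

lemma measurable_Zn (hH : H.IsHermitian) (g : ℝ → ℝ) (j : J) (x : V) :
    Measurable fun ξ : J → V → ℝ => Zn hH g ξ j x :=
  Finset.measurable_sum _ fun y _ => (measurable_entry j y).const_mul _

lemma measurable_Lf (hH : H.IsHermitian) (g : ℝ → ℝ) (a : J → V → ℝ) :
    Measurable fun ξ : J → V → ℝ => Lf hH g a ξ :=
  Finset.measurable_sum _ fun j _ => Finset.measurable_sum _ fun x _ =>
    (measurable_Zn hH g j x).const_mul _

/-- characteristic function of the standard Gaussian array -/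
lemma char_gm (b : J → V → ℝ) :
    ∫ ξ, Complex.exp (Complex.I * ((∑ j, ∑ y, b j y * ξ j y : ℝ) : ℂ)) ∂(gm J V) =
      Complex.exp (-((∑ j, ∑ y, b j y ^ 2 : ℝ) : ℂ) / 2) := by
  have h1 : ∀ ξ : J → V → ℝ,
      Complex.exp (Complex.I * ((∑ j, ∑ y, b j y * ξ j y : ℝ) : ℂ)) =
      ∏ j, ∏ y, Complex.exp (Complex.I * ((b j y * ξ j y : ℝ) : ℂ)) := by
    intro ξ
    simp only [← Complex.exp_sum, ← Finset.mul_sum, Complex.ofReal_sum]
  simp only [h1]
  rw [integral_fintype_prod_eq_prod (𝕜 := ℂ) (μ := fun _ : J => gv V)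
    (f := fun j (x : V → ℝ) => ∏ y, Complex.exp (Complex.I * ((b j y * x y : ℝ) : ℂ)))]
  have h2 : ∀ j, ∫ x : V → ℝ, (∏ y, Complex.exp (Complex.I * ((b j y * x y : ℝ) : ℂ))) ∂(gv V) =
      ∏ y, Complex.exp (-((b j y ^ 2 : ℝ) : ℂ) / 2) := by
    intro j
    rw [integral_fintype_prod_eq_prod (𝕜 := ℂ) (μ := fun _ : V => gaussianReal 0 1)
      (f := fun y (t : ℝ) => Complex.exp (Complex.I * ((b j y * t : ℝ) : ℂ)))]
    refine Finset.prod_congr rfl fun y _ => ?_
    have h3 := charFun_gaussianReal (μ := 0) (v := 1) (b j y)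
    rw [charFun_apply_real] at h3
    have h4 : ∀ t : ℝ, Complex.exp (Complex.I * ((b j y * t : ℝ) : ℂ)) =
        Complex.exp ((b j y : ℂ) * (t : ℂ) * Complex.I) := by
      intro t
      congr 1
      push_cast
      ring
    simp only [h4]
    rw [h3]
    congr 1
    push_cast
    ring
  simp only [h2]
  simp only [← Complex.exp_sum]
  congr 1
  push_cast
  simp only [← Finset.sum_div, Finset.sum_neg_distrib]

lemma Lf_eq (hH : H.IsHermitian) (g : ℝ → ℝ) (a ξ : J → V → ℝ) :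
    Lf hH g a ξ = ∑ j, ∑ y, (∑ x, a j x * fM hH (fun t => Real.sqrt (g t)) x y) * ξ j y := by
  unfold Lf Zn
  refine Finset.sum_congr rfl fun j _ => ?_
  simp only [Finset.mul_sum, Finset.sum_mul]
  rw [Finset.sum_comm]
  refine Finset.sum_congr rfl fun y _ => Finset.sum_congr rfl fun x _ => by ring

lemma Gf_eq (hH : H.IsHermitian) {g : ℝ → ℝ} (hg : ∀ i, 0 ≤ g (hH.eigenvalues i))
    (a : J → V → ℝ) :
    ∑ j, ∑ y, (∑ x, a j x * fM hH (fun t => Real.sqrt (g t)) x y) ^ 2 = Gf hH g a a := by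
  have hS : fM hH (fun t => Real.sqrt (g t)) * fM hH (fun t => Real.sqrt (g t)) = fM hH g := by
    rw [fM_mul]
    exact fM_congr hH fun i => Real.mul_self_sqrt (hg i)
  unfold Gf
  refine Finset.sum_congr rfl fun j _ => ?_
  rw [← hS]
  simp only [Matrix.mul_apply, sq, Finset.sum_mul, Finset.mul_sum]
  rw [Finset.sum_comm]
  refine Finset.sum_congr rfl fun x _ => ?_
  rw [Finset.sum_comm]
  refine Finset.sum_congr rfl fun x' _ => Finset.sum_congr rfl fun y _ => ?_
  rw [fM_symm hH _ x' y]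
  ring

/-- characteristic function of the noise -/
theorem char_Lf (hH : H.IsHermitian) {g : ℝ → ℝ} (hg : ∀ i, 0 ≤ g (hH.eigenvalues i))
    (a : J → V → ℝ) :
    ∫ ξ, Complex.exp (Complex.I * (Lf hH g a ξ : ℂ)) ∂(gm J V) =
      Complex.exp (-(Gf hH g a a : ℂ) / 2) := by
  simp only [Lf_eq]
  rw [char_gm, Gf_eq hH hg]

lemma Gf_nonneg (hH : H.IsHermitian) {g : ℝ → ℝ} (hg : ∀ i, 0 ≤ g (hH.eigenvalues i))
    (a : J → V → ℝ) : 0 ≤ Gf hH g a a := by
  rw [← Gf_eq hH hg]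
  positivity

lemma Gf_symm (hH : H.IsHermitian) (g : ℝ → ℝ) (a b : J → V → ℝ) :
    Gf hH g a b = Gf hH g b a := by
  unfold Gf
  refine Finset.sum_congr rfl fun j _ => ?_
  rw [Finset.sum_comm]
  refine Finset.sum_congr rfl fun x _ => Finset.sum_congr rfl fun y _ => ?_
  rw [fM_symm hH g y x]
  ring

lemma Gf_add_left (hH : H.IsHermitian) (g : ℝ → ℝ) (a a' b : J → V → ℝ) :
    Gf hH g (fun j x => a j x + a' j x) b = Gf hH g a b + Gf hH g a' b := by
  unfold Gf
  simp only [← Finset.sum_add_distrib]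
  refine Finset.sum_congr rfl fun j _ => Finset.sum_congr rfl fun x _ =>
    Finset.sum_congr rfl fun y _ => by ring

lemma Gf_sub_left (hH : H.IsHermitian) (g : ℝ → ℝ) (a a' b : J → V → ℝ) :
    Gf hH g (fun j x => a j x - a' j x) b = Gf hH g a b - Gf hH g a' b := by
  unfold Gf
  simp only [← Finset.sum_sub_distrib]
  refine Finset.sum_congr rfl fun j _ => Finset.sum_congr rfl fun x _ =>
    Finset.sum_congr rfl fun y _ => by ring

lemma Gf_sub_self (hH : H.IsHermitian) (g : ℝ → ℝ) (a b : J → V → ℝ) :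
    Gf hH g (fun j x => a j x - b j x) (fun j x => a j x - b j x) =
      Gf hH g a a + Gf hH g b b - 2 * Gf hH g a b := by
  rw [Gf_sub_left, Gf_symm hH g a, Gf_symm hH g b, Gf_sub_left, Gf_sub_left,
    Gf_symm hH g b a]
  ring

lemma Gf_add_self (hH : H.IsHermitian) (g : ℝ → ℝ) (a b : J → V → ℝ) :
    Gf hH g (fun j x => a j x + b j x) (fun j x => a j x + b j x) =
      Gf hH g a a + Gf hH g b b + 2 * Gf hH g a b := by
  rw [Gf_add_left, Gf_symm hH g a, Gf_symm hH g b, Gf_add_left, Gf_add_left,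
    Gf_symm hH g b a]
  ring

lemma abs_Gf_le (hH : H.IsHermitian) {g : ℝ → ℝ} (hg : ∀ i, 0 ≤ g (hH.eigenvalues i))
    (a b : J → V → ℝ) : |Gf hH g a b| ≤ (Gf hH g a a + Gf hH g b b) / 2 := by
  have h1 := Gf_nonneg hH hg (fun j x => a j x - b j x)
  have h2 := Gf_nonneg hH hg (fun j x => a j x + b j x)
  rw [Gf_sub_self] at h1
  rw [Gf_add_self] at h2
  rw [abs_le]
  constructor <;> linarith

lemma Lf_sub (hH : H.IsHermitian) (g : ℝ → ℝ) (a b ξ : J → V → ℝ) :
    Lf hH g (fun j x => a j x - b j x) ξ = Lf hH g a ξ - Lf hH g b ξ := by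
  unfold Lf
  simp only [← Finset.sum_sub_distrib]
  refine Finset.sum_congr rfl fun j _ => Finset.sum_congr rfl fun x _ => by ring

lemma exp_bound {s c : ℝ} (hs : 0 ≤ s) (hc : |c| ≤ s) :
    |Real.exp (-s) * (Real.exp c - 1)| ≤ |c| := by
  rw [abs_mul, abs_of_pos (Real.exp_pos _)]
  rcases le_total 0 c with h | h
  · rw [abs_of_nonneg h] at hc ⊢
    have h1 : 0 ≤ Real.exp c - 1 := by
      have := Real.add_one_le_exp c
      linarith
    rw [abs_of_nonneg h1]
    have h2 : 1 - c ≤ Real.exp (-c) := by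
      have := Real.add_one_le_exp (-c)
      linarith
    have h3 : Real.exp c * Real.exp (-c) = 1 := by rw [← Real.exp_add]; simp
    have h4 : Real.exp c - 1 ≤ c * Real.exp c := by nlinarith [Real.exp_pos c]
    calc Real.exp (-s) * (Real.exp c - 1) ≤ Real.exp (-s) * (c * Real.exp c) :=
          mul_le_mul_of_nonneg_left h4 (Real.exp_pos _).le
      _ = c * Real.exp (c - s) := by rw [mul_left_comm, ← Real.exp_add]; ring_nf
      _ ≤ c * 1 := by
          refine mul_le_mul_of_nonneg_left ?_ h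
          rw [Real.exp_le_one_iff]
          linarith
      _ = c := mul_one c
  · have h1 : Real.exp (-s) ≤ 1 := by rw [Real.exp_le_one_iff]; linarith
    have h2 : |Real.exp c - 1| ≤ |c| := by
      have h3 : Real.exp c ≤ 1 := Real.exp_le_one_iff.2 h
      rw [abs_of_nonpos (by linarith), abs_of_nonpos h]
      have := Real.add_one_le_exp c
      linarith
    calc Real.exp (-s) * |Real.exp c - 1| ≤ 1 * |Real.exp c - 1| :=
          mul_le_mul_of_nonneg_right h1 (abs_nonneg _)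
      _ ≤ |c| := by rw [one_mul]; exact h2

/-- centred exponential -/
def Ec (hH : H.IsHermitian) (g : ℝ → ℝ) (a : J → V → ℝ) (ξ : J → V → ℝ) : ℂ :=
  Complex.exp (Complex.I * (Lf hH g a ξ : ℂ)) - Complex.exp (-(Gf hH g a a : ℂ) / 2)

lemma measurable_expLf (hH : H.IsHermitian) (g : ℝ → ℝ) (a : J → V → ℝ) :
    Measurable fun ξ : J → V → ℝ => Complex.exp (Complex.I * (Lf hH g a ξ : ℂ)) :=
  Complex.measurable_exp.comp
    ((Complex.measurable_ofReal.comp (measurable_Lf hH g a)).const_mul _)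

lemma integrable_expLf (hH : H.IsHermitian) (g : ℝ → ℝ) (a : J → V → ℝ) :
    Integrable (fun ξ : J → V → ℝ => Complex.exp (Complex.I * (Lf hH g a ξ : ℂ))) (gm J V) := by
  refine Integrable.of_bound (measurable_expLf hH g a).aestronglyMeasurable 1 ?_
  refine Filter.Eventually.of_forall fun ξ => ?_
  rw [mul_comm, Complex.norm_exp_ofReal_mul_I]

lemma measurable_Ec (hH : H.IsHermitian) (g : ℝ → ℝ) (a : J → V → ℝ) :
    Measurable (Ec hH g a) := (measurable_expLf hH g a).sub_const _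

/-- covariance of two exponentials -/
lemma cov_eq (hH : H.IsHermitian) {g : ℝ → ℝ} (hg : ∀ i, 0 ≤ g (hH.eigenvalues i))
    (a b : J → V → ℝ) :
    ∫ ξ, Ec hH g a ξ * (starRingEnd ℂ) (Ec hH g b ξ) ∂(gm J V) =
      ((Real.exp (-((Gf hH g a a + Gf hH g b b) / 2)) * (Real.exp (Gf hH g a b) - 1) : ℝ) : ℂ) := by
  have hconj : ∀ (c : J → V → ℝ) (ξ : J → V → ℝ),
      (starRingEnd ℂ) (Complex.exp (Complex.I * (Lf hH g c ξ : ℂ))) =
        Complex.exp (Complex.I * ((Lf hH g (fun j x => - c j x) ξ : ℝ) : ℂ)) := by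
    intro c ξ
    rw [← Complex.exp_conj]
    congr 1
    have : Lf hH g (fun j x => - c j x) ξ = - Lf hH g c ξ := by
      unfold Lf
      simp only [neg_mul, Finset.sum_neg_distrib]
    rw [this]
    simp
  have hconst : ∀ c : J → V → ℝ, (starRingEnd ℂ) (Complex.exp (-(Gf hH g c c : ℂ) / 2)) =
      Complex.exp (-(Gf hH g c c : ℂ) / 2) := by
    intro c
    rw [← Complex.exp_conj]
    congr 1
    have : (-(Gf hH g c c : ℂ) / 2) = ((-(Gf hH g c c) / 2 : ℝ) : ℂ) := by push_cast; ring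
    rw [this, Complex.conj_ofReal]
  have hneg : Gf hH g (fun j x => - b j x) (fun j x => - b j x) = Gf hH g b b := by
    unfold Gf
    refine Finset.sum_congr rfl fun j _ => Finset.sum_congr rfl fun x _ =>
      Finset.sum_congr rfl fun y _ => by ring
  have hexp : ∀ ξ : J → V → ℝ, Ec hH g a ξ * (starRingEnd ℂ) (Ec hH g b ξ) =
      Complex.exp (Complex.I * ((Lf hH g (fun j x => a j x - b j x) ξ : ℝ) : ℂ)) -
      Complex.exp (-(Gf hH g b b : ℂ) / 2) * Complex.exp (Complex.I * (Lf hH g a ξ : ℂ)) -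
      Complex.exp (-(Gf hH g a a : ℂ) / 2) *
        Complex.exp (Complex.I * ((Lf hH g (fun j x => - b j x) ξ : ℝ) : ℂ)) +
      Complex.exp (-(Gf hH g a a : ℂ) / 2) * Complex.exp (-(Gf hH g b b : ℂ) / 2) := by
    intro ξ
    unfold Ec
    rw [map_sub, hconj, hconst]
    have h5 : Complex.exp (Complex.I * ((Lf hH g (fun j x => a j x - b j x) ξ : ℝ) : ℂ)) =
        Complex.exp (Complex.I * (Lf hH g a ξ : ℂ)) *
          Complex.exp (Complex.I * ((Lf hH g (fun j x => - b j x) ξ : ℝ) : ℂ)) := by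
      rw [← Complex.exp_add]
      congr 1
      have : Lf hH g (fun j x => - b j x) ξ = - Lf hH g b ξ := by
        unfold Lf
        simp only [neg_mul, Finset.sum_neg_distrib]
      rw [this, Lf_sub]
      push_cast
      ring
    rw [h5]
    ring
  simp only [hexp]
  rw [integral_add, integral_sub, integral_sub, integral_const_mul, integral_const_mul,
    char_Lf hH hg, char_Lf hH hg, char_Lf hH hg, hneg, Gf_sub_self]
  · simp only [integral_const, probReal_univ, one_smul]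
    push_cast
    have e1 : Complex.exp (-(Gf hH g a a : ℂ) / 2) * Complex.exp (-(Gf hH g b b : ℂ) / 2) =
        Complex.exp (-(((Gf hH g a a : ℂ) + (Gf hH g b b : ℂ)) / 2)) := by
      rw [← Complex.exp_add]
      congr 1
      ring
    have e2 : Complex.exp (-(((Gf hH g a a : ℂ) + (Gf hH g b b : ℂ) - 2 * (Gf hH g a b : ℂ))) / 2) =
        Complex.exp (-(((Gf hH g a a : ℂ) + (Gf hH g b b : ℂ)) / 2) + (Gf hH g a b : ℂ)) := by
      congr 1
      ring
    rw [mul_comm (Complex.exp (-(Gf hH g b b : ℂ) / 2)), e1, e2, Complex.exp_add]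
    ring
  · exact integrable_expLf hH g _
  · exact (integrable_expLf hH g _).const_mul _
  · exact (integrable_expLf hH g _).sub ((integrable_expLf hH g _).const_mul _)
  · exact (integrable_expLf hH g _).const_mul _
  · exact ((integrable_expLf hH g _).sub ((integrable_expLf hH g _).const_mul _)).sub
      ((integrable_expLf hH g _).const_mul _)
  · exact integrable_const _

lemma norm_cov_le (hH : H.IsHermitian) {g : ℝ → ℝ} (hg : ∀ i, 0 ≤ g (hH.eigenvalues i))
    (a b : J → V → ℝ) :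
    ‖∫ ξ, Ec hH g a ξ * (starRingEnd ℂ) (Ec hH g b ξ) ∂(gm J V)‖ ≤ |Gf hH g a b| := by
  rw [cov_eq hH hg, Complex.norm_real, Real.norm_eq_abs]
  exact exp_bound (by have := Gf_nonneg hH hg a; have := Gf_nonneg hH hg b; linarith)
    (abs_Gf_le hH hg a b)

/-! ### windows -/

variable {I B : Type*} [Fintype I] [Fintype B]

/-- coefficients of the window functional at `h` -/
def aw (x : B → I → V) (τ : B → J → ℝ) (h : I) : J → V → ℝ :=
  fun j v => ∑ b, if x b h = v then τ b j else 0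

omit [Fintype J] [Fintype I] in
lemma sum_aw (x : B → I → V) (τ : B → J → ℝ) (h : I) (j : J) (F : V → ℝ) :
    ∑ v, aw x τ h j v * F v = ∑ b, τ b j * F (x b h) := by
  unfold aw
  simp only [Finset.sum_mul, ite_mul, zero_mul]
  rw [Finset.sum_comm]
  simp

omit [Fintype I] in
lemma Lf_aw (hH : H.IsHermitian) (g : ℝ → ℝ) (x : B → I → V) (τ : B → J → ℝ) (h : I)
    (ξ : J → V → ℝ) :
    Lf hH g (aw x τ h) ξ = ∑ j, ∑ b, τ b j * Zn hH g ξ j (x b h) := by
  unfold Lf
  simp only [sum_aw]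

omit [Fintype I] in
lemma Gf_aw (hH : H.IsHermitian) (g : ℝ → ℝ) (x : B → I → V) (τ : B → J → ℝ) (h h' : I) :
    Gf hH g (aw x τ h) (aw x τ h') =
      ∑ j, ∑ b, ∑ b', τ b j * fM hH g (x b h) (x b' h') * τ b' j := by
  unfold Gf
  refine Finset.sum_congr rfl fun j _ => ?_
  have h1 : ∀ v, ∑ w, aw x τ h j v * fM hH g v w * aw x τ h' j w =
      aw x τ h j v * ∑ b', τ b' j * fM hH g v (x b' h') := by
    intro v
    rw [← sum_aw x τ h' j (fun w => fM hH g v w), Finset.mul_sum]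
    exact Finset.sum_congr rfl fun w _ => by ring
  simp only [h1]
  rw [sum_aw x τ h j (fun v => ∑ b', τ b' j * fM hH g v (x b' h'))]
  refine Finset.sum_congr rfl fun b _ => ?_
  rw [Finset.mul_sum]
  exact Finset.sum_congr rfl fun b' _ => by ring

/-- sums over windows against sums over vertices -/
lemma sum_fib_le {F : V → ℝ} (hF : ∀ v, 0 ≤ F v) (y : I → V) {m : ℕ}
    (hm : ∀ v, (Finset.univ.filter fun h => y h = v).card ≤ m) :
    ∑ h, F (y h) ≤ m * ∑ v, F v := by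
  calc ∑ h, F (y h) = ∑ v, ∑ h ∈ Finset.univ.filter (fun h => y h = v), F (y h) := by
        rw [Finset.sum_fiberwise]
    _ = ∑ v, ((Finset.univ.filter fun h => y h = v).card : ℝ) * F v := by
        refine Finset.sum_congr rfl fun v _ => ?_
        rw [Finset.sum_congr rfl (g := fun _ => F v)
          (fun h hh => by rw [(Finset.mem_filter.1 hh).2])]
        rw [Finset.sum_const, nsmul_eq_mul]
    _ ≤ ∑ v, (m : ℝ) * F v := by
        refine Finset.sum_le_sum fun v _ => mul_le_mul_of_nonneg_right ?_ (hF v)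
        exact_mod_cast hm v
    _ = m * ∑ v, F v := by rw [Finset.mul_sum]

omit [Fintype J] in
/-- `∑_{v,w} |g(H)_{vw}| ≤ |V| √|V| M` -/
lemma sum_abs_fM_le (hH : H.IsHermitian) {g : ℝ → ℝ} {M : ℝ} (hM : 0 ≤ M)
    (hg : ∀ i, |g (hH.eigenvalues i)| ≤ M) :
    ∑ v, ∑ w, |fM hH g v w| ≤ Fintype.card V * (Real.sqrt (Fintype.card V) * M) := by
  have h1 : (∑ v, ∑ w, |fM hH g v w|) ^ 2 ≤
      (Fintype.card V : ℝ) ^ 2 * ∑ v, ∑ w, fM hH g v w ^ 2 := by
    have h2 := sq_sum_le_card_mul_sum_sq (s := (Finset.univ : Finset (V × V)))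
      (f := fun p => |fM hH g p.1 p.2|)
    rw [← Finset.univ_product_univ, Finset.sum_product, Finset.sum_product,
      Finset.card_product, Finset.card_univ] at h2
    simp only [sq_abs] at h2
    push_cast at h2
    rw [sq (Fintype.card V : ℝ)]
    exact h2
  rw [fM_sq_sum] at h1
  have h3 : ∑ i, g (hH.eigenvalues i) ^ 2 ≤ Fintype.card V * M ^ 2 := by
    calc ∑ i, g (hH.eigenvalues i) ^ 2 ≤ ∑ _i : V, M ^ 2 := by
          refine Finset.sum_le_sum fun i _ => ?_
          rw [← sq_abs]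
          exact pow_le_pow_left₀ (abs_nonneg _) (hg i) 2
      _ = _ := by rw [Finset.sum_const, Finset.card_univ, nsmul_eq_mul]
  have h4 : (∑ v, ∑ w, |fM hH g v w|) ^ 2 ≤
      (Fintype.card V * (Real.sqrt (Fintype.card V) * M)) ^ 2 := by
    refine h1.trans ?_
    rw [mul_pow, mul_pow, Real.sq_sqrt (Nat.cast_nonneg _)]
    exact mul_le_mul_of_nonneg_left h3 (by positivity)
  exact le_of_sq_le_sq h4 (by positivity)

omit [Fintype J] in
lemma sum_sum_fM_le (hH : H.IsHermitian) {g : ℝ → ℝ} {M : ℝ} (hM : 0 ≤ M)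
    (hg : ∀ i, |g (hH.eigenvalues i)| ≤ M) (y y' : I → V) {m : ℕ}
    (hm : ∀ v, (Finset.univ.filter fun h => y h = v).card ≤ m)
    (hm' : ∀ v, (Finset.univ.filter fun h => y' h = v).card ≤ m) :
    ∑ h, ∑ h', |fM hH g (y h) (y' h')| ≤
      m ^ 2 * (Fintype.card V * (Real.sqrt (Fintype.card V) * M)) := by
  calc ∑ h, ∑ h', |fM hH g (y h) (y' h')| ≤ ∑ h, (m * ∑ w, |fM hH g (y h) w|) := by
        refine Finset.sum_le_sum fun h _ => ?_
        exact sum_fib_le (F := fun w => |fM hH g (y h) w|) (fun w => abs_nonneg _) y' hm'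
    _ = m * ∑ h, ∑ w, |fM hH g (y h) w| := by rw [Finset.mul_sum]
    _ ≤ m * (m * ∑ v, ∑ w, |fM hH g v w|) := by
        refine mul_le_mul_of_nonneg_left ?_ (Nat.cast_nonneg _)
        exact sum_fib_le (F := fun v => ∑ w, |fM hH g v w|)
          (fun v => Finset.sum_nonneg fun w _ => abs_nonneg _) y hm
    _ ≤ _ := by
        rw [← mul_assoc, ← sq]
        exact mul_le_mul_of_nonneg_left (sum_abs_fM_le hH hM hg) (by positivity)

lemma sum_sum_Gf_le (hH : H.IsHermitian) {g : ℝ → ℝ} {M : ℝ} (hM : 0 ≤ M)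
    (hg : ∀ i, |g (hH.eigenvalues i)| ≤ M) (x : B → I → V) (τ : B → J → ℝ) {m : ℕ}
    (hm : ∀ b v, (Finset.univ.filter fun h => x b h = v).card ≤ m) :
    ∑ h, ∑ h', |Gf hH g (aw x τ h) (aw x τ h')| ≤
      (∑ j, (∑ b, |τ b j|) ^ 2) *
        (m ^ 2 * (Fintype.card V * (Real.sqrt (Fintype.card V) * M))) := by
  calc ∑ h, ∑ h', |Gf hH g (aw x τ h) (aw x τ h')|
      ≤ ∑ h, ∑ h', ∑ j, ∑ b, ∑ b', |τ b j| * |τ b' j| * |fM hH g (x b h) (x b' h')| := by
        refine Finset.sum_le_sum fun h _ => Finset.sum_le_sum fun h' _ => ?_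
        rw [Gf_aw]
        refine (Finset.abs_sum_le_sum_abs _ _).trans (Finset.sum_le_sum fun j _ => ?_)
        refine (Finset.abs_sum_le_sum_abs _ _).trans (Finset.sum_le_sum fun b _ => ?_)
        refine (Finset.abs_sum_le_sum_abs _ _).trans (Finset.sum_le_sum fun b' _ => ?_)
        rw [abs_mul, abs_mul]
        apply le_of_eq
        ring
    _ = ∑ j, ∑ b, ∑ b', |τ b j| * |τ b' j| * ∑ h, ∑ h', |fM hH g (x b h) (x b' h')| := by
        simp only [Finset.mul_sum]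
        calc ∑ h, ∑ h', ∑ j, ∑ b, ∑ b', |τ b j| * |τ b' j| * |fM hH g (x b h) (x b' h')|
            = ∑ h, ∑ j, ∑ h', ∑ b, ∑ b', |τ b j| * |τ b' j| * |fM hH g (x b h) (x b' h')| :=
              Finset.sum_congr rfl fun h _ => Finset.sum_comm
          _ = ∑ j, ∑ h, ∑ h', ∑ b, ∑ b', |τ b j| * |τ b' j| * |fM hH g (x b h) (x b' h')| :=
              Finset.sum_comm
          _ = ∑ j, ∑ h, ∑ b, ∑ h', ∑ b', |τ b j| * |τ b' j| * |fM hH g (x b h) (x b' h')| :=
              Finset.sum_congr rfl fun j _ => Finset.sum_congr rfl fun h _ => Finset.sum_comm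
          _ = ∑ j, ∑ b, ∑ h, ∑ h', ∑ b', |τ b j| * |τ b' j| * |fM hH g (x b h) (x b' h')| :=
              Finset.sum_congr rfl fun j _ => Finset.sum_comm
          _ = ∑ j, ∑ b, ∑ h, ∑ b', ∑ h', |τ b j| * |τ b' j| * |fM hH g (x b h) (x b' h')| :=
              Finset.sum_congr rfl fun j _ => Finset.sum_congr rfl fun b _ =>
                Finset.sum_congr rfl fun h _ => Finset.sum_comm
          _ = _ :=
              Finset.sum_congr rfl fun j _ => Finset.sum_congr rfl fun b _ => Finset.sum_comm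
    _ ≤ ∑ j, ∑ b, ∑ b', |τ b j| * |τ b' j| *
          (m ^ 2 * (Fintype.card V * (Real.sqrt (Fintype.card V) * M))) := by
        refine Finset.sum_le_sum fun j _ => Finset.sum_le_sum fun b _ =>
          Finset.sum_le_sum fun b' _ => ?_
        exact mul_le_mul_of_nonneg_left (sum_sum_fM_le hH hM hg (x b) (x b') (hm b) (hm b'))
          (by positivity)
    _ = _ := by
        rw [Finset.sum_mul]
        refine Finset.sum_congr rfl fun j _ => ?_
        rw [sq (∑ b, |τ b j|), Finset.sum_mul, Finset.sum_mul]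
        refine Finset.sum_congr rfl fun b _ => ?_
        rw [Finset.mul_sum, Finset.sum_mul]

/-- window average of the centred exponentials -/
def Dw (hH : H.IsHermitian) (g : ℝ → ℝ) (x : B → I → V) (τ : B → J → ℝ) (φ : I → ℂ)
    (ξ : J → V → ℝ) : ℂ :=
  (∑ h, φ h * (Complex.exp (Complex.I * ((∑ j, ∑ b, τ b j * Zn hH g ξ j (x b h) : ℝ) : ℂ)) -
    Complex.exp (-((∑ j, ∑ b, ∑ b', τ b j * fM hH g (x b h) (x b' h) * τ b' j : ℝ) : ℂ) / 2))) /
    (Fintype.card I : ℂ)

lemma Dw_eq (hH : H.IsHermitian) (g : ℝ → ℝ) (x : B → I → V) (τ : B → J → ℝ) (φ : I → ℂ)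
    (ξ : J → V → ℝ) :
    Dw hH g x τ φ ξ = (∑ h, φ h * Ec hH g (aw x τ h) ξ) / (Fintype.card I : ℂ) := by
  unfold Dw Ec
  simp only [Lf_aw, Gf_aw]

lemma measurable_Dw (hH : H.IsHermitian) (g : ℝ → ℝ) (x : B → I → V) (τ : B → J → ℝ)
    (φ : I → ℂ) : Measurable (Dw hH g x τ φ) := by
  have : Dw hH g x τ φ = fun ξ => (∑ h, φ h * Ec hH g (aw x τ h) ξ) / (Fintype.card I : ℂ) := by
    ext ξ
    exact Dw_eq hH g x τ φ ξ
  rw [this]
  exact (Finset.measurable_sum _ fun h _ => (measurable_Ec hH g _).const_mul _).div_const _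

lemma norm_Ec_le (hH : H.IsHermitian) {g : ℝ → ℝ} (hg : ∀ i, 0 ≤ g (hH.eigenvalues i))
    (a ξ : J → V → ℝ) : ‖Ec hH g a ξ‖ ≤ 2 := by
  unfold Ec
  refine (norm_sub_le _ _).trans ?_
  have h1 : ‖Complex.exp (Complex.I * (Lf hH g a ξ : ℂ))‖ = 1 := by
    rw [mul_comm, Complex.norm_exp_ofReal_mul_I]
  have h2 : ‖Complex.exp (-(Gf hH g a a : ℂ) / 2)‖ ≤ 1 := by
    rw [Complex.norm_exp]
    have : (-(Gf hH g a a : ℂ) / 2).re = -(Gf hH g a a) / 2 := by
      have : (-(Gf hH g a a : ℂ) / 2) = ((-(Gf hH g a a) / 2 : ℝ) : ℂ) := by push_cast; ring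
      rw [this, Complex.ofReal_re]
    rw [this, Real.exp_le_one_iff]
    have := Gf_nonneg hH hg a
    linarith
  linarith

lemma norm_Dw_le (hH : H.IsHermitian) {g : ℝ → ℝ} (hg : ∀ i, 0 ≤ g (hH.eigenvalues i))
    (x : B → I → V) (τ : B → J → ℝ) (φ : I → ℂ) (hφ : ∀ h, ‖φ h‖ ≤ 1) (ξ : J → V → ℝ) :
    ‖Dw hH g x τ φ ξ‖ ≤ 2 := by
  rw [Dw_eq, norm_div, Complex.norm_natCast]
  rcases Nat.eq_zero_or_pos (Fintype.card I) with h0 | h0
  · rw [h0]; simp
  rw [div_le_iff₀ (by exact_mod_cast h0)]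
  refine (norm_sum_le _ _).trans ?_
  calc ∑ h, ‖φ h * Ec hH g (aw x τ h) ξ‖ ≤ ∑ _h : I, (2 : ℝ) := by
        refine Finset.sum_le_sum fun h _ => ?_
        rw [norm_mul]
        calc ‖φ h‖ * ‖Ec hH g (aw x τ h) ξ‖ ≤ 1 * 2 :=
              mul_le_mul (hφ h) (norm_Ec_le hH hg _ _) (norm_nonneg _) zero_le_one
          _ = 2 := one_mul _
    _ = 2 * (Fintype.card I : ℝ) := by
        rw [Finset.sum_const, Finset.card_univ, nsmul_eq_mul]; ring

/-- (N4) the `L²` law of large numbers -/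
theorem lln_L2 (hH : H.IsHermitian) {g : ℝ → ℝ} {M : ℝ} (hM : 0 ≤ M)
    (hg : ∀ i, 0 ≤ g (hH.eigenvalues i)) (hgM : ∀ i, g (hH.eigenvalues i) ≤ M)
    (x : B → I → V) (τ : B → J → ℝ) (φ : I → ℂ) (hφ : ∀ h, ‖φ h‖ ≤ 1) {m : ℕ}
    (hm : ∀ b v, (Finset.univ.filter fun h => x b h = v).card ≤ m)
    (hcard : Fintype.card I = m * Fintype.card V) :
    ∫ ξ, ‖Dw hH g x τ φ ξ‖ ^ 2 ∂(gm J V) ≤
      (∑ j, (∑ b, |τ b j|) ^ 2) * M / Real.sqrt (Fintype.card V) := by
  rcases Nat.eq_zero_or_pos (Fintype.card I) with h0 | h0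
  · have : ∀ ξ, ‖Dw hH g x τ φ ξ‖ ^ 2 = 0 := by
      intro ξ
      unfold Dw
      rw [h0]
      simp
    simp only [this, integral_zero]
    positivity
  have hI : (0 : ℝ) < Fintype.card I := by exact_mod_cast h0
  have hV : (0 : ℝ) < Fintype.card V := by
    have : 0 < Fintype.card V := by
      rcases Nat.eq_zero_or_pos (Fintype.card V) with h | h
      · rw [h] at hcard; omega
      · exact h
    exact_mod_cast this
  have hmpos : (0 : ℝ) < m := by
    have : 0 < m := by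
      rcases Nat.eq_zero_or_pos m with h | h
      · rw [h] at hcard; omega
      · exact h
    exact_mod_cast this
  have habs : ∀ i, |g (hH.eigenvalues i)| ≤ M := fun i => by
    rw [abs_of_nonneg (hg i)]; exact hgM i
  set S : (J → V → ℝ) → ℂ := fun ξ => ∑ h, φ h * Ec hH g (aw x τ h) ξ with hS
  have hD : ∀ ξ, ‖Dw hH g x τ φ ξ‖ ^ 2 = ‖S ξ‖ ^ 2 / (Fintype.card I : ℝ) ^ 2 := by
    intro ξ
    rw [Dw_eq, norm_div, Complex.norm_natCast, div_pow]
  simp only [hD]
  rw [integral_div]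
  have hprod : ∀ ξ, ((‖S ξ‖ ^ 2 : ℝ) : ℂ) = ∑ h, ∑ h', (φ h * (starRingEnd ℂ) (φ h')) *
      (Ec hH g (aw x τ h) ξ * (starRingEnd ℂ) (Ec hH g (aw x τ h') ξ)) := by
    intro ξ
    have : ((‖S ξ‖ ^ 2 : ℝ) : ℂ) = S ξ * (starRingEnd ℂ) (S ξ) := by
      rw [Complex.mul_conj, Complex.normSq_eq_norm_sq]
    rw [this, hS]
    simp only [map_sum, map_mul]
    rw [Finset.sum_mul]
    refine Finset.sum_congr rfl fun h _ => ?_
    rw [Finset.mul_sum]
    refine Finset.sum_congr rfl fun h' _ => by ring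
  have hint : ∀ h h', Integrable (fun ξ => Ec hH g (aw x τ h) ξ *
      (starRingEnd ℂ) (Ec hH g (aw x τ h') ξ)) (gm J V) := by
    intro h h'
    refine Integrable.of_bound ((measurable_Ec hH g _).mul
      (Complex.continuous_conj.measurable.comp (measurable_Ec hH g _))).aestronglyMeasurable 4 ?_
    refine Filter.Eventually.of_forall fun ξ => ?_
    rw [norm_mul, RCLike.norm_conj]
    calc _ ≤ (2 : ℝ) * 2 := mul_le_mul (norm_Ec_le hH hg _ _) (norm_Ec_le hH hg _ _)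
          (norm_nonneg _) (by norm_num)
      _ = 4 := by norm_num
  have hval : ((∫ ξ, ‖S ξ‖ ^ 2 ∂(gm J V) : ℝ) : ℂ) = ∑ h, ∑ h', (φ h * (starRingEnd ℂ) (φ h')) *
      ∫ ξ, Ec hH g (aw x τ h) ξ * (starRingEnd ℂ) (Ec hH g (aw x τ h') ξ) ∂(gm J V) := by
    rw [← integral_complex_ofReal]
    simp only [hprod]
    rw [integral_finsetSum _ fun h _ => integrable_finsetSum _ fun h' _ =>
      (hint h h').const_mul _]
    refine Finset.sum_congr rfl fun h _ => ?_
    rw [integral_finsetSum _ fun h' _ => (hint h h').const_mul _]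
    refine Finset.sum_congr rfl fun h' _ => ?_
    rw [integral_const_mul]
  have hnn : 0 ≤ ∫ ξ, ‖S ξ‖ ^ 2 ∂(gm J V) := integral_nonneg fun ξ => by positivity
  have hle : ∫ ξ, ‖S ξ‖ ^ 2 ∂(gm J V) ≤ (∑ j, (∑ b, |τ b j|) ^ 2) *
        (m ^ 2 * (Fintype.card V * (Real.sqrt (Fintype.card V) * M))) := by
    have h1 : ∫ ξ, ‖S ξ‖ ^ 2 ∂(gm J V) = ‖((∫ ξ, ‖S ξ‖ ^ 2 ∂(gm J V) : ℝ) : ℂ)‖ := by
      rw [Complex.norm_real, Real.norm_eq_abs, abs_of_nonneg hnn]
    rw [h1, hval]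
    refine le_trans ?_ (sum_sum_Gf_le hH hM habs x τ hm)
    refine (norm_sum_le _ _).trans (Finset.sum_le_sum fun h _ => ?_)
    refine (norm_sum_le _ _).trans (Finset.sum_le_sum fun h' _ => ?_)
    rw [norm_mul, norm_mul, RCLike.norm_conj]
    calc ‖φ h‖ * ‖φ h'‖ * _ ≤ 1 * |Gf hH g (aw x τ h) (aw x τ h')| := by
          refine mul_le_mul ?_ (norm_cov_le hH hg _ _) (norm_nonneg _) zero_le_one
          calc ‖φ h‖ * ‖φ h'‖ ≤ 1 * 1 := mul_le_mul (hφ h) (hφ h') (norm_nonneg _) zero_le_one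
            _ = 1 := one_mul 1
      _ = _ := one_mul _
  rw [div_le_div_iff₀ (by positivity) (Real.sqrt_pos.2 hV)]
  have hc : (Fintype.card I : ℝ) = m * Fintype.card V := by exact_mod_cast hcard
  rw [hc]
  have hsq : Real.sqrt (Fintype.card V) * Real.sqrt (Fintype.card V) = Fintype.card V :=
    Real.mul_self_sqrt hV.le
  calc (∫ ξ, ‖S ξ‖ ^ 2 ∂(gm J V)) * Real.sqrt (Fintype.card V)
      ≤ ((∑ j, (∑ b, |τ b j|) ^ 2) *
        (m ^ 2 * (Fintype.card V * (Real.sqrt (Fintype.card V) * M)))) *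
          Real.sqrt (Fintype.card V) :=
        mul_le_mul_of_nonneg_right hle (Real.sqrt_nonneg _)
    _ = (∑ j, (∑ b, |τ b j|) ^ 2) * M * (m ^ 2 * (Fintype.card V *
          (Real.sqrt (Fintype.card V) * Real.sqrt (Fintype.card V)))) := by ring
    _ = _ := by rw [hsq]; ring

/-- Chebyshev form of (N4) -/
theorem lln_prob (hH : H.IsHermitian) {g : ℝ → ℝ} {M : ℝ} (hM : 0 ≤ M)
    (hg : ∀ i, 0 ≤ g (hH.eigenvalues i)) (hgM : ∀ i, g (hH.eigenvalues i) ≤ M)
    (x : B → I → V) (τ : B → J → ℝ) (φ : I → ℂ) (hφ : ∀ h, ‖φ h‖ ≤ 1) {m : ℕ}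
    (hm : ∀ b v, (Finset.univ.filter fun h => x b h = v).card ≤ m)
    (hcard : Fintype.card I = m * Fintype.card V) {δ : ℝ} (hδ : 0 < δ) :
    (gm J V) {ξ | δ ≤ ‖Dw hH g x τ φ ξ‖} ≤
      ENNReal.ofReal ((∑ j, (∑ b, |τ b j|) ^ 2) * M / Real.sqrt (Fintype.card V) / δ ^ 2) := by
  have hint : Integrable (fun ξ => ‖Dw hH g x τ φ ξ‖ ^ 2) (gm J V) := by
    refine Integrable.of_bound ((measurable_Dw hH g x τ φ).norm.pow_const 2).aestronglyMeasurable
      4 (Filter.Eventually.of_forall fun ξ => ?_)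
    rw [Real.norm_eq_abs, abs_of_nonneg (by positivity)]
    calc ‖Dw hH g x τ φ ξ‖ ^ 2 ≤ 2 ^ 2 :=
          pow_le_pow_left₀ (norm_nonneg _) (norm_Dw_le hH hg x τ φ hφ ξ) 2
      _ = 4 := by norm_num
  have h1 := mul_meas_ge_le_integral_of_nonneg (μ := gm J V)
    (f := fun ξ => ‖Dw hH g x τ φ ξ‖ ^ 2) (Filter.Eventually.of_forall fun ξ => by positivity)
    hint (δ ^ 2)
  have h2 := lln_L2 hH hM hg hgM x τ φ hφ hm hcard
  have hset : {ξ | δ ≤ ‖Dw hH g x τ φ ξ‖} = {ξ | δ ^ 2 ≤ ‖Dw hH g x τ φ ξ‖ ^ 2} := by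
    ext ξ
    simp only [Set.mem_ofPred_eq]
    exact (pow_le_pow_iff_left₀ hδ.le (norm_nonneg _) (by norm_num)).symm
  rw [hset, ← ENNReal.ofReal_toReal (measure_ne_top (gm J V) _)]
  refine ENNReal.ofReal_le_ofReal ?_
  rw [le_div_iff₀ (by positivity), mul_comm]
  exact h1.trans h2

end Crest.Agent.R166.NoiseLLN849
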