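import Crest.Agent.R166.Seq_980
import Crest.Agent.R166.Count_674
import Crest.Agent.R166.NoiseLLN_849
import Crest.Agent.R166.TreeLike2_942
import Crest.Agent.R166.Lev_47

/-!
# Row 166, part B1 (helper955): interface of the sections 40.x  (v2: 980's `Seq`, 47's levels)

`Seq980.Seq` + `Extra` is the output of the extraction (980); `TypLim` = (T), `UppLim` = (U),
`LLNStar`, `LogDet` the inputs of the conditional mutual information bound `PsiDiff`.
All colours are finite; level `m` (47): `ω` in `2^m` cells of `[-1,1]`, `Y` in cells of mesh `8^-m`,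
clipped at `± 2^m`.
-/

set_option autoImplicit false
set_option linter.unusedSectionVars false

namespace Crest.Agent.R166.SpecB1

open MeasureTheory ProbabilityTheory Crest.ProbabilityR.RandomMatrix Filter Words955
open Crest.Agent.R166.Count674 (St Th)
open Crest.Agent.R166.Upp724 (View viewOf)
open Crest.Agent.R166.Seq980 (PS portLaw)

/-! ### Phase space -/

theorem Hm_isHermitian {n : ℕ} (G : SimpleGraph (Fin n)) (s : ℝ) (ω : Fin n → ℝ) :
    (Hm G s ω).IsHermitian := by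
  classical
  unfold Hm
  refine Matrix.IsHermitian.add ?_ ?_
  · ext v w
    simp [Matrix.conjTranspose_apply, SimpleGraph.adjMatrix_apply, SimpleGraph.adj_comm]
  · ext v w
    simp only [Matrix.conjTranspose_apply, Matrix.smul_apply, star_trivial]
    by_cases h : v = w
    · subst h; rfl
    · rw [Matrix.diagonal_apply_ne _ h, Matrix.diagonal_apply_ne _ (Ne.symm h)]

/-- values `(ω, X, Z)` at the vertices -/
def dXZ {n d k : ℕ} (x : PS d n) (F Z : Fin k → Fin n → ℝ) :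
    Fin n → ℝ × (Fin k → ℝ) × (Fin k → ℝ) :=
  fun v => (x.2 v, fun i => F i v, fun i => Z i v)

/-- number of the vertices which are not tree-like at radius `a` -/
noncomputable def nonTree {n d : ℕ} (a : ℕ) (p : Equiv.Perm (HE n d)) : ℕ :=
  Nat.card {v : Fin n // ¬ TreeLike942.TreeAt Prod.fst p a v}

/-- additional properties of the extracted sequence (from the Good events) -/
structure Extra {d k : ℕ} [NeZero d] (S : Seq980.Seq d k) (s E K' : ℝ) : Prop where
  hd : 3 ≤ d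
  frame : ∀ j, ∀ x ∈ S.U j, IsFrame (Hm (graphOf x.1) s x.2) E K' k (S.F j x)
  tree : ∀ (a : ℕ) (ε : ℝ), 0 < ε → ∀ᶠ j in atTop, ∀ x ∈ S.U j, (nonTree a x.1 : ℝ) ≤ ε * S.n j
  /-- uniform integrability of `|F|²` (from `NoEsc`) -/
  ui : ∀ ε : ℝ, 0 < ε → ∃ M : ℝ, ∀ᶠ j in atTop, ∀ x ∈ S.U j, ∀ i,
    ∑ v, (if M < |S.F j x i v| then (S.F j x i v) ^ 2 else 0) ≤ ε * S.n j

/-! ### Noise -/

/-- Gaussian field with covariance `g_η(H)`, `g_η(x) = c η / ((x-E)² + η²)` -/
noncomputable def ZP {n d k : ℕ} (s E η c : ℝ) (x : PS d n) (ξ : Fin k → Fin n → ℝ) :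
    Fin k → Fin n → ℝ :=
  NoiseLLN849.Zn (Hm_isHermitian (graphOf x.1) s x.2) (Noise547.geta E η c) ξ

/-- `(1/n) log det g_η(H)` -/
noncomputable def ldet {n d : ℕ} (s E η c : ℝ) (x : PS d n) : ℝ :=
  (∑ i, Real.log (Noise547.geta E η c
    ((Hm_isHermitian (graphOf x.1) s x.2).eigenvalues i))) / n

/-- the standard Gaussian array -/
noncomputable abbrev gmP (k n : ℕ) : Measure (Fin k → Fin n → ℝ) :=
  Measure.pi fun _ => Measure.pi fun _ => gaussianReal 0 1

/-- state space of the noisy limit process -/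
abbrev S2 (d k : ℕ) : Type := Fin d × ℝ × (Fin k → ℝ) × (Fin k → ℝ)

/-- `Q` is the limit law of `(label, ω, X, Z)`: uniformly in `x ∈ U j`, in probability in the
noise. -/
def IsNoisyLim {d k : ℕ} [NeZero d] (S : Seq980.Seq d k) (s E η c : ℝ)
    (Q : Measure (Conf d (S2 d k))) : Prop :=
  IsProbabilityMeasure Q ∧
  ∀ φ : Conf d (S2 d k) → ℝ, Continuous φ →
    (∃ C, ∀ ξ, |φ ξ| ≤ C) → ∀ ε : ℝ, 0 < ε → ∀ᶠ j in atTop, ∀ x ∈ S.U j,
      gmP k (S.n j) {ξ | ε < |∫ ζ, φ ζ ∂(emp x.1 (lab (dXZ x (S.F j x) (ZP s E η c x ξ))))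
        - ∫ ζ, φ ζ ∂Q|} ≤ ENNReal.ofReal ε

/-! ### Finite colours -/

/-- colours at level `m`, environment radius `a` -/
abbrev Col (d k a m : ℕ) : Type := View (Fin (2 ^ m)) (Fin d) a × (Fin k → Fin (2 * 16 ^ m))

/-- finite level colouring by `(radius a view of ω, Y)` -/
noncomputable def colV {n d k : ℕ} (a m : ℕ) (x : PS d n) (Y : Fin k → Fin n → ℝ) (v : Fin n) :
    Col d k a m :=
  (viewOf x.1 (fun v => Lev47.oq m (x.2 v)) a v, fun i => Lev47.yq m (Y i v))

section conf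
variable {d : ℕ} [NeZero d] {T S : Type}

/-- neighbour of the root through the port with ABSOLUTE label `i` -/
def nbr (i : Fin d) (ζ : Conf d (Fin d × T)) : Conf d (Fin d × T) := step (i - (ζ TW.nil).1) ζ

/-- radius `r` view of a configuration, coloured by `g` -/
def cview (g : Conf d (Fin d × T) → S) : (r : ℕ) → Conf d (Fin d × T) → View S (Fin d) r
  | 0, ζ => g ζ
  | (r + 1), ζ => (g ζ, fun i => ((nbr i ζ TW.nil).1, cview g r (nbr i ζ)))

/-- star type of a configuration, coloured by `g` -/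
def cstar (g : Conf d (Fin d × T) → S) (ζ : Conf d (Fin d × T)) : St S d :=
  (g ζ, fun i => ((nbr i ζ TW.nil).1, g (nbr i ζ)))

/-- law of the star type -/
noncomputable def qstar [MeasurableSpace T] (Q : Measure (Conf d (Fin d × T)))
    (g : Conf d (Fin d × T) → S) (s : St S d) : ℝ := Q.real {ζ | cstar g ζ = s}

theorem nbr_conf {V : Type} (p : V × Fin d → V × Fin d) (hp : ∀ h, p (p h) = h) (f : V → T)
    (h : V × Fin d) (i : Fin d) : nbr i (conf p (lab f) h) = conf p (lab f) (p (h.1, i)) := by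
  unfold nbr
  rw [← conf_step p hp (lab f) (lab_rot f)]
  congr 3
  simp [conf, walk, lab, TW.nil]

theorem cview_conf {V : Type} (p : V × Fin d → V × Fin d) (hp : ∀ h, p (p h) = h) (f : V → T)
    (g : Conf d (Fin d × T) → S) (c : V → S) (hg : ∀ h, g (conf p (lab f) h) = c h.1) (r : ℕ)
    (h : V × Fin d) : cview g r (conf p (lab f) h) = viewOf p c r h.1 := by
  induction r generalizing h with
  | zero => exact hg h
  | succ r ih =>
    simp only [cview, viewOf, hg, nbr_conf p hp]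
    congr 1
    funext i
    rw [ih]
    rfl

theorem cstar_conf {V : Type} (p : Equiv.Perm (V × Fin d)) (hp : ∀ h, p (p h) = h) (f : V → T)
    (g : Conf d (Fin d × T) → S) (c : V → S) (hg : ∀ h, g (conf p (lab f) h) = c h.1)
    (h : V × Fin d) : cstar g (conf p (lab f) h) = Count674.starOf p c h.1 := by
  simp only [cstar, Count674.starOf, hg, nbr_conf (⇑p) hp]
  rfl

theorem nbr_rotn (i j : Fin d) (ζ : Conf d (Fin d × T)) : nbr i (rotn j ζ) = nbr i ζ := by
  have h0 : (rotn j ζ TW.nil).1 = (ζ TW.nil).1 + j := by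
    simp [rotn, PortAct.rs]
  unfold nbr
  rw [h0]
  unfold step
  rw [rotn_rotn]
  congr 2
  abel

theorem cview_rotn (g : Conf d (Fin d × T) → S) (hg : ∀ j ζ, g (rotn j ζ) = g ζ) (r : ℕ)
    (j : Fin d) (ζ : Conf d (Fin d × T)) : cview g r (rotn j ζ) = cview g r ζ := by
  cases r with
  | zero => exact hg j ζ
  | succ r =>
    simp only [cview, nbr_rotn, hg]

end conf

/-- the level `(a, m)` colour of a configuration `(label, ω, X, Z)`, `Y = X + √t Z` -/
noncomputable def gcol (d k : ℕ) [NeZero d] (t : ℝ) (a m : ℕ) (ζ : Conf d (S2 d k)) :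
    Col d k a m :=
  (View47.vview a (View47.mapC (fun u : ℝ × (Fin k → ℝ) × (Fin k → ℝ) => Lev47.oq m u.1) ζ),
    fun i => Lev47.yq m ((ζ TW.nil).2.2.1 i + Real.sqrt t * (ζ TW.nil).2.2.2 i))

/-- edge marginal of a star law -/
def edgeR {S : Type} [Fintype S] [DecidableEq S] {d : ℕ} (q : St S d → ℝ) (t : Th S d) : ℝ :=
  ∑ s : St S d, if s.1 = t.1 ∧ s.2 t.2.1 = (t.2.2.1, t.2.2.2) then q s else 0

/-- `Ψ(q) = H(star) - (d/2) H(edge)` -/
noncomputable def PsiR {S : Type} [Fintype S] [DecidableEq S] {d : ℕ} (q : St S d → ℝ) : ℝ :=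
  (∑ s, Real.negMulLog (q s)) - (d : ℝ) / 2 * ∑ t, Real.negMulLog (edgeR q t / d)

/-- `Ψ` of the radius `R` views at the level `(a, m)` under the law `Q` -/
noncomputable def PsiL {d k : ℕ} [NeZero d] (t : ℝ) (Q : Measure (Conf d (S2 d k)))
    (a m R : ℕ) : ℝ := by
  classical exact PsiR (qstar Q (cview (gcol d k t a m) R))

/-! ### The statements -/

/-- (LLN) star counts of the samples converge in probability to the star law of `Q` -/
def LLNStar {d k : ℕ} [NeZero d] (S : Seq980.Seq d k) (s E η c t : ℝ)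
    (Q : Measure (Conf d (S2 d k))) : Prop :=
  ∀ (a m R : ℕ) (ε : ℝ), 0 < ε → ∀ᶠ j in atTop, ∀ x ∈ S.U j,
    gmP k (S.n j) {ξ | ∃ σ, ε < |(Nat.card {v // Count674.starOf x.1 (viewOf x.1
        (colV a m x (fun i v => S.F j x i v + Real.sqrt t * ZP s E η c x ξ i v)) R) v = σ} : ℝ)
          / S.n j - qstar Q (cview (gcol d k t a m) R) σ|} ≤ ENNReal.ofReal ε

/-- normalised log-determinants converge uniformly on `U j` -/
def LogDet {d k : ℕ} [NeZero d] (S : Seq980.Seq d k) (s E η c l : ℝ) : Prop :=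
  ∀ ε : ℝ, 0 < ε → ∀ᶠ j in atTop, ∀ x ∈ S.U j, |ldet s E η c x - l| ≤ ε

/-- (T) typical inequality -/
def TypLim {d k : ℕ} [NeZero d] (t l : ℝ) (Q : Measure (Conf d (S2 d k))) : Prop :=
  ∀ ε : ℝ, 0 < ε → ∃ m0 : ℕ, ∀ m : ℕ, m0 ≤ m → ∀ a R : ℕ,
    m * Real.log 2 + k * (m * Real.log 8) +
      (k : ℝ) / 2 * (Real.log (2 * Real.pi * Real.exp 1 * t) + l) - ε ≤ PsiL t Q a m R

/-- (U) upper inequality, `q = t + η/c` -/
def UppLim {d k : ℕ} [NeZero d] (t l q : ℝ) (Q : Measure (Conf d (S2 d k))) : Prop :=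
  ∀ ε : ℝ, 0 < ε → ∃ a0 m0 : ℕ, ∀ a m : ℕ, a0 ≤ a → m0 ≤ m →
    PsiL t Q a m 0 ≤ m * Real.log 2 + k * (m * Real.log 8) +
      (k : ℝ) / 2 * (Real.log (2 * Real.pi * Real.exp 1 * q) + l) + ε

/-- consequence: bound of the total conditional mutual information at fixed `η` -/
def PsiDiff {d k : ℕ} [NeZero d] (t q : ℝ) (Q : Measure (Conf d (S2 d k))) : Prop :=
  ∀ ε : ℝ, 0 < ε → ∃ a0 m0 : ℕ, ∀ a m : ℕ, a0 ≤ a → m0 ≤ m → ∀ R : ℕ,
    PsiL t Q a m 0 - PsiL t Q a m R ≤ (k : ℝ) / 2 * Real.log (q / t) + ε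

theorem psiDiff_of {d k : ℕ} [NeZero d] {t q l : ℝ} (ht : 0 < t) (hq : 0 < q)
    {Q : Measure (Conf d (S2 d k))}
    (hT : TypLim t l Q) (hU : UppLim t l q Q) : PsiDiff t q Q := by
  intro ε hε
  obtain ⟨m1, h1⟩ := hT (ε / 2) (by positivity)
  obtain ⟨a0, m0, h2⟩ := hU (ε / 2) (by positivity)
  refine ⟨a0, max m0 m1, fun a m ha hm R => ?_⟩
  have h3 := h1 m (le_trans (le_max_right _ _) hm) a R
  have h4 := h2 a m ha (le_trans (le_max_left _ _) hm)
  have h5 : Real.log (2 * Real.pi * Real.exp 1 * q) - Real.log (2 * Real.pi * Real.exp 1 * t) =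
      Real.log (q / t) := by
    rw [← Real.log_div (by positivity) (by positivity)]
    congr 1
    have := Real.exp_pos 1
    field_simp
  have h6 : (k : ℝ) / 2 * (Real.log (2 * Real.pi * Real.exp 1 * q) + l) -
      (k : ℝ) / 2 * (Real.log (2 * Real.pi * Real.exp 1 * t) + l) =
      (k : ℝ) / 2 * Real.log (q / t) := by
    rw [← h5]; ring
  linarith

/-- owners 674, 547 -/
def Stmt_T : Prop :=
  ∀ (d k : ℕ) [NeZero d] (S : Seq980.Seq d k) (s E K' η c t l : ℝ)
    (Q : Measure (Conf d (S2 d k))),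
    0 < η → 0 < c → 0 < t → Extra S s E K' → IsProbabilityMeasure Q →
    LLNStar S s E η c t Q → LogDet S s E η c l → TypLim t l Q

/-- owner 724 -/
def Stmt_U : Prop :=
  ∀ (d k : ℕ) [NeZero d] (S : Seq980.Seq d k) (s E K' η c t l : ℝ)
    (Q : Measure (Conf d (S2 d k))),
    0 < η → 0 < c → 0 < t → Extra S s E K' → IsProbabilityMeasure Q →
    LLNStar S s E η c t Q → LogDet S s E η c l → UppLim t l (t + η / c) Q

/-- existence of the noisy limit law; its `(label, ω, X)`-marginal is `S.P` -/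
def Stmt_Noisy : Prop :=
  ∀ (d k : ℕ) [NeZero d] (S : Seq980.Seq d k) (s E K' η c : ℝ),
    0 < η → 0 < c → Extra S s E K' →
    ∃ Q : Measure (Conf d (S2 d k)), IsNoisyLim S s E η c Q ∧
      Q.map (fun ζ w => (((ζ w).1, (ζ w).2.1, (ζ w).2.2.1) : Seq980.S1 d k)) = S.P ∧ Inv Q

/-- the star law of the samples from the convergence of the empirical laws -/
def Stmt_LLNStar : Prop :=
  ∀ (d k : ℕ) [NeZero d] (S : Seq980.Seq d k) (s E K' η c t : ℝ)
    (Q : Measure (Conf d (S2 d k))),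
    0 < η → 0 < c → 0 < t → Extra S s E K' → IsNoisyLim S s E η c Q →
    (∀ w (r : ℝ), Q {ζ | (ζ w).2.1 = r} = 0) →
    (∀ w i (r : ℝ), Q {ζ | (ζ w).2.2.1 i + Real.sqrt t * (ζ w).2.2.2 i = r} = 0) →
    LLNStar S s E η c t Q

/-- normalised log-determinants converge -/
def Stmt_LogDet : Prop :=
  ∀ (d k : ℕ) [NeZero d] (S : Seq980.Seq d k) (s E K' η c : ℝ),
    0 < η → 0 < c → Extra S s E K' → ∃ l, LogDet S s E η c l

end Crest.Agent.R166.SpecB1
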