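import Crest.Agent.R166.UIF_974
import Crest.Agent.R166.Spec_B1_955

/-!
Row 166 (helper974): all the level-independent events of the extraction in one budgeted family, and
the conclusions for the extracted sequence: `Extra`, `UIF`, `MeanOrth`, law of the environment.
-/

set_option autoImplicit false

namespace Crest.Agent.R166.Events974

open MeasureTheory Filter Topology ProbabilityTheory
open Crest.ProbabilityR.RandomMatrix
open Crest.Agent.R166 Crest.Agent.R166.Words955 Crest.Agent.R166.Seq980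
open Crest.Agent.R166.LimProps974 Crest.Agent.R166.Mean974
open Crest.Agent.R166.LimEnv289 (EIx GEnv GEnvN GEnvN_whp env_law_N)
open Crest.Agent.R166.SpecB1 (nonTree Extra)
open Crest.Agent.R166.TreeDefs350 (unif)
open Crest.Agent.R166.EnvLaw289 (envLaw)
open Crest.Agent.R166.Erg424 (envP)

variable {d : ℕ} [NeZero d]

/-! ### Tree-likeness -/

/-- at most `ε n` vertices are not tree-like at radius `a` -/
def GTree (d : ℕ) (a : ℕ) (ε : ℝ) (n : ℕ) : Set (PS d n) :=
  {x | (nonTree a x.1 : ℝ) ≤ ε * n}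

theorem GTree_whp (d : ℕ) [NeZero d] (a : ℕ) {ε : ℝ} (hε : 0 < ε) (δ : ℝ) (hδ : 0 < δ) :
    ∃ N : ℕ, ∀ n, N ≤ n → portLaw d n (GTree d a ε n)ᶜ ≤ ENNReal.ofReal δ := by
  classical
  have hd0 : 0 < d := Nat.pos_of_ne_zero (NeZero.ne d)
  obtain ⟨N, hN⟩ := TreeLike942.tree_whp_Ports d a hd0 ε δ hε hδ
  refine ⟨N, fun n hn => ?_⟩
  set Pb := (Ports n d).filter fun p => ε * n < (nonTree a p : ℝ) with hPb
  have h4 : (Pb.card : ℝ) ≤ δ * ((Ports n d).card : ℝ) := by
    refine hN n hn Pb (Finset.filter_subset _ _) fun p hp => ?_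
    exact (Finset.mem_filter.1 hp).2.le
  rw [portLaw_apply]
  have h1 : ∀ p ∈ Ports n d, (potentialLaw n) {ω | (p, ω) ∈ (GTree d a ε n)ᶜ} =
      if ε * n < (nonTree a p : ℝ) then 1 else 0 := by
    intro p _
    have hpr : IsProbabilityMeasure (potentialLaw n) := by
      rw [LimEnv289.potentialLaw_eq]; infer_instance
    split_ifs with h
    · have : {ω : Fin n → ℝ | (p, ω) ∈ (GTree d a ε n)ᶜ} = Set.univ := by
        ext ω; simp [GTree, h]
      rw [this, measure_univ]
    · have : {ω : Fin n → ℝ | (p, ω) ∈ (GTree d a ε n)ᶜ} = ∅ := by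
        ext ω; simpa [GTree] using h
      rw [this, measure_empty]
  rw [Finset.sum_congr rfl h1, ← Finset.sum_filter, Finset.sum_const, nsmul_eq_mul, mul_one]
  rcases Nat.eq_zero_or_pos (Ports n d).card with h0 | h0
  · have : ((Ports n d).filter fun p => ε * n < (nonTree a p : ℝ)).card = 0 := by
      have := Finset.card_filter_le (Ports n d) fun p => ε * n < (nonTree a p : ℝ)
      omega
    rw [this]; simp
  · have h2 : ((Ports n d).card : ENNReal) ≠ 0 := by exact_mod_cast h0.ne'
    have h3 : ((Ports n d).card : ENNReal) ≠ ⊤ := ENNReal.natCast_ne_top _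
    have h11 : (Pb.card : ENNReal) ≤ ENNReal.ofReal δ * ((Ports n d).card : ENNReal) := by
      rw [← ENNReal.ofReal_natCast, ← ENNReal.ofReal_natCast,
        ← ENNReal.ofReal_mul (by positivity)]
      exact ENNReal.ofReal_le_ofReal h4
    calc ((Ports n d).card : ENNReal)⁻¹ * (Pb.card : ENNReal)
        ≤ ((Ports n d).card : ENNReal)⁻¹ * (ENNReal.ofReal δ * ((Ports n d).card : ENNReal)) := by
          gcongr
      _ = ENNReal.ofReal δ := by
          rw [mul_comm (ENNReal.ofReal δ), ← mul_assoc, ENNReal.inv_mul_cancel h2 h3, one_mul]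

/-! ### The form of uniform integrability used in `Extra` -/

theorem extra_ui {k : ℕ} (S : Seq d k) (hui : UIF S) :
    ∀ ε : ℝ, 0 < ε → ∃ M : ℝ, ∀ᶠ j in atTop, ∀ x ∈ S.U j, ∀ i,
      ∑ v, (if M < |S.F j x i v| then (S.F j x i v) ^ 2 else 0) ≤ ε * S.n j := by
  intro ε hε
  obtain ⟨M, hM, h⟩ := hui ε hε
  refine ⟨M + 1, ?_⟩
  filter_upwards [h] with j hj x hx i
  refine le_trans (Finset.sum_le_sum fun v _ => ?_) (hj x hx)
  have h1 : (S.F j x i v) ^ 2 ≤ ∑ l, (S.F j x l v) ^ 2 :=
    Finset.single_le_sum (f := fun l => (S.F j x l v) ^ 2) (fun _ _ => sq_nonneg _)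
      (Finset.mem_univ i)
  have h0 : 0 ≤ ∑ l, (S.F j x l v) ^ 2 := Finset.sum_nonneg fun _ _ => sq_nonneg _
  split_ifs with h3 h4 h4
  · exact h1
  · exfalso
    apply h4
    have h5 : (M + 1) ^ 2 < (S.F j x i v) ^ 2 := by
      rw [← sq_abs (S.F j x i v)]
      exact pow_lt_pow_left₀ h3 (by positivity) (by norm_num)
    nlinarith
  · exact h0
  · exact le_rfl

/-! ### Everything in one family -/

/-- choice of indices: environment and mean events by enumeration, tree events for radius `i` -/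
theorem exists_events {s E ρ : ℝ} (hd : 3 ≤ d) (hs : 0 ≤ s) (hE : E ≠ d) (hIm : ImFix d s E ρ)
    (hNE : NoEsc d s E) (K' : ℝ) {b : ℝ} (hb : 0 < b) :
    ∃ G : ℕ → ∀ n, Set (PS d n),
      (∀ i, ∃ N : ℕ, ∀ n, N ≤ n → portLaw d n (G i n)ᶜ ≤ ENNReal.ofReal (b / 4 ^ i)) ∧
      ∀ (k : ℕ) (S : Seq d k),
        (∀ j, ∀ x ∈ S.U j, IsFrame (Hm (graphOf x.1) s x.2) E K' k (S.F j x)) →
        (∀ i, ∀ᶠ j in atTop, S.U j ⊆ G i (S.n j)) →
        Extra S s E K' ∧ UIF S ∧ MeanOrth S ∧ S.P.map envP = envLaw d unif := by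
  obtain ⟨e, he⟩ := exists_surjective_nat (EIx d)
  obtain ⟨M, hM⟩ := exists_GEsc hNE hb
  let GT : ℕ → ∀ n, Set (PS d n) := fun i n => GTree d i (1 / ((i : ℝ) + 1)) n
  refine ⟨fun i n => (GTree d i (1 / ((i : ℝ) + 1)) n ∩ GEnvN d i n) ∩
    (GMean d s E K' (e i) n ∩ GEsc d s E (M i) (1 / ((i : ℝ) + 1)) n), ?_, ?_⟩
  · intro i
    have hbi : 0 < b / 4 ^ (i + 2) := by positivity
    obtain ⟨N1, h1⟩ := GTree_whp d i (ε := 1 / ((i : ℝ) + 1)) (by positivity) _ hbi
    obtain ⟨N2, h2⟩ := GEnvN_whp d i _ hbi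
    obtain ⟨N3, h3⟩ := GMean_whp d hs K' hE hIm (e i) _ hbi
    obtain ⟨N4, h4⟩ := hM i
    refine ⟨max (max N1 N2) (max N3 N4), fun n hn => ?_⟩
    have g1 := h1 n (((le_max_left _ _).trans (le_max_left _ _)).trans hn)
    have g2 := h2 n (((le_max_right _ _).trans (le_max_left _ _)).trans hn)
    have g3 := h3 n (((le_max_left _ _).trans (le_max_right _ _)).trans hn)
    have g4 := h4 n (((le_max_right _ _).trans (le_max_right _ _)).trans hn)
    rw [Set.compl_inter, Set.compl_inter, Set.compl_inter]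
    refine (measure_union_le _ _).trans ((add_le_add ((measure_union_le _ _).trans
      (add_le_add g1 g2)) ((measure_union_le _ _).trans (add_le_add g3 g4))).trans ?_)
    rw [← ENNReal.ofReal_add hbi.le hbi.le, ← ENNReal.ofReal_add (by positivity) (by positivity)]
    apply ENNReal.ofReal_le_ofReal
    have h5 : b / 4 ^ i = 16 * (b / 4 ^ (i + 2)) := by
      rw [pow_add]
      field_simp
      norm_num
    rw [h5]
    linarith
  · intro k S hF hG
    have hF' : ∀ᶠ j in atTop, ∀ x ∈ S.U j, IsFrame (Hm (graphOf x.1) s x.2) E K' k (S.F j x) :=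
      Eventually.of_forall hF
    have hui : UIF S := by
      refine UIF_of_events S (s := s) (E := E) (K := K') (fun i => ⟨M i, ?_⟩) hF'
      filter_upwards [hG i] with j hj
      exact hj.trans (Set.inter_subset_right.trans Set.inter_subset_right)
    refine ⟨⟨hd, hF, ?_, extra_ui S hui⟩, hui, ?_, ?_⟩
    · intro a ε hε
      obtain ⟨m, hm⟩ := exists_nat_one_div_lt hε
      filter_upwards [hG (max a m)] with j hj x hx
      have h1 : (nonTree (max a m) x.1 : ℝ) ≤ 1 / (((max a m : ℕ) : ℝ) + 1) * S.n j :=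
        (hj hx).1.1
      have h2 : (nonTree a x.1 : ℝ) ≤ (nonTree (max a m) x.1 : ℝ) := by
        have : nonTree a x.1 ≤ nonTree (max a m) x.1 := by
          unfold nonTree
          refine Nat.card_le_card_of_injective (fun v => ⟨v.1, fun h => v.2
            (h.mono (le_max_left a m))⟩) ?_
          intro v w hvw
          exact Subtype.ext (by simpa using hvw)
        exact_mod_cast this
      refine h2.trans (h1.trans ?_)
      have h3 : 1 / (((max a m : ℕ) : ℝ) + 1) ≤ ε := by
        refine le_trans ?_ hm.le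
        apply one_div_le_one_div_of_le (by positivity)
        have : (m : ℝ) ≤ ((max a m : ℕ) : ℝ) := by exact_mod_cast le_max_right a m
        linarith
      have : (0 : ℝ) ≤ S.n j := Nat.cast_nonneg _
      gcongr
    · refine meanOrth_of_events S (s := s) (E := E) (K := K') (fun i => ?_) hF'
      obtain ⟨m, rfl⟩ := he i
      filter_upwards [hG m] with j hj
      exact hj.trans (Set.inter_subset_right.trans Set.inter_subset_left)
    · refine env_law_N S fun i => ?_
      filter_upwards [hG i] with j hj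
      exact hj.trans (Set.inter_subset_left.trans Set.inter_subset_right)

end Crest.Agent.R166.Events974
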