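import Mathlib

/-!
# Bernstein-type characterisation of Gaussian laws through orthogonal splittings (row 166, sec 42.5)

Pure analysis: a `C²` function `g` (later: a characteristic function) with
`g w = g (Q j w) * g (w - Q j w)` for a family of projections `Q j` which is
"irreducible" is the exponential of an affine + quadratic function.
-/

set_option autoImplicit false

open scoped RealInnerProductSpace ContDiff

namespace Crest.Agent.R166.Bern385

section Abstract

variable {W : Type*} [NormedAddCommGroup W] [NormedSpace ℝ W]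

/-- The logarithmic derivative. -/
noncomputable def al (g : W → ℂ) (w : W) : W →L[ℝ] ℂ := (g w)⁻¹ • fderiv ℝ g w

lemma al_contDiff {g : W → ℂ} (hg : ContDiff ℝ 2 g) (hne : ∀ w, g w ≠ 0) :
    ContDiff ℝ 1 (al g) := by
  have h1 : ContDiff ℝ 1 (fun w => (g w)⁻¹) := (hg.of_le (by norm_num)).inv hne
  have h2 : ContDiff ℝ 1 (fderiv ℝ g) := hg.fderiv_right (by norm_num)
  exact h1.smul h2

lemma al_apply (g : W → ℂ) (w u : W) : al g w u = (g w)⁻¹ * fderiv ℝ g w u := rfl

variable {g : W → ℂ} {Q : W →L[ℝ] W}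

lemma fderiv_split (hg : ContDiff ℝ 2 g) (hs : ∀ w, g w = g (Q w) * g (w - Q w)) (w u : W) :
    fderiv ℝ g w u = g (Q w) * fderiv ℝ g (w - Q w) (u - Q u)
      + g (w - Q w) * fderiv ℝ g (Q w) (Q u) := by
  have hd : Differentiable ℝ g := hg.differentiable (by norm_num)
  have h1 : HasFDerivAt (fun w => g (Q w)) ((fderiv ℝ g (Q w)).comp Q) w :=
    (hd (Q w)).hasFDerivAt.comp w Q.hasFDerivAt
  have h2 : HasFDerivAt (fun w => g (w - Q w))
      ((fderiv ℝ g (w - Q w)).comp (ContinuousLinearMap.id ℝ W - Q)) w :=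
    (hd (w - Q w)).hasFDerivAt.comp w ((hasFDerivAt_id w).sub Q.hasFDerivAt)
  have h3 := h1.mul h2
  have h4 : HasFDerivAt g _ w := h3.congr_of_eventuallyEq (Filter.Eventually.of_forall hs)
  rw [h4.fderiv]
  simp [smul_eq_mul]

lemma al_Q (hg : ContDiff ℝ 2 g) (hne : ∀ w, g w ≠ 0)
    (hQ : ∀ u, Q (Q u) = Q u) (hs : ∀ w, g w = g (Q w) * g (w - Q w)) (w u : W) :
    al g w (Q u) = al g (Q w) (Q u) := by
  rw [al_apply, al_apply, fderiv_split hg hs w (Q u)]
  rw [hQ, sub_self, map_zero, mul_zero, zero_add]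
  rw [hs w]
  have := hne (Q w); have := hne (w - Q w)
  field_simp

lemma al_Q' (hg : ContDiff ℝ 2 g) (hne : ∀ w, g w ≠ 0)
    (hQ : ∀ u, Q (Q u) = Q u) (hs : ∀ w, g w = g (Q w) * g (w - Q w)) (w u : W) :
    al g w (u - Q u) = al g (w - Q w) (u - Q u) := by
  rw [al_apply, al_apply, fderiv_split hg hs w (u - Q u)]
  have h0 : Q (u - Q u) = 0 := by rw [map_sub, hQ, sub_self]
  rw [h0, map_zero, mul_zero, add_zero, sub_zero]
  rw [hs w]
  have := hne (Q w); have := hne (w - Q w)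
  field_simp

/-- second logarithmic derivative -/
noncomputable def be (g : W → ℂ) (w : W) : W →L[ℝ] W →L[ℝ] ℂ := fderiv ℝ (al g) w

lemma be_apply_eq {g : W → ℂ} (hg : ContDiff ℝ 2 g) (hne : ∀ w, g w ≠ 0) (w u : W) :
    HasFDerivAt (fun w => al g w u) ((be g w).flip u) w := by
  have hd : Differentiable ℝ (al g) := (al_contDiff hg hne).differentiable (by norm_num)
  have h1 := (hd w).hasFDerivAt
  have h2 := h1.clm_apply (hasFDerivAt_const u w)
  convert! h2 using 1
  ext x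
  simp [be]

/-- mixed and diagonal blocks of `be`. -/
lemma be_block (hg : ContDiff ℝ 2 g) (hne : ∀ w, g w ≠ 0)
    (hQ : ∀ u, Q (Q u) = Q u) (hs : ∀ w, g w = g (Q w) * g (w - Q w)) (w v u : W) :
    be g w v (Q u) = be g (Q w) (Q v) (Q u) := by
  have h1 := be_apply_eq hg hne w (Q u)
  have h2 : HasFDerivAt (fun w => al g (Q w) (Q u)) (((be g (Q w)).flip (Q u)).comp Q) w :=
    (be_apply_eq hg hne (Q w) (Q u)).comp w Q.hasFDerivAt
  have h3 : (fun w => al g w (Q u)) = fun w => al g (Q w) (Q u) := by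
    funext w; exact al_Q hg hne hQ hs w u
  rw [h3] at h1
  have h4 := h1.unique h2
  have h5 := congrArg (fun L => L v) h4
  simpa using h5

lemma be_block' (hg : ContDiff ℝ 2 g) (hne : ∀ w, g w ≠ 0)
    (hQ : ∀ u, Q (Q u) = Q u) (hs : ∀ w, g w = g (Q w) * g (w - Q w)) (w v u : W) :
    be g w v (u - Q u) = be g (w - Q w) (v - Q v) (u - Q u) := by
  have h1 := be_apply_eq hg hne w (u - Q u)
  have h2 : HasFDerivAt (fun w => al g (w - Q w) (u - Q u))
      (((be g (w - Q w)).flip (u - Q u)).comp (ContinuousLinearMap.id ℝ W - Q)) w := by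
    have h0 : HasFDerivAt (fun w => w - Q w) (ContinuousLinearMap.id ℝ W - Q) w :=
      (hasFDerivAt_id w).sub Q.hasFDerivAt
    exact HasFDerivAt.comp (g := fun w => al g w (u - Q u)) w
      (be_apply_eq hg hne (w - Q w) (u - Q u)) h0
  have h3 : (fun w => al g w (u - Q u)) = fun w => al g (w - Q w) (u - Q u) := by
    funext w; exact al_Q' hg hne hQ hs w u
  rw [h3] at h1
  have h4 := h1.unique h2
  have h5 := congrArg (fun L => L v) h4
  simpa using h5

/-- A bilinear form is block diagonal for the projection `Q`. -/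
def Blk (Q : W →L[ℝ] W) (B : W →L[ℝ] W →L[ℝ] ℂ) : Prop :=
  (∀ u v, B (Q u) (v - Q v) = 0) ∧ ∀ u v, B (u - Q u) (Q v) = 0

lemma be_blk (hg : ContDiff ℝ 2 g) (hne : ∀ w, g w ≠ 0)
    (hQ : ∀ u, Q (Q u) = Q u) (hs : ∀ w, g w = g (Q w) * g (w - Q w)) (w : W) :
    Blk Q (be g w) := by
  constructor
  · intro u v
    rw [be_block' hg hne hQ hs, hQ, sub_self]; simp
  · intro u v
    rw [be_block hg hne hQ hs, map_sub, hQ, sub_self]; simp

lemma Blk.sub {B B' : W →L[ℝ] W →L[ℝ] ℂ} (h : Blk Q B) (h' : Blk Q B') : Blk Q (B - B') := by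
  constructor
  · intro u v; simp [h.1 u v, h'.1 u v]
  · intro u v
    have h1 := h.2 u v
    have h2 := h'.2 u v
    simp only [sub_apply]
    rw [h1, h2, sub_zero]

/-- **Abstract Bernstein theorem**: an irreducible splitting forces the exponential of a quadratic
function. -/
theorem exp_quadratic {ι : Type*} (Q : ι → W →L[ℝ] W) (hQ : ∀ j u, Q j (Q j u) = Q j u)
    (hg : ContDiff ℝ 2 g) (h0 : g 0 = 1) (hne : ∀ w, g w ≠ 0)
    (hs : ∀ j w, g w = g (Q j w) * g (w - Q j w)) (j0 : ι)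
    (hd1 : ∀ B : W →L[ℝ] W →L[ℝ] ℂ, (∀ j, Blk (Q j) B) →
      (∀ u v, B (Q j0 u) (Q j0 v) = 0) → B = 0)
    (hd2 : ∀ B : W →L[ℝ] W →L[ℝ] ℂ, (∀ j, Blk (Q j) B) →
      (∀ u v, B (u - Q j0 u) (v - Q j0 v) = 0) → B = 0) :
    ∃ (ℓ : W →L[ℝ] ℂ) (B : W →L[ℝ] W →L[ℝ] ℂ), (∀ j, Blk (Q j) B) ∧
      ∀ w, g w = Complex.exp (ℓ w + B w w / 2) := by
  have hblk : ∀ w j, Blk (Q j) (be g w) := fun w j => be_blk hg hne (hQ j) (hs j) w
  have hb1 : ∀ w, be g w = be g (Q j0 w) := by
    intro w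
    rw [← sub_eq_zero]
    apply hd1
    · intro j; exact (hblk w j).sub (hblk _ j)
    · intro u v
      simp only [sub_apply]
      rw [be_block hg hne (hQ j0) (hs j0) w, be_block hg hne (hQ j0) (hs j0) (Q j0 w)]
      simp only [hQ, sub_self]
  have hb2 : ∀ w, be g w = be g (w - Q j0 w) := by
    intro w
    rw [← sub_eq_zero]
    apply hd2
    · intro j; exact (hblk w j).sub (hblk _ j)
    · intro u v
      simp only [sub_apply]
      have e : (w - Q j0 w) - Q j0 (w - Q j0 w) = w - Q j0 w := by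
        rw [map_sub, hQ, sub_self, sub_zero]
      have h1 := be_block' hg hne (hQ j0) (hs j0) w (u - Q j0 u) v
      have h2 := be_block' hg hne (hQ j0) (hs j0) (w - Q j0 w) (u - Q j0 u) v
      rw [e] at h2
      rw [h1, h2, sub_self]
  have hb3 : ∀ w, be g w = be g 0 := by
    intro w
    rw [hb2 w, hb1 (w - Q j0 w), map_sub, hQ, sub_self]
  have hal : ∀ w, al g w = al g 0 + be g 0 w := by
    have hd : Differentiable ℝ (al g) := (al_contDiff hg hne).differentiable (by norm_num)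
    have hd' : Differentiable ℝ (fun w => al g w - be g 0 w) :=
      hd.sub (be g 0).differentiable
    have hz : ∀ w, fderiv ℝ (fun w => al g w - be g 0 w) w = 0 := by
      intro w
      have h1 : HasFDerivAt (fun w => al g w - be g 0 w) (be g w - be g 0) w :=
        (hd w).hasFDerivAt.sub (be g 0).hasFDerivAt
      rw [h1.fderiv, hb3 w]
      exact sub_self (be g 0)
    intro w
    have h2 := is_const_of_fderiv_eq_zero hd' hz w 0
    simp only [map_zero, sub_zero] at h2
    rw [← h2]; abel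
  refine ⟨al g 0, be g 0, fun j => hblk 0 j, fun w => ?_⟩
  -- one-dimensional ODE along the ray
  have hd : Differentiable ℝ g := hg.differentiable (by norm_num)
  let φ : ℝ → ℂ := fun t => g (t • w) * Complex.exp (-((t : ℂ) * al g 0 w + (t : ℂ) ^ 2 * be g 0 w w / 2))
  have hφ : ∀ t, HasDerivAt φ 0 t := by
    intro t
    have h1 : HasDerivAt (fun t : ℝ => g (t • w)) (fderiv ℝ g (t • w) w) t := by
      have h2 : HasDerivAt (fun t : ℝ => t • w) w t := by
        simpa using (hasDerivAt_id t).smul_const w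
      exact (hd (t • w)).hasFDerivAt.comp_hasDerivAt t h2
    have h3 : HasDerivAt (fun t : ℝ => ((t : ℂ))) 1 t := Complex.ofRealCLM.hasDerivAt
    have h4 : HasDerivAt (fun t : ℝ => -((t : ℂ) * al g 0 w + (t : ℂ) ^ 2 * be g 0 w w / 2))
        (-(al g 0 w + (t : ℂ) * be g 0 w w)) t := by
      have h5 := (h3.mul_const (al g 0 w)).add (((h3.pow 2).mul_const (be g 0 w w)).div_const 2)
      have h6 := h5.neg
      convert! h6 using 1
      push_cast
      ring
    have h7 := h1.mul h4.cexp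
    have h8 : fderiv ℝ g (t • w) w = g (t • w) * (al g 0 w + (t : ℂ) * be g 0 w w) := by
      have h9 : al g (t • w) w = al g 0 w + (t : ℂ) * be g 0 w w := by
        rw [hal (t • w)]; simp
      rw [al_apply] at h9
      rw [← h9]
      have := hne (t • w)
      field_simp
    convert! h7 using 1
    rw [h8]
    ring
  have hc : φ 1 = φ 0 := by
    have hdφ : Differentiable ℝ φ := fun t => (hφ t).differentiableAt
    exact is_const_of_deriv_eq_zero hdφ (fun t => (hφ t).deriv) 1 0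
  simp only [φ, one_smul, zero_smul, h0, Complex.ofReal_one, Complex.ofReal_zero, one_mul,
    one_pow, zero_mul, ne_eq, OfNat.ofNat_ne_zero, not_false_eq_true, zero_pow, zero_div,
    add_zero, neg_zero, Complex.exp_zero] at hc
  rw [Complex.exp_neg] at hc
  have hex := Complex.exp_ne_zero (al g 0 w + be g 0 w w / 2)
  rw [mul_inv_eq_iff_eq_mul₀ hex, one_mul] at hc
  exact hc

end Abstract

section Zero

variable {W : Type*} [NormedAddCommGroup W] [InnerProductSpace ℝ W] [FiniteDimensional ℝ W]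

lemma norm_sq_split {Q : W →L[ℝ] W} (horth : ∀ u v, ⟪Q u, v - Q v⟫ = 0) (w : W) :
    ‖w‖ ^ 2 = ‖Q w‖ ^ 2 + ‖w - Q w‖ ^ 2 := by
  have h : w = Q w + (w - Q w) := by abel
  have h1 := norm_add_sq_real (Q w) (w - Q w)
  rw [horth w w, ← h] at h1
  linarith

/-- a continuous function with `g 0 ≠ 0` that splits along enough orthogonal projections has no
zeros. -/
theorem ne_zero_of_split {ι : Type*} {g : W → ℂ} (hg : Continuous g) (h0 : g 0 ≠ 0)
    (Q : ι → W →L[ℝ] W) (horth : ∀ j u v, ⟪Q j u, v - Q j v⟫ = 0)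
    (hs : ∀ j w, g w = g (Q j w) * g (w - Q j w))
    (hN : ∀ w, w ≠ 0 → ∃ j, Q j w ≠ 0 ∧ Q j w ≠ w) : ∀ w, g w ≠ 0 := by
  by_contra hcon
  push_neg at hcon
  obtain ⟨w₀, hw₀⟩ := hcon
  have hcl : IsClosed {w | g w = 0} := isClosed_eq hg continuous_const
  have hcomp : IsCompact ({w | g w = 0} ∩ Metric.closedBall 0 ‖w₀‖) :=
    (isCompact_closedBall _ _).inter_left hcl
  obtain ⟨w, hw, hmin⟩ := hcomp.exists_isMinOn ⟨w₀, hw₀, by simp⟩ continuous_norm.continuousOn
  have hwz : g w = 0 := hw.1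
  have hwn : w ≠ 0 := by
    rintro rfl
    exact h0 hwz
  have hmin' : ∀ u, g u = 0 → ‖w‖ ≤ ‖u‖ := by
    intro u hu
    by_cases hu' : ‖u‖ ≤ ‖w₀‖
    · exact hmin ⟨hu, by simpa using hu'⟩
    · have : ‖w‖ ≤ ‖w₀‖ := by simpa using hw.2
      linarith
  obtain ⟨j, hj1, hj2⟩ := hN w hwn
  have hn := norm_sq_split (horth j) w
  have hp1 : 0 < ‖Q j w‖ ^ 2 := by positivity
  have hp2 : 0 < ‖w - Q j w‖ ^ 2 := by
    have : w - Q j w ≠ 0 := sub_ne_zero.2 (Ne.symm hj2)
    positivity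
  have hz := hs j w
  rw [hwz] at hz
  rcases mul_eq_zero.1 hz.symm with h | h
  · have := hmin' _ h
    have h2 : ‖w‖ ^ 2 ≤ ‖Q j w‖ ^ 2 := by gcongr
    linarith
  · have := hmin' _ h
    have h2 : ‖w‖ ^ 2 ≤ ‖w - Q j w‖ ^ 2 := by gcongr
    linarith

end Zero

end Crest.Agent.R166.Bern385
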