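import Mathlib
import Crest.Agent.R166.Bern_385

/-!
# Bernstein theorem on a star (row 166, sec 42.5)

`ι` = neighbours of a vertex, weights `a i > 0`, `A = ∑ a i`, at least three neighbours.
`W : ι → κ → ℝ` residuals with `∑ W i = 0`; for every `i` the vector `W i` is independent of
`(W j + a j / (A - a i) * W i)_j`. Then `W` is Gaussian with covariance
`(a i δ_ij - a i a j / A) ⊗ S`. Here: characteristic function form.
-/

set_option autoImplicit false

open scoped ContDiff
open Crest.Agent.R166.Bern385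

namespace Crest.Agent.R166.Bern385

variable {ι κ : Type*} [Fintype ι] [DecidableEq ι] [Fintype κ]

/-- coefficient of the dual projection on coordinate `i` -/
noncomputable def cf (a : ι → ℝ) (i : ι) (w : ι → κ → ℝ) (l : κ) : ℝ :=
  ((∑ j, a j) * w i l - ∑ j, a j * w j l) / ((∑ j, a j) - a i)

/-- dual projection on coordinate `i` -/
noncomputable def QL (a : ι → ℝ) (i : ι) : (ι → κ → ℝ) →ₗ[ℝ] (ι → κ → ℝ) where
  toFun w := Pi.single i (fun l => cf a i w l)
  map_add' u v := by
    rw [← Pi.single_add]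
    congr 1
    funext l
    simp only [cf, Pi.add_apply, mul_add, Finset.sum_add_distrib]
    ring
  map_smul' c u := by
    rw [RingHom.id_apply, ← Pi.single_smul]
    congr 1
    funext l
    simp only [cf, Pi.smul_apply, smul_eq_mul]
    have : ∑ j, a j * (c * u j l) = c * ∑ j, a j * u j l := by
      rw [Finset.mul_sum]; exact Finset.sum_congr rfl fun j _ => by ring
    rw [this]; ring

/-- continuous version -/
noncomputable def Q (a : ι → ℝ) (i : ι) : (ι → κ → ℝ) →L[ℝ] (ι → κ → ℝ) :=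
  LinearMap.toContinuousLinearMap (QL a i)

lemma Q_apply (a : ι → ℝ) (i : ι) (w : ι → κ → ℝ) : Q a i w = Pi.single i (cf a i w) := rfl

lemma sum_lt {a : ι → ℝ} (ha : ∀ i, 0 < a i) (h3 : 3 ≤ Fintype.card ι) (i : ι) :
    a i < ∑ j, a j := by
  have h2 : 1 < Fintype.card ι := by omega
  obtain ⟨j, hj⟩ := Fintype.exists_ne_of_one_lt_card h2 i
  calc a i < a i + a j := by linarith [ha j]
    _ = ∑ k ∈ {i, j}, a k := by rw [Finset.sum_pair (Ne.symm hj)]
    _ ≤ ∑ j, a j := Finset.sum_le_sum_of_subset_of_nonneg (Finset.subset_univ _)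
        fun k _ _ => (ha k).le

lemma sum_lt2 {a : ι → ℝ} (ha : ∀ i, 0 < a i) (h3 : 3 ≤ Fintype.card ι) {i j : ι} (hij : i ≠ j) :
    a i + a j < ∑ j, a j := by
  have : ∃ k, k ∉ ({i, j} : Finset ι) := by
    by_contra hcon
    push Not at hcon
    have h1 : (Finset.univ : Finset ι) ⊆ {i, j} := fun k _ => hcon k
    have h2 := Finset.card_le_card h1
    rw [Finset.card_univ] at h2
    have h3' := Finset.card_le_two (a := i) (b := j)
    omega
  obtain ⟨k, hk⟩ := this
  have h1 : ∑ l ∈ insert k ({i, j} : Finset ι), a l ≤ ∑ j, a j :=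
    Finset.sum_le_sum_of_subset_of_nonneg (Finset.subset_univ _) fun l _ _ => (ha l).le
  rw [Finset.sum_insert hk, Finset.sum_pair hij] at h1
  linarith [ha k]

lemma cf_single_self {a : ι → ℝ} (ha : ∀ i, 0 < a i) (h3 : 3 ≤ Fintype.card ι) (i : ι)
    (x : κ → ℝ) : cf a i (Pi.single i x) = x := by
  funext l
  have h1 : ∑ j, a j * (Pi.single i x : ι → κ → ℝ) j l = a i * x l := by
    rw [Finset.sum_eq_single i]
    · simp
    · intro j _ hj; simp [Pi.single_eq_of_ne hj]
    · simp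
  have h2 : (∑ j, a j) - a i ≠ 0 := by have := sum_lt ha h3 i; linarith
  simp only [cf, h1, Pi.single_eq_same]
  field_simp

lemma cf_single_ne {a : ι → ℝ} {i j : ι} (hij : j ≠ i) (x : κ → ℝ) :
    cf a i (Pi.single j x) = (-(a j / ((∑ j, a j) - a i))) • x := by
  funext l
  have h1 : ∑ k, a k * (Pi.single j x : ι → κ → ℝ) k l = a j * x l := by
    rw [Finset.sum_eq_single j]
    · simp
    · intro k _ hk; simp [Pi.single_eq_of_ne hk]
    · simp
  simp only [cf, h1, Pi.single_eq_of_ne (Ne.symm hij), Pi.smul_apply, smul_eq_mul, Pi.zero_apply]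
  ring

lemma Q_single_self {a : ι → ℝ} (ha : ∀ i, 0 < a i) (h3 : 3 ≤ Fintype.card ι) (i : ι)
    (x : κ → ℝ) : Q a i (Pi.single i x) = Pi.single i x := by
  rw [Q_apply, cf_single_self ha h3]

lemma Q_single_ne {a : ι → ℝ} {i j : ι} (hij : j ≠ i) (x : κ → ℝ) :
    Q a i (Pi.single j x) = (-(a j / ((∑ j, a j) - a i))) • (Pi.single i x : ι → κ → ℝ) := by
  rw [Q_apply, cf_single_ne hij, Pi.single_smul]

lemma Q_idem {a : ι → ℝ} (ha : ∀ i, 0 < a i) (h3 : 3 ≤ Fintype.card ι) (i : ι)
    (u : ι → κ → ℝ) : Q a i (Q a i u) = Q a i u := by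
  rw [Q_apply a i u, Q_single_self ha h3]

/-! ### block forms -/

section Forms

variable {a : ι → ℝ} {B : (ι → κ → ℝ) →L[ℝ] (ι → κ → ℝ) →L[ℝ] ℂ}

lemma B_single_single (ha : ∀ i, 0 < a i) (h3 : 3 ≤ Fintype.card ι)
    (hB : ∀ i, Blk (Q a i) B) {i j : ι} (hij : j ≠ i) (x y : κ → ℝ) :
    B (Pi.single i x) (Pi.single j y) =
      (-(a j / ((∑ j, a j) - a i)) : ℝ) • B (Pi.single i x) (Pi.single i y) := by
  have h := (hB i).1 (Pi.single i x) (Pi.single j y)
  rw [Q_single_self ha h3, Q_single_ne hij, map_sub, map_smul, sub_eq_zero] at h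
  exact h

lemma B_single_single' (ha : ∀ i, 0 < a i) (h3 : 3 ≤ Fintype.card ι)
    (hB : ∀ i, Blk (Q a i) B) {i j : ι} (hij : j ≠ i) (x y : κ → ℝ) :
    B (Pi.single i x) (Pi.single j y) =
      (-(a i / ((∑ j, a j) - a j)) : ℝ) • B (Pi.single j x) (Pi.single j y) := by
  have h := (hB j).2 (Pi.single i x) (Pi.single j y)
  rw [Q_single_self ha h3, Q_single_ne (Ne.symm hij), map_sub, map_smul] at h
  simp only [sub_apply, smul_apply] at h
  rw [sub_eq_zero] at h
  exact h

/-- proportionality of the diagonal blocks -/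
lemma B_diag (ha : ∀ i, 0 < a i) (h3 : 3 ≤ Fintype.card ι)
    (hB : ∀ i, Blk (Q a i) B) (i j : ι) (x y : κ → ℝ) :
    ((a j * ((∑ j, a j) - a j) : ℝ) : ℂ) * B (Pi.single i x) (Pi.single i y) =
      ((a i * ((∑ j, a j) - a i) : ℝ) : ℂ) * B (Pi.single j x) (Pi.single j y) := by
  by_cases hij : j = i
  · subst hij; rfl
  have h1 := B_single_single ha h3 hB hij x y
  have h2 := B_single_single' ha h3 hB hij x y
  rw [h1] at h2
  have hi : (∑ j, a j) - a i ≠ 0 := by have := sum_lt ha h3 i; linarith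
  have hj : (∑ j, a j) - a j ≠ 0 := by have := sum_lt ha h3 j; linarith
  have h4 : (((∑ j, a j) - a i : ℝ) : ℂ) ≠ 0 := by exact_mod_cast hi
  have h5 : (((∑ j, a j) - a j : ℝ) : ℂ) ≠ 0 := by exact_mod_cast hj
  simp only [Complex.real_smul, Complex.ofReal_neg, Complex.ofReal_div] at h2
  rw [neg_mul, neg_mul, neg_inj, div_mul_eq_mul_div, div_mul_eq_mul_div, div_eq_div_iff h4 h5] at h2
  push_cast at h2 ⊢
  linear_combination h2

lemma eq_sum_single (w : ι → κ → ℝ) : w = ∑ i, Pi.single i (w i) :=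
  (Finset.univ_sum_single w).symm

/-- `B = K ⊗ S` -/
lemma B_eq_zero_of_diag (ha : ∀ i, 0 < a i) (h3 : 3 ≤ Fintype.card ι)
    (hB : ∀ i, Blk (Q a i) B) (i0 : ι)
    (h0 : ∀ x y : κ → ℝ, B (Pi.single i0 x) (Pi.single i0 y) = 0) : B = 0 := by
  have hd : ∀ i, ∀ x y : κ → ℝ, B (Pi.single i x) (Pi.single i y) = 0 := by
    intro i x y
    have h := B_diag ha h3 hB i i0 x y
    rw [h0, mul_zero] at h
    have h1 : a i0 * ((∑ j, a j) - a i0) ≠ 0 := by
      have := sum_lt ha h3 i0
      have := ha i0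
      apply mul_ne_zero <;> linarith
    rcases mul_eq_zero.1 h with h2 | h2
    · exact absurd (by exact_mod_cast h2) h1
    · exact h2
  refine ContinuousLinearMap.ext fun u => ContinuousLinearMap.ext fun v => ?_
  have hz : ∀ i j, B (Pi.single j (u j)) (Pi.single i (v i)) = 0 := by
    intro i j
    by_cases hij : i = j
    · subst hij; exact hd _ _ _
    · rw [B_single_single ha h3 hB hij, hd, smul_zero]
  rw [eq_sum_single u, eq_sum_single v]
  simp only [map_sum, FunLike.coe_sum, Finset.sum_apply, zero_apply, hz, Finset.sum_const_zero]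

lemma det1 (ha : ∀ i, 0 < a i) (h3 : 3 ≤ Fintype.card ι)
    (hB : ∀ i, Blk (Q a i) B) (i0 : ι) (h0 : ∀ u v, B (Q a i0 u) (Q a i0 v) = 0) : B = 0 := by
  refine B_eq_zero_of_diag ha h3 hB i0 fun x y => ?_
  have := h0 (Pi.single i0 x) (Pi.single i0 y)
  rwa [Q_single_self ha h3, Q_single_self ha h3] at this

lemma det2 (ha : ∀ i, 0 < a i) (h3 : 3 ≤ Fintype.card ι)
    (hB : ∀ i, Blk (Q a i) B) (i0 : ι)
    (h0 : ∀ u v, B (u - Q a i0 u) (v - Q a i0 v) = 0) : B = 0 := by
  have h2 : 1 < Fintype.card ι := by omega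
  obtain ⟨j, hj⟩ := Fintype.exists_ne_of_one_lt_card h2 i0
  refine B_eq_zero_of_diag ha h3 hB i0 fun x y => ?_
  have h := h0 (Pi.single j x) (Pi.single j y)
  have hb1 := (hB i0).1 (Pi.single j x) (Pi.single j y)
  have hb2 := (hB i0).2 (Pi.single j x) (Pi.single j y)
  have h4 : B (Pi.single j x) (Pi.single j y) =
      B (Q a i0 (Pi.single j x)) (Q a i0 (Pi.single j y)) := by
    simp only [map_sub, sub_apply] at h hb1 hb2 ⊢
    linear_combination h + hb1 + hb2
  rw [Q_single_ne hj, Q_single_ne hj] at h4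
  simp only [map_smul, smul_apply, Complex.real_smul] at h4
  have hd := B_diag ha h3 hB i0 j x y
  set A := ∑ j, a j with hA
  have hi : A - a i0 ≠ 0 := by have := sum_lt ha h3 i0; rw [hA]; linarith
  have hiC : ((A : ℂ) - (a i0 : ℂ)) ≠ 0 := by exact_mod_cast hi
  have hlt := sum_lt2 ha h3 hj
  rw [← hA] at hlt
  have haj := ha j
  have hai := ha i0
  rw [h4] at hd
  push_cast at hd
  field_simp at hd
  have h6 : ((a j : ℂ) * (A - a j) * (A - a i0) - (a i0 : ℂ) * (a j : ℂ) ^ 2) *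
      B (Pi.single i0 x) (Pi.single i0 y) = 0 := by
    linear_combination hd
  rcases mul_eq_zero.1 h6 with h7 | h7
  · exfalso
    have h8 : (a j * (A - a j) * (A - a i0) - a i0 * a j ^ 2 : ℝ) = 0 := by exact_mod_cast h7
    have h9 : a j * (A - a j) * (A - a i0) - a i0 * a j ^ 2 = a j * (A * (A - a j - a i0)) := by
      ring
    have hApos : 0 < A := by linarith
    have : 0 < a j * (A * (A - a j - a i0)) := by
      apply mul_pos haj; apply mul_pos hApos; linarith
    rw [h9] at h8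
    linarith
  · exact h7

end Forms

end Crest.Agent.R166.Bern385
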