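import Mathlib
import Crest.Agent.R166.Bern2_385

/-!
# Bernstein theorem on a star, part 2 (row 166, sec 42.5): no zeros, and the quadratic form
-/

set_option autoImplicit false

open scoped ContDiff
open Crest.Agent.R166.Bern385

namespace Crest.Agent.R166.Bern385

variable {ι κ : Type*} [Fintype ι] [DecidableEq ι] [Fintype κ]

/-- weighted variance form -/
noncomputable def nv (a : ι → ℝ) (u : ι → ℝ) : ℝ :=
  ∑ i, a i * u i ^ 2 - (∑ i, a i * u i) ^ 2 / ∑ i, a i

lemma sum_pos' {a : ι → ℝ} (ha : ∀ i, 0 < a i) (h3 : 3 ≤ Fintype.card ι) : 0 < ∑ i, a i := by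
  have : Nonempty ι := Fintype.card_pos_iff.1 (by omega)
  exact Finset.sum_pos (fun i _ => ha i) Finset.univ_nonempty

lemma nv_single {a : ι → ℝ} (ha : ∀ i, 0 < a i) (h3 : 3 ≤ Fintype.card ι) (i : ι) (c : ℝ) :
    nv a (Pi.single i c) = a i * ((∑ j, a j) - a i) / (∑ j, a j) * c ^ 2 := by
  have h1 : ∑ j, a j * (Pi.single i c : ι → ℝ) j ^ 2 = a i * c ^ 2 := by
    rw [Finset.sum_eq_single i]
    · simp
    · intro j _ hj; simp [Pi.single_eq_of_ne hj]
    · simp
  have h2 : ∑ j, a j * (Pi.single i c : ι → ℝ) j = a i * c := by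
    rw [Finset.sum_eq_single i]
    · simp
    · intro j _ hj; simp [Pi.single_eq_of_ne hj]
    · simp
  have hA := (sum_pos' ha h3).ne'
  rw [nv, h1, h2]
  field_simp

lemma nv_sub_single {a : ι → ℝ} (ha : ∀ i, 0 < a i) (h3 : 3 ≤ Fintype.card ι) (i : ι)
    (u : ι → ℝ) (c : ℝ) (hc : c = ((∑ j, a j) * u i - ∑ j, a j * u j) / ((∑ j, a j) - a i)) :
    nv a (u - Pi.single i c) = nv a u - a i * ((∑ j, a j) - a i) / (∑ j, a j) * c ^ 2 := by
  have h1 : ∑ j, a j * (u - Pi.single i c : ι → ℝ) j ^ 2 =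
      ∑ j, a j * u j ^ 2 - 2 * a i * u i * c + a i * c ^ 2 := by
    have : ∀ j, a j * (u - Pi.single i c : ι → ℝ) j ^ 2 = a j * u j ^ 2 +
        (if j = i then (- 2 * a i * u i * c + a i * c ^ 2) else 0) := by
      intro j
      by_cases hj : j = i
      · subst hj; simp; ring
      · simp [Pi.single_eq_of_ne hj, hj]
    rw [Finset.sum_congr rfl fun j _ => this j, Finset.sum_add_distrib,
      Finset.sum_ite_eq' Finset.univ i, if_pos (Finset.mem_univ i)]
    ring
  have h2 : ∑ j, a j * (u - Pi.single i c : ι → ℝ) j = ∑ j, a j * u j - a i * c := by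
    have : ∀ j, a j * (u - Pi.single i c : ι → ℝ) j = a j * u j +
        (if j = i then (- (a i * c)) else 0) := by
      intro j
      by_cases hj : j = i
      · subst hj; simp; ring
      · simp [Pi.single_eq_of_ne hj, hj]
    rw [Finset.sum_congr rfl fun j _ => this j, Finset.sum_add_distrib,
      Finset.sum_ite_eq' Finset.univ i, if_pos (Finset.mem_univ i)]
    ring
  have hA := (sum_pos' ha h3).ne'
  have hi : (∑ j, a j) - a i ≠ 0 := by have := sum_lt ha h3 i; linarith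
  have hc' : (∑ j, a j) * u i - ∑ j, a j * u j = c * ((∑ j, a j) - a i) := by
    rw [hc]; field_simp
  have hT : ∑ j, a j * u j = (∑ j, a j) * u i - c * ((∑ j, a j) - a i) := by linarith
  rw [nv, nv, h1, h2, hT]
  field_simp
  ring

/-- centering -/
noncomputable def cen (a : ι → ℝ) (w : ι → κ → ℝ) : ι → κ → ℝ :=
  w + fun _ l => -(∑ j, a j * w j l) / ∑ j, a j

lemma cen_sum {a : ι → ℝ} (ha : ∀ i, 0 < a i) (h3 : 3 ≤ Fintype.card ι) (w : ι → κ → ℝ) (l : κ) :
    ∑ j, a j * cen a w j l = 0 := by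
  have hA := (sum_pos' ha h3).ne'
  simp only [cen, Pi.add_apply, mul_add, Finset.sum_add_distrib]
  rw [← Finset.sum_mul]
  field_simp
  ring

/-- total weighted square -/
noncomputable def N2 (a : ι → ℝ) (w : ι → κ → ℝ) : ℝ := ∑ i, a i * ∑ l, w i l ^ 2

/-- total weighted variance -/
noncomputable def NV (a : ι → ℝ) (w : ι → κ → ℝ) : ℝ := ∑ l, nv a (fun i => w i l)

lemma N2_eq_NV {a : ι → ℝ} {w : ι → κ → ℝ} (hw : ∀ l, ∑ j, a j * w j l = 0) :
    N2 a w = NV a w := by
  rw [N2, NV]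
  simp only [nv, hw]
  simp only [Finset.mul_sum]
  rw [Finset.sum_comm]
  simp

lemma nv_add_const {a : ι → ℝ} (ha : ∀ i, 0 < a i) (h3 : 3 ≤ Fintype.card ι) (u : ι → ℝ) (c : ℝ) :
    nv a (fun i => u i + c) = nv a u := by
  have hA := (sum_pos' ha h3).ne'
  have h1 : ∑ i, a i * (u i + c) ^ 2 = ∑ i, a i * u i ^ 2 + 2 * c * ∑ i, a i * u i +
      c ^ 2 * ∑ i, a i := by
    rw [Finset.mul_sum, Finset.mul_sum, ← Finset.sum_add_distrib, ← Finset.sum_add_distrib]
    exact Finset.sum_congr rfl fun i _ => by ring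
  have h2 : ∑ i, a i * (u i + c) = ∑ i, a i * u i + c * ∑ i, a i := by
    rw [Finset.mul_sum, ← Finset.sum_add_distrib]
    exact Finset.sum_congr rfl fun i _ => by ring
  rw [nv, nv, h1, h2]
  field_simp
  ring

lemma NV_cen {a : ι → ℝ} (ha : ∀ i, 0 < a i) (h3 : 3 ≤ Fintype.card ι) (w : ι → κ → ℝ) :
    NV a (cen a w) = NV a w := by
  rw [NV, NV]
  refine Finset.sum_congr rfl fun l _ => ?_
  have := nv_add_const ha h3 (fun i => w i l) (-(∑ j, a j * w j l) / ∑ j, a j)
  rw [← this]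
  rfl

lemma NV_Q {a : ι → ℝ} (ha : ∀ i, 0 < a i) (h3 : 3 ≤ Fintype.card ι) (i : ι) (w : ι → κ → ℝ) :
    NV a (Q a i w) = a i * ((∑ j, a j) - a i) / (∑ j, a j) * ∑ l, cf a i w l ^ 2 := by
  rw [NV, Finset.mul_sum]
  refine Finset.sum_congr rfl fun l _ => ?_
  rw [← nv_single ha h3]
  congr 1
  funext j
  rw [Q_apply]
  by_cases hj : j = i
  · subst hj; simp
  · simp [Pi.single_eq_of_ne hj]

lemma NV_sub_Q {a : ι → ℝ} (ha : ∀ i, 0 < a i) (h3 : 3 ≤ Fintype.card ι) (i : ι)
    (w : ι → κ → ℝ) :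
    NV a (w - Q a i w) = NV a w -
      a i * ((∑ j, a j) - a i) / (∑ j, a j) * ∑ l, cf a i w l ^ 2 := by
  rw [NV, NV, Finset.mul_sum, ← Finset.sum_sub_distrib]
  refine Finset.sum_congr rfl fun l _ => ?_
  rw [← nv_sub_single ha h3 i (fun i => w i l) (cf a i w l) rfl]
  congr 1
  funext j
  rw [Q_apply]
  by_cases hj : j = i
  · subst hj; simp
  · simp [Pi.single_eq_of_ne hj]

/-- the key choice: for a centred non-zero vector some coordinate splits it strictly. -/
lemma exists_split {a : ι → ℝ} (ha : ∀ i, 0 < a i) (h3 : 3 ≤ Fintype.card ι) {w : ι → κ → ℝ}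
    (hw : ∀ l, ∑ j, a j * w j l = 0) (hne : w ≠ 0) :
    ∃ i, 0 < ∑ l, cf a i w l ^ 2 ∧
      a i * ((∑ j, a j) - a i) / (∑ j, a j) * ∑ l, cf a i w l ^ 2 < N2 a w := by
  classical
  set A := ∑ j, a j with hAdef
  have hA : 0 < A := sum_pos' ha h3
  have hcf : ∀ i l, cf a i w l = A * w i l / (A - a i) := by
    intro i l; rw [cf, hw l, sub_zero]
  have hlt : ∀ i, 0 < A - a i := fun i => by have := sum_lt ha h3 i; rw [hAdef]; linarith
  set s : ι → ℝ := fun i => ∑ l, w i l ^ 2 with hs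
  have hs0 : ∀ i, 0 ≤ s i := fun i => Finset.sum_nonneg fun l _ => sq_nonneg _
  have hcs : ∀ i, ∑ l, cf a i w l ^ 2 = A ^ 2 / (A - a i) ^ 2 * s i := by
    intro i
    rw [hs, Finset.mul_sum]
    refine Finset.sum_congr rfl fun l _ => ?_
    rw [hcf]; field_simp
  have hN : N2 a w = ∑ i, a i * s i := rfl
  by_contra hcon
  push Not at hcon
  set I : Finset ι := Finset.univ.filter fun i => s i ≠ 0 with hI
  have hpos : ∀ i ∈ I, 0 < s i := by
    intro i hi
    rw [hI, Finset.mem_filter] at hi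
    exact lt_of_le_of_ne (hs0 i) (Ne.symm hi.2)
  have hkey : ∀ i ∈ I, N2 a w * (1 - a i / A) ≤ a i * s i := by
    intro i hi
    have h1 := hcon i (by rw [hcs]; have := hpos i hi; have := hlt i; positivity)
    rw [hcs] at h1
    have h2 : a i * (A - a i) / A * (A ^ 2 / (A - a i) ^ 2 * s i) = a i * A / (A - a i) * s i := by
      have := (hlt i).ne'
      field_simp
    rw [h2] at h1
    have h3' : 0 < 1 - a i / A := by
      have : a i / A < 1 := by rw [div_lt_one hA]; linarith [hlt i]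
      linarith
    calc N2 a w * (1 - a i / A) ≤ (a i * A / (A - a i) * s i) * (1 - a i / A) := by gcongr
      _ = a i * s i := by
        have := (hlt i).ne'
        field_simp
  have hNI : N2 a w = ∑ i ∈ I, a i * s i := by
    rw [hN, hI, Finset.sum_filter]
    refine Finset.sum_congr rfl fun i _ => ?_
    by_cases h : s i = 0
    · simp [h]
    · simp [h]
  obtain ⟨i0, hi0⟩ : ∃ i, w i ≠ 0 := by
    by_contra hcon2
    push Not at hcon2
    exact hne (funext hcon2)
  have hs_ne : ∀ i, w i ≠ 0 → s i ≠ 0 := by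
    intro i hi h0
    apply hi
    funext l
    have := (Finset.sum_eq_zero_iff_of_nonneg (fun l _ => sq_nonneg (w i l))).1 h0 l
      (Finset.mem_univ l)
    simpa using this
  have hs_zero : ∀ i, s i = 0 → ∀ l, w i l = 0 := by
    intro i h0 l
    have := (Finset.sum_eq_zero_iff_of_nonneg (fun l _ => sq_nonneg (w i l))).1 h0 l
      (Finset.mem_univ l)
    simpa using this
  have hi0I : i0 ∈ I := by rw [hI, Finset.mem_filter]; exact ⟨Finset.mem_univ _, hs_ne i0 hi0⟩
  have hNpos : 0 < N2 a w := by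
    rw [hNI]
    exact Finset.sum_pos (fun i hi => mul_pos (ha i) (hpos i hi)) ⟨i0, hi0I⟩
  have hcard : 2 ≤ I.card := by
    by_contra hlt2
    have hc1 : I.card = 1 := by
      have : 0 < I.card := Finset.card_pos.2 ⟨i0, hi0I⟩
      omega
    obtain ⟨j, hj⟩ := Finset.card_eq_one.1 hc1
    have hij : i0 = j := by rw [hj] at hi0I; simpa using hi0I
    apply hi0
    funext l
    have h1 := hw l
    rw [Finset.sum_eq_single i0] at h1
    · rcases mul_eq_zero.1 h1 with h | h
      · exact absurd h (ha i0).ne'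
      · exact h
    · intro b _ hb
      have hbI : b ∉ I := by rw [hj, Finset.mem_singleton, ← hij]; exact hb
      have : s b = 0 := by
        by_contra hsb
        exact hbI (by rw [hI, Finset.mem_filter]; exact ⟨Finset.mem_univ _, hsb⟩)
      rw [hs_zero b this l, mul_zero]
    · simp
  have hsum : ∑ i ∈ I, N2 a w * (1 - a i / A) ≤ N2 a w := by
    conv_rhs => rw [hNI]
    exact Finset.sum_le_sum hkey
  rw [← Finset.mul_sum, Finset.sum_sub_distrib, ← Finset.sum_div] at hsum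
  simp only [Finset.sum_const, nsmul_eq_mul, mul_one] at hsum
  have hfin : (I.card : ℝ) - (∑ i ∈ I, a i) / A ≤ 1 := by
    by_contra h
    push Not at h
    have := mul_lt_mul_of_pos_left h hNpos
    linarith
  by_cases hu : I = Finset.univ
  · rw [hu, Finset.card_univ, ← hAdef, div_self hA.ne'] at hfin
    have : (3 : ℝ) ≤ (Fintype.card ι : ℝ) := by exact_mod_cast h3
    linarith
  · have hlt' : ∑ i ∈ I, a i < A := by
      obtain ⟨j, hj⟩ : ∃ j, j ∉ I := by
        by_contra hcon3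
        push Not at hcon3
        exact hu (Finset.eq_univ_iff_forall.2 hcon3)
      have h1 : ∑ i ∈ insert j I, a i ≤ A :=
        Finset.sum_le_sum_of_subset_of_nonneg (Finset.subset_univ _) fun l _ _ => (ha l).le
      rw [Finset.sum_insert hj] at h1
      linarith [ha j]
    have h2 : (∑ i ∈ I, a i) / A < 1 := by rw [div_lt_one hA]; exact hlt'
    have : (2 : ℝ) ≤ (I.card : ℝ) := by exact_mod_cast hcard
    linarith

/-- zero-freeness on the star -/
theorem star_ne_zero {a : ι → ℝ} (ha : ∀ i, 0 < a i) (h3 : 3 ≤ Fintype.card ι)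
    {g : (ι → κ → ℝ) → ℂ} (hg : Continuous g) (h0 : g 0 = 1)
    (hinv : ∀ (w : ι → κ → ℝ) (c : κ → ℝ), g (w + fun _ => c) = g w)
    (hs : ∀ i w, g w = g (Q a i w) * g (w - Q a i w)) : ∀ w, g w ≠ 0 := by
  have hA := sum_pos' ha h3
  have hcen : ∀ w, g (cen a w) = g w := fun w => by
    have := hinv w (fun l => -(∑ j, a j * w j l) / ∑ j, a j)
    exact this
  have hN0 : ∀ w : ι → κ → ℝ, 0 ≤ N2 a w := fun w =>
    Finset.sum_nonneg fun i _ => mul_nonneg (ha i).le (Finset.sum_nonneg fun l _ => sq_nonneg _)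
  have hNc : Continuous (N2 a : (ι → κ → ℝ) → ℝ) := by
    unfold N2; fun_prop
  by_contra hcon
  push Not at hcon
  obtain ⟨w₀, hw₀⟩ := hcon
  set S : Set (ι → κ → ℝ) := {w | g w = 0 ∧ (∀ l, ∑ j, a j * w j l = 0) ∧
    N2 a w ≤ N2 a (cen a w₀)} with hS
  have hclosed : IsClosed S := by
    apply IsClosed.inter (isClosed_eq hg continuous_const)
    apply IsClosed.inter
    · have : {w : ι → κ → ℝ | ∀ l, ∑ j, a j * w j l = 0} =
          ⋂ l, {w : ι → κ → ℝ | ∑ j, a j * w j l = 0} := by ext w; simp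
      change IsClosed {w : ι → κ → ℝ | ∀ l, ∑ j, a j * w j l = 0}
      rw [this]
      refine isClosed_iInter fun l => isClosed_eq ?_ continuous_const
      fun_prop
    · exact isClosed_le hNc continuous_const
  have hbdd : Bornology.IsBounded S := by
    obtain ⟨m, hm0, hm⟩ : ∃ m : ℝ, 0 < m ∧ ∀ i, m ≤ a i := by
      have : Nonempty ι := Fintype.card_pos_iff.1 (by omega)
      obtain ⟨i, -, hi⟩ := Finset.exists_min_image (Finset.univ : Finset ι) a
        Finset.univ_nonempty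
      exact ⟨a i, ha i, fun j => hi j (Finset.mem_univ j)⟩
    refine (Metric.isBounded_iff_subset_closedBall 0).2
      ⟨Real.sqrt (N2 a (cen a w₀) / m), fun w hw => ?_⟩
    rw [mem_closedBall_zero_iff]
    refine (pi_norm_le_iff_of_nonneg (Real.sqrt_nonneg _)).2 fun i => ?_
    refine (pi_norm_le_iff_of_nonneg (Real.sqrt_nonneg _)).2 fun l => ?_
    rw [Real.norm_eq_abs]
    apply Real.abs_le_sqrt
    rw [le_div_iff₀ hm0]
    calc w i l ^ 2 * m ≤ w i l ^ 2 * a i := by gcongr; exact hm i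
      _ ≤ a i * ∑ l, w i l ^ 2 := by
        rw [mul_comm]
        have := (ha i).le
        gcongr
        exact Finset.single_le_sum (f := fun l => w i l ^ 2) (fun l _ => sq_nonneg _)
          (Finset.mem_univ l)
      _ ≤ N2 a w := Finset.single_le_sum (f := fun i => a i * ∑ l, w i l ^ 2)
          (fun i _ => mul_nonneg (ha i).le (Finset.sum_nonneg fun l _ => sq_nonneg _))
          (Finset.mem_univ i)
      _ ≤ _ := hw.2.2
  have hcomp : IsCompact S := Metric.isCompact_of_isClosed_isBounded hclosed hbdd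
  have hne : S.Nonempty := ⟨cen a w₀, by rw [hcen]; exact hw₀, cen_sum ha h3 w₀, le_rfl⟩
  obtain ⟨w, hw, hmin⟩ := hcomp.exists_isMinOn hne hNc.continuousOn
  have hwne : w ≠ 0 := by
    rintro rfl
    have := hw.1
    rw [h0] at this
    exact one_ne_zero this
  obtain ⟨i, hi1, hi2⟩ := exists_split ha h3 hw.2.1 hwne
  have hmin' : ∀ u, g u = 0 → N2 a w ≤ NV a u := by
    intro u hu
    by_contra hlt
    push Not at hlt
    have h1 : N2 a (cen a u) = NV a u := by
      rw [N2_eq_NV (cen_sum ha h3 u), NV_cen ha h3]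
    have h2 : cen a u ∈ S := by
      refine ⟨by rw [hcen]; exact hu, cen_sum ha h3 u, ?_⟩
      rw [h1]
      exact hlt.le.trans hw.2.2
    have h3' := hmin h2
    simp only [Set.mem_setOf_eq] at h3'
    rw [h1] at h3'
    linarith
  have hi0 := ha i
  have hi3 : 0 < (∑ j, a j) - a i := by have := sum_lt ha h3 i; linarith
  have hkpos : 0 < a i * ((∑ j, a j) - a i) / (∑ j, a j) := by positivity
  have hgw := hs i w
  rw [hw.1] at hgw
  rcases mul_eq_zero.1 hgw.symm with h | h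
  · have h1 := hmin' _ h
    rw [NV_Q ha h3] at h1
    linarith
  · have h1 := hmin' _ h
    rw [NV_sub_Q ha h3, ← N2_eq_NV hw.2.1] at h1
    have := mul_pos hkpos hi1
    linarith

/-- the weighted covariance form -/
noncomputable def Kf (a : ι → ℝ) (u v : ι → ℝ) : ℝ :=
  ∑ i, a i * u i * v i - (∑ i, a i * u i) * (∑ i, a i * v i) / ∑ i, a i

section

variable {a : ι → ℝ} {B : (ι → κ → ℝ) →L[ℝ] (ι → κ → ℝ) →L[ℝ] ℂ}

/-- `B = K ⊗ S` with `S x y = B (δ_i x) (δ_i y) * A / (a_i (A - a_i))`. -/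
lemma B_formula [DecidableEq κ] (ha : ∀ i, 0 < a i) (h3 : 3 ≤ Fintype.card ι)
    (hB : ∀ i, Blk (Q a i) B) :
    ∃ S : κ → κ → ℂ, ∀ u v, B u v = ∑ l, ∑ m, S l m * (Kf a (fun i => u i l) (fun i => v i m) : ℝ) := by
  classical
  have : Nonempty ι := Fintype.card_pos_iff.1 (by omega)
  obtain ⟨i0⟩ := this
  set A := ∑ j, a j with hAdef
  have hA : 0 < A := sum_pos' ha h3
  have hlt : ∀ i, 0 < A - a i := fun i => by have := sum_lt ha h3 i; rw [hAdef]; linarith
  set T : (κ → ℝ) → (κ → ℝ) → ℂ := fun x y =>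
    ((A / (a i0 * (A - a i0)) : ℝ) : ℂ) * B (Pi.single i0 x) (Pi.single i0 y) with hT
  have hdiag : ∀ i x y, B (Pi.single i x) (Pi.single i y) = ((a i - a i * a i / A : ℝ) : ℂ) * T x y := by
    intro i x y
    have h := B_diag ha h3 hB i i0 x y
    rw [← hAdef] at h
    have h1 : ((a i0 * (A - a i0) : ℝ) : ℂ) ≠ 0 := by
      exact_mod_cast (mul_pos (ha i0) (hlt i0)).ne'
    have h2 : ((a i - a i * a i / A : ℝ) : ℂ) * T x y =
        (((a i * (A - a i) : ℝ) : ℂ) * B (Pi.single i0 x) (Pi.single i0 y)) /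
          ((a i0 * (A - a i0) : ℝ) : ℂ) := by
      rw [hT]
      have hA' : (A : ℂ) ≠ 0 := by exact_mod_cast hA.ne'
      have h3 : (a i0 : ℂ) ≠ 0 := by exact_mod_cast (ha i0).ne'
      have h4 : ((A : ℂ) - a i0) ≠ 0 := by exact_mod_cast (hlt i0).ne'
      push_cast
      field_simp
    rw [h2, ← h, mul_div_cancel_left₀ _ h1]
  have hoff : ∀ i j x y, B (Pi.single i x) (Pi.single j y) =
      (((if i = j then a i else 0) - a i * a j / A : ℝ) : ℂ) * T x y := by
    intro i j x y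
    by_cases hij : i = j
    · subst hij; rw [if_pos rfl]; exact hdiag i x y
    · rw [if_neg hij, B_single_single ha h3 hB (Ne.symm hij), hdiag, ← hAdef]
      rw [Complex.real_smul]
      have hA' : (A : ℂ) ≠ 0 := by exact_mod_cast hA.ne'
      have h4 : ((A : ℂ) - a i) ≠ 0 := by exact_mod_cast (hlt i).ne'
      push_cast
      field_simp
      ring
  -- bilinearity of T
  set δ : κ → (κ → ℝ) := fun l j => if l = j then 1 else 0 with hδ
  have hTl : ∀ x y, T x y = ∑ l, ∑ m, ((x l * y m : ℝ) : ℂ) * T (δ l) (δ m) := by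
    intro x y
    let e : (κ → ℝ) →ₗ[ℝ] (ι → κ → ℝ) := LinearMap.single ℝ (fun _ : ι => κ → ℝ) i0
    have he : ∀ x, e x = Pi.single i0 x := fun x => rfl
    let f1 : (κ → ℝ) →ₗ[ℝ] ℂ := ((B.flip (e y)) : (ι → κ → ℝ) →ₗ[ℝ] ℂ) ∘ₗ e
    have h1 : B (Pi.single i0 x) (Pi.single i0 y) =
        ∑ l, x l • B (Pi.single i0 (δ l)) (Pi.single i0 y) :=
      LinearMap.pi_apply_eq_sum_univ f1 x
    have h2 : ∀ l, B (Pi.single i0 (δ l)) (Pi.single i0 y) =
        ∑ m, y m • B (Pi.single i0 (δ l)) (Pi.single i0 (δ m)) := by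
      intro l
      let f2 : (κ → ℝ) →ₗ[ℝ] ℂ := ((B (e (δ l))) : (ι → κ → ℝ) →ₗ[ℝ] ℂ) ∘ₗ e
      exact LinearMap.pi_apply_eq_sum_univ f2 y
    simp only [hT]
    rw [h1, Finset.mul_sum]
    refine Finset.sum_congr rfl fun l _ => ?_
    rw [h2, Finset.smul_sum, Finset.mul_sum]
    refine Finset.sum_congr rfl fun m _ => ?_
    simp only [Complex.real_smul]
    push_cast
    ring
  refine ⟨fun l m => T (δ l) (δ m), fun u v => ?_⟩
  have hB1 : B u v = ∑ j, ∑ i, B (Pi.single i (u i)) (Pi.single j (v j)) := by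
    conv_lhs => rw [eq_sum_single u, eq_sum_single v]
    simp only [map_sum, FunLike.coe_sum, Finset.sum_apply]
  rw [hB1]
  have hK : ∀ l m, ((Kf a (fun i => u i l) (fun i => v i m) : ℝ) : ℂ) =
      ∑ j, ∑ i, (((if i = j then a i else 0) - a i * a j / A : ℝ) : ℂ) *
        ((u i l * v j m : ℝ) : ℂ) := by
    intro l m
    rw [Kf, ← hAdef]
    have e1 : ∑ i, a i * u i l * v i m = ∑ j, ∑ i, (if i = j then a i else 0) * (u i l * v j m) := by
      rw [Finset.sum_comm]
      refine Finset.sum_congr rfl fun i _ => ?_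
      rw [Finset.sum_eq_single i]
      · simp; ring
      · intro j _ hj; simp [Ne.symm hj]
      · simp
    have e2 : (∑ i, a i * u i l) * (∑ i, a i * v i m) / A =
        ∑ j, ∑ i, a i * a j / A * (u i l * v j m) := by
      rw [Finset.sum_mul_sum, Finset.sum_div, Finset.sum_comm]
      refine Finset.sum_congr rfl fun i _ => ?_
      rw [Finset.sum_div]
      exact Finset.sum_congr rfl fun j _ => by ring
    rw [e1, e2, ← Finset.sum_sub_distrib]
    push_cast
    refine Finset.sum_congr rfl fun j _ => ?_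
    rw [← Finset.sum_sub_distrib]
    exact Finset.sum_congr rfl fun i _ => by push_cast; ring
  simp only [hK, hoff]
  have e3 : ∀ i j, (((if i = j then a i else 0) - a i * a j / A : ℝ) : ℂ) * T (u i) (v j) =
      ∑ l, ∑ m, T (δ l) (δ m) * ((((if i = j then a i else 0) - a i * a j / A : ℝ) : ℂ) *
        ((u i l * v j m : ℝ) : ℂ)) := by
    intro i j
    rw [hTl (u i) (v j), Finset.mul_sum]
    refine Finset.sum_congr rfl fun l _ => ?_
    rw [Finset.mul_sum]
    exact Finset.sum_congr rfl fun m _ => by ring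
  simp only [e3, Finset.mul_sum]
  -- reorder the four sums
  calc ∑ j, ∑ i, ∑ l, ∑ m, T (δ l) (δ m) * ((((if i = j then a i else 0) - a i * a j / A : ℝ) : ℂ) *
        ((u i l * v j m : ℝ) : ℂ))
      = ∑ j, ∑ l, ∑ i, ∑ m, T (δ l) (δ m) * ((((if i = j then a i else 0) - a i * a j / A : ℝ) : ℂ) *
        ((u i l * v j m : ℝ) : ℂ)) := Finset.sum_congr rfl fun j _ => Finset.sum_comm
    _ = ∑ l, ∑ j, ∑ i, ∑ m, T (δ l) (δ m) * ((((if i = j then a i else 0) - a i * a j / A : ℝ) : ℂ) *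
        ((u i l * v j m : ℝ) : ℂ)) := Finset.sum_comm
    _ = ∑ l, ∑ j, ∑ m, ∑ i, T (δ l) (δ m) * ((((if i = j then a i else 0) - a i * a j / A : ℝ) : ℂ) *
        ((u i l * v j m : ℝ) : ℂ)) :=
          Finset.sum_congr rfl fun l _ => Finset.sum_congr rfl fun j _ => Finset.sum_comm
    _ = _ := Finset.sum_congr rfl fun l _ => Finset.sum_comm

end

/-- **Star theorem, characteristic function form.** -/
theorem star_quad [DecidableEq κ] {a : ι → ℝ} (ha : ∀ i, 0 < a i) (h3 : 3 ≤ Fintype.card ι)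
    {g : (ι → κ → ℝ) → ℂ} (hg : ContDiff ℝ 2 g) (h0 : g 0 = 1)
    (hinv : ∀ (w : ι → κ → ℝ) (c : κ → ℝ), g (w + fun _ => c) = g w)
    (hs : ∀ i w, g w = g (Q a i w) * g (w - Q a i w)) :
    ∃ (ℓ : (ι → κ → ℝ) →L[ℝ] ℂ) (S : κ → κ → ℂ), ∀ w, g w = Complex.exp (ℓ w +
      (∑ l, ∑ m, S l m * (Kf a (fun i => w i l) (fun i => w i m) : ℝ)) / 2) := by
  have : Nonempty ι := Fintype.card_pos_iff.1 (by omega)
  obtain ⟨i0⟩ := this
  obtain ⟨ℓ, B, hB, hgB⟩ := exp_quadratic (Q a) (fun j u => Q_idem ha h3 j u) hg h0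
    (star_ne_zero ha h3 hg.continuous h0 hinv hs) hs i0
    (fun B hB h => det1 ha h3 hB i0 h) (fun B hB h => det2 ha h3 hB i0 h)
  obtain ⟨S, hS⟩ := B_formula ha h3 hB
  exact ⟨ℓ, S, fun w => by rw [hgB, hS]⟩

end Crest.Agent.R166.Bern385
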