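import Mathlib

/-!
# Row 166, section 42: interface of part B2 (helper385)

Graphing form of the limit process: a probability space with two measure preserving maps `pp`
(edge flip) and `rr` (port rotation); a point `h` is a half-edge, i.e. a base vertex together with a
direction. `mv j h = pp (rr^[j] h)`: the half-edge at the `j`-th neighbour of the base vertex of
`h`, pointing back to the base vertex of `h` (`j = 0`: the neighbour in direction `h`).
`star i` (`i < d`) are the neighbours of the base vertex. Outward words: letters `1 ≤ j < d`.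
-/

set_option autoImplicit false

open MeasureTheory ProbabilityTheory

namespace Crest.Agent.R166.B2

variable {Ω : Type*}

/-- neighbour move -/
def mv (pp rr : Ω → Ω) (j : ℕ) (h : Ω) : Ω := pp (rr^[j] h)

/-- outward words (first letter = first step) -/
def wd (pp rr : Ω → Ω) : List ℕ → Ω → Ω
  | [] => fun h => h
  | j :: w => fun h => wd pp rr w (mv pp rr j h)

/-- admissible outward words: letters in `1, ..., d-1` -/
def OutW (d : ℕ) (w : List ℕ) : Prop := ∀ j ∈ w, 1 ≤ j ∧ j < d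

/-- full Green function at the base vertex of `h` -/
noncomputable def Gd (pp rr : Ω → Ω) (d : ℕ) (s E : ℝ) (om : Ω → ℝ) (cav : Ω → ℂ) (h : Ω) : ℂ :=
  -1 / ((E : ℂ) - s * om h + ∑ i ∈ Finset.range d, cav (mv pp rr i h))

/-- transfer product `∏ (-cav)` along the outward word `w` from `h`:
`G (base h, wd w h) = Gd h * tr w h`. -/
noncomputable def tr (pp rr : Ω → Ω) (cav : Ω → ℂ) : List ℕ → Ω → ℂ
  | [] => fun _ => 1
  | j :: w => fun h => (-cav (mv pp rr j h)) * tr pp rr cav w (mv pp rr j h)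

/-- index set of the star of the base vertex: `none` = the vertex, `some i` = `i`-th neighbour -/
abbrev St (d : ℕ) : Type := Option (Fin d)

/-- half-edges representing the vertices of the star of (the base vertex of) `h` -/
def sv (pp rr : Ω → Ω) (d : ℕ) (h : Ω) : St d → Ω
  | none => h
  | some i => mv pp rr i h

/-- Green function on the star of `h`. -/
noncomputable def Gs (pp rr : Ω → Ω) (d : ℕ) (s E : ℝ) (om : Ω → ℝ) (cav : Ω → ℂ) (h : Ω) :
    St d → St d → ℂ
  | none, none => Gd pp rr d s E om cav h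
  | none, some i => Gd pp rr d s E om cav h * (-cav (mv pp rr i h))
  | some i, none => Gd pp rr d s E om cav h * (-cav (mv pp rr i h))
  | some i, some j => Gd pp rr d s E om cav h * cav (mv pp rr i h) * cav (mv pp rr j h) +
      (if i = j then cav (mv pp rr i h) else 0)

/-- Green function between the star vertex `a` of the base vertex of `h` and the far vertex
`wd w (pp h)` (`w` outward; this vertex lies behind the neighbour number `0`). For `a = some 0`
this is `G (pp h) * tr`. Only used for `a ≠ some 0` or through `Gd (pp h)`. -/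
noncomputable def Go (pp rr : Ω → Ω) (d : ℕ) (s E : ℝ) (om : Ω → ℝ) (cav : Ω → ℂ) (w : List ℕ)
    (h : Ω) (a : St d) : ℂ :=
  tr pp rr cav w (pp h) *
    (match a with
     | none => Gd pp rr d s E om cav h * (-cav (pp h))
     | some i => if (i : ℕ) = 0 then Gd pp rr d s E om cav (pp h) else
        Gd pp rr d s E om cav h * (-cav (pp h)) * (-cav (mv pp rr i h)))

/-- 2x2 block of the Green function at the edge of `h`: index `0` = base vertex of `h`,
`1` = base vertex of `pp h`. -/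
noncomputable def Bk (pp : Ω → Ω) (cav : Ω → ℂ) (h : Ω) : Matrix (Fin 2) (Fin 2) ℂ :=
  (1 / (1 - cav h * cav (pp h))) •
    !![cav h, -(cav h * cav (pp h)); -(cav h * cav (pp h)), cav (pp h)]

/-- the noised process -/
noncomputable def YY {k : ℕ} (t : ℝ) (X Z : Ω → Fin k → ℝ) (h : Ω) (l : Fin k) : ℝ :=
  X h l + Real.sqrt t * Z h l

/-- **The limit process** (output of B1 = sections 40.1-40.10, 32). `FX` is the σ-algebra of the
environment and all values of `X`; `Env` the σ-algebra of the environment (labels and `ω`). -/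
structure LimProc (Env FX : MeasurableSpace Ω) [mΩ : MeasurableSpace Ω]
    (d k : ℕ) (s E t ρ : ℝ) (P : Measure Ω) (pp rr : Ω → Ω) (om : Ω → ℝ) (cav : Ω → ℂ) (X Z : Ω → Fin k → ℝ) : Prop where
  hd : 3 ≤ d
  ht : 0 < t
  hρ : 0 < ρ
  prob : IsProbabilityMeasure P
  pp_mp : MeasurePreserving pp P P
  rr_mp : MeasurePreserving rr P P
  pp_pp : ∀ h, pp (pp h) = h
  rr_d : ∀ h, rr^[d] h = h
  Env_le : Env ≤ FX
  FX_le : FX ≤ mΩ
  pp_Env : Measurable[Env, Env] pp
  rr_Env : Measurable[Env, Env] rr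
  pp_FX : Measurable[FX, FX] pp
  rr_FX : Measurable[FX, FX] rr
  om_meas : Measurable[Env] om
  om_rr : ∀ h, om (rr h) = om h
  cav_meas : Measurable[Env] cav
  cav_im : ∀ᵐ h ∂P, 0 < (cav h).im
  cav_rec : ∀ᵐ h ∂P, cav h * ((E : ℂ) - s * om h +
    ∑ j ∈ Finset.range (d - 1), cav (mv pp rr (j + 1) h)) = -1
  /-- approximation from the upper half plane -/
  cav_lim : ∃ (η : ℕ → ℝ) (c : ℕ → Ω → ℂ), (∀ i, 0 < η i) ∧
    Filter.Tendsto η Filter.atTop (nhds 0) ∧ (∀ i, Measurable[Env] (c i)) ∧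
    (∀ i, ∀ᵐ h ∂P, 0 < (c i h).im ∧ ‖c i h‖ ≤ 1 / η i ∧
      c i h * ((E : ℂ) + Complex.I * η i - s * om h +
        ∑ j ∈ Finset.range (d - 1), c i (mv pp rr (j + 1) h)) = -1) ∧
    ∀ᵐ h ∂P, Filter.Tendsto (fun i => c i h) Filter.atTop (nhds (cav h))
  X_meas : Measurable[FX] X
  X_rr : ∀ h, X (rr h) = X h
  X_L2 : ∀ l, MemLp (fun h => X h l) 2 P
  X_eq : ∀ᵐ h ∂P, ∀ l, ∑ i ∈ Finset.range d, X (mv pp rr i h) l = (E - s * om h) * X h l
  X_cov : ∀ l l', ∫ h, X h l * X h l' ∂P = if l = l' then 1 else 0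
  /-- (42.7) -/
  X_mean : ∀ l, P[fun h => X h l | Env] =ᵐ[P] 0
  Z_meas : Measurable Z
  Z_rr : ∀ h, Z (rr h) = Z h
  Z_eq : ∀ᵐ h ∂P, ∀ l, ∑ i ∈ Finset.range d, Z (mv pp rr i h) l = (E - s * om h) * Z h l
  /-- given `FX`, `Z` is a Gaussian field with covariance `Im G / (π ρ) ⊗ I_k`; only the vectors
  (star of `h`, one far vertex behind neighbour `0`) are needed. -/
  Z_gauss : ∀ (w : List ℕ), OutW d w → ∀ (α : Fin k → ℝ) (x : St d → Fin k → ℝ),
    P[fun h => Complex.exp (Complex.I *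
        ((∑ l, (α l * Z (wd pp rr w (pp h)) l + ∑ a, x a l * Z (sv pp rr d h a) l) : ℝ) : ℂ)) | FX]
      =ᵐ[P] fun h => Complex.exp (((-(1 / 2) * ∑ l,
        (α l ^ 2 * (Gd pp rr d s E om cav (wd pp rr w (pp h))).im
          + 2 * ∑ a, α l * x a l * (Go pp rr d s E om cav w h a).im
          + ∑ a, ∑ b, x a l * x b l * (Gs pp rr d s E om cav h a b).im) / (Real.pi * ρ) : ℝ) : ℂ))
  G_int : Integrable (fun h => (Gd pp rr d s E om cav h).im) P
  G_rho : ∫ h, (Gd pp rr d s E om cav h).im ∂P = Real.pi * ρ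
  /-- edge Markov property (B1): the `Y`-values behind the base vertex of `h` and the `Y`-values
  behind the base vertex of `pp h` are conditionally independent given the environment and the
  two `Y`-values of the edge. Stated for bounded functions of finitely many values. -/
  markov : ∀ (F G : Ω → ℝ), (∃ C, ∀ h, |F h| ≤ C) → (∃ C, ∀ h, |G h| ≤ C) →
    Measurable[⨆ w : {w : List ℕ // OutW d w},
      MeasurableSpace.comap (fun h => YY t X Z (wd pp rr w.1 h)) inferInstance] F →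
    Measurable[⨆ w : {w : List ℕ // OutW d w},
      MeasurableSpace.comap (fun h => YY t X Z (wd pp rr w.1 (pp h))) inferInstance] G →
    P[fun h => F h * G h | Env ⊔ MeasurableSpace.comap (fun h => (YY t X Z h, YY t X Z (pp h)))
        inferInstance] =ᵐ[P]
      fun h => (P[F | Env ⊔ MeasurableSpace.comap (fun h => (YY t X Z h, YY t X Z (pp h)))
          inferInstance] h) *
        (P[G | Env ⊔ MeasurableSpace.comap (fun h => (YY t X Z h, YY t X Z (pp h)))
          inferInstance] h)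
  /-- ergodicity of the environment under the even subgroup -/
  erg : ∀ f : Ω → ℝ, Measurable[Env] f → (∀ᵐ h ∂P, f (rr h) = f h) →
    (∀ᵐ h ∂P, f (pp (rr (pp h))) = f h) → ∃ c, ∀ᵐ h ∂P, f h = c

/-- regression coefficients: for the edge `u → v`, `v` = base vertex of `h`, `u` = neighbour number
`0` of `h`; with `a_i = Im cav (mv i h)`, `A = ∑ a_i`, `β_i = Im (G_{v,i}) / Im G_vv`, the innovation
at neighbour `j ≠ 0` is `Y_j - β_j Y_v + (a_j / (A - a_0)) (Y_0 - β_0 Y_v)`. -/
noncomputable def bet (pp rr : Ω → Ω) (d : ℕ) (s E : ℝ) (om : Ω → ℝ) (cav : Ω → ℂ) (i : ℕ)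
    (h : Ω) : ℝ :=
  (Gd pp rr d s E om cav h * (-cav (mv pp rr i h))).im / (Gd pp rr d s E om cav h).im

/-- residual `W_i = Y_i - β_i Y_v` -/
noncomputable def Wr {k : ℕ} (pp rr : Ω → Ω) (d : ℕ) (s E t : ℝ) (om : Ω → ℝ) (cav : Ω → ℂ)
    (X Z : Ω → Fin k → ℝ) (i : ℕ) (h : Ω) (l : Fin k) : ℝ :=
  YY t X Z (mv pp rr i h) l - bet pp rr d s E om cav i h * YY t X Z h l

/-- innovation at neighbour `j ≠ 0` relative to the edge (neighbour `0`, centre) -/
noncomputable def Inn {k : ℕ} (pp rr : Ω → Ω) (d : ℕ) (s E t : ℝ) (om : Ω → ℝ) (cav : Ω → ℂ)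
    (X Z : Ω → Fin k → ℝ) (j : ℕ) (h : Ω) (l : Fin k) : ℝ :=
  Wr pp rr d s E t om cav X Z j h l +
    (cav (mv pp rr j h)).im / (∑ i ∈ Finset.range d, (cav (mv pp rr i h)).im -
      (cav (mv pp rr 0 h)).im) * Wr pp rr d s E t om cav X Z 0 h l

/-- **Output of 42.1-42.4** (owners 663, 487, 341): given the environment, the pair
`(Y_0, Y_v)` is independent of the innovations at the other neighbours of `v`. -/
def InnovProp (Env : MeasurableSpace Ω) [mΩ : MeasurableSpace Ω]
    (d k : ℕ) (s E t : ℝ) (P : Measure Ω)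
    (pp rr : Ω → Ω) (om : Ω → ℝ) (cav : Ω → ℂ) (X Z : Ω → Fin k → ℝ) : Prop :=
  ∀ (x y : Fin k → ℝ) (w : ℕ → Fin k → ℝ),
    P[fun h => Complex.exp (Complex.I * ((∑ l, (x l * YY t X Z h l + y l * YY t X Z (pp h) l
        + ∑ j ∈ Finset.Ico 1 d, w j l * Inn pp rr d s E t om cav X Z j h l) : ℝ) : ℂ)) | Env]
      =ᵐ[P] fun h =>
      (P[fun h => Complex.exp (Complex.I *
        ((∑ l, (x l * YY t X Z h l + y l * YY t X Z (pp h) l) : ℝ) : ℂ)) | Env] h) *
      (P[fun h => Complex.exp (Complex.I *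
        ((∑ l, (∑ j ∈ Finset.Ico 1 d, w j l * Inn pp rr d s E t om cav X Z j h l) : ℝ) : ℂ))
          | Env] h)

/-- **Output of B2** (42.6): given the environment, the pair of `X`-values at an edge is
`N(0, Im (block) / (π ρ) ⊗ I_k)`. -/
def EdgeGauss (Env : MeasurableSpace Ω) [mΩ : MeasurableSpace Ω] (k : ℕ) (ρ : ℝ) (P : Measure Ω)
    (pp : Ω → Ω) (cav : Ω → ℂ) (X : Ω → Fin k → ℝ) : Prop :=
  ∀ τ : Fin k → Fin 2 → ℝ,
    P[fun h => Complex.exp (Complex.I *
        ((∑ l, (τ l 0 * X h l + τ l 1 * X (pp h) l) : ℝ) : ℂ)) | Env]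
      =ᵐ[P] fun h => ((Real.exp (-(1 / 2) * ∑ l, ∑ a, ∑ b, τ l a *
        ((Bk pp cav h a b).im / (Real.pi * ρ)) * τ l b) : ℝ) : ℂ)

/-- 42.1-42.4 (owners 663, 487, 341) -/
def Stmt_42_4 : Prop :=
  ∀ {Ω : Type} (Env FX : MeasurableSpace Ω) [mΩ : MeasurableSpace Ω] (d k : ℕ) (s E t ρ : ℝ)
    (P : Measure Ω) (pp rr : Ω → Ω) (om : Ω → ℝ) (cav : Ω → ℂ)
    (X Z : Ω → Fin k → ℝ), LimProc Env FX d k s E t ρ P pp rr om cav X Z →
    InnovProp Env d k s E t P pp rr om cav X Z

/-- 42.5-42.6 (owner 385) -/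
def Stmt_42_6 : Prop :=
  ∀ {Ω : Type} (Env FX : MeasurableSpace Ω) [mΩ : MeasurableSpace Ω] (d k : ℕ) (s E t ρ : ℝ)
    (P : Measure Ω) (pp rr : Ω → Ω) (om : Ω → ℝ) (cav : Ω → ℂ)
    (X Z : Ω → Fin k → ℝ), LimProc Env FX d k s E t ρ P pp rr om cav X Z →
    InnovProp Env d k s E t P pp rr om cav X Z → EdgeGauss Env k ρ P pp cav X

end Crest.Agent.R166.B2
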