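import Mathlib
import Crest.Agent.R166.Bern2_385
import Crest.Agent.R166.Spec_B2_385

/-!
# Row 166: cut of section 42.6 into two halves (helper385 / second seat)

`kap Env ... h` = conditional law, given the environment, of the `Y`-vector on the star of the base
vertex of `h`.  First half (`KapStar`): for a.e. `h` this finite-dimensional law satisfies the
hypotheses of the finite-dimensional Bernstein theorem.  Second half: finite-dimensional theorem
and conclusion.
-/

set_option autoImplicit false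

open MeasureTheory ProbabilityTheory
open Crest.Agent.R166.Bern385

namespace Crest.Agent.R166.B2

variable {Ω : Type*}

/-- the `Y`-vector on the star -/
noncomputable def SY (pp rr : Ω → Ω) (d : ℕ) {k : ℕ} (t : ℝ) (X Z : Ω → Fin k → ℝ) (h : Ω) :
    St d → Fin k → ℝ := fun a l => YY t X Z (sv pp rr d h a) l

/-- conditional law of the star vector given the environment -/
noncomputable def kap (Env : MeasurableSpace Ω) [mΩ : MeasurableSpace Ω] (P : Measure Ω)
    [IsFiniteMeasure P]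
    (pp rr : Ω → Ω) (d : ℕ) {k : ℕ} (t : ℝ) (X Z : Ω → Fin k → ℝ) :
    @Kernel Ω (St d → Fin k → ℝ) Env _ :=
  @condDistrib Ω Ω (St d → Fin k → ℝ) _ _ _ mΩ Env (SY pp rr d t X Z) id P _

/-- joint characteristic function of `(V, W)`, `V = y none`, `W i = y (some i) - β i * V` -/
noncomputable def psi {ι κ : Type*} [Fintype ι] [Fintype κ] (μ : Measure (Option ι → κ → ℝ))
    (β : ι → ℝ) (x : κ → ℝ) (w : ι → κ → ℝ) : ℂ :=
  ∫ y, Complex.exp (Complex.I * ((∑ l, (x l * y none l +
    ∑ i, w i l * (y (some i) l - β i * y none l)) : ℝ) : ℂ)) ∂μ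

/-- hypotheses of the finite-dimensional star theorem. `a i = Im cav_i`,
`β i = Im G_{vi} / Im G_vv`, `e = E - s ω_v`. -/
structure StarHyp {ι κ : Type*} [Fintype ι] [DecidableEq ι] [Fintype κ]
    (μ : Measure (Option ι → κ → ℝ)) (e : ℝ) (a β : ι → ℝ) : Prop where
  prob : IsProbabilityMeasure μ
  sq : ∀ c l, Integrable (fun y => (y c l) ^ 2) μ
  eq : ∀ᵐ y ∂μ, ∀ l, ∑ i, y (some i) l = e * y none l
  split : ∀ i x w, psi μ β x w = psi μ β x (Q a i w) * psi μ β 0 (w - Q a i w)

/-- (S1) for a.e. half-edge the conditional star law satisfies `StarHyp`. -/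
def KapStar (Env : MeasurableSpace Ω) [mΩ : MeasurableSpace Ω] (P : Measure Ω)
    [IsFiniteMeasure P] (d : ℕ) {k : ℕ} (s E t : ℝ) (pp rr : Ω → Ω) (om : Ω → ℝ) (cav : Ω → ℂ)
    (X Z : Ω → Fin k → ℝ) : Prop :=
  ∀ᵐ h ∂P, StarHyp (kap Env P pp rr d t X Z h) (E - s * om h)
    (fun i : Fin d => (cav (mv pp rr i h)).im) (fun i : Fin d => bet pp rr d s E om cav i h)

/-- (S2) the edge marginals seen from the two ends agree (`i0 = 0 : Fin d`). -/
def KapEdge (Env : MeasurableSpace Ω) [mΩ : MeasurableSpace Ω] (P : Measure Ω)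
    [IsFiniteMeasure P] (d : ℕ) {k : ℕ} (t : ℝ) (pp rr : Ω → Ω) (X Z : Ω → Fin k → ℝ) : Prop :=
  ∀ (i0 : Fin d), (i0 : ℕ) = 0 → ∀ᵐ h ∂P,
    (kap Env P pp rr d t X Z (pp h)).map (fun y => (y (some i0), y none)) =
      (kap Env P pp rr d t X Z h).map (fun y => (y none, y (some i0)))

/-- (S3) rotating the root port permutes the star. -/
def KapRot (Env : MeasurableSpace Ω) [mΩ : MeasurableSpace Ω] (P : Measure Ω)
    [IsFiniteMeasure P] (d : ℕ) {k : ℕ} (t : ℝ) (pp rr : Ω → Ω) (X Z : Ω → Fin k → ℝ) : Prop :=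
  ∀ (σ : Fin d → Fin d), (∀ i : Fin d, (σ i : ℕ) = (i + 1) % d) → ∀ᵐ h ∂P,
    kap Env P pp rr d t X Z (rr h) =
      (kap Env P pp rr d t X Z h).map (fun y => fun c => y (c.map σ))

/-- (S) first half of 42.6 -/
def Stmt_42_5 : Prop :=
  ∀ {Ω : Type} (Env FX : MeasurableSpace Ω) [mΩ : MeasurableSpace Ω] (d k : ℕ) (s E t ρ : ℝ)
    (P : Measure Ω) [IsFiniteMeasure P] (pp rr : Ω → Ω) (om : Ω → ℝ) (cav : Ω → ℂ)
    (X Z : Ω → Fin k → ℝ), LimProc Env FX d k s E t ρ P pp rr om cav X Z →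
    InnovProp Env d k s E t P pp rr om cav X Z →
    KapStar Env P d s E t pp rr om cav X Z ∧ KapEdge Env P d t pp rr X Z ∧
      KapRot Env P d t pp rr X Z

end Crest.Agent.R166.B2
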