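import Mathlib
import Crest.Agent.R166.Bern3_385
import Crest.Agent.R166.Spec42_385

/-!
# Row 166, 42.5: the star theorem for measures (helper385)

`StarHyp μ e a β`, `a i > 0`, `∑ β = e`, at least three neighbours ⇒ `V` is independent of `W`,
and `W` is Gaussian with covariance proportional to `Kf a`.
-/

set_option autoImplicit false

open MeasureTheory ProbabilityTheory
open Crest.Agent.R166.Bern385
open scoped ContDiff

namespace Crest.Agent.R166.B2

section Gen

variable {Ω' : Type*} [MeasurableSpace Ω'] {μ : Measure Ω'}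

/-- characteristic functions of square integrable vectors are `C²` -/
lemma contDiff_cf [IsFiniteMeasure μ] {J : Type*} [Fintype J]
    (U : Ω' → J → ℝ) (hU : ∀ j, MemLp (fun y => U y j) 2 μ) :
    ContDiff ℝ 2 (fun c : J → ℝ => ∫ y, Complex.exp (Complex.I * ((∑ j, c j * U y j : ℝ) : ℂ)) ∂μ) := by
  classical
  set T : Ω' → EuclideanSpace ℝ J := fun y => WithLp.toLp 2 (U y) with hT
  have hUm : AEMeasurable U μ := aemeasurable_pi_iff.2 fun j => (hU j).1.aemeasurable
  have hTm : AEMeasurable T μ :=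
    (PiLp.continuous_toLp 2 (fun _ : J => ℝ)).measurable.comp_aemeasurable hUm
  have hmem : MemLp T 2 μ := by
    rw [memLp_two_iff_integrable_sq_norm hTm.aestronglyMeasurable]
    have : (fun x => ‖T x‖ ^ 2) = fun x => ∑ j, (U x j) ^ 2 := by
      funext x
      rw [hT, EuclideanSpace.norm_sq_eq]
      simp
    rw [this]
    exact integrable_finsetSum _ fun j _ => (hU j).integrable_sq
  have hmap : MemLp id (2 : ℕ) (μ.map T) := by
    have := (memLp_map_measure_iff (f := T) (g := (id : EuclideanSpace ℝ J → EuclideanSpace ℝ J))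
      (p := 2) (μ := μ) aestronglyMeasurable_id hTm).2
    exact_mod_cast this (by simpa using hmem)
  have hc : ContDiff ℝ 2 (charFun (μ.map T)) := by
    have := contDiff_charFun (μ := μ.map T) (n := 2) hmap
    exact_mod_cast this
  have hlin : ContDiff ℝ 2 (fun c : J → ℝ => (WithLp.toLp 2 c : EuclideanSpace ℝ J)) :=
    (PiLp.continuousLinearEquiv 2 ℝ (fun _ : J => ℝ)).symm.contDiff
  have := hc.comp hlin
  convert this using 1
  funext c
  simp only [Function.comp_apply]
  rw [charFun_apply, integral_map hTm (by fun_prop)]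
  congr 1
  funext y
  rw [hT]
  congr 1
  rw [mul_comm]
  congr 2

lemma deriv_quad (L q : ℂ) (t : ℝ) :
    HasDerivAt (fun t : ℝ => (t : ℂ) * L + (t : ℂ) ^ 2 * q / 2) (L + t * q) t := by
  have h1 : HasDerivAt (fun t : ℝ => (t : ℂ)) 1 t := Complex.ofRealCLM.hasDerivAt
  have h2 : HasDerivAt (fun t : ℝ => (t : ℂ) * L + (t : ℂ) ^ 2 * q / 2) _ t :=
    (h1.mul_const L).add (((h1.pow 2).mul_const q).div_const 2)
  refine h2.congr_deriv ?_
  simp
  ring

/-- moments of a quadratic exponential characteristic function -/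
lemma moments_of_exp [IsProbabilityMeasure μ] (U : Ω' → ℝ) (hU : MemLp U 2 μ) (L q : ℂ)
    (h : ∀ t : ℝ, ∫ y, Complex.exp (Complex.I * ((t * U y : ℝ) : ℂ)) ∂μ =
      Complex.exp (t * L + t ^ 2 * q / 2)) :
    L = Complex.I * ((∫ y, U y ∂μ : ℝ) : ℂ) ∧
      q = -((∫ y, U y ^ 2 ∂μ - (∫ y, U y ∂μ) ^ 2 : ℝ) : ℂ) := by
  have hUm := hU.1.aemeasurable
  have hcf : charFun (μ.map U) = fun t : ℝ => Complex.exp (t * L + t ^ 2 * q / 2) := by
    funext t
    rw [← h t, charFun_apply_real, integral_map hUm (by fun_prop)]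
    congr 1
    funext y
    congr 1
    push_cast
    ring
  have : IsProbabilityMeasure (μ.map U) := Measure.isProbabilityMeasure_map hUm
  have hmap2 : MemLp id (2 : ℕ) (μ.map U) := by
    have := (memLp_map_measure_iff (f := U) (g := (id : ℝ → ℝ))
      (p := 2) (μ := μ) aestronglyMeasurable_id hUm).2
    exact_mod_cast this (by simpa using hU)
  have hmap1 : MemLp id (1 : ℕ) (μ.map U) := hmap2.mono_exponent (by simp)
  have e1 := iteratedDeriv_charFun_zero hmap1
  have e2 := iteratedDeriv_charFun_zero hmap2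
  have hd1 : ∀ t : ℝ, HasDerivAt (fun t : ℝ => Complex.exp (t * L + t ^ 2 * q / 2))
      (Complex.exp (t * L + t ^ 2 * q / 2) * (L + t * q)) t := fun t => (deriv_quad L q t).cexp
  have hderiv : deriv (charFun (μ.map U)) =
      fun t : ℝ => Complex.exp (t * L + t ^ 2 * q / 2) * (L + t * q) := by
    rw [hcf]; funext t; exact (hd1 t).deriv
  have hd2 : deriv (deriv (charFun (μ.map U))) 0 = L ^ 2 + q := by
    rw [hderiv]
    have h3 : HasDerivAt (fun t : ℝ => L + (t : ℂ) * q) (1 * q) 0 :=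
      ((Complex.ofRealCLM.hasDerivAt (x := (0 : ℝ))).mul_const q).const_add L
    have h4 := (hd1 0).mul h3
    have h5 : deriv (fun t : ℝ => Complex.exp (t * L + t ^ 2 * q / 2) * (L + t * q)) 0 = _ := h4.deriv
    rw [h5]
    simp
    ring
  rw [iteratedDeriv_one, hderiv, integral_map hUm (by fun_prop)] at e1
  rw [iteratedDeriv_succ, iteratedDeriv_one, hd2, integral_map hUm (by fun_prop)] at e2
  simp at e1 e2
  refine ⟨e1, ?_⟩
  have : q = -((∫ y, U y ^ 2 ∂μ : ℝ) : ℂ) - L ^ 2 := by
    linear_combination e2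
  rw [this, e1]
  push_cast
  rw [mul_pow, Complex.I_sq]
  ring

/-- uniqueness of the logarithm -/
lemma exp_quad_inj (L q : ℂ) (h : ∀ t : ℝ, Complex.exp (t * L + t ^ 2 * q / 2) = 1) :
    L = 0 ∧ q = 0 := by
  have h1 : ∀ t : ℝ, L + t * q = 0 := by
    intro t
    have hd := (deriv_quad L q t).cexp
    have hc : (fun t : ℝ => Complex.exp (t * L + t ^ 2 * q / 2)) = fun _ => 1 := funext h
    rw [hc] at hd
    have := hd.unique (hasDerivAt_const t (1 : ℂ))
    rcases mul_eq_zero.1 this with h0 | h0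
    · exact absurd h0 (Complex.exp_ne_zero _)
    · exact h0
  have h0 := h1 0
  have h2 := h1 1
  simp at h0 h2
  rw [h0] at h2
  exact ⟨h0, by simpa using h2⟩

end Gen

section Star

variable {ι κ : Type*} [Fintype ι] [DecidableEq ι] [Fintype κ]
variable {μ : Measure (Option ι → κ → ℝ)} {e : ℝ} {a β : ι → ℝ}

lemma StarHyp.memLp (H : StarHyp μ e a β) (c : Option ι) (l : κ) :
    MemLp (fun y : Option ι → κ → ℝ => y c l) 2 μ :=
  (memLp_two_iff_integrable_sq (show Measurable (fun y : Option ι → κ → ℝ => y c l) from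
    (measurable_pi_apply l).comp (measurable_pi_apply c)).aestronglyMeasurable).2 (H.sq c l)

lemma StarHyp.memLpW (H : StarHyp μ e a β) (i : ι) (l : κ) :
    MemLp (fun y : Option ι → κ → ℝ => y (some i) l - β i * y none l) 2 μ :=
  (H.memLp (some i) l).sub ((H.memLp none l).const_mul (β i))

/-- `psi` is `C²` in both variables -/
lemma StarHyp.contDiff (H : StarHyp μ e a β) :
    ContDiff ℝ 2 (fun p : (κ → ℝ) × (ι → κ → ℝ) => psi μ β p.1 p.2) := by
  have := H.prob
  set U : (Option ι → κ → ℝ) → (κ ⊕ ι × κ) → ℝ := fun y j => Sum.elim (fun l => y none l)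
    (fun q => y (some q.1) q.2 - β q.1 * y none q.2) j with hU
  have h1 := contDiff_cf (μ := μ) U (by
    rintro (l | ⟨i, l⟩)
    · exact H.memLp none l
    · exact H.memLpW i l)
  have h2 : ContDiff ℝ 2 (fun p : (κ → ℝ) × (ι → κ → ℝ) =>
      (fun j : κ ⊕ ι × κ => Sum.elim (fun l => p.1 l) (fun q => p.2 q.1 q.2) j)) := by
    rw [contDiff_pi]
    rintro (l | ⟨i, l⟩)
    · simp only [Sum.elim_inl]; fun_prop
    · simp only [Sum.elim_inr]; fun_prop
  have := h1.comp h2
  convert this using 1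
  funext p
  simp only [Function.comp_apply, psi, hU]
  congr 1
  funext y
  congr 3
  rw [Fintype.sum_sum_type, Fintype.sum_prod_type, Finset.sum_add_distrib]
  simp only [Sum.elim_inl, Sum.elim_inr]
  rw [Finset.sum_comm]

lemma StarHyp.psi_zero (H : StarHyp μ e a β) : psi μ β 0 0 = 1 := by
  have := H.prob
  simp [psi]

lemma StarHyp.psi_inv (H : StarHyp μ e a β) (hβ : ∑ i, β i = e) (x : κ → ℝ) (w : ι → κ → ℝ)
    (c : κ → ℝ) : psi μ β x (w + fun _ => c) = psi μ β x w := by
  rw [psi, psi]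
  refine integral_congr_ae ?_
  filter_upwards [H.eq] with y hy
  congr 3
  refine Finset.sum_congr rfl fun l _ => ?_
  congr 1
  simp only [Pi.add_apply, add_mul, Finset.sum_add_distrib]
  rw [← Finset.mul_sum, Finset.sum_sub_distrib, ← Finset.sum_mul, hβ, hy l]
  ring

lemma single_contr {a : ι → ℝ} (ha : ∀ i, 0 < a i) (h3 : 3 ≤ Fintype.card ι) {i j : ι}
    (hij : j ≠ i) :
    |(a j / ((∑ k, a k) - a i)) * (a i / ((∑ k, a k) - a j))| < 1 := by
  have h1 := sum_lt2 ha h3 hij
  have hi := ha i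
  have hj := ha j
  have p1 : 0 < (∑ k, a k) - a i := by linarith
  have p2 : 0 < (∑ k, a k) - a j := by linarith
  rw [abs_of_pos (by positivity), div_mul_div_comm, div_lt_one (by positivity)]
  nlinarith

/-- `V` is independent of `W`. -/
theorem StarHyp.psi_mul (H : StarHyp μ e a β) (hβ : ∑ i, β i = e) (ha : ∀ i, 0 < a i)
    (h3 : 3 ≤ Fintype.card ι) (x : κ → ℝ) (w : ι → κ → ℝ) :
    psi μ β x w = psi μ β x 0 * psi μ β 0 w := by
  have hcont := H.contDiff.continuous
  have hg : Continuous (psi μ β (0 : κ → ℝ)) := hcont.comp (by fun_prop : Continuous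
    fun w : ι → κ → ℝ => ((0 : κ → ℝ), w))
  have hgx : Continuous (psi μ β x) := hcont.comp (by fun_prop : Continuous
    fun w : ι → κ → ℝ => (x, w))
  have hne := star_ne_zero ha h3 hg H.psi_zero (fun w c => H.psi_inv hβ 0 w c)
    (fun i w => H.split i 0 w)
  set R : (ι → κ → ℝ) → ℂ := fun w => psi μ β x w / psi μ β 0 w with hR
  have hRc : Continuous R := hgx.div hg hne
  have hRQ : ∀ i w, R w = R (Q a i w) := by
    intro i w
    rw [hR]
    simp only
    rw [H.split i x w, H.split i 0 w]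
    have := hne (w - Q a i w)
    have := hne (Q a i w)
    field_simp
  have h2 : 1 < Fintype.card ι := by omega
  have hsingle : ∀ i (u : κ → ℝ), R (Pi.single i u) = R 0 := by
    intro i u
    obtain ⟨j, hj⟩ := Fintype.exists_ne_of_one_lt_card h2 i
    set c := (a j / ((∑ k, a k) - a i)) * (a i / ((∑ k, a k) - a j)) with hc
    have hstep : ∀ v : κ → ℝ, R (Pi.single i v) = R (Pi.single i (c • v)) := by
      intro v
      rw [hRQ j (Pi.single i v), hRQ i (Q a j (Pi.single i v)), Q_single_ne (Ne.symm hj),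
        map_smul, Q_single_ne hj, smul_smul, ← Pi.single_smul]
      congr 3
      rw [hc]; ring
    have hn : ∀ n : ℕ, R (Pi.single i u) = R (Pi.single i (c ^ n • u)) := by
      intro n
      induction n with
      | zero => simp
      | succ n ih => rw [ih, hstep, smul_smul, pow_succ']
    have hlim : Filter.Tendsto (fun n : ℕ => R (Pi.single i (c ^ n • u))) Filter.atTop
        (nhds (R 0)) := by
      have h1 : Filter.Tendsto (fun n : ℕ => c ^ n • u) Filter.atTop (nhds ((0 : ℝ) • u)) :=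
        (tendsto_pow_atTop_nhds_zero_of_abs_lt_one (single_contr ha h3 hj)).smul_const u
      rw [zero_smul] at h1
      have h2 : Continuous (fun v : κ → ℝ => R (Pi.single i v)) := by
        have h4 : Continuous (fun v : κ → ℝ => (Pi.single i v : ι → κ → ℝ)) :=
          continuous_single (A := fun _ : ι => κ → ℝ) i
        exact hRc.comp h4
      have h3 := h2.tendsto 0
      rw [Pi.single_zero] at h3
      exact h3.comp h1
    exact tendsto_nhds_unique (tendsto_const_nhds.congr hn) hlim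
  obtain ⟨i0⟩ : Nonempty ι := Fintype.card_pos_iff.1 (by omega)
  have hRw : R w = R 0 := by rw [hRQ i0 w, Q_apply, hsingle]
  rw [hR] at hRw
  simp only [H.psi_zero, div_one] at hRw
  rw [div_eq_iff (hne w)] at hRw
  exact hRw

/-- joint characteristic function of the centre and neighbour `i` -/
noncomputable def phc (μ : Measure (Option ι → κ → ℝ)) (i : ι) (x y : κ → ℝ) : ℂ :=
  ∫ z, Complex.exp (Complex.I * ((∑ l, (x l * z none l + y l * z (some i) l) : ℝ) : ℂ)) ∂μ

lemma phc_eq_psi (i : ι) (x y : κ → ℝ) :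
    phc μ i x y = psi μ β (x + β i • y) (Pi.single i y) := by
  rw [phc, psi]
  congr 1
  funext z
  congr 3
  refine Finset.sum_congr rfl fun l _ => ?_
  rw [Finset.sum_eq_single i]
  · simp only [Pi.add_apply, Pi.smul_apply, smul_eq_mul, Pi.single_eq_same]
    ring
  · intro j _ hj
    simp [Pi.single_eq_of_ne hj]
  · simp

/-- quadratic form of a matrix -/
noncomputable def qf (S : κ → κ → ℂ) (y : κ → ℝ) : ℂ := ∑ l, ∑ m, S l m * ((y l * y m : ℝ) : ℂ)

lemma qf_smul (S : κ → κ → ℂ) (c : ℝ) (y : κ → ℝ) : qf S (c • y) = (c : ℂ) ^ 2 * qf S y := by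
  simp only [qf, Finset.mul_sum]
  refine Finset.sum_congr rfl fun l _ => Finset.sum_congr rfl fun m _ => ?_
  simp only [Pi.smul_apply, smul_eq_mul]
  push_cast
  ring

omit [Fintype κ] in
lemma Kf_single (a : ι → ℝ) (i : ι) (y : κ → ℝ) (l m : κ) :
    Kf a (fun j => (Pi.single i y : ι → κ → ℝ) j l) (fun j => (Pi.single i y : ι → κ → ℝ) j m) =
      (a i - a i ^ 2 / ∑ j, a j) * (y l * y m) := by
  have h1 : ∀ l, ∑ j, a j * (Pi.single i y : ι → κ → ℝ) j l = a i * y l := by
    intro l
    rw [Finset.sum_eq_single i]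
    · simp
    · intro j _ hj; simp [Pi.single_eq_of_ne hj]
    · simp
  have h2 : ∑ j, a j * (Pi.single i y : ι → κ → ℝ) j l * (Pi.single i y : ι → κ → ℝ) j m =
      a i * y l * y m := by
    rw [Finset.sum_eq_single i]
    · simp
    · intro j _ hj; simp [Pi.single_eq_of_ne hj]
    · simp
  rw [Kf, h1, h1, h2]
  ring

/-- **Star theorem.** -/
theorem StarHyp.out [DecidableEq κ] (H : StarHyp μ e a β) (hβ : ∑ i, β i = e)
    (ha : ∀ i, 0 < a i) (h3 : 3 ≤ Fintype.card ι) :
    ∃ S : κ → κ → ℂ, ∀ i, ∃ ℓ : (κ → ℝ) →ₗ[ℝ] ℂ, ∀ x y,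
      phc μ i x y = phc μ i (x + β i • y) 0 *
        Complex.exp (ℓ y + ((a i - a i ^ 2 / ∑ j, a j : ℝ) : ℂ) * qf S y / 2) := by
  have hg : ContDiff ℝ 2 (psi μ β (0 : κ → ℝ)) := H.contDiff.comp (by fun_prop : ContDiff ℝ 2
    fun w : ι → κ → ℝ => ((0 : κ → ℝ), w))
  obtain ⟨ℓ, S, hS⟩ := star_quad ha h3 hg H.psi_zero (fun w c => H.psi_inv hβ 0 w c)
    (fun i w => H.split i 0 w)
  refine ⟨S, fun i => ⟨ℓ.toLinearMap ∘ₗ LinearMap.single ℝ (fun _ : ι => κ → ℝ) i, fun x y => ?_⟩⟩
  rw [phc_eq_psi (β := β), H.psi_mul hβ ha h3, phc_eq_psi (β := β), hS]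
  rw [smul_zero, add_zero, Pi.single_zero]
  congr 2
  · simp only [LinearMap.comp_apply, LinearMap.coe_single, ContinuousLinearMap.coe_coe]
    congr 2
    rw [qf, Finset.mul_sum]
    refine Finset.sum_congr rfl fun l _ => ?_
    rw [Finset.mul_sum]
    refine Finset.sum_congr rfl fun m _ => ?_
    rw [Kf_single]
    push_cast
    ring

end Star

end Crest.Agent.R166.B2
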