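import Mathlib
import Crest.Agent.R166.Bern4_385

/-!
# Row 166, 42.6: the edge theorem (helper385)

A pair `(V, U)` of square integrable vectors such that `U - β V` is Gaussian and independent of `V`
and `V - β' U` is Gaussian and independent of `U` is Gaussian (`β β' < 1`); relation between the
covariances.
-/

set_option autoImplicit false

open MeasureTheory ProbabilityTheory
open Crest.Agent.R166.Bern385
open scoped ContDiff

namespace Crest.Agent.R166.B2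

section Edge

variable {κ : Type*} [Fintype κ] {Ω' : Type*} [MeasurableSpace Ω'] {μ : Measure Ω'}

/-- mean of `x · V` -/
noncomputable def mn1 (μ : Measure Ω') (V : Ω' → κ → ℝ) (x : κ → ℝ) : ℝ := ∫ y, ∑ l, x l * V y l ∂μ

/-- variance of `x · V` -/
noncomputable def vr1 (μ : Measure Ω') (V : Ω' → κ → ℝ) (x : κ → ℝ) : ℝ :=
  ∫ y, (∑ l, x l * V y l) ^ 2 ∂μ - (∫ y, ∑ l, x l * V y l ∂μ) ^ 2

/-- joint characteristic function -/
noncomputable def ph (μ : Measure Ω') (V U : Ω' → κ → ℝ) (x y : κ → ℝ) : ℂ :=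
  ∫ z, Complex.exp (Complex.I * ((∑ l, (x l * V z l + y l * U z l) : ℝ) : ℂ)) ∂μ

lemma memLp_lin {V : Ω' → κ → ℝ} (hV : ∀ l, MemLp (fun y => V y l) 2 μ) (x : κ → ℝ) :
    MemLp (fun y => ∑ l, x l * V y l) 2 μ :=
  memLp_finsetSum _ fun l _ => (hV l).const_mul (x l)

lemma vr1_smul {V : Ω' → κ → ℝ} (c : ℝ) (x : κ → ℝ) :
    vr1 μ V (c • x) = c ^ 2 * vr1 μ V x := by
  have h1 : ∀ y, ∑ l, (c • x) l * V y l = c * ∑ l, x l * V y l := by
    intro y
    rw [Finset.mul_sum]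
    exact Finset.sum_congr rfl fun l _ => by simp [mul_assoc]
  simp only [vr1, h1, mul_pow]
  rw [integral_const_mul, integral_const_mul]
  ring

lemma mn1_smul {V : Ω' → κ → ℝ} (c : ℝ) (x : κ → ℝ) :
    mn1 μ V (c • x) = c * mn1 μ V x := by
  have h1 : ∀ y, ∑ l, (c • x) l * V y l = c * ∑ l, x l * V y l := by
    intro y
    rw [Finset.mul_sum]
    exact Finset.sum_congr rfl fun l _ => by simp [mul_assoc]
  simp only [mn1, h1]
  rw [integral_const_mul]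

lemma ph_left {V U : Ω' → κ → ℝ} (x : κ → ℝ) (t : ℝ) :
    ph μ V U (t • x) 0 = ∫ z, Complex.exp (Complex.I * ((t * ∑ l, x l * V z l : ℝ) : ℂ)) ∂μ := by
  rw [ph]
  congr 1
  funext z
  congr 3
  rw [Finset.mul_sum]
  exact Finset.sum_congr rfl fun l _ => by simp [mul_assoc]

lemma ph_right {V U : Ω' → κ → ℝ} (x : κ → ℝ) (t : ℝ) :
    ph μ V U 0 (t • x) = ∫ z, Complex.exp (Complex.I * ((t * ∑ l, x l * U z l : ℝ) : ℂ)) ∂μ := by
  rw [ph]
  congr 1
  funext z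
  congr 3
  rw [Finset.mul_sum]
  exact Finset.sum_congr rfl fun l _ => by simp [mul_assoc]

lemma exp_moments_left [IsProbabilityMeasure μ] {V U : Ω' → κ → ℝ}
    (hV : ∀ l, MemLp (fun y => V y l) 2 μ) (x : κ → ℝ) (L q : ℂ)
    (h : ∀ t : ℝ, ph μ V U (t • x) 0 = Complex.exp (t * L + t ^ 2 * q / 2)) :
    L = Complex.I * (mn1 μ V x : ℂ) ∧ q = -((vr1 μ V x : ℝ) : ℂ) :=
  moments_of_exp (fun y => ∑ l, x l * V y l) (memLp_lin hV x) L q
    (fun t => by rw [← ph_left x t]; exact h t)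

lemma exp_moments_right [IsProbabilityMeasure μ] {V U : Ω' → κ → ℝ}
    (hU : ∀ l, MemLp (fun y => U y l) 2 μ) (x : κ → ℝ) (L q : ℂ)
    (h : ∀ t : ℝ, ph μ V U 0 (t • x) = Complex.exp (t * L + t ^ 2 * q / 2)) :
    L = Complex.I * (mn1 μ U x : ℂ) ∧ q = -((vr1 μ U x : ℝ) : ℂ) :=
  moments_of_exp (fun y => ∑ l, x l * U y l) (memLp_lin hU x) L q
    (fun t => by rw [← ph_right x t]; exact h t)

/-- hypotheses of the edge theorem -/
structure EdgeHyp (μ : Measure Ω') (V U : Ω' → κ → ℝ) (b b' Pv Pu : ℝ) (S S' : κ → κ → ℂ)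
    (ℓ ℓ' : (κ → ℝ) →ₗ[ℝ] ℂ) : Prop where
  hV : ∀ l, MemLp (fun y => V y l) 2 μ
  hU : ∀ l, MemLp (fun y => U y l) 2 μ
  Pv_pos : 0 < Pv
  Pu_pos : 0 < Pu
  bb : b * Pv = b' * Pu
  r1 : b * b' < 1
  h1 : ∀ x y, ph μ V U x y = ph μ V U (x + b • y) 0 *
    Complex.exp (ℓ y + (((1 - b * b') * Pu : ℝ) : ℂ) * qf S y / 2)
  h2 : ∀ x y, ph μ V U x y = ph μ V U 0 (y + b' • x) *
    Complex.exp (ℓ' x + (((1 - b * b') * Pv : ℝ) : ℂ) * qf S' x / 2)

variable {V U : Ω' → κ → ℝ} {b b' Pv Pu : ℝ} {S S' : κ → κ → ℂ} {ℓ ℓ' : (κ → ℝ) →ₗ[ℝ] ℂ}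

lemma ph_swap (x y : κ → ℝ) : ph μ U V y x = ph μ V U x y := by
  rw [ph, ph]
  congr 1
  funext z
  congr 3
  exact Finset.sum_congr rfl fun l _ => by ring

lemma EdgeHyp.swap (H : EdgeHyp μ V U b b' Pv Pu S S' ℓ ℓ') :
    EdgeHyp μ U V b' b Pu Pv S' S ℓ' ℓ where
  hV := H.hU
  hU := H.hV
  Pv_pos := H.Pu_pos
  Pu_pos := H.Pv_pos
  bb := H.bb.symm
  r1 := by rw [mul_comm]; exact H.r1
  h1 x y := by
    rw [ph_swap, H.h2, ph_swap, mul_comm b' b]
  h2 x y := by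
    rw [ph_swap, H.h1, ph_swap, mul_comm b' b]

lemma ph_zero [IsProbabilityMeasure μ] : ph μ V U 0 0 = 1 := by simp [ph]

/-- the law of `V` is Gaussian: explicit form -/
lemma EdgeHyp.left [IsProbabilityMeasure μ] (H : EdgeHyp μ V U b b' Pv Pu S S' ℓ ℓ') (x : κ → ℝ) :
    ((vr1 μ V x : ℝ) : ℂ) * (1 - b * b') ^ 2 =
      -(((1 - b * b') * Pv : ℝ) : ℂ) * qf S' x + (((1 - b * b') * Pu : ℝ) : ℂ) * b' ^ 2 * qf S x ∧
    ∀ t : ℝ, ph μ V U (t • x) 0 = Complex.exp (t * (Complex.I * (mn1 μ V x : ℂ)) +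
      t ^ 2 * (-((vr1 μ V x : ℝ) : ℂ)) / 2) := by
  have hr : 1 - b * b' ≠ 0 := by have := H.r1; linarith
  have hrC : (1 - (b : ℂ) * b') ≠ 0 := by exact_mod_cast hr
  have key : ∀ x : κ → ℝ, ph μ V U ((1 - b * b') • x) 0 = Complex.exp (ℓ' x + b' * ℓ x +
      ((((1 - b * b') * Pv : ℝ) : ℂ) * qf S' x - (((1 - b * b') * Pu : ℝ) : ℂ) * b' ^ 2 * qf S x) / 2) := by
    intro x
    have e1 := H.h1 x ((-b') • x)
    have e2 := H.h2 x ((-b') • x)
    have z1 : x + b • (-b') • x = (1 - b * b') • x := by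
      rw [smul_smul, sub_smul, one_smul]
      module
    have z2 : (-b') • x + b' • x = 0 := by module
    rw [z1] at e1
    rw [z2, ph_zero, one_mul] at e2
    rw [e2, map_smul, qf_smul] at e1
    have e3 : ph μ V U ((1 - b * b') • x) 0 =
        Complex.exp (ℓ' x + (((1 - b * b') * Pv : ℝ) : ℂ) * qf S' x / 2) /
        Complex.exp ((-b') • ℓ x + (((1 - b * b') * Pu : ℝ) : ℂ) * (((-b' : ℝ) : ℂ) ^ 2 * qf S x) / 2) := by
      rw [eq_div_iff (Complex.exp_ne_zero _)]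
      exact e1.symm
    rw [e3, ← Complex.exp_sub]
    congr 1
    simp only [Complex.real_smul]
    push_cast
    ring
  have key2 : ∀ t : ℝ, ph μ V U (t • x) 0 = Complex.exp (t * ((ℓ' x + b' * ℓ x) / (1 - b * b')) +
      t ^ 2 * (((((1 - b * b') * Pv : ℝ) : ℂ) * qf S' x -
        (((1 - b * b') * Pu : ℝ) : ℂ) * b' ^ 2 * qf S x) / (1 - b * b') ^ 2) / 2) := by
    intro t
    have h := key ((t / (1 - b * b')) • x)
    rw [smul_smul, mul_div_cancel₀ _ hr, map_smul, map_smul, qf_smul, qf_smul] at h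
    rw [h]
    congr 1
    simp only [Complex.real_smul]
    push_cast
    field_simp
  obtain ⟨m1, m2⟩ := exp_moments_left H.hV x _ _ key2
  constructor
  · have : ((vr1 μ V x : ℝ) : ℂ) = -(((((1 - b * b') * Pv : ℝ) : ℂ) * qf S' x -
        (((1 - b * b') * Pu : ℝ) : ℂ) * b' ^ 2 * qf S x) / (1 - b * b') ^ 2) := by
      rw [m2]; ring
    rw [this, neg_mul, div_mul_cancel₀ _ (pow_ne_zero 2 hrC)]
    ring
  · intro t
    rw [key2 t, m1, m2]

lemma EdgeHyp.third [IsProbabilityMeasure μ] (H : EdgeHyp μ V U b b' Pv Pu S S' ℓ ℓ') (x : κ → ℝ) :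
    ((vr1 μ V x : ℝ) : ℂ) = b' ^ 2 * ((vr1 μ U x : ℝ) : ℂ) -
      (((1 - b * b') * Pv : ℝ) : ℂ) * qf S' x ∧
    Complex.I * (mn1 μ V x : ℂ) = b' * (Complex.I * (mn1 μ U x : ℂ)) + ℓ' x := by
  have h2 := (H.swap.left x).2
  have hk : ∀ t : ℝ, ph μ V U (t • x) 0 = Complex.exp (t * (b' * (Complex.I * (mn1 μ U x : ℂ)) + ℓ' x) +
      t ^ 2 * (-(b' ^ 2 * ((vr1 μ U x : ℝ) : ℂ)) + (((1 - b * b') * Pv : ℝ) : ℂ) * qf S' x) / 2) := by
    intro t
    have e := H.h2 (t • x) 0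
    have e2 : ph μ V U 0 ((b' * t) • x) = _ := (ph_swap (μ := μ) (V := V) (U := U) 0
      ((b' * t) • x)).symm.trans (h2 (b' * t))
    rw [zero_add, smul_smul, e2, ← Complex.exp_add, map_smul, qf_smul] at e
    rw [e]
    congr 1
    simp only [Complex.real_smul]
    push_cast
    ring
  obtain ⟨m1, m2⟩ := exp_moments_left H.hV x _ _ hk
  constructor
  · linear_combination m2
  · exact m1.symm

lemma mn1_add [IsProbabilityMeasure μ] (hV : ∀ l, MemLp (fun y => V y l) 2 μ) (x y : κ → ℝ) :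
    mn1 μ V (x + y) = mn1 μ V x + mn1 μ V y := by
  rw [mn1, mn1, mn1, ← integral_add ((memLp_lin hV x).integrable one_le_two)
    ((memLp_lin hV y).integrable one_le_two)]
  congr 1
  funext z
  rw [← Finset.sum_add_distrib]
  exact Finset.sum_congr rfl fun l _ => by simp [add_mul]

/-- **Edge theorem** -/
theorem EdgeHyp.out [IsProbabilityMeasure μ] (H : EdgeHyp μ V U b b' Pv Pu S S' ℓ ℓ') :
    (∀ x, ((vr1 μ V x : ℝ) : ℂ) = -(Pv : ℂ) * qf S' x) ∧
    (∀ x, ((vr1 μ U x : ℝ) : ℂ) = -(Pu : ℂ) * qf S x) ∧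
    ∀ x y, ph μ V U x y = Complex.exp (Complex.I * (mn1 μ V x + mn1 μ U y : ℂ) -
      (vr1 μ V (x + b • y) : ℂ) / 2 - (1 - b * b') * (vr1 μ U y : ℂ) / 2) := by
  have hr : (1 - b * b' : ℝ) ≠ 0 := by have := H.r1; linarith
  have hrC : (1 - (b : ℂ) * b') ≠ 0 := by exact_mod_cast hr
  have hPv : (Pv : ℂ) ≠ 0 := by exact_mod_cast H.Pv_pos.ne'
  have hPu : (Pu : ℂ) ≠ 0 := by exact_mod_cast H.Pu_pos.ne'
  have hbb : (b : ℂ) * Pv = b' * Pu := by exact_mod_cast H.bb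
  have hE1 : ∀ x, ((vr1 μ V x : ℝ) : ℂ) * (1 - b * b') = -Pv * (qf S' x - b * b' * qf S x) := by
    intro x
    have E1 := (H.left x).1
    push_cast at E1
    have : (1 - (b : ℂ) * b') * (((vr1 μ V x : ℝ) : ℂ) * (1 - b * b') +
        Pv * (qf S' x - b * b' * qf S x)) = 0 := by
      linear_combination E1 - (1 - (b : ℂ) * b') * b' * qf S x * hbb
    rcases mul_eq_zero.1 this with h | h
    · exact absurd h hrC
    · linear_combination h
  have hE2 : ∀ x, ((vr1 μ U x : ℝ) : ℂ) * (1 - b * b') = -Pu * (qf S x - b * b' * qf S' x) := by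
    intro x
    have E2 := (H.swap.left x).1
    push_cast at E2
    have : (1 - (b : ℂ) * b') * (((vr1 μ U x : ℝ) : ℂ) * (1 - b * b') +
        Pu * (qf S x - b * b' * qf S' x)) = 0 := by
      linear_combination E2 + (1 - (b : ℂ) * b') * b * qf S' x * hbb
    rcases mul_eq_zero.1 this with h | h
    · exact absurd h hrC
    · linear_combination h
  have hS : ∀ x, (b : ℂ) * b' * (qf S' x - qf S x) = 0 := by
    intro x
    have E3 := (H.third x).1
    push_cast at E3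
    have : (Pv : ℂ) * ((b : ℂ) * b' * (qf S' x - qf S x)) * 2 = 0 := by
      linear_combination hE1 x - (1 - (b : ℂ) * b') * E3 - (b' : ℂ) ^ 2 * hE2 x -
        b' * (qf S x - b * b' * qf S' x) * hbb
    rcases mul_eq_zero.1 this with h | h
    · rcases mul_eq_zero.1 h with h | h
      · exact absurd h hPv
      · exact h
    · norm_num at h
  have c1 : ∀ x, ((vr1 μ V x : ℝ) : ℂ) = -(Pv : ℂ) * qf S' x := by
    intro x
    refine mul_right_cancel₀ hrC ?_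
    linear_combination hE1 x - (Pv : ℂ) * hS x
  have c2 : ∀ x, ((vr1 μ U x : ℝ) : ℂ) = -(Pu : ℂ) * qf S x := by
    intro x
    refine mul_right_cancel₀ hrC ?_
    linear_combination hE2 x + (Pu : ℂ) * hS x
  refine ⟨c1, c2, fun x y => ?_⟩
  have h3 := (H.swap.third y).2
  have h4 := (H.left (x + b • y)).2 1
  rw [one_smul] at h4
  rw [H.h1, h4, ← Complex.exp_add, mn1_add H.hV, mn1_smul]
  congr 1
  push_cast
  linear_combination -h3 + (1 - (b : ℂ) * b') * c2 y / 2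

end Edge

end Crest.Agent.R166.B2
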