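import Mathlib

/-!
# Generalities on `condDistrib` (row 166, sec 42.5; helper63)

`B` plays the role of the environment (later `B = Ω` with a smaller σ-algebra and `e = id`).
-/

set_option autoImplicit false

open MeasureTheory ProbabilityTheory

namespace Crest.Agent.R166.Kap063

variable {Ω B A : Type*} [MeasurableSpace Ω] [mB : MeasurableSpace B] [MeasurableSpace A]
  [StandardBorelSpace A] [Nonempty A] {P : Measure Ω} [IsProbabilityMeasure P]
  {e : Ω → B} {S : Ω → A}

/-- equivariance of the conditional distribution under an invertible measure preserving map -/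
theorem condDistrib_equivariant (he : Measurable e) (hS : Measurable S) {T : Ω → Ω}
    (hT : MeasurePreserving T P P) {TB TB' : B → B} (hTB : Measurable TB) (hTB' : Measurable TB')
    (h1 : ∀ h, e (T h) = TB (e h)) (h2 : ∀ b, TB' (TB b) = b) :
    condDistrib (S ∘ T) e P =ᵐ[P.map e] (condDistrib S e P).comap TB hTB := by
  refine condDistrib_ae_eq_of_measure_eq_compProd e (hS.comp hT.measurable).aemeasurable ?_
  have hQ : (P.map e).map TB = P.map e := by
    rw [Measure.map_map hTB he]
    have : TB ∘ e = e ∘ T := by funext h; exact (h1 h).symm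
    rw [this, ← Measure.map_map he hT.measurable, hT.map_eq]
  have : IsProbabilityMeasure (P.map e) := Measure.isProbabilityMeasure_map he.aemeasurable
  refine Measure.ext_prod ?_
  intro s t hs ht
  rw [Measure.compProd_apply_prod hs ht, Measure.map_apply (he.prodMk (hS.comp hT.measurable))
    (hs.prod ht)]
  have hs' : MeasurableSet (TB' ⁻¹' s) := hTB' hs
  have e1 : ∫⁻ b in s, ((condDistrib S e P).comap TB hTB) b t ∂(P.map e) =
      ∫⁻ b in TB' ⁻¹' s, condDistrib S e P b t ∂(P.map e) := by
    conv_rhs => rw [← hQ]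
    rw [setLIntegral_map hs' (Kernel.measurable_coe _ ht) hTB]
    have : TB ⁻¹' (TB' ⁻¹' s) = s := by ext b; simp [h2]
    rw [this]
    rfl
  rw [e1, ← Measure.compProd_apply_prod hs' ht, compProd_map_condDistrib hS.aemeasurable,
    Measure.map_apply (he.prodMk hS) (hs'.prod ht),
    ← hT.measure_preimage ((he.prodMk hS) (hs'.prod ht)).nullMeasurableSet]
  congr 1
  ext h
  simp [h1, h2]

/-- pointwise form -/
theorem condDistrib_equivariant' (he : Measurable e) (hS : Measurable S) {T : Ω → Ω}
    (hT : MeasurePreserving T P P) {TB TB' : B → B} (hTB : Measurable TB) (hTB' : Measurable TB')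
    (h1 : ∀ h, e (T h) = TB (e h)) (h2 : ∀ b, TB' (TB b) = b) :
    ∀ᵐ h ∂P, condDistrib (S ∘ T) e P (e h) = condDistrib S e P (e (T h)) := by
  have := ae_of_ae_map he.aemeasurable (condDistrib_equivariant he hS hT hTB hTB' h1 h2)
  filter_upwards [this] with h hh
  rw [hh, Kernel.comap_apply, h1]

/-- image under a measurable map -/
theorem condDistrib_map_fun {A' : Type*} [MeasurableSpace A'] [StandardBorelSpace A']
    [Nonempty A'] (he : Measurable e) (hS : Measurable S) {f : A → A'} (hf : Measurable f) :
    ∀ᵐ h ∂P, condDistrib (f ∘ S) e P (e h) = (condDistrib S e P (e h)).map f := by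
  have := ae_of_ae_map he.aemeasurable (condDistrib_comp (μ := P) e hS.aemeasurable hf)
  filter_upwards [this] with h hh
  rw [hh, Kernel.map_apply _ hf]

/-- a.s. properties pass to the kernel -/
theorem ae_ae_condDistrib (he : Measurable e) (hS : Measurable S) {p : B × A → Prop}
    (hp : MeasurableSet {x | p x}) (h : ∀ᵐ a ∂P, p (e a, S a)) :
    ∀ᵐ a ∂P, ∀ᵐ y ∂(condDistrib S e P (e a)), p (e a, y) := by
  have : IsProbabilityMeasure (P.map e) := Measure.isProbabilityMeasure_map he.aemeasurable
  have h1 : ∀ᵐ x ∂(P.map fun a => (e a, S a)), p x :=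
    (ae_map_iff (he.prodMk hS).aemeasurable hp).2 h
  rw [← compProd_map_condDistrib hS.aemeasurable] at h1
  exact ae_of_ae_map he.aemeasurable (Measure.ae_ae_of_ae_compProd h1)

omit [IsProbabilityMeasure P] in
/-- a.s. equality for every parameter gives, by continuity, a.s. equality for all parameters. -/
theorem ae_forall_of_continuous {Θ F : Type*} [TopologicalSpace Θ]
    [TopologicalSpace.SeparableSpace Θ] [TopologicalSpace F] [T2Space F] {f g : Θ → Ω → F}
    (hf : ∀ h, Continuous fun θ => f θ h) (hg : ∀ h, Continuous fun θ => g θ h)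
    (H : ∀ θ, ∀ᵐ h ∂P, f θ h = g θ h) : ∀ᵐ h ∂P, ∀ θ, f θ h = g θ h := by
  obtain ⟨D, hDc, hD⟩ := TopologicalSpace.exists_countable_dense Θ
  have h1 : ∀ᵐ h ∂P, ∀ θ ∈ D, f θ h = g θ h := (ae_ball_iff hDc).2 fun θ _ => H θ
  filter_upwards [h1] with h hh θ
  have h2 : (fun θ => f θ h) = fun θ => g θ h :=
    Continuous.ext_on hD (hf h) (hg h) fun θ hθ => hh θ hθ
  exact congrFun h2 θ

end Crest.Agent.R166.Kap063
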