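import Mathlib
import Crest.Agent.R166.Kap0_63
import Crest.Agent.R166.Spec42_385

/-!
# The splitting of the conditional star law at one port (row 166, sec 42.5; helper63)
-/

set_option autoImplicit false

open MeasureTheory ProbabilityTheory
open Crest.Agent.R166.Bern385 Crest.Agent.R166.B2

namespace Crest.Agent.R166.Kap63

variable {ι κ : Type*} [Fintype ι] [DecidableEq ι] [Fintype κ]

/-- innovation at `j` relative to `i0`, as a function of the star vector `η` -/
noncomputable def inn (a β : ι → ℝ) (i0 j : ι) (η : Option ι → κ → ℝ) (l : κ) : ℝ :=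
  (η (some j) l - β j * η none l) +
    a j / ((∑ i, a i) - a i0) * (η (some i0) l - β i0 * η none l)

/-- the phase -/
noncomputable def Lθ (a β : ι → ℝ) (i0 : ι) (θ : (κ → ℝ) × (κ → ℝ) × (ι → κ → ℝ))
    (η : Option ι → κ → ℝ) : ℝ :=
  ∑ l, (θ.1 l * η none l + θ.2.1 l * η (some i0) l +
    ∑ j, (if j = i0 then 0 else θ.2.2 j l) * inn a β i0 j η l)

lemma sum_inn_eq {a : ι → ℝ} {i0 : ι} (hD : (∑ j, a j) - a i0 ≠ 0) (w W : ι → ℝ) :
    ∑ j, w j * W j = ((∑ j, a j) * w i0 - ∑ j, a j * w j) / ((∑ j, a j) - a i0) * W i0 +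
      ∑ j, (if j = i0 then 0 else w j) * (W j + a j / ((∑ i, a i) - a i0) * W i0) := by
  set D := (∑ j, a j) - a i0 with hDdef
  have h1 : ∀ j, (if j = i0 then 0 else w j) * (W j + a j / D * W i0) =
      w j * W j + (a j * w j) * (W i0 / D) -
        (if j = i0 then w i0 * (W i0 + a i0 / D * W i0) else 0) := by
    intro j
    split_ifs with hj
    · subst hj; ring
    · ring
  rw [Finset.sum_congr rfl fun j _ => h1 j, Finset.sum_sub_distrib, Finset.sum_add_distrib,
    ← Finset.sum_mul, Finset.sum_ite_eq' Finset.univ i0]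
  simp only [Finset.mem_univ, if_true]
  have hA : ∑ j, a j = D + a i0 := by rw [hDdef]; ring
  rw [hA]
  field_simp
  ring

/-- the phase of `psi` in terms of the innovations -/
lemma phase_eq {a β : ι → ℝ} {i0 : ι} (hD : (∑ j, a j) - a i0 ≠ 0) (x : κ → ℝ) (w : ι → κ → ℝ)
    (η : Option ι → κ → ℝ) :
    ∑ l, (x l * η none l + ∑ i, w i l * (η (some i) l - β i * η none l)) =
      Lθ a β i0 (fun l => x l - β i0 * cf a i0 w l, cf a i0 w, w) η := by
  unfold Lθ inn
  refine Finset.sum_congr rfl fun l _ => ?_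
  rw [sum_inn_eq hD (fun i => w i l) (fun i => η (some i) l - β i * η none l)]
  simp only [cf]
  ring

lemma phase_Q {a β : ι → ℝ} {i0 : ι} (x : κ → ℝ) (w : ι → κ → ℝ)
    (η : Option ι → κ → ℝ) :
    ∑ l, (x l * η none l + ∑ i, Q a i0 w i l * (η (some i) l - β i * η none l)) =
      Lθ a β i0 (fun l => x l - β i0 * cf a i0 w l, cf a i0 w, 0) η := by
  unfold Lθ
  refine Finset.sum_congr rfl fun l _ => ?_
  rw [Q_apply]
  have h1 : ∑ i, (Pi.single i0 (cf a i0 w) : ι → κ → ℝ) i l * (η (some i) l - β i * η none l) =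
      cf a i0 w l * (η (some i0) l - β i0 * η none l) := by
    rw [Finset.sum_eq_single i0]
    · simp
    · intro j _ hj; simp [Pi.single_eq_of_ne hj]
    · simp
  rw [h1]
  simp
  ring

lemma phase_sub_Q {a β : ι → ℝ} {i0 : ι} (hD : (∑ j, a j) - a i0 ≠ 0) (w : ι → κ → ℝ)
    (η : Option ι → κ → ℝ) :
    ∑ l, ((0 : κ → ℝ) l * η none l +
      ∑ i, (w - Q a i0 w) i l * (η (some i) l - β i * η none l)) =
      Lθ a β i0 (0, 0, w) η := by
  unfold Lθ
  refine Finset.sum_congr rfl fun l _ => ?_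
  rw [Q_apply]
  have h1 : ∑ i, (w - (Pi.single i0 (cf a i0 w) : ι → κ → ℝ)) i l *
      (η (some i) l - β i * η none l) =
      ∑ i, w i l * (η (some i) l - β i * η none l) -
      cf a i0 w l * (η (some i0) l - β i0 * η none l) := by
    have h2 : ∑ i, (Pi.single i0 (cf a i0 w) : ι → κ → ℝ) i l * (η (some i) l - β i * η none l) =
      cf a i0 w l * (η (some i0) l - β i0 * η none l) := by
      rw [Finset.sum_eq_single i0]
      · simp
      · intro j _ hj; simp [Pi.single_eq_of_ne hj]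
      · simp
    rw [← h2, ← Finset.sum_sub_distrib]
    refine Finset.sum_congr rfl fun i _ => ?_
    simp only [Pi.sub_apply]
    ring
  rw [h1, sum_inn_eq hD (fun i => w i l) (fun i => η (some i) l - β i * η none l)]
  simp only [Pi.zero_apply, zero_mul, cf, inn]
  ring

/-- the characteristic function in the parameters `θ` -/
noncomputable def Phi (μ : Measure (Option ι → κ → ℝ)) (a β : ι → ℝ) (i0 : ι)
    (θ : (κ → ℝ) × (κ → ℝ) × (ι → κ → ℝ)) : ℂ :=
  ∫ η, Complex.exp (Complex.I * (Lθ a β i0 θ η : ℝ)) ∂μ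

lemma psi_eq_Phi {μ : Measure (Option ι → κ → ℝ)} {a β : ι → ℝ} {i0 : ι}
    (hD : (∑ j, a j) - a i0 ≠ 0) (x : κ → ℝ) (w : ι → κ → ℝ) :
    psi μ β x w = Phi μ a β i0 (fun l => x l - β i0 * cf a i0 w l, cf a i0 w, w) := by
  unfold psi Phi
  refine integral_congr_ae (Filter.Eventually.of_forall fun η => ?_)
  simp only
  rw [phase_eq hD]

lemma psi_Q_eq_Phi {μ : Measure (Option ι → κ → ℝ)} {a β : ι → ℝ} {i0 : ι}
    (x : κ → ℝ) (w : ι → κ → ℝ) :
    psi μ β x (Q a i0 w) = Phi μ a β i0 (fun l => x l - β i0 * cf a i0 w l, cf a i0 w, 0) := by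
  unfold psi Phi
  refine integral_congr_ae (Filter.Eventually.of_forall fun η => ?_)
  simp only
  rw [phase_Q]

lemma psi_sub_Q_eq_Phi {μ : Measure (Option ι → κ → ℝ)} {a β : ι → ℝ} {i0 : ι}
    (hD : (∑ j, a j) - a i0 ≠ 0) (w : ι → κ → ℝ) :
    psi μ β 0 (w - Q a i0 w) = Phi μ a β i0 (0, 0, w) := by
  unfold psi Phi
  refine integral_congr_ae (Filter.Eventually.of_forall fun η => ?_)
  simp only
  rw [phase_sub_Q hD]

lemma norm_exp_I (r : ℝ) : ‖Complex.exp (Complex.I * (r : ℂ))‖ = 1 := by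
  rw [mul_comm]; exact Complex.norm_exp_ofReal_mul_I r

lemma measurable_Lθ (a β : ι → ℝ) (i0 : ι) (θ : (κ → ℝ) × (κ → ℝ) × (ι → κ → ℝ)) :
    Measurable (Lθ a β i0 θ) := by
  unfold Lθ inn
  fun_prop

lemma continuous_Lθ (a β : ι → ℝ) (i0 : ι) (η : Option ι → κ → ℝ) :
    Continuous fun θ : (κ → ℝ) × (κ → ℝ) × (ι → κ → ℝ) => Lθ a β i0 θ η := by
  unfold Lθ
  refine continuous_finsetSum _ fun l _ => ?_
  refine Continuous.add (by fun_prop) (continuous_finsetSum _ fun j _ => ?_)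
  by_cases hj : j = i0
  · simp only [hj, if_true]; fun_prop
  · simp only [hj, if_false]; fun_prop

lemma continuous_Phi (μ : Measure (Option ι → κ → ℝ)) [IsProbabilityMeasure μ] (a β : ι → ℝ)
    (i0 : ι) : Continuous (Phi μ a β i0) := by
  unfold Phi
  refine continuous_of_dominated (bound := fun _ => 1) ?_ ?_ ?_ ?_
  · intro θ
    refine Measurable.aestronglyMeasurable ?_
    have := measurable_Lθ a β i0 θ
    fun_prop
  · intro θ
    exact Filter.Eventually.of_forall fun η => (norm_exp_I _).le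
  · exact integrable_const _
  · refine Filter.Eventually.of_forall fun η => ?_
    have := continuous_Lθ a β i0 η
    fun_prop

/-! ### from conditional expectations to the kernel -/

section Core

variable {Ω B : Type*} [MeasurableSpace Ω] [mB : MeasurableSpace B] {P : Measure Ω}
  [IsProbabilityMeasure P] {e : Ω → B} {S : Ω → Option ι → κ → ℝ} {aB bB : B → ι → ℝ} {i0 : ι}

lemma measurable_phase (haB : Measurable aB) (hbB : Measurable bB)
    (θ : (κ → ℝ) × (κ → ℝ) × (ι → κ → ℝ)) :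
    Measurable fun p : B × (Option ι → κ → ℝ) => Lθ (aB p.1) (bB p.1) i0 θ p.2 := by
  have h1 : ∀ i, Measurable fun p : B × (Option ι → κ → ℝ) => aB p.1 i := fun i =>
    (measurable_pi_apply i).comp (haB.comp measurable_fst)
  have h2 : ∀ i, Measurable fun p : B × (Option ι → κ → ℝ) => bB p.1 i := fun i =>
    (measurable_pi_apply i).comp (hbB.comp measurable_fst)
  unfold Lθ inn
  fun_prop

lemma condExp_eq_Phi (he : Measurable e) (hS : Measurable S) (haB : Measurable aB)
    (hbB : Measurable bB) (θ : (κ → ℝ) × (κ → ℝ) × (ι → κ → ℝ)) :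
    P[fun h => Complex.exp (Complex.I * ((Lθ (aB (e h)) (bB (e h)) i0 θ (S h) : ℝ) : ℂ)) |
      mB.comap e] =ᵐ[P]
      fun h => Phi (condDistrib S e P (e h)) (aB (e h)) (bB (e h)) i0 θ := by
  have hm := measurable_phase (i0 := i0) haB hbB θ
  have hm2 : Measurable fun p : B × (Option ι → κ → ℝ) =>
      Complex.exp (Complex.I * ((Lθ (aB p.1) (bB p.1) i0 θ p.2 : ℝ) : ℂ)) := by fun_prop
  refine condExp_prod_ae_eq_integral_condDistrib (f := fun p : B × (Option ι → κ → ℝ) =>
    Complex.exp (Complex.I * ((Lθ (aB p.1) (bB p.1) i0 θ p.2 : ℝ) : ℂ))) he hS.aemeasurable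
    hm2.stronglyMeasurable ?_
  refine Integrable.mono' (integrable_const (1 : ℝ)) ?_ ?_
  · exact (hm2.comp (he.prodMk hS)).aestronglyMeasurable
  · exact Filter.Eventually.of_forall fun h => (norm_exp_I _).le

/-- **Core splitting** at the port `i0`. -/
theorem core_split (he : Measurable e) (hS : Measurable S) (haB : Measurable aB)
    (hbB : Measurable bB) (hD : ∀ᵐ h ∂P, (∑ j, aB (e h) j) - aB (e h) i0 ≠ 0)
    (H : ∀ (x y : κ → ℝ) (w : ι → κ → ℝ),
      P[fun h => Complex.exp (Complex.I *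
        ((Lθ (aB (e h)) (bB (e h)) i0 (x, y, w) (S h) : ℝ) : ℂ)) | mB.comap e] =ᵐ[P]
      fun h => (P[fun h => Complex.exp (Complex.I *
        ((Lθ (aB (e h)) (bB (e h)) i0 (x, y, 0) (S h) : ℝ) : ℂ)) | mB.comap e] h) *
        (P[fun h => Complex.exp (Complex.I *
        ((Lθ (aB (e h)) (bB (e h)) i0 (0, 0, w) (S h) : ℝ) : ℂ)) | mB.comap e] h)) :
    ∀ᵐ h ∂P, ∀ (x : κ → ℝ) (w : ι → κ → ℝ),
      psi (condDistrib S e P (e h)) (bB (e h)) x w =
        psi (condDistrib S e P (e h)) (bB (e h)) x (Q (aB (e h)) i0 w) *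
          psi (condDistrib S e P (e h)) (bB (e h)) 0 (w - Q (aB (e h)) i0 w) := by
  have h1 : ∀ᵐ h ∂P, ∀ θ : (κ → ℝ) × (κ → ℝ) × (ι → κ → ℝ),
      Phi (condDistrib S e P (e h)) (aB (e h)) (bB (e h)) i0 θ =
      Phi (condDistrib S e P (e h)) (aB (e h)) (bB (e h)) i0 (θ.1, θ.2.1, 0) *
        Phi (condDistrib S e P (e h)) (aB (e h)) (bB (e h)) i0 (0, 0, θ.2.2) := by
    refine Kap063.ae_forall_of_continuous ?_ ?_ ?_
    · intro h; exact continuous_Phi _ _ _ _
    · intro h
      refine Continuous.mul ?_ ?_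
      · exact (continuous_Phi _ _ _ _).comp (by fun_prop)
      · exact (continuous_Phi _ _ _ _).comp (by fun_prop)
    · rintro ⟨x, y, w⟩
      filter_upwards [H x y w, condExp_eq_Phi (i0 := i0) (P := P) he hS haB hbB (x, y, w),
        condExp_eq_Phi (i0 := i0) (P := P) he hS haB hbB (x, y, 0),
        condExp_eq_Phi (i0 := i0) (P := P) he hS haB hbB (0, 0, w)] with h a1 a2 a3 a4
      rw [← a2, a1, a3, a4]
  filter_upwards [h1, hD] with h hh hDh x w
  rw [psi_eq_Phi hDh, psi_Q_eq_Phi, psi_sub_Q_eq_Phi hDh, hh]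

end Core

end Crest.Agent.R166.Kap63
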