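import Mathlib
import Crest.Agent.R166.Kap1_63

/-!
# Rotation of the star and the splitting at every port (row 166, sec 42.5; helper63)
-/

set_option autoImplicit false

open MeasureTheory ProbabilityTheory
open Crest.Agent.R166.Bern385 Crest.Agent.R166.B2

namespace Crest.Agent.R166.Kap63

variable {ι κ : Type*} [Fintype ι] [DecidableEq ι] [Fintype κ]

/-- permutation of the star vector -/
def perm (σ : ι → ι) (y : Option ι → κ → ℝ) : Option ι → κ → ℝ := fun c => y (c.map σ)

omit [Fintype ι] [DecidableEq ι] [Fintype κ] in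
lemma measurable_perm (σ : ι → ι) : Measurable (perm (κ := κ) σ) := by
  unfold perm
  fun_prop

/-- the splitting at port `i` -/
def Sp (μ : Measure (Option ι → κ → ℝ)) (a β : ι → ℝ) (i : ι) : Prop :=
  ∀ x w, psi μ β x w = psi μ β x (Q a i w) * psi μ β 0 (w - Q a i w)

lemma psi_perm (μ : Measure (Option ι → κ → ℝ)) (β : ι → ℝ) (σ : Equiv.Perm ι)
    (x : κ → ℝ) (w : ι → κ → ℝ) :
    psi (μ.map (perm σ)) (β ∘ σ) x w = psi μ β x (w ∘ σ.symm) := by
  unfold psi
  have hm : Measurable fun y : Option ι → κ → ℝ => Complex.exp (Complex.I * ((∑ l,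
      (x l * y none l + ∑ i, w i l * (y (some i) l - (β ∘ σ) i * y none l)) : ℝ) : ℂ)) := by
    fun_prop
  rw [integral_map (measurable_perm σ).aemeasurable hm.aestronglyMeasurable]
  refine integral_congr_ae (Filter.Eventually.of_forall fun y => ?_)
  simp only [perm, Option.map_none, Option.map_some, Function.comp_apply]
  congr 3
  refine Finset.sum_congr rfl fun l _ => ?_
  congr 1
  rw [← Equiv.sum_comp σ fun i => w (σ.symm i) l * (y (some i) l - β i * y none l)]
  refine Finset.sum_congr rfl fun i _ => ?_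
  rw [Equiv.symm_apply_apply]

omit [DecidableEq ι] [Fintype κ] in
lemma cf_perm (a : ι → ℝ) (σ : Equiv.Perm ι) (j : ι) (w : ι → κ → ℝ) :
    cf (a ∘ σ) j w = cf a (σ j) (w ∘ σ.symm) := by
  funext l
  unfold cf
  have h1 : ∑ i, (a ∘ σ) i = ∑ i, a i := Equiv.sum_comp σ a
  have h2 : ∑ i, (a ∘ σ) i * w i l = ∑ i, a i * (w ∘ σ.symm) i l := by
    rw [← Equiv.sum_comp σ fun i => a i * (w ∘ σ.symm) i l]
    refine Finset.sum_congr rfl fun i _ => ?_
    simp
  rw [h1, h2]
  simp

lemma Q_perm (a : ι → ℝ) (σ : Equiv.Perm ι) (j : ι) (w : ι → κ → ℝ) :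
    (Q (a ∘ σ) j w) ∘ σ.symm = Q a (σ j) (w ∘ σ.symm) := by
  rw [Q_apply, Q_apply, cf_perm]
  funext i
  simp only [Function.comp_apply]
  by_cases hi : i = σ j
  · subst hi; simp
  · have : σ.symm i ≠ j := by
      intro h; apply hi; rw [← h]; simp
    rw [Pi.single_eq_of_ne this, Pi.single_eq_of_ne hi]

lemma Sp_perm {μ : Measure (Option ι → κ → ℝ)} {a β : ι → ℝ} (σ : Equiv.Perm ι) {j : ι}
    (h : Sp (μ.map (perm σ)) (a ∘ σ) (β ∘ σ) j) : Sp μ a β (σ j) := by
  intro x w
  have h1 := h x (w ∘ σ)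
  rw [psi_perm, psi_perm, psi_perm] at h1
  have e1 : (w ∘ σ) ∘ σ.symm = w := by funext i; simp
  have e2 : (Q (a ∘ σ) j (w ∘ σ)) ∘ σ.symm = Q a (σ j) w := by rw [Q_perm, e1]
  have e3 : (w ∘ σ - Q (a ∘ σ) j (w ∘ σ)) ∘ σ.symm = w - Q a (σ j) w := by
    rw [← e2]
    funext i l
    simp [Function.comp_apply, Pi.sub_apply]
  rw [e1, e2, e3] at h1
  exact h1

section Core

variable {Ω B : Type*} [MeasurableSpace Ω] [mB : MeasurableSpace B] {P : Measure Ω}
  [IsProbabilityMeasure P] {e : Ω → B} {S : Ω → Option ι → κ → ℝ} {aB bB : B → ι → ℝ} {i0 : ι}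

omit [DecidableEq ι] in
/-- rotation of the kernel -/
theorem kap_rot (he : Measurable e) (hS : Measurable S) {T : Ω → Ω}
    (hT : MeasurePreserving T P P) {TB TB' : B → B} (hTB : Measurable TB) (hTB' : Measurable TB')
    (h1 : ∀ h, e (T h) = TB (e h)) (h2 : ∀ b, TB' (TB b) = b) {A' : Type*} [MeasurableSpace A']
    [StandardBorelSpace A'] [Nonempty A'] {f g : (Option ι → κ → ℝ) → A'} (hf : Measurable f)
    (hg : Measurable g) (hS2 : ∀ᵐ h ∂P, f (S (T h)) = g (S h)) :
    ∀ᵐ h ∂P, (condDistrib S e P (e (T h))).map f = (condDistrib S e P (e h)).map g := by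
  have a1 := Kap063.condDistrib_equivariant' (P := P) he hS hT hTB hTB' h1 h2
  have a2 := Kap063.condDistrib_map_fun (P := P) he (hS.comp hT.measurable) hf
  have a3 := Kap063.condDistrib_map_fun (P := P) he hS hg
  have a4 : condDistrib (f ∘ S ∘ T) e P = condDistrib (g ∘ S) e P :=
    condDistrib_congr_left hS2
  filter_upwards [a1, a2, a3] with h b1 b2 b3
  rw [← b1, ← b3, ← a4, b2]

theorem all_split (he : Measurable e) (hS : Measurable S) {T : Ω → Ω}
    (hT : MeasurePreserving T P P) {TB TB' : B → B} (hTB : Measurable TB) (hTB' : Measurable TB')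
    (h1 : ∀ h, e (T h) = TB (e h)) (h2 : ∀ b, TB' (TB b) = b) (σ : Equiv.Perm ι)
    (hS2 : ∀ᵐ h ∂P, S (T h) = perm σ (S h))
    (ha : ∀ᵐ h ∂P, aB (e (T h)) = aB (e h) ∘ σ) (hb : ∀ᵐ h ∂P, bB (e (T h)) = bB (e h) ∘ σ)
    (h0 : ∀ᵐ h ∂P, Sp (condDistrib S e P (e h)) (aB (e h)) (bB (e h)) i0)
    (hσ : ∀ i, ∃ r : ℕ, i = σ^[r] i0) :
    ∀ᵐ h ∂P, ∀ i, Sp (condDistrib S e P (e h)) (aB (e h)) (bB (e h)) i := by
  have hrot := kap_rot (P := P) he hS hT hTB hTB' h1 h2 (f := id) (g := perm σ) measurable_id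
    (measurable_perm σ) hS2
  have step : ∀ r : ℕ, ∀ᵐ h ∂P, Sp (condDistrib S e P (e h)) (aB (e h)) (bB (e h)) (σ^[r] i0) := by
    intro r
    induction r with
    | zero => exact h0
    | succ r ih =>
      have ih' := hT.quasiMeasurePreserving.ae ih
      filter_upwards [ih', hrot, ha, hb] with h c1 c2 c3 c4
      rw [Measure.map_id] at c2
      rw [c2, c3, c4] at c1
      rw [Function.iterate_succ_apply']
      exact Sp_perm σ c1
  rw [ae_all_iff]
  intro i
  obtain ⟨r, hr⟩ := hσ i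
  rw [hr]
  exact step r

end Core

/-! ### square integrability from the characteristic function -/

lemma sq_le_cos {u : ℝ} (hu : |u| ≤ Real.pi) : 2 / Real.pi ^ 2 * u ^ 2 ≤ 1 - Real.cos u := by
  have := Real.cos_le_one_sub_mul_cos_sq hu
  linarith

theorem memLp_two_of_condChar {Ω : Type*} {m mΩ : MeasurableSpace Ω} {P : Measure Ω}
    [IsProbabilityMeasure P] (hm : m ≤ mΩ) {Z v : Ω → ℝ} (hZ : Measurable Z)
    (hv : Integrable v P)
    (H : ∀ r : ℝ, P[fun h => Complex.exp (Complex.I * ((r * Z h : ℝ) : ℂ)) | m] =ᵐ[P]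
      fun h => ((Real.exp (-(1 / 2) * (r ^ 2 * v h)) : ℝ) : ℂ)) :
    MemLp Z 2 P := by
  rw [memLp_two_iff_integrable_sq hZ.aestronglyMeasurable]
  refine ⟨(hZ.pow_const 2).aestronglyMeasurable, ?_⟩
  rw [hasFiniteIntegral_iff_ofReal (Filter.Eventually.of_forall fun h => sq_nonneg _)]
  -- the approximations
  have hint : ∀ r : ℝ, 0 < r → ∫⁻ h, ENNReal.ofReal (2 / r ^ 2 * (1 - Real.cos (r * Z h))) ∂P ≤
      ENNReal.ofReal (∫ h, v h ∂P) := by
    intro r hr
    have hmeas : Measurable fun h => Complex.exp (Complex.I * ((r * Z h : ℝ) : ℂ)) := by fun_prop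
    have hI : Integrable (fun h => Complex.exp (Complex.I * ((r * Z h : ℝ) : ℂ))) P :=
      Integrable.mono' (integrable_const (1 : ℝ)) hmeas.aestronglyMeasurable
        (Filter.Eventually.of_forall fun h => (norm_exp_I _).le)
    have h1 : ∫ h, Complex.exp (Complex.I * ((r * Z h : ℝ) : ℂ)) ∂P =
        ∫ h, ((Real.exp (-(1 / 2) * (r ^ 2 * v h)) : ℝ) : ℂ) ∂P := by
      rw [← integral_condExp hm, integral_congr_ae (H r)]
    have hIv : Integrable (fun h => ((Real.exp (-(1 / 2) * (r ^ 2 * v h)) : ℝ) : ℂ)) P :=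
      (integrable_condExp (m := m) (μ := P)
        (f := fun h => Complex.exp (Complex.I * ((r * Z h : ℝ) : ℂ)))).congr (H r)
    have h2 : ∫ h, Real.cos (r * Z h) ∂P = ∫ h, Real.exp (-(1 / 2) * (r ^ 2 * v h)) ∂P := by
      have h3 := congrArg Complex.re h1
      rw [← RCLike.re_eq_complex_re, ← integral_re hI, ← integral_re hIv] at h3
      simp only [RCLike.re_eq_complex_re, Complex.ofReal_re] at h3
      rw [← h3]
      refine integral_congr_ae (Filter.Eventually.of_forall fun h => ?_)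
      simp only
      rw [mul_comm Complex.I, Complex.exp_ofReal_mul_I_re]
    have hIr : Integrable (fun h => Real.exp (-(1 / 2) * (r ^ 2 * v h))) P := by
      have := hIv.re
      simpa only [RCLike.re_eq_complex_re, Complex.ofReal_re] using this
    have hIc : Integrable (fun h => Real.cos (r * Z h)) P := by
      refine Integrable.mono' (integrable_const (1 : ℝ)) ?_
        (Filter.Eventually.of_forall fun h => by
          rw [Real.norm_eq_abs]; exact Real.abs_cos_le_one _)
      have : Measurable fun h => Real.cos (r * Z h) := by fun_prop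
      exact this.aestronglyMeasurable
    rw [← ofReal_integral_eq_lintegral_ofReal]
    · apply ENNReal.ofReal_le_ofReal
      rw [integral_const_mul, integral_sub (integrable_const _) hIc, h2, integral_const]
      simp only [probReal_univ, smul_eq_mul, mul_one]
      have h4 : ∫ h, (1 - 1 / 2 * (r ^ 2 * v h)) ∂P ≤ ∫ h, Real.exp (-(1 / 2) * (r ^ 2 * v h)) ∂P := by
        refine integral_mono ?_ hIr fun h => ?_
        · exact (integrable_const _).sub ((hv.const_mul _).const_mul _)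
        · have := Real.add_one_le_exp (-(1 / 2) * (r ^ 2 * v h))
          simp only
          linarith
      rw [integral_sub (integrable_const _) ((hv.const_mul _).const_mul _), integral_const,
        integral_const_mul, integral_const_mul] at h4
      simp only [probReal_univ, smul_eq_mul, mul_one] at h4
      have h5 : 1 - ∫ h, Real.exp (-(1 / 2) * (r ^ 2 * v h)) ∂P ≤ 1 / 2 * (r ^ 2 * ∫ h, v h ∂P) := by
        linarith
      calc 2 / r ^ 2 * (1 - ∫ h, Real.exp (-(1 / 2) * (r ^ 2 * v h)) ∂P)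
          ≤ 2 / r ^ 2 * (1 / 2 * (r ^ 2 * ∫ h, v h ∂P)) := by
            apply mul_le_mul_of_nonneg_left h5; positivity
        _ = ∫ h, v h ∂P := by field_simp
    · exact ((integrable_const _).sub hIc).const_mul _
    · refine Filter.Eventually.of_forall fun h => ?_
      have := Real.cos_le_one (r * Z h)
      have h6 : 0 ≤ 2 / r ^ 2 := by positivity
      exact mul_nonneg h6 (by linarith)
  have hpi := Real.pi_pos
  -- Fatou
  have hF : ∫⁻ h, ENNReal.ofReal (4 / Real.pi ^ 2 * Z h ^ 2) ∂P ≤ ENNReal.ofReal (∫ h, v h ∂P) := by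
    have h7 : ∀ h, ENNReal.ofReal (4 / Real.pi ^ 2 * Z h ^ 2) ≤ Filter.liminf (fun n : ℕ =>
        ENNReal.ofReal (2 / (1 / ((n : ℝ) + 1)) ^ 2 *
          (1 - Real.cos ((1 / ((n : ℝ) + 1)) * Z h)))) Filter.atTop := by
      intro h
      refine Filter.le_liminf_of_le (by isBoundedDefault) ?_
      have h8 : ∀ᶠ n : ℕ in Filter.atTop, |Z h| / Real.pi ≤ (n : ℝ) :=
        (Filter.tendsto_atTop.1 tendsto_natCast_atTop_atTop) _
      filter_upwards [h8] with n hn
      apply ENNReal.ofReal_le_ofReal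
      have hn1 : (0 : ℝ) < (n : ℝ) + 1 := by positivity
      have h9 : |1 / ((n : ℝ) + 1) * Z h| ≤ Real.pi := by
        rw [abs_mul, abs_of_pos (by positivity : (0 : ℝ) < 1 / ((n : ℝ) + 1)), one_div,
          inv_mul_le_iff₀ hn1]
        rw [div_le_iff₀ hpi] at hn
        nlinarith
      have h10 := sq_le_cos h9
      have h11 : 0 ≤ 2 / (1 / ((n : ℝ) + 1)) ^ 2 := by positivity
      calc 4 / Real.pi ^ 2 * Z h ^ 2 = 2 / (1 / ((n : ℝ) + 1)) ^ 2 *
          (2 / Real.pi ^ 2 * (1 / ((n : ℝ) + 1) * Z h) ^ 2) := by field_simp; ring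
        _ ≤ _ := mul_le_mul_of_nonneg_left h10 h11
    calc ∫⁻ h, ENNReal.ofReal (4 / Real.pi ^ 2 * Z h ^ 2) ∂P
        ≤ ∫⁻ h, Filter.liminf (fun n : ℕ =>
        ENNReal.ofReal (2 / (1 / ((n : ℝ) + 1)) ^ 2 *
          (1 - Real.cos ((1 / ((n : ℝ) + 1)) * Z h)))) Filter.atTop ∂P := lintegral_mono h7
      _ ≤ Filter.liminf (fun n : ℕ => ∫⁻ h,
        ENNReal.ofReal (2 / (1 / ((n : ℝ) + 1)) ^ 2 *
          (1 - Real.cos ((1 / ((n : ℝ) + 1)) * Z h))) ∂P) Filter.atTop := by
          refine lintegral_liminf_le fun n => ?_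
          fun_prop
      _ ≤ Filter.liminf (fun _ : ℕ => ENNReal.ofReal (∫ h, v h ∂P)) Filter.atTop := by
          refine Filter.liminf_le_liminf (Filter.Eventually.of_forall fun n => ?_)
            (by isBoundedDefault) (by isBoundedDefault)
          exact hint _ (by positivity)
      _ = ENNReal.ofReal (∫ h, v h ∂P) := Filter.liminf_const _
  have hc : ∫⁻ h, ENNReal.ofReal (4 / Real.pi ^ 2 * Z h ^ 2) ∂P =
      ENNReal.ofReal (4 / Real.pi ^ 2) * ∫⁻ h, ENNReal.ofReal (Z h ^ 2) ∂P := by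
    rw [← lintegral_const_mul _ (by fun_prop)]
    refine lintegral_congr fun h => ?_
    rw [ENNReal.ofReal_mul (by positivity)]
  rw [hc] at hF
  by_contra hcon
  rw [not_lt, top_le_iff] at hcon
  rw [hcon, ENNReal.mul_top] at hF
  · exact absurd hF (by simp)
  · simp only [ne_eq, ENNReal.ofReal_eq_zero, not_le]; positivity

end Crest.Agent.R166.Kap63
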