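import Mathlib
import Crest.Agent.R166.Kap2_63

/-!
# First half of 42.6: `Stmt_42_5` (row 166; helper63)
-/

set_option autoImplicit false

open MeasureTheory ProbabilityTheory
open Crest.Agent.R166.Bern385 Crest.Agent.R166.B2

namespace Crest.Agent.R166.Kap63

/-! ### general facts on the kernel -/

section Gen

variable {ι κ : Type*} [Fintype ι] [Fintype κ]

omit [Fintype κ] in
lemma measurableSet_eqn [Countable κ] {B : Type*} [MeasurableSpace B] {om : B → ℝ}
    (hom : Measurable om) (s E : ℝ) :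
    MeasurableSet {x : B × (Option ι → κ → ℝ) |
      ∀ l, ∑ i, x.2 (some i) l = (E - s * om x.1) * x.2 none l} := by
  rw [Set.ofPred_forall]
  refine MeasurableSet.iInter fun l => ?_
  exact measurableSet_eq_fun (by fun_prop) (by fun_prop)

lemma int_kernel {Ω B : Type*} [MeasurableSpace Ω] [mB : MeasurableSpace B] {P : Measure Ω}
    [IsProbabilityMeasure P] {e : Ω → B} {S : Ω → Option ι → κ → ℝ} (he : Measurable e)
    (hS : Measurable S) (f : (Option ι → κ → ℝ) → ℝ) (hf : Measurable f)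
    (hfi : Integrable (fun h => f (S h)) P) :
    ∀ᵐ h ∂P, Integrable f (condDistrib S e P (e h)) := by
  have hm : Measurable fun p : B × (Option ι → κ → ℝ) => f p.2 := hf.comp measurable_snd
  exact Integrable.condDistrib_ae (f := fun p : B × (Option ι → κ → ℝ) => f p.2)
    he.aemeasurable hS.aemeasurable
    ((integrable_map_measure hm.aestronglyMeasurable (he.prodMk hS).aemeasurable).2 hfi)

end Gen

/-! ### algebra of the ports -/

section Ports

variable {Ω : Type*} {pp rr : Ω → Ω} {d : ℕ}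

lemma iter_mod (hd : ∀ h, rr^[d] h = h) (m : ℕ) (h : Ω) : rr^[m % d] h = rr^[m] h :=
  Function.IsPeriodicPt.iterate_mod_apply (hd h) m

lemma mv_rr (i : ℕ) (h : Ω) : mv pp rr i (rr h) = mv pp rr (i + 1) h := by
  unfold mv
  rw [Function.iterate_succ_apply]

lemma mv_mod (hd : ∀ h, rr^[d] h = h) (m : ℕ) (h : Ω) :
    mv pp rr (m % d) h = mv pp rr m h := by
  unfold mv
  rw [iter_mod hd]

lemma sum_rot (hd : ∀ h, rr^[d] h = h) (hd0 : 0 < d) {M : Type*} [AddCommMonoid M]
    (f : Ω → M) (h : Ω) :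
    ∑ i ∈ Finset.range d, f (mv pp rr i (rr h)) = ∑ i ∈ Finset.range d, f (mv pp rr i h) := by
  obtain ⟨n, rfl⟩ : ∃ n, d = n + 1 := ⟨d - 1, by omega⟩
  have h0 : mv pp rr n (rr h) = mv pp rr 0 h := by
    rw [mv_rr]
    have := mv_mod (pp := pp) hd (n + 1) h
    rw [Nat.mod_self] at this
    exact this.symm
  rw [Finset.sum_range_succ (fun i => f (mv pp rr i (rr h))),
    Finset.sum_range_succ' (fun i => f (mv pp rr i h)), h0]
  congr 1

end Ports

/-! ### measurability of the coefficients -/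

section Meas

variable {Ω : Type*} [MeasurableSpace Ω] {pp rr : Ω → Ω} {d : ℕ} {om : Ω → ℝ} {cav : Ω → ℂ}

lemma measurable_mv (hpp : Measurable pp) (hrr : Measurable rr) (i : ℕ) :
    Measurable (mv pp rr i) := hpp.comp (hrr.iterate i)

lemma measurable_Gd (hpp : Measurable pp) (hrr : Measurable rr) (hom : Measurable om)
    (hcav : Measurable cav) (s E : ℝ) : Measurable (Gd pp rr d s E om cav) := by
  unfold Gd
  have h1 : ∀ i, Measurable fun h => cav (mv pp rr i h) := fun i =>
    hcav.comp (measurable_mv hpp hrr i)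
  have h2 : Measurable fun h => ∑ i ∈ Finset.range d, cav (mv pp rr i h) :=
    Finset.measurable_sum _ fun i _ => h1 i
  have h3 : Measurable fun h => ((E : ℂ) - s * om h + ∑ i ∈ Finset.range d, cav (mv pp rr i h)) :=
    (measurable_const.sub ((Complex.measurable_ofReal.comp hom).const_mul _)).add h2
  exact measurable_const.div h3

lemma measurable_bet (hpp : Measurable pp) (hrr : Measurable rr) (hom : Measurable om)
    (hcav : Measurable cav) (s E : ℝ) (i : ℕ) : Measurable (bet pp rr d s E om cav i) := by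
  unfold bet
  have h1 : Measurable fun h => cav (mv pp rr i h) := hcav.comp (measurable_mv hpp hrr i)
  have h2 := measurable_Gd (d := d) hpp hrr hom hcav s E
  exact (Complex.measurable_im.comp (h2.mul h1.neg)).div (Complex.measurable_im.comp h2)

lemma measurable_aB (hpp : Measurable pp) (hrr : Measurable rr)
    (hcav : Measurable cav) :
    Measurable fun (h : Ω) (i : Fin d) => (cav (mv pp rr i h)).im := by
  rw [measurable_pi_iff]
  intro i
  exact Complex.measurable_im.comp (hcav.comp (measurable_mv hpp hrr i))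

lemma measurable_bB (hpp : Measurable pp) (hrr : Measurable rr) (hom : Measurable om)
    (hcav : Measurable cav) (s E : ℝ) :
    Measurable fun (h : Ω) (i : Fin d) => bet pp rr d s E om cav i h := by
  rw [measurable_pi_iff]
  intro i
  exact measurable_bet hpp hrr hom hcav s E i

lemma measurable_SY (hpp : Measurable pp) (hrr : Measurable rr) {k : ℕ} {t : ℝ}
    {X Z : Ω → Fin k → ℝ} (hX : Measurable X) (hZ : Measurable Z) :
    Measurable (SY pp rr d t X Z) := by
  rw [measurable_pi_iff]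
  intro c
  rw [measurable_pi_iff]
  intro l
  have h1 : Measurable fun h => YY t X Z h l := by
    unfold YY
    exact ((measurable_pi_apply l).comp hX).add
      (((measurable_pi_apply l).comp hZ).const_mul _)
  cases c with
  | none => exact h1
  | some i => exact h1.comp (measurable_mv hpp hrr i)

end Meas

/-! ### the sums of `InnovProp` -/

lemma sum_Ico_eq {d : ℕ} (hd : 0 < d) (g : ℕ → ℝ) :
    ∑ j ∈ Finset.Ico 1 d, g j = ∑ j : Fin d, if j = ⟨0, hd⟩ then 0 else g j := by
  have h1 : ∀ j : Fin d, (if j = ⟨0, hd⟩ then 0 else g j) =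
      (fun j : ℕ => if j = 0 then 0 else g j) j := by
    intro j
    simp only [Fin.ext_iff]
  rw [Finset.sum_congr rfl fun j _ => h1 j, ← Finset.sum_range fun j => if j = 0 then 0 else g j,
    Finset.range_eq_Ico, Finset.sum_eq_sum_Ico_succ_bot hd]
  simp only [if_true, zero_add]
  refine Finset.sum_congr rfl fun j hj => ?_
  rw [if_neg]
  have := (Finset.mem_Ico.1 hj).1
  omega

section Main

variable {Ω : Type*} {Env FX : MeasurableSpace Ω} [mΩ : MeasurableSpace Ω] {d k : ℕ}
  {s E t ρ : ℝ} {P : Measure Ω} {pp rr : Ω → Ω} {om : Ω → ℝ} {cav : Ω → ℂ}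
  {X Z : Ω → Fin k → ℝ}

omit mΩ in
lemma inn_eq (hd : 0 < d) (j : Fin d) (h : Ω) (l : Fin k) :
    inn (fun i : Fin d => (cav (mv pp rr i h)).im) (fun i : Fin d => bet pp rr d s E om cav i h)
      ⟨0, hd⟩ j (SY pp rr d t X Z h) l = Inn pp rr d s E t om cav X Z j h l := by
  unfold inn Inn Wr
  rw [Finset.sum_range fun i => (cav (mv pp rr i h)).im]
  rfl

omit mΩ in
lemma Lθ_eq (hd : 0 < d) (x y : Fin k → ℝ) (w : ℕ → Fin k → ℝ) (h : Ω) :
    Lθ (fun i : Fin d => (cav (mv pp rr i h)).im) (fun i : Fin d => bet pp rr d s E om cav i h)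
      ⟨0, hd⟩ (x, y, fun j => w j) (SY pp rr d t X Z h) =
    ∑ l, (x l * YY t X Z h l + y l * YY t X Z (pp h) l
        + ∑ j ∈ Finset.Ico 1 d, w j l * Inn pp rr d s E t om cav X Z j h l) := by
  unfold Lθ
  refine Finset.sum_congr rfl fun l _ => ?_
  rw [sum_Ico_eq hd]
  congr 1
  refine Finset.sum_congr rfl fun j _ => ?_
  rw [inn_eq hd]
  split_ifs <;> simp

variable (hL : LimProc Env FX d k s E t ρ P pp rr om cav X Z)

include hL

lemma d_pos : 0 < d := by have := hL.hd; omega

lemma Env_le' : Env ≤ mΩ := hL.Env_le.trans hL.FX_le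

lemma mp_mv (i : ℕ) : MeasurePreserving (mv pp rr i) P P :=
  hL.pp_mp.comp (hL.rr_mp.iterate i)

lemma X_meas' : Measurable X := hL.X_meas.mono hL.FX_le le_rfl

lemma SY_meas : Measurable (SY pp rr d t X Z) :=
  measurable_SY hL.pp_mp.measurable hL.rr_mp.measurable (X_meas' hL) hL.Z_meas

lemma ae_pos : ∀ᵐ h ∂P, ∀ i : ℕ, 0 < (cav (mv pp rr i h)).im := by
  rw [ae_all_iff]
  intro i
  exact (mp_mv hL i).quasiMeasurePreserving.ae hL.cav_im

lemma ae_D (hd : 0 < d) : ∀ᵐ h ∂P, (∑ j : Fin d, (cav (mv pp rr j h)).im) -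
    (cav (mv pp rr (⟨0, hd⟩ : Fin d) h)).im ≠ 0 := by
  filter_upwards [ae_pos hL] with h hh
  have h3 : 3 ≤ Fintype.card (Fin d) := by rw [Fintype.card_fin]; exact hL.hd
  have := sum_lt (a := fun j : Fin d => (cav (mv pp rr j h)).im) (fun j => hh j) h3 ⟨0, hd⟩
  simp only at this
  linarith [this]

lemma ae_YY_rr : ∀ᵐ h ∂P, YY t X Z (rr h) = YY t X Z h := by
  filter_upwards with h
  have h1 := hL.X_rr h
  have h2 := hL.Z_rr h
  funext l
  unfold YY
  rw [h1, h2]

/-- the environment coefficients are rotated -/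
lemma ae_bet_rr : ∀ᵐ h ∂P, ∀ i : ℕ,
    bet pp rr d s E om cav i (rr h) = bet pp rr d s E om cav (i + 1) h := by
  filter_upwards with h i
  have h1 := hL.om_rr h
  have h2 : Gd pp rr d s E om cav (rr h) = Gd pp rr d s E om cav h := by
    unfold Gd
    rw [h1, sum_rot hL.rr_d (d_pos hL) cav h]
  unfold bet
  rw [h2, mv_rr]

lemma ae_SY_rr {σ : Fin d → Fin d} (hσ : ∀ i : Fin d, (σ i : ℕ) = (i + 1) % d) :
    ∀ᵐ h ∂P, SY pp rr d t X Z (rr h) = perm σ (SY pp rr d t X Z h) := by
  filter_upwards [ae_YY_rr hL] with h h1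
  funext c l
  cases c with
  | none =>
    change YY t X Z (rr h) l = YY t X Z h l
    rw [h1]
  | some i =>
    change YY t X Z (mv pp rr i (rr h)) l = YY t X Z (mv pp rr (σ i) h) l
    rw [mv_rr, hσ, mv_mod hL.rr_d]

/-! ### the port `0` -/

lemma split0 (hI : InnovProp Env d k s E t P pp rr om cav X Z) [IsFiniteMeasure P] :
    ∀ᵐ h ∂P, Sp (kap Env P pp rr d t X Z h) (fun i : Fin d => (cav (mv pp rr i h)).im)
      (fun i : Fin d => bet pp rr d s E om cav i h) ⟨0, d_pos hL⟩ := by
  have hP : IsProbabilityMeasure P := hL.prob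
  have hEnv := Env_le' hL
  have he : Measurable[mΩ, Env] (id : Ω → Ω) := measurable_id'' hEnv
  have haB : Measurable[Env] fun (h : Ω) (i : Fin d) => (cav (mv pp rr i h)).im :=
    @measurable_aB Ω Env pp rr d cav hL.pp_Env hL.rr_Env hL.cav_meas
  have hbB : Measurable[Env] fun (h : Ω) (i : Fin d) => bet pp rr d s E om cav i h :=
    @measurable_bB Ω Env pp rr d om cav hL.pp_Env hL.rr_Env hL.om_meas hL.cav_meas s E
  have key := @core_split (Fin d) (Fin k) _ _ _ Ω Ω mΩ Env P _ id (SY pp rr d t X Z)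
    (fun (h : Ω) (i : Fin d) => (cav (mv pp rr i h)).im)
    (fun (h : Ω) (i : Fin d) => bet pp rr d s E om cav i h) ⟨0, d_pos hL⟩ he (SY_meas hL)
    haB hbB (ae_D hL (d_pos hL)) ?_
  · filter_upwards [key] with h hh x w
    exact hh x w
  · intro x y w
    obtain ⟨w', rfl⟩ : ∃ w' : ℕ → Fin k → ℝ, w = fun j : Fin d => w' j :=
      ⟨fun j => if hj : j < d then w ⟨j, hj⟩ else 0, by funext j; simp⟩
    have h1 : (fun h : Ω => Complex.exp (Complex.I *
        ((Lθ (fun i : Fin d => (cav (mv pp rr i h)).im)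
          (fun i : Fin d => bet pp rr d s E om cav i h) ⟨0, d_pos hL⟩
          (x, y, fun j : Fin d => w' j) (SY pp rr d t X Z h) : ℝ) : ℂ))) =
        fun h => Complex.exp (Complex.I * ((∑ l, (x l * YY t X Z h l + y l * YY t X Z (pp h) l
        + ∑ j ∈ Finset.Ico 1 d, w' j l * Inn pp rr d s E t om cav X Z j h l) : ℝ) : ℂ)) := by
      funext h
      rw [Lθ_eq]
    have h2 : (fun h : Ω => Complex.exp (Complex.I *
        ((Lθ (fun i : Fin d => (cav (mv pp rr i h)).im)
          (fun i : Fin d => bet pp rr d s E om cav i h) ⟨0, d_pos hL⟩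
          (x, y, (0 : Fin d → Fin k → ℝ)) (SY pp rr d t X Z h) : ℝ) : ℂ))) =
        fun h => Complex.exp (Complex.I *
        ((∑ l, (x l * YY t X Z h l + y l * YY t X Z (pp h) l) : ℝ) : ℂ)) := by
      funext h
      have := Lθ_eq (pp := pp) (rr := rr) (s := s) (E := E) (t := t) (om := om) (cav := cav)
        (X := X) (Z := Z) (d_pos hL) x y (0 : ℕ → Fin k → ℝ) h
      simp only [Pi.zero_apply, zero_mul, Finset.sum_const_zero, add_zero] at this
      rw [← this]
      rfl
    have h3 : (fun h : Ω => Complex.exp (Complex.I *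
        ((Lθ (fun i : Fin d => (cav (mv pp rr i h)).im)
          (fun i : Fin d => bet pp rr d s E om cav i h) ⟨0, d_pos hL⟩
          ((0 : Fin k → ℝ), (0 : Fin k → ℝ), fun j : Fin d => w' j)
            (SY pp rr d t X Z h) : ℝ) : ℂ))) =
        fun h => Complex.exp (Complex.I *
        ((∑ l, (∑ j ∈ Finset.Ico 1 d, w' j l * Inn pp rr d s E t om cav X Z j h l) : ℝ) : ℂ)) := by
      funext h
      rw [Lθ_eq]
      simp only [Pi.zero_apply, zero_mul, zero_add]
    have h4 := hI x y w'
    rw [← h1, ← h2, ← h3] at h4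
    simp only [id_eq, MeasurableSpace.comap_id]
    exact h4

/-! ### all ports -/

omit hL in
lemma exists_rot (hd : 0 < d) : ∃ σ : Equiv.Perm (Fin d), (∀ i : Fin d, (σ i : ℕ) = (i + 1) % d) ∧
    ∀ i, ∃ r : ℕ, i = σ^[r] ⟨0, hd⟩ := by
  have : NeZero d := ⟨by omega⟩
  have h1 : ∀ i : Fin d, ((Equiv.addRight (1 : Fin d)) i : ℕ) = (i + 1) % d := by
    intro i
    rw [Equiv.coe_addRight, Fin.val_add, Fin.val_one', Nat.add_mod_mod]
  refine ⟨Equiv.addRight (1 : Fin d), h1, fun i => ⟨i, ?_⟩⟩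
  have h2 : ∀ r : ℕ, (((Equiv.addRight (1 : Fin d))^[r] ⟨0, hd⟩ : Fin d) : ℕ) = r % d := by
    intro r
    induction r with
    | zero => simp
    | succ r ih => rw [Function.iterate_succ_apply', h1, ih, Nat.mod_add_mod]
  apply Fin.ext
  rw [h2, Nat.mod_eq_of_lt i.2]

lemma all_ports (hI : InnovProp Env d k s E t P pp rr om cav X Z) [IsFiniteMeasure P] :
    ∀ᵐ h ∂P, ∀ i, Sp (kap Env P pp rr d t X Z h) (fun i : Fin d => (cav (mv pp rr i h)).im)
      (fun i : Fin d => bet pp rr d s E om cav i h) i := by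
  have hP : IsProbabilityMeasure P := hL.prob
  have hEnv := Env_le' hL
  have he : Measurable[mΩ, Env] (id : Ω → Ω) := measurable_id'' hEnv
  obtain ⟨σ, hσ1, hσ2⟩ := exists_rot (d_pos hL)
  have h2 : ∀ b : Ω, rr^[d - 1] (rr b) = b := by
    intro b
    rw [← Function.iterate_succ_apply, Nat.succ_eq_add_one,
      Nat.sub_add_cancel (d_pos hL), hL.rr_d]
  have ha : ∀ᵐ h ∂P, (fun i : Fin d => (cav (mv pp rr i (rr h))).im) =
      (fun i : Fin d => (cav (mv pp rr i h)).im) ∘ σ := by
    refine Filter.Eventually.of_forall fun h => ?_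
    funext i
    simp only [Function.comp_apply]
    rw [mv_rr, hσ1, mv_mod hL.rr_d]
  have hb : ∀ᵐ h ∂P, (fun i : Fin d => bet pp rr d s E om cav i (rr h)) =
      (fun i : Fin d => bet pp rr d s E om cav i h) ∘ σ := by
    filter_upwards [ae_bet_rr hL] with h hh
    funext i
    simp only [Function.comp_apply]
    rw [hh]
    unfold bet
    rw [hσ1, mv_mod hL.rr_d]
  exact @all_split (Fin d) (Fin k) _ _ _ Ω Ω mΩ Env P _ id (SY pp rr d t X Z)
    (fun (h : Ω) (i : Fin d) => (cav (mv pp rr i h)).im)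
    (fun (h : Ω) (i : Fin d) => bet pp rr d s E om cav i h) ⟨0, d_pos hL⟩ he (SY_meas hL)
    rr hL.rr_mp rr (rr^[d - 1]) hL.rr_Env (hL.rr_Env.iterate _) (fun _ => rfl) h2 σ
    (ae_SY_rr hL hσ1) ha hb (split0 hL hI) hσ2

/-! ### second moments -/

lemma Z_L2 (l : Fin k) : MemLp (fun h => Z h l) 2 P := by
  have hP : IsProbabilityMeasure P := hL.prob
  refine memLp_two_of_condChar (m := FX) hL.FX_le (v := fun h =>
    (Gd pp rr d s E om cav h).im / (Real.pi * ρ)) ((measurable_pi_apply l).comp hL.Z_meas)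
    (hL.G_int.div_const _) fun r => ?_
  have h1 := hL.Z_gauss [] (by intro j hj; simp at hj) 0
    (fun a => a.elim (Pi.single l r) (fun _ => 0))
  refine (Filter.EventuallyEq.symm ?_).trans (h1.trans ?_)
  · have e1 : (fun h => Complex.exp (Complex.I * ((r * Z h l : ℝ) : ℂ))) =
        fun h => Complex.exp (Complex.I * ((∑ l', ((0 : Fin k → ℝ) l' *
          Z (wd pp rr [] (pp h)) l' + ∑ a : St d, (a.elim (Pi.single l r) (fun _ => 0) :
            Fin k → ℝ) l' * Z (sv pp rr d h a) l') : ℝ) : ℂ)) := by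
      funext h
      congr 3
      simp only [Pi.zero_apply, zero_mul, zero_add, Fintype.sum_option, Option.elim_none,
        Option.elim_some, Finset.sum_const_zero, add_zero]
      rw [Finset.sum_eq_single l]
      · simp [sv]
      · intro b _ hb; simp [Pi.single_eq_of_ne hb]
      · simp
    rw [e1]
  · refine Filter.Eventually.of_forall fun h => ?_
    simp only
    rw [Complex.ofReal_exp]
    congr 2
    simp only [Pi.zero_apply, zero_mul, Fintype.sum_option, Option.elim_none,
        Option.elim_some, Finset.sum_const_zero,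
      add_zero, mul_zero, ne_eq, OfNat.ofNat_ne_zero, not_false_eq_true, zero_pow, zero_add, Gs]
    rw [Finset.sum_eq_single l]
    · simp only [Pi.single_eq_same]
      ring
    · intro b _ hb; simp [Pi.single_eq_of_ne hb]
    · simp

lemma Y_L2 (l : Fin k) : MemLp (fun h => YY t X Z h l) 2 P :=
  (hL.X_L2 l).add ((Z_L2 hL l).const_mul _)

lemma SY_L2 (c : St d) (l : Fin k) : MemLp (fun h => SY pp rr d t X Z h c l) 2 P := by
  cases c with
  | none => exact Y_L2 hL l
  | some i => exact (Y_L2 hL l).comp_measurePreserving (mp_mv hL i)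

/-! ### `KapStar` -/

theorem kapStar (hI : InnovProp Env d k s E t P pp rr om cav X Z) [IsFiniteMeasure P] :
    KapStar Env P d s E t pp rr om cav X Z := by
  have hP : IsProbabilityMeasure P := hL.prob
  have hEnv := Env_le' hL
  have he : Measurable[mΩ, Env] (id : Ω → Ω) := measurable_id'' hEnv
  have hsq : ∀ᵐ h ∂P, ∀ c l, Integrable (fun y : St d → Fin k → ℝ => (y c l) ^ 2)
      (kap Env P pp rr d t X Z h) := by
    rw [ae_all_iff]
    intro c
    rw [ae_all_iff]
    intro l
    exact @int_kernel (Fin d) (Fin k) _ _ Ω Ω mΩ Env P _ id (SY pp rr d t X Z) he (SY_meas hL)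
      (fun y => (y c l) ^ 2) (by fun_prop) (SY_L2 hL c l).integrable_sq
  have heq : ∀ᵐ h ∂P, ∀ᵐ y ∂(kap Env P pp rr d t X Z h), ∀ l, ∑ i, y (some i) l =
      (E - s * om h) * y none l := by
    have hp := @measurableSet_eqn (Fin d) (Fin k) _ _ Ω Env om hL.om_meas s E
    refine @Kap063.ae_ae_condDistrib Ω Ω (St d → Fin k → ℝ) mΩ Env _ _ _ P _ id
      (SY pp rr d t X Z) he (SY_meas hL)
      (fun x => ∀ l, ∑ i, x.2 (some i) l = (E - s * om x.1) * x.2 none l) hp ?_
    filter_upwards [hL.X_eq, hL.Z_eq] with h h1 h2 l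
    simp only [id_eq, SY, sv, YY]
    rw [Finset.sum_add_distrib, ← Finset.mul_sum,
      ← Finset.sum_range fun i => X (mv pp rr i h) l,
      ← Finset.sum_range fun i => Z (mv pp rr i h) l, h1, h2]
    ring
  filter_upwards [all_ports hL hI, hsq, heq] with h h1 h2 h3
  refine ⟨?_, h2, h3, h1⟩
  unfold kap
  infer_instance

/-! ### `KapEdge`, `KapRot` -/

theorem kapEdge [IsFiniteMeasure P] : KapEdge Env P d t pp rr X Z := by
  intro i0 hi0
  have hP : IsProbabilityMeasure P := hL.prob
  have hEnv := Env_le' hL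
  have he : Measurable[mΩ, Env] (id : Ω → Ω) := measurable_id'' hEnv
  refine @kap_rot (Fin d) (Fin k) _ _ Ω Ω mΩ Env P _ id (SY pp rr d t X Z) he (SY_meas hL)
    pp hL.pp_mp pp pp hL.pp_Env hL.pp_Env (fun _ => rfl) hL.pp_pp ((Fin k → ℝ) × (Fin k → ℝ)) _ _ _
    (fun y => (y (some i0), y none)) (fun y => (y none, y (some i0))) (by fun_prop) (by fun_prop)
    (Filter.Eventually.of_forall fun h => ?_)
  have h1 : ∀ h, mv pp rr i0 h = pp h := by
    intro h
    rw [hi0]
    rfl
  change (SY pp rr d t X Z (pp h) (some i0), SY pp rr d t X Z (pp h) none) =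
    (SY pp rr d t X Z h none, SY pp rr d t X Z h (some i0))
  unfold SY
  simp only [sv, h1, hL.pp_pp]

theorem kapRot [IsFiniteMeasure P] : KapRot Env P d t pp rr X Z := by
  intro σ hσ
  have hP : IsProbabilityMeasure P := hL.prob
  have hEnv := Env_le' hL
  have he : Measurable[mΩ, Env] (id : Ω → Ω) := measurable_id'' hEnv
  have h2 : ∀ b : Ω, rr^[d - 1] (rr b) = b := by
    intro b
    rw [← Function.iterate_succ_apply, Nat.succ_eq_add_one,
      Nat.sub_add_cancel (d_pos hL), hL.rr_d]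
  have := @kap_rot (Fin d) (Fin k) _ _ Ω Ω mΩ Env P _ id (SY pp rr d t X Z) he (SY_meas hL)
    rr hL.rr_mp rr (rr^[d - 1]) hL.rr_Env (hL.rr_Env.iterate _) (fun _ => rfl) h2 _ _ _ _
    id (perm σ) measurable_id (measurable_perm σ) (ae_SY_rr hL hσ)
  filter_upwards [this] with h hh
  rw [Measure.map_id] at hh
  exact hh

end Main

theorem stmt_42_5 : Stmt_42_5 := by
  intro Ω Env FX mΩ d k s E t ρ P _ pp rr om cav X Z hL hI
  exact ⟨kapStar hL hI, kapEdge hL, kapRot hL⟩

end Crest.Agent.R166.Kap63
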