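import Mathlib
import Crest.Agent.R166.Spec_B2_385

/-!
# Row 166, section 42.6: star / edge algebra of the tree Green function (helper341)

Everything is pointwise for the points `h` satisfying `Pt` (the cavity equations and the positivity
hold on the whole orbit of `h`), and `ae_pt` says that almost every `h` satisfies `Pt`.
-/

set_option autoImplicit false

noncomputable section

open MeasureTheory ProbabilityTheory

namespace Crest.Agent.R166.StarAlg341

open Crest.Agent.R166.B2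

variable {Ω : Type*}

/-! ### 1. orbits -/

/-- action of words in the two maps -/
def act (pp rr : Ω → Ω) : List Bool → Ω → Ω
  | [] => fun h => h
  | true :: w => fun h => act pp rr w (pp h)
  | false :: w => fun h => act pp rr w (rr h)

lemma act_nil (pp rr : Ω → Ω) (h : Ω) : act pp rr [] h = h := rfl

lemma act_true (pp rr : Ω → Ω) (w : List Bool) (h : Ω) :
    act pp rr (true :: w) h = act pp rr w (pp h) := rfl

lemma act_false (pp rr : Ω → Ω) (w : List Bool) (h : Ω) :
    act pp rr (false :: w) h = act pp rr w (rr h) := rfl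

/-- an a.e. property holds a.e. on the whole orbit -/
theorem ae_act [MeasurableSpace Ω] {P : Measure Ω} {pp rr : Ω → Ω}
    (hpp : MeasurePreserving pp P P) (hrr : MeasurePreserving rr P P) {p : Ω → Prop}
    (hp : ∀ᵐ h ∂P, p h) : ∀ᵐ h ∂P, ∀ w : List Bool, p (act pp rr w h) := by
  rw [ae_all_iff]
  intro w
  induction w with
  | nil => exact hp
  | cons b w ih =>
    cases b with
    | true => exact hpp.quasiMeasurePreserving.ae ih
    | false => exact hrr.quasiMeasurePreserving.ae ih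

/-- the pointwise good set -/
structure Pt (pp rr : Ω → Ω) (d : ℕ) (s E : ℝ) (om : Ω → ℝ) (cav : Ω → ℂ) (h : Ω) : Prop where
  im : ∀ w, 0 < (cav (act pp rr w h)).im
  eqn : ∀ w, cav (act pp rr w h) * ((E : ℂ) - s * om (act pp rr w h) +
    ∑ j ∈ Finset.range (d - 1), cav (mv pp rr (j + 1) (act pp rr w h))) = -1

theorem ae_pt {Env FX : MeasurableSpace Ω} [mΩ : MeasurableSpace Ω] {d k : ℕ} {s E t ρ : ℝ}
    {P : Measure Ω} {pp rr : Ω → Ω} {om : Ω → ℝ} {cav : Ω → ℂ} {X Z : Ω → Fin k → ℝ}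
    (L : LimProc Env FX d k s E t ρ P pp rr om cav X Z) :
    ∀ᵐ h ∂P, Pt pp rr d s E om cav h := by
  filter_upwards [ae_act L.pp_mp L.rr_mp L.cav_im, ae_act L.pp_mp L.rr_mp L.cav_rec] with h h1 h2
  exact ⟨h1, h2⟩

section Basic

variable {pp rr : Ω → Ω} {d : ℕ} {s E : ℝ} {om : Ω → ℝ} {cav : Ω → ℂ} {h : Ω}

lemma Pt.cav_im (hp : Pt pp rr d s E om cav h) : 0 < (cav h).im := hp.im []

lemma Pt.cav_eqn (hp : Pt pp rr d s E om cav h) : cav h * ((E : ℂ) - s * om h +
    ∑ j ∈ Finset.range (d - 1), cav (mv pp rr (j + 1) h)) = -1 := hp.eqn []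

lemma Pt.flip (hp : Pt pp rr d s E om cav h) : Pt pp rr d s E om cav (pp h) :=
  ⟨fun w => hp.im (true :: w), fun w => hp.eqn (true :: w)⟩

lemma Pt.turn (hp : Pt pp rr d s E om cav h) : Pt pp rr d s E om cav (rr h) :=
  ⟨fun w => hp.im (false :: w), fun w => hp.eqn (false :: w)⟩

lemma Pt.turns (hp : Pt pp rr d s E om cav h) (i : ℕ) : Pt pp rr d s E om cav (rr^[i] h) := by
  induction i with
  | zero => exact hp
  | succ i ih => rw [Function.iterate_succ_apply']; exact ih.turn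

lemma Pt.move (hp : Pt pp rr d s E om cav h) (i : ℕ) : Pt pp rr d s E om cav (mv pp rr i h) :=
  (hp.turns i).flip

/-! ### 2. the maps -/

lemma mv_zero (pp rr : Ω → Ω) (h : Ω) : mv pp rr 0 h = pp h := rfl

lemma mv_turn (pp rr : Ω → Ω) (i : ℕ) (h : Ω) : mv pp rr i (rr h) = mv pp rr (i + 1) h := by
  unfold B2.mv
  rw [Function.iterate_succ_apply]

lemma mv_turns (pp rr : Ω → Ω) (i j : ℕ) (h : Ω) :
    mv pp rr i (rr^[j] h) = mv pp rr (i + j) h := by
  unfold B2.mv
  rw [Function.iterate_add_apply]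

lemma mv_add_d {pp rr : Ω → Ω} {d : ℕ} (hrd : ∀ h, rr^[d] h = h) (i : ℕ) (h : Ω) :
    mv pp rr (i + d) h = mv pp rr i h := by
  unfold B2.mv
  rw [Function.iterate_add_apply, hrd]

lemma mv_mod {pp rr : Ω → Ω} {d : ℕ} (hrd : ∀ h, rr^[d] h = h) (i : ℕ) (h : Ω) :
    mv pp rr (i % d) h = mv pp rr i h := by
  have key : ∀ q r : ℕ, mv pp rr (r + d * q) h = mv pp rr r h := by
    intro q
    induction q with
    | zero => intro r; simp
    | succ q ih =>
      intro r
      rw [Nat.mul_succ, ← add_assoc, mv_add_d hrd, ih]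
  conv_rhs => rw [← Nat.mod_add_div i d]
  rw [key]

lemma om_turns {rr : Ω → Ω} {om : Ω → ℝ} (hom : ∀ h, om (rr h) = om h) (i : ℕ) (h : Ω) :
    om (rr^[i] h) = om h := by
  induction i with
  | zero => rfl
  | succ i ih => rw [Function.iterate_succ_apply', hom, ih]

/-- sums over the neighbours do not depend on the port -/
lemma sum_turn {pp rr : Ω → Ω} {d : ℕ} (hrd : ∀ h, rr^[d] h = h) {M : Type*}
    [AddCommGroup M] (f : Ω → M) (h : Ω) :
    ∑ i ∈ Finset.range d, f (mv pp rr i (rr h)) = ∑ i ∈ Finset.range d, f (mv pp rr i h) := by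
  have h1 := Finset.sum_range_succ' (fun i => f (mv pp rr i h)) d
  have h2 := Finset.sum_range_succ (fun i => f (mv pp rr i h)) d
  rw [h1] at h2
  have h3 : mv pp rr d h = mv pp rr 0 h := by
    have := mv_add_d (pp := pp) hrd 0 h
    rwa [zero_add] at this
  rw [h3] at h2
  simp only [mv_turn]
  exact add_right_cancel h2

lemma sum_turns {pp rr : Ω → Ω} {d : ℕ} (hrd : ∀ h, rr^[d] h = h) {M : Type*}
    [AddCommGroup M] (f : Ω → M) (j : ℕ) (h : Ω) :
    ∑ i ∈ Finset.range d, f (mv pp rr i (rr^[j] h)) = ∑ i ∈ Finset.range d, f (mv pp rr i h) := by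
  induction j with
  | zero => rfl
  | succ j ih => rw [Function.iterate_succ_apply', sum_turn hrd, ih]

/-- (S1) `G_vv` does not depend on the port -/
lemma Gd_turn {pp rr : Ω → Ω} {d : ℕ} {s E : ℝ} {om : Ω → ℝ} {cav : Ω → ℂ}
    (hrd : ∀ h, rr^[d] h = h) (hom : ∀ h, om (rr h) = om h) (h : Ω) :
    Gd pp rr d s E om cav (rr h) = Gd pp rr d s E om cav h := by
  unfold Gd
  rw [sum_turn hrd cav, hom]

lemma Gd_turns {pp rr : Ω → Ω} {d : ℕ} {s E : ℝ} {om : Ω → ℝ} {cav : Ω → ℂ}
    (hrd : ∀ h, rr^[d] h = h) (hom : ∀ h, om (rr h) = om h) (j : ℕ) (h : Ω) :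
    Gd pp rr d s E om cav (rr^[j] h) = Gd pp rr d s E om cav h := by
  unfold Gd
  rw [sum_turns hrd cav, om_turns hom]

/-- (S3) rotation of `bet` -/
lemma bet_turns {pp rr : Ω → Ω} {d : ℕ} {s E : ℝ} {om : Ω → ℝ} {cav : Ω → ℂ}
    (hrd : ∀ h, rr^[d] h = h) (hom : ∀ h, om (rr h) = om h) (i j : ℕ) (h : Ω) :
    bet pp rr d s E om cav i (rr^[j] h) = bet pp rr d s E om cav (i + j) h := by
  unfold bet
  rw [Gd_turns hrd hom, mv_turns]

lemma bet_mod {pp rr : Ω → Ω} {d : ℕ} {s E : ℝ} {om : Ω → ℝ} {cav : Ω → ℂ}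
    (hrd : ∀ h, rr^[d] h = h) (i : ℕ) (h : Ω) :
    bet pp rr d s E om cav (i % d) h = bet pp rr d s E om cav i h := by
  unfold bet
  rw [mv_mod hrd]

lemma bet_turns_mod {pp rr : Ω → Ω} {d : ℕ} {s E : ℝ} {om : Ω → ℝ} {cav : Ω → ℂ}
    (hrd : ∀ h, rr^[d] h = h) (hom : ∀ h, om (rr h) = om h) (i j : ℕ) (h : Ω) :
    bet pp rr d s E om cav i (rr^[j] h) = bet pp rr d s E om cav ((i + j) % d) h := by
  rw [bet_turns hrd hom, bet_mod hrd]

/-! ### 3. complex algebra -/

/-- the basic identity behind the star covariance -/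
lemma im_mul_identity (g x y : ℂ) :
    (g * x * y).im * g.im - (g * x).im * (g * y).im = -(Complex.normSq g * x.im * y.im) := by
  simp only [Complex.mul_im, Complex.mul_re, Complex.normSq_apply]
  ring

lemma one_sub_mul_ne {x y : ℂ} (hx : 0 < x.im) (hy : 0 < y.im) : 1 - x * y ≠ 0 := by
  intro h
  have h1 : x * y = 1 := by linear_combination -h
  have hre : x.re * y.re - x.im * y.im = 1 := by
    have := congrArg Complex.re h1; simpa [Complex.mul_re] using this
  have him : x.re * y.im + x.im * y.re = 0 := by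
    have := congrArg Complex.im h1; simpa [Complex.mul_im] using this
  nlinarith [mul_pos hx hy, mul_pos hx hx, mul_pos hy hy, sq_nonneg x.re, sq_nonneg y.re,
    mul_self_nonneg (x.re * y.re)]

lemma ne_zero_of_im_pos {x : ℂ} (hx : 0 < x.im) : x ≠ 0 := by
  rintro rfl
  simp at hx

/-- entries of the edge block -/
lemma edge_g00 {x y : ℂ} (hx : 0 < x.im) (hy : 0 < y.im) :
    (x / (1 - x * y)).im = (x.im + Complex.normSq x * y.im) / Complex.normSq (1 - x * y) := by
  have h0 := one_sub_mul_ne hx hy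
  have h1 : Complex.normSq (1 - x * y) ≠ 0 := fun h => h0 (Complex.normSq_eq_zero.1 h)
  rw [Complex.div_im, ← sub_div]
  congr 1
  simp only [Complex.sub_re, Complex.sub_im, Complex.mul_re, Complex.mul_im, Complex.one_re,
    Complex.one_im, Complex.normSq_apply]
  ring

lemma edge_g01 {x y : ℂ} (hx : 0 < x.im) (hy : 0 < y.im) :
    (-(x * y) / (1 - x * y)).im = -(x * y).im / Complex.normSq (1 - x * y) := by
  have h0 := one_sub_mul_ne hx hy
  have h1 : Complex.normSq (1 - x * y) ≠ 0 := fun h => h0 (Complex.normSq_eq_zero.1 h)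
  rw [Complex.div_im, ← sub_div]
  congr 1
  simp only [Complex.sub_re, Complex.sub_im, Complex.mul_re, Complex.mul_im, Complex.one_re,
    Complex.one_im, Complex.neg_re, Complex.neg_im]
  ring

/-- determinant of the imaginary part of the edge block -/
lemma edge_det {x y : ℂ} (hx : 0 < x.im) (hy : 0 < y.im) :
    (x / (1 - x * y)).im * (y / (1 - x * y)).im - (-(x * y) / (1 - x * y)).im ^ 2 =
      x.im * y.im / Complex.normSq (1 - x * y) := by
  have h0 := one_sub_mul_ne hx hy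
  have h1 : Complex.normSq (1 - x * y) ≠ 0 := fun h => h0 (Complex.normSq_eq_zero.1 h)
  have h2 : (y / (1 - x * y)).im = (y.im + Complex.normSq y * x.im) / Complex.normSq (1 - x * y) := by
    have := edge_g00 hy hx
    rwa [mul_comm y x] at this
  rw [edge_g00 hx hy, h2, edge_g01 hx hy]
  field_simp
  simp only [Complex.sub_re, Complex.sub_im, Complex.mul_re, Complex.mul_im, Complex.one_re,
    Complex.one_im, Complex.normSq_apply]
  ring

/-! ### 4. (S1) the Green function at the base vertex -/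

lemma Pt.mv_im (hp : Pt pp rr d s E om cav h) (i : ℕ) : 0 < (cav (mv pp rr i h)).im :=
  (hp.move i).cav_im

/-- `A_v = ∑ Im c_i` -/
def AA (pp rr : Ω → Ω) (d : ℕ) (cav : Ω → ℂ) (h : Ω) : ℝ :=
  ∑ i ∈ Finset.range d, (cav (mv pp rr i h)).im

lemma AA_turns (hrd : ∀ h, rr^[d] h = h) (j : ℕ) (h : Ω) :
    AA pp rr d cav (rr^[j] h) = AA pp rr d cav h := by
  unfold AA
  exact sum_turns hrd (fun h => (cav h).im) j h

lemma Pt.AA_pos (hp : Pt pp rr d s E om cav h) (hd : 0 < d) : 0 < AA pp rr d cav h := by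
  unfold AA
  exact Finset.sum_pos (fun i _ => hp.mv_im i) ⟨0, Finset.mem_range.2 hd⟩

lemma Pt.AA_lt (hp : Pt pp rr d s E om cav h) {i : ℕ} (hi : i < d) (hd : 1 < d) :
    (cav (mv pp rr i h)).im < AA pp rr d cav h := by
  unfold AA
  obtain ⟨j, hj, hji⟩ : ∃ j ∈ Finset.range d, j ≠ i := by
    by_cases h0 : i = 0
    · exact ⟨1, Finset.mem_range.2 hd, by omega⟩
    · exact ⟨0, Finset.mem_range.2 (by omega), by omega⟩
  exact Finset.single_lt_sum hji (Finset.mem_range.2 hi) hj (hp.mv_im j)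
    (fun m _ _ => (hp.mv_im m).le)

/-- denominator of the Green function -/
def DD (pp rr : Ω → Ω) (d : ℕ) (s E : ℝ) (om : Ω → ℝ) (cav : Ω → ℂ) (h : Ω) : ℂ :=
  (E : ℂ) - s * om h + ∑ i ∈ Finset.range d, cav (mv pp rr i h)

lemma DD_im : (DD pp rr d s E om cav h).im = AA pp rr d cav h := by
  unfold DD AA
  simp only [Complex.add_im, Complex.sub_im, Complex.ofReal_im, Complex.mul_im, Complex.ofReal_re,
    mul_zero, zero_mul, add_zero, sub_zero, zero_add, Complex.im_sum]

lemma Gd_def : Gd pp rr d s E om cav h = -1 / DD pp rr d s E om cav h := rfl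

lemma Pt.DD_im_pos (hp : Pt pp rr d s E om cav h) (hd : 0 < d) :
    0 < (DD pp rr d s E om cav h).im := by
  rw [DD_im]; exact hp.AA_pos hd

lemma Pt.DD_ne (hp : Pt pp rr d s E om cav h) (hd : 0 < d) : DD pp rr d s E om cav h ≠ 0 :=
  ne_zero_of_im_pos (hp.DD_im_pos hd)

/-- (S1) the equation at the base vertex -/
theorem Pt.Gd_eqn (hp : Pt pp rr d s E om cav h) (hd : 0 < d) :
    Gd pp rr d s E om cav h * ((E : ℂ) - s * om h + ∑ i ∈ Finset.range d,
      cav (mv pp rr i h)) = -1 := by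
  have h0 := hp.DD_ne hd
  rw [Gd_def]
  change -1 / DD pp rr d s E om cav h * DD pp rr d s E om cav h = -1
  field_simp

theorem Pt.Gd_ne (hp : Pt pp rr d s E om cav h) (hd : 0 < d) : Gd pp rr d s E om cav h ≠ 0 := by
  intro h0
  have := hp.Gd_eqn hd
  rw [h0, zero_mul] at this
  norm_num at this

/-- (S1) `Im G_vv = A |G_vv|²` -/
theorem Pt.Gd_im (hp : Pt pp rr d s E om cav h) (hd : 0 < d) :
    (Gd pp rr d s E om cav h).im =
      AA pp rr d cav h * Complex.normSq (Gd pp rr d s E om cav h) := by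
  have h0 := hp.DD_ne hd
  have h1 : Complex.normSq (DD pp rr d s E om cav h) ≠ 0 := fun hh =>
    h0 (Complex.normSq_eq_zero.1 hh)
  rw [Gd_def, Complex.normSq_div, Complex.div_im, ← DD_im (E := E) (s := s) (om := om)]
  simp only [Complex.neg_im, Complex.one_im, Complex.neg_re, Complex.one_re, Complex.normSq_neg,
    Complex.normSq_one]
  ring

theorem Pt.Gd_normSq_pos (hp : Pt pp rr d s E om cav h) (hd : 0 < d) :
    0 < Complex.normSq (Gd pp rr d s E om cav h) := Complex.normSq_pos.2 (hp.Gd_ne hd)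

theorem Pt.Gd_im_pos (hp : Pt pp rr d s E om cav h) (hd : 0 < d) :
    0 < (Gd pp rr d s E om cav h).im := by
  rw [hp.Gd_im hd]
  exact mul_pos (hp.AA_pos hd) (hp.Gd_normSq_pos hd)

/-- (S1) `Im (1/G_vv) = -A` -/
theorem inv_Gd_im :
    (1 / Gd pp rr d s E om cav h).im = -AA pp rr d cav h := by
  rw [Gd_def, one_div_div, ← DD_im (E := E) (s := s) (om := om), div_neg, div_one, Complex.neg_im]

/-! ### 5. (S2) the edge -/

/-- `D_v = -1/cav h + cav (pp h)` -/
theorem Pt.DD_edge (hp : Pt pp rr d s E om cav h) (hd : 0 < d) :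
    DD pp rr d s E om cav h = -1 / cav h + cav (pp h) := by
  have hc := ne_zero_of_im_pos hp.cav_im
  have h1 := hp.cav_eqn
  have h2 : ∑ i ∈ Finset.range d, cav (mv pp rr i h) =
      ∑ j ∈ Finset.range (d - 1), cav (mv pp rr (j + 1) h) + cav (pp h) := by
    obtain ⟨m, rfl⟩ : ∃ m, d = m + 1 := ⟨d - 1, by omega⟩
    rw [Finset.sum_range_succ']
    rfl
  have h3 : (E : ℂ) - s * om h + ∑ j ∈ Finset.range (d - 1), cav (mv pp rr (j + 1) h) =
      -1 / cav h := by
    rw [eq_div_iff hc, mul_comm]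
    exact h1
  unfold DD
  rw [h2, ← add_assoc, h3]

/-- (S2) `G_vv = c / (1 - c c')` -/
theorem Pt.Gd_edge (hp : Pt pp rr d s E om cav h) (hd : 0 < d) :
    Gd pp rr d s E om cav h = cav h / (1 - cav h * cav (pp h)) := by
  have hc := ne_zero_of_im_pos hp.cav_im
  have h1 := one_sub_mul_ne hp.cav_im hp.flip.cav_im
  have h2 : DD pp rr d s E om cav h = -(1 - cav h * cav (pp h)) / cav h := by
    rw [hp.DD_edge hd]
    field_simp
    ring
  rw [Gd_def, h2, div_div_eq_mul_div, neg_one_mul, neg_div_neg_eq]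

theorem Pt.Gd_edge' (hpp : ∀ h, pp (pp h) = h) (hp : Pt pp rr d s E om cav h) (hd : 0 < d) :
    Gd pp rr d s E om cav (pp h) = cav (pp h) / (1 - cav h * cav (pp h)) := by
  rw [hp.flip.Gd_edge hd, hpp, mul_comm (cav (pp h)) (cav h)]

theorem Pt.Bk00 (hp : Pt pp rr d s E om cav h) (hd : 0 < d) :
    Bk pp cav h 0 0 = Gd pp rr d s E om cav h := by
  rw [hp.Gd_edge hd]
  simp [Bk]
  ring

theorem Pt.Bk11 (hpp : ∀ h, pp (pp h) = h) (hp : Pt pp rr d s E om cav h) (hd : 0 < d) :
    Bk pp cav h 1 1 = Gd pp rr d s E om cav (pp h) := by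
  rw [hp.Gd_edge' hpp hd]
  simp [Bk]
  ring

theorem Pt.Bk01 (hp : Pt pp rr d s E om cav h) (hd : 0 < d) :
    Bk pp cav h 0 1 = Gd pp rr d s E om cav h * (-cav (pp h)) := by
  rw [hp.Gd_edge hd]
  simp [Bk]
  ring

theorem Bk10 : Bk pp cav h 1 0 = Bk pp cav h 0 1 := by
  simp [Bk]

/-- (S2) consistency of the off-diagonal entry -/
theorem Pt.edge_cons (hpp : ∀ h, pp (pp h) = h) (hp : Pt pp rr d s E om cav h) (hd : 0 < d) :
    Gd pp rr d s E om cav h * (-cav (pp h)) = Gd pp rr d s E om cav (pp h) * (-cav h) := by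
  rw [hp.Gd_edge hd, hp.Gd_edge' hpp hd]
  ring

theorem Bk_flip (hpp : ∀ h, pp (pp h) = h) (a b : Fin 2) :
    Bk pp cav (pp h) a b = Bk pp cav h (1 - a) (1 - b) := by
  fin_cases a <;> fin_cases b <;> simp [Bk, hpp, mul_comm]

/-- the block of the star at neighbour `0` -/
theorem Pt.Gs_nn (hp : Pt pp rr d s E om cav h) (hd : 0 < d) :
    Gs pp rr d s E om cav h none none = Bk pp cav h 0 0 := (hp.Bk00 hd).symm

theorem Pt.Gs_n0 (hp : Pt pp rr d s E om cav h) (hd : 0 < d) (i : Fin d) (hi : (i : ℕ) = 0) :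
    Gs pp rr d s E om cav h none (some i) = Bk pp cav h 0 1 := by
  rw [hp.Bk01 hd]
  simp only [Gs, hi, mv_zero]

theorem Pt.Gs_0n (hp : Pt pp rr d s E om cav h) (hd : 0 < d) (i : Fin d) (hi : (i : ℕ) = 0) :
    Gs pp rr d s E om cav h (some i) none = Bk pp cav h 1 0 := by
  rw [Bk10, hp.Bk01 hd]
  simp only [Gs, hi, mv_zero]

theorem Pt.Gs_00 (hpp : ∀ h, pp (pp h) = h) (hp : Pt pp rr d s E om cav h) (hd : 0 < d)
    (i : Fin d) (hi : (i : ℕ) = 0) :
    Gs pp rr d s E om cav h (some i) (some i) = Bk pp cav h 1 1 := by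
  have h1 := one_sub_mul_ne hp.cav_im hp.flip.cav_im
  rw [hp.Bk11 hpp hd, hp.Gd_edge' hpp hd]
  simp only [Gs, hi, mv_zero, if_true]
  rw [hp.Gd_edge hd]
  field_simp
  ring

/-! ### 6. (S3) regression coefficients -/

/-- `Im G_{v,i} = β_i Im G_vv` -/
theorem Pt.bet_mul (hp : Pt pp rr d s E om cav h) (hd : 0 < d) (i : ℕ) :
    bet pp rr d s E om cav i h * (Gd pp rr d s E om cav h).im =
      (Gd pp rr d s E om cav h * (-cav (mv pp rr i h))).im := by
  unfold bet
  rw [div_mul_cancel₀ _ (hp.Gd_im_pos hd).ne']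

/-- (S3) `∑ β_i = E - s ω_v` -/
theorem Pt.sum_bet (hp : Pt pp rr d s E om cav h) (hd : 0 < d) :
    ∑ i ∈ Finset.range d, bet pp rr d s E om cav i h = E - s * om h := by
  have h1 := hp.Gd_eqn hd
  have h2 : ∑ i ∈ Finset.range d, Gd pp rr d s E om cav h * (-cav (mv pp rr i h)) =
      1 + ((E - s * om h : ℝ) : ℂ) * Gd pp rr d s E om cav h := by
    rw [← Finset.mul_sum, Finset.sum_neg_distrib]
    push_cast
    linear_combination -h1
  have h3 := congrArg Complex.im h2
  rw [Complex.im_sum, Complex.add_im, Complex.one_im, zero_add, Complex.im_ofReal_mul] at h3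
  unfold bet
  rw [← Finset.sum_div, h3, mul_div_assoc, div_self (hp.Gd_im_pos hd).ne', mul_one]

/-- (S3) `β Φ_00 = Φ_01` -/
theorem Pt.bet_Bk (hp : Pt pp rr d s E om cav h) (hd : 0 < d) :
    bet pp rr d s E om cav 0 h * (Bk pp cav h 0 0).im = (Bk pp cav h 0 1).im := by
  rw [hp.Bk00 hd, hp.Bk01 hd, hp.bet_mul hd, mv_zero]

/-- (S3) `β' Φ_11 = Φ_01` -/
theorem Pt.bet_Bk' (hpp : ∀ h, pp (pp h) = h) (hp : Pt pp rr d s E om cav h) (hd : 0 < d) :
    bet pp rr d s E om cav 0 (pp h) * (Bk pp cav h 1 1).im = (Bk pp cav h 0 1).im := by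
  rw [hp.Bk11 hpp hd, hp.Bk01 hd, hp.flip.bet_mul hd, mv_zero, hpp, hp.edge_cons hpp hd]

theorem Pt.Bk00_im_pos (hp : Pt pp rr d s E om cav h) (hd : 0 < d) :
    0 < (Bk pp cav h 0 0).im := by rw [hp.Bk00 hd]; exact hp.Gd_im_pos hd

theorem Pt.Bk11_im_pos (hpp : ∀ h, pp (pp h) = h) (hp : Pt pp rr d s E om cav h) (hd : 0 < d) :
    0 < (Bk pp cav h 1 1).im := by rw [hp.Bk11 hpp hd]; exact hp.flip.Gd_im_pos hd

/-- `Φ_00 = (Im x + |x|² Im y)/|1-xy|²`, `x = cav h`, `y = cav (pp h)` -/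
theorem Pt.Bk00_im (hp : Pt pp rr d s E om cav h) :
    (Bk pp cav h 0 0).im = ((cav h).im + Complex.normSq (cav h) * (cav (pp h)).im) /
      Complex.normSq (1 - cav h * cav (pp h)) := by
  rw [← edge_g00 hp.cav_im hp.flip.cav_im]
  congr 1
  simp [Bk]
  ring

theorem Pt.Bk11_im (hp : Pt pp rr d s E om cav h) :
    (Bk pp cav h 1 1).im = ((cav (pp h)).im + Complex.normSq (cav (pp h)) * (cav h).im) /
      Complex.normSq (1 - cav h * cav (pp h)) := by
  have := edge_g00 hp.flip.cav_im hp.cav_im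
  rw [mul_comm (cav (pp h)) (cav h)] at this
  rw [← this]
  congr 1
  simp [Bk]
  ring

theorem Pt.Bk01_im (hp : Pt pp rr d s E om cav h) :
    (Bk pp cav h 0 1).im = -(cav h * cav (pp h)).im /
      Complex.normSq (1 - cav h * cav (pp h)) := by
  rw [← edge_g01 hp.cav_im hp.flip.cav_im]
  congr 1
  simp [Bk]
  ring

/-- `det Φ = Im x Im y / |1-xy|²` -/
theorem Pt.det_Bk (hp : Pt pp rr d s E om cav h) :
    (Bk pp cav h 0 0).im * (Bk pp cav h 1 1).im - (Bk pp cav h 0 1).im ^ 2 =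
      (cav h).im * (cav (pp h)).im / Complex.normSq (1 - cav h * cav (pp h)) := by
  rw [← edge_det hp.cav_im hp.flip.cav_im]
  have e1 : Bk pp cav h 0 0 = cav h / (1 - cav h * cav (pp h)) := by simp [Bk]; ring
  have e2 : Bk pp cav h 1 1 = cav (pp h) / (1 - cav h * cav (pp h)) := by simp [Bk]; ring
  have e3 : Bk pp cav h 0 1 = -(cav h * cav (pp h)) / (1 - cav h * cav (pp h)) := by
    simp [Bk]; ring
  rw [e1, e2, e3]

theorem Pt.det_Bk_pos (hp : Pt pp rr d s E om cav h) :
    0 < (Bk pp cav h 0 0).im * (Bk pp cav h 1 1).im - (Bk pp cav h 0 1).im ^ 2 := by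
  rw [hp.det_Bk]
  have h0 := one_sub_mul_ne hp.cav_im hp.flip.cav_im
  exact div_pos (mul_pos hp.cav_im hp.flip.cav_im) (Complex.normSq_pos.2 h0)

/-- (S3) `0 ≤ β β'` -/
theorem Pt.bet_mul_nonneg (hpp : ∀ h, pp (pp h) = h) (hp : Pt pp rr d s E om cav h)
    (hd : 0 < d) : 0 ≤ bet pp rr d s E om cav 0 h * bet pp rr d s E om cav 0 (pp h) := by
  have h1 := hp.bet_Bk hd
  have h2 := hp.bet_Bk' hpp hd
  have p0 := hp.Bk00_im_pos hd
  have p1 := hp.Bk11_im_pos hpp hd
  have h3 : (bet pp rr d s E om cav 0 h * bet pp rr d s E om cav 0 (pp h)) *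
      ((Bk pp cav h 0 0).im * (Bk pp cav h 1 1).im) = (Bk pp cav h 0 1).im ^ 2 := by
    rw [sq]
    nth_rewrite 1 [← h1]
    nth_rewrite 1 [← h2]
    ring
  by_contra hneg
  push Not at hneg
  have := mul_neg_of_neg_of_pos hneg (mul_pos p0 p1)
  rw [h3] at this
  exact absurd (sq_nonneg _) (not_le.2 this)

/-- (S3) `1 - β β' = det Φ / (Φ_00 Φ_11)` -/
theorem Pt.one_sub_bet (hpp : ∀ h, pp (pp h) = h) (hp : Pt pp rr d s E om cav h) (hd : 0 < d) :
    (1 - bet pp rr d s E om cav 0 h * bet pp rr d s E om cav 0 (pp h)) *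
      ((Bk pp cav h 0 0).im * (Bk pp cav h 1 1).im) =
      (Bk pp cav h 0 0).im * (Bk pp cav h 1 1).im - (Bk pp cav h 0 1).im ^ 2 := by
  have h1 := hp.bet_Bk hd
  have h2 := hp.bet_Bk' hpp hd
  have h3 : (bet pp rr d s E om cav 0 h * bet pp rr d s E om cav 0 (pp h)) *
      ((Bk pp cav h 0 0).im * (Bk pp cav h 1 1).im) = (Bk pp cav h 0 1).im ^ 2 := by
    rw [sq]
    nth_rewrite 1 [← h1]
    nth_rewrite 1 [← h2]
    ring
  linear_combination -h3

/-- (S3) `β β' < 1` -/
theorem Pt.bet_mul_lt_one (hpp : ∀ h, pp (pp h) = h) (hp : Pt pp rr d s E om cav h)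
    (hd : 0 < d) : bet pp rr d s E om cav 0 h * bet pp rr d s E om cav 0 (pp h) < 1 := by
  have h1 := hp.one_sub_bet hpp hd
  have h2 := hp.det_Bk_pos
  have p0 := hp.Bk00_im_pos hd
  have p1 := hp.Bk11_im_pos hpp hd
  by_contra hge
  push Not at hge
  have : (1 - bet pp rr d s E om cav 0 h * bet pp rr d s E om cav 0 (pp h)) *
      ((Bk pp cav h 0 0).im * (Bk pp cav h 1 1).im) ≤ 0 :=
    mul_nonpos_of_nonpos_of_nonneg (by linarith) (mul_pos p0 p1).le
  linarith

/-- (S3) residual variance: `(1 - β β') Φ_11 = a_0 (A - a_0) / A` -/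
theorem Pt.resid (hpp : ∀ h, pp (pp h) = h) (hp : Pt pp rr d s E om cav h) (hd : 0 < d) :
    (1 - bet pp rr d s E om cav 0 h * bet pp rr d s E om cav 0 (pp h)) *
      (Bk pp cav h 1 1).im = (cav (pp h)).im * (AA pp rr d cav h - (cav (pp h)).im) /
        AA pp rr d cav h := by
  have h1 := hp.one_sub_bet hpp hd
  have p0 := hp.Bk00_im_pos hd
  have hA := hp.AA_pos hd
  have h0 := one_sub_mul_ne hp.cav_im hp.flip.cav_im
  have hN := Complex.normSq_pos.2 h0
  have hx := Complex.normSq_pos.2 (ne_zero_of_im_pos hp.cav_im)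
  -- `A = Im x/|x|² + Im y`
  have hA' : AA pp rr d cav h = (cav h).im / Complex.normSq (cav h) + (cav (pp h)).im := by
    rw [← DD_im (E := E) (s := s) (om := om), hp.DD_edge hd, Complex.add_im]
    congr 1
    rw [Complex.div_im]
    simp only [Complex.neg_im, Complex.one_im, Complex.neg_re, Complex.one_re]
    ring
  rw [hp.det_Bk] at h1
  have h2 : (1 - bet pp rr d s E om cav 0 h * bet pp rr d s E om cav 0 (pp h)) *
      (Bk pp cav h 1 1).im = (cav h).im * (cav (pp h)).im /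
        Complex.normSq (1 - cav h * cav (pp h)) / (Bk pp cav h 0 0).im := by
    rw [eq_div_iff p0.ne', ← h1]
    ring
  have hpos : (cav h).im + Complex.normSq (cav h) * (cav (pp h)).im ≠ 0 := by
    have := mul_pos hx hp.flip.cav_im
    have := hp.cav_im
    positivity
  rw [h2, hp.Bk00_im, hA']
  field_simp
  ring

/-! ### 7. (S4) the covariance of the residuals -/

/-- (S4) `K_ij = a_i δ_ij - a_i a_j / A` -/
theorem Pt.K_eq (hp : Pt pp rr d s E om cav h) (hd : 0 < d) (i j : Fin d) :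
    (Gs pp rr d s E om cav h (some i) (some j)).im -
      (Gs pp rr d s E om cav h none (some i)).im * (Gs pp rr d s E om cav h none (some j)).im /
        (Gs pp rr d s E om cav h none none).im =
      (if i = j then (cav (mv pp rr i h)).im else 0) -
        (cav (mv pp rr i h)).im * (cav (mv pp rr j h)).im / AA pp rr d cav h := by
  have hg := hp.Gd_im_pos hd
  have hA := hp.AA_pos hd
  have hGA := hp.Gd_im hd
  have hN := hp.Gd_normSq_pos hd
  have hid := im_mul_identity (Gd pp rr d s E om cav h) (cav (mv pp rr i h))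
    (cav (mv pp rr j h))
  simp only [Gs]
  have h1 : (if i = j then cav (mv pp rr (i : ℕ) h) else 0).im =
      (if i = j then (cav (mv pp rr i h)).im else 0) := by
    split_ifs <;> simp
  rw [Complex.add_im, h1, mul_neg, mul_neg, Complex.neg_im, Complex.neg_im, neg_mul_neg]
  have h2 : (Gd pp rr d s E om cav h * cav (mv pp rr i h) * cav (mv pp rr j h)).im -
      (Gd pp rr d s E om cav h * cav (mv pp rr i h)).im *
        (Gd pp rr d s E om cav h * cav (mv pp rr j h)).im / (Gd pp rr d s E om cav h).im =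
      -((cav (mv pp rr i h)).im * (cav (mv pp rr j h)).im / AA pp rr d cav h) := by
    have h3 : (Gd pp rr d s E om cav h * cav (mv pp rr i h) * cav (mv pp rr j h)).im =
        ((Gd pp rr d s E om cav h * cav (mv pp rr i h)).im *
          (Gd pp rr d s E om cav h * cav (mv pp rr j h)).im -
          Complex.normSq (Gd pp rr d s E om cav h) * (cav (mv pp rr i h)).im *
            (cav (mv pp rr j h)).im) / (Gd pp rr d s E om cav h).im := by
      rw [eq_div_iff hg.ne']
      linear_combination hid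
    rw [h3, ← sub_div, hGA]
    field_simp
    ring
  linear_combination h2

/-- covariance of residual and centre vanishes: `Im G_{i,v} - β_i Im G_vv = 0` -/
theorem Pt.cov_center (hp : Pt pp rr d s E om cav h) (hd : 0 < d) (i : Fin d) :
    (Gs pp rr d s E om cav h (some i) none).im -
      bet pp rr d s E om cav i h * (Gs pp rr d s E om cav h none none).im = 0 := by
  have := hp.bet_mul hd i
  simp only [Gs]
  rw [this, sub_self]

end Basic

end Crest.Agent.R166.StarAlg341
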