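import Mathlib
import Crest.Agent.R166.Edge_385
import Crest.Agent.R166.Kap_63
import Crest.Agent.R166.StarAlg_341

/-!
# Row 166, 42.6: end of the section (helper385): `Stmt_42_6`.
-/

set_option autoImplicit false

open MeasureTheory ProbabilityTheory
open Crest.Agent.R166.Bern385 Crest.Agent.R166.B2 Crest.Agent.R166.Kap63
open Crest.Agent.R166.StarAlg341 (Pt AA ae_pt)

namespace Crest.Agent.R166.Fin42

variable {Ω : Type*} {Env FX : MeasurableSpace Ω} [mΩ : MeasurableSpace Ω] {d k : ℕ}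
  {s E t ρ : ℝ} {P : Measure Ω} {pp rr : Ω → Ω} {om : Ω → ℝ} {cav : Ω → ℂ}
  {X Z : Ω → Fin k → ℝ}

/-- quadratic form of the edge block -/
noncomputable def Qe (pp : Ω → Ω) (cav : Ω → ℂ) (ρ : ℝ) (x y : Fin k → ℝ) (h : Ω) : ℝ :=
  ∑ l, (x l ^ 2 * (Bk pp cav h 0 0).im + 2 * (x l * y l) * (Bk pp cav h 0 1).im +
    y l ^ 2 * (Bk pp cav h 1 1).im) / (Real.pi * ρ)

/-- phase of the pair -/
noncomputable def eX (pp : Ω → Ω) (V : Ω → Fin k → ℝ) (x y : Fin k → ℝ) (h : Ω) : ℂ :=
  Complex.exp (Complex.I * ((∑ l, (x l * V h l + y l * V (pp h) l) : ℝ) : ℂ))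

omit mΩ in
lemma norm_eX (pp : Ω → Ω) (V : Ω → Fin k → ℝ) (x y : Fin k → ℝ) (h : Ω) :
    ‖eX pp V x y h‖ = 1 := by
  unfold eX
  rw [mul_comm]
  exact Complex.norm_exp_ofReal_mul_I _

omit mΩ in
lemma meas_eX {m : MeasurableSpace Ω} {pp : Ω → Ω} (hpp : Measurable pp) {V : Ω → Fin k → ℝ}
    (hV : Measurable V) (x y : Fin k → ℝ) : Measurable (eX pp V x y) := by
  unfold eX
  have h1 : ∀ l, Measurable fun h => V h l := fun l => (measurable_pi_apply l).comp hV
  have h2 : ∀ l, Measurable fun h => V (pp h) l := fun l => (h1 l).comp hpp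
  fun_prop

omit mΩ in
lemma eX_YY (x y : Fin k → ℝ) (h : Ω) : eX pp (YY t X Z) x y h =
    eX pp X x y h * eX pp Z (Real.sqrt t • x) (Real.sqrt t • y) h := by
  unfold eX
  rw [← Complex.exp_add, ← mul_add, ← Complex.ofReal_add, ← Finset.sum_add_distrib]
  congr 3
  refine Finset.sum_congr rfl fun l _ => ?_
  simp only [YY, Pi.smul_apply, smul_eq_mul]
  ring

omit mΩ in
lemma meas_Bk {m : MeasurableSpace Ω} {pp : Ω → Ω} {cav : Ω → ℂ} (hpp : Measurable pp)
    (hcav : Measurable cav) (a b : Fin 2) : Measurable fun h => (Bk pp cav h a b).im := by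
  have h1 : Measurable fun h => cav (pp h) := hcav.comp hpp
  have h2 : Measurable fun h => Bk pp cav h a b := by
    unfold Bk
    fin_cases a <;> fin_cases b <;> simp <;> fun_prop
  exact Complex.measurable_im.comp h2

omit mΩ in
lemma meas_Qe {m : MeasurableSpace Ω} {pp : Ω → Ω} {cav : Ω → ℂ} (hpp : Measurable pp)
    (hcav : Measurable cav) (ρ : ℝ) (x y : Fin k → ℝ) : Measurable (Qe pp cav ρ x y) := by
  unfold Qe
  have h1 := meas_Bk hpp hcav
  have h00 := h1 0 0
  have h01 := h1 0 1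
  have h11 := h1 1 1
  fun_prop

section

variable (L : LimProc Env FX d k s E t ρ P pp rr om cav X Z)

include L

/-- conditional characteristic function of `Z` at an edge -/
lemma Z_edge (x y : Fin k → ℝ) :
    P[eX pp Z (Real.sqrt t • x) (Real.sqrt t • y) | FX] =ᵐ[P]
      fun h => ((Real.exp (-(1 / 2) * (t * Qe pp cav ρ x y h)) : ℝ) : ℂ) := by
  have hd := d_pos L
  have h1 := L.Z_gauss [] (by intro j hj; simp at hj) 0
    (fun a => a.elim (Real.sqrt t • x) (fun i => if (i : ℕ) = 0 then Real.sqrt t • y else 0))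
  have hsum : ∀ (F : Fin d → ℝ), (∀ i : Fin d, (i : ℕ) ≠ 0 → F i = 0) →
      ∑ i, F i = F ⟨0, hd⟩ := by
    intro F hF
    rw [Finset.sum_eq_single (⟨0, hd⟩ : Fin d)]
    · intro i _ hi
      exact hF i fun h0 => hi (Fin.ext h0)
    · simp
  refine Filter.EventuallyEq.trans ?_ (h1.trans ?_)
  · refine Filter.EventuallyEq.of_eq ?_
    congr 1
    funext h
    unfold eX
    congr 3
    refine Finset.sum_congr rfl fun l _ => ?_
    rw [Fintype.sum_option, hsum]
    · simp [sv, mv]
    · intro i hi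
      simp [hi]
  · filter_upwards [ae_pt L] with h hp
    rw [Complex.ofReal_exp]
    congr 2
    have ht : Real.sqrt t * Real.sqrt t = t := Real.mul_self_sqrt L.ht.le
    have hD : ∀ l, ∑ a : St d, ∑ b : St d,
        (a.elim (Real.sqrt t • x) (fun i => if (i : ℕ) = 0 then Real.sqrt t • y else 0) :
          Fin k → ℝ) l *
        (b.elim (Real.sqrt t • x) (fun i => if (i : ℕ) = 0 then Real.sqrt t • y else 0) :
          Fin k → ℝ) l * (Gs pp rr d s E om cav h a b).im =
        t * (x l ^ 2 * (Bk pp cav h 0 0).im + 2 * (x l * y l) * (Bk pp cav h 0 1).im +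
          y l ^ 2 * (Bk pp cav h 1 1).im) := by
      intro l
      rw [Fintype.sum_option, Fintype.sum_option, hsum, hsum]
      · rw [Fintype.sum_option, hsum]
        · rw [hp.Gs_nn hd, hp.Gs_n0 hd _ rfl, hp.Gs_0n hd _ rfl, hp.Gs_00 L.pp_pp hd _ rfl]
          simp only [Option.elim_none, Option.elim_some, if_true, Pi.smul_apply,
            smul_eq_mul]
          rw [StarAlg341.Bk10]
          linear_combination (x l ^ 2 * (Bk pp cav h 0 0).im +
            2 * (x l * y l) * (Bk pp cav h 0 1).im + y l ^ 2 * (Bk pp cav h 1 1).im) * ht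
        · intro i hi
          simp [hi]
      · intro i hi
        simp [hi]
      · intro i hi
        simp [hi]
    unfold Qe
    congr 1
    rw [Finset.mul_sum]
    refine Finset.sum_congr rfl fun l _ => ?_
    rw [hD l]
    simp only [Pi.zero_apply, ne_eq, OfNat.ofNat_ne_zero, not_false_eq_true, zero_pow, zero_mul,
      Finset.sum_const_zero, mul_zero, zero_add, add_zero]
    rw [mul_div_assoc]

/-- removing the Gaussian noise from the conditional characteristic function -/
theorem tower (x y : Fin k → ℝ) :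
    P[eX pp (YY t X Z) x y | Env] =ᵐ[P] fun h =>
      ((Real.exp (-(1 / 2) * (t * Qe pp cav ρ x y h)) : ℝ) : ℂ) * (P[eX pp X x y | Env]) h := by
  have hP : IsProbabilityMeasure P := L.prob
  have hEnv := Env_le' L
  set G : Ω → ℂ := fun h => ((Real.exp (-(1 / 2) * (t * Qe pp cav ρ x y h)) : ℝ) : ℂ) with hG
  have hA : Measurable[FX] (eX pp X x y) := @meas_eX Ω k FX pp L.pp_FX X L.X_meas x y
  have hB : Measurable (eX pp Z (Real.sqrt t • x) (Real.sqrt t • y)) :=
    meas_eX L.pp_mp.measurable L.Z_meas _ _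
  have hA' : Measurable (eX pp X x y) := hA.mono L.FX_le le_rfl
  have hGm : Measurable[Env] G := by
    have := @meas_Qe Ω k Env pp cav L.pp_Env L.cav_meas ρ x y
    exact Complex.measurable_ofReal.comp (Real.measurable_exp.comp
      ((this.const_mul t).const_mul (-(1 / 2))))
  have hAi : Integrable (eX pp X x y) P :=
    Integrable.of_bound hA'.aestronglyMeasurable 1 (Filter.Eventually.of_forall fun h =>
      (norm_eX _ _ _ _ _).le)
  have hBi : Integrable (eX pp Z (Real.sqrt t • x) (Real.sqrt t • y)) P :=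
    Integrable.of_bound hB.aestronglyMeasurable 1 (Filter.Eventually.of_forall fun h =>
      (norm_eX _ _ _ _ _).le)
  have hABi : Integrable (fun h => eX pp X x y h *
      eX pp Z (Real.sqrt t • x) (Real.sqrt t • y) h) P :=
    Integrable.of_bound (hA'.mul hB).aestronglyMeasurable 1 (Filter.Eventually.of_forall fun h => by
      rw [norm_mul, norm_eX, norm_eX, one_mul])
  have e1 : P[fun h => eX pp X x y h * eX pp Z (Real.sqrt t • x) (Real.sqrt t • y) h | FX] =ᵐ[P]
      fun h => eX pp X x y h * (P[eX pp Z (Real.sqrt t • x) (Real.sqrt t • y) | FX]) h :=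
    condExp_bilin_of_stronglyMeasurable_left (ContinuousLinearMap.mul ℝ ℂ)
      hA.stronglyMeasurable hABi hBi
  have e2 : P[fun h => eX pp X x y h * eX pp Z (Real.sqrt t • x) (Real.sqrt t • y) h | FX] =ᵐ[P]
      fun h => G h * eX pp X x y h := by
    filter_upwards [e1, Z_edge L x y] with h h1 h2
    rw [h1, h2, mul_comm]
  have hGAi : Integrable (fun h => G h * eX pp X x y h) P :=
    integrable_condExp.congr e2
  have e3 : P[fun h => G h * eX pp X x y h | Env] =ᵐ[P] fun h => G h * (P[eX pp X x y | Env]) h :=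
    condExp_bilin_of_stronglyMeasurable_left (ContinuousLinearMap.mul ℝ ℂ)
      hGm.stronglyMeasurable hGAi hAi
  have e4 : (eX pp (YY t X Z) x y) = fun h => eX pp X x y h *
      eX pp Z (Real.sqrt t • x) (Real.sqrt t • y) h := by
    funext h; exact eX_YY x y h
  rw [e4]
  refine ((condExp_condExp_of_le L.Env_le L.FX_le).symm.trans ?_).trans e3
  exact condExp_congr_ae e2

omit L in
/-- conditional expectation through the regular conditional distribution -/
lemma cd_condExp {A F : Type*} [MeasurableSpace A] [StandardBorelSpace A] [Nonempty A]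
    [NormedAddCommGroup F] [NormedSpace ℝ F] [CompleteSpace F] [IsFiniteMeasure P]
    (hEnv : Env ≤ mΩ) {S : Ω → A} (hS : Measurable S) {f : A → F} (hf : StronglyMeasurable f)
    (hfi : Integrable (fun h => f (S h)) P) :
    P[fun h => f (S h) | Env] =ᵐ[P] fun h =>
      ∫ y, f y ∂((@condDistrib Ω Ω A _ _ _ mΩ Env S id P _) h) := by
  have he : Measurable[mΩ, Env] (id : Ω → Ω) := measurable_id'' hEnv
  have key := @condExp_ae_eq_integral_condDistrib Ω Ω A F _ _ _ _ mΩ P _ id
    S Env _ _ he hS.aemeasurable _ hf hfi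
  rw [MeasurableSpace.comap_id] at key
  exact key

lemma meas_YY : Measurable (YY t X Z) := by
  rw [measurable_pi_iff]
  intro l
  exact ((measurable_pi_apply l).comp (X_meas' L)).add
    (((measurable_pi_apply l).comp L.Z_meas).const_mul _)

/-- kernel form of the conditional characteristic function -/
theorem kap_phc [IsFiniteMeasure P] (x y : Fin k → ℝ) :
    P[eX pp (YY t X Z) x y | Env] =ᵐ[P] fun h =>
      phc (kap Env P pp rr d t X Z h) ⟨0, d_pos L⟩ x y := by
  have hm : Measurable fun z : St d → Fin k → ℝ => Complex.exp (Complex.I *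
      ((∑ l, (x l * z none l + y l * z (some ⟨0, d_pos L⟩) l) : ℝ) : ℂ)) := by
    have h1 : ∀ (c : St d) (l : Fin k), Measurable fun z : St d → Fin k → ℝ => z c l := fun c l =>
      (measurable_pi_apply l).comp (measurable_pi_apply c)
    fun_prop
  have hi : Integrable (fun h => (fun z : St d → Fin k → ℝ => Complex.exp (Complex.I *
      ((∑ l, (x l * z none l + y l * z (some ⟨0, d_pos L⟩) l) : ℝ) : ℂ)))
        (SY pp rr d t X Z h)) P := by
    refine Integrable.of_bound (hm.comp (SY_meas L)).aestronglyMeasurable 1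
      (Filter.Eventually.of_forall fun h => ?_)
    simp only
    rw [mul_comm]
    exact (Complex.norm_exp_ofReal_mul_I _).le
  refine Filter.EventuallyEq.trans (Filter.EventuallyEq.of_eq ?_)
    (cd_condExp (Env_le' L) (SY_meas L) hm.stronglyMeasurable hi)
  rfl

/-- conditional law of `x · X` given the environment -/
noncomputable def KU (Env : MeasurableSpace Ω) [mΩ : MeasurableSpace Ω] (P : Measure Ω)
    [IsFiniteMeasure P] (X : Ω → Fin k → ℝ) (x : Fin k → ℝ) : @Kernel Ω ℝ Env _ :=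
  @condDistrib Ω Ω ℝ _ _ _ mΩ Env (fun h => ∑ l, x l * X h l) id P _

lemma meas_xX (x : Fin k → ℝ) : Measurable fun h => ∑ l, x l * X h l :=
  Finset.measurable_sum _ fun l _ => ((measurable_pi_apply l).comp (X_meas' L)).const_mul _

lemma KU_cf [IsFiniteMeasure P] (x : Fin k → ℝ) (r : ℝ) :
    P[eX pp X (r • x) 0 | Env] =ᵐ[P] fun h =>
      ∫ u, Complex.exp (Complex.I * ((r * u : ℝ) : ℂ)) ∂(KU Env P X x h) := by
  have hm : Measurable fun u : ℝ => Complex.exp (Complex.I * ((r * u : ℝ) : ℂ)) := by fun_prop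
  have hi : Integrable (fun h => (fun u : ℝ => Complex.exp (Complex.I * ((r * u : ℝ) : ℂ)))
        (∑ l, x l * X h l)) P := by
    refine Integrable.of_bound (hm.comp (meas_xX L x)).aestronglyMeasurable 1
      (Filter.Eventually.of_forall fun h => ?_)
    simp only
    rw [mul_comm]
    exact (Complex.norm_exp_ofReal_mul_I _).le
  refine Filter.EventuallyEq.trans (Filter.EventuallyEq.of_eq ?_)
    (cd_condExp (Env_le' L) (meas_xX L x) hm.stronglyMeasurable hi)
  congr 1
  funext h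
  unfold eX
  congr 3
  rw [Finset.mul_sum]
  exact Finset.sum_congr rfl fun l _ => by simp [mul_assoc]

omit L in
omit mΩ in
lemma int_kernel' {A B : Type*} [MeasurableSpace A] [StandardBorelSpace A] [Nonempty A]
    [MeasurableSpace Ω] [MeasurableSpace B] {P : Measure Ω}
    [IsFiniteMeasure P] {e : Ω → B} {S : Ω → A} (he : Measurable e)
    (hS : Measurable S) (f : A → ℝ) (hf : Measurable f)
    (hfi : Integrable (fun h => f (S h)) P) :
    ∀ᵐ h ∂P, Integrable f (condDistrib S e P (e h)) := by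
  have hm : Measurable fun p : B × A => f p.2 := hf.comp measurable_snd
  exact Integrable.condDistrib_ae (f := fun p : B × A => f p.2)
    he.aemeasurable hS.aemeasurable
    ((integrable_map_measure hm.aestronglyMeasurable (he.prodMk hS).aemeasurable).2 hfi)

omit L in
lemma cd_integrable {A : Type*} [MeasurableSpace A] [StandardBorelSpace A] [Nonempty A]
    [IsFiniteMeasure P] (hEnv : Env ≤ mΩ) {S : Ω → A} (hS : Measurable S) {f : A → ℝ}
    (hf : Measurable f) (hfi : Integrable (fun h => f (S h)) P) :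
    ∀ᵐ h ∂P, Integrable f ((@condDistrib Ω Ω A _ _ _ mΩ Env S id P _) h) := by
  have he : Measurable[mΩ, Env] (id : Ω → Ω) := measurable_id'' hEnv
  exact @int_kernel' Ω A Ω _ _ _ mΩ Env P _ id S he hS f hf hfi

omit L in
omit mΩ in
lemma Qe_smul (x : Fin k → ℝ) (r : ℝ) (h : Ω) :
    Qe pp cav ρ (r • x) 0 h = r ^ 2 * Qe pp cav ρ x 0 h := by
  unfold Qe
  rw [Finset.mul_sum]
  refine Finset.sum_congr rfl fun l _ => ?_
  simp only [Pi.smul_apply, smul_eq_mul, Pi.zero_apply]
  ring

lemma cf_rel [IsFiniteMeasure P] (x : Fin k → ℝ) : ∀ᵐ h ∂P, ∀ r : ℝ,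
    phc (kap Env P pp rr d t X Z h) ⟨0, d_pos L⟩ (r • x) 0 =
      ((Real.exp (-(1 / 2) * (t * (r ^ 2 * Qe pp cav ρ x 0 h))) : ℝ) : ℂ) *
      ∫ u, Complex.exp (Complex.I * ((r * u : ℝ) : ℂ)) ∂(KU Env P X x h) := by
  have hP : IsProbabilityMeasure P := L.prob
  refine Crest.Agent.R166.Kap063.ae_forall_of_continuous (f := fun (r : ℝ) h =>
    phc (kap Env P pp rr d t X Z h) ⟨0, d_pos L⟩ (r • x) 0) ?_ ?_ ?_
  · intro h
    have hpr : IsProbabilityMeasure (kap Env P pp rr d t X Z h) := by unfold kap; infer_instance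
    simp only [phc]
    refine continuous_of_dominated (bound := fun _ => 1) ?_ ?_ ?_ ?_
    · intro r
      refine Measurable.aestronglyMeasurable ?_
      have h1 : ∀ (c : St d) (l : Fin k), Measurable fun z : St d → Fin k → ℝ => z c l :=
        fun c l => (measurable_pi_apply l).comp (measurable_pi_apply c)
      fun_prop
    · intro r
      refine Filter.Eventually.of_forall fun η => ?_
      rw [mul_comm]
      exact (Complex.norm_exp_ofReal_mul_I _).le
    · exact integrable_const _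
    · refine Filter.Eventually.of_forall fun η => ?_
      simp only [Pi.smul_apply]
      fun_prop
  · intro h
    have hpr : IsProbabilityMeasure (KU Env P X x h) := by unfold KU; infer_instance
    refine Continuous.mul (by fun_prop) ?_
    refine continuous_of_dominated (bound := fun _ => 1) ?_ ?_ ?_ ?_
    · intro r
      exact (by fun_prop : Measurable _).aestronglyMeasurable
    · intro r
      refine Filter.Eventually.of_forall fun η => ?_
      rw [mul_comm]
      exact (Complex.norm_exp_ofReal_mul_I _).le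
    · exact integrable_const _
    · refine Filter.Eventually.of_forall fun η => ?_
      fun_prop
  · intro r
    filter_upwards [tower L (r • x) 0, kap_phc L (r • x) 0, KU_cf L x r] with h h1 h2 h3
    rw [← h2, h1, h3, Qe_smul]

lemma KU_mean [IsFiniteMeasure P] (x : Fin k → ℝ) : ∀ᵐ h ∂P, ∫ u, u ∂(KU Env P X x h) = 0 := by
  have hint : ∀ l, Integrable (fun h => X h l) P := fun l => (L.X_L2 l).integrable one_le_two
  have hi : Integrable (fun h => ∑ l, x l * X h l) P :=
    integrable_finsetSum _ fun l _ => (hint l).const_mul _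
  have h1 := cd_condExp (P := P) (Env_le' L) (meas_xX L x) (f := fun u : ℝ => u)
    stronglyMeasurable_id hi
  have h2 : P[fun h => ∑ l, x l * X h l | Env] =ᵐ[P] 0 := by
    have e1 : (fun h => ∑ l, x l * X h l) = ∑ l, x l • (fun h => X h l) := by
      funext h
      simp [Finset.sum_apply]
    rw [e1]
    refine (condExp_finsetSum (fun l _ => (hint l).smul (x l)) _).trans ?_
    have h3 : ∀ᵐ h ∂P, ∀ l, (P[x l • (fun h => X h l) | Env]) h = 0 := by
      rw [ae_all_iff]
      intro l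
      filter_upwards [condExp_smul (x l) (fun h => X h l) Env (μ := P), L.X_mean l] with h h4 h5
      rw [h4, Pi.smul_apply, h5]
      simp
    filter_upwards [h3] with h h4
    rw [Finset.sum_apply]
    simp [h4]
  filter_upwards [h1, h2] with h h3 h4
  exact h3.symm.trans h4

lemma KU_L2 [IsFiniteMeasure P] (x : Fin k → ℝ) :
    (∀ᵐ h ∂P, MemLp (fun u : ℝ => u) 2 (KU Env P X x h)) ∧
    (P[fun h => (∑ l, x l * X h l) ^ 2 | Env] =ᵐ[P] fun h => ∫ u, u ^ 2 ∂(KU Env P X x h)) := by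
  have hmem : MemLp (fun h => ∑ l, x l * X h l) 2 P :=
    memLp_finsetSum _ fun l _ => (L.X_L2 l).const_mul (x l)
  have h1 := cd_integrable (P := P) (Env_le' L) (meas_xX L x) (f := fun u : ℝ => u ^ 2)
    (by fun_prop) hmem.integrable_sq
  refine ⟨?_, cd_condExp (P := P) (Env_le' L) (meas_xX L x) (f := fun u : ℝ => u ^ 2)
    (by fun_prop : Measurable fun u : ℝ => u ^ 2).stronglyMeasurable hmem.integrable_sq⟩
  filter_upwards [h1] with h h2
  exact (memLp_two_iff_integrable_sq aestronglyMeasurable_id).2 h2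

lemma sq_xX (x : Fin k → ℝ) : ∫ h, (∑ l, x l * X h l) ^ 2 ∂P = ∑ l, x l ^ 2 := by
  have hi : ∀ l m, Integrable (fun h => x l * x m * (X h l * X h m)) P := fun l m =>
    ((L.X_L2 l).integrable_mul (L.X_L2 m)).const_mul _
  have e1 : (fun h => (∑ l, x l * X h l) ^ 2) = fun h => ∑ l, ∑ m, x l * x m * (X h l * X h m) := by
    funext h
    rw [sq, Finset.sum_mul_sum]
    exact Finset.sum_congr rfl fun l _ => Finset.sum_congr rfl fun m _ => by ring
  rw [e1, integral_finsetSum _ fun l _ => integrable_finsetSum _ fun m _ => hi l m]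
  refine Finset.sum_congr rfl fun l _ => ?_
  rw [integral_finsetSum _ fun m _ => hi l m]
  simp_rw [integral_const_mul, L.X_cov]
  simp [sq]

/-- one-sided regression at port `i` -/
def SO (μ : Measure (St d → Fin k → ℝ)) (i : Fin d) (b c : ℝ) (S : Fin k → Fin k → ℂ) : Prop :=
  ∃ ℓ : (Fin k → ℝ) →ₗ[ℝ] ℂ, ∀ x y, phc μ i x y = phc μ i (x + b • y) 0 *
    Complex.exp (ℓ y + (c : ℂ) * qf S y / 2)

/-- residual variance coefficient at port `0` -/
noncomputable def k0 (pp rr : Ω → Ω) (d : ℕ) (cav : Ω → ℂ) (h : Ω) : ℝ :=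
  (cav (pp h)).im - (cav (pp h)).im ^ 2 / AA pp rr d cav h

lemma so_ae [IsFiniteMeasure P] (hI : InnovProp Env d k s E t P pp rr om cav X Z) :
    ∀ᵐ h ∂P, ∃ S : Fin k → Fin k → ℂ, ∀ i : Fin d,
      SO (kap Env P pp rr d t X Z h) i (bet pp rr d s E om cav i h)
        ((cav (mv pp rr i h)).im - (cav (mv pp rr i h)).im ^ 2 / AA pp rr d cav h) S := by
  filter_upwards [kapStar L hI, ae_pt L] with h h1 hp
  have hd := d_pos L
  have hβ : ∑ i : Fin d, bet pp rr d s E om cav i h = E - s * om h := by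
    rw [← hp.sum_bet hd, Finset.sum_range fun i => bet pp rr d s E om cav i h]
  have ha : ∀ i : Fin d, 0 < (cav (mv pp rr i h)).im := fun i => hp.mv_im i
  have h3 : 3 ≤ Fintype.card (Fin d) := by rw [Fintype.card_fin]; exact L.hd
  obtain ⟨S, hS⟩ := h1.out hβ ha h3
  refine ⟨S, fun i => ?_⟩
  obtain ⟨ℓ, hl⟩ := hS i
  refine ⟨ℓ, fun x y => ?_⟩
  rw [hl x y, AA, Finset.sum_range fun i => (cav (mv pp rr i h)).im]

omit L in
omit mΩ in
lemma phc_map (μ : Measure (St d → Fin k → ℝ)) (σ : Fin d → Fin d) (i : Fin d)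
    (x y : Fin k → ℝ) :
    phc (μ.map (fun (y : St d → Fin k → ℝ) => fun c => y (c.map σ))) i x y =
      phc μ (σ i) x y := by
  unfold phc
  have h1 : ∀ (c : St d) (l : Fin k), Measurable fun z : St d → Fin k → ℝ => z c l :=
    fun c l => (measurable_pi_apply l).comp (measurable_pi_apply c)
  rw [integral_map]
  · rfl
  · exact (by fun_prop : Measurable _).aemeasurable
  · exact (by fun_prop : Measurable _).aestronglyMeasurable

lemma so_rot [IsFiniteMeasure P] (hI : InnovProp Env d k s E t P pp rr om cav X Z) :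
    ∀ᵐ h ∂P, ∃ S : Fin k → Fin k → ℂ,
      SO (kap Env P pp rr d t X Z h) ⟨0, d_pos L⟩ (bet pp rr d s E om cav 0 h)
        (k0 pp rr d cav h) S ∧
      SO (kap Env P pp rr d t X Z (rr h)) ⟨0, d_pos L⟩ (bet pp rr d s E om cav 0 (rr h))
        (k0 pp rr d cav (rr h)) S := by
  have hd := d_pos L
  have hd3 := L.hd
  obtain ⟨σ, hσ1, -⟩ := exists_rot hd
  filter_upwards [so_ae L hI, kapRot L σ hσ1] with h h1 h2
  obtain ⟨S, hS⟩ := h1
  refine ⟨S, hS ⟨0, hd⟩, ?_⟩
  have hσ0 : σ ⟨0, hd⟩ = ⟨1, by omega⟩ := by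
    apply Fin.ext
    rw [hσ1]
    exact Nat.mod_eq_of_lt (show 0 + 1 < d by omega)
  obtain ⟨ℓ, hl⟩ := hS ⟨1, by omega⟩
  refine ⟨ℓ, fun x y => ?_⟩
  rw [h2, phc_map, phc_map, hσ0, hl x y]
  have e1 : bet pp rr d s E om cav 0 (rr h) = bet pp rr d s E om cav 1 h := by
    have := StarAlg341.bet_turns (pp := pp) (s := s) (E := E) (cav := cav) L.rr_d L.om_rr 0 1 h
    simpa using this
  have e2 : k0 pp rr d cav (rr h) = (cav (mv pp rr 1 h)).im -
      (cav (mv pp rr 1 h)).im ^ 2 / AA pp rr d cav h := by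
    have := StarAlg341.AA_turns (pp := pp) (cav := cav) L.rr_d 1 h
    simp only [Function.iterate_one] at this
    rw [k0, this]
    rfl
  rw [e1, e2]

omit L in
omit mΩ in
lemma phc_pair (μ : Measure (St d → Fin k → ℝ)) (i : Fin d) (x y : Fin k → ℝ) :
    phc μ i x y = ∫ p : (Fin k → ℝ) × (Fin k → ℝ), Complex.exp (Complex.I *
      ((∑ l, (x l * p.1 l + y l * p.2 l) : ℝ) : ℂ)) ∂(μ.map fun z => (z none, z (some i))) := by
  unfold phc
  rw [integral_map]
  · exact (by fun_prop : Measurable _).aemeasurable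
  · have h1 : ∀ l : Fin k, Measurable fun p : (Fin k → ℝ) × (Fin k → ℝ) => p.1 l :=
      fun l => (measurable_pi_apply l).comp measurable_fst
    have h2 : ∀ l : Fin k, Measurable fun p : (Fin k → ℝ) × (Fin k → ℝ) => p.2 l :=
      fun l => (measurable_pi_apply l).comp measurable_snd
    exact (by fun_prop : Measurable _).aestronglyMeasurable

omit L in
omit mΩ in
lemma phc_pair' (μ : Measure (St d → Fin k → ℝ)) (i : Fin d) (x y : Fin k → ℝ) :
    phc μ i y x = ∫ p : (Fin k → ℝ) × (Fin k → ℝ), Complex.exp (Complex.I *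
      ((∑ l, (x l * p.1 l + y l * p.2 l) : ℝ) : ℂ)) ∂(μ.map fun z => (z (some i), z none)) := by
  unfold phc
  rw [integral_map]
  · congr 1
    funext z
    congr 3
    exact Finset.sum_congr rfl fun l _ => by ring
  · exact (by fun_prop : Measurable _).aemeasurable
  · have h1 : ∀ l : Fin k, Measurable fun p : (Fin k → ℝ) × (Fin k → ℝ) => p.1 l :=
      fun l => (measurable_pi_apply l).comp measurable_fst
    have h2 : ∀ l : Fin k, Measurable fun p : (Fin k → ℝ) × (Fin k → ℝ) => p.2 l :=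
      fun l => (measurable_pi_apply l).comp measurable_snd
    exact (by fun_prop : Measurable _).aestronglyMeasurable

lemma edge_ae [IsFiniteMeasure P] : ∀ᵐ h ∂P, ∀ x y,
    phc (kap Env P pp rr d t X Z (pp h)) ⟨0, d_pos L⟩ y x =
      phc (kap Env P pp rr d t X Z h) ⟨0, d_pos L⟩ x y := by
  filter_upwards [kapEdge L ⟨0, d_pos L⟩ rfl] with h h1 x y
  rw [phc_pair', phc_pair, h1]

lemma edgeHyp [IsFiniteMeasure P] {h : Ω} (hp : Pt pp rr d s E om cav h)
    {S S' : Fin k → Fin k → ℂ}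
    (hs : SO (kap Env P pp rr d t X Z h) ⟨0, d_pos L⟩ (bet pp rr d s E om cav 0 h)
        (k0 pp rr d cav h) S)
    (hs' : SO (kap Env P pp rr d t X Z (pp h)) ⟨0, d_pos L⟩ (bet pp rr d s E om cav 0 (pp h))
        (k0 pp rr d cav (pp h)) S')
    (hm : ∀ c l, MemLp (fun z : St d → Fin k → ℝ => z c l) 2 (kap Env P pp rr d t X Z h))
    (he : ∀ x y, phc (kap Env P pp rr d t X Z (pp h)) ⟨0, d_pos L⟩ y x =
      phc (kap Env P pp rr d t X Z h) ⟨0, d_pos L⟩ x y) :
    ∃ ℓ ℓ' : (Fin k → ℝ) →ₗ[ℝ] ℂ, EdgeHyp (kap Env P pp rr d t X Z h) (fun z => z none)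
      (fun z => z (some ⟨0, d_pos L⟩)) (bet pp rr d s E om cav 0 h)
      (bet pp rr d s E om cav 0 (pp h)) (Bk pp cav h 0 0).im (Bk pp cav h 1 1).im S S' ℓ ℓ' := by
  have hd := d_pos L
  obtain ⟨ℓ, hl⟩ := hs
  obtain ⟨ℓ', hl'⟩ := hs'
  have e1 : k0 pp rr d cav h = (1 - bet pp rr d s E om cav 0 h *
      bet pp rr d s E om cav 0 (pp h)) * (Bk pp cav h 1 1).im := by
    have hA := hp.AA_pos hd
    rw [hp.resid L.pp_pp hd, k0]
    field_simp
  have e2 : k0 pp rr d cav (pp h) = (1 - bet pp rr d s E om cav 0 h *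
      bet pp rr d s E om cav 0 (pp h)) * (Bk pp cav h 0 0).im := by
    have hA := hp.flip.AA_pos hd
    have h1 := hp.flip.resid L.pp_pp hd
    rw [StarAlg341.Bk_flip L.pp_pp, L.pp_pp] at h1
    simp only [sub_self] at h1
    rw [k0, L.pp_pp, mul_comm (bet pp rr d s E om cav 0 h), h1]
    field_simp
  refine ⟨ℓ, ℓ', ⟨fun l => hm none l, fun l => hm _ l, hp.Bk00_im_pos hd,
    hp.Bk11_im_pos L.pp_pp hd, ?_, hp.bet_mul_lt_one L.pp_pp hd, ?_, ?_⟩⟩
  · rw [hp.bet_Bk hd, hp.bet_Bk' L.pp_pp hd]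
  · intro x y
    have := hl x y
    rw [e1] at this
    exact this
  · intro x y
    have := hl' y x
    rw [e2, he, he] at this
    exact this

lemma memLp_ae [IsFiniteMeasure P] (hI : InnovProp Env d k s E t P pp rr om cav X Z) :
    ∀ᵐ h ∂P, ∀ c l, MemLp (fun z : St d → Fin k → ℝ => z c l) 2
      (kap Env P pp rr d t X Z h) := by
  filter_upwards [kapStar L hI] with h h1 c l
  exact h1.memLp c l

/-- variance of `x · Y_v` under the conditional law, `v` = base vertex -/
noncomputable def vv (Env : MeasurableSpace Ω) [mΩ : MeasurableSpace Ω] (P : Measure Ω)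
    [IsFiniteMeasure P] (pp rr : Ω → Ω) (d : ℕ) {k : ℕ} (t : ℝ) (X Z : Ω → Fin k → ℝ)
    (x : Fin k → ℝ) (h : Ω) : ℝ :=
  vr1 (kap Env P pp rr d t X Z h) (fun z => z none) x

lemma inv_even [IsFiniteMeasure P] (hI : InnovProp Env d k s E t P pp rr om cav X Z)
    (x : Fin k → ℝ) : ∀ᵐ h ∂P,
    vv Env P pp rr d t X Z x (pp (rr (pp h))) / (Gd pp rr d s E om cav (pp (rr (pp h)))).im =
      vv Env P pp rr d t X Z x h / (Gd pp rr d s E om cav h).im := by
  have hd := d_pos L
  have hprob : ∀ h, IsProbabilityMeasure (kap Env P pp rr d t X Z h) := fun h => by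
    unfold kap; infer_instance
  -- edge statement at `h`
  have hedge : ∀ᵐ h ∂P, ∀ S' : Fin k → Fin k → ℂ,
      SO (kap Env P pp rr d t X Z (pp h)) ⟨0, d_pos L⟩ (bet pp rr d s E om cav 0 (pp h))
        (k0 pp rr d cav (pp h)) S' →
      ((vv Env P pp rr d t X Z x h / (Gd pp rr d s E om cav h).im : ℝ) : ℂ) = -qf S' x := by
    filter_upwards [so_rot L hI, memLp_ae L hI, edge_ae L, ae_pt L] with h h1 h2 h3 h4 S' h5
    obtain ⟨S, hS, -⟩ := h1
    obtain ⟨ℓ, ℓ', H⟩ := edgeHyp L h4 hS h5 h2 h3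
    have := hprob h
    have h6 := H.out.1 x
    have h7 := h4.Gd_im_pos hd
    rw [h4.Bk00 hd] at h6
    rw [vv, Complex.ofReal_div, h6]
    have : ((Gd pp rr d s E om cav h).im : ℂ) ≠ 0 := by exact_mod_cast h7.ne'
    field_simp
  have mp1 : MeasurePreserving (fun h => pp (rr (pp h))) P P :=
    L.pp_mp.comp (L.rr_mp.comp L.pp_mp)
  filter_upwards [L.pp_mp.quasiMeasurePreserving.ae (so_rot L hI), hedge,
    mp1.quasiMeasurePreserving.ae hedge] with h h1 h2 h3
  obtain ⟨S, hS1, hS2⟩ := h1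
  have a1 := h2 S hS1
  have a2 := h3 S (by rw [L.pp_pp]; exact hS2)
  rw [← a1] at a2
  exact_mod_cast a2

lemma inv_rr [IsFiniteMeasure P] (x : Fin k → ℝ) : ∀ᵐ h ∂P,
    vv Env P pp rr d t X Z x (rr h) / (Gd pp rr d s E om cav (rr h)).im =
      vv Env P pp rr d t X Z x h / (Gd pp rr d s E om cav h).im := by
  obtain ⟨σ, hσ1, -⟩ := exists_rot (d_pos L)
  filter_upwards [kapRot L σ hσ1] with h h1
  rw [StarAlg341.Gd_turn L.rr_d L.om_rr]
  congr 1
  unfold vv vr1
  have h2 : ∀ (c : St d) (l : Fin k), Measurable fun z : St d → Fin k → ℝ => z c l :=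
    fun c l => (measurable_pi_apply l).comp (measurable_pi_apply c)
  have h3 : Measurable (fun (y : St d → Fin k → ℝ) => fun c : St d => y (c.map σ)) := by fun_prop
  rw [h1, integral_map h3.aemeasurable (by fun_prop : Measurable _).aestronglyMeasurable,
    integral_map h3.aemeasurable (by fun_prop : Measurable _).aestronglyMeasurable]
  rfl

lemma meas_Gd' : Measurable[Env] (Gd pp rr d s E om cav) :=
  @measurable_Gd Ω Env pp rr d om cav L.pp_Env L.rr_Env L.om_meas L.cav_meas s E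

omit L in
omit mΩ in
lemma meas_int_kernel {B A : Type*} [MeasurableSpace B] [MeasurableSpace A] (κ : Kernel B A)
    [IsMarkovKernel κ] {f : A → ℝ} (hf : Measurable f) : Measurable fun b => ∫ z, f z ∂(κ b) :=
  (StronglyMeasurable.integral_kernel hf.stronglyMeasurable).measurable

omit L in
lemma meas_vv [IsFiniteMeasure P] (x : Fin k → ℝ) : Measurable[Env] (vv Env P pp rr d t X Z x) := by
  unfold vv vr1 kap
  have h2 : ∀ (c : St d) (l : Fin k), Measurable fun z : St d → Fin k → ℝ => z c l :=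
    fun c l => (measurable_pi_apply l).comp (measurable_pi_apply c)
  have m1 : Measurable (fun z : St d → Fin k → ℝ => ∑ l, x l * z none l) := by fun_prop
  have m2 : Measurable (fun z : St d → Fin k → ℝ => (∑ l, x l * z none l) ^ 2) := by fun_prop
  have a1 := @meas_int_kernel Ω (St d → Fin k → ℝ) Env _
    (@condDistrib Ω Ω (St d → Fin k → ℝ) _ _ _ mΩ Env (SY pp rr d t X Z) id P _) inferInstance
    _ m1
  have a2 := @meas_int_kernel Ω (St d → Fin k → ℝ) Env _
    (@condDistrib Ω Ω (St d → Fin k → ℝ) _ _ _ mΩ Env (SY pp rr d t X Z) id P _) inferInstance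
    _ m2
  exact a2.sub (a1.pow_const 2)

/-- constancy of the normalised conditional variance -/
lemma vv_const [IsFiniteMeasure P] (hI : InnovProp Env d k s E t P pp rr om cav X Z)
    (x : Fin k → ℝ) : ∃ c : ℝ, ∀ᵐ h ∂P,
      vv Env P pp rr d t X Z x h = c * (Gd pp rr d s E om cav h).im := by
  have hm : Measurable[Env] fun h => vv Env P pp rr d t X Z x h /
      (Gd pp rr d s E om cav h).im :=
    (meas_vv x).div (Complex.measurable_im.comp (meas_Gd' L))
  obtain ⟨c, hc⟩ := L.erg _ hm (inv_rr L x) (inv_even L hI x)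
  refine ⟨c, ?_⟩
  filter_upwards [hc, ae_pt L] with h h1 h2
  rw [div_eq_iff (h2.Gd_im_pos (d_pos L)).ne'] at h1
  exact h1

/-- the conditional mean vanishes, and the conditional variance of `x · Y` is that of `x · X`
plus the noise -/
lemma vv_eq [IsFiniteMeasure P] (hI : InnovProp Env d k s E t P pp rr om cav X Z)
    (x : Fin k → ℝ) : ∀ᵐ h ∂P,
      mn1 (kap Env P pp rr d t X Z h) (fun z => z none) x = 0 ∧
      vv Env P pp rr d t X Z x h = ∫ u, u ^ 2 ∂(KU Env P X x h) + t * Qe pp cav ρ x 0 h := by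
  have hd := d_pos L
  filter_upwards [cf_rel L x, KU_mean L x, (KU_L2 L x).1, so_rot L hI,
    L.pp_mp.quasiMeasurePreserving.ae (so_rot L hI), memLp_ae L hI, edge_ae L, ae_pt L]
    with h h1 h2 h3 h4 h5 h6 h7 h8
  have hprob : IsProbabilityMeasure (kap Env P pp rr d t X Z h) := by
    unfold kap; infer_instance
  have hprob2 : IsProbabilityMeasure (KU Env P X x h) := by unfold KU; infer_instance
  obtain ⟨S, hS, -⟩ := h4
  obtain ⟨S', hS', -⟩ := h5
  obtain ⟨ℓ, ℓ', H⟩ := edgeHyp L h8 hS hS' h6 h7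
  have h9 := (H.left x).2
  have h10 : ∀ r : ℝ, ∫ u, Complex.exp (Complex.I * ((r * u : ℝ) : ℂ)) ∂(KU Env P X x h) =
      Complex.exp (r * (Complex.I * (mn1 (kap Env P pp rr d t X Z h) (fun z => z none) x : ℂ)) +
      r ^ 2 * (-(vr1 (kap Env P pp rr d t X Z h) (fun z => z none) x : ℂ) +
        (t * Qe pp cav ρ x 0 h : ℝ)) / 2) := by
    intro r
    have e1 := h1 r
    have e2 := h9 r
    have e3 : phc (kap Env P pp rr d t X Z h) ⟨0, hd⟩ (r • x) 0 =
      ph (kap Env P pp rr d t X Z h) (fun z => z none) (fun z => z (some ⟨0, hd⟩)) (r • x) 0 := rfl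
    rw [e3, e2] at e1
    have hne : ((Real.exp (-(1 / 2) * (t * (r ^ 2 * Qe pp cav ρ x 0 h))) : ℝ) : ℂ) ≠ 0 := by
      exact_mod_cast (Real.exp_pos _).ne'
    refine mul_left_cancel₀ hne ?_
    rw [← e1, Complex.ofReal_exp, ← Complex.exp_add]
    congr 1
    push_cast
    ring
  obtain ⟨m1, m2⟩ := moments_of_exp (fun u : ℝ => u) h3 _ _ h10
  rw [h2] at m1 m2
  constructor
  · simpa using m1
  · have : (((vr1 (kap Env P pp rr d t X Z h) (fun z => z none) x : ℝ)) : ℂ) =
        ((∫ u, u ^ 2 ∂(KU Env P X x h) + t * Qe pp cav ρ x 0 h : ℝ) : ℂ) := by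
      push_cast at m2 ⊢
      linear_combination -m2
    exact_mod_cast this

/-- value of the constant -/
theorem vv_val [IsFiniteMeasure P] (hI : InnovProp Env d k s E t P pp rr om cav X Z)
    (x : Fin k → ℝ) : ∀ᵐ h ∂P,
      vv Env P pp rr d t X Z x h =
        (1 + t) * (∑ l, x l ^ 2) / (Real.pi * ρ) * (Gd pp rr d s E om cav h).im := by
  have hd := d_pos L
  have hP : IsProbabilityMeasure P := L.prob
  obtain ⟨c, hc⟩ := vv_const L hI x
  have hQ : ∀ᵐ h ∂P, Qe pp cav ρ x 0 h = (∑ l, x l ^ 2) / (Real.pi * ρ) *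
      (Gd pp rr d s E om cav h).im := by
    filter_upwards [ae_pt L] with h hp
    rw [Qe, Finset.sum_div, Finset.sum_mul]
    refine Finset.sum_congr rfl fun l _ => ?_
    rw [hp.Bk00 hd]
    simp only [Pi.zero_apply]
    ring
  have hρ : (Real.pi * ρ) ≠ 0 := (mul_pos Real.pi_pos L.hρ).ne'
  have h1 : ∀ᵐ h ∂P, (P[fun h => (∑ l, x l * X h l) ^ 2 | Env]) h =
      (c - t * (∑ l, x l ^ 2) / (Real.pi * ρ)) * (Gd pp rr d s E om cav h).im := by
    filter_upwards [hc, hQ, vv_eq L hI x, (KU_L2 L x).2] with h a1 a2 a3 a4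
    rw [a4]
    have := a3.2
    rw [a1, a2] at this
    linear_combination -this
  have h2 : ∫ h, (∑ l, x l * X h l) ^ 2 ∂P =
      (c - t * (∑ l, x l ^ 2) / (Real.pi * ρ)) * (Real.pi * ρ) := by
    rw [← integral_condExp (Env_le' L), integral_congr_ae h1, integral_const_mul, L.G_rho]
  rw [sq_xX L x, sub_mul, div_mul_cancel₀ _ hρ] at h2
  have h3 : c = (1 + t) * (∑ l, x l ^ 2) / (Real.pi * ρ) := by
    rw [eq_div_iff hρ]
    linear_combination -h2
  filter_upwards [hc] with h a1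
  rw [a1, h3]

lemma mn_right [IsFiniteMeasure P] : ∀ᵐ h ∂P, ∀ x : Fin k → ℝ,
    mn1 (kap Env P pp rr d t X Z h) (fun z => z (some ⟨0, d_pos L⟩)) x =
      mn1 (kap Env P pp rr d t X Z (pp h)) (fun z => z none) x ∧
    vr1 (kap Env P pp rr d t X Z h) (fun z => z (some ⟨0, d_pos L⟩)) x =
      vr1 (kap Env P pp rr d t X Z (pp h)) (fun z => z none) x := by
  filter_upwards [kapEdge L ⟨0, d_pos L⟩ rfl] with h h1 x
  have m0 : ∀ (c : St d) (l : Fin k), Measurable fun z : St d → Fin k → ℝ => z c l :=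
    fun c l => (measurable_pi_apply l).comp (measurable_pi_apply c)
  have m1 : ∀ l : Fin k, Measurable fun p : (Fin k → ℝ) × (Fin k → ℝ) => p.2 l :=
    fun l => (measurable_pi_apply l).comp measurable_snd
  have hm1 : Measurable fun y : St d → Fin k → ℝ => (y (some (⟨0, d_pos L⟩ : Fin d)), y none) := by
    fun_prop
  have hm2 : Measurable fun y : St d → Fin k → ℝ => (y none, y (some (⟨0, d_pos L⟩ : Fin d))) := by
    fun_prop
  have key : ∀ f : ℝ → ℝ, Measurable f →
      ∫ y, f (∑ l, x l * y (some ⟨0, d_pos L⟩) l) ∂(kap Env P pp rr d t X Z h) =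
      ∫ y, f (∑ l, x l * y none l) ∂(kap Env P pp rr d t X Z (pp h)) := by
    intro f hf
    have hF : Measurable fun p : (Fin k → ℝ) × (Fin k → ℝ) => f (∑ l, x l * p.2 l) := by fun_prop
    have e1 := integral_map (μ := kap Env P pp rr d t X Z (pp h)) hm1.aemeasurable
      hF.aestronglyMeasurable
    have e2 := integral_map (μ := kap Env P pp rr d t X Z h) hm2.aemeasurable
      hF.aestronglyMeasurable
    rw [h1] at e1
    exact e2.symm.trans e1
  constructor
  · exact key id measurable_id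
  · have a1 := key (fun u => u ^ 2) (by fun_prop)
    have a2 := key id measurable_id
    simp only [id] at a1 a2
    unfold vr1
    rw [a1, a2]

omit L in
omit mΩ in
lemma vr1_add_smul {Ω' : Type*} [MeasurableSpace Ω'] {μ : Measure Ω'} [IsProbabilityMeasure μ]
    {V : Ω' → Fin k → ℝ} (hV : ∀ l, MemLp (fun y => V y l) 2 μ) (b : ℝ) (x y : Fin k → ℝ) :
    vr1 μ V (x + b • y) = vr1 μ V x + b * (vr1 μ V (x + y) - vr1 μ V x - vr1 μ V y) +
      b ^ 2 * vr1 μ V y := by
  have h1 := memLp_lin hV x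
  have h2 := memLp_lin hV y
  have key : ∀ c : ℝ, vr1 μ V (x + c • y) = (∫ z, (∑ l, x l * V z l) ^ 2 ∂μ +
      2 * c * ∫ z, (∑ l, x l * V z l) * (∑ l, y l * V z l) ∂μ +
      c ^ 2 * ∫ z, (∑ l, y l * V z l) ^ 2 ∂μ) -
      (∫ z, ∑ l, x l * V z l ∂μ + c * ∫ z, ∑ l, y l * V z l ∂μ) ^ 2 := by
    intro c
    have e1 : ∀ z, ∑ l, (x + c • y) l * V z l = ∑ l, x l * V z l + c * ∑ l, y l * V z l := by
      intro z
      rw [Finset.mul_sum, ← Finset.sum_add_distrib]
      exact Finset.sum_congr rfl fun l _ => by simp [add_mul, mul_assoc]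
    unfold vr1
    simp only [e1]
    have e2 : ∀ z, (∑ l, x l * V z l + c * ∑ l, y l * V z l) ^ 2 =
        (∑ l, x l * V z l) ^ 2 + 2 * c * ((∑ l, x l * V z l) * (∑ l, y l * V z l)) +
        c ^ 2 * (∑ l, y l * V z l) ^ 2 := fun z => by ring
    simp only [e2]
    have i1 : Integrable (fun z => (∑ l, x l * V z l) ^ 2) μ := h1.integrable_sq
    have i2 : Integrable (fun z => 2 * c * ((∑ l, x l * V z l) * (∑ l, y l * V z l))) μ :=
      (h1.integrable_mul h2).const_mul _
    have i3 : Integrable (fun z => c ^ 2 * (∑ l, y l * V z l) ^ 2) μ :=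
      h2.integrable_sq.const_mul _
    have i12 : Integrable (fun z => (∑ l, x l * V z l) ^ 2 +
      2 * c * ((∑ l, x l * V z l) * (∑ l, y l * V z l))) μ := i1.add i2
    rw [integral_add i12 i3, integral_add i1 i2, integral_const_mul, integral_const_mul,
      integral_add (h1.integrable one_le_two) ((h2.integrable one_le_two).const_mul _),
      integral_const_mul]
  have k1 := key 1
  have k2 : vr1 μ V y = ∫ z, (∑ l, y l * V z l) ^ 2 ∂μ - (∫ z, ∑ l, y l * V z l ∂μ) ^ 2 := rfl
  have k3 : vr1 μ V x = ∫ z, (∑ l, x l * V z l) ^ 2 ∂μ - (∫ z, ∑ l, x l * V z l ∂μ) ^ 2 := rfl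
  rw [one_smul] at k1
  rw [key b, k1, k2, k3]
  ring

/-- conditional law of the pair `(Y_v, Y_u)` -/
theorem kap_gauss [IsFiniteMeasure P] (hI : InnovProp Env d k s E t P pp rr om cav X Z)
    (x y : Fin k → ℝ) : ∀ᵐ h ∂P,
      phc (kap Env P pp rr d t X Z h) ⟨0, d_pos L⟩ x y =
        ((Real.exp (-(1 / 2) * ((1 + t) * Qe pp cav ρ x y h)) : ℝ) : ℂ) := by
  have hd := d_pos L
  filter_upwards [vv_val L hI x, vv_val L hI y, vv_val L hI (x + y),
    L.pp_mp.quasiMeasurePreserving.ae (vv_val L hI y), vv_eq L hI x,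
    L.pp_mp.quasiMeasurePreserving.ae (vv_eq L hI y), mn_right L, so_rot L hI,
    L.pp_mp.quasiMeasurePreserving.ae (so_rot L hI), memLp_ae L hI, edge_ae L, ae_pt L]
    with h v1 v2 v3 v4 w1 w2 h3 h4 h5 h6 h7 h8
  have hprob : IsProbabilityMeasure (kap Env P pp rr d t X Z h) := by
    unfold kap; infer_instance
  obtain ⟨S, hS, -⟩ := h4
  obtain ⟨S', hS', -⟩ := h5
  obtain ⟨ℓ, ℓ', H⟩ := edgeHyp L h8 hS hS' h6 h7
  have h9 := H.out.2.2 x y
  rw [(h3 y).1, (h3 y).2, w2.1, w1.1] at h9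
  have hV : ∀ l, MemLp (fun z : St d → Fin k → ℝ => z none l) 2
    (kap Env P pp rr d t X Z h) := fun l => h6 none l
  have h10 := vr1_add_smul hV (bet pp rr d s E om cav 0 h) x y
  have hB := h8.bet_Bk hd
  have hB' := h8.bet_Bk' L.pp_pp hd
  rw [h8.Bk00 hd] at hB
  rw [h8.Bk11 L.pp_pp hd] at hB'
  unfold vv at v1 v2 v3 v4
  rw [v1, v2, v3] at h10
  rw [h10, v4] at h9
  have hρ : (Real.pi * ρ) ≠ 0 := (mul_pos Real.pi_pos L.hρ).ne'
  have hQ : Qe pp cav ρ x y h = ((∑ l, x l ^ 2) * (Gd pp rr d s E om cav h).im +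
      (∑ l, (x + y) l ^ 2 - ∑ l, x l ^ 2 - ∑ l, y l ^ 2) * (Bk pp cav h 0 1).im +
      (∑ l, y l ^ 2) * (Gd pp rr d s E om cav (pp h)).im) / (Real.pi * ρ) := by
    have e1 : ∑ l, (x + y) l ^ 2 - ∑ l, x l ^ 2 - ∑ l, y l ^ 2 = ∑ l, 2 * (x l * y l) := by
      rw [← Finset.sum_sub_distrib, ← Finset.sum_sub_distrib]
      exact Finset.sum_congr rfl fun l _ => by simp only [Pi.add_apply]; ring
    rw [e1, Qe, h8.Bk00 hd, h8.Bk11 L.pp_pp hd, Finset.sum_mul, Finset.sum_mul, Finset.sum_mul,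
      ← Finset.sum_add_distrib, ← Finset.sum_add_distrib, Finset.sum_div]
  have e3 : phc (kap Env P pp rr d t X Z h) ⟨0, hd⟩ x y =
      ph (kap Env P pp rr d t X Z h) (fun z => z none) (fun z => z (some ⟨0, hd⟩)) x y := rfl
  rw [e3, h9, Complex.ofReal_exp, hQ]
  congr 1
  rw [← Complex.ofReal_one]
  simp only [Complex.ofReal_zero, add_zero, mul_zero, zero_sub]
  norm_cast
  generalize bet pp rr d s E om cav 0 h = b at *
  generalize bet pp rr d s E om cav 0 (pp h) = b' at *
  generalize (Gd pp rr d s E om cav h).im = G at *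
  generalize (Gd pp rr d s E om cav (pp h)).im = G' at *
  rw [← hB] at hB' ⊢
  field_simp
  have hρ' : ρ ≠ 0 := L.hρ.ne'
  rw [div_eq_iff hρ', neg_mul, div_mul_cancel₀ _ hρ']
  linear_combination ((1 + t) * b * ∑ l, y l ^ 2) * hB'

theorem edgeGauss (hI : InnovProp Env d k s E t P pp rr om cav X Z) :
    EdgeGauss Env k ρ P pp cav X := by
  have hP : IsProbabilityMeasure P := L.prob
  have hd := d_pos L
  intro τ
  have h1 := tower L (fun l => τ l 0) (fun l => τ l 1)
  have h2 := kap_phc L (fun l => τ l 0) (fun l => τ l 1)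
  have h3 := kap_gauss L hI (fun l => τ l 0) (fun l => τ l 1)
  have e : (fun h => Complex.exp (Complex.I *
        ((∑ l, (τ l 0 * X h l + τ l 1 * X (pp h) l) : ℝ) : ℂ))) =
      eX pp X (fun l => τ l 0) (fun l => τ l 1) := rfl
  rw [e]
  filter_upwards [h1, h2, h3] with h a1 a2 a3
  rw [a1, a3] at a2
  have hne : ((Real.exp (-(1 / 2) * (t * Qe pp cav ρ (fun l => τ l 0) (fun l => τ l 1) h)) : ℝ) : ℂ)
      ≠ 0 := by exact_mod_cast (Real.exp_pos _).ne'
  refine mul_left_cancel₀ hne ?_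
  rw [a2, ← Complex.ofReal_mul, ← Real.exp_add]
  congr 2
  have hQ : ∑ l, ∑ a, ∑ b, τ l a * ((Bk pp cav h a b).im / (Real.pi * ρ)) * τ l b =
      Qe pp cav ρ (fun l => τ l 0) (fun l => τ l 1) h := by
    unfold Qe
    refine Finset.sum_congr rfl fun l _ => ?_
    rw [Fin.sum_univ_two, Fin.sum_univ_two, Fin.sum_univ_two, StarAlg341.Bk10]
    ring
  rw [hQ]
  ring

end

/-- **42.5-42.6** -/
theorem stmt_42_6 : Stmt_42_6 := by
  intro Ω Env FX mΩ d k s E t ρ P pp rr om cav X Z L hI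
  exact edgeGauss L hI

end Crest.Agent.R166.Fin42
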