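import Mathlib

/-!
Row 166, part B1 (helper955): the tree `T_d` as reduced port words, configurations on it,
edge flip `cross`, port rotation `rotn`, walks in a port-numbered graph, empirical laws.

A vertex of the `d`-regular tree seen from a half-edge `h` is a word `i₁ :: i₂ :: ... :: i_r`
(first letter = FIRST step): from `h` rotate by `i₁`, cross the edge, rotate by `i₂`, cross, ...
All letters but the first are nonzero (no backtracking).
-/

set_option autoImplicit false

namespace Crest.Agent.R166.Words955

open MeasureTheory

/-! ### Words -/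

section words
variable {d : ℕ} [NeZero d]

/-- vertices of the `d`-regular tree seen from a half-edge -/
structure TW (d : ℕ) [NeZero d] : Type where
  /-- the underlying word -/
  val : List (Fin d)
  /-- no backtracking -/
  prop : ∀ a ∈ val.tail, a ≠ 0
deriving DecidableEq

theorem TW.val_injective : Function.Injective (TW.val : TW d → List (Fin d)) := by
  rintro ⟨w, hw⟩ ⟨w', hw'⟩ h
  simp only at h
  subst h; rfl

instance : Countable (TW d) := TW.val_injective.countable

namespace TW

/-- the root -/
def nil : TW d := ⟨[], by simp⟩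

instance : Inhabited (TW d) := ⟨nil⟩

/-- the length = distance to the root -/
def len (w : TW d) : ℕ := w.1.length

@[ext] theorem ext {w w' : TW d} (h : w.1 = w'.1) : w = w' := val_injective h

/-- the word `i` -/
def single (i : Fin d) : TW d := ⟨[i], by simp⟩

/-- `0 :: w` for a word not starting with `0` -/
def crL : List (Fin d) → List (Fin d)
  | [] => [0]
  | a :: w => if a = 0 then w else 0 :: a :: w

/-- the bijection of the vertices induced by flipping the root half-edge -/
def cr (w : TW d) : TW d := ⟨crL w.1, by
  obtain ⟨w, hw⟩ := w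
  cases w with
  | nil => simp [crL]
  | cons a w =>
    simp only [List.tail_cons] at hw
    by_cases ha : a = 0
    · simp only [crL, ha, if_true]
      intro b hb
      exact hw b (List.mem_of_mem_tail hb)
    · simp only [crL, ha, if_false, List.tail_cons]
      intro b hb
      rcases List.mem_cons.1 hb with h | h
      · rw [h]; exact ha
      · exact hw b h⟩

theorem cr_cr (w : TW d) : cr (cr w) = w := by
  obtain ⟨w, hw⟩ := w
  apply ext
  cases w with
  | nil => simp [cr, crL]
  | cons a w =>
    simp only [List.tail_cons] at hw
    by_cases ha : a = 0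
    · subst ha
      cases w with
      | nil => simp [cr, crL]
      | cons b w =>
        have hb : b ≠ 0 := hw b (by simp)
        simp [cr, crL, hb]
    · simp [cr, crL, ha]

theorem cr_involutive : Function.Involutive (cr : TW d → TW d) := cr_cr

/-- rotation of the root port by `i` -/
def rtL (i : Fin d) : List (Fin d) → List (Fin d)
  | [] => []
  | a :: w => (a + i) :: w

/-- the bijection of the vertices induced by rotating the root port by `i` -/
def rt (i : Fin d) (w : TW d) : TW d := ⟨rtL i w.1, by
  obtain ⟨w, hw⟩ := w
  cases w with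
  | nil => simp [rtL]
  | cons a w => simpa [rtL] using hw⟩

theorem rt_zero (w : TW d) : rt 0 w = w := by
  obtain ⟨w, hw⟩ := w
  apply ext
  cases w <;> simp [rt, rtL]

theorem rt_rt (i j : Fin d) (w : TW d) : rt i (rt j w) = rt (j + i) w := by
  obtain ⟨w, hw⟩ := w
  apply ext
  cases w <;> simp [rt, rtL, add_assoc]

@[simp] theorem rt_nil (i : Fin d) : rt i (nil : TW d) = nil := rfl

theorem len_rt (i : Fin d) (w : TW d) : (rt i w).len = w.len := by
  obtain ⟨w, hw⟩ := w
  cases w <;> simp [rt, rtL, len]

theorem rt_eq_nil {i : Fin d} {w : TW d} : rt i w = nil ↔ w = nil := by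
  constructor
  · intro h
    have h1 : (rt i w).len = (nil : TW d).len := congrArg len h
    rw [len_rt] at h1
    apply ext
    exact List.length_eq_zero_iff.1 h1
  · intro h
    rw [h]; rfl

/-- the ball of radius `R` around the root vertex -/
def inBall (R : ℕ) (w : TW d) : Prop := w.len ≤ R

/-- the word does not start with `0`: root-vertex side of the root edge -/
def uSide (w : TW d) : Prop := w.1.head? ≠ some 0

instance (w : TW d) : Decidable (uSide w) := inferInstanceAs (Decidable (_ ≠ _))

theorem finite_ball (R : ℕ) : {w : TW d | w.len ≤ R}.Finite := by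
  have h1 : Set.Finite {l : List (Fin d) | l.length ≤ R} := List.finite_length_le (Fin d) R
  exact Set.Finite.of_injOn (f := fun w : TW d => w.1) (fun w hw => hw)
    (fun w _ w' _ h => ext h) h1

/-- the ball as a finset -/
noncomputable def ball (d : ℕ) [NeZero d] (R : ℕ) : Finset (TW d) := (finite_ball R).toFinset

@[simp] theorem mem_ball {R : ℕ} {w : TW d} : w ∈ ball d R ↔ w.len ≤ R := by
  simp [ball]

/-- root-vertex side of the root edge, up to distance `R` from the root vertex -/
noncomputable def uBall (d : ℕ) [NeZero d] (R : ℕ) : Finset (TW d) :=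
  (ball d R).filter uSide

/-- other side of the root edge, up to distance `R` from the other end -/
noncomputable def vBall (d : ℕ) [NeZero d] (R : ℕ) : Finset (TW d) := (uBall d R).image cr

/-- ball of radius `R` around the root edge -/
noncomputable def eBall (d : ℕ) [NeZero d] (R : ℕ) : Finset (TW d) := uBall d R ∪ vBall d R

end TW

end words

/-! ### Configurations -/

/-- `Fin d` acts on the colours of half-edges by rotating the port -/
class PortAct (d : ℕ) (S : Type*) where
  rs : Fin d → S → S
  rs_zero : ∀ [NeZero d] (x : S), rs 0 x = x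
  rs_add : ∀ i j x, rs (i + j) x = rs i (rs j x)

/-- labels rotate, the vertex data do not change -/
instance {d : ℕ} {S : Type*} : PortAct d (Fin d × S) where
  rs i x := (x.1 + i, x.2)
  rs_zero x := by simp
  rs_add i j x := by simp [add_assoc, add_comm i j]

/-- configurations: a colour for each tree vertex (each arrival half-edge) -/
abbrev Conf (d : ℕ) [NeZero d] (S : Type*) : Type _ := TW d → S

section conf
variable {d : ℕ} [NeZero d] {S : Type*}

/-- edge flip -/
def cross (ξ : Conf d S) : Conf d S := fun w => ξ (TW.cr w)

theorem cross_cross (ξ : Conf d S) : cross (cross ξ) = ξ := by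
  funext w; simp [cross, TW.cr_cr]

variable [PortAct d S]

/-- rotation of the root port by `i` -/
def rotn (i : Fin d) (ξ : Conf d S) : Conf d S := fun w =>
  if w = TW.nil then PortAct.rs i (ξ TW.nil) else ξ (TW.rt i w)

theorem rotn_zero (ξ : Conf d S) : rotn 0 ξ = ξ := by
  funext w
  by_cases h : w = TW.nil
  · subst h; simp [rotn, PortAct.rs_zero]
  · simp [rotn, h, TW.rt_zero]

theorem rotn_rotn (i j : Fin d) (ξ : Conf d S) : rotn i (rotn j ξ) = rotn (i + j) ξ := by
  funext w
  by_cases h : w = TW.nil
  · subst h; simp [rotn, PortAct.rs_add]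
  · have h2 : TW.rt i w ≠ TW.nil := fun hh => h (TW.rt_eq_nil.1 hh)
    simp [rotn, h, h2, TW.rt_rt]

/-- move the root across port `i` (relative to the root half-edge) -/
def step (i : Fin d) (ξ : Conf d S) : Conf d S := cross (rotn i ξ)

/-- the configuration seen from the arrival half-edge of the word `w` -/
def reroot : List (Fin d) → Conf d S → Conf d S
  | [], ξ => ξ
  | i :: w, ξ => reroot w (step i ξ)

theorem step_apply (i : Fin d) (ξ : Conf d S) (w : TW d) (hw : TW.uSide w)
    (h : ∀ a ∈ (i :: w.1).tail, a ≠ 0) : step i ξ w = ξ ⟨i :: w.1, h⟩ := by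
  obtain ⟨w, hw'⟩ := w
  have h0 : (TW.cr ⟨w, hw'⟩ : TW d).1 = 0 :: w := by
    cases w with
    | nil => simp [TW.cr, TW.crL]
    | cons a w =>
      have : a ≠ 0 := by
        intro ha; apply hw; simp [ha]
      simp [TW.cr, TW.crL, this]
  have h1 : (TW.cr ⟨w, hw'⟩ : TW d) ≠ TW.nil := by
    intro hh; rw [hh] at h0; simp [TW.nil] at h0
  simp only [step, cross, rotn, h1, if_false]
  congr 1
  apply TW.ext
  simp only [TW.rt]
  rw [h0]; simp [TW.rtL]

/-- the value at the word `u ++ w` is the value at `w` seen from `u` -/
theorem reroot_apply (u : List (Fin d)) (ξ : Conf d S) (w : TW d)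
    (h : ∀ a ∈ (u ++ w.1).tail, a ≠ 0) (hw : u ≠ [] → TW.uSide w) :
    reroot u ξ w = ξ ⟨u ++ w.1, h⟩ := by
  induction u generalizing ξ with
  | nil => rfl
  | cons i u ih =>
    have hw' : TW.uSide w := hw (by simp)
    have h2 : ∀ a ∈ u ++ w.1, a ≠ 0 := by
      intro a ha
      exact h a (by simpa using ha)
    have h3 : ∀ a ∈ (u ++ w.1).tail, a ≠ 0 := fun a ha => h2 a (List.mem_of_mem_tail ha)
    rw [reroot, ih (step i ξ) h3 (fun _ => hw')]
    rw [step_apply i ξ ⟨u ++ w.1, h3⟩]
    · rfl
    · intro hh
      have : (0 : Fin d) ∈ u ++ w.1 := List.mem_of_mem_head? (by simpa using hh)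
      exact h2 0 this rfl

/-- the value at `w` is the value at the root seen from `w` -/
theorem reroot_nil (w : TW d) (ξ : Conf d S) : reroot w.1 ξ TW.nil = ξ w := by
  have h : ∀ a ∈ (w.1 ++ (TW.nil : TW d).1).tail, a ≠ 0 := by
    simpa [TW.nil] using w.2
  rw [reroot_apply w.1 ξ TW.nil h (fun _ => by simp [TW.uSide, TW.nil])]
  congr 1
  apply TW.ext
  simp [TW.nil]

/-! ### Port-numbered graphs -/

variable {V : Type*}

/-- arrival half-edge after following the word `w` from the half-edge `h` -/
def walk (p : V × Fin d → V × Fin d) : List (Fin d) → V × Fin d → V × Fin d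
  | [], h => h
  | i :: w, h => walk p w (p (h.1, h.2 + i))

omit [NeZero d] in
theorem walk_append (p : V × Fin d → V × Fin d) (u w : List (Fin d)) (h : V × Fin d) :
    walk p (u ++ w) h = walk p w (walk p u h) := by
  induction u generalizing h with
  | nil => rfl
  | cons i u ih => simp [walk, ih]

/-- configuration seen from the half-edge `h` -/
def conf (p : V × Fin d → V × Fin d) (c : V × Fin d → S) (h : V × Fin d) : Conf d S :=
  fun w => c (walk p w.1 h)

omit [PortAct d S] in
theorem conf_flip (p : V × Fin d → V × Fin d) (hp : ∀ h, p (p h) = h) (c : V × Fin d → S)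
    (h : V × Fin d) : conf p c (p h) = cross (conf p c h) := by
  funext w
  obtain ⟨w, hw⟩ := w
  simp only [conf, cross]
  cases w with
  | nil => simp [TW.cr, TW.crL, walk]
  | cons a w =>
    by_cases ha : a = 0
    · subst ha
      simp [TW.cr, TW.crL, walk, hp]
    · simp [TW.cr, TW.crL, walk, ha]

theorem conf_rot (p : V × Fin d → V × Fin d) (c : V × Fin d → S)
    (hc : ∀ v l i, c (v, l + i) = PortAct.rs i (c (v, l)))
    (h : V × Fin d) (i : Fin d) : conf p c (h.1, h.2 + i) = rotn i (conf p c h) := by
  funext w
  obtain ⟨w, hw⟩ := w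
  simp only [conf, rotn]
  cases w with
  | nil =>
    have h0 : (⟨[], hw⟩ : TW d) = TW.nil := rfl
    rw [if_pos h0]
    exact hc h.1 h.2 i
  | cons a w =>
    have h0 : (⟨a :: w, hw⟩ : TW d) ≠ TW.nil := by
      intro hh
      have h1 : a :: w = [] := congrArg (fun x : TW d => x.1) hh
      exact absurd h1 (by simp)
    rw [if_neg h0]
    simp only [TW.rt, TW.rtL, walk]
    rw [add_assoc, add_comm i a]

/-- half-edge colouring from vertex data: `(label, data)` -/
def lab {T : Type*} (f : V → T) : V × Fin d → Fin d × T := fun h => (h.2, f h.1)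

omit [NeZero d] in
theorem lab_rot {T : Type*} (f : V → T) (v : V) (l i : Fin d) :
    lab f (v, l + i) = PortAct.rs i (lab f (v, l)) := rfl

theorem conf_step (p : V × Fin d → V × Fin d) (hp : ∀ h, p (p h) = h) (c : V × Fin d → S)
    (hc : ∀ v l i, c (v, l + i) = PortAct.rs i (c (v, l))) (h : V × Fin d) (i : Fin d) :
    conf p c (p (h.1, h.2 + i)) = step i (conf p c h) := by
  rw [conf_flip p hp, conf_rot p c hc]; rfl

theorem conf_walk (p : V × Fin d → V × Fin d) (hp : ∀ h, p (p h) = h) (c : V × Fin d → S)
    (hc : ∀ v l i, c (v, l + i) = PortAct.rs i (c (v, l))) (u : List (Fin d))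
    (h : V × Fin d) : conf p c (walk p u h) = reroot u (conf p c h) := by
  induction u generalizing h with
  | nil => rfl
  | cons i u ih => rw [walk, ih, conf_step p hp c hc]; rfl

end conf

/-! ### Measurability, continuity, empirical laws, invariance -/

section meas
variable {d : ℕ} [NeZero d] {S : Type*}

theorem measurable_cross [MeasurableSpace S] : Measurable (cross : Conf d S → Conf d S) :=
  measurable_pi_lambda _ fun w => measurable_pi_apply (TW.cr w)

theorem measurable_rotn [MeasurableSpace S] [PortAct d S]
    (hr : ∀ i : Fin d, Measurable (PortAct.rs i : S → S)) (i : Fin d) :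
    Measurable (rotn i : Conf d S → Conf d S) := by
  refine measurable_pi_lambda _ fun w => ?_
  by_cases h : w = TW.nil
  · simp only [rotn, h, if_true]
    exact (hr i).comp (measurable_pi_apply _)
  · simp only [rotn, h, if_false]
    exact measurable_pi_apply _

theorem continuous_cross [TopologicalSpace S] : Continuous (cross : Conf d S → Conf d S) :=
  continuous_pi fun w => continuous_apply (TW.cr w)

theorem continuous_rotn [TopologicalSpace S] [PortAct d S]
    (hr : ∀ i : Fin d, Continuous (PortAct.rs i : S → S)) (i : Fin d) :
    Continuous (rotn i : Conf d S → Conf d S) := by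
  refine continuous_pi fun w => ?_
  by_cases h : w = TW.nil
  · simp only [rotn, h, if_true]
    exact (hr i).comp (continuous_apply _)
  · simp only [rotn, h, if_false]
    exact continuous_apply _

variable {V : Type*} [Fintype V]

/-- empirical law of the configuration seen from a uniform half-edge -/
noncomputable def emp [MeasurableSpace S] (p : V × Fin d → V × Fin d) (c : V × Fin d → S) :
    Measure (Conf d S) :=
  ((Fintype.card (V × Fin d) : ENNReal)⁻¹) • ∑ h : V × Fin d, Measure.dirac (conf p c h)

/-- invariance under edge flips and port rotations -/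
def Inv [MeasurableSpace S] [PortAct d S] (μ : Measure (Conf d S)) : Prop :=
  μ.map cross = μ ∧ ∀ i : Fin d, μ.map (rotn i) = μ

end meas

end Crest.Agent.R166.Words955
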