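import Mathlib
import Crest.Agent.R166.Words_955

/-!
Row 166 (helper289): the iid law of (label, datum) over the vertices of the `d`-regular tree.

`uFin d` = uniform law on the labels, `siteLaw d τ` = (uniform label) × `τ`,
`envLaw d τ` = product of `siteLaw d τ` over all words.  It is invariant under `cross` and `rotn`.
-/

set_option autoImplicit false

namespace Crest.Agent.R166.EnvLaw289

open MeasureTheory ProbabilityTheory Crest.Agent.R166.Words955

noncomputable section

/-- the uniform law on `Fin d` -/
def uFin (d : ℕ) : Measure (Fin d) := (d : ENNReal)⁻¹ • Measure.count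

/-- law of (label, datum) at one vertex -/
def siteLaw (d : ℕ) {T : Type*} [MeasurableSpace T] (τ : Measure T) : Measure (Fin d × T) :=
  (uFin d).prod τ

/-- the iid law on configurations -/
def envLaw (d : ℕ) [NeZero d] {T : Type*} [MeasurableSpace T] (τ : Measure T) :
    Measure (Conf d (Fin d × T)) :=
  Measure.infinitePi fun _ : TW d => siteLaw d τ

variable {d : ℕ} [NeZero d] {T : Type*} [MeasurableSpace T] (τ : Measure T)

instance uFin_prob : IsProbabilityMeasure (uFin d) := by
  constructor
  rw [uFin, Measure.smul_apply, Measure.count_univ, smul_eq_mul]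
  simp only [ENat.card_eq_coe_fintype_card, Fintype.card_fin, ENat.toENNReal_coe]
  exact ENNReal.inv_mul_cancel (by exact_mod_cast NeZero.ne d) (ENNReal.natCast_ne_top d)

instance siteLaw_prob [IsProbabilityMeasure τ] : IsProbabilityMeasure (siteLaw d τ) := by
  unfold siteLaw; infer_instance

instance envLaw_prob [IsProbabilityMeasure τ] : IsProbabilityMeasure (envLaw d τ) := by
  unfold envLaw; infer_instance

omit [NeZero d] in
/-- the uniform law is invariant under permutations of the labels -/
theorem uFin_map (e : Fin d ≃ Fin d) : (uFin d).map e = uFin d := by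
  refine Measure.ext_of_singleton fun i => ?_
  rw [Measure.map_apply (measurable_of_finite _) (MeasurableSet.singleton i)]
  have h : e ⁻¹' {i} = {e.symm i} := by
    ext j
    simp [Equiv.eq_symm_apply]
  rw [h, uFin, Measure.smul_apply, Measure.smul_apply, Measure.count_singleton,
    Measure.count_singleton]

/-- rotation of the label of a datum -/
def rl (k : Fin d) (x : Fin d × T) : Fin d × T := (k + x.1, x.2)

omit [NeZero d] in
theorem measurable_rl (k : Fin d) : Measurable (rl k : Fin d × T → Fin d × T) := by
  have : Measurable (fun j : Fin d => k + j) := measurable_of_finite _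
  exact (this.comp measurable_fst).prodMk measurable_snd

/-- the law of a site is invariant under rotation of the label -/
theorem siteLaw_rl [IsProbabilityMeasure τ] (k : Fin d) :
    (siteLaw d τ).map (rl k) = siteLaw d τ := by
  have h1 : (rl k : Fin d × T → Fin d × T) = Prod.map (Equiv.addLeft k) id := by
    funext x; rfl
  rw [h1, siteLaw, ← Measure.map_prod_map _ _ (measurable_of_finite _) measurable_id,
    uFin_map, Measure.map_id]

omit [NeZero d] [MeasurableSpace T] in
/-- the port action on sites is `rl` up to commutativity -/
theorem rs_eq_rl (k : Fin d) (x : Fin d × T) :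
    (PortAct.rs k x : Fin d × T) = rl k x := by
  show (x.1 + k, x.2) = (k + x.1, x.2)
  rw [add_comm]

theorem map_comp_perm [IsProbabilityMeasure τ] (f : TW d → TW d) (hf : Function.Injective f) :
    (envLaw d τ).map (fun (ξ : Conf d (Fin d × T)) w => ξ (f w)) = envLaw d τ :=
  Measure.map_infinitePi_infinitePi_of_inj (P := fun _ : TW d => siteLaw d τ) hf

/-- invariance under the edge flip -/
theorem envLaw_cross [IsProbabilityMeasure τ] : (envLaw d τ).map cross = envLaw d τ :=
  map_comp_perm τ TW.cr TW.cr_involutive.injective

theorem rt_injective (i : Fin d) : Function.Injective (TW.rt i : TW d → TW d) := by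
  intro w w' h
  have h1 : TW.rt (-i) (TW.rt i w) = TW.rt (-i) (TW.rt i w') := by rw [h]
  rw [TW.rt_rt, TW.rt_rt, add_neg_cancel, TW.rt_zero, TW.rt_zero] at h1
  exact h1

/-- invariance under the rotations of the root port -/
theorem envLaw_rotn [IsProbabilityMeasure τ] (i : Fin d) :
    (envLaw d τ).map (rotn i) = envLaw d τ := by
  classical
  have h1 : (rotn i : Conf d (Fin d × T) → Conf d (Fin d × T)) =
      (fun (ξ : Conf d (Fin d × T)) w => ξ (TW.rt i w)) ∘
        (fun (ξ : Conf d (Fin d × T)) w => (if w = TW.nil then rl i else id) (ξ w)) := by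
    funext ξ w
    by_cases h : w = TW.nil
    · subst h
      simp only [rotn, if_true, Function.comp, TW.rt_nil]
      exact rs_eq_rl i _
    · have h2 : TW.rt i w ≠ TW.nil := fun hh => h (TW.rt_eq_nil.1 hh)
      simp only [rotn, h, h2, if_false, Function.comp, id]
  have hm : ∀ w : TW d, Measurable
      ((if w = TW.nil then rl i else id : Fin d × T → Fin d × T)) := by
    intro w
    split_ifs
    · exact measurable_rl i
    · exact measurable_id
  have h2 : (envLaw d τ).map
      (fun (ξ : Conf d (Fin d × T)) w => (if w = TW.nil then rl i else id) (ξ w)) =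
        envLaw d τ := by
    have h3 := Measure.infinitePi_map_pi (μ := fun _ : TW d => siteLaw d τ)
      (f := fun w : TW d => (if w = TW.nil then rl i else id : Fin d × T → Fin d × T)) hm
    rw [envLaw]
    refine h3.trans ?_
    congr 1
    funext w
    split_ifs
    · exact siteLaw_rl τ i
    · exact Measure.map_id
  rw [h1, ← Measure.map_map, h2]
  · exact map_comp_perm τ (TW.rt i) (rt_injective i)
  · exact measurable_pi_lambda _ fun w => measurable_pi_apply _
  · exact measurable_pi_lambda _ fun w => (hm w).comp (measurable_pi_apply w)

/-- the iid law is invariant under edge flips and port rotations -/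
theorem envLaw_inv [IsProbabilityMeasure τ] : Inv (envLaw d τ) :=
  ⟨envLaw_cross τ, envLaw_rotn τ⟩

/-- the one-site marginals -/
theorem envLaw_eval [IsProbabilityMeasure τ] (w : TW d) :
    (envLaw d τ).map (fun ξ => ξ w) = siteLaw d τ :=
  Measure.infinitePi_map_eval (fun _ : TW d => siteLaw d τ) w

/-- the coordinates are independent -/
theorem envLaw_iIndep [IsProbabilityMeasure τ] :
    iIndepFun (fun (w : TW d) (ξ : Conf d (Fin d × T)) => ξ w) (envLaw d τ) :=
  iIndepFun_infinitePi (P := fun _ : TW d => siteLaw d τ) (X := fun _ x => x)
    (fun _ => measurable_id)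

/-- the marginal on a finite set of words -/
theorem envLaw_restrict [IsProbabilityMeasure τ] (I : Finset (TW d)) :
    (envLaw d τ).map I.restrict = Measure.pi fun _ : I => siteLaw d τ :=
  Measure.infinitePi_map_restrict (μ := fun _ : TW d => siteLaw d τ)

/-- marginals along an injective family of words -/
theorem envLaw_map_inj [IsProbabilityMeasure τ] {ι : Type*} (f : ι → TW d)
    (hf : Function.Injective f) :
    (envLaw d τ).map (fun (ξ : Conf d (Fin d × T)) i => ξ (f i)) =
      Measure.infinitePi fun _ : ι => siteLaw d τ :=
  Measure.map_infinitePi_infinitePi_of_inj (P := fun _ : TW d => siteLaw d τ) hf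

end

end Crest.Agent.R166.EnvLaw289
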