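import Crest.Agent.R166.Words_955

/-!
# R166 / Erg_424 (helper424)

Field `erg` of `LimProc` (Spec_B2_385): ergodicity of the product environment on the port-numbered
tree under the group generated by the rotation around the base vertex and the rotation around the
other end of the root edge.
-/

set_option autoImplicit false

open MeasureTheory ProbabilityTheory Filter
open scoped ENNReal Topology

namespace Crest.Agent.R166.Erg424

open Crest.Agent.R166.Words955

/-! ### abstract zero-one law -/

section abstract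

variable {Ω ι : Type*} [mΩ : MeasurableSpace Ω] {P : Measure Ω}

/-- A bounded function measurable with respect to an independent family of σ-algebras, invariant
(a.e.) under measure preserving maps which move larger and larger blocks off themselves, is a.e.
constant. -/
theorem const_of_move [IsProbabilityMeasure P] {m : ι → MeasurableSpace Ω} (hle : ∀ i, m i ≤ mΩ)
    (hind : iIndep m P) (B C : ℕ → Set ι) (hmono : Monotone B) (hB : ∀ i, ∃ n, i ∈ B n)
    (hdis : ∀ n, Disjoint (B n) (C n)) (γ : ℕ → Ω → Ω)
    (hγ : ∀ n, MeasurePreserving (γ n) P P)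
    (hγm : ∀ n, Measurable[⨆ i ∈ C n, m i, ⨆ i ∈ B n, m i] (γ n))
    (f : Ω → ℝ) (hf : Measurable[⨆ i, m i] f) (A : ℝ) (hA : ∀ x, |f x| ≤ A)
    (hinv : ∀ n, f ∘ γ n =ᵐ[P] f) : ∃ c : ℝ, f =ᵐ[P] fun _ => c := by
  have hA0 : 0 ≤ A := by
    obtain ⟨x⟩ : Nonempty Ω := by
      by_contra hne
      rw [not_nonempty_iff] at hne
      have h1 : P Set.univ = 1 := measure_univ
      rw [Set.eq_empty_of_isEmpty (Set.univ : Set Ω), measure_empty] at h1
      exact zero_ne_one h1
    exact (abs_nonneg _).trans (hA x)
  -- filtration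
  let 𝓕 : Filtration ℕ mΩ :=
    { seq := fun n => ⨆ i ∈ B n, m i
      mono' := fun a b hab => by
        refine iSup₂_le fun i hi => ?_
        exact le_iSup₂_of_le i (hmono hab hi) le_rfl
      le' := fun n => iSup₂_le fun i _ => hle i }
  have hsup : ⨆ n, 𝓕 n = ⨆ i, m i := by
    apply le_antisymm
    · exact iSup_le fun n => iSup₂_le fun i _ => le_iSup m i
    · refine iSup_le fun i => ?_
      obtain ⟨n, hn⟩ := hB i
      exact le_iSup_of_le n (le_iSup₂_of_le i hn le_rfl)
  have htot : (⨆ i, m i) ≤ mΩ := iSup_le hle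
  have hfm : Measurable f := hf.mono htot le_rfl
  have hfi : Integrable f P :=
    Integrable.of_bound hfm.aestronglyMeasurable A
      (Eventually.of_forall fun x => by rw [Real.norm_eq_abs]; exact hA x)
  have hfs : StronglyMeasurable[⨆ n, 𝓕 n] f := by
    rw [hsup]; exact hf.stronglyMeasurable
  have hlim := hfi.tendsto_eLpNorm_condExp hfs
  set c : ℝ := ∫ x, f x ∂P with hc
  -- bound at level n
  have key : ∀ n, |∫ x, f x * f x ∂P - c * c| ≤
      2 * A * (eLpNorm (P[f | 𝓕 n] - f) 1 P).toReal := by
    intro n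
    set g : Ω → ℝ := P[f | 𝓕 n] with hg
    have hgs : StronglyMeasurable[𝓕 n] g := stronglyMeasurable_condExp
    have hgm : Measurable g := (hgs.measurable).mono (𝓕.le n) le_rfl
    have hgi : Integrable g P := integrable_condExp
    have hgA : ∀ᵐ x ∂P, |g x| ≤ A := by
      exact ae_bdd_abs_condExp_of_ae_bdd_abs (Eventually.of_forall fun x => hA x)
    have hgint : ∫ x, g x ∂P = c := integral_condExp (𝓕.le n)
    have hγn := hγ n
    -- independence of g and g ∘ γ
    have hindep : IndepFun g (g ∘ γ n) P := by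
      have h1 : Indep (⨆ i ∈ B n, m i) (⨆ i ∈ C n, m i) P :=
        indep_iSup_of_disjoint hle hind (hdis n)
      rw [IndepFun_iff_Indep]
      refine indep_of_indep_of_le_left (indep_of_indep_of_le_right h1 ?_) ?_
      · have h2 : Measurable[⨆ i ∈ C n, m i] (g ∘ γ n) := by
          have h3 : Measurable[⨆ i ∈ B n, m i] g := hgs.measurable
          exact h3.comp (hγm n)
        exact h2.comap_le
      · exact hgs.measurable.comap_le
    have hcomp : ∀ {u : Ω → ℝ}, Measurable u → ∫ x, u (γ n x) ∂P = ∫ x, u x ∂P := by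
      intro u hu
      have h := integral_map (μ := P) hγn.measurable.aemeasurable (f := u)
        hu.aestronglyMeasurable
      rw [hγn.map_eq] at h
      exact h.symm
    have hprod : ∫ x, g x * g (γ n x) ∂P = c * c := by
      have h1 := hindep.integral_fun_mul_eq_mul_integral hgm.aestronglyMeasurable
        (hgm.comp hγn.measurable).aestronglyMeasurable
      have h2 : ∫ x, (g ∘ γ n) x ∂P = c := by
        rw [← hgint]
        exact hcomp hgm
      rw [hgint, h2] at h1
      exact h1
    have hff : ∫ x, f x * f x ∂P = ∫ x, f x * f (γ n x) ∂P := by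
      refine integral_congr_ae ?_
      filter_upwards [hinv n] with x hx
      have hx' : f (γ n x) = f x := hx
      rw [hx']
    have hgAγ : ∀ᵐ x ∂P, |g (γ n x)| ≤ A := hγn.quasiMeasurePreserving.ae hgA
    -- integrability
    have hd : Integrable (fun x => |g x - f x|) P := (hgi.sub hfi).abs
    have hdγ : Integrable (fun x => |g (γ n x) - f (γ n x)|) P := hγn.integrable_comp_of_integrable hd
    have hi1 : Integrable (fun x => f x * f (γ n x)) P := by
      refine Integrable.of_bound (hfm.mul (hfm.comp hγn.measurable)).aestronglyMeasurable (A * A)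
        (Eventually.of_forall fun x => ?_)
      rw [Real.norm_eq_abs, abs_mul]
      exact mul_le_mul (hA _) (hA _) (abs_nonneg _) hA0
    have hi2 : Integrable (fun x => g x * g (γ n x)) P := by
      refine Integrable.of_bound (hgm.mul (hgm.comp hγn.measurable)).aestronglyMeasurable (A * A) ?_
      filter_upwards [hgA, hgAγ] with x h1 h2
      rw [Real.norm_eq_abs, abs_mul]
      exact mul_le_mul h1 h2 (abs_nonneg _) hA0
    have hdint : ∫ x, |g x - f x| ∂P = (eLpNorm (g - f) 1 P).toReal := by
      rw [eLpNorm_one_eq_lintegral_enorm,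
        ← integral_norm_eq_lintegral_enorm (hgi.sub hfi).aestronglyMeasurable]
      rfl
    rw [hff, ← hprod, ← integral_sub hi1 hi2]
    calc |∫ x, (f x * f (γ n x) - g x * g (γ n x)) ∂P|
        ≤ ∫ x, |f x * f (γ n x) - g x * g (γ n x)| ∂P := abs_integral_le_integral_abs
      _ ≤ ∫ x, (A * |g (γ n x) - f (γ n x)| + A * |g x - f x|) ∂P := by
          refine integral_mono_ae (hi1.sub hi2).abs
            ((hdγ.const_mul A).add (hd.const_mul A)) ?_
          filter_upwards [hgAγ] with x hx
          have e : f x * f (γ n x) - g x * g (γ n x) =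
              -(f x * (g (γ n x) - f (γ n x)) + g (γ n x) * (g x - f x)) := by ring
          rw [e, abs_neg]
          refine (abs_add_le _ _).trans ?_
          rw [abs_mul, abs_mul]
          exact add_le_add (mul_le_mul_of_nonneg_right (hA x) (abs_nonneg _))
            (mul_le_mul_of_nonneg_right hx (abs_nonneg _))
      _ = 2 * A * (eLpNorm (g - f) 1 P).toReal := by
          rw [integral_add (hdγ.const_mul A) (hd.const_mul A), integral_const_mul,
            integral_const_mul]
          have h3 : ∫ x, |g (γ n x) - f (γ n x)| ∂P = ∫ x, |g x - f x| ∂P :=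
            hcomp (u := fun x => |g x - f x|) (by fun_prop)
          rw [h3, hdint]; ring
  -- conclusion: the variance vanishes
  have hlim2 : Tendsto (fun n => 2 * A * (eLpNorm (P[f | 𝓕 n] - f) 1 P).toReal) atTop (𝓝 0) := by
    have h1 := (ENNReal.tendsto_toReal ENNReal.zero_ne_top).comp hlim
    have h2 := h1.const_mul (2 * A)
    simpa using h2
  have hvar : ∫ x, f x * f x ∂P = c * c := by
    have h1 : |∫ x, f x * f x ∂P - c * c| ≤ 0 := ge_of_tendsto' hlim2 key
    have h2 := abs_nonpos_iff.1 h1
    linarith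
  have hi3 : Integrable (fun x => f x * f x) P := by
    refine Integrable.of_bound (hfm.mul hfm).aestronglyMeasurable (A * A)
      (Eventually.of_forall fun x => ?_)
    rw [Real.norm_eq_abs, abs_mul]
    exact mul_le_mul (hA _) (hA _) (abs_nonneg _) hA0
  have hzero : ∫ x, (f x - c) ^ 2 ∂P = 0 := by
    have e : ∀ x, (f x - c) ^ 2 = f x * f x - 2 * c * f x + c * c := fun x => by ring
    simp only [e]
    have h1 : ∫ x, (f x * f x - 2 * c * f x + c * c) ∂P =
        ∫ x, (f x * f x - 2 * c * f x) ∂P + ∫ _x, c * c ∂P :=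
      integral_add (hi3.sub (hfi.const_mul (2 * c))) (integrable_const _)
    have h2 : ∫ x, (f x * f x - 2 * c * f x) ∂P =
        ∫ x, f x * f x ∂P - ∫ x, 2 * c * f x ∂P :=
      integral_sub hi3 (hfi.const_mul (2 * c))
    rw [h1, h2, integral_const_mul, hvar, integral_const, ← hc]
    simp only [probReal_univ, smul_eq_mul]
    ring
  refine ⟨c, ?_⟩
  have hi4 : Integrable (fun x => (f x - c) ^ 2) P := by
    refine Integrable.of_bound ((hfm.sub_const c).pow_const 2).aestronglyMeasurable ((A + |c|) ^ 2)
      (Eventually.of_forall fun x => ?_)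
    rw [Real.norm_eq_abs, abs_pow]
    have h1 : |f x - c| ≤ A + |c| := (abs_sub _ _).trans (by linarith [hA x])
    exact pow_le_pow_left₀ (abs_nonneg _) h1 2
  have h5 := (integral_eq_zero_iff_of_nonneg (fun x => sq_nonneg (f x - c)) hi4).1 hzero
  filter_upwards [h5] with x hx
  have hx' : (f x - c) ^ 2 = 0 := hx
  have := pow_eq_zero_iff (two_ne_zero) |>.1 hx'
  linarith

end abstract

/-! ### moving the ball off itself -/

section move

variable {d : ℕ} [NeZero d]

/-- the bijection of the vertices induced by `step 1` -/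
def sg (w : TW d) : TW d := TW.rt 1 (TW.cr w)

theorem one_ne_zero' (h2 : 2 ≤ d) : (1 : Fin d) ≠ 0 := by
  intro h
  have h1 := congrArg Fin.val h
  rw [Fin.val_one', Nat.mod_eq_of_lt (by omega)] at h1
  simp at h1

theorem sg_uSide (h2 : 2 ≤ d) {w : TW d} (hw : TW.uSide w) :
    TW.uSide (sg w) ∧ (sg w).len = w.len + 1 := by
  obtain ⟨w, hw'⟩ := w
  have h0 : (TW.cr ⟨w, hw'⟩ : TW d).1 = 0 :: w := by
    cases w with
    | nil => simp [TW.cr, TW.crL]
    | cons a w =>
      have : a ≠ 0 := by
        intro ha; apply hw; simp [ha]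
      simp [TW.cr, TW.crL, this]
  have h1 : (sg ⟨w, hw'⟩ : TW d).1 = 1 :: w := by
    unfold sg TW.rt
    simp only [h0, TW.rtL, zero_add]
  constructor
  · unfold TW.uSide
    rw [h1]
    simp only [List.head?_cons, ne_eq, Option.some.injEq]
    exact one_ne_zero' h2
  · unfold TW.len
    rw [h1]
    simp

theorem sg_not_uSide {w : TW d} (hw : ¬ TW.uSide w) : (sg w).len + 1 = w.len := by
  obtain ⟨w, hw'⟩ := w
  unfold TW.uSide at hw
  rw [not_not] at hw
  cases w with
  | nil => simp at hw
  | cons a w =>
    simp only [List.head?_cons, Option.some.injEq] at hw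
    subst hw
    unfold sg
    rw [TW.len_rt]
    unfold TW.len TW.cr
    simp [TW.crL]

theorem len_iterate_uSide (h2 : 2 ≤ d) (k : ℕ) {w : TW d} (hw : TW.uSide w) :
    TW.uSide (sg^[k] w) ∧ (sg^[k] w).len = w.len + k := by
  induction k generalizing w with
  | zero => exact ⟨hw, rfl⟩
  | succ k ih =>
    rw [Function.iterate_succ_apply]
    have h1 := sg_uSide h2 hw
    have h3 := ih h1.1
    exact ⟨h3.1, by rw [h3.2, h1.2]; ring⟩

theorem le_len_iterate (h2 : 2 ≤ d) (k : ℕ) (w : TW d) : k ≤ (sg^[k] w).len + w.len := by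
  induction k generalizing w with
  | zero => exact Nat.zero_le _
  | succ k ih =>
    rw [Function.iterate_succ_apply]
    by_cases hw : TW.uSide w
    · have h1 := sg_uSide h2 hw
      have h3 := len_iterate_uSide h2 k h1.1
      rw [h3.2, h1.2]; omega
    · have h1 := sg_not_uSide hw
      have h3 := ih (sg w)
      omega

variable {S : Type*} [PortAct d S]

theorem step_one_apply (w : TW d) : ∃ j : Fin d, ∀ ξ : Conf d S,
    step 1 ξ w = PortAct.rs j (ξ (sg w)) := by
  by_cases h : TW.cr w = TW.nil
  · refine ⟨1, fun ξ => ?_⟩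
    simp [step, cross, rotn, sg, h]
  · refine ⟨0, fun ξ => ?_⟩
    simp [step, cross, rotn, sg, h, PortAct.rs_zero]

theorem step_iterate_apply (k : ℕ) (w : TW d) : ∃ j : Fin d, ∀ ξ : Conf d S,
    (step 1)^[k] ξ w = PortAct.rs j (ξ (sg^[k] w)) := by
  induction k with
  | zero => exact ⟨0, fun ξ => by simp [PortAct.rs_zero]⟩
  | succ k ih =>
    obtain ⟨j, hj⟩ := ih
    obtain ⟨i, hi⟩ := step_one_apply (S := S) (sg^[k] w)
    refine ⟨j + i, fun ξ => ?_⟩
    rw [Function.iterate_succ_apply, hj (step 1 ξ), hi ξ, ← PortAct.rs_add,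
      ← Function.iterate_succ_apply' sg]

end move

/-! ### ergodicity -/

section erg

variable {d : ℕ} [NeZero d] {S : Type*} [MeasurableSpace S] [PortAct d S]
  {Ω : Type*} [mΩ : MeasurableSpace Ω] {P : Measure Ω}

/-- **Ergodicity of an independent environment** under the rotations `rr` and `pp ∘ rr ∘ pp`. -/
theorem erg_env [IsProbabilityMeasure P] (h2 : 2 ≤ d)
    (hrs : ∀ i : Fin d, Measurable (PortAct.rs i : S → S))
    (e : Ω → Conf d S) (he : Measurable e) (pp rr : Ω → Ω) (hpp : MeasurePreserving pp P P)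
    (hrr : MeasurePreserving rr P P) (epp : ∀ h, e (pp h) = cross (e h))
    (err : ∀ h, e (rr h) = rotn 1 (e h)) (hind : iIndepFun (fun w h => e h w) P)
    (f : Ω → ℝ) (hf : Measurable[MeasurableSpace.comap e inferInstance] f)
    (h1 : ∀ᵐ h ∂P, f (rr h) = f h) (h3 : ∀ᵐ h ∂P, f (pp (rr (pp h))) = f h) :
    ∃ c : ℝ, ∀ᵐ h ∂P, f h = c := by
  -- reduce to a bounded function
  set F : Ω → ℝ := fun h => Real.arctan (f h) with hF
  set m : TW d → MeasurableSpace Ω := fun w => MeasurableSpace.comap (fun h => e h w) inferInstance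
    with hm
  have hcomap : (⨆ w, m w) = MeasurableSpace.comap e inferInstance := by
    rw [hm, MeasurableSpace.pi, MeasurableSpace.comap_iSup]
    simp only [MeasurableSpace.comap_comp]
    rfl
  have hFm : Measurable[⨆ w, m w] F := by
    rw [hcomap]
    exact Real.measurable_arctan.comp hf
  have hle : ∀ w, m w ≤ mΩ := fun w => ((measurable_pi_apply w).comp he).comap_le
  have hind' : iIndep m P := hind.iIndep
  -- the moving maps
  have hstep : ∀ h, e (pp (rr h)) = step 1 (e h) := fun h => by rw [epp, err]; rfl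
  have hiter : ∀ (k : ℕ) (h : Ω), e ((pp ∘ rr)^[k] h) = (step 1)^[k] (e h) := by
    intro k
    induction k with
    | zero => intro h; rfl
    | succ k ih =>
      intro h
      rw [Function.iterate_succ_apply, ih, Function.iterate_succ_apply]
      congr 1
      exact hstep h
  have hpr : MeasurePreserving (pp ∘ rr) P P := hpp.comp hrr
  let γ : ℕ → Ω → Ω := fun n => (pp ∘ rr)^[2 * (n + 1)]
  have hγ : ∀ n, MeasurePreserving (γ n) P P := fun n => hpr.iterate _
  have hinv2 : ∀ᵐ h ∂P, F ((pp ∘ rr)^[2] h) = F h := by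
    have h4 := hrr.quasiMeasurePreserving.ae h3
    filter_upwards [h1, h4] with h hh1 hh4
    have : (pp ∘ rr)^[2] h = pp (rr (pp (rr h))) := rfl
    rw [this]
    simp only [hF]
    rw [hh4, hh1]
  have hinv : ∀ k, ∀ᵐ h ∂P, F ((pp ∘ rr)^[2 * k] h) = F h := by
    intro k
    induction k with
    | zero => exact Eventually.of_forall fun h => rfl
    | succ k ih =>
      have h4 := (hpr.iterate 2).quasiMeasurePreserving.ae ih
      filter_upwards [h4, hinv2] with h hh4 hh2
      have : (pp ∘ rr)^[2 * (k + 1)] h = (pp ∘ rr)^[2 * k] ((pp ∘ rr)^[2] h) := by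
        rw [← Function.iterate_add_apply]
        rfl
      rw [this, hh4, hh2]
  let B : ℕ → Set (TW d) := fun n => {w | w.len ≤ n}
  let C : ℕ → Set (TW d) := fun n => {w | n < w.len}
  have hγm : ∀ n, Measurable[⨆ w ∈ C n, m w, ⨆ w ∈ B n, m w] (γ n) := by
    intro n
    rw [measurable_iff_comap_le]
    rw [MeasurableSpace.comap_iSup]
    refine iSup_le fun w => ?_
    rw [MeasurableSpace.comap_iSup]
    refine iSup_le fun hw => ?_
    rw [hm]
    simp only [MeasurableSpace.comap_comp]
    obtain ⟨j, hj⟩ := step_iterate_apply (S := S) (2 * (n + 1)) w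
    have hfun : ((fun h => e h w) ∘ γ n) =
        PortAct.rs j ∘ fun h => e h (sg^[2 * (n + 1)] w) := by
      funext h
      show e ((pp ∘ rr)^[2 * (n + 1)] h) w = _
      rw [hiter, hj]
      rfl
    rw [hfun, ← MeasurableSpace.comap_comp]
    have hmem : sg^[2 * (n + 1)] w ∈ C n := by
      have hw' : w.len ≤ n := hw
      have := le_len_iterate h2 (2 * (n + 1)) w
      show n < _
      omega
    refine le_trans (MeasurableSpace.comap_mono (hrs j).comap_le) ?_
    exact le_iSup₂_of_le (f := fun w (_ : w ∈ C n) =>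
      MeasurableSpace.comap (fun h => e h w) inferInstance) _ hmem le_rfl
  obtain ⟨c, hc⟩ := const_of_move (P := P) hle hind' B C
    (fun a b hab w hw => le_trans hw hab) (fun w => ⟨w.len, show w.len ≤ w.len from le_rfl⟩)
    (fun n => Set.disjoint_left.2 fun w (hw : w.len ≤ n) (hw' : n < w.len) => by omega)
    γ hγ hγm F hFm (Real.pi / 2)
    (fun x => abs_le.2 ⟨(Real.neg_pi_div_two_lt_arctan _).le, (Real.arctan_lt_pi_div_two _).le⟩)
    (fun n => hinv (n + 1))
  refine ⟨Real.tan c, ?_⟩
  filter_upwards [hc] with h hh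
  have hh' : Real.arctan (f h) = c := hh
  rw [← hh', Real.tan_arctan]

/-- independence of the coordinates from a product law -/
theorem iIndepFun_of_map_eq [IsProbabilityMeasure P] {ν : Measure S} [IsProbabilityMeasure ν]
    {e : Ω → Conf d S} (he : Measurable e)
    (hlaw : P.map e = Measure.infinitePi fun _ : TW d => ν) :
    iIndepFun (fun w h => e h w) P := by
  have hm : ∀ w : TW d, Measurable fun h => e h w := fun w => (measurable_pi_apply w).comp he
  rw [iIndepFun_iff_map_fun_eq_infinitePi_map hm]
  have h1 : ∀ w : TW d, P.map (fun h => e h w) = ν := by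
    intro w
    have h2 : P.map (fun h => e h w) = (P.map e).map (Function.eval w) := by
      rw [Measure.map_map (measurable_pi_apply w) he]
      rfl
    rw [h2, hlaw, Measure.infinitePi_map_eval]
  simp only [h1]
  exact hlaw

/-- **Ergodicity of an iid environment**: `P.map e` = product law. -/
theorem erg_of_map_eq [IsProbabilityMeasure P] (h2 : 2 ≤ d)
    (hrs : ∀ i : Fin d, Measurable (PortAct.rs i : S → S)) {ν : Measure S}
    [IsProbabilityMeasure ν] {e : Ω → Conf d S} (he : Measurable e)
    (hlaw : P.map e = Measure.infinitePi fun _ : TW d => ν)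
    {pp rr : Ω → Ω} (hpp : MeasurePreserving pp P P)
    (hrr : MeasurePreserving rr P P) (epp : ∀ h, e (pp h) = cross (e h))
    (err : ∀ h, e (rr h) = rotn 1 (e h))
    (f : Ω → ℝ) (hf : Measurable[MeasurableSpace.comap e inferInstance] f)
    (h1 : ∀ᵐ h ∂P, f (rr h) = f h) (h3 : ∀ᵐ h ∂P, f (pp (rr (pp h))) = f h) :
    ∃ c : ℝ, ∀ᵐ h ∂P, f h = c :=
  erg_env h2 hrs e he pp rr hpp hrr epp err (iIndepFun_of_map_eq he hlaw) f hf h1 h3

end erg

/-! ### the concrete case: configurations with colours `(label, datum, extra)` -/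

section concrete

variable {d : ℕ} [NeZero d] {T X : Type*} [MeasurableSpace T] [MeasurableSpace X]

omit [NeZero d] in
/-- the rotation of the labels is measurable -/
theorem measurable_rs (i : Fin d) : Measurable (PortAct.rs i : Fin d × T → Fin d × T) := by
  show Measurable fun x : Fin d × T => (x.1 + i, x.2)
  exact ((measurable_of_countable fun a : Fin d => a + i).comp measurable_fst).prodMk
    measurable_snd

/-- projection of a configuration with extra data on the environment `(label, ω)` -/
def envP (ξ : Conf d (Fin d × (T × X))) : Conf d (Fin d × T) := fun w => ((ξ w).1, (ξ w).2.1)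

theorem measurable_envP : Measurable (envP : Conf d (Fin d × (T × X)) → Conf d (Fin d × T)) := by
  refine measurable_pi_lambda _ fun w => ?_
  exact (measurable_fst.comp (measurable_pi_apply w)).prodMk
    (measurable_fst.comp (measurable_snd.comp (measurable_pi_apply w)))

omit [MeasurableSpace T] [MeasurableSpace X] in
theorem envP_cross (ξ : Conf d (Fin d × (T × X))) : envP (cross ξ) = cross (envP ξ) := rfl

omit [MeasurableSpace T] [MeasurableSpace X] in
theorem envP_rotn (i : Fin d) (ξ : Conf d (Fin d × (T × X))) :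
    envP (rotn i ξ) = rotn i (envP ξ) := by
  funext w
  by_cases h : w = TW.nil
  · subst h
    simp [envP, rotn, PortAct.rs]
  · simp [envP, rotn, h]

/-- **`LimProc.erg`** for `Ω = Conf d (label, ω, extra)`, `pp = cross`, `rr = rotn 1`,
`Env = comap envP`, when the law of the environment is the product law. -/
theorem erg_conf (h2 : 2 ≤ d) (P : Measure (Conf d (Fin d × (T × X)))) [IsProbabilityMeasure P]
    (hP : Inv P) {ν : Measure (Fin d × T)} [IsProbabilityMeasure ν]
    (hlaw : P.map envP = Measure.infinitePi fun _ : TW d => ν)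
    (f : Conf d (Fin d × (T × X)) → ℝ)
    (hf : Measurable[MeasurableSpace.comap envP inferInstance] f)
    (h1 : ∀ᵐ h ∂P, f (rotn 1 h) = f h) (h3 : ∀ᵐ h ∂P, f (cross (rotn 1 (cross h))) = f h) :
    ∃ c : ℝ, ∀ᵐ h ∂P, f h = c :=
  erg_of_map_eq h2 measurable_rs measurable_envP hlaw ⟨measurable_cross, hP.1⟩
    ⟨measurable_rotn measurable_rs 1, hP.2 1⟩ envP_cross (envP_rotn 1) f hf h1 h3

end concrete

end Crest.Agent.R166.Erg424
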