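import Mathlib

/-!
Row 166 (helper980), ThmB-final, module F2: existence of the limit law from convergence of the
rational characteristic functions and coordinatewise tightness (Prokhorov).
-/

set_option autoImplicit false

namespace Crest.Agent.R166.LimLaw980

open MeasureTheory Filter Topology BoundedContinuousFunction

variable {T : Type*}

/-- linear functional with finitely many rational coefficients -/
noncomputable def phase (q : T →₀ ℚ) (ξ : T → ℝ) : ℝ := q.sum fun t r => (r : ℝ) * ξ t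

@[simp] theorem phase_zero (ξ : T → ℝ) : phase (0 : T →₀ ℚ) ξ = 0 := by
  simp [phase]

theorem phase_add (p q : T →₀ ℚ) (ξ : T → ℝ) : phase (p + q) ξ = phase p ξ + phase q ξ := by
  classical
  unfold phase
  rw [Finsupp.sum_add_index']
  · simp
  · intro t r s
    push_cast
    ring

theorem phase_neg (q : T →₀ ℚ) (ξ : T → ℝ) : phase (-q) ξ = -phase q ξ := by
  have := phase_add (-q) q ξ
  rw [neg_add_cancel, phase_zero] at this
  linarith

theorem phase_single (t : T) (r : ℚ) (ξ : T → ℝ) :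
    phase (Finsupp.single t r) ξ = (r : ℝ) * ξ t := by
  simp [phase]

theorem continuous_phase (q : T →₀ ℚ) : Continuous (phase q) := by
  unfold phase Finsupp.sum
  fun_prop

variable {E : Type*} [TopologicalSpace E]

/-- character of `E` defined by a map to `T → ℝ` and a rational frequency -/
noncomputable def ech (Φ : E → T → ℝ) (hΦ : Continuous Φ) (q : T →₀ ℚ) : E →ᵇ ℂ :=
  BoundedContinuousFunction.ofNormedAddCommGroup
    (fun ξ => Complex.exp (Complex.I * ((phase q (Φ ξ) : ℝ) : ℂ)))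
    (by
      have := (continuous_phase q).comp hΦ
      fun_prop) 1
    (by
      intro ξ
      rw [mul_comm, Complex.norm_exp_ofReal_mul_I])

@[simp] theorem ech_apply (Φ : E → T → ℝ) (hΦ : Continuous Φ) (q : T →₀ ℚ) (ξ : E) :
    ech Φ hΦ q ξ = Complex.exp (Complex.I * ((phase q (Φ ξ) : ℝ) : ℂ)) := rfl

theorem ech_zero (Φ : E → T → ℝ) (hΦ : Continuous Φ) : ech Φ hΦ 0 = 1 := by
  ext ξ
  simp

theorem ech_add (Φ : E → T → ℝ) (hΦ : Continuous Φ) (p q : T →₀ ℚ) :
    ech Φ hΦ (p + q) = ech Φ hΦ p * ech Φ hΦ q := by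
  ext ξ
  simp only [ech_apply, phase_add, BoundedContinuousFunction.coe_mul, Pi.mul_apply,
    ← Complex.exp_add]
  push_cast
  ring_nf

theorem ech_neg (Φ : E → T → ℝ) (hΦ : Continuous Φ) (q : T →₀ ℚ) :
    ech Φ hΦ (-q) = star (ech Φ hΦ q) := by
  ext ξ
  simp only [ech_apply, phase_neg, BoundedContinuousFunction.star_apply, RCLike.star_def,
    ← Complex.exp_conj, map_mul, Complex.conj_I, Complex.conj_ofReal]
  push_cast
  ring_nf

/-- the span of the characters as a star subalgebra -/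
noncomputable def chSub (Φ : E → T → ℝ) (hΦ : Continuous Φ) : StarSubalgebra ℂ (E →ᵇ ℂ) where
  carrier := (Submodule.span ℂ (Set.range (ech Φ hΦ)) : Set (E →ᵇ ℂ))
  mul_mem' := by
    intro f g hf hg
    have hf' : f ∈ Submodule.span ℂ (Set.range (ech Φ hΦ)) := hf
    have hg' : g ∈ Submodule.span ℂ (Set.range (ech Φ hΦ)) := hg
    show f * g ∈ Submodule.span ℂ (Set.range (ech Φ hΦ))
    induction hf' using Submodule.span_induction with
    | mem x hx =>
      obtain ⟨p, rfl⟩ := hx
      induction hg' using Submodule.span_induction with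
      | mem y hy =>
        obtain ⟨q, rfl⟩ := hy
        rw [← ech_add]
        exact Submodule.subset_span ⟨_, rfl⟩
      | zero => simp
      | add y z _ _ hy hz =>
        rw [mul_add]
        exact Submodule.add_mem _ (hy (by assumption)) (hz (by assumption))
      | smul a y _ hy =>
        rw [mul_smul_comm]
        exact Submodule.smul_mem _ _ (hy (by assumption))
    | zero => simp
    | add x y _ _ hx hy =>
      rw [add_mul]
      exact Submodule.add_mem _ (hx (by assumption)) (hy (by assumption))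
    | smul a x _ hx =>
      rw [smul_mul_assoc]
      exact Submodule.smul_mem _ _ (hx (by assumption))
  add_mem' := by
    intro f g hf hg
    exact Submodule.add_mem _ hf hg
  algebraMap_mem' := by
    intro r
    show _ ∈ Submodule.span ℂ (Set.range (ech Φ hΦ))
    rw [Algebra.algebraMap_eq_smul_one, ← ech_zero Φ hΦ]
    exact Submodule.smul_mem _ _ (Submodule.subset_span ⟨_, rfl⟩)
  star_mem' := by
    intro f hf
    have hf' : f ∈ Submodule.span ℂ (Set.range (ech Φ hΦ)) := hf
    show star f ∈ Submodule.span ℂ (Set.range (ech Φ hΦ))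
    induction hf' using Submodule.span_induction with
    | mem x hx =>
      obtain ⟨p, rfl⟩ := hx
      rw [← ech_neg]
      exact Submodule.subset_span ⟨_, rfl⟩
    | zero => simp
    | add x y _ _ hx hy =>
      rw [star_add]
      exact Submodule.add_mem _ (hx (by assumption)) (hy (by assumption))
    | smul a x _ hx =>
      rw [star_smul]
      exact Submodule.smul_mem _ _ (hx (by assumption))

theorem exists_rat_exp_ne {u : ℝ} (hu : u ≠ 0) :
    ∃ r : ℚ, Complex.exp (Complex.I * (((r : ℝ) * u : ℝ) : ℂ)) ≠ 1 := by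
  by_contra hcon
  push Not at hcon
  -- choose a rational `r` with `0 < |r u| < 1`
  obtain ⟨r, hr0, hr1⟩ : ∃ r : ℚ, (0 : ℝ) < r ∧ (r : ℝ) < 1 / |u| := by
    have : (0 : ℝ) < 1 / |u| := by positivity
    obtain ⟨r, h1, h2⟩ := exists_rat_btwn this
    exact ⟨r, h1, h2⟩
  have h1 := hcon r
  rw [mul_comm, Complex.exp_eq_one_iff] at h1
  obtain ⟨n, hn⟩ := h1
  have h2 : (((r : ℝ) * u : ℝ) : ℂ) = ((n * (2 * Real.pi) : ℝ) : ℂ) := by
    have : (((r : ℝ) * u : ℝ) : ℂ) * Complex.I = ((n * (2 * Real.pi) : ℝ) : ℂ) * Complex.I := by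
      rw [hn]
      push_cast
      ring
    exact mul_right_cancel₀ Complex.I_ne_zero this
  have h3 : (r : ℝ) * u = n * (2 * Real.pi) := by exact_mod_cast h2
  have hu' : 0 < |u| := abs_pos.2 hu
  have h4 : |(r : ℝ) * u| < 1 := by
    rw [abs_mul, abs_of_pos hr0]
    calc (r : ℝ) * |u| < 1 / |u| * |u| := by gcongr
      _ = 1 := by field_simp
  have h5 : (r : ℝ) * u ≠ 0 := mul_ne_zero hr0.ne' hu
  have hn0 : n ≠ 0 := by
    rintro rfl
    apply h5
    rw [h3]
    simp
  have h6 : (1 : ℝ) ≤ |(n : ℝ)| := by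
    have : (1 : ℤ) ≤ |n| := Int.one_le_abs hn0
    exact_mod_cast this
  rw [h3, abs_mul, abs_of_pos (by positivity : (0 : ℝ) < 2 * Real.pi)] at h4
  have h7 : (1 : ℝ) * (2 * 3) ≤ |(n : ℝ)| * (2 * Real.pi) := by
    have := Real.pi_gt_three
    gcongr
  linarith

theorem chSub_separates (Φ : E → T → ℝ) (hΦ : Continuous Φ) (hinj : Function.Injective Φ) :
    ((chSub Φ hΦ).map (toContinuousMapStarₐ ℂ)).SeparatesPoints := by
  intro x y hxy
  have hne : Φ x ≠ Φ y := fun h => hxy (hinj h)
  obtain ⟨t, ht⟩ := Function.ne_iff.1 hne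
  obtain ⟨r, hr⟩ := exists_rat_exp_ne (sub_ne_zero.2 ht)
  have hmem : ech Φ hΦ (Finsupp.single t r) ∈ chSub Φ hΦ :=
    Submodule.subset_span ⟨_, rfl⟩
  refine ⟨ech Φ hΦ (Finsupp.single t r), ?_, ?_⟩
  · simp only [StarSubalgebra.coe_toSubalgebra, StarSubalgebra.coe_map, Set.mem_image,
      SetLike.mem_coe, exists_exists_and_eq_and, ne_eq]
    exact ⟨_, hmem, rfl⟩
  · simp only [ech_apply, phase_single]
    intro h
    apply hr
    have h2 : Complex.I * (((r : ℝ) * (Φ x t - Φ y t) : ℝ) : ℂ)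
        = Complex.I * (((r : ℝ) * Φ x t : ℝ) : ℂ) - Complex.I * (((r : ℝ) * Φ y t : ℝ) : ℂ) := by
      push_cast
      ring
    rw [h2, Complex.exp_sub, h, div_self (Complex.exp_ne_zero _)]

variable [MeasurableSpace E] [BorelSpace E] [PolishSpace E]

/-- the rational characteristic function determines the law -/
theorem ext_of_ech (Φ : E → T → ℝ) (hΦ : Continuous Φ) (hinj : Function.Injective Φ)
    {P Q : Measure E} [IsFiniteMeasure P] [IsFiniteMeasure Q]
    (h : ∀ q, ∫ ξ, ech Φ hΦ q ξ ∂P = ∫ ξ, ech Φ hΦ q ξ ∂Q) : P = Q := by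
  refine ext_of_forall_mem_subalgebra_integral_eq_of_polish (𝕜 := ℂ) (A := chSub Φ hΦ)
    (chSub_separates Φ hΦ hinj) ?_
  intro g hg
  have hg' : g ∈ Submodule.span ℂ (Set.range (ech Φ hΦ)) := hg
  induction hg' using Submodule.span_induction with
  | mem x hx =>
    obtain ⟨q, rfl⟩ := hx
    exact h q
  | zero => simp
  | add x y _ _ hx hy =>
    simp only [BoundedContinuousFunction.coe_add, Pi.add_apply]
    rw [integral_add (x.integrable P) (y.integrable P), integral_add (x.integrable Q)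
      (y.integrable Q), hx (by assumption), hy (by assumption)]
  | smul a x _ hx =>
    simp only [BoundedContinuousFunction.coe_smul]
    rw [integral_smul, integral_smul, hx (by assumption)]

theorem continuous_integral_bcf (f : E →ᵇ ℂ) :
    Continuous fun P : ProbabilityMeasure E => ∫ ξ, f ξ ∂(P : Measure E) := by
  have hre : ∀ P : ProbabilityMeasure E, ∫ ξ, f ξ ∂(P : Measure E)
      = ((∫ ξ, (f ξ).re ∂(P : Measure E) : ℝ) : ℂ)
        + ((∫ ξ, (f ξ).im ∂(P : Measure E) : ℝ) : ℂ) * Complex.I := by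
    intro P
    have hf : Integrable (fun ξ => f ξ) (P : Measure E) := f.integrable _
    have h1 := integral_re_add_im hf
    simpa using h1.symm
  let fr : E →ᵇ ℝ := BoundedContinuousFunction.ofNormedAddCommGroup (fun ξ => (f ξ).re)
    (Complex.continuous_re.comp f.continuous) ‖f‖
    (fun ξ => (Complex.abs_re_le_norm _).trans (f.norm_coe_le_norm ξ))
  let fi : E →ᵇ ℝ := BoundedContinuousFunction.ofNormedAddCommGroup (fun ξ => (f ξ).im)
    (Complex.continuous_im.comp f.continuous) ‖f‖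
    (fun ξ => (Complex.abs_im_le_norm _).trans (f.norm_coe_le_norm ξ))
  have h1 : Continuous fun P : ProbabilityMeasure E => ∫ ξ, fr ξ ∂(P : Measure E) := by
    rw [continuous_iff_continuousAt]
    intro P
    exact ProbabilityMeasure.tendsto_iff_forall_integral_tendsto.1 tendsto_id fr
  have h2 : Continuous fun P : ProbabilityMeasure E => ∫ ξ, fi ξ ∂(P : Measure E) := by
    rw [continuous_iff_continuousAt]
    intro P
    exact ProbabilityMeasure.tendsto_iff_forall_integral_tendsto.1 tendsto_id fi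
  have h3 : (fun P : ProbabilityMeasure E => ∫ ξ, f ξ ∂(P : Measure E))
      = fun P : ProbabilityMeasure E => ((∫ ξ, fr ξ ∂(P : Measure E) : ℝ) : ℂ)
        + ((∫ ξ, fi ξ ∂(P : Measure E) : ℝ) : ℂ) * Complex.I := by
    funext P
    rw [hre P]
    rfl
  rw [h3]
  fun_prop

/-- tightness from coordinatewise tightness -/
theorem tight_of_coord [Countable T] (Φ : E → T → ℝ) (hΦ : IsClosedEmbedding Φ)
    {A : Type*} (μ : A → ProbabilityMeasure E)
    (ht : ∀ t, ∀ ε : ENNReal, 0 < ε → ∃ M : ℝ, ∀ a, (μ a : Measure E) {ξ | M < |Φ ξ t|} ≤ ε) :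
    IsTightMeasureSet {((ν : ProbabilityMeasure E) : Measure E) | ν ∈ Set.range μ} := by
  rw [isTightMeasureSet_iff_exists_isCompact_measure_compl_le]
  intro ε hε
  obtain ⟨δ, hδ, hsum⟩ := ENNReal.exists_pos_sum_of_countable' hε.ne' T
  choose M hM using fun t => ht t (δ t) (hδ t)
  refine ⟨Φ ⁻¹' (Set.pi Set.univ fun t => Set.Icc (-(M t)) (M t)), ?_, ?_⟩
  · exact hΦ.isCompact_preimage (isCompact_univ_pi fun t => isCompact_Icc)
  · rintro ν ⟨ν', ⟨a, rfl⟩, rfl⟩
    have hsub : (Φ ⁻¹' (Set.pi Set.univ fun t => Set.Icc (-(M t)) (M t)))ᶜ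
        ⊆ ⋃ t, {ξ | M t < |Φ ξ t|} := by
      intro ξ hξ
      simp only [Set.mem_compl_iff, Set.mem_preimage, Set.mem_pi, Set.mem_univ, true_imp_iff,
        not_forall] at hξ
      obtain ⟨t, ht'⟩ := hξ
      refine Set.mem_iUnion.2 ⟨t, ?_⟩
      show M t < |Φ ξ t|
      by_contra hcon
      exact ht' (abs_le.1 (not_lt.1 hcon))
    calc (μ a : Measure E) (Φ ⁻¹' (Set.pi Set.univ fun t => Set.Icc (-(M t)) (M t)))ᶜ
        ≤ (μ a : Measure E) (⋃ t, {ξ | M t < |Φ ξ t|}) := measure_mono hsub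
      _ ≤ ∑' t, (μ a : Measure E) {ξ | M t < |Φ ξ t|} := measure_iUnion_le _
      _ ≤ ∑' t, δ t := ENNReal.tsum_le_tsum fun t => hM t a
      _ ≤ ε := hsum.le

/-- **existence of the limit law** along an arbitrary filter -/
theorem exists_limit [Countable T] (Φ : E → T → ℝ) (hΦ : IsClosedEmbedding Φ)
    {A : Type*} (l : Filter A) [l.NeBot] (μ : A → ProbabilityMeasure E)
    (ht : ∀ t, ∀ ε : ENNReal, 0 < ε → ∃ M : ℝ, ∀ a, (μ a : Measure E) {ξ | M < |Φ ξ t|} ≤ ε)
    (c : (T →₀ ℚ) → ℂ)
    (hc : ∀ q, Tendsto (fun a => ∫ ξ, Complex.exp (Complex.I * ((phase q (Φ ξ) : ℝ) : ℂ))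
      ∂(μ a : Measure E)) l (𝓝 (c q))) :
    ∃ P : ProbabilityMeasure E, Tendsto μ l (𝓝 P) := by
  have htight := tight_of_coord Φ hΦ μ ht
  have hcomp : IsCompact (closure (Set.range μ)) := isCompact_closure_of_isTightMeasureSet htight
  have hmem : ∀ a, μ a ∈ closure (Set.range μ) := fun a => subset_closure ⟨a, rfl⟩
  obtain ⟨P, _, hP⟩ := hcomp.exists_mapClusterPt_of_frequently
    (f := μ) (l := l) (Eventually.frequently (Eventually.of_forall hmem))
  refine ⟨P, ?_⟩
  -- cluster points have the characteristic function `c`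
  have hval : ∀ Q : ProbabilityMeasure E, MapClusterPt Q l μ →
      ∀ q, ∫ ξ, ech Φ hΦ.continuous q ξ ∂(Q : Measure E) = c q := by
    intro Q hQ q
    have h1 : MapClusterPt (∫ ξ, ech Φ hΦ.continuous q ξ ∂(Q : Measure E)) l
        ((fun R : ProbabilityMeasure E => ∫ ξ, ech Φ hΦ.continuous q ξ ∂(R : Measure E)) ∘ μ) :=
      hQ.continuousAt_comp (continuous_integral_bcf (ech Φ hΦ.continuous q)).continuousAt
    have h2 := hc q
    have h3 : (𝓝 (∫ ξ, ech Φ hΦ.continuous q ξ ∂(Q : Measure E)) ⊓ 𝓝 (c q)).NeBot :=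
      Filter.NeBot.mono h1 (inf_le_inf_left _ h2)
    exact eq_of_nhds_neBot h3
  refine hcomp.tendsto_nhds_of_unique_mapClusterPt (Eventually.of_forall hmem) ?_
  intro Q _ hQ
  have hQP : (Q : Measure E) = (P : Measure E) :=
    ext_of_ech Φ hΦ.continuous hΦ.injective fun q => by rw [hval Q hQ q, hval P hP q]
  exact ProbabilityMeasure.toMeasure_injective hQP

end Crest.Agent.R166.LimLaw980
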