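import Mathlib
import Crest.Agent.R166.NoiseLLN_849
import Crest.Agent.R166.Words_955

/-!
Row 166, section 40.2 (helper849): the noise limit.

* `walk_bijective`, `card_fiber_walk`: every vertex is the end of exactly `d` walks with a given
  word;
* `norm_Ew_le`, `Ew_prob`: window averages of `φ (exp (i τ·Z) - exp (-τ·Γ·τ/2))` are small with
  high probability when `Γ` is close to `g(H)` at most half-edges.
-/

set_option autoImplicit false
set_option linter.unusedSectionVars false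

noncomputable section

namespace Crest.Agent.R166.NoiseLim849

open MeasureTheory ProbabilityTheory Matrix
open Crest.Agent.R166.Noise547 Crest.Agent.R166.Gauss286 Crest.Agent.R166.NoiseLLN849
open Crest.Agent.R166.Words955

/-! ### Walks are bijections -/

section walks
variable {V : Type*} {d : ℕ} [NeZero d]

theorem walk_bijective (p : V × Fin d → V × Fin d) (hp : ∀ h, p (p h) = h) (w : List (Fin d)) :
    Function.Bijective (walk p w) := by
  induction w with
  | nil => exact Function.bijective_id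
  | cons i w ih =>
    have h1 : Function.Bijective (fun h : V × Fin d => p (h.1, h.2 + i)) := by
      have hpb : Function.Bijective p := Function.Involutive.bijective hp
      have h2 : Function.Bijective (fun h : V × Fin d => (h.1, h.2 + i)) := by
        constructor
        · rintro ⟨a, b⟩ ⟨a', b'⟩ h
          simp only [Prod.mk.injEq, add_left_inj] at h
          rw [h.1, h.2]
        · rintro ⟨a, b⟩
          exact ⟨(a, b - i), by simp⟩
      exact hpb.comp h2
    exact ih.comp h1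

/-- every vertex is the end of exactly `d` walks with a given word -/
theorem card_fiber_walk [Fintype V] [DecidableEq V] (p : V × Fin d → V × Fin d)
    (hp : ∀ h, p (p h) = h) (w : List (Fin d)) (v : V) :
    (Finset.univ.filter fun h : V × Fin d => (walk p w h).1 = v).card = d := by
  have hb := walk_bijective p hp w
  have h1 : (Finset.univ.filter fun h : V × Fin d => (walk p w h).1 = v).card =
      (Finset.univ.filter fun h : V × Fin d => h.1 = v).card := by
    refine Finset.card_bij (fun h _ => walk p w h) ?_ ?_ ?_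
    · intro h hh
      simpa using hh
    · intro h _ h' _ e
      exact hb.1 e
    · intro h hh
      obtain ⟨h', rfl⟩ := hb.2 h
      exact ⟨h', by simpa using hh, rfl⟩
  rw [h1]
  have h2 : (Finset.univ.filter fun h : V × Fin d => h.1 = v) =
      ({v} : Finset V) ×ˢ (Finset.univ : Finset (Fin d)) := by
    ext ⟨a, b⟩
    simp [eq_comm]
  rw [h2, Finset.card_product]
  simp

end walks

/-! ### Replacing the covariance by a local one -/

lemma abs_exp_sub_exp_le {a b : ℝ} (ha : 0 ≤ a) (hb : 0 ≤ b) :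
    |Real.exp (-a) - Real.exp (-b)| ≤ |a - b| := by
  wlog h : a ≤ b generalizing a b
  · rw [abs_sub_comm, abs_sub_comm a b]
    exact this hb ha (le_of_not_ge h)
  rw [abs_of_nonneg (by linarith [Real.exp_le_exp.2 (neg_le_neg h)]), abs_sub_comm,
    abs_of_nonneg (by linarith)]
  have h1 : Real.exp (-b) = Real.exp (-a) * Real.exp (-(b - a)) := by
    rw [← Real.exp_add]; congr 1; ring
  have h2 : 1 - (b - a) ≤ Real.exp (-(b - a)) := by
    have := Real.add_one_le_exp (-(b - a)); linarith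
  have h3 : Real.exp (-a) ≤ 1 := by rw [Real.exp_le_one_iff]; linarith
  have h4 : Real.exp (-(b - a)) ≤ 1 := by rw [Real.exp_le_one_iff]; linarith
  rw [h1]
  calc Real.exp (-a) - Real.exp (-a) * Real.exp (-(b - a))
      = Real.exp (-a) * (1 - Real.exp (-(b - a))) := by ring
    _ ≤ 1 * (1 - Real.exp (-(b - a))) := by
        apply mul_le_mul_of_nonneg_right h3; linarith
    _ ≤ b - a := by linarith

section windows
variable {V J B : Type*} [Fintype V] [DecidableEq V] [Fintype J] [Fintype B]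
  {H : Matrix V V ℝ} {I : Type*} [Fintype I]

/-- total size of the test vector -/
def Tt (τ : B → J → ℝ) : ℝ := ∑ j, (∑ b, |τ b j|) ^ 2

lemma Tt_nonneg (τ : B → J → ℝ) : 0 ≤ Tt τ := Finset.sum_nonneg fun _ _ => sq_nonneg _

/-- quadratic form of a kernel -/
def Qf (τ : B → J → ℝ) (Γ : B → B → ℝ) : ℝ := ∑ j, ∑ b, ∑ b', τ b j * Γ b b' * τ b' j

lemma Qf_nonneg (τ : B → J → ℝ) {Γ : B → B → ℝ}
    (hΓ : ∀ c : B → ℝ, 0 ≤ ∑ b, ∑ b', c b * Γ b b' * c b') : 0 ≤ Qf τ Γ :=
  Finset.sum_nonneg fun j _ => hΓ fun b => τ b j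

lemma abs_Qf_sub_le (τ : B → J → ℝ) {Γ Γ' : B → B → ℝ} {δ : ℝ}
    (h : ∀ b b', |Γ b b' - Γ' b b'| ≤ δ) : |Qf τ Γ - Qf τ Γ'| ≤ Tt τ * δ := by
  have h1 : Qf τ Γ - Qf τ Γ' = ∑ j, ∑ b, ∑ b', τ b j * (Γ b b' - Γ' b b') * τ b' j := by
    unfold Qf
    simp only [← Finset.sum_sub_distrib]
    refine Finset.sum_congr rfl fun j _ => Finset.sum_congr rfl fun b _ =>
      Finset.sum_congr rfl fun b' _ => by ring
  rw [h1]
  calc |∑ j, ∑ b, ∑ b', τ b j * (Γ b b' - Γ' b b') * τ b' j|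
      ≤ ∑ j, ∑ b, ∑ b', |τ b j * (Γ b b' - Γ' b b') * τ b' j| := by
        refine (Finset.abs_sum_le_sum_abs _ _).trans (Finset.sum_le_sum fun j _ => ?_)
        refine (Finset.abs_sum_le_sum_abs _ _).trans (Finset.sum_le_sum fun b _ => ?_)
        exact Finset.abs_sum_le_sum_abs _ _
    _ ≤ ∑ j, ∑ b, ∑ b', |τ b j| * δ * |τ b' j| := by
        refine Finset.sum_le_sum fun j _ => Finset.sum_le_sum fun b _ =>
          Finset.sum_le_sum fun b' _ => ?_
        rw [abs_mul, abs_mul]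
        exact mul_le_mul_of_nonneg_right
          (mul_le_mul_of_nonneg_left (h b b') (abs_nonneg _)) (abs_nonneg _)
    _ = Tt τ * δ := by
        unfold Tt
        rw [Finset.sum_mul]
        refine Finset.sum_congr rfl fun j _ => ?_
        rw [sq, Finset.sum_mul, Finset.sum_mul]
        refine Finset.sum_congr rfl fun b _ => ?_
        rw [Finset.mul_sum, Finset.sum_mul]
        refine Finset.sum_congr rfl fun b' _ => by ring

lemma Qf_fM_nonneg (hH : H.IsHermitian) {g : ℝ → ℝ} (hg : ∀ i, 0 ≤ g (hH.eigenvalues i))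
    (x : B → V) (τ : B → J → ℝ) : 0 ≤ Qf τ (fun b b' => fM hH g (x b) (x b')) := by
  have h1 := Gf_nonneg hH hg (aw (I := Unit) (fun b _ => x b) τ ())
  rwa [Gf_aw] at h1

/-- window average of `φ (exp (i τ·Z) - exp (-τ·Γ·τ/2))` -/
def Ew (hH : H.IsHermitian) (g : ℝ → ℝ) (x : B → I → V) (τ : B → J → ℝ) (Γ : I → B → B → ℝ)
    (φ : I → ℂ) (ξ : J → V → ℝ) : ℂ :=
  (∑ h, φ h * (Complex.exp (Complex.I * ((∑ j, ∑ b, τ b j * Zn hH g ξ j (x b h) : ℝ) : ℂ)) -
    Complex.exp (-((Qf τ (Γ h) : ℝ) : ℂ) / 2))) / (Fintype.card I : ℂ)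

/-- the change of the covariance costs at most `(T/2 + 1) δ` -/
theorem norm_Ew_le (hH : H.IsHermitian) {g : ℝ → ℝ} (hg : ∀ i, 0 ≤ g (hH.eigenvalues i))
    (x : B → I → V) (τ : B → J → ℝ) (Γ : I → B → B → ℝ)
    (hΓ : ∀ h (c : B → ℝ), 0 ≤ ∑ b, ∑ b', c b * Γ h b b' * c b')
    (φ : I → ℂ) (hφ : ∀ h, ‖φ h‖ ≤ 1) {δ : ℝ} (hδ : 0 ≤ δ) (S : Finset I)
    (hS : (S.card : ℝ) ≤ δ * Fintype.card I)
    (hloc : ∀ h, h ∉ S → ∀ b b', |fM hH g (x b h) (x b' h) - Γ h b b'| ≤ δ)
    (ξ : J → V → ℝ) :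
    ‖Ew hH g x τ Γ φ ξ‖ ≤ ‖Dw hH g x τ φ ξ‖ + (Tt τ / 2 + 1) * δ := by
  classical
  set Gh : I → B → B → ℝ := fun h b b' => fM hH g (x b h) (x b' h) with hGh
  have hsub : Ew hH g x τ Γ φ ξ = Dw hH g x τ φ ξ +
      (∑ h, φ h * (Complex.exp (-((Qf τ (Gh h) : ℝ) : ℂ) / 2) -
        Complex.exp (-((Qf τ (Γ h) : ℝ) : ℂ) / 2))) / (Fintype.card I : ℂ) := by
    unfold Ew Dw
    rw [← add_div, ← Finset.sum_add_distrib]
    congr 1
    refine Finset.sum_congr rfl fun h _ => ?_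
    simp only [Qf, hGh]
    ring
  have hterm : ∀ h, ‖φ h * (Complex.exp (-((Qf τ (Gh h) : ℝ) : ℂ) / 2) -
        Complex.exp (-((Qf τ (Γ h) : ℝ) : ℂ) / 2))‖ ≤
        Tt τ / 2 * δ + if h ∈ S then 1 else 0 := by
    intro h
    have hre : Complex.exp (-((Qf τ (Gh h) : ℝ) : ℂ) / 2) -
        Complex.exp (-((Qf τ (Γ h) : ℝ) : ℂ) / 2) =
        ((Real.exp (-(Qf τ (Gh h) / 2)) - Real.exp (-(Qf τ (Γ h) / 2)) : ℝ) : ℂ) := by
      push_cast
      congr 2 <;> ring
    have h0 : 0 ≤ Qf τ (Gh h) / 2 := by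
      have := Qf_fM_nonneg hH hg (fun b => x b h) τ
      simp only [hGh]; linarith
    have h0' : 0 ≤ Qf τ (Γ h) / 2 := by
      have := Qf_nonneg τ (hΓ h); linarith
    rw [norm_mul, hre, Complex.norm_real, Real.norm_eq_abs]
    have hle1 : ‖φ h‖ * |Real.exp (-(Qf τ (Gh h) / 2)) - Real.exp (-(Qf τ (Γ h) / 2))| ≤
        |Real.exp (-(Qf τ (Gh h) / 2)) - Real.exp (-(Qf τ (Γ h) / 2))| :=
      mul_le_of_le_one_left (abs_nonneg _) (hφ h)
    refine hle1.trans ?_
    by_cases hS' : h ∈ S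
    · rw [if_pos hS']
      have e1 : Real.exp (-(Qf τ (Gh h) / 2)) ≤ 1 := by rw [Real.exp_le_one_iff]; linarith
      have e2 : Real.exp (-(Qf τ (Γ h) / 2)) ≤ 1 := by rw [Real.exp_le_one_iff]; linarith
      have e3 := Real.exp_pos (-(Qf τ (Gh h) / 2))
      have e4 := Real.exp_pos (-(Qf τ (Γ h) / 2))
      have e5 : 0 ≤ Tt τ / 2 * δ := mul_nonneg (by linarith [Tt_nonneg τ]) hδ
      have : |Real.exp (-(Qf τ (Gh h) / 2)) - Real.exp (-(Qf τ (Γ h) / 2))| ≤ 1 := by
        rw [abs_le]; constructor <;> linarith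
      linarith
    · rw [if_neg hS', add_zero]
      refine (abs_exp_sub_exp_le h0 h0').trans ?_
      have h1 := abs_Qf_sub_le τ (hloc h hS')
      have h2 : |Qf τ (Gh h) / 2 - Qf τ (Γ h) / 2| = |Qf τ (Gh h) - Qf τ (Γ h)| / 2 := by
        rw [← sub_div, abs_div, abs_of_pos (by norm_num : (0:ℝ) < 2)]
      rw [h2]
      have h3 : |Qf τ (Gh h) - Qf τ (Γ h)| ≤ Tt τ * δ := h1
      linarith
  rw [hsub]
  refine (norm_add_le _ _).trans (add_le_add le_rfl ?_)
  rw [norm_div, Complex.norm_natCast]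
  rcases isEmpty_or_nonempty I with hI | hI
  · simp only [Finset.univ_eq_empty, Finset.sum_empty, norm_zero, zero_div]
    have := Tt_nonneg τ
    positivity
  · have hpos : (0:ℝ) < Fintype.card I := by exact_mod_cast Fintype.card_pos
    rw [div_le_iff₀ hpos]
    calc ‖∑ h, φ h * (Complex.exp (-((Qf τ (Gh h) : ℝ) : ℂ) / 2) -
          Complex.exp (-((Qf τ (Γ h) : ℝ) : ℂ) / 2))‖
        ≤ ∑ h, (Tt τ / 2 * δ + if h ∈ S then (1:ℝ) else 0) :=
          (norm_sum_le _ _).trans (Finset.sum_le_sum fun h _ => hterm h)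
      _ = Tt τ / 2 * δ * Fintype.card I + S.card := by
          rw [Finset.sum_add_distrib, Finset.sum_const, Finset.card_univ, nsmul_eq_mul,
            Finset.sum_ite_mem, Finset.univ_inter, Finset.sum_const, nsmul_eq_mul]
          ring
      _ ≤ Tt τ / 2 * δ * Fintype.card I + δ * Fintype.card I := by linarith
      _ = (Tt τ / 2 + 1) * δ * Fintype.card I := by ring

/-- probability form -/
theorem Ew_prob (hH : H.IsHermitian) {g : ℝ → ℝ} {M : ℝ} (hM : 0 ≤ M)
    (hg : ∀ i, 0 ≤ g (hH.eigenvalues i)) (hgM : ∀ i, g (hH.eigenvalues i) ≤ M)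
    (x : B → I → V) (τ : B → J → ℝ) (Γ : I → B → B → ℝ)
    (hΓ : ∀ h (c : B → ℝ), 0 ≤ ∑ b, ∑ b', c b * Γ h b b' * c b')
    (φ : I → ℂ) (hφ : ∀ h, ‖φ h‖ ≤ 1) {m : ℕ}
    (hm : ∀ b v, (Finset.univ.filter fun h => x b h = v).card ≤ m)
    (hcard : Fintype.card I = m * Fintype.card V) {δ : ℝ} (hδ : 0 ≤ δ) (S : Finset I)
    (hS : (S.card : ℝ) ≤ δ * Fintype.card I)
    (hloc : ∀ h, h ∉ S → ∀ b b', |fM hH g (x b h) (x b' h) - Γ h b b'| ≤ δ)
    {r : ℝ} (hr : 0 < r) :
    (gm J V) {ξ | r + (Tt τ / 2 + 1) * δ ≤ ‖Ew hH g x τ Γ φ ξ‖} ≤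
      ENNReal.ofReal (Tt τ * M / Real.sqrt (Fintype.card V) / r ^ 2) := by
  refine le_trans (measure_mono ?_) (lln_prob hH hM hg hgM x τ φ hφ hm hcard hr)
  intro ξ hξ
  simp only [Set.mem_ofPred_eq] at hξ ⊢
  have := norm_Ew_le hH hg x τ Γ hΓ φ hφ hδ S hS hloc ξ
  linarith

end windows

end Crest.Agent.R166.NoiseLim849
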