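import Mathlib
import Crest.Agent.R166.NoiseLim_849
import Crest.Agent.R166.LimLaw_980

/-!
Row 166, section 40.2 (helper849): the noise limit, part B, preliminaries.

* `exists_good`: diagonal choice of good noise events along a filter;
* `empP`, `integral_emp`: empirical laws as probability measures;
* `coordE`: the closed embedding of configurations into `T → ℝ` (for `LimLaw980.exists_limit`).
-/

set_option autoImplicit false
set_option linter.unusedSectionVars false

noncomputable section

namespace Crest.Agent.R166.NoiseLim849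

open MeasureTheory ProbabilityTheory Matrix Filter Topology
open Crest.Agent.R166.Noise547 Crest.Agent.R166.Gauss286 Crest.Agent.R166.NoiseLLN849
open Crest.Agent.R166.Words955

/-! ### Diagonal choice of good events -/

/-- diagonal choice: countably many families of events of vanishing probability can be avoided
simultaneously, more and more of them along the filter -/
theorem exists_good {A : Type*} {l : Filter A} {n : A → ℕ} (hn : Tendsto n l atTop)
    {Ω : A → Type*} [∀ a, MeasurableSpace (Ω a)] (ν : ∀ a, Measure (Ω a))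
    (bad : ℕ → ∀ a, Set (Ω a)) (hbad : ∀ i, Tendsto (fun a => ν a (bad i a)) l (𝓝 0)) :
    ∃ m : A → ℕ, Tendsto m l atTop ∧
      Tendsto (fun a => ν a (⋃ i ∈ Finset.range (m a + 1), bad i a)) l (𝓝 0) := by
  classical
  set P : ℕ → A → Prop := fun M a => ∀ i ≤ M, ν a (bad i a) ≤ (((M : ENNReal) + 1) ^ 2)⁻¹ with hP
  have hPe : ∀ M, ∀ᶠ a in l, P M a := by
    intro M
    have h1 : ∀ i ∈ Finset.range (M + 1), ∀ᶠ a in l,
        ν a (bad i a) ≤ (((M : ENNReal) + 1) ^ 2)⁻¹ := by
      intro i _
      have h2 : 0 < (((M : ENNReal) + 1) ^ 2)⁻¹ := ENNReal.inv_pos.2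
        (ENNReal.pow_ne_top (ENNReal.add_ne_top.2 ⟨ENNReal.natCast_ne_top _, by simp⟩))
      exact ENNReal.tendsto_nhds_zero.1 (hbad i) _ h2
    have h3 := (Filter.eventually_all_finset (Finset.range (M + 1))).2 h1
    filter_upwards [h3] with a ha i hi
    exact ha i (Finset.mem_range.2 (by omega))
  set m : A → ℕ := fun a => Nat.findGreatest (fun M => P M a) (n a) with hm
  have hmt : Tendsto m l atTop := by
    rw [tendsto_atTop]
    intro M
    filter_upwards [hPe M, (tendsto_atTop.1 hn) M] with a ha hna
    exact Nat.le_findGreatest hna ha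
  refine ⟨m, hmt, ?_⟩
  have hle : ∀ᶠ a in l, ν a (⋃ i ∈ Finset.range (m a + 1), bad i a) ≤
      ((m a : ENNReal) + 1)⁻¹ := by
    filter_upwards [(tendsto_atTop.1 hmt) 1] with a ha
    have hPm : P (m a) a := Nat.findGreatest_of_ne_zero (P := fun M => P M a) (n := n a)
      (m := m a) rfl (by omega)
    refine (measure_biUnion_finset_le _ _).trans ?_
    calc ∑ i ∈ Finset.range (m a + 1), ν a (bad i a)
        ≤ ∑ _i ∈ Finset.range (m a + 1), (((m a : ENNReal) + 1) ^ 2)⁻¹ :=
          Finset.sum_le_sum fun i hi => hPm i (by have := Finset.mem_range.1 hi; omega)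
      _ = ((m a : ENNReal) + 1) * (((m a : ENNReal) + 1) ^ 2)⁻¹ := by
          rw [Finset.sum_const, Finset.card_range, nsmul_eq_mul]
          push_cast
          rfl
      _ = ((m a : ENNReal) + 1)⁻¹ := by
          have h0 : ((m a : ENNReal) + 1) ≠ 0 := by simp
          have h1 : ((m a : ENNReal) + 1) ≠ ⊤ :=
            ENNReal.add_ne_top.2 ⟨ENNReal.natCast_ne_top _, by simp⟩
          rw [sq, ENNReal.mul_inv (Or.inl h0) (Or.inl h1), ← mul_assoc,
            ENNReal.mul_inv_cancel h0 h1, one_mul]
  have hlim : Tendsto (fun a => ((m a : ENNReal) + 1)⁻¹) l (𝓝 0) := by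
    have h1 : Tendsto (fun j : ℕ => ((j : ENNReal) + 1)⁻¹) atTop (𝓝 0) := by
      have h2 := ENNReal.tendsto_inv_nat_nhds_zero.comp (tendsto_add_atTop_nat 1)
      refine h2.congr fun j => ?_
      simp [Function.comp]
    exact h1.comp hmt
  exact tendsto_of_tendsto_of_tendsto_of_le_of_le' tendsto_const_nhds hlim
    (Eventually.of_forall fun _ => zero_le) hle

/-! ### Empirical laws -/

section emp
variable {d : ℕ} [NeZero d] {S : Type*} [MeasurableSpace S] {V : Type*} [Fintype V]

theorem isProb_emp [Nonempty V] (p : V × Fin d → V × Fin d) (c : V × Fin d → S) :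
    IsProbabilityMeasure (emp p c) := by
  have : Nonempty (Fin d) := ⟨0⟩
  constructor
  unfold emp
  rw [Measure.smul_apply, Measure.finsetSum_apply, smul_eq_mul]
  simp only [measure_univ, Finset.sum_const, Finset.card_univ, nsmul_eq_mul, mul_one]
  have h0 : (Fintype.card (V × Fin d) : ENNReal) ≠ 0 := by
    exact_mod_cast Fintype.card_ne_zero
  exact ENNReal.inv_mul_cancel h0 (ENNReal.natCast_ne_top _)

/-- empirical law as a probability measure -/
def empP [Nonempty V] (p : V × Fin d → V × Fin d) (c : V × Fin d → S) :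
    ProbabilityMeasure (Conf d S) := ⟨emp p c, isProb_emp p c⟩

theorem integral_emp [MeasurableSingletonClass (Conf d S)] {E : Type*} [NormedAddCommGroup E]
    [NormedSpace ℝ E] [CompleteSpace E] (p : V × Fin d → V × Fin d) (c : V × Fin d → S)
    (f : Conf d S → E) :
    ∫ ζ, f ζ ∂(emp p c) = (Fintype.card (V × Fin d) : ℝ)⁻¹ • ∑ h, f (conf p c h) := by
  unfold emp
  rw [integral_smul_measure, integral_finsetSum_measure]
  · simp [integral_dirac]
  · intro h _
    exact integrable_dirac (by simp)

theorem emp_apply_le [Nonempty V] (p : V × Fin d → V × Fin d) (c : V × Fin d → S)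
    {s : Set (Conf d S)} (hs : MeasurableSet s) {b : ℝ} [DecidablePred (· ∈ s)]
    (h : ((Finset.univ.filter fun h : V × Fin d => conf p c h ∈ s).card : ℝ) ≤
      b * Fintype.card (V × Fin d)) :
    emp p c s ≤ ENNReal.ofReal b := by
  have : Nonempty (Fin d) := ⟨0⟩
  have h0 : (0 : ℝ) < Fintype.card (V × Fin d) := by exact_mod_cast Fintype.card_pos
  unfold emp
  rw [Measure.smul_apply, Measure.finsetSum_apply, smul_eq_mul]
  have h1 : ∑ h : V × Fin d, (Measure.dirac (conf p c h)) s =
      ((Finset.univ.filter fun h : V × Fin d => conf p c h ∈ s).card : ENNReal) := by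
    rw [Finset.card_filter]
    push_cast
    refine Finset.sum_congr rfl fun h _ => ?_
    rw [Measure.dirac_apply' _ hs, Set.indicator_apply]
    rfl
  have h2 : (((Fintype.card (V × Fin d) : ℕ) : ENNReal))⁻¹ =
      ENNReal.ofReal ((Fintype.card (V × Fin d) : ℝ)⁻¹) := by
    rw [ENNReal.ofReal_inv_of_pos h0, ENNReal.ofReal_natCast]
  have h3 : ((Finset.univ.filter fun h : V × Fin d => conf p c h ∈ s).card : ENNReal) =
      ENNReal.ofReal ((Finset.univ.filter fun h : V × Fin d => conf p c h ∈ s).card : ℝ) := by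
    rw [ENNReal.ofReal_natCast]
  rw [h1, h2, h3, ← ENNReal.ofReal_mul (by positivity)]
  refine ENNReal.ofReal_le_ofReal ?_
  rw [inv_mul_le_iff₀ h0, mul_comm]
  exact h

end emp

/-! ### Coordinates -/

section coords
variable (d : ℕ) [NeZero d] (k : ℕ)

/-- vertex data `(ω, X)` -/
abbrev S1 : Type := Fin d × ℝ × (Fin k → ℝ)

/-- vertex data `(ω, X, Z)` -/
abbrev S2 : Type := Fin d × ℝ × (Fin k → ℝ) × (Fin k → ℝ)

/-- names of the coordinates: label, `ω`, `X i`, `Z i` -/
abbrev A2 : Type := (Unit ⊕ Unit) ⊕ (Fin k ⊕ Fin k)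

/-- the coordinates as a homeomorphism -/
def coordH : (ℝ × ℝ × (Fin k → ℝ) × (Fin k → ℝ)) ≃ₜ (A2 k → ℝ) where
  toFun s := Sum.elim (Sum.elim (fun _ => s.1) (fun _ => s.2.1)) (Sum.elim s.2.2.1 s.2.2.2)
  invFun f := (f (Sum.inl (Sum.inl ())), f (Sum.inl (Sum.inr ())),
    fun i => f (Sum.inr (Sum.inl i)), fun i => f (Sum.inr (Sum.inr i)))
  left_inv s := rfl
  right_inv f := by
    funext x
    rcases x with (x | x) | (x | x) <;> rfl
  continuous_toFun := by
    refine continuous_pi fun x => ?_
    rcases x with (x | x) | (x | x)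
    · exact continuous_fst
    · exact continuous_fst.comp continuous_snd
    · exact (continuous_apply x).comp (continuous_fst.comp (continuous_snd.comp continuous_snd))
    · exact (continuous_apply x).comp (continuous_snd.comp (continuous_snd.comp continuous_snd))
  continuous_invFun := by fun_prop

/-- coordinates of the vertex data -/
def coordS (s : S2 d k) : A2 k → ℝ :=
  coordH k (((s.1 : ℕ) : ℝ), s.2)

theorem isClosedEmbedding_coordS : IsClosedEmbedding (coordS d k) := by
  have h1 : IsClosedEmbedding (fun i : Fin d => (((i : ℕ) : ℝ))) := by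
    refine Continuous.isClosedEmbedding continuous_of_discreteTopology ?_
    intro i j h
    have h' : ((i : ℕ) : ℝ) = ((j : ℕ) : ℝ) := h
    exact Fin.ext (by exact_mod_cast h')
  have h2 : IsClosedEmbedding (Prod.map (fun i : Fin d => (((i : ℕ) : ℝ)))
      (id : ℝ × (Fin k → ℝ) × (Fin k → ℝ) → _)) := h1.prodMap IsClosedEmbedding.id
  exact (coordH k).isClosedEmbedding.comp h2

/-- coordinates of configurations -/
def coordE (ζ : Conf d (S2 d k)) : TW d × A2 k → ℝ := fun x => coordS d k (ζ x.1) x.2

theorem isClosedEmbedding_coordE : IsClosedEmbedding (coordE d k) := by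
  have h1 : IsClosedEmbedding (Pi.map fun _ : TW d => coordS d k) :=
    IsClosedEmbedding.piMap fun _ => isClosedEmbedding_coordS d k
  have h2 : IsClosedEmbedding (fun (f : TW d → A2 k → ℝ) (x : TW d × A2 k) => f x.1 x.2) := by
    let e : (TW d → A2 k → ℝ) ≃ₜ (TW d × A2 k → ℝ) :=
      { toFun := fun f x => f x.1 x.2
        invFun := fun f w a => f (w, a)
        left_inv := fun f => rfl
        right_inv := fun f => rfl
        continuous_toFun := by fun_prop
        continuous_invFun := by fun_prop }
    exact e.isClosedEmbedding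
  exact h2.comp h1

end coords

end Crest.Agent.R166.NoiseLim849
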