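import Mathlib
import Crest.Agent.R166.NoiseLim2_849

/-!
Row 166, section 40.2 (helper849): the noise limit, part B: energy of the noise, tightness.
-/

set_option autoImplicit false
set_option linter.unusedSectionVars false

noncomputable section

namespace Crest.Agent.R166.NoiseLim849

open MeasureTheory ProbabilityTheory Matrix Filter Topology
open Crest.Agent.R166.Noise547 Crest.Agent.R166.Gauss286 Crest.Agent.R166.NoiseLLN849
open Crest.Agent.R166.Words955

/-! ### Upper tail of the chi-square law -/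

/-- variance of the square of a standard Gaussian -/
def v4 : ℝ := Var[fun x : ℝ => x ^ 2; gaussianReal 0 1]

lemma v4_nonneg : 0 ≤ v4 := variance_nonneg _ _

lemma memLp_sq : MemLp (fun x : ℝ => x ^ 2) 2 (gaussianReal 0 1) := by
  have h1 : MemLp (id : ℝ → ℝ) 4 (gaussianReal 0 1) :=
    memLp_id_gaussianReal' 4 (by simp)
  have h2 := h1.norm_rpow_div 2
  have h3 : (4 : ENNReal) / 2 = 2 := by
    rw [show (4 : ENNReal) = 2 * 2 by norm_num]
    exact ENNReal.mul_div_cancel_right (by simp) (by simp)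
  rw [h3] at h2
  refine h2.congr_norm (by fun_prop) (Eventually.of_forall fun x => ?_)
  simp

lemma integral_sq : ∫ x : ℝ, x ^ 2 ∂(gaussianReal 0 1) = 1 := by
  have h1 : Var[fun x : ℝ => x; gaussianReal 0 1] = 1 := by
    rw [variance_fun_id_gaussianReal]; simp
  have h2 : MemLp (fun x : ℝ => x) 2 (gaussianReal 0 1) := memLp_id_gaussianReal' 2 (by simp)
  rw [variance_eq_sub h2, integral_id_gaussianReal] at h1
  simpa using h1

theorem chi_upper {V : Type*} [Fintype V] [Nonempty V] :
    (gv V) {ξ | 2 * (Fintype.card V : ℝ) ≤ ∑ v, ξ v ^ 2} ≤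
      ENNReal.ofReal (v4 / Fintype.card V) := by
  have hc : (0 : ℝ) < Fintype.card V := by exact_mod_cast Fintype.card_pos
  have hX : MemLp (fun ξ : V → ℝ => ∑ v, ξ v ^ 2) 2 (gv V) := by
    refine memLp_finsetSum _ fun v _ => ?_
    exact memLp_sq.comp_measurePreserving (measurePreserving_eval (fun _ : V => gaussianReal 0 1) v)
  have hvar : Var[fun ξ : V → ℝ => ∑ v, ξ v ^ 2; gv V] = Fintype.card V * v4 := by
    have h1 := variance_sum_pi (μ := fun _ : V => gaussianReal 0 1)
      (X := fun _ x => x ^ 2) (fun _ => memLp_sq)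
    have h2 : (∑ v : V, fun ξ : V → ℝ => ξ v ^ 2) = fun ξ : V → ℝ => ∑ v, ξ v ^ 2 := by
      ext ξ; simp
    rw [h2] at h1
    rw [h1, Finset.sum_const, Finset.card_univ, nsmul_eq_mul]
    rfl
  have hmean : ∫ ξ : V → ℝ, ∑ v, ξ v ^ 2 ∂(gv V) = Fintype.card V := by
    rw [integral_finsetSum]
    · have h1 : ∀ v : V, ∫ ξ : V → ℝ, ξ v ^ 2 ∂(gv V) = 1 := by
        intro v
        have h2 := (measurePreserving_eval (fun _ : V => gaussianReal 0 1) v).map_eq
        have h3 : ∫ x, x ^ 2 ∂((gv V).map (Function.eval v)) =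
            ∫ ξ : V → ℝ, (Function.eval v ξ) ^ 2 ∂(gv V) :=
          integral_map (measurable_pi_apply v).aemeasurable (by fun_prop)
        rw [h2, integral_sq] at h3
        exact h3.symm
      simp [h1]
    · intro v _
      exact (memLp_sq.comp_measurePreserving
        (measurePreserving_eval (fun _ : V => gaussianReal 0 1) v)).integrable one_le_two
  have h1 := meas_ge_le_variance_div_sq hX hc
  rw [hvar, hmean] at h1
  refine (measure_mono ?_).trans (h1.trans (le_of_eq ?_))
  · intro ξ hξ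
    simp only [Set.mem_ofPred_eq] at hξ ⊢
    rw [abs_of_nonneg (by linarith)]
    linarith
  · congr 1
    field_simp

/-- marginal of a row -/
lemma gm_eval {V J : Type*} [Fintype V] [Fintype J] (j : J) :
    MeasurePreserving (fun ξ : J → V → ℝ => ξ j) (gm J V) (gv V) :=
  measurePreserving_eval (fun _ : J => gv V) j

/-- the energy event -/
def En (V J : Type*) [Fintype V] [Fintype J] : Set (J → V → ℝ) :=
  {ξ | ∀ j, ∑ v, ξ j v ^ 2 < 2 * (Fintype.card V : ℝ)}

lemma measurableSet_En (V J : Type*) [Fintype V] [Fintype J] : MeasurableSet (En V J) := by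
  have : En V J = ⋂ j, {ξ : J → V → ℝ | ∑ v, ξ j v ^ 2 < 2 * (Fintype.card V : ℝ)} := by
    ext ξ
    simp [En]
  rw [this]
  refine MeasurableSet.iInter fun j => measurableSet_lt ?_ measurable_const
  exact Finset.measurable_sum _ fun v _ => (measurable_entry j v).pow_const 2

theorem En_compl_le (V J : Type*) [Fintype V] [Nonempty V] [Fintype J] :
    (gm J V) (En V J)ᶜ ≤ Fintype.card J * ENNReal.ofReal (v4 / Fintype.card V) := by
  have h1 : (En V J)ᶜ ⊆ ⋃ j ∈ (Finset.univ : Finset J),
      (fun ξ : J → V → ℝ => ξ j) ⁻¹' {x : V → ℝ | 2 * (Fintype.card V : ℝ) ≤ ∑ v, x v ^ 2} := by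
    intro ξ hξ
    simp only [En, Set.mem_compl_iff, Set.mem_ofPred_eq, not_forall, not_lt] at hξ
    obtain ⟨j, hj⟩ := hξ
    simp only [Finset.mem_univ, Set.iUnion_true, Set.mem_iUnion, Set.mem_preimage,
      Set.mem_ofPred_eq]
    exact ⟨j, hj⟩
  refine (measure_mono h1).trans ((measure_biUnion_finset_le _ _).trans ?_)
  calc ∑ j : J, (gm J V) ((fun ξ : J → V → ℝ => ξ j) ⁻¹'
        {x : V → ℝ | 2 * (Fintype.card V : ℝ) ≤ ∑ v, x v ^ 2})
      ≤ ∑ _j : J, ENNReal.ofReal (v4 / Fintype.card V) := by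
        refine Finset.sum_le_sum fun j _ => ?_
        rw [(gm_eval j).measure_preimage]
        · exact chi_upper
        · refine MeasurableSet.nullMeasurableSet (measurableSet_le measurable_const ?_)
          fun_prop
    _ = _ := by rw [Finset.sum_const, Finset.card_univ, nsmul_eq_mul]

/-! ### Energy of the noise -/

section energy
variable {V J : Type*} [Fintype V] [DecidableEq V] [Fintype J] {H : Matrix V V ℝ}

lemma sum_Zn_sq (hH : H.IsHermitian) {g : ℝ → ℝ} (hg : ∀ i, 0 ≤ g (hH.eigenvalues i))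
    (ξ : J → V → ℝ) (j : J) :
    ∑ v, Zn hH g ξ j v ^ 2 = ∑ x, ∑ y, ξ j x * fM hH g x y * ξ j y := by
  have h1 := Gf_eq (J := Unit) hH hg (fun _ => ξ j)
  simp only [Finset.univ_unique, Finset.sum_singleton, Gf] at h1
  rw [← h1]
  refine Finset.sum_congr rfl fun v _ => ?_
  unfold Zn
  congr 1
  refine Finset.sum_congr rfl fun y _ => ?_
  rw [fM_symm hH _ v y, mul_comm]

theorem sum_Zn_sq_le (hH : H.IsHermitian) {g : ℝ → ℝ} {M : ℝ}
    (hg : ∀ i, 0 ≤ g (hH.eigenvalues i)) (hgM : ∀ i, g (hH.eigenvalues i) ≤ M)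
    (ξ : J → V → ℝ) (j : J) : ∑ v, Zn hH g ξ j v ^ 2 ≤ M * ∑ v, ξ j v ^ 2 := by
  rw [sum_Zn_sq hH hg, fM_quad, parseval hH, Finset.mul_sum]
  exact Finset.sum_le_sum fun i _ => mul_le_mul_of_nonneg_right (hgM i) (sq_nonneg _)

end energy

/-! ### Tails of empirical laws -/

section tails
variable {V : Type*} [Fintype V] {d : ℕ} [NeZero d]

lemma card_tail (p : V × Fin d → V × Fin d) (hp : ∀ h, p (p h) = h) (w : List (Fin d))
    (f : V × Fin d → ℝ) {C R : ℝ} (hR : 0 < R)
    (hf : ∑ h, f h ^ 2 ≤ C * Fintype.card (V × Fin d))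
    [DecidablePred fun h => R < |f (walk p w h)|] :
    ((Finset.univ.filter fun h : V × Fin d => R < |f (walk p w h)|).card : ℝ) ≤
      (C / R ^ 2) * Fintype.card (V × Fin d) := by
  have h1 : ∑ h, f (walk p w h) ^ 2 = ∑ h, f h ^ 2 :=
    (walk_bijective p hp w).sum_comp fun h => f h ^ 2
  have h2 : ((Finset.univ.filter fun h : V × Fin d => R < |f (walk p w h)|).card : ℝ) * R ^ 2 ≤
      ∑ h, f (walk p w h) ^ 2 := by
    calc ((Finset.univ.filter fun h : V × Fin d => R < |f (walk p w h)|).card : ℝ) * R ^ 2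
        = ∑ h ∈ Finset.univ.filter (fun h : V × Fin d => R < |f (walk p w h)|), R ^ 2 := by
          rw [Finset.sum_const, nsmul_eq_mul]
      _ ≤ ∑ h ∈ Finset.univ.filter (fun h : V × Fin d => R < |f (walk p w h)|),
            f (walk p w h) ^ 2 := by
          refine Finset.sum_le_sum fun h hh => ?_
          have h3 := (Finset.mem_filter.1 hh).2
          rw [← sq_abs (f _)]
          exact pow_le_pow_left₀ hR.le h3.le 2
      _ ≤ ∑ h, f (walk p w h) ^ 2 :=
          Finset.sum_le_sum_of_subset_of_nonneg (Finset.filter_subset _ _)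
            fun _ _ _ => sq_nonneg _
  rw [div_mul_eq_mul_div, le_div_iff₀ (by positivity)]
  linarith

end tails

end Crest.Agent.R166.NoiseLim849
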