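import Mathlib
import Crest.Agent.R166.NoiseLim3_849

/-!
Row 166, section 40.2 (helper849): the noise limit, part B: the main theorem.

`Arr A d k` = array of samples (port graph, `ω`, `F`, operator `H`) indexed by `A`.
`noise_limit`: if the empirical laws `e1` of `(label, ω, F)` converge along a filter `l` to `P` and
`g(H)` is local with kernel `Γ`, then on good noise events `G a` (of probability `→ 1`) the
empirical laws `e2` of `(label, ω, F, Z)` converge to a law `Q` with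
`E_Q φ(pr) exp(i τ·Z) = E_P φ exp(-τ·Γ·τ/2)`.
-/

set_option autoImplicit false
set_option linter.unusedSectionVars false

noncomputable section

namespace Crest.Agent.R166.NoiseLim849

open MeasureTheory ProbabilityTheory Matrix Filter Topology BoundedContinuousFunction
open Crest.Agent.R166.Noise547 Crest.Agent.R166.Gauss286 Crest.Agent.R166.NoiseLLN849
open Crest.Agent.R166.Words955 Crest.Agent.R166.LimLaw980

/-- array of samples -/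
structure Arr (A : Type*) (d k : ℕ) where
  /-- number of vertices -/
  n : A → ℕ
  pos : ∀ a, 0 < n a
  /-- port map -/
  p : ∀ a, Fin (n a) × Fin d → Fin (n a) × Fin d
  inv : ∀ a h, p a (p a h) = h
  /-- potential -/
  ω : ∀ a, Fin (n a) → ℝ
  /-- frame -/
  F : ∀ a, Fin (n a) → Fin k → ℝ
  /-- operator -/
  H : ∀ a, Matrix (Fin (n a)) (Fin (n a)) ℝ
  hH : ∀ a, (H a).IsHermitian
  ω_le : ∀ a v, |ω a v| ≤ 1
  F_sq : ∀ a i, ∑ v, F a v i ^ 2 ≤ n a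

variable {A : Type*} {d k : ℕ} [NeZero d]

namespace Arr

variable (𝒜 : Arr A d k) (g : ℝ → ℝ)

theorem ne (a : A) : Nonempty (Fin (𝒜.n a)) := ⟨⟨0, 𝒜.pos a⟩⟩

/-- colours `(label, ω, F)` -/
def c1 (a : A) : Fin (𝒜.n a) × Fin d → S1 d k := lab fun v => (𝒜.ω a v, 𝒜.F a v)

/-- the noise -/
def zz (a : A) (ξ : Fin k → Fin (𝒜.n a) → ℝ) (v : Fin (𝒜.n a)) (j : Fin k) : ℝ :=
  Zn (𝒜.hH a) g ξ j v

/-- colours `(label, ω, F, Z)` -/
def c2 (a : A) (ξ : Fin k → Fin (𝒜.n a) → ℝ) : Fin (𝒜.n a) × Fin d → S2 d k :=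
  lab fun v => (𝒜.ω a v, 𝒜.F a v, 𝒜.zz g a ξ v)

/-- empirical law of `(label, ω, F)` -/
def e1 (a : A) : ProbabilityMeasure (Conf d (S1 d k)) :=
  haveI := 𝒜.ne a
  empP (𝒜.p a) (𝒜.c1 a)

/-- empirical law of `(label, ω, F, Z)` -/
def e2 (a : A) (ξ : Fin k → Fin (𝒜.n a) → ℝ) : ProbabilityMeasure (Conf d (S2 d k)) :=
  haveI := 𝒜.ne a
  empP (𝒜.p a) (𝒜.c2 g a ξ)

end Arr

/-- forget `Z` -/
def pr (ζ : Conf d (S2 d k)) : Conf d (S1 d k) := fun w => ((ζ w).1, (ζ w).2.1, (ζ w).2.2.1)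

theorem continuous_pr : Continuous (pr : Conf d (S2 d k) → Conf d (S1 d k)) := by
  unfold pr
  fun_prop

/-- the phase `τ·Z` -/
def zph (B : Finset (TW d)) (τ : B → Fin k → ℝ) (ζ : Conf d (S2 d k)) : ℝ :=
  ∑ j, ∑ b, τ b j * (ζ b.1).2.2.2 j

theorem continuous_zph (B : Finset (TW d)) (τ : B → Fin k → ℝ) :
    Continuous (zph B τ : Conf d (S2 d k) → ℝ) := by
  unfold zph
  fun_prop

/-- restriction of the kernel to finitely many words -/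
def gam (Γ : TW d → TW d → Conf d (S1 d k) → ℝ) (B : Finset (TW d)) (ζ : Conf d (S1 d k)) :
    B → B → ℝ := fun b b' => Γ b.1 b'.1 ζ

/-- conditional characteristic function -/
def cch (Γ : TW d → TW d → Conf d (S1 d k) → ℝ) (B : Finset (TW d)) (τ : B → Fin k → ℝ)
    (ζ : Conf d (S1 d k)) : ℂ := Complex.exp (-((Qf τ (gam Γ B ζ) : ℝ) : ℂ) / 2)

theorem continuous_cch {Γ : TW d → TW d → Conf d (S1 d k) → ℝ} (hΓ : ∀ w w', Continuous (Γ w w'))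
    (B : Finset (TW d)) (τ : B → Fin k → ℝ) : Continuous (cch Γ B τ) := by
  unfold cch Qf gam
  fun_prop

theorem norm_cch_le {Γ : TW d → TW d → Conf d (S1 d k) → ℝ} {B : Finset (TW d)}
    {ζ : Conf d (S1 d k)} (h : ∀ c : B → ℝ, 0 ≤ ∑ b, ∑ b', c b * Γ b.1 b'.1 ζ * c b')
    (τ : B → Fin k → ℝ) : ‖cch Γ B τ ζ‖ ≤ 1 := by
  unfold cch
  rw [Complex.norm_exp]
  have h1 := Qf_nonneg τ (Γ := gam Γ B ζ) h
  rw [Real.exp_le_one_iff]
  have : (-((Qf τ (gam Γ B ζ) : ℝ) : ℂ) / 2).re = -(Qf τ (gam Γ B ζ)) / 2 := by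
    rw [← Complex.ofReal_neg]
    exact Complex.div_ofNat_re _ 2
  rw [this]
  linarith

/-- the window average attached to `φ`, `B`, `τ` -/
def EwA (𝒜 : Arr A d k) (g : ℝ → ℝ) (Γ : TW d → TW d → Conf d (S1 d k) → ℝ) (a : A)
    (B : Finset (TW d)) (τ : B → Fin k → ℝ) (φ : Conf d (S1 d k) → ℂ)
    (ξ : Fin k → Fin (𝒜.n a) → ℝ) : ℂ :=
  Ew (𝒜.hH a) g (fun (b : B) (h : Fin (𝒜.n a) × Fin d) => (walk (𝒜.p a) b.1.1 h).1) τ
    (fun h => gam Γ B (conf (𝒜.p a) (𝒜.c1 a) h)) (fun h => φ (conf (𝒜.p a) (𝒜.c1 a) h)) ξ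

theorem pr_conf (𝒜 : Arr A d k) (g : ℝ → ℝ) (a : A) (ξ : Fin k → Fin (𝒜.n a) → ℝ)
    (h : Fin (𝒜.n a) × Fin d) :
    pr (conf (𝒜.p a) (𝒜.c2 g a ξ) h) = conf (𝒜.p a) (𝒜.c1 a) h := rfl

/-- the empirical integral of a test function -/
theorem integral_e2 (𝒜 : Arr A d k) (g : ℝ → ℝ) (Γ : TW d → TW d → Conf d (S1 d k) → ℝ) (a : A)
    (B : Finset (TW d)) (τ : B → Fin k → ℝ) (φ : Conf d (S1 d k) → ℂ)
    (ξ : Fin k → Fin (𝒜.n a) → ℝ) :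
    ∫ ζ, φ (pr ζ) * Complex.exp (Complex.I * ((zph B τ ζ : ℝ) : ℂ))
      ∂(𝒜.e2 g a ξ : Measure (Conf d (S2 d k))) =
    EwA 𝒜 g Γ a B τ φ ξ +
      ∫ ζ, φ ζ * cch Γ B τ ζ ∂(𝒜.e1 a : Measure (Conf d (S1 d k))) := by
  have := 𝒜.ne a
  have h1 : ((𝒜.e2 g a ξ : ProbabilityMeasure _) : Measure (Conf d (S2 d k))) =
      emp (𝒜.p a) (𝒜.c2 g a ξ) := rfl
  have h2 : ((𝒜.e1 a : ProbabilityMeasure _) : Measure (Conf d (S1 d k))) =
      emp (𝒜.p a) (𝒜.c1 a) := rfl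
  rw [h1, h2, integral_emp, integral_emp, EwA, Ew, div_eq_inv_mul, Complex.real_smul,
    Complex.real_smul]
  push_cast
  rw [← mul_add, ← Finset.sum_add_distrib]
  congr 1
  refine Finset.sum_congr rfl fun h _ => ?_
  rw [pr_conf, cch]
  have h3 : zph B τ (conf (𝒜.p a) (𝒜.c2 g a ξ) h) =
      ∑ j, ∑ b : B, τ b j * Zn (𝒜.hH a) g ξ j (walk (𝒜.p a) b.1.1 h).1 := rfl
  rw [h3]
  push_cast
  ring

section lim
variable (𝒜 : Arr A d k) (g : ℝ → ℝ) (Γ : TW d → TW d → Conf d (S1 d k) → ℝ) (l : Filter A)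

/-- locality of `g(H)` with kernel `Γ` -/
def Loc : Prop := ∀ (w w' : TW d) (δ : ℝ), 0 < δ → ∀ᶠ a in l, ∃ S : Finset (Fin (𝒜.n a) × Fin d),
  (S.card : ℝ) ≤ δ * Fintype.card (Fin (𝒜.n a) × Fin d) ∧ ∀ h, h ∉ S →
    |fM (𝒜.hH a) g (walk (𝒜.p a) w.1 h).1 (walk (𝒜.p a) w'.1 h).1 -
      Γ w w' (conf (𝒜.p a) (𝒜.c1 a) h)| ≤ δ

variable {𝒜 g Γ l}

theorem loc_fin (hloc : Loc 𝒜 g Γ l) (B : Finset (TW d)) {δ : ℝ} (hδ : 0 < δ) :
    ∀ᶠ a in l, ∃ S : Finset (Fin (𝒜.n a) × Fin d),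
      (S.card : ℝ) ≤ δ * Fintype.card (Fin (𝒜.n a) × Fin d) ∧ ∀ h, h ∉ S → ∀ b b' : B,
        |fM (𝒜.hH a) g (walk (𝒜.p a) b.1.1 h).1 (walk (𝒜.p a) b'.1.1 h).1 -
          gam Γ B (conf (𝒜.p a) (𝒜.c1 a) h) b b'| ≤ δ := by
  classical
  set N : ℝ := ((B ×ˢ B).card : ℝ) with hN
  have hN0 : 0 ≤ N := Nat.cast_nonneg _
  set δ' : ℝ := δ / (N + 1) with hδ'
  have hδ'0 : 0 < δ' := by positivity
  have hδ'1 : δ' ≤ δ := by
    rw [hδ', div_le_iff₀ (by positivity)]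
    nlinarith
  have h1 : ∀ x ∈ B ×ˢ B, ∀ᶠ a in l, ∃ S : Finset (Fin (𝒜.n a) × Fin d),
      (S.card : ℝ) ≤ δ' * Fintype.card (Fin (𝒜.n a) × Fin d) ∧ ∀ h, h ∉ S →
        |fM (𝒜.hH a) g (walk (𝒜.p a) x.1.1 h).1 (walk (𝒜.p a) x.2.1 h).1 -
          Γ x.1 x.2 (conf (𝒜.p a) (𝒜.c1 a) h)| ≤ δ' := fun x _ => hloc x.1 x.2 δ' hδ'0
  have h2 := (Filter.eventually_all_finset (B ×ˢ B)).2 h1
  filter_upwards [h2] with a ha
  choose! S hS1 hS2 using ha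
  refine ⟨(B ×ˢ B).biUnion S, ?_, ?_⟩
  · calc (((B ×ˢ B).biUnion S).card : ℝ) ≤ ∑ x ∈ B ×ˢ B, ((S x).card : ℝ) := by
          exact_mod_cast Finset.card_biUnion_le
      _ ≤ ∑ _x ∈ B ×ˢ B, δ' * Fintype.card (Fin (𝒜.n a) × Fin d) :=
          Finset.sum_le_sum fun x hx => hS1 x hx
      _ = (N * δ') * Fintype.card (Fin (𝒜.n a) × Fin d) := by
          rw [Finset.sum_const, nsmul_eq_mul, mul_assoc]
      _ ≤ δ * Fintype.card (Fin (𝒜.n a) × Fin d) := by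
          refine mul_le_mul_of_nonneg_right ?_ (Nat.cast_nonneg _)
          rw [hδ', ← mul_div_assoc, div_le_iff₀ (by positivity)]
          nlinarith
  · intro h hh b b'
    have hb : (b.1, b'.1) ∈ B ×ˢ B := Finset.mem_product.2 ⟨b.2, b'.2⟩
    have hh' : h ∉ S (b.1, b'.1) := fun hc => hh (Finset.mem_biUnion.2 ⟨_, hb, hc⟩)
    exact (hS2 (b.1, b'.1) hb h hh').trans hδ'1

/-- the window averages vanish in probability -/
theorem EwA_tendsto {M : ℝ} (hM : 0 ≤ M) (hg : ∀ a i, 0 ≤ g ((𝒜.hH a).eigenvalues i))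
    (hgM : ∀ a i, g ((𝒜.hH a).eigenvalues i) ≤ M)
    (hΓ : ∀ (B : Finset (TW d)) (c : B → ℝ) ζ, 0 ≤ ∑ b, ∑ b', c b * Γ b.1 b'.1 ζ * c b')
    (hloc : Loc 𝒜 g Γ l) (hn : Tendsto 𝒜.n l atTop)
    (B : Finset (TW d)) (τ : B → Fin k → ℝ) (φ : Conf d (S1 d k) → ℂ) (hφ : ∀ ζ, ‖φ ζ‖ ≤ 1)
    {r : ℝ} (hr : 0 < r) :
    Tendsto (fun a => (gm (Fin k) (Fin (𝒜.n a))) {ξ | r ≤ ‖EwA 𝒜 g Γ a B τ φ ξ‖}) l (𝓝 0) := by
  classical
  set T := Tt τ with hT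
  have hT0 : 0 ≤ T := Tt_nonneg τ
  set δ : ℝ := r / 2 / (T / 2 + 1) with hδ
  have hδ0 : 0 < δ := by positivity
  have hδr : r / 2 + (T / 2 + 1) * δ = r := by
    rw [hδ]; field_simp; ring
  have hbd : ∀ᶠ a in l, (gm (Fin k) (Fin (𝒜.n a))) {ξ | r ≤ ‖EwA 𝒜 g Γ a B τ φ ξ‖} ≤
      ENNReal.ofReal (T * M / Real.sqrt (𝒜.n a) / (r / 2) ^ 2) := by
    filter_upwards [loc_fin hloc B hδ0] with a ha
    obtain ⟨S, hS1, hS2⟩ := ha
    have h1 := Ew_prob (J := Fin k) (𝒜.hH a) hM (hg a) (hgM a)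
      (fun (b : B) (h : Fin (𝒜.n a) × Fin d) => (walk (𝒜.p a) b.1.1 h).1) τ
      (fun h => gam Γ B (conf (𝒜.p a) (𝒜.c1 a) h))
      (fun h c => hΓ B c _) (fun h => φ (conf (𝒜.p a) (𝒜.c1 a) h)) (fun h => hφ _)
      (m := d) (fun b v => (card_fiber_walk (𝒜.p a) (𝒜.inv a) b.1.1 v).le)
      (by rw [Fintype.card_prod, Fintype.card_fin, Fintype.card_fin, mul_comm])
      hδ0.le S hS1 hS2 (r := r / 2) (by positivity)
    rw [hδr, Fintype.card_fin] at h1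
    exact h1
  have hlim : Tendsto (fun a => ENNReal.ofReal (T * M / Real.sqrt (𝒜.n a) / (r / 2) ^ 2)) l
      (𝓝 0) := by
    have h1 : Tendsto (fun j : ℕ => T * M / Real.sqrt j / (r / 2) ^ 2) atTop (𝓝 0) := by
      have h2 : Tendsto (fun j : ℕ => Real.sqrt (j : ℝ)) atTop atTop :=
        Real.tendsto_sqrt_atTop.comp tendsto_natCast_atTop_atTop
      have h3 := (h2.const_div_atTop (T * M)).div_const ((r / 2) ^ 2)
      rwa [zero_div] at h3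
    have h4 := ENNReal.tendsto_ofReal (h1.comp hn)
    rw [ENNReal.ofReal_zero] at h4
    exact h4
  exact tendsto_of_tendsto_of_tendsto_of_le_of_le' tendsto_const_nhds hlim
    (Eventually.of_forall fun _ => zero_le) hbd

end lim

end Crest.Agent.R166.NoiseLim849
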