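import Mathlib
import Crest.Agent.R166.NoiseLim4_849

/-!
Row 166, section 40.2 (helper849): the noise limit, part B: existence of the limit law.
-/

set_option autoImplicit false
set_option linter.unusedSectionVars false

noncomputable section

namespace Crest.Agent.R166.NoiseLim849

open MeasureTheory ProbabilityTheory Matrix Filter Topology BoundedContinuousFunction
open Crest.Agent.R166.Noise547 Crest.Agent.R166.Gauss286 Crest.Agent.R166.NoiseLLN849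
open Crest.Agent.R166.Words955 Crest.Agent.R166.LimLaw980

variable {A : Type*} {d k : ℕ} [NeZero d]

/-! ### Instances (nested products are too large for the default search) -/

theorem opens_S2 (d k : ℕ) [NeZero d] : OpensMeasurableSpace (Conf d (S2 d k)) := inferInstance

theorem borel_S2 (d k : ℕ) [NeZero d] : BorelSpace (Conf d (S2 d k)) := inferInstance

set_option synthInstance.maxSize 2000 in
theorem polish_S2 (d k : ℕ) [NeZero d] : PolishSpace (Conf d (S2 d k)) := inferInstance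

attribute [local instance] opens_S2 borel_S2 polish_S2

/-! ### Rational characters -/

/-- the words of a rational frequency -/
def Bq (q : (TW d × A2 k) →₀ ℚ) : Finset (TW d) := q.support.image Prod.fst

/-- the `Z`-part of a rational frequency -/
def τq (q : (TW d × A2 k) →₀ ℚ) : Bq q → Fin k → ℝ := fun b j => (q (b.1, Sum.inr (Sum.inr j)) : ℝ)

/-- the phase of the `(label, ω, X)` part -/
def ph1 (q : (TW d × A2 k) →₀ ℚ) (ζ : Conf d (S1 d k)) : ℝ :=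
  ∑ w ∈ Bq q, ((q (w, Sum.inl (Sum.inl ())) : ℝ) * (((ζ w).1 : ℕ) : ℝ) +
    (q (w, Sum.inl (Sum.inr ())) : ℝ) * (ζ w).2.1 +
    ∑ i, (q (w, Sum.inr (Sum.inl i)) : ℝ) * (ζ w).2.2 i)

/-- the test function of the `(label, ω, X)` part -/
def φq (q : (TW d × A2 k) →₀ ℚ) (ζ : Conf d (S1 d k)) : ℂ :=
  Complex.exp (Complex.I * ((ph1 q ζ : ℝ) : ℂ))

theorem continuous_φq (q : (TW d × A2 k) →₀ ℚ) : Continuous (φq q) := by
  unfold φq ph1
  have : Continuous fun i : Fin d => (((i : ℕ) : ℝ)) := continuous_of_discreteTopology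
  fun_prop

theorem norm_φq (q : (TW d × A2 k) →₀ ℚ) (ζ : Conf d (S1 d k)) : ‖φq q ζ‖ ≤ 1 := by
  unfold φq
  rw [mul_comm, Complex.norm_exp_ofReal_mul_I]

theorem phase_coordE (q : (TW d × A2 k) →₀ ℚ) (ζ : Conf d (S2 d k)) :
    phase q (coordE d k ζ) = ph1 q (pr ζ) + zph (Bq q) (τq q) ζ := by
  classical
  have h1 : phase q (coordE d k ζ) =
      ∑ w ∈ Bq q, ∑ a : A2 k, (q (w, a) : ℝ) * coordE d k ζ (w, a) := by
    rw [← Finset.sum_product' (Bq q) Finset.univ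
      (fun w a => (q (w, a) : ℝ) * coordE d k ζ (w, a))]
    unfold phase Finsupp.sum
    refine Finset.sum_subset ?_ ?_
    · intro x hx
      exact Finset.mem_product.2 ⟨Finset.mem_image.2 ⟨x, hx, rfl⟩, Finset.mem_univ _⟩
    · intro x _ hx
      have : q x = 0 := by simpa using hx
      simp [this]
  have h2 : zph (Bq q) (τq q) ζ =
      ∑ w ∈ Bq q, ∑ j, (q (w, Sum.inr (Sum.inr j)) : ℝ) * (ζ w).2.2.2 j := by
    unfold zph τq
    rw [Finset.sum_comm]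
    exact Finset.sum_coe_sort (Bq q)
      (fun w => ∑ j, (q (w, Sum.inr (Sum.inr j)) : ℝ) * (ζ w).2.2.2 j)
  rw [h1, h2, ph1, ← Finset.sum_add_distrib]
  refine Finset.sum_congr rfl fun w _ => ?_
  rw [Fintype.sum_sum_type, Fintype.sum_sum_type, Fintype.sum_sum_type]
  simp only [Finset.univ_unique, Finset.sum_singleton]
  have e1 : coordE d k ζ (w, Sum.inl (Sum.inl ())) = (((ζ w).1 : ℕ) : ℝ) := rfl
  have e2 : coordE d k ζ (w, Sum.inl (Sum.inr ())) = (ζ w).2.1 := rfl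
  have e3 : ∀ i, coordE d k ζ (w, Sum.inr (Sum.inl i)) = (ζ w).2.2.1 i := fun i => rfl
  have e4 : ∀ i, coordE d k ζ (w, Sum.inr (Sum.inr i)) = (ζ w).2.2.2 i := fun i => rfl
  simp only [PUnit.default_eq_unit, e1, e2, e3, e4, pr]
  ring

/-! ### Tightness -/

section tight
variable (𝒜 : Arr A d k) (g : ℝ → ℝ)

/-- the half-edge function behind a coordinate -/
def fco (a : A) (ξ : Fin k → Fin (𝒜.n a) → ℝ) : A2 k → Fin (𝒜.n a) × Fin d → ℝ
  | Sum.inl (Sum.inl _) => fun h => ((h.2 : ℕ) : ℝ)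
  | Sum.inl (Sum.inr _) => fun h => 𝒜.ω a h.1
  | Sum.inr (Sum.inl i) => fun h => 𝒜.F a h.1 i
  | Sum.inr (Sum.inr i) => fun h => 𝒜.zz g a ξ h.1 i

theorem coordE_conf (a : A) (ξ : Fin k → Fin (𝒜.n a) → ℝ) (w : TW d) (x : A2 k)
    (h : Fin (𝒜.n a) × Fin d) :
    coordE d k (conf (𝒜.p a) (𝒜.c2 g a ξ) h) (w, x) = fco 𝒜 g a ξ x (walk (𝒜.p a) w.1 h) := by
  rcases x with (x | x) | (x | x) <;> rfl

theorem fco_sq {M : ℝ} (hM : 0 ≤ M) (hg : ∀ a i, 0 ≤ g ((𝒜.hH a).eigenvalues i))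
    (hgM : ∀ a i, g ((𝒜.hH a).eigenvalues i) ≤ M) (a : A) (ξ : Fin k → Fin (𝒜.n a) → ℝ)
    (hξ : ξ ∈ En (Fin (𝒜.n a)) (Fin k)) (x : A2 k) :
    ∑ h, fco 𝒜 g a ξ x h ^ 2 ≤
      ((d : ℝ) ^ 2 + 1 + 2 * M) * Fintype.card (Fin (𝒜.n a) × Fin d) := by
  have hC : Fintype.card (Fin (𝒜.n a) × Fin d) = 𝒜.n a * d := by simp
  have hd0 : (0 : ℝ) ≤ d := Nat.cast_nonneg _
  have hvert : ∀ (f : Fin (𝒜.n a) → ℝ) (C : ℝ), ∑ v, f v ^ 2 ≤ C * 𝒜.n a →
      C ≤ (d : ℝ) ^ 2 + 1 + 2 * M → ∑ h : Fin (𝒜.n a) × Fin d, f h.1 ^ 2 ≤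
        ((d : ℝ) ^ 2 + 1 + 2 * M) * Fintype.card (Fin (𝒜.n a) × Fin d) := by
    intro f C h1 h2
    rw [Fintype.sum_prod_type, hC]
    simp only [Finset.sum_const, Finset.card_univ, Fintype.card_fin, nsmul_eq_mul]
    rw [← Finset.mul_sum]
    push_cast
    calc (d : ℝ) * ∑ v, f v ^ 2 ≤ d * (C * 𝒜.n a) := mul_le_mul_of_nonneg_left h1 hd0
      _ ≤ d * (((d : ℝ) ^ 2 + 1 + 2 * M) * 𝒜.n a) := by gcongr
      _ = _ := by ring
  rcases x with (x | x) | (x | x)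
  · have h1 : ∀ h : Fin (𝒜.n a) × Fin d, (((h.2 : ℕ) : ℝ)) ^ 2 ≤ (d : ℝ) ^ 2 + 1 + 2 * M := by
      intro h
      have h2 : ((h.2 : ℕ) : ℝ) ≤ d := by exact_mod_cast h.2.2.le
      have h3 : (0 : ℝ) ≤ ((h.2 : ℕ) : ℝ) := Nat.cast_nonneg _
      nlinarith
    calc ∑ h : Fin (𝒜.n a) × Fin d, (((h.2 : ℕ) : ℝ)) ^ 2
        ≤ ∑ _h : Fin (𝒜.n a) × Fin d, ((d : ℝ) ^ 2 + 1 + 2 * M) :=
          Finset.sum_le_sum fun h _ => h1 h
      _ = _ := by rw [Finset.sum_const, Finset.card_univ, nsmul_eq_mul, mul_comm]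
  · refine hvert (𝒜.ω a) 1 ?_ (by nlinarith)
    calc ∑ v, 𝒜.ω a v ^ 2 ≤ ∑ _v : Fin (𝒜.n a), (1 : ℝ) := by
          refine Finset.sum_le_sum fun v _ => ?_
          rw [← sq_abs]
          exact pow_le_one₀ (abs_nonneg _) (𝒜.ω_le a v)
      _ = 1 * 𝒜.n a := by simp
  · refine hvert (fun v => 𝒜.F a v x) 1 ?_ (by nlinarith)
    rw [one_mul]
    exact 𝒜.F_sq a x
  · refine hvert (fun v => 𝒜.zz g a ξ v x) (2 * M) ?_ (by nlinarith)
    have h1 := sum_Zn_sq_le (𝒜.hH a) (hg a) (hgM a) ξ x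
    have h2 := hξ x
    rw [Fintype.card_fin] at h2
    calc ∑ v, 𝒜.zz g a ξ v x ^ 2 ≤ M * ∑ v, ξ x v ^ 2 := h1
      _ ≤ M * (2 * 𝒜.n a) := mul_le_mul_of_nonneg_left h2.le hM
      _ = _ := by ring

theorem tight_e2 {M : ℝ} (hM : 0 ≤ M) (hg : ∀ a i, 0 ≤ g ((𝒜.hH a).eigenvalues i))
    (hgM : ∀ a i, g ((𝒜.hH a).eigenvalues i) ≤ M) (x : TW d × A2 k) (ε : ENNReal) (hε : 0 < ε) :
    ∃ R : ℝ, ∀ (a : A) (ξ : Fin k → Fin (𝒜.n a) → ℝ), ξ ∈ En (Fin (𝒜.n a)) (Fin k) →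
      (𝒜.e2 g a ξ : Measure (Conf d (S2 d k))) {ζ | R < |coordE d k ζ x|} ≤ ε := by
  classical
  set C : ℝ := (d : ℝ) ^ 2 + 1 + 2 * M with hC
  have hC0 : 0 < C := by positivity
  obtain ⟨R, hR0, hR⟩ : ∃ R : ℝ, 0 < R ∧ ENNReal.ofReal (C / R ^ 2) ≤ ε := by
    have h1 : Tendsto (fun R : ℝ => C / R ^ 2) atTop (𝓝 0) :=
      (tendsto_pow_atTop (by norm_num)).const_div_atTop C
    have h2 := ENNReal.tendsto_ofReal h1
    rw [ENNReal.ofReal_zero] at h2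
    have h3 := (ENNReal.tendsto_nhds_zero.1 h2) ε hε
    obtain ⟨R, hR1, hR2⟩ := (h3.and (eventually_gt_atTop 0)).exists
    exact ⟨R, hR2, hR1⟩
  refine ⟨R, fun a ξ hξ => ?_⟩
  have := 𝒜.ne a
  have hs : MeasurableSet {ζ : Conf d (S2 d k) | R < |coordE d k ζ x|} := by
    have hc : Continuous fun ζ : Conf d (S2 d k) => |coordE d k ζ x| :=
      ((continuous_apply x).comp (isClosedEmbedding_coordE d k).continuous).abs
    exact (isOpen_lt continuous_const hc).measurableSet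
  refine le_trans ?_ hR
  refine emp_apply_le (𝒜.p a) (𝒜.c2 g a ξ) hs ?_
  have h1 := card_tail (𝒜.p a) (𝒜.inv a) x.1.1 (fco 𝒜 g a ξ x.2) hR0
    (fco_sq 𝒜 g hM hg hgM a ξ hξ x.2)
  refine le_trans (le_of_eq ?_) h1
  congr 2
  ext h
  simp only [Finset.mem_filter, Finset.mem_univ, true_and, Set.mem_ofPred_eq]
  rw [← coordE_conf]

end tight

/-! ### The main theorem -/

section main
variable {𝒜 : Arr A d k} {g : ℝ → ℝ} {Γ : TW d → TW d → Conf d (S1 d k) → ℝ} {l : Filter A}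

/-- bounded continuous test function `φ · cch` -/
theorem tendsto_e1 {P : ProbabilityMeasure (Conf d (S1 d k))} (hP : Tendsto 𝒜.e1 l (𝓝 P))
    {ψ : Conf d (S1 d k) → ℂ} (hψ : Continuous ψ) {C : ℝ} (hC : ∀ ζ, ‖ψ ζ‖ ≤ C) :
    Tendsto (fun a => ∫ ζ, ψ ζ ∂(𝒜.e1 a : Measure (Conf d (S1 d k)))) l
      (𝓝 (∫ ζ, ψ ζ ∂(P : Measure (Conf d (S1 d k))))) := by
  let f : Conf d (S1 d k) →ᵇ ℂ := BoundedContinuousFunction.ofNormedAddCommGroup ψ hψ C hC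
  exact ((continuous_integral_bcf f).tendsto P).comp hP

/-- **the noise limit** -/
theorem noise_limit {M : ℝ} (hM : 0 ≤ M) (hg : ∀ a i, 0 ≤ g ((𝒜.hH a).eigenvalues i))
    (hgM : ∀ a i, g ((𝒜.hH a).eigenvalues i) ≤ M)
    (hΓc : ∀ w w', Continuous (Γ w w'))
    (hΓ : ∀ (B : Finset (TW d)) (c : B → ℝ) ζ, 0 ≤ ∑ b, ∑ b', c b * Γ b.1 b'.1 ζ * c b')
    (hloc : Loc 𝒜 g Γ l) (hn : Tendsto 𝒜.n l atTop) [l.NeBot]
    {P : ProbabilityMeasure (Conf d (S1 d k))} (hP : Tendsto 𝒜.e1 l (𝓝 P)) :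
    ∃ G : ∀ a, Set (Fin k → Fin (𝒜.n a) → ℝ), (∀ a, MeasurableSet (G a)) ∧
      (∀ a, G a ⊆ En (Fin (𝒜.n a)) (Fin k)) ∧
      Tendsto (fun a => (gm (Fin k) (Fin (𝒜.n a))) (G a)ᶜ) l (𝓝 0) ∧
      ∃ Q : ProbabilityMeasure (Conf d (S2 d k)),
        Tendsto (fun b : Σ a, G a => 𝒜.e2 g b.1 b.2.1) (comap Sigma.fst l) (𝓝 Q) ∧
        ∀ (B : Finset (TW d)) (τ : B → Fin k → ℝ) (φ : Conf d (S1 d k) → ℂ), Continuous φ →
          (∀ ζ, ‖φ ζ‖ ≤ 1) →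
          ∫ ζ, φ (pr ζ) * Complex.exp (Complex.I * ((zph B τ ζ : ℝ) : ℂ))
              ∂(Q : Measure (Conf d (S2 d k))) =
            ∫ ζ, φ ζ * cch Γ B τ ζ ∂(P : Measure (Conf d (S1 d k))) := by
  classical
  -- enumeration of the tests
  obtain ⟨e, he⟩ := exists_surjective_nat (((TW d × A2 k) →₀ ℚ) × ℕ)
  set bad : ℕ → ∀ a, Set (Fin k → Fin (𝒜.n a) → ℝ) := fun i a =>
    {ξ | 1 / (((e i).2 : ℝ) + 1) ≤ ‖EwA 𝒜 g Γ a (Bq (e i).1) (τq (e i).1) (φq (e i).1) ξ‖} with hbad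
  have hbad0 : ∀ i, Tendsto (fun a => (gm (Fin k) (Fin (𝒜.n a))) (bad i a)) l (𝓝 0) := fun i =>
    EwA_tendsto hM hg hgM hΓ hloc hn _ _ _ (norm_φq _) (by positivity)
  obtain ⟨m, hm, hmG⟩ := exists_good hn (fun a => gm (Fin k) (Fin (𝒜.n a))) bad hbad0
  have hbadm : ∀ i a, MeasurableSet (bad i a) := by
    intro i a
    refine measurableSet_le measurable_const ?_
    unfold EwA Ew
    have : ∀ (b : Bq (e i).1) (h : Fin (𝒜.n a) × Fin d) (j : Fin k),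
        Measurable fun ξ : Fin k → Fin (𝒜.n a) → ℝ =>
          Zn (𝒜.hH a) g ξ j (walk (𝒜.p a) b.1.1 h).1 := fun b h j => measurable_Zn _ _ _ _
    fun_prop
  set G : ∀ a, Set (Fin k → Fin (𝒜.n a) → ℝ) := fun a =>
    En (Fin (𝒜.n a)) (Fin k) ∩ (⋃ i ∈ Finset.range (m a + 1), bad i a)ᶜ with hG
  have hGm : ∀ a, MeasurableSet (G a) := fun a =>
    (measurableSet_En _ _).inter (Finset.measurableSet_biUnion _ fun i _ => hbadm i a).compl
  have hGE : ∀ a, G a ⊆ En (Fin (𝒜.n a)) (Fin k) := fun a => Set.inter_subset_left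
  have hG0 : Tendsto (fun a => (gm (Fin k) (Fin (𝒜.n a))) (G a)ᶜ) l (𝓝 0) := by
    have h1 : Tendsto (fun a => (gm (Fin k) (Fin (𝒜.n a))) (En (Fin (𝒜.n a)) (Fin k))ᶜ) l
        (𝓝 0) := by
      have h2 : Tendsto (fun j : ℕ => (Fintype.card (Fin k) : ENNReal) * ENNReal.ofReal (v4 / j))
          atTop (𝓝 0) := by
        have h3 : Tendsto (fun j : ℕ => ENNReal.ofReal (v4 / j)) atTop (𝓝 0) := by
          have h4 := ENNReal.tendsto_ofReal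
            (tendsto_natCast_atTop_atTop (R := ℝ).const_div_atTop v4)
          rwa [ENNReal.ofReal_zero] at h4
        have h5 := ENNReal.Tendsto.const_mul (a := (Fintype.card (Fin k) : ENNReal)) h3
          (Or.inr (ENNReal.natCast_ne_top _))
        rwa [mul_zero] at h5
      refine tendsto_of_tendsto_of_tendsto_of_le_of_le tendsto_const_nhds (h2.comp hn)
        (fun _ => zero_le) fun a => ?_
      have := 𝒜.ne a
      have h6 := En_compl_le (Fin (𝒜.n a)) (Fin k)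
      rw [Fintype.card_fin (𝒜.n a)] at h6
      exact h6
    have h2 := h1.add hmG
    rw [add_zero] at h2
    refine tendsto_of_tendsto_of_tendsto_of_le_of_le tendsto_const_nhds h2
      (fun _ => zero_le) fun a => ?_
    have h3 : (G a)ᶜ = (En (Fin (𝒜.n a)) (Fin k))ᶜ ∪ ⋃ i ∈ Finset.range (m a + 1), bad i a := by
      rw [hG, Set.compl_inter, compl_compl]
    rw [h3]
    exact measure_union_le _ _
  refine ⟨G, hGm, hGE, hG0, ?_⟩
  -- the filter on good samples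
  set l' : Filter (Σ a, G a) := comap Sigma.fst l with hl'
  have hl'ne : l'.NeBot := by
    rw [hl', comap_neBot_iff]
    intro t ht
    have h1 : ∀ᶠ a in l, (gm (Fin k) (Fin (𝒜.n a))) (G a)ᶜ < 1 :=
      hG0.eventually (gt_mem_nhds (by norm_num))
    obtain ⟨a, ha1, ha2⟩ := (h1.and ht).exists
    have h2 : (G a).Nonempty := by
      rw [Set.nonempty_iff_ne_empty]
      intro h3
      rw [h3, Set.compl_empty, measure_univ] at ha1
      exact lt_irrefl _ ha1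
    obtain ⟨ξ, hξ⟩ := h2
    exact ⟨⟨a, ⟨ξ, hξ⟩⟩, ha2⟩
  have hfst : Tendsto (Sigma.fst : (Σ a, G a) → A) l' l := tendsto_comap
  -- window averages along `l'`
  have hEw : ∀ q : (TW d × A2 k) →₀ ℚ, Tendsto (fun b : Σ a, G a =>
      EwA 𝒜 g Γ b.1 (Bq q) (τq q) (φq q) b.2.1) l' (𝓝 0) := by
    intro q
    rw [Metric.tendsto_nhds]
    intro ε hε
    obtain ⟨N, hN⟩ := exists_nat_one_div_lt hε
    obtain ⟨i, hi⟩ := he (q, N)
    have h1 : ∀ᶠ a in l, i ≤ m a := (tendsto_atTop.1 hm) i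
    filter_upwards [hfst.eventually h1] with b hb
    have h2 := b.2.2.2
    simp only [Set.mem_compl_iff, Set.mem_iUnion, not_exists] at h2
    have h3 := h2 i (Finset.mem_range.2 (by omega))
    simp only [hbad, Set.mem_ofPred_eq, not_le] at h3
    rw [hi] at h3
    rw [dist_zero_right]
    exact h3.trans hN
  -- characteristic functions converge
  have hc : ∀ q : (TW d × A2 k) →₀ ℚ, Tendsto (fun b : Σ a, G a =>
      ∫ ζ, Complex.exp (Complex.I * ((phase q (coordE d k ζ) : ℝ) : ℂ))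
        ∂(𝒜.e2 g b.1 b.2.1 : Measure (Conf d (S2 d k)))) l'
      (𝓝 (∫ ζ, φq q ζ * cch Γ (Bq q) (τq q) ζ ∂(P : Measure (Conf d (S1 d k))))) := by
    intro q
    have h1 : ∀ b : Σ a, G a, ∫ ζ, Complex.exp (Complex.I * ((phase q (coordE d k ζ) : ℝ) : ℂ))
        ∂(𝒜.e2 g b.1 b.2.1 : Measure (Conf d (S2 d k))) =
        EwA 𝒜 g Γ b.1 (Bq q) (τq q) (φq q) b.2.1 +
          ∫ ζ, φq q ζ * cch Γ (Bq q) (τq q) ζ ∂(𝒜.e1 b.1 : Measure (Conf d (S1 d k))) := by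
      intro b
      rw [← integral_e2]
      refine integral_congr_ae (Eventually.of_forall fun ζ => ?_)
      simp only [phase_coordE, φq]
      rw [← Complex.exp_add, ← mul_add]
      push_cast
      rfl
    simp only [h1]
    have h2 := tendsto_e1 hP (ψ := fun ζ => φq q ζ * cch Γ (Bq q) (τq q) ζ)
      ((continuous_φq q).mul (continuous_cch hΓc _ _)) (C := 1) (fun ζ => by
        rw [norm_mul]
        exact mul_le_one₀ (norm_φq q ζ) (norm_nonneg _) (norm_cch_le (fun c => hΓ _ c ζ) _))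
    have h3 := (hEw q).add (h2.comp hfst)
    rw [zero_add] at h3
    exact h3
  obtain ⟨Q, hQ⟩ := exists_limit (coordE d k) (isClosedEmbedding_coordE d k) l'
    (fun b : Σ a, G a => 𝒜.e2 g b.1 b.2.1) (fun x ε hε => by
      obtain ⟨R, hR⟩ := tight_e2 𝒜 g hM hg hgM x ε hε
      exact ⟨R, fun b => hR b.1 b.2.1 (hGE b.1 b.2.2)⟩) _ hc
  refine ⟨Q, hQ, ?_⟩
  intro B τ φ hφc hφ
  -- bounded continuous test function
  set ψ : Conf d (S2 d k) → ℂ := fun ζ =>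
    φ (pr ζ) * Complex.exp (Complex.I * ((zph B τ ζ : ℝ) : ℂ)) with hψ
  have hψc : Continuous ψ := by
    have h1 := hφc.comp (continuous_pr (d := d) (k := k))
    have h2 := continuous_zph B τ
    exact h1.mul (by fun_prop)
  have hψn : ∀ ζ, ‖ψ ζ‖ ≤ 1 := by
    intro ζ
    rw [hψ, norm_mul, mul_comm Complex.I, Complex.norm_exp_ofReal_mul_I, mul_one]
    exact hφ _
  let fψ : Conf d (S2 d k) →ᵇ ℂ := BoundedContinuousFunction.ofNormedAddCommGroup ψ hψc 1 hψn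
  have hlim2 : Tendsto (fun b : Σ a, G a => ∫ ζ, ψ ζ
      ∂(𝒜.e2 g b.1 b.2.1 : Measure (Conf d (S2 d k)))) l' (𝓝 (∫ ζ, ψ ζ ∂(Q : Measure _))) :=
    ((continuous_integral_bcf fψ).tendsto Q).comp hQ
  have hlim1 := tendsto_e1 hP (ψ := fun ζ => φ ζ * cch Γ B τ ζ)
      (hφc.mul (continuous_cch hΓc _ _)) (C := 1) (fun ζ => by
        rw [norm_mul]
        exact mul_le_one₀ (hφ ζ) (norm_nonneg _) (norm_cch_le (fun c => hΓ _ c ζ) _))
  by_contra hne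
  set D := ‖(∫ ζ, ψ ζ ∂(Q : Measure (Conf d (S2 d k)))) -
    ∫ ζ, φ ζ * cch Γ B τ ζ ∂(P : Measure (Conf d (S1 d k)))‖ with hD
  have hD0 : 0 < D := norm_pos_iff.2 (sub_ne_zero.2 hne)
  have h3 : (0:ℝ) < D / 3 := by positivity
  have h4 : ∀ᶠ b in l', dist (∫ ζ, ψ ζ ∂(𝒜.e2 g (Sigma.fst b) b.2.1 : Measure _))
      (∫ ζ, ψ ζ ∂(Q : Measure (Conf d (S2 d k)))) < D / 3 := Metric.tendsto_nhds.1 hlim2 _ h3
  have h5 : ∀ᶠ a in l, dist (∫ ζ, φ ζ * cch Γ B τ ζ ∂(𝒜.e1 a : Measure (Conf d (S1 d k))))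
      (∫ ζ, φ ζ * cch Γ B τ ζ ∂(P : Measure (Conf d (S1 d k)))) < D / 3 :=
    Metric.tendsto_nhds.1 hlim1 _ h3
  rw [hl', eventually_comap] at h4
  have h6 := EwA_tendsto hM hg hgM hΓ hloc hn B τ φ hφ h3
  have h7 := hG0.add h6
  rw [add_zero] at h7
  have h8 : ∀ᶠ a in l, (gm (Fin k) (Fin (𝒜.n a))) (G a)ᶜ + (gm (Fin k) (Fin (𝒜.n a)))
      {ξ | D / 3 ≤ ‖EwA 𝒜 g Γ a B τ φ ξ‖} < 1 := h7.eventually (gt_mem_nhds (by norm_num))
  obtain ⟨a, ha4, ha5, ha8⟩ := (h4.and (h5.and h8)).exists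
  -- a good noise sample
  obtain ⟨ξ, hξ1, hξ2⟩ : ∃ ξ, ξ ∈ G a ∧ ‖EwA 𝒜 g Γ a B τ φ ξ‖ < D / 3 := by
    by_contra hcon
    push Not at hcon
    have h9 : (Set.univ : Set (Fin k → Fin (𝒜.n a) → ℝ)) ⊆
        (G a)ᶜ ∪ {ξ | D / 3 ≤ ‖EwA 𝒜 g Γ a B τ φ ξ‖} := by
      intro ξ _
      by_cases hξ : ξ ∈ G a
      · exact Or.inr (hcon ξ hξ)
      · exact Or.inl hξ
    have h10 := (measure_mono h9).trans (measure_union_le (μ := gm (Fin k) (Fin (𝒜.n a))) _ _)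
    rw [measure_univ] at h10
    exact absurd ha8 (not_lt.2 h10)
  have h11 := ha4 ⟨a, ⟨ξ, hξ1⟩⟩ rfl
  simp only at h11
  have h12 := integral_e2 𝒜 g Γ a B τ φ ξ
  have h13 : D ≤ dist (∫ ζ, ψ ζ ∂(𝒜.e2 g a ξ : Measure (Conf d (S2 d k))))
      (∫ ζ, ψ ζ ∂(Q : Measure (Conf d (S2 d k)))) + ‖EwA 𝒜 g Γ a B τ φ ξ‖ +
      dist (∫ ζ, φ ζ * cch Γ B τ ζ ∂(𝒜.e1 a : Measure (Conf d (S1 d k))))
      (∫ ζ, φ ζ * cch Γ B τ ζ ∂(P : Measure (Conf d (S1 d k)))) := by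
    rw [hD, dist_eq_norm, dist_eq_norm]
    have h14 : (∫ ζ, ψ ζ ∂(𝒜.e2 g a ξ : Measure (Conf d (S2 d k)))) =
      EwA 𝒜 g Γ a B τ φ ξ +
      ∫ ζ, φ ζ * cch Γ B τ ζ ∂(𝒜.e1 a : Measure (Conf d (S1 d k))) := h12
    rw [h14]
    set x := ∫ ζ, φ ζ * cch Γ B τ ζ ∂(𝒜.e1 a : Measure (Conf d (S1 d k)))
    set y := ∫ ζ, φ ζ * cch Γ B τ ζ ∂(P : Measure (Conf d (S1 d k)))
    set z := ∫ ζ, ψ ζ ∂(Q : Measure (Conf d (S2 d k)))
    set E := EwA 𝒜 g Γ a B τ φ ξ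
    have h15 : z - y = -(E + x - z) + E + (x - y) := by ring
    calc ‖z - y‖ = ‖-(E + x - z) + E + (x - y)‖ := by rw [← h15]
      _ ≤ ‖-(E + x - z)‖ + ‖E‖ + ‖x - y‖ := norm_add₃_le
      _ = _ := by rw [norm_neg]
  linarith

end main

end Crest.Agent.R166.NoiseLim849
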