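import Crest.Agent.R166.L2G_879
import Crest.Agent.R166.Words_955
import Crest.Agent.R166.Ports_269

/-!
# Row 166 (helper879): the tree Green function `treeG` on the words `TW d` of helper955

`treeG s z om x y` (`om : TW d → ℝ`, potential `s * clip om`, `clip` = truncation to `[-1,1]`,
`Im z > 0`), `cav s z om` = cavity number at the root vertex with the root edge (port `0`)
removed; `omOf π ξ` = potential of a configuration `ξ : Conf d (Fin d × T)`, `π : T → ℝ`.

* `norm_treeG_le`, `im_treeG_pos`, `treeG_symm`, `treeG_im_nonneg/pos`, `im_cav_pos`, `norm_cav_le`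
* `Aut`, `aut_cr`, `aut_rt`, `aut_mv`, `aut_mvL`, `Aut.G`, `treeG_cr`, `treeG_rt`, `treeG_mvL`;
  `mv i x = rt i (cr x)`, `mvL w` (root moved along `w`), `mvL_nil : mvL w nil = w`
* `cav_rec`, `treeG_nil` (recursions), `treeG_uu`, `treeG_vu`, `treeG_vv` (edge block),
  `treeG_star_one`, `treeG_star_two`, `treeG_par`, `treeG_trp`, `treeG_far`, `treeG_far_zero`,
  `treeG_diag` (multiplicativity; `trp` = product of `- cavity`)
* `continuous_treeG`, `continuous_cav`, `norm_treeG_sub_le`, `continuous_treeG_joint`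
* `omOf_cross/rotn/step/reroot/conf`, `continuous_omOf`
* `gOp`, `Res_eq_gOp`, `vx` (vertex reached by a word), `treeG_sub_Res` (comparison with
  `Res (Hm (graphOf p) s om) z` when the words of length `≤ R` are injective)
-/

set_option autoImplicit false
set_option linter.unusedSectionVars false
noncomputable section
open MeasureTheory Finset

namespace Crest.Agent.R166.TreeG879

open Words955 L2G879

variable {d : ℕ} [NeZero d]

/-! ### Adjacency of words -/

lemma snoc_prop (w : TW d) (i : Fin d) (h : w.1 = [] ∨ i ≠ 0) : ∀ a ∈ (w.1 ++ [i]).tail, a ≠ 0 := by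
  obtain ⟨w, hw⟩ := w
  cases w with
  | nil => simp
  | cons b w =>
    simp only [List.cons_append, List.tail_cons] at hw ⊢
    intro a ha
    rcases List.mem_append.1 ha with h1 | h1
    · exact hw a h1
    · rw [List.mem_singleton] at h1
      rw [h1]
      exact h.resolve_left (by simp)

lemma dropLast_prop (w : TW d) : ∀ a ∈ (w.1.dropLast).tail, a ≠ 0 := by
  intro a ha
  refine w.2 a ?_
  rw [List.tail_dropLast] at ha
  exact List.mem_of_mem_dropLast ha

/-- the neighbour of `w` through the port `i` (relative to the arrival half-edge) -/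
def nbr (w : TW d) (i : Fin d) : TW d :=
  if h : w.1 = [] ∨ i ≠ 0 then ⟨w.1 ++ [i], snoc_prop w i h⟩ else ⟨w.1.dropLast, dropLast_prop w⟩

lemma nbr_of (w : TW d) (i : Fin d) (h : w.1 = [] ∨ i ≠ 0) : (nbr w i).1 = w.1 ++ [i] := by
  rw [nbr, dif_pos h]

lemma nbr_not (w : TW d) (i : Fin d) (h : ¬ (w.1 = [] ∨ i ≠ 0)) : (nbr w i).1 = w.1.dropLast := by
  rw [nbr, dif_neg h]

/-- neighbours in the tree -/
def nbT (w : TW d) : Finset (TW d) := Finset.univ.image (nbr w)

lemma mem_nbT {w y : TW d} :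
    y ∈ nbT w ↔ (∃ i, y.1 = w.1 ++ [i]) ∨ (∃ i, w.1 = y.1 ++ [i]) := by
  unfold nbT
  rw [Finset.mem_image]
  constructor
  · rintro ⟨i, _, rfl⟩
    by_cases h : w.1 = [] ∨ i ≠ 0
    · exact Or.inl ⟨i, nbr_of w i h⟩
    · refine Or.inr ⟨w.1.getLast (fun e => h (Or.inl e)), ?_⟩
      rw [nbr_not w i h, List.dropLast_append_getLast]
  · rintro (⟨i, hi⟩ | ⟨i, hi⟩)
    · refine ⟨i, Finset.mem_univ _, ?_⟩
      have h : w.1 = [] ∨ i ≠ 0 := by
        by_cases hw : w.1 = []
        · exact Or.inl hw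
        · right
          apply y.2
          rw [hi]
          obtain ⟨a, l, hl⟩ := List.exists_cons_of_ne_nil hw
          rw [hl]; simp
      exact TW.ext (by rw [nbr_of w i h, hi])
    · refine ⟨0, Finset.mem_univ _, ?_⟩
      have h : ¬ (w.1 = [] ∨ (0 : Fin d) ≠ 0) := by
        rw [hi]; simp
      exact TW.ext (by rw [nbr_not w 0 h, hi]; simp)

lemma nbT_symm (x y : TW d) (h : y ∈ nbT x) : x ∈ nbT y := by
  rw [mem_nbT] at h ⊢
  exact h.symm

lemma len_le_of_nbT {x y : TW d} (h : y ∈ nbT x) : y.len ≤ x.len + 1 := by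
  rw [mem_nbT] at h
  unfold TW.len
  rcases h with ⟨i, hi⟩ | ⟨i, hi⟩
  · rw [hi]; simp
  · have := congrArg List.length hi
    simp at this; omega

/-- truncation to `[-1,1]` -/
def clip (t : ℝ) : ℝ := max (-1) (min 1 t)

lemma abs_clip_le (t : ℝ) : |clip t| ≤ 1 := by
  unfold clip
  rw [abs_le]
  exact ⟨le_max_left _ _, max_le (by norm_num) (min_le_left _ _)⟩

lemma clip_eq {t : ℝ} (h : |t| ≤ 1) : clip t = t := by
  rw [abs_le] at h
  unfold clip
  rw [min_eq_right h.2, max_eq_right h.1]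

lemma continuous_clip : Continuous clip := by unfold clip; fun_prop

/-- the tree operator with potential `s * clip (om w)` -/
def tOp (s : ℝ) (om : TW d → ℝ) : Op (TW d) d |s| where
  nb := nbT
  v w := s * clip (om w)
  symm := nbT_symm
  deg x := (Finset.card_image_le).trans (by simp)
  bdd x := by
    rw [abs_mul]
    exact mul_le_of_le_one_right (abs_nonneg _) (abs_clip_le _)

/-- the tree Green function -/
def treeG (s : ℝ) (z : ℂ) (om : TW d → ℝ) (x y : TW d) : ℂ := (tOp s om).G z x y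

@[simp] lemma tOp_nb (s : ℝ) (om : TW d → ℝ) (x : TW d) : (tOp s om).nb x = nbT x := rfl
@[simp] lemma tOp_v (s : ℝ) (om : TW d → ℝ) (x : TW d) : (tOp s om).v x = s * clip (om x) := rfl

/-! ### Tree automorphisms -/

lemma crL_append {l : List (Fin d)} (hl : l ≠ []) (i : Fin d) :
    TW.crL (l ++ [i]) = TW.crL l ++ [i] := by
  cases l with
  | nil => exact absurd rfl hl
  | cons a l =>
    by_cases ha : a = 0 <;> simp [TW.crL, ha]

lemma adj_cr_aux {x y : TW d} (i : Fin d) (h : y.1 = x.1 ++ [i]) :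
    (∃ i, (TW.cr y).1 = (TW.cr x).1 ++ [i]) ∨ (∃ i, (TW.cr x).1 = (TW.cr y).1 ++ [i]) := by
  change (∃ i, TW.crL y.1 = TW.crL x.1 ++ [i]) ∨ (∃ i, TW.crL x.1 = TW.crL y.1 ++ [i])
  by_cases hx : x.1 = []
  · rw [hx] at h ⊢
    rw [h]
    by_cases hi : i = 0
    · right; exact ⟨0, by simp [TW.crL, hi]⟩
    · left; exact ⟨i, by simp [TW.crL, hi]⟩
  · left
    exact ⟨i, by rw [h, crL_append hx]⟩

lemma nbT_cr_of {x y : TW d} (h : y ∈ nbT x) : TW.cr y ∈ nbT (TW.cr x) := by
  rw [mem_nbT] at h ⊢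
  rcases h with ⟨i, hi⟩ | ⟨i, hi⟩
  · exact adj_cr_aux i hi
  · exact (adj_cr_aux i hi).symm

lemma nbT_cr {x y : TW d} : TW.cr y ∈ nbT (TW.cr x) ↔ y ∈ nbT x :=
  ⟨fun h => by simpa [TW.cr_cr] using nbT_cr_of h, nbT_cr_of⟩

lemma rtL_append {l : List (Fin d)} (hl : l ≠ []) (j i : Fin d) :
    TW.rtL j (l ++ [i]) = TW.rtL j l ++ [i] := by
  cases l with
  | nil => exact absurd rfl hl
  | cons a l => simp [TW.rtL]

lemma adj_rt_aux (j : Fin d) {x y : TW d} (i : Fin d) (h : y.1 = x.1 ++ [i]) :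
    (∃ i, (TW.rt j y).1 = (TW.rt j x).1 ++ [i]) := by
  change ∃ i, TW.rtL j y.1 = TW.rtL j x.1 ++ [i]
  by_cases hx : x.1 = []
  · rw [hx] at h ⊢
    rw [h]
    exact ⟨i + j, by simp [TW.rtL]⟩
  · exact ⟨i, by rw [h, rtL_append hx]⟩

lemma nbT_rt_of (j : Fin d) {x y : TW d} (h : y ∈ nbT x) : TW.rt j y ∈ nbT (TW.rt j x) := by
  rw [mem_nbT] at h ⊢
  rcases h with ⟨i, hi⟩ | ⟨i, hi⟩
  · exact Or.inl (adj_rt_aux j i hi)
  · exact Or.inr (adj_rt_aux j i hi)

lemma rt_neg_rt (j : Fin d) (x : TW d) : TW.rt (-j) (TW.rt j x) = x := by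
  rw [TW.rt_rt, add_neg_cancel, TW.rt_zero]

lemma rt_rt_neg (j : Fin d) (x : TW d) : TW.rt j (TW.rt (-j) x) = x := by
  rw [TW.rt_rt, neg_add_cancel, TW.rt_zero]

lemma nbT_rt (j : Fin d) {x y : TW d} : TW.rt j y ∈ nbT (TW.rt j x) ↔ y ∈ nbT x :=
  ⟨fun h => by simpa [rt_neg_rt] using nbT_rt_of (-j) h, nbT_rt_of j⟩

/-- an automorphism of the tree -/
structure Aut (φ : TW d → TW d) : Prop where
  bij : Function.Bijective φ
  adj : ∀ x y, φ y ∈ nbT (φ x) ↔ y ∈ nbT x

lemma aut_id : Aut (fun x : TW d => x) := ⟨Function.bijective_id, fun _ _ => Iff.rfl⟩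

lemma aut_cr : Aut (TW.cr : TW d → TW d) := ⟨TW.cr_involutive.bijective, fun _ _ => nbT_cr⟩

lemma aut_rt (j : Fin d) : Aut (TW.rt j : TW d → TW d) :=
  ⟨⟨Function.LeftInverse.injective (rt_neg_rt j),
    Function.RightInverse.surjective (rt_rt_neg j)⟩, fun _ _ => nbT_rt j⟩

lemma Aut.comp {φ ψ : TW d → TW d} (h1 : Aut φ) (h2 : Aut ψ) : Aut (φ ∘ ψ) :=
  ⟨h1.bij.comp h2.bij, fun _ _ => (h1.adj _ _).trans (h2.adj _ _)⟩

/-- equivariance of the cut operators -/
theorem Aut.cut_G {φ : TW d → TW d} (h : Aut φ) (s : ℝ) (om : TW d → ℝ) {S S' : Set (TW d)}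
    (hS : ∀ x, φ x ∈ S' ↔ x ∈ S) {z : ℂ} (hz : 0 < z.im) (x y : TW d) :
    ((tOp s (om ∘ φ)).cut S).G z x y = ((tOp s om).cut S').G z (φ x) (φ y) := by
  refine (Op.G_equiv ((tOp s (om ∘ φ)).cut S) ((tOp s om).cut S') φ h.bij.1 ?_ ?_ ?_ hz x y).symm
  · intro x y
    rw [Op.mem_cut_nb, Op.mem_cut_nb, hS, hS]
    simp only [tOp_nb, h.adj]
  · intro x w _
    exact h.bij.2 w
  · intro x; rfl

theorem Aut.G {φ : TW d → TW d} (h : Aut φ) (s : ℝ) (om : TW d → ℝ) {z : ℂ} (hz : 0 < z.im)
    (x y : TW d) : treeG s z (om ∘ φ) x y = treeG s z om (φ x) (φ y) := by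
  refine (Op.G_equiv (tOp s (om ∘ φ)) (tOp s om) φ h.bij.1 ?_ ?_ ?_ hz x y).symm
  · intro x y
    simp only [tOp_nb, h.adj]
  · intro x w _
    exact h.bij.2 w
  · intro x; rfl

/-- the move of the root across port `i` -/
def mv (i : Fin d) (x : TW d) : TW d := TW.rt i (TW.cr x)

lemma aut_mv (i : Fin d) : Aut (mv i : TW d → TW d) := (aut_rt i).comp aut_cr

/-- the move of the root along a word -/
def mvL : List (Fin d) → TW d → TW d
  | [], x => x
  | i :: u, x => mv i (mvL u x)

lemma aut_mvL (u : List (Fin d)) : Aut (mvL u : TW d → TW d) := by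
  induction u with
  | nil => exact aut_id
  | cons i u ih => exact (aut_mv i).comp ih

/-- the branch of the words starting with `w` -/
def Br (w : List (Fin d)) : Set (TW d) := {x | w <+: x.1}

/-- the `u`-side as a set -/
def US (d : ℕ) [NeZero d] : Set (TW d) := {x | TW.uSide x}

lemma mem_Br {w : List (Fin d)} {x : TW d} : x ∈ Br w ↔ w <+: x.1 := Iff.rfl

lemma mem_US {x : TW d} : x ∈ US d ↔ x.1.head? ≠ some 0 := Iff.rfl

lemma cr_mem_Br_zero {u : List (Fin d)} (hu : ∀ a ∈ u, a ≠ 0) (hne : u ≠ []) (y : TW d) :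
    TW.cr y ∈ Br (0 :: u) ↔ y ∈ Br u := by
  rw [mem_Br, mem_Br]
  change (0 :: u) <+: TW.crL y.1 ↔ u <+: y.1
  obtain ⟨a, u', rfl⟩ := List.exists_cons_of_ne_nil hne
  have ha : a ≠ 0 := hu a (by simp)
  cases hy : y.1 with
  | nil => simp [TW.crL]
  | cons b l =>
    by_cases hb : b = 0
    · subst hb
      simp only [TW.crL, if_true, List.cons_prefix_cons]
      constructor
      · intro h
        exfalso
        have h2 : (0 : Fin d) ∈ l := h.subset (by simp)
        refine y.2 0 ?_ rfl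
        rw [hy]; simpa using h2
      · rintro ⟨h, _⟩; exact absurd h ha
    · simp only [TW.crL, hb, if_false, List.cons_prefix_cons, true_and]

lemma rt_mem_Br (i : Fin d) {u : List (Fin d)} (y : TW d) :
    TW.rt i y ∈ Br (i :: u) ↔ y ∈ Br (0 :: u) := by
  rw [mem_Br, mem_Br]
  change (i :: u) <+: TW.rtL i y.1 ↔ (0 :: u) <+: y.1
  cases hy : y.1 with
  | nil => simp [TW.rtL]
  | cons b l =>
    simp only [TW.rtL, List.cons_prefix_cons]
    constructor
    · rintro ⟨h1, h2⟩
      refine ⟨?_, h2⟩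
      have : b + i = 0 + i := by rw [← h1, zero_add]
      exact (add_right_cancel this).symm
    · rintro ⟨h1, h2⟩
      exact ⟨by rw [← h1, zero_add], h2⟩

lemma cr_mem_Br_single (y : TW d) : TW.cr y ∈ Br [0] ↔ y ∈ US d := by
  rw [mem_Br, mem_US]
  change [0] <+: TW.crL y.1 ↔ _
  cases hy : y.1 with
  | nil => simp [TW.crL]
  | cons b l =>
    by_cases hb : b = 0
    · subst hb
      simp only [TW.crL, if_true, List.head?_cons, ne_eq, not_true_eq_false, iff_false]
      intro h
      have h2 : (0 : Fin d) ∈ l := h.subset (by simp)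
      refine y.2 0 ?_ rfl
      rw [hy]; simpa using h2
    · simp [TW.crL, hb]

/-- `mvL w` maps the `u`-side onto the branch of `w` -/
theorem mvL_mem_Br {w : List (Fin d)} (hw : ∀ a ∈ w.tail, a ≠ 0) (hne : w ≠ []) (x : TW d) :
    mvL w x ∈ Br w ↔ x ∈ US d := by
  induction w with
  | nil => exact absurd rfl hne
  | cons i u ih =>
    simp only [List.tail_cons] at hw
    change TW.rt i (TW.cr (mvL u x)) ∈ Br (i :: u) ↔ _
    rw [rt_mem_Br]
    by_cases hu : u = []
    · subst hu
      exact cr_mem_Br_single x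
    · rw [cr_mem_Br_zero hw hu]
      exact ih (fun a ha => hw a (List.mem_of_mem_tail ha)) hu

/-- `mvL w x = w ++ x` for `x` on the `u`-side -/
theorem mvL_val {w : List (Fin d)} (x : TW d) (h : ∀ a ∈ (w ++ x.1).tail, a ≠ 0)
    (hx : w ≠ [] → x ∈ US d) : (mvL w x).1 = w ++ x.1 := by
  induction w with
  | nil => rfl
  | cons i u ih =>
    have hx' := hx (by simp)
    have h2 : ∀ a ∈ u ++ x.1, a ≠ 0 := by simpa using h
    change TW.rtL i (TW.crL (mvL u x).1) = i :: u ++ x.1
    rw [ih (fun a ha => h2 a (List.mem_of_mem_tail ha)) (fun _ => hx')]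
    have h3 : (u ++ x.1).head? ≠ some 0 := by
      intro e
      exact h2 0 (List.mem_of_mem_head? (by simpa using e)) rfl
    cases hy : u ++ x.1 with
    | nil => simp [TW.crL, TW.rtL, hy]
    | cons b l =>
      rw [hy] at h3
      have hb : b ≠ 0 := by simpa using h3
      simp [TW.crL, TW.rtL, hb, hy]

theorem mvL_nil (w : TW d) : mvL w.1 TW.nil = w := by
  refine TW.ext ?_
  rw [mvL_val TW.nil (by simpa [TW.nil] using w.2) (fun _ => by simp [mem_US, TW.nil])]
  simp [TW.nil]

/-! ### Cavity numbers -/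

/-- cavity number at the root vertex, the root edge removed -/
def cav (s : ℝ) (z : ℂ) (om : TW d → ℝ) : ℂ := ((tOp s om).cut (US d)).G z TW.nil TW.nil

theorem im_cav_pos (s : ℝ) {z : ℂ} (hz : 0 < z.im) (om : TW d → ℝ) : 0 < (cav s z om).im :=
  Op.im_G_pos _ hz _

theorem norm_cav_le (s : ℝ) {z : ℂ} (hz : 0 < z.im) (om : TW d → ℝ) :
    ‖cav s z om‖ ≤ 1 / z.im := Op.norm_G_le _ hz _ _

theorem norm_treeG_le (s : ℝ) {z : ℂ} (hz : 0 < z.im) (om : TW d → ℝ) (x y : TW d) :
    ‖treeG s z om x y‖ ≤ 1 / z.im := Op.norm_G_le _ hz _ _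

theorem im_treeG_pos (s : ℝ) {z : ℂ} (hz : 0 < z.im) (om : TW d → ℝ) (x : TW d) :
    0 < (treeG s z om x x).im := Op.im_G_pos _ hz _

theorem treeG_symm (s : ℝ) {z : ℂ} (hz : 0 < z.im) (om : TW d → ℝ) (x y : TW d) :
    treeG s z om x y = treeG s z om y x := Op.G_symm _ hz.ne' _ _

theorem treeG_im_nonneg (s : ℝ) {z : ℂ} (hz : 0 < z.im) (om : TW d → ℝ) (S : Finset (TW d))
    (a : TW d → ℝ) : 0 ≤ ∑ x ∈ S, ∑ y ∈ S, a x * a y * (treeG s z om x y).im :=
  Op.sum_im_G_nonneg _ hz S a

theorem treeG_im_pos (s : ℝ) {z : ℂ} (hz : 0 < z.im) (om : TW d → ℝ) (S : Finset (TW d))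
    (a : TW d → ℝ) {x : TW d} (hx : x ∈ S) (ha : a x ≠ 0) :
    0 < ∑ x ∈ S, ∑ y ∈ S, a x * a y * (treeG s z om x y).im :=
  Op.sum_im_G_pos _ hz S a hx ha

/-- the parent (`nil` for the root) -/
def par (w : TW d) : TW d := ⟨w.1.dropLast, dropLast_prop w⟩

/-- the edge above a non-root word is a bridge -/
theorem isBridge (s : ℝ) (om : TW d → ℝ) (w : TW d) (hw : w.1 ≠ []) :
    (tOp s om).IsBridge (Br w.1) w (par w) where
  mem := List.prefix_refl _
  notMem := by
    intro h
    have h1 : w.1 <+: w.1.dropLast := h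
    have h2 := h1.length_le
    rw [List.length_dropLast] at h2
    have h3 : 0 < w.1.length := List.length_pos_iff.2 hw
    omega
  iff x hx y hy := by
    have hx' : w.1 <+: x.1 := hx
    have hy' : ¬ w.1 <+: y.1 := hy
    simp only [tOp_nb, mem_nbT]
    constructor
    · rintro (⟨i, hi⟩ | ⟨i, hi⟩)
      · exfalso
        apply hy'
        rw [hi]
        exact hx'.trans (List.prefix_append _ _)
      · rw [hi, List.prefix_concat_iff] at hx'
        have h1 := hx'.resolve_right hy'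
        have h2 : x = w := TW.ext (by rw [hi, h1])
        refine ⟨h2, TW.ext ?_⟩
        change y.1 = w.1.dropLast
        rw [h1]; simp
    · rintro ⟨rfl, rfl⟩
      right
      exact ⟨x.1.getLast hw, (List.dropLast_append_getLast hw).symm⟩

theorem not_mem_Br_nil {w : List (Fin d)} (hw : w ≠ []) : (TW.nil : TW d) ∉ Br w := by
  intro h
  have h1 : w <+: [] := h
  exact hw (List.prefix_nil.1 h1)

/-- the cavity number of the branch at `w` is the rerooted cavity number -/
theorem cut_Br_G (s : ℝ) (om : TW d → ℝ) (w : TW d) (hw : w.1 ≠ []) {z : ℂ} (hz : 0 < z.im)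
    (x y : TW d) : ((tOp s (om ∘ mvL w.1)).cut (US d)).G z x y =
      ((tOp s om).cut (Br w.1)).G z (mvL w.1 x) (mvL w.1 y) :=
  (aut_mvL w.1).cut_G s om (fun x => mvL_mem_Br w.2 hw x) hz x y

theorem cut_Br_cav (s : ℝ) (om : TW d → ℝ) (w : TW d) (hw : w.1 ≠ []) {z : ℂ} (hz : 0 < z.im) :
    ((tOp s om).cut (Br w.1)).G z w w = cav s z (om ∘ mvL w.1) := by
  rw [cav, cut_Br_G s om w hw hz, mvL_nil]

/-- multiplicativity: `G (w, y) = - G (parent w, y) * c (w)` for `y` outside the branch of `w` -/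
theorem treeG_par (s : ℝ) (om : TW d → ℝ) {z : ℂ} (hz : 0 < z.im) (w : TW d) (hw : w.1 ≠ [])
    {y : TW d} (hy : y ∉ Br w.1) :
    treeG s z om w y = - treeG s z om (par w) y * cav s z (om ∘ mvL w.1) := by
  rw [← cut_Br_cav s om w hw hz]
  exact (isBridge s om w hw).G_step hz.ne' hy

/-- product of `- cavity` along a word -/
def trp (s : ℝ) (z : ℂ) : List (Fin d) → (TW d → ℝ) → ℂ
  | [], _ => 1
  | j :: w, om => - cav s z (om ∘ mv j) * trp s z w (om ∘ mv j)

theorem trp_append (s : ℝ) (z : ℂ) (u : List (Fin d)) (k : Fin d) (om : TW d → ℝ) :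
    trp s z (u ++ [k]) om = trp s z u om * - cav s z (om ∘ mvL (u ++ [k])) := by
  induction u generalizing om with
  | nil =>
    simp only [List.nil_append, trp, mul_one, one_mul]
    rfl
  | cons j u ih =>
    rw [List.cons_append, trp, ih, trp, mul_assoc]
    rfl

/-- `G (w, y) = G (nil, y) * trp w` if `y` is not in the branch of the first letter of `w` -/
theorem treeG_trp (s : ℝ) (om : TW d → ℝ) {z : ℂ} (hz : 0 < z.im) (j : Fin d)
    (u : List (Fin d)) (hu : ∀ a ∈ (j :: u).tail, a ≠ 0) {y : TW d} (hy : y ∉ Br [j]) :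
    treeG s z om ⟨j :: u, hu⟩ y = treeG s z om TW.nil y * trp s z (j :: u) om := by
  induction u using List.reverseRecOn with
  | nil =>
    have h := treeG_par s om hz (⟨[j], hu⟩ : TW d) (by simp) hy
    have h2 : par (⟨[j], hu⟩ : TW d) = TW.nil := TW.ext rfl
    rw [h, h2, trp, trp, mul_one]
    have h3 : mvL [j] = (mv j : TW d → TW d) := rfl
    rw [h3]; ring
  | append_singleton u k ih =>
    have hu' : ∀ a ∈ (j :: u).tail, a ≠ 0 := by
      intro a ha
      apply hu
      simp only [List.tail_cons] at ha ⊢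
      exact List.mem_append_left _ ha
    have hy' : y ∉ Br (j :: (u ++ [k])) := by
      intro h
      apply hy
      have h1 : (j :: (u ++ [k])) <+: y.1 := h
      have h2 : [j] <+: (j :: (u ++ [k])) := by simp
      exact h2.trans h1
    have h := treeG_par s om hz (⟨j :: (u ++ [k]), hu⟩ : TW d) (by simp) hy'
    have h2 : par (⟨j :: (u ++ [k]), hu⟩ : TW d) = ⟨j :: u, hu'⟩ := by
      refine TW.ext ?_
      change (j :: (u ++ [k])).dropLast = j :: u
      rw [← List.cons_append, List.dropLast_concat]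
    have h3 : trp s z (j :: (u ++ [k])) om =
        trp s z (j :: u) om * - cav s z (om ∘ mvL (j :: (u ++ [k]))) := trp_append s z (j :: u) k om
    rw [h, h2, ih hu', h3]
    ring

lemma single_val (k : Fin d) : (TW.single k).1 = [k] := rfl

lemma mvL_single (k : Fin d) : mvL [k] = (mv k : TW d → TW d) := rfl

lemma par_single (k : Fin d) : par (TW.single k) = TW.nil := TW.ext rfl

lemma nbT_nil : nbT (TW.nil : TW d) = Finset.univ.image TW.single := by
  ext y
  rw [mem_nbT, Finset.mem_image]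
  constructor
  · rintro (⟨i, hi⟩ | ⟨i, hi⟩)
    · exact ⟨i, Finset.mem_univ _, TW.ext (by rw [hi]; rfl)⟩
    · have := congrArg List.length hi
      simp [TW.nil] at this
  · rintro ⟨i, _, rfl⟩
    exact Or.inl ⟨i, rfl⟩

lemma single_injective : Function.Injective (TW.single : Fin d → TW d) := by
  intro i j h
  have h1 : [i] = [j] := congrArg TW.val h
  simpa using h1

/-- Green function at the root -/
theorem treeG_nil (s : ℝ) (om : TW d → ℝ) {z : ℂ} (hz : 0 < z.im) :
    treeG s z om TW.nil TW.nil *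
      (z - s * clip (om TW.nil) + ∑ k : Fin d, cav s z (om ∘ mv k)) = -1 := by
  have h := Op.G_rec (H := tOp s om) TW.nil (fun w => Br w.1) (fun w hw => by
    simp only [tOp_nb, nbT_nil, Finset.mem_image] at hw
    obtain ⟨k, _, rfl⟩ := hw
    have := isBridge s om (TW.single k) (by simp [TW.single])
    rwa [par_single] at this) hz.ne'
  simp only [tOp_nb, nbT_nil, tOp_v] at h
  rw [Finset.sum_image (fun i _ j _ hij => single_injective hij)] at h
  have h2 : ∀ k : Fin d, ((tOp s om).cut (Br (TW.single k).1)).G z (TW.single k) (TW.single k) =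
      cav s z (om ∘ mv k) := fun k => by
    rw [cut_Br_cav s om (TW.single k) (by simp [TW.single]) hz]; rfl
  simp only [h2] at h
  unfold treeG
  rw [← neg_eq_iff_eq_neg, ← h]
  push_cast
  ring

/-- the cavity recursion -/
theorem cav_rec (s : ℝ) (om : TW d → ℝ) {z : ℂ} (hz : 0 < z.im) :
    cav s z om * (z - s * clip (om TW.nil) +
      ∑ k ∈ Finset.univ.filter (fun k : Fin d => k ≠ 0), cav s z (om ∘ mv k)) = -1 := by
  have hnb : ((tOp s om).cut (US d)).nb TW.nil =
      (Finset.univ.filter (fun k : Fin d => k ≠ 0)).image TW.single := by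
    ext y
    rw [Op.mem_cut_nb, tOp_nb, nbT_nil, Finset.mem_image, Finset.mem_image]
    constructor
    · rintro ⟨⟨k, _, rfl⟩, _, h2⟩
      refine ⟨k, Finset.mem_filter.2 ⟨Finset.mem_univ _, ?_⟩, rfl⟩
      intro hk
      rw [mem_US] at h2
      exact h2 (by rw [hk]; rfl)
    · rintro ⟨k, hk, rfl⟩
      rw [Finset.mem_filter] at hk
      refine ⟨⟨k, Finset.mem_univ _, rfl⟩, by simp [mem_US, TW.nil], ?_⟩
      rw [mem_US]
      simpa [TW.single] using hk.2
  have h := Op.cut_rec (H := tOp s om) (S := US d) TW.nil (by simp [mem_US, TW.nil])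
    (fun w => Br w.1) (fun w hw => by
      rw [hnb, Finset.mem_image] at hw
      obtain ⟨k, hk, rfl⟩ := hw
      have := isBridge s om (TW.single k) (by simp [TW.single])
      rw [par_single] at this
      refine ⟨this, fun x hx => ?_⟩
      rw [Finset.mem_filter] at hk
      have hx' : [k] <+: x.1 := hx
      rw [mem_US]
      obtain ⟨t, ht⟩ := hx'
      rw [← ht]
      simpa using hk.2) hz.ne'
  rw [hnb, Finset.sum_image (fun i _ j _ hij => single_injective hij)] at h
  simp only [tOp_v] at h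
  have h2 : ∀ k : Fin d, ((tOp s om).cut (Br (TW.single k).1)).G z (TW.single k) (TW.single k) =
      cav s z (om ∘ mv k) := fun k => by
    rw [cut_Br_cav s om (TW.single k) (by simp [TW.single]) hz]; rfl
  simp only [h2] at h
  unfold cav at h ⊢
  rw [← neg_eq_iff_eq_neg, ← h]
  push_cast
  ring

/-! ### Edge block and star in terms of cavity numbers -/

lemma om_mv_zero (om : TW d → ℝ) : om ∘ mv 0 = om ∘ TW.cr := by
  funext x
  simp [mv, TW.rt_zero]

lemma cr_nil : TW.cr (TW.nil : TW d) = TW.single 0 := TW.ext rfl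

lemma mem_US_iff_cr (x : TW d) : TW.cr x ∈ (US d)ᶜ ↔ x ∈ US d := by
  have h : ∀ y : TW d, y ∈ (US d)ᶜ ↔ y ∈ Br [0] := by
    intro y
    rw [Set.mem_compl_iff, mem_US, not_not, mem_Br]
    cases hy : y.1 with
    | nil => simp
    | cons b l => simp [eq_comm]
  rw [h, cr_mem_Br_single]

lemma isBridge_root (s : ℝ) (om : TW d → ℝ) :
    (tOp s om).IsBridge (US d) TW.nil (TW.single 0) := by
  have h := isBridge s om (TW.single (0 : Fin d)) (by simp [TW.single])
  rw [par_single] at h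
  have h2 := h.compl
  have h3 : (Br (TW.single (0 : Fin d)).1)ᶜ = US d := by
    ext y
    rw [Set.mem_compl_iff, mem_US, mem_Br, single_val]
    cases hy : y.1 with
    | nil => simp
    | cons b l => simp [eq_comm]
  rwa [h3] at h2

lemma cut_compl (s : ℝ) (om : TW d → ℝ) {z : ℂ} (hz : 0 < z.im) :
    ((tOp s om).cut (US d)ᶜ).G z (TW.single 0) (TW.single 0) = cav s z (om ∘ TW.cr) := by
  rw [cav, aut_cr.cut_G s om mem_US_iff_cr hz, cr_nil]

/-- the edge block, first diagonal entry -/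
theorem treeG_uu (s : ℝ) (om : TW d → ℝ) {z : ℂ} (hz : 0 < z.im) :
    treeG s z om TW.nil TW.nil * (1 - cav s z om * cav s z (om ∘ TW.cr)) = cav s z om := by
  have h := (isBridge_root s om).G_uu hz.ne'
  rwa [cut_compl s om hz] at h

theorem one_sub_cav_ne (s : ℝ) (om : TW d → ℝ) {z : ℂ} (hz : 0 < z.im) :
    1 - cav s z om * cav s z (om ∘ TW.cr) ≠ 0 := by
  have h := (isBridge_root s om).one_sub_ne hz
  rwa [cut_compl s om hz] at h

/-- the edge block, off-diagonal entry -/
theorem treeG_vu (s : ℝ) (om : TW d → ℝ) {z : ℂ} (hz : 0 < z.im) :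
    treeG s z om (TW.single 0) TW.nil = - treeG s z om TW.nil TW.nil * cav s z (om ∘ TW.cr) := by
  have h := (isBridge_root s om).G_vu hz.ne'
  rwa [cut_compl s om hz] at h

/-- equivariance under the edge flip -/
theorem treeG_cr (s : ℝ) (om : TW d → ℝ) {z : ℂ} (hz : 0 < z.im) (x y : TW d) :
    treeG s z (om ∘ TW.cr) x y = treeG s z om (TW.cr x) (TW.cr y) := aut_cr.G s om hz x y

/-- equivariance under port rotations -/
theorem treeG_rt (s : ℝ) (om : TW d → ℝ) (i : Fin d) {z : ℂ} (hz : 0 < z.im) (x y : TW d) :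
    treeG s z (om ∘ TW.rt i) x y = treeG s z om (TW.rt i x) (TW.rt i y) := (aut_rt i).G s om hz x y

theorem treeG_mvL (s : ℝ) (om : TW d → ℝ) (w : List (Fin d)) {z : ℂ} (hz : 0 < z.im)
    (x y : TW d) : treeG s z (om ∘ mvL w) x y = treeG s z om (mvL w x) (mvL w y) :=
  (aut_mvL w).G s om hz x y

theorem treeG_vv (s : ℝ) (om : TW d → ℝ) {z : ℂ} (hz : 0 < z.im) :
    treeG s z om (TW.single 0) (TW.single 0) * (1 - cav s z om * cav s z (om ∘ TW.cr)) =
      cav s z (om ∘ TW.cr) := by
  have h := treeG_uu s (om ∘ TW.cr) hz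
  have h2 : (om ∘ TW.cr) ∘ TW.cr = om := by
    funext x; simp [TW.cr_cr]
  rw [h2, treeG_cr s om hz, cr_nil] at h
  rw [mul_comm (cav s z om)]
  exact h

/-- star: the centre and a neighbour -/
theorem treeG_star_one (s : ℝ) (om : TW d → ℝ) {z : ℂ} (hz : 0 < z.im) (k : Fin d) :
    treeG s z om (TW.single k) TW.nil = - treeG s z om TW.nil TW.nil * cav s z (om ∘ mv k) := by
  have h := treeG_par s om hz (TW.single k) (by simp [TW.single]) (y := TW.nil)
    (not_mem_Br_nil (by simp [TW.single]))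
  rwa [par_single] at h

/-- star: two neighbours -/
theorem treeG_star_two (s : ℝ) (om : TW d → ℝ) {z : ℂ} (hz : 0 < z.im) (k l : Fin d) :
    treeG s z om (TW.single k) (TW.single l) =
      treeG s z om TW.nil TW.nil * cav s z (om ∘ mv k) * cav s z (om ∘ mv l) +
        if k = l then cav s z (om ∘ mv k) else 0 := by
  by_cases hkl : k = l
  · subst hkl
    rw [if_pos rfl]
    have hb := isBridge s om (TW.single k) (by simp [TW.single])
    have h := hb.G_in hz.ne' hb.mem hb.mem
    rw [par_single, cut_Br_cav s om (TW.single k) (by simp [TW.single]) hz] at h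
    have h2 : (tOp s om).G z TW.nil (TW.single k) = treeG s z om (TW.single k) TW.nil :=
      treeG_symm s hz om _ _
    rw [h2, treeG_star_one s om hz k] at h
    unfold treeG at h ⊢
    rw [h]
    change cav s z (om ∘ mv k) - _ * cav s z (om ∘ mv k) = _
    ring
  · rw [if_neg hkl, add_zero]
    have h := treeG_par s om hz (TW.single k) (by simp [TW.single]) (y := TW.single l) (by
      intro h
      have h1 : [k] <+: [l] := h
      simp at h1
      exact hkl h1)
    rw [par_single] at h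
    rw [h, treeG_symm s hz om TW.nil (TW.single l), treeG_star_one s om hz l]
    change - (- _ * _) * cav s z (om ∘ mv k) = _
    ring

/-- far vertex `0 :: u` (behind the neighbour number `0`) and a vertex `y` which is not behind it -/
theorem treeG_far (s : ℝ) (om : TW d → ℝ) {z : ℂ} (hz : 0 < z.im) (u : List (Fin d))
    (hu : ∀ a ∈ (0 :: u).tail, a ≠ 0) {y : TW d} (hy : y ∉ Br [0]) :
    treeG s z om ⟨0 :: u, hu⟩ y =
      treeG s z om TW.nil y * (- cav s z (om ∘ TW.cr) * trp s z u (om ∘ TW.cr)) := by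
  rw [treeG_trp s om hz 0 u hu hy, trp, om_mv_zero]

/-- the diagonal entry at a word is the rerooted entry at the root -/
theorem treeG_diag (s : ℝ) (om : TW d → ℝ) {z : ℂ} (hz : 0 < z.im) (w : TW d) :
    treeG s z om w w = treeG s z (om ∘ mvL w.1) TW.nil TW.nil := by
  rw [treeG_mvL s om w.1 hz, mvL_nil]

/-- far vertex `0 :: u` and the neighbour number `0` -/
theorem treeG_far_zero (s : ℝ) (om : TW d → ℝ) {z : ℂ} (hz : 0 < z.im) (u : List (Fin d))
    (hu : ∀ a ∈ (0 :: u).tail, a ≠ 0) :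
    treeG s z om ⟨0 :: u, hu⟩ (TW.single 0) =
      treeG s z om (TW.single 0) (TW.single 0) * trp s z u (om ∘ TW.cr) := by
  have hu1 : ∀ a ∈ u, a ≠ 0 := by simpa using hu
  have hu2 : ∀ a ∈ u.tail, a ≠ 0 := fun a ha => hu1 a (List.mem_of_mem_tail ha)
  have h1 : (⟨0 :: u, hu⟩ : TW d) = TW.cr ⟨u, hu2⟩ := by
    refine TW.ext ?_
    change 0 :: u = TW.crL u
    cases u with
    | nil => rfl
    | cons b l =>
      have hb : b ≠ 0 := hu1 b (by simp)
      simp [TW.crL, hb]
  have h2 : ∀ x y : TW d, treeG s z om (TW.cr x) (TW.cr y) = treeG s z (om ∘ TW.cr) x y :=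
    fun x y => (treeG_cr s om hz x y).symm
  rw [h1, ← cr_nil, h2, h2]
  cases u with
  | nil => simp [trp, TW.nil]
  | cons b l =>
    have h3 := treeG_trp s (om ∘ TW.cr) hz b l (by simpa using hu2) (y := TW.nil)
      (not_mem_Br_nil (by simp))
    rw [← h3]

/-! ### Continuity in the environment -/

theorem continuous_treeG (s : ℝ) {z : ℂ} (hz : 0 < z.im) (x y : TW d) :
    Continuous fun om : TW d → ℝ => treeG s z om x y :=
  continuous_G (fun om => tOp s om) (fun _ _ => rfl)
    (fun w => continuous_const.mul (continuous_clip.comp (continuous_apply w))) hz x y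

theorem continuous_cav (s : ℝ) {z : ℂ} (hz : 0 < z.im) :
    Continuous fun om : TW d → ℝ => cav s z om :=
  continuous_G (fun om => (tOp s om).cut (US d)) (fun _ _ => rfl)
    (fun w => continuous_const.mul (continuous_clip.comp (continuous_apply w))) hz _ _

theorem norm_treeG_sub_le (s : ℝ) {z z' : ℂ} (hz : 0 < z.im) (hz' : 0 < z'.im) (om : TW d → ℝ)
    (x y : TW d) : ‖treeG s z om x y - treeG s z' om x y‖ ≤ ‖z - z'‖ / (z.im * z'.im) :=
  Op.norm_G_sub_le _ hz hz' x y

theorem continuous_treeG_joint (s : ℝ) {P : Type*} [TopologicalSpace P] (ζ : P → ℂ)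
    (om : P → TW d → ℝ) (hζ : Continuous ζ) (hom : Continuous om) (hz : ∀ q, 0 < (ζ q).im)
    (x y : TW d) : Continuous fun q => treeG s (ζ q) (om q) x y :=
  continuous_G_joint (fun q => tOp s (om q)) (fun _ _ => rfl)
    (fun w => continuous_const.mul (continuous_clip.comp ((continuous_apply w).comp hom))) ζ hζ hz
    x y

/-! ### Configurations -/

/-- the potential read off a configuration -/
def omOf {T : Type*} (π : T → ℝ) (ξ : Conf d (Fin d × T)) : TW d → ℝ := fun w => π (ξ w).2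

section omOf
variable {T : Type*} (π : T → ℝ) (ξ : Conf d (Fin d × T))

theorem omOf_cross : omOf π (cross ξ) = omOf π ξ ∘ TW.cr := rfl

theorem omOf_rotn (i : Fin d) : omOf π (rotn i ξ) = omOf π ξ ∘ TW.rt i := by
  funext w
  by_cases h : w = TW.nil
  · subst h
    simp only [omOf, rotn, if_true, Function.comp, TW.rt_nil]
    rfl
  · simp only [omOf, rotn, h, if_false, Function.comp]

theorem omOf_step (i : Fin d) : omOf π (step i ξ) = omOf π ξ ∘ mv i := by
  rw [step, omOf_cross, omOf_rotn]; rfl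

theorem omOf_reroot (u : List (Fin d)) : omOf π (reroot u ξ) = omOf π ξ ∘ mvL u := by
  induction u generalizing ξ with
  | nil => rfl
  | cons i u ih => rw [reroot, ih, omOf_step]; rfl

theorem continuous_omOf [TopologicalSpace T] (hπ : Continuous π) :
    Continuous (omOf π : Conf d (Fin d × T) → TW d → ℝ) :=
  continuous_pi fun w => hπ.comp (continuous_snd.comp (continuous_apply w))

end omOf

/-! ### Comparison with port-numbered graphs -/

variable {n : ℕ}

/-- the operator of a port-numbered graph -/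
def gOp (p : Equiv.Perm (HE n d)) (hp : IsPort p) (s : ℝ) (om : Fin n → ℝ) :
    Op (Fin n) d |s| where
  nb v := Finset.univ.image fun i => (p (v, i)).1
  v x := s * clip (om x)
  symm x y h := by
    rw [Finset.mem_image] at h ⊢
    obtain ⟨i, _, hi⟩ := h
    refine ⟨(p (x, i)).2, Finset.mem_univ _, ?_⟩
    have : (y, (p (x, i)).2) = p (x, i) := by rw [← hi]
    rw [this, hp.inv]
  deg x := (Finset.card_image_le).trans (by simp)
  bdd x := by
    rw [abs_mul]
    exact mul_le_of_le_one_right (abs_nonneg _) (abs_clip_le _)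

theorem gOp_mat (p : Equiv.Perm (HE n d)) (hp : IsPort p) (s : ℝ) (om : Fin n → ℝ)
    (hom : ∀ v, |om v| ≤ 1) : (gOp p hp s om).mat = Hm (graphOf p) s om := by
  ext x y
  have h1 : y ∈ (gOp p hp s om).nb x ↔ (graphOf p).Adj x y := by
    rw [hp.adj_iff]
    simp [gOp]
  simp only [Op.mat, Hm, Matrix.add_apply, SimpleGraph.adjMatrix_apply, Matrix.smul_apply,
    Matrix.diagonal_apply, smul_eq_mul]
  congr 1
  · by_cases h : (graphOf p).Adj x y
    · rw [if_pos (h1.2 h), if_pos h]
    · rw [if_neg (fun e => h (h1.1 e)), if_neg h]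
  · split_ifs with h
    · change s * clip (om x) = _
      rw [clip_eq (hom x)]
    · simp

theorem Res_eq_gOp (p : Equiv.Perm (HE n d)) (hp : IsPort p) (s : ℝ) (om : Fin n → ℝ)
    (hom : ∀ v, |om v| ≤ 1) {z : ℂ} (hz : z.im ≠ 0) (x y : Fin n) :
    Res (Hm (graphOf p) s om) z x y = (gOp p hp s om).G z x y := by
  rw [Res, ← gOp_mat p hp s om hom, Op.inv_mat _ hz]; rfl

/-- the vertex reached by following the word `w` -/
def vx (p : Equiv.Perm (HE n d)) (h : HE n d) (w : TW d) : Fin n := (walk p w.1 h).1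

lemma vx_nbr {p : Equiv.Perm (HE n d)} (hp : IsPort p) (h : HE n d) (w : TW d) (i : Fin d) :
    vx p h (nbr w i) = (p (vx p h w, (walk p w.1 h).2 + i)).1 := by
  unfold vx
  by_cases hc : w.1 = [] ∨ i ≠ 0
  · rw [nbr_of w i hc, walk_append]; rfl
  · rw [nbr_not w i hc]
    have hw : w.1 ≠ [] := fun e => hc (Or.inl e)
    have hi : i = 0 := by
      by_contra e; exact hc (Or.inr e)
    have h1 : w.1 = w.1.dropLast ++ [w.1.getLast hw] := (List.dropLast_append_getLast hw).symm
    rw [hi, add_zero]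
    have h2 : walk p w.1 h = p ((walk p w.1.dropLast h).1,
        (walk p w.1.dropLast h).2 + w.1.getLast hw) := by
      conv_lhs => rw [h1]
      rw [walk_append]; rfl
    have h3 : p (walk p w.1 h) = ((walk p w.1.dropLast h).1,
        (walk p w.1.dropLast h).2 + w.1.getLast hw) := by
      rw [h2, hp.inv]
    have h4 : ((walk p w.1 h).1, (walk p w.1 h).2) = walk p w.1 h := rfl
    rw [h4, h3]

lemma gOp_nb_vx {p : Equiv.Perm (HE n d)} (hp : IsPort p) (s : ℝ) (om : Fin n → ℝ)
    (h : HE n d) (w : TW d) :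
    (gOp p hp s om).nb (vx p h w) = (nbT w).image (vx p h) := by
  ext v
  simp only [gOp, nbT, Finset.mem_image, Finset.mem_univ, true_and, exists_exists_eq_and]
  constructor
  · rintro ⟨i, hi⟩
    refine ⟨i - (walk p w.1 h).2, ?_⟩
    rw [vx_nbr hp, ← hi]; congr 3; abel
  · rintro ⟨i, hi⟩
    refine ⟨(walk p w.1 h).2 + i, ?_⟩
    rw [← hi, vx_nbr hp]

lemma vx_injOn {p : Equiv.Perm (HE n d)} (hp : IsPort p) (h : HE n d) (w : TW d) :
    Set.InjOn (vx p h) (nbT w : Set (TW d)) := by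
  intro x hx y hy hxy
  rw [Finset.mem_coe, nbT, Finset.mem_image] at hx hy
  obtain ⟨i, _, rfl⟩ := hx
  obtain ⟨j, _, rfl⟩ := hy
  rw [vx_nbr hp, vx_nbr hp] at hxy
  have := hp.simple _ _ _ hxy
  rw [add_left_cancel this]

theorem omOf_conf {T : Type*} (π : T → ℝ) (p : Equiv.Perm (HE n d)) (f : Fin n → T)
    (h : HE n d) : omOf π (conf p (lab f) h) = fun w => π (f (vx p h w)) := rfl

/-- the radius -/
def rad (d : ℕ) (s : ℝ) (z : ℂ) (ε : ℝ) : ℕ := Op.rad d |s| z ε

/-- comparison of the tree Green function and the resolvent of the graph at tree-like places -/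
theorem treeG_sub_Res {p : Equiv.Perm (HE n d)} (hp : IsPort p) (s : ℝ) (om : Fin n → ℝ)
    (hom : ∀ v, |om v| ≤ 1) (h : HE n d) {R : ℕ} (hR : Set.InjOn (vx p h) {w | w.len ≤ R})
    {z : ℂ} (hz : 0 < z.im) {ε : ℝ} (hε : 0 < ε) {x y : TW d} (hx : x.len + rad d s z ε ≤ R)
    (hy : y.len ≤ R) :
    ‖treeG s z (fun w => om (vx p h w)) x y -
      Res (Hm (graphOf p) s om) z (vx p h x) (vx p h y)‖ ≤ 2 * ε := by
  rw [Res_eq_gOp p hp s om hom hz.ne']
  refine Op.norm_G_sub_G_le (tOp s fun w => om (vx p h w)) (gOp p hp s om) (vx p h) y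
    (fun k x => x.len + k ≤ R) ?_ ?_ ?_ hz hε hx
  · intro k x hx
    refine ⟨by omega, fun x' hx' => ?_⟩
    have := len_le_of_nbT hx'
    omega
  · intro k x _
    exact ⟨gOp_nb_vx hp s om h x, vx_injOn hp h x, rfl⟩
  · intro x hx
    exact ⟨fun e => hR (by simpa using hx) hy e, fun e => by rw [e]⟩

end Crest.Agent.R166.TreeG879
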