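import Crest.Agent.R166.LimMean_974
import Crest.Agent.R166.NoiseLim5_849
import Crest.Agent.R166.TreeG_879
import Crest.Agent.R166.Spec_B2_385
import Crest.Agent.R166.Erg_424
import Crest.Agent.R166.EnvLaw_289

/-!
Row 166 (helper974): the fields of `B2.LimProc` which concern the maps, the environment, `X` and
the measurability/invariance of `Z`, on `Conf d (S2 d k)`, `pp = cross`, `rr = rotn 1`, with the
clipped environment.
-/

set_option autoImplicit false
set_option linter.unusedSectionVars false

noncomputable section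

namespace Crest.Agent.R166.LimProcX974

open MeasureTheory Filter Topology ProbabilityTheory
open Crest.ProbabilityR.RandomMatrix
open Crest.Agent.R166 Crest.Agent.R166.Words955 Crest.Agent.R166.Seq980
open Crest.Agent.R166.LimProps974
open Crest.Agent.R166.NoiseLim849 (S2 pr continuous_pr)
open Crest.Agent.R166.TreeG879 (clip clip_eq continuous_clip omOf)
open Crest.Agent.R166.TreeDefs350 (unif)
open Crest.Agent.R166.EnvLaw289 (envLaw)
open Crest.Agent.R166.Erg424 (envP measurable_envP measurable_rs)

variable {d k : ℕ} [NeZero d]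

/-! ### The σ-algebras and the functions -/

/-- the clipped environment of a configuration -/
def envZ (z : Conf d (S2 d k)) : TW d → Fin d × ℝ := fun w => ((z w).1, clip (z w).2.1)

/-- σ-algebra of the clipped environment -/
abbrev Env (d k : ℕ) [NeZero d] : MeasurableSpace (Conf d (S2 d k)) :=
  MeasurableSpace.comap (fun z w => ((z w).1, clip (z w).2.1)) inferInstance

/-- σ-algebra of the environment and `X` -/
abbrev FX (d k : ℕ) [NeZero d] : MeasurableSpace (Conf d (S2 d k)) :=
  MeasurableSpace.comap pr inferInstance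

/-- potential of the base vertex -/
abbrev om (z : Conf d (S2 d k)) : ℝ := clip (z TW.nil).2.1

/-- the frame values at the base vertex -/
abbrev XX (z : Conf d (S2 d k)) : Fin k → ℝ := (z TW.nil).2.2.1

/-- the noise at the base vertex -/
abbrev ZZ (z : Conf d (S2 d k)) : Fin k → ℝ := (z TW.nil).2.2.2

theorem measurable_clip : Measurable clip := continuous_clip.measurable

/-- clipping of an environment -/
def clE (x : Conf d (Fin d × ℝ)) : Conf d (Fin d × ℝ) := fun w => ((x w).1, clip (x w).2)

theorem measurable_clE : Measurable (clE : Conf d (Fin d × ℝ) → Conf d (Fin d × ℝ)) := by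
  refine measurable_pi_lambda _ fun w => ?_
  exact (measurable_fst.comp (measurable_pi_apply w)).prodMk
    (measurable_clip.comp (measurable_snd.comp (measurable_pi_apply w)))

theorem measurable_pr : Measurable (pr : Conf d (S2 d k) → Conf d (S1 d k)) := by
  refine measurable_pi_lambda _ fun w => ?_
  exact (measurable_fst.comp (measurable_pi_apply w)).prodMk
    ((measurable_fst.comp (measurable_snd.comp (measurable_pi_apply w))).prodMk
      (measurable_fst.comp (measurable_snd.comp (measurable_snd.comp (measurable_pi_apply w)))))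

theorem measurable_envM : Measurable (envM : Conf d (S1 d k) → Conf d (Fin d × ℝ)) :=
  continuous_envM.measurable

theorem envZ_eq : (fun (z : Conf d (S2 d k)) (w : TW d) => ((z w).1, clip (z w).2.1)) =
    clE ∘ envM ∘ pr := rfl

theorem Env_le_envM : Env d k ≤ MeasurableSpace.comap (envM ∘ pr) inferInstance := by
  unfold Env
  rw [envZ_eq, ← MeasurableSpace.comap_comp]
  exact MeasurableSpace.comap_mono measurable_clE.comap_le

theorem Env_le_FX : Env d k ≤ FX d k := by
  refine Env_le_envM.trans ?_
  rw [← MeasurableSpace.comap_comp]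
  exact MeasurableSpace.comap_mono measurable_envM.comap_le

theorem FX_le : FX d k ≤ (inferInstance : MeasurableSpace (Conf d (S2 d k))) :=
  measurable_pr.comap_le

theorem Env_le : Env d k ≤ (inferInstance : MeasurableSpace (Conf d (S2 d k))) :=
  Env_le_FX.trans FX_le

/-! ### Equivariance -/

theorem pr_cross (z : Conf d (S2 d k)) : pr (cross z) = cross (pr z) := rfl

theorem pr_rotn (i : Fin d) (z : Conf d (S2 d k)) : pr (rotn i z) = rotn i (pr z) := by
  funext w
  by_cases h : w = TW.nil
  · subst h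
    simp [pr, rotn, PortAct.rs]
  · simp [pr, rotn, h]

theorem envM_cross (x : Conf d (S1 d k)) : envM (cross x) = cross (envM x) := rfl

theorem envM_rotn (i : Fin d) (x : Conf d (S1 d k)) : envM (rotn i x) = rotn i (envM x) := by
  funext w
  by_cases h : w = TW.nil
  · subst h
    simp [envM, rotn, PortAct.rs]
  · simp [envM, rotn, h]

theorem clE_cross (x : Conf d (Fin d × ℝ)) : clE (cross x) = cross (clE x) := rfl

theorem clE_rotn (i : Fin d) (x : Conf d (Fin d × ℝ)) : clE (rotn i x) = rotn i (clE x) := by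
  funext w
  by_cases h : w = TW.nil
  · subst h
    simp [clE, rotn, PortAct.rs]
  · simp [clE, rotn, h]

/-- measurability of an equivariant map with respect to pulled back σ-algebras -/
theorem measurable_comap_of {Ω Ω' : Type*} [m : MeasurableSpace Ω'] (f : Ω → Ω') (a : Ω → Ω)
    (a' : Ω' → Ω') (ha' : Measurable a') (h : ∀ x, f (a x) = a' (f x)) :
    Measurable[MeasurableSpace.comap f m, MeasurableSpace.comap f m] a := by
  rw [measurable_iff_comap_le, MeasurableSpace.comap_comp]
  have h1 : f ∘ a = a' ∘ f := funext h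
  rw [h1, ← MeasurableSpace.comap_comp]
  exact MeasurableSpace.comap_mono ha'.comap_le

theorem pp_Env : Measurable[Env d k, Env d k] (cross : Conf d (S2 d k) → Conf d (S2 d k)) :=
  measurable_comap_of (Ω' := Conf d (Fin d × ℝ)) (clE ∘ envM ∘ pr) cross cross measurable_cross
    fun _ => rfl

theorem rr_Env : Measurable[Env d k, Env d k] (rotn 1 : Conf d (S2 d k) → Conf d (S2 d k)) :=
  measurable_comap_of (Ω' := Conf d (Fin d × ℝ)) (clE ∘ envM ∘ pr) (rotn 1) (rotn 1)
    (measurable_rotn measurable_rs 1) fun z => by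
      simp only [Function.comp_apply, pr_rotn, envM_rotn, clE_rotn]

theorem pp_FX : Measurable[FX d k, FX d k] (cross : Conf d (S2 d k) → Conf d (S2 d k)) :=
  measurable_comap_of pr cross cross measurable_cross fun _ => rfl

theorem rr_FX : Measurable[FX d k, FX d k] (rotn 1 : Conf d (S2 d k) → Conf d (S2 d k)) :=
  measurable_comap_of pr (rotn 1) (rotn 1) (measurable_rotn measurable_rs 1) fun z => pr_rotn 1 z

theorem rotn_iter (j : ℕ) (z : Conf d (S2 d k)) : (rotn 1)^[j] z = rotn (Fin.ofNat d j) z := by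
  induction j with
  | zero =>
    have h : Fin.ofNat d 0 = 0 := Fin.ext (by simp [Fin.ofNat])
    rw [h, rotn_zero]
    rfl
  | succ j ih =>
    rw [Function.iterate_succ_apply', ih, rotn_rotn]
    congr 1
    apply Fin.ext
    simp [Fin.ofNat, Fin.val_add, add_comm]

theorem rr_d (z : Conf d (S2 d k)) : (rotn 1)^[d] z = z := by
  rw [rotn_iter]
  have h : Fin.ofNat d d = 0 := Fin.ext (by simp [Fin.ofNat])
  rw [h, rotn_zero]

theorem om_meas : Measurable[Env d k] (om : Conf d (S2 d k) → ℝ) := by
  have h : (om : Conf d (S2 d k) → ℝ) = (fun x : TW d → Fin d × ℝ => (x TW.nil).2) ∘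
      (fun z w => ((z w).1, clip (z w).2.1)) := rfl
  rw [h]
  exact (measurable_snd.comp (measurable_pi_apply _)).comp (comap_measurable _)

theorem rotn_nil (i : Fin d) (z : Conf d (S2 d k)) : (rotn i z) TW.nil = ((z TW.nil).1 + i,
    (z TW.nil).2) := by
  simp [rotn, PortAct.rs]

theorem om_rr (z : Conf d (S2 d k)) : om (rotn 1 z) = om z := by
  simp only [om, rotn_nil]

theorem X_meas : Measurable[FX d k] (XX : Conf d (S2 d k) → Fin k → ℝ) := by
  have h : (XX : Conf d (S2 d k) → Fin k → ℝ) = (fun x : Conf d (S1 d k) => (x TW.nil).2.2) ∘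
      pr := rfl
  rw [h]
  exact (measurable_snd.comp (measurable_snd.comp (measurable_pi_apply _))).comp
    (comap_measurable _)

theorem X_rr (z : Conf d (S2 d k)) : XX (rotn 1 z) = XX z := by
  simp only [XX, rotn_nil]

theorem Z_meas : Measurable (ZZ : Conf d (S2 d k) → Fin k → ℝ) :=
  measurable_snd.comp (measurable_snd.comp (measurable_snd.comp (measurable_pi_apply _)))

theorem Z_rr (z : Conf d (S2 d k)) : ZZ (rotn 1 z) = ZZ z := by
  simp only [ZZ, rotn_nil]

/-- functions of the clipped potentials are `Env`-measurable -/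
theorem measurable_Env_of {β : Type*} [MeasurableSpace β] (f : (TW d → ℝ) → β)
    (hf : Measurable f) :
    Measurable[Env d k] fun z : Conf d (S2 d k) => f (fun w => clip (z w).2.1) := by
  have h : (fun z : Conf d (S2 d k) => f (fun w => clip (z w).2.1)) =
      (fun x : TW d → Fin d × ℝ => f (fun w => (x w).2)) ∘
      (fun z w => ((z w).1, clip (z w).2.1)) := rfl
  rw [h]
  refine Measurable.comp ?_ (comap_measurable _)
  exact hf.comp (measurable_pi_lambda _ fun w => measurable_snd.comp (measurable_pi_apply w))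

/-- the same in the form `omOf` -/
theorem cav_meas {β : Type*} [MeasurableSpace β] (cavL : (TW d → ℝ) → β)
    (hf : Measurable cavL) :
    Measurable[Env d k] fun z : Conf d (S2 d k) => cavL (omOf (fun t => clip t.1) z) :=
  measurable_Env_of cavL hf

/-! ### Neighbour moves -/

theorem mv_eq (i : ℕ) (z : Conf d (S2 d k)) :
    B2.mv cross (rotn 1) i z = step (Fin.ofNat d i) z := by
  unfold B2.mv step
  rw [rotn_iter]

theorem step_nil (i : Fin d) (z : Conf d (S2 d k)) : (step i z) TW.nil = z (TW.single i) :=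
  step_apply i z TW.nil (by simp [TW.uSide, TW.nil]) (by simp [TW.nil])

theorem sum_mv (f : S2 d k → ℝ) (z : Conf d (S2 d k)) :
    ∑ i ∈ Finset.range d, f ((B2.mv cross (rotn 1) i z) TW.nil) =
      ∑ i : Fin d, f (z (TW.single i)) := by
  rw [Finset.sum_range]
  refine Finset.sum_congr rfl fun i _ => ?_
  rw [mv_eq, step_nil]
  congr 2
  congr 1
  apply Fin.ext
  simp [Fin.ofNat, Nat.mod_eq_of_lt i.2]

/-! ### Transport from the law of the extracted sequence -/

section law

variable {Q : Measure (Conf d (S2 d k))} {S : Seq d k}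

theorem mp_pr (hQ : Q.map pr = S.P) : MeasurePreserving pr Q S.P := ⟨measurable_pr, hQ⟩

theorem prob_of (hQ : Q.map pr = S.P) : IsProbabilityMeasure Q := by
  have := S.prob
  constructor
  have h := (mp_pr hQ).measure_preimage (s := Set.univ) MeasurableSet.univ.nullMeasurableSet
  rw [Set.preimage_univ] at h
  rw [h, measure_univ]

theorem pp_mp (hI : Inv Q) : MeasurePreserving cross Q Q := ⟨measurable_cross, hI.1⟩

theorem rr_mp (hI : Inv Q) : MeasurePreserving (rotn 1) Q Q :=
  ⟨measurable_rotn measurable_rs 1, hI.2 1⟩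

theorem ae_pr (hQ : Q.map pr = S.P) {p : Conf d (S1 d k) → Prop} (h : ∀ᵐ ξ ∂S.P, p ξ) :
    ∀ᵐ z ∂Q, p (pr z) := (mp_pr hQ).quasiMeasurePreserving.ae h

/-- the potentials are almost surely in `[-1,1]`: clipping does nothing -/
theorem clip_ae (hQ : Q.map pr = S.P) : ∀ᵐ z ∂Q, ∀ w : TW d, clip (z w).2.1 = (z w).2.1 := by
  filter_upwards [ae_pr hQ (om_P S)] with z hz w
  exact clip_eq (abs_le.2 (hz w))

theorem X_L2 (hQ : Q.map pr = S.P) (hui : UIF S) (l : Fin k) :
    MemLp (fun h : Conf d (S2 d k) => XX h l) 2 Q :=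
  (LimProps974.X_L2 S hui l).comp_measurePreserving (mp_pr hQ)

theorem X_eq (hQ : Q.map pr = S.P) (s E : ℝ)
    (hnear : ∀ δ : ℝ, 0 < δ → ∀ᶠ j in atTop, ∀ x ∈ S.U j, ∀ l,
      ∑ v, (((Hm (graphOf x.1) s x.2).mulVec (S.F j x l)) v - E * S.F j x l v) ^ 2
        ≤ δ * S.n j) :
    ∀ᵐ h ∂Q, ∀ l, ∑ i ∈ Finset.range d, XX (B2.mv cross (rotn 1) i h) l =
      (E - s * om h) * XX h l := by
  filter_upwards [ae_pr hQ (LimProps974.X_eq S s E hnear), clip_ae hQ] with z hz hc l
  have h1 := hz l
  have h2 : ∑ i ∈ Finset.range d, XX (B2.mv cross (rotn 1) i z) l =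
      ∑ i : Fin d, (z (TW.single i)).2.2.1 l := sum_mv (fun t => t.2.2.1 l) z
  rw [h2]
  unfold resid at h1
  have h3 : om z = (z TW.nil).2.1 := hc TW.nil
  rw [h3]
  have h4 : (∑ i : Fin d, (pr z (TW.single i)).2.2 l) = ∑ i : Fin d, (z (TW.single i)).2.2.1 l :=
    rfl
  have h5 : (pr z TW.nil).2.1 = (z TW.nil).2.1 := rfl
  have h6 : (pr z TW.nil).2.2 l = XX z l := rfl
  rw [h4, h5, h6] at h1
  linarith

theorem X_cov (hQ : Q.map pr = S.P) (hui : UIF S)
    (horth : ∀ᶠ j in atTop, ∀ x ∈ S.U j, ∀ l l', ∑ v, S.F j x l v * S.F j x l' v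
      = if l = l' then (S.n j : ℝ) else 0) (l l' : Fin k) :
    ∫ h, XX h l * XX h l' ∂Q = if l = l' then 1 else 0 := by
  rw [← LimProps974.X_cov S hui horth l l', ← hQ, integral_map measurable_pr.aemeasurable]
  · rfl
  · exact ((continuous_site_X (d := d) (TW.nil : TW d) l).mul
      (continuous_site_X TW.nil l')).measurable.aestronglyMeasurable

theorem X_mean (hQ : Q.map pr = S.P) (hui : UIF S) (hm : MeanOrth S) (l : Fin k) :
    Q[fun h : Conf d (S2 d k) => XX h l | Env d k] =ᵐ[Q] 0 := by
  have hpr := S.prob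
  have hQp := prob_of hQ
  symm
  refine ae_eq_condExp_of_forall_setIntegral_eq Env_le
    ((X_L2 hQ hui l).integrable (by norm_num)) ?_ ?_ ?_
  · intro s _ _
    exact integrableOn_zero
  · intro A hA _
    obtain ⟨B, hB, rfl⟩ := Env_le_envM _ hA
    have hB' : MeasurableSet[EnvS d k] (envM ⁻¹' B : Set (Conf d (S1 d k))) := ⟨B, hB, rfl⟩
    have h1 : ∫ z in (envM ∘ pr) ⁻¹' B, XX z l ∂Q =
        ∫ x in envM ⁻¹' B, (x TW.nil).2.2 l ∂S.P := by
      rw [← hQ, setIntegral_map (measurable_envM hB) _ measurable_pr.aemeasurable]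
      · rfl
      · exact (continuous_site_X (d := d) (TW.nil : TW d) l).measurable.aestronglyMeasurable
    rw [h1, ← setIntegral_condExp EnvS_le
      ((LimProps974.X_L2 S hui l).integrable (by norm_num)) hB']
    have h2 := LimProps974.X_mean S hui hm l
    rw [setIntegral_congr_ae (g := fun _ => (0 : ℝ)) (measurable_envM hB)]
    · simp
    · filter_upwards [h2] with x hx _
      exact hx
  · exact stronglyMeasurable_zero.aestronglyMeasurable

/-- ergodicity of the clipped environment -/
theorem erg (hd : 2 ≤ d) (hI : Inv Q) (hQ : Q.map pr = S.P) (henv : S.P.map envP = envLaw d unif)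
    (f : Conf d (S2 d k) → ℝ) (hf : Measurable[Env d k] f)
    (h1 : ∀ᵐ h ∂Q, f (rotn 1 h) = f h) (h3 : ∀ᵐ h ∂Q, f (cross (rotn 1 (cross h))) = f h) :
    ∃ c : ℝ, ∀ᵐ h ∂Q, f h = c := by
  have hQp := prob_of hQ
  have hu : IsProbabilityMeasure (EnvLaw289.siteLaw d unif) := by
    unfold EnvLaw289.siteLaw
    infer_instance
  have hlaw : Q.map envP = Measure.infinitePi fun _ : TW d => EnvLaw289.siteLaw d unif := by
    have h5 : (envP : Conf d (S2 d k) → Conf d (Fin d × ℝ)) =
        (envP : Conf d (S1 d k) → Conf d (Fin d × ℝ)) ∘ pr := rfl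
    rw [h5, ← Measure.map_map measurable_envP measurable_pr, hQ, henv]
    rfl
  exact Erg424.erg_conf hd Q hI hlaw f (hf.mono Env_le_envM le_rfl) h1 h3

end law

end Crest.Agent.R166.LimProcX974
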