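import Crest.Agent.R166.InnovD_487

/-!
Row 166, section 42.4 (helper487).  `Stmt_innov`: vanishing increments imply that, given the
environment, the edge pair is independent of the innovations.
-/

set_option autoImplicit false
set_option linter.unusedSectionVars false
set_option linter.unusedVariables false

namespace Crest.Agent.R166.Innov487

open MeasureTheory ProbabilityTheory Crest.Agent.R166.B2 Crest.Agent.R166.Tweedie487
  Crest.Agent.R166.Mart663 Crest.Agent.R166.Freeze487
open scoped Matrix

section factor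

variable {Ω : Type*} {Env edge mΩ : MeasurableSpace Ω} {P : Measure Ω} [IsProbabilityMeasure P]

/-- final factorisation -/
theorem factor (h1 : Env ≤ edge) (h2 : edge ≤ mΩ) {f g w : Ω → ℂ} (hf : StronglyMeasurable[edge] f)
    (hfb : ∀ x, ‖f x‖ ≤ 1) (hg : StronglyMeasurable[mΩ] g) (hgb : ∀ x, ‖g x‖ ≤ 1)
    (hw : StronglyMeasurable[Env] w) {C : ℝ} (hwb : ∀ x, ‖w x‖ ≤ C)
    (hgw : P[g | edge] =ᵐ[P] w) :
    P[fun x => f x * g x | Env] =ᵐ[P] fun x => (P[f | Env]) x * (P[g | Env]) x := by
  have hE : Env ≤ mΩ := h1.trans h2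
  have hgi : Integrable g P := by
    refine Integrable.mono' (integrable_const (1 : ℝ)) hg.aestronglyMeasurable
      (Filter.Eventually.of_forall hgb)
  have hfi : Integrable f P := by
    refine Integrable.mono' (integrable_const (1 : ℝ)) (hf.mono h2).aestronglyMeasurable
      (Filter.Eventually.of_forall hfb)
  have hwi : Integrable w P := by
    refine Integrable.mono' (integrable_const C) (hw.mono hE).aestronglyMeasurable
      (Filter.Eventually.of_forall hwb)
  have hfg : Integrable (fun x => f x * g x) P := by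
    refine Integrable.mono' (integrable_const (1 : ℝ))
      ((hf.mono h2).mul hg).aestronglyMeasurable (Filter.Eventually.of_forall fun x => ?_)
    rw [norm_mul]
    calc ‖f x‖ * ‖g x‖ ≤ 1 * 1 := mul_le_mul (hfb x) (hgb x) (norm_nonneg _) zero_le_one
      _ = 1 := one_mul 1
  have hfw : Integrable (fun x => f x * w x) P := by
    refine (hfi.norm.mul_const C).mono'
      ((hf.mono h2).mul (hw.mono hE)).aestronglyMeasurable (Filter.Eventually.of_forall fun x => ?_)
    rw [norm_mul]
    exact mul_le_mul_of_nonneg_left (hwb x) (norm_nonneg _)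
  have e1 : P[fun x => f x * g x | edge] =ᵐ[P] fun x => f x * w x := by
    have := condExp_bilin_of_stronglyMeasurable_left (μ := P) (ContinuousLinearMap.mul ℝ ℂ) hf
      (g := g) (by simpa using hfg) hgi
    simp only [ContinuousLinearMap.mul_apply'] at this
    refine this.trans ?_
    filter_upwards [hgw] with x hx
    rw [hx]
  have e2 : P[fun x => f x * g x | Env] =ᵐ[P] P[fun x => f x * w x | Env] :=
    (condExp_condExp_of_le h1 h2).symm.trans (condExp_congr_ae e1)
  have e3 : P[fun x => f x * w x | Env] =ᵐ[P] fun x => (P[f | Env]) x * w x := by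
    have := condExp_bilin_of_stronglyMeasurable_right (μ := P) (m := Env)
      (ContinuousLinearMap.mul ℝ ℂ) (f := f) (g := w) hw (by simpa using hfw) hfi
    simpa only [ContinuousLinearMap.mul_apply'] using this
  have e4 : P[g | Env] =ᵐ[P] w := by
    have h3 : P[P[g | edge] | Env] =ᵐ[P] P[g | Env] := condExp_condExp_of_le h1 h2
    have h4 : P[P[g | edge] | Env] =ᵐ[P] P[w | Env] := condExp_congr_ae hgw
    have h5 : P[w | Env] = w := condExp_of_stronglyMeasurable hE hw hwi
    rw [h5] at h4
    exact h3.symm.trans h4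
  refine e2.trans (e3.trans ?_)
  filter_upwards [e4] with x hx
  rw [hx]

end factor

section defs

variable {Ω : Type*} {k : ℕ}

/-- the edge vector -/
noncomputable def Ye (t : ℝ) (pp : Ω → Ω) (X Z : Ω → Fin k → ℝ) (h : Ω) : Fin 2 × Fin k → ℝ :=
  fun q => if q.1 = 0 then YY t X Z h q.2 else YY t X Z (pp h) q.2

/-- the innovation vector -/
noncomputable def II (pp rr : Ω → Ω) (d : ℕ) (s E t : ℝ) (om : Ω → ℝ) (cav : Ω → ℂ)
    (X Z : Ω → Fin k → ℝ) (h : Ω) : Fin d × Fin k → ℝ :=
  fun q => if (q.1 : ℕ) = 0 then 0 else Inn pp rr d s E t om cav X Z q.1 h q.2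

/-- the `X`-part of the innovation vector -/
noncomputable def IX (pp rr : Ω → Ω) (d : ℕ) (s E : ℝ) (om : Ω → ℝ) (cav : Ω → ℂ)
    (X : Ω → Fin k → ℝ) (h : Ω) : Fin d × Fin k → ℝ :=
  JJ pp rr d s E om cav X h

theorem II_eq (pp rr : Ω → Ω) (d : ℕ) (s E t : ℝ) (om : Ω → ℝ) (cav : Ω → ℂ)
    (X Z : Ω → Fin k → ℝ) (h : Ω) (q : Fin d × Fin k) :
    II pp rr d s E t om cav X Z h q = IX pp rr d s E om cav X h q +
      Real.sqrt t * JJ pp rr d s E om cav Z h q := by
  unfold II IX JJ
  by_cases hq : (q.1 : ℕ) = 0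
  · simp [hq]
  · have hz : mv pp rr 0 h = pp h := rfl
    simp only [hq, if_false, Inn, Wr, YY, hz]
    have e : ∑ i ∈ Finset.range d, (cav (mv pp rr i h)).im = AI pp rr d cav h := rfl
    have e' : (cav (pp h)).im = aI pp rr cav 0 h := rfl
    have e'' : (cav (mv pp rr q.1 h)).im = aI pp rr cav q.1 h := rfl
    rw [e, e', e'']
    ring

/-- whitening matrix -/
noncomputable def BB (pp rr : Ω → Ω) (d : ℕ) (s E t ρ : ℝ) (om : Ω → ℝ) (cav : Ω → ℂ) (h : Ω) :
    Matrix (Fin 2 × Fin k) (Fin 2 × Fin k) ℝ := fun p q =>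
  if p.2 = q.2 then
    (if p.1 = 0 then (if q.1 = 0 then Real.sqrt t * sV pp rr d s E ρ om cav h else 0)
    else (if q.1 = 0 then Real.sqrt t * (bet pp rr d s E om cav 0 h * sV pp rr d s E ρ om cav h)
      else Real.sqrt t * s0 pp rr d ρ cav h)) else 0

/-- inverse of the whitening matrix -/
noncomputable def BI (pp rr : Ω → Ω) (d : ℕ) (s E t ρ : ℝ) (om : Ω → ℝ) (cav : Ω → ℂ) (h : Ω) :
    Matrix (Fin 2 × Fin k) (Fin 2 × Fin k) ℝ := fun p q =>
  if p.2 = q.2 then
    (if p.1 = 0 then (if q.1 = 0 then 1 / (Real.sqrt t * sV pp rr d s E ρ om cav h) else 0)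
    else (if q.1 = 0 then -(bet pp rr d s E om cav 0 h) / (Real.sqrt t * s0 pp rr d ρ cav h)
      else 1 / (Real.sqrt t * s0 pp rr d ρ cav h))) else 0

theorem BI_mul_BB (pp rr : Ω → Ω) (d : ℕ) (s E t ρ : ℝ) (om : Ω → ℝ) (cav : Ω → ℂ) (h : Ω)
    (ht : 0 < t) (h1 : sV pp rr d s E ρ om cav h ≠ 0) (h2 : s0 pp rr d ρ cav h ≠ 0) :
    (BI pp rr d s E t ρ om cav h : Matrix (Fin 2 × Fin k) (Fin 2 × Fin k) ℝ) *
      BB pp rr d s E t ρ om cav h = 1 := by
  have hts : Real.sqrt t ≠ 0 := (Real.sqrt_pos.2 ht).ne'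
  ext ⟨p1, p2⟩ ⟨q1, q2⟩
  rw [Matrix.mul_apply, Fintype.sum_prod_type, Fin.sum_univ_two, Matrix.one_apply]
  simp only [BI, BB, Prod.mk.injEq]
  by_cases hpq : p2 = q2
  · subst hpq
    fin_cases p1 <;> fin_cases q1 <;> simp <;> field_simp <;> ring
  · rw [Finset.sum_eq_zero, Finset.sum_eq_zero]
    · simp [hpq]
    · intro x _
      by_cases hx : p2 = x
      · subst hx; simp [hpq]
      · simp [hx]
    · intro x _
      by_cases hx : p2 = x
      · subst hx; simp [hpq]
      · simp [hx]

theorem BB_mulVec (pp rr : Ω → Ω) (d : ℕ) (s E t ρ : ℝ) (om : Ω → ℝ) (cav : Ω → ℂ)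
    (Z : Ω → Fin k → ℝ) (h : Ω) (h1 : sV pp rr d s E ρ om cav h ≠ 0)
    (h2 : s0 pp rr d ρ cav h ≠ 0) (q : Fin 2 × Fin k) :
    ((BB pp rr d s E t ρ om cav h : Matrix (Fin 2 × Fin k) (Fin 2 × Fin k) ℝ) *ᵥ
      NN pp rr d s E ρ om cav Z h) q =
      Real.sqrt t * (if q.1 = 0 then Z h q.2 else Z (pp h) q.2) := by
  obtain ⟨p1, p2⟩ := q
  rw [Matrix.mulVec, dotProduct, Fintype.sum_prod_type, Fin.sum_univ_two]
  simp only [BB, NN]
  fin_cases p1 <;> simp <;> field_simp
  ring

end defs

section law

variable {Ω : Type} {Env FX : MeasurableSpace Ω} [mΩ : MeasurableSpace Ω] {d k : ℕ}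
  {s E t ρ : ℝ} {P : Measure Ω} {pp rr : Ω → Ω} {om : Ω → ℝ} {cav : Ω → ℂ}
  {X Z : Ω → Fin k → ℝ}

theorem sig_ne (L : LimProc Env FX d k s E t ρ P pp rr om cav X Z) :
    ∀ᵐ h ∂P, sV pp rr d s E ρ om cav h ≠ 0 ∧ s0 pp rr d ρ cav h ≠ 0 := by
  filter_upwards [pos_ae L] with h hh
  obtain ⟨h1, h2, h3, h4, h5⟩ := hh
  have hR : 0 < Real.pi * ρ := mul_pos Real.pi_pos L.hρ
  have h10 := h1 0
  constructor
  · unfold sV
    exact (Real.sqrt_pos.2 (by positivity)).ne'
  · unfold s0
    exact (Real.sqrt_pos.2 (by positivity)).ne'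

theorem BB_Env (L : LimProc Env FX d k s E t ρ P pp rr om cav X Z) (p q : Fin 2 × Fin k) :
    Measurable[Env] fun h => BB pp rr d s E t ρ om cav h p q := by
  have h1 : Measurable[Env] fun h => Real.sqrt t * sV pp rr d s E ρ om cav h :=
    (sV_Env L).const_mul _
  have h2 : Measurable[Env] fun h =>
      Real.sqrt t * (bet pp rr d s E om cav 0 h * sV pp rr d s E ρ om cav h) :=
    ((bet_Env L 0).mul (sV_Env L)).const_mul _
  have h3 : Measurable[Env] fun h => Real.sqrt t * s0 pp rr d ρ cav h := (s0_Env L).const_mul _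
  have h4 : Measurable[Env] fun _ : Ω => (0 : ℝ) := @measurable_const _ _ _ Env _
  unfold BB
  split_ifs
  · exact h1
  · exact h4
  · exact h2
  · exact h3
  · exact h4

theorem BI_Env (L : LimProc Env FX d k s E t ρ P pp rr om cav X Z) (p q : Fin 2 × Fin k) :
    Measurable[Env] fun h => BI pp rr d s E t ρ om cav h p q := by
  have h0 : Measurable[Env] fun _ : Ω => (1 : ℝ) := @measurable_const _ _ _ Env _
  have h1 : Measurable[Env] fun h => 1 / (Real.sqrt t * sV pp rr d s E ρ om cav h) :=
    h0.div ((sV_Env L).const_mul _)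
  have h2 : Measurable[Env] fun h =>
      -(bet pp rr d s E om cav 0 h) / (Real.sqrt t * s0 pp rr d ρ cav h) :=
    (bet_Env L 0).neg.div ((s0_Env L).const_mul _)
  have h3 : Measurable[Env] fun h => 1 / (Real.sqrt t * s0 pp rr d ρ cav h) :=
    h0.div ((s0_Env L).const_mul _)
  have h4 : Measurable[Env] fun _ : Ω => (0 : ℝ) := @measurable_const _ _ _ Env _
  unfold BI
  split_ifs
  · exact h1
  · exact h4
  · exact h2
  · exact h3
  · exact h4

theorem YY_meas (L : LimProc Env FX d k s E t ρ P pp rr om cav X Z) : Measurable (YY t X Z) := by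
  refine measurable_pi_lambda _ fun l => ?_
  exact ((measurable_pi_apply l).comp (L.X_meas.mono L.FX_le le_rfl)).add
    (((measurable_pi_apply l).comp L.Z_meas).const_mul _)

theorem Ye_meas (L : LimProc Env FX d k s E t ρ P pp rr om cav X Z) :
    Measurable (Ye t pp X Z) := by
  refine measurable_pi_lambda _ fun q => ?_
  unfold Ye
  by_cases hq : q.1 = 0
  · simp only [hq, if_true]
    exact (measurable_pi_apply _).comp (YY_meas L)
  · simp only [hq, if_false]
    exact (measurable_pi_apply _).comp ((YY_meas L).comp L.pp_mp.measurable)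

/-- the `X`-part of the edge vector -/
theorem Xe_FX (L : LimProc Env FX d k s E t ρ P pp rr om cav X Z) :
    Measurable[FX] fun h => (fun q : Fin 2 × Fin k => if q.1 = 0 then X h q.2 else X (pp h) q.2) := by
  refine @measurable_pi_lambda Ω (Fin 2 × Fin k) (fun _ => ℝ) FX _ _ fun q => ?_
  by_cases hq : q.1 = 0
  · simp only [hq, if_true]
    exact (measurable_pi_apply q.2).comp L.X_meas
  · simp only [hq, if_false]
    exact (measurable_pi_apply q.2).comp (L.X_meas.comp L.pp_FX)

theorem IX_FX (L : LimProc Env FX d k s E t ρ P pp rr om cav X Z) :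
    Measurable[FX] (IX pp rr d s E om cav X) := by
  have hE : Env ≤ FX := L.Env_le
  have hX : ∀ l, Measurable[FX] fun h => X h l := fun l => (measurable_pi_apply l).comp L.X_meas
  refine @measurable_pi_lambda Ω (Fin d × Fin k) (fun _ => ℝ) FX _ _ fun q => ?_
  unfold IX JJ
  by_cases hq : (q.1 : ℕ) = 0
  · simp only [hq, if_true]
    exact @measurable_const _ _ _ FX _
  · simp only [hq, if_false]
    have h1 : Measurable[FX] fun h => X (mv pp rr q.1 h) q.2 :=
      (measurable_pi_apply q.2).comp (L.X_meas.comp (mv_FX L _))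
    have h2 : Measurable[FX] fun h => bet pp rr d s E om cav q.1 h * X h q.2 :=
      ((bet_Env L _).mono hE le_rfl).mul (hX _)
    have h3 : Measurable[FX] fun h =>
        aI pp rr cav q.1 h / (AI pp rr d cav h - aI pp rr cav 0 h) :=
      ((aI_Env L _).mono hE le_rfl).div
        (((AI_Env L).mono hE le_rfl).sub ((aI_Env L 0).mono hE le_rfl))
    have h4 : Measurable[FX] fun h => X (pp h) q.2 - bet pp rr d s E om cav 0 h * X h q.2 :=
      ((measurable_pi_apply q.2).comp (L.X_meas.comp L.pp_FX)).sub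
        (((bet_Env L 0).mono hE le_rfl).mul (hX _))
    exact (h1.sub h2).add (h3.mul h4)

theorem II_meas (L : LimProc Env FX d k s E t ρ P pp rr om cav X Z) :
    Measurable (II pp rr d s E t om cav X Z) := by
  refine measurable_pi_lambda _ fun q => ?_
  have h1 : (fun h => II pp rr d s E t om cav X Z h q) = fun h =>
      IX pp rr d s E om cav X h q + Real.sqrt t * JJ pp rr d s E om cav Z h q := by
    ext h; exact II_eq pp rr d s E t om cav X Z h q
  rw [h1]
  exact ((measurable_pi_apply q).comp ((IX_FX L).mono L.FX_le le_rfl)).add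
    (((measurable_pi_apply q).comp (JJ_meas L)).const_mul _)

/-- `Xe' = Ye - B N` -/
noncomputable def Xp (pp rr : Ω → Ω) (d : ℕ) (s E t ρ : ℝ) (om : Ω → ℝ) (cav : Ω → ℂ)
    (X Z : Ω → Fin k → ℝ) (h : Ω) : Fin 2 × Fin k → ℝ :=
  Ye t pp X Z h - (BB pp rr d s E t ρ om cav h : Matrix (Fin 2 × Fin k) (Fin 2 × Fin k) ℝ) *ᵥ
    NN pp rr d s E ρ om cav Z h

theorem BN_meas (L : LimProc Env FX d k s E t ρ P pp rr om cav X Z) :
    Measurable fun h => (BB pp rr d s E t ρ om cav h :
      Matrix (Fin 2 × Fin k) (Fin 2 × Fin k) ℝ) *ᵥ NN pp rr d s E ρ om cav Z h := by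
  have hE : Env ≤ mΩ := L.Env_le.trans L.FX_le
  refine measurable_pi_lambda _ fun p => ?_
  simp only [Matrix.mulVec, dotProduct]
  exact Finset.measurable_sum _ fun q _ =>
    ((BB_Env L p q).mono hE le_rfl).mul ((measurable_pi_apply q).comp (NN_meas L))

theorem Xp_ae (L : LimProc Env FX d k s E t ρ P pp rr om cav X Z) :
    ∀ᵐ h ∂P, Xp pp rr d s E t ρ om cav X Z h =
      fun q : Fin 2 × Fin k => if q.1 = 0 then X h q.2 else X (pp h) q.2 := by
  filter_upwards [sig_ne L] with h hh
  ext q
  have := BB_mulVec (t := t) pp rr d s E ρ om cav Z h hh.1 hh.2 q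
  simp only [Xp, Pi.sub_apply, this, Ye, YY]
  by_cases hq : q.1 = 0
  · simp [hq]
  · simp [hq]

/-- the joint law needed in `innov_core`, with an abstract environment. -/
theorem law_abs {A : Type*} [MeasurableSpace A]
    (L : LimProc Env FX d k s E t ρ P pp rr om cav X Z) {U : Ω → A} (hU : Measurable[FX] U) :
    P.map (fun x => ((U x, (Xp pp rr d s E t ρ om cav X Z x, II pp rr d s E t om cav X Z x)),
        NN pp rr d s E ρ om cav Z x)) =
      (P.map fun x => (U x, (Xp pp rr d s E t ρ om cav X Z x,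
        II pp rr d s E t om cav X Z x))).prod (gs (Fin 2 × Fin k)) := by
  have := L.prob
  set Xe : Ω → Fin 2 × Fin k → ℝ := fun h q => if q.1 = 0 then X h q.2 else X (pp h) q.2 with hXe
  have hXe' : Measurable[FX] Xe := Xe_FX L
  have hV : Measurable[FX] fun x => (U x, (Xe x, IX pp rr d s E om cav X x)) :=
    hU.prodMk (hXe'.prodMk (IX_FX L))
  have hlaw := law_VJN L hV
  have hVm := hV.mono L.FX_le le_rfl
  -- transport map
  set F : (A × ((Fin 2 × Fin k → ℝ) × (Fin d × Fin k → ℝ))) × (Fin d × Fin k → ℝ) →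
      A × ((Fin 2 × Fin k → ℝ) × (Fin d × Fin k → ℝ)) :=
    fun r => (r.1.1, (r.1.2.1, r.1.2.2 + Real.sqrt t • r.2)) with hF
  have hFm : Measurable F := by
    refine (measurable_fst.comp measurable_fst).prodMk (Measurable.prodMk ?_ ?_)
    · exact measurable_fst.comp (measurable_snd.comp measurable_fst)
    · exact (measurable_snd.comp (measurable_snd.comp measurable_fst)).add
        ((measurable_const_smul (Real.sqrt t)).comp measurable_snd)
  have hIeq : ∀ x, II pp rr d s E t om cav X Z x = IX pp rr d s E om cav X x +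
      Real.sqrt t • JJ pp rr d s E om cav Z x := by
    intro x
    ext q
    rw [II_eq]
    rfl
  have c1 : P.map (fun x => ((U x, (Xp pp rr d s E t ρ om cav X Z x,
      II pp rr d s E t om cav X Z x)), NN pp rr d s E ρ om cav Z x)) =
      P.map (fun x => ((U x, (Xe x, II pp rr d s E t om cav X Z x)),
        NN pp rr d s E ρ om cav Z x)) := by
    refine Measure.map_congr ?_
    filter_upwards [Xp_ae L] with x hx
    rw [hx]
  have c2 : P.map (fun x => (U x, (Xp pp rr d s E t ρ om cav X Z x,
      II pp rr d s E t om cav X Z x))) =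
      P.map (fun x => (U x, (Xe x, II pp rr d s E t om cav X Z x))) := by
    refine Measure.map_congr ?_
    filter_upwards [Xp_ae L] with x hx
    rw [hx]
  have c3 : (fun x => ((U x, (Xe x, II pp rr d s E t om cav X Z x)),
        NN pp rr d s E ρ om cav Z x)) = (Prod.map F id) ∘
      fun x => (((U x, (Xe x, IX pp rr d s E om cav X x)), JJ pp rr d s E om cav Z x),
        NN pp rr d s E ρ om cav Z x) := by
    ext x : 1
    simp only [Function.comp, Prod.map, hF, id, hIeq]
  have c4 : (fun x => (U x, (Xe x, II pp rr d s E t om cav X Z x))) = F ∘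
      fun x => ((U x, (Xe x, IX pp rr d s E om cav X x)), JJ pp rr d s E om cav Z x) := by
    ext x : 1
    simp only [Function.comp, hF, hIeq]
  have hVJ : Measurable fun x => ((U x, (Xe x, IX pp rr d s E om cav X x)),
      JJ pp rr d s E om cav Z x) := hVm.prodMk (JJ_meas L)
  rw [c1, c2, c3, c4, ← Measure.map_map (hFm.prodMap measurable_id) (hVJ.prodMk (NN_meas L)),
    hlaw, ← Measure.map_map hFm hVJ]
  have : IsProbabilityMeasure (P.map fun x => ((U x, (Xe x, IX pp rr d s E om cav X x)),
      JJ pp rr d s E om cav Z x)) := Measure.isProbabilityMeasure_map hVJ.aemeasurable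
  rw [← Measure.map_prod_map _ _ hFm measurable_id, Measure.map_id]

end law

section final

variable {Ω : Type} {Env FX : MeasurableSpace Ω} [mΩ : MeasurableSpace Ω] {d k : ℕ}
  {s E t ρ : ℝ} {P : Measure Ω} {pp rr : Ω → Ω} {om : Ω → ℝ} {cav : Ω → ℂ}
  {X Z : Ω → Fin k → ℝ}

theorem comap_Ye (t : ℝ) (pp : Ω → Ω) (X Z : Ω → Fin k → ℝ) :
    MeasurableSpace.comap (Ye t pp X Z) inferInstance =
      MeasurableSpace.comap (fun h => (YY t X Z h, YY t X Z (pp h))) inferInstance := by
  apply le_antisymm
  · have e : Ye t pp X Z = (fun r : (Fin k → ℝ) × (Fin k → ℝ) =>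
        fun q : Fin 2 × Fin k => if q.1 = 0 then r.1 q.2 else r.2 q.2) ∘
        fun h => (YY t X Z h, YY t X Z (pp h)) := rfl
    rw [e, ← MeasurableSpace.comap_comp]
    refine MeasurableSpace.comap_mono (Measurable.comap_le ?_)
    refine measurable_pi_lambda _ fun q => ?_
    by_cases hq : q.1 = 0
    · simp only [hq, if_true]
      exact (measurable_pi_apply _).comp measurable_fst
    · simp only [hq, if_false]
      exact (measurable_pi_apply _).comp measurable_snd
  · have e : (fun h => (YY t X Z h, YY t X Z (pp h))) =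
        (fun y : Fin 2 × Fin k → ℝ => ((fun l => y (0, l) : Fin k → ℝ),
          (fun l => y (1, l) : Fin k → ℝ))) ∘ Ye t pp X Z := by
      ext h
      · simp [Ye]
      · simp [Ye]
    rw [e, ← MeasurableSpace.comap_comp]
    refine MeasurableSpace.comap_mono (Measurable.comap_le ?_)
    exact (measurable_pi_lambda _ fun l => measurable_pi_apply _).prodMk
      (measurable_pi_lambda _ fun l => measurable_pi_apply _)

/-- real form: conditional expectations of functions of the innovations given the edge are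
environment measurable. -/
theorem cond_innov (L : LimProc Env FX d k s E t ρ P pp rr om cav X Z)
    (hT : TauZero Env d k t P pp rr X Z)
    {w : (Fin d × Fin k → ℝ) → ℝ} (hw : Measurable w) (C : ℝ) (hC : 0 ≤ C)
    (hwC : ∀ i, |w i| ≤ C) :
    ∃ wb : Ω → ℝ, Measurable[Env] wb ∧ (∀ a, |wb a| ≤ C) ∧
      P[fun x => w (II pp rr d s E t om cav X Z x) | edgeAlg Env t pp X Z] =ᵐ[P] wb := by
  have hprob := L.prob
  have hd := L.hd
  have hE : Env ≤ mΩ := L.Env_le.trans L.FX_le
  have hYm := Ye_meas L
  have hstar : starAlg Env d t pp rr X Z ≤ mΩ := by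
    refine sup_le hE (Measurable.comap_le ?_)
    refine measurable_pi_lambda _ fun a => ?_
    cases a with
    | none => exact YY_meas L
    | some i => exact (YY_meas L).comp (mv_mp L i).measurable
  have hsv : ∀ a : St d, Measurable[starAlg Env d t pp rr X Z] fun h => YY t X Z (sv pp rr d h a) := by
    intro a
    have h1 : Measurable[MeasurableSpace.comap
        (fun h => (fun a : St d => YY t X Z (sv pp rr d h a))) inferInstance]
        (fun h => (fun a : St d => YY t X Z (sv pp rr d h a))) := comap_measurable _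
    have h2 : Measurable[starAlg Env d t pp rr X Z]
        (fun h => (fun a : St d => YY t X Z (sv pp rr d h a))) := h1.mono le_sup_right le_rfl
    exact (measurable_pi_apply a).comp h2
  have hedge : Env ⊔ MeasurableSpace.comap (Ye t pp X Z) inferInstance ≤
      starAlg Env d t pp rr X Z := by
    refine sup_le le_sup_left ?_
    rw [comap_Ye]
    refine Measurable.comap_le ?_
    refine Measurable.prodMk (hsv none) ?_
    exact hsv (some ⟨0, by omega⟩)
  have hIs : Measurable[starAlg Env d t pp rr X Z] (II pp rr d s E t om cav X Z) := by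
    refine @measurable_pi_lambda Ω (Fin d × Fin k) (fun _ => ℝ) (starAlg Env d t pp rr X Z) _ _
      fun q => ?_
    have hEs : Env ≤ starAlg Env d t pp rr X Z := le_sup_left
    unfold II
    by_cases hq : (q.1 : ℕ) = 0
    · simp only [hq, if_true]
      exact @measurable_const _ _ _ (starAlg Env d t pp rr X Z) _
    · simp only [hq, if_false]
      have hWr : ∀ i : Fin d, Measurable[starAlg Env d t pp rr X Z] fun h =>
          Wr pp rr d s E t om cav X Z i h q.2 := by
        intro i
        have h1 : Measurable[starAlg Env d t pp rr X Z] fun h => YY t X Z (mv pp rr i h) q.2 :=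
          (measurable_pi_apply q.2).comp (hsv (some i))
        have h2 : Measurable[starAlg Env d t pp rr X Z] fun h => YY t X Z h q.2 :=
          (measurable_pi_apply q.2).comp (hsv none)
        exact h1.sub (((bet_Env L i).mono hEs le_rfl).mul h2)
      have h3 : Measurable[starAlg Env d t pp rr X Z] fun h =>
          (cav (mv pp rr q.1 h)).im / (∑ i ∈ Finset.range d, (cav (mv pp rr i h)).im -
            (cav (mv pp rr 0 h)).im) :=
        ((aI_Env L _).mono hEs le_rfl).div
          (((AI_Env L).mono hEs le_rfl).sub ((aI_Env L 0).mono hEs le_rfl))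
      exact (hWr q.1).add (h3.mul (hWr ⟨0, by omega⟩))
  have hYeq : ∀ x, Ye t pp X Z x = Xp pp rr d s E t ρ om cav X Z x +
      (BB pp rr d s E t ρ om cav x : Matrix (Fin 2 × Fin k) (Fin 2 × Fin k) ℝ) *ᵥ
        NN pp rr d s E ρ om cav Z x := by
    intro x
    simp [Xp]
  have hXpm : Measurable (Xp pp rr d s E t ρ om cav X Z) := hYm.sub (BN_meas L)
  have hBN : ∀ q : Fin 2 × Fin k, (fun x => ((BB pp rr d s E t ρ om cav x :
      Matrix (Fin 2 × Fin k) (Fin 2 × Fin k) ℝ) *ᵥ NN pp rr d s E ρ om cav Z x) q) =ᵐ[P]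
      fun x => Real.sqrt t * (if q.1 = 0 then Z x q.2 else Z (pp x) q.2) := by
    intro q
    filter_upwards [sig_ne L] with h hh
    exact BB_mulVec (t := t) pp rr d s E ρ om cav Z h hh.1 hh.2 q
  have hZi : ∀ q : Fin 2 × Fin k, Integrable (fun x => Real.sqrt t *
      (if q.1 = 0 then Z x q.2 else Z (pp x) q.2)) P := by
    intro q
    refine Integrable.const_mul ?_ _
    by_cases hq : q.1 = 0
    · simp only [hq, if_true]
      exact Z_int L q.2
    · simp only [hq, if_false]
      exact (L.pp_mp.integrable_comp (Z_int L q.2).aestronglyMeasurable).2 (Z_int L q.2)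
  have hedgeEq : Env ⊔ MeasurableSpace.comap (Ye t pp X Z) inferInstance =
      edgeAlg Env t pp X Z := by
    unfold edgeAlg
    rw [comap_Ye]
  have hU : @Measurable Ω Ω FX Env id := fun s hs => L.Env_le s hs
  have hlaw := @law_abs Ω Env FX mΩ d k s E t ρ P pp rr om cav X Z Ω Env L id hU
  have core := innov_core (P := P) (Env := Env) (mΩ := mΩ) hE hXpm (II_meas L) (NN_meas L) hlaw
    (B := BB pp rr d s E t ρ om cav) (Binv := BI pp rr d s E t ρ om cav)
    (fun p q => BB_Env L p q) (fun p q => BI_Env L p q)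
    (by
      filter_upwards [sig_ne L] with h hh
      exact BI_mul_BB pp rr d s E t ρ om cav h L.ht hh.1 hh.2)
    hYeq hYm hstar hedge hIs
    (fun q => (hZi q).congr (hBN q).symm)
    (by
      intro q
      refine (condExp_congr_ae (hBN q)).trans (Filter.EventuallyEq.trans ?_
        (condExp_congr_ae (hBN q)).symm)
      rw [hedgeEq]
      have hsm : ∀ (m : MeasurableSpace Ω) (F : Ω → ℝ), P[fun x => Real.sqrt t * F x | m] =ᵐ[P]
          fun x => Real.sqrt t * (P[F | m]) x := by
        intro m F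
        have := condExp_smul (μ := P) (Real.sqrt t) F m
        exact this
      refine (hsm _ _).trans (Filter.EventuallyEq.trans ?_ (hsm _ _).symm)
      obtain ⟨t1, t2⟩ := hT q.2
      by_cases hq : q.1 = 0
      · simp only [hq, if_true]
        filter_upwards [t1] with x hx
        rw [hx]
      · simp only [hq, if_false]
        filter_upwards [t2] with x hx
        rw [hx])
    hw C hC hwC
  rw [hedgeEq] at core
  exact core

/-- the linear functional of the innovation vector -/
noncomputable def Th (d k : ℕ) (w : ℕ → Fin k → ℝ) (i : Fin d × Fin k → ℝ) : ℝ :=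
  ∑ l, ∑ j : Fin d, (if (j : ℕ) = 0 then 0 else w j l) * i (j, l)

theorem Th_II (hd : 3 ≤ d) (w : ℕ → Fin k → ℝ) (h : Ω) :
    Th d k w (II pp rr d s E t om cav X Z h) =
      ∑ l, ∑ j ∈ Finset.Ico 1 d, w j l * Inn pp rr d s E t om cav X Z j h l := by
  unfold Th II
  refine Finset.sum_congr rfl fun l _ => ?_
  have h1 : ∑ j ∈ Finset.Ico 1 d, w j l * Inn pp rr d s E t om cav X Z j h l =
      ∑ j ∈ Finset.range d, (if j = 0 then 0 else w j l) *
        (if j = 0 then 0 else Inn pp rr d s E t om cav X Z j h l) := by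
    rw [Finset.range_eq_Ico, Finset.sum_eq_sum_Ico_succ_bot (show 0 < d by omega)]
    simp only [if_true, zero_mul, zero_add]
    refine Finset.sum_congr rfl fun j hj => ?_
    have : j ≠ 0 := by
      have := (Finset.mem_Ico.1 hj).1
      omega
    simp [this]
  rw [h1, Finset.sum_range]

theorem Th_meas (w : ℕ → Fin k → ℝ) : Measurable (Th d k w) := by
  unfold Th
  fun_prop

theorem innovProp (L : LimProc Env FX d k s E t ρ P pp rr om cav X Z)
    (hT : TauZero Env d k t P pp rr X Z) : InnovProp Env d k s E t P pp rr om cav X Z := by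
  have hprob := L.prob
  have hd := L.hd
  have hE : Env ≤ mΩ := L.Env_le.trans L.FX_le
  intro x y w
  have hYY := YY_meas L
  have hedge : edgeAlg Env t pp X Z ≤ mΩ :=
    sup_le hE (Measurable.comap_le (hYY.prodMk (hYY.comp L.pp_mp.measurable)))
  have hEe : Env ≤ edgeAlg Env t pp X Z := le_sup_left
  -- the two conditional expectations
  obtain ⟨wc, c1, c2, c3⟩ := cond_innov L hT (w := fun i => Real.cos (Th d k w i))
    (Real.measurable_cos.comp (Th_meas w)) 1 zero_le_one (fun i => Real.abs_cos_le_one _)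
  obtain ⟨ws, s1, s2, s3⟩ := cond_innov L hT (w := fun i => Real.sin (Th d k w i))
    (Real.measurable_sin.comp (Th_meas w)) 1 zero_le_one (fun i => Real.abs_sin_le_one _)
  set f : Ω → ℂ := fun h => Complex.exp (Complex.I *
    ((∑ l, (x l * YY t X Z h l + y l * YY t X Z (pp h) l) : ℝ) : ℂ)) with hf
  set g : Ω → ℂ := fun h => Complex.exp (Complex.I *
    ((∑ l, (∑ j ∈ Finset.Ico 1 d, w j l * Inn pp rr d s E t om cav X Z j h l) : ℝ) : ℂ)) with hg
  set C : Ω → ℝ := fun h => Real.cos (Th d k w (II pp rr d s E t om cav X Z h)) with hC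
  set S : Ω → ℝ := fun h => Real.sin (Th d k w (II pp rr d s E t om cav X Z h)) with hS
  have hCm : Measurable C := (Real.measurable_cos.comp (Th_meas w)).comp (II_meas L)
  have hSm : Measurable S := (Real.measurable_sin.comp (Th_meas w)).comp (II_meas L)
  have hCi : Integrable C P := by
    refine Integrable.mono' (integrable_const (1 : ℝ)) hCm.aestronglyMeasurable
      (Filter.Eventually.of_forall fun h => ?_)
    rw [Real.norm_eq_abs]; exact Real.abs_cos_le_one _
  have hSi : Integrable S P := by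
    refine Integrable.mono' (integrable_const (1 : ℝ)) hSm.aestronglyMeasurable
      (Filter.Eventually.of_forall fun h => ?_)
    rw [Real.norm_eq_abs]; exact Real.abs_sin_le_one _
  have hgeq : g = (fun h => ((C h : ℝ) : ℂ)) + Complex.I • fun h => ((S h : ℝ) : ℂ) := by
    ext h
    simp only [hg, hC, hS, Pi.add_apply, Pi.smul_apply, smul_eq_mul]
    rw [← Th_II hd w h, mul_comm, Complex.exp_mul_I, ← Complex.ofReal_cos, ← Complex.ofReal_sin]
    ring
  have hgm : Measurable g := by
    rw [hgeq]
    exact (Complex.measurable_ofReal.comp hCm).add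
      ((Complex.measurable_ofReal.comp hSm).const_smul Complex.I)
  have hCc : P[fun h => ((C h : ℝ) : ℂ) | edgeAlg Env t pp X Z] =ᵐ[P] fun h => ((wc h : ℝ) : ℂ) := by
    have := Complex.ofRealCLM.comp_condExp_comm (m := edgeAlg Env t pp X Z) hCi
    refine this.symm.trans ?_
    filter_upwards [c3] with h hh
    simp only [Function.comp, Complex.ofRealCLM_apply]
    rw [hh]
  have hSc : P[fun h => ((S h : ℝ) : ℂ) | edgeAlg Env t pp X Z] =ᵐ[P] fun h => ((ws h : ℝ) : ℂ) := by
    have := Complex.ofRealCLM.comp_condExp_comm (m := edgeAlg Env t pp X Z) hSi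
    refine this.symm.trans ?_
    filter_upwards [s3] with h hh
    simp only [Function.comp, Complex.ofRealCLM_apply]
    rw [hh]
  have hgc : P[g | edgeAlg Env t pp X Z] =ᵐ[P]
      fun h => ((wc h : ℝ) : ℂ) + Complex.I * ((ws h : ℝ) : ℂ) := by
    rw [hgeq]
    refine (condExp_add hCi.ofReal (hSi.ofReal.smul Complex.I) _).trans ?_
    have h4 := condExp_smul (μ := P) (𝕜 := ℂ) Complex.I (fun h => ((S h : ℝ) : ℂ))
      (edgeAlg Env t pp X Z)
    filter_upwards [hCc, hSc, h4] with h e1 e2 e3
    rw [Pi.add_apply, e1, e3, Pi.smul_apply, e2, smul_eq_mul]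
  have hfm : StronglyMeasurable[edgeAlg Env t pp X Z] f := by
    have h1 : Measurable[edgeAlg Env t pp X Z] fun h => (YY t X Z h, YY t X Z (pp h)) := by
      have h2 : Measurable[MeasurableSpace.comap (fun h => (YY t X Z h, YY t X Z (pp h)))
        inferInstance] fun h => (YY t X Z h, YY t X Z (pp h)) := comap_measurable _
      exact h2.mono le_sup_right le_rfl
    have h3 : Continuous fun r : (Fin k → ℝ) × (Fin k → ℝ) => Complex.exp (Complex.I *
        ((∑ l, (x l * r.1 l + y l * r.2 l) : ℝ) : ℂ)) := by fun_prop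
    exact (h3.measurable.comp h1).stronglyMeasurable
  have hfac := factor (P := P) hEe hedge hfm
    (fun h => by
      simp only [hf]
      rw [mul_comm, Complex.norm_exp_ofReal_mul_I])
    hgm.stronglyMeasurable
    (fun h => by
      simp only [hg]
      rw [mul_comm, Complex.norm_exp_ofReal_mul_I])
    (w := fun h => ((wc h : ℝ) : ℂ) + Complex.I * ((ws h : ℝ) : ℂ))
    ((((Complex.measurable_ofReal.comp c1).add
      ((Complex.measurable_ofReal.comp s1).const_mul Complex.I))).stronglyMeasurable)
    (C := 2) (fun h => by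
      refine (norm_add_le _ _).trans ?_
      rw [norm_mul, Complex.norm_I, one_mul, Complex.norm_real, Complex.norm_real,
        Real.norm_eq_abs, Real.norm_eq_abs]
      have := c2 h
      have := s2 h
      linarith) hgc
  have hprod : (fun h => Complex.exp (Complex.I * ((∑ l, (x l * YY t X Z h l +
      y l * YY t X Z (pp h) l + ∑ j ∈ Finset.Ico 1 d, w j l *
        Inn pp rr d s E t om cav X Z j h l) : ℝ) : ℂ))) = fun h => f h * g h := by
    ext h
    simp only [hf, hg]
    rw [← Complex.exp_add]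
    congr 1
    rw [← mul_add, ← Complex.ofReal_add, ← Finset.sum_add_distrib]
  rw [hprod]
  exact hfac

/-- **42.4** (the part of helper487). -/
theorem stmt_innov : Stmt_innov :=
  fun Env FX _ d k s E t ρ P pp rr om cav X Z L hT => innovProp L hT

end final

end Crest.Agent.R166.Innov487
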