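import Crest.Agent.R166.MartTau_663
import Crest.Agent.R166.Innov_487

/-!
# Row 166, section 42.1-42.4 complete (helper663, helper487, helper942)
-/

set_option autoImplicit false

namespace Crest.Agent.R166.Mart663

/-- 42.1-42.4. -/
theorem stmt_42_4' : B2.Stmt_42_4 := stmt_42_4 stmt_tau Innov487.stmt_innov

end Crest.Agent.R166.Mart663
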