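import Crest.Agent.R166.EntBridge_397
import Crest.Agent.R166.Spec_B1_955
import Crest.Agent.R166.Lev_47

/-!
Row 166, section 40.8, bridge 2 (helper397).

For an invariant law `Q` on `Conf d (Fin d × T)` and a rotation invariant finite colour `g`:
`EntTree397.Psi Q (d-1) (label, g) cross (rotn 1) R = log d + SpecB1.PsiR (qstar Q (cview g R))`.
-/

set_option autoImplicit false

namespace Crest.Agent.R166.PsiBridge397

open MeasureTheory Finset Crest.Agent.R166.Ent397 Crest.Agent.R166.EntTree397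
  Crest.Agent.R166.EntBridge397 Crest.Agent.R166.Words955
open Crest.Agent.R166.Upp724 (View)
open Crest.Agent.R166.Count674 (St Th)

universe v

/-! ### Generic part -/

section Gen

variable {Ω : Type v} {Sg : Type} {m : ℕ}

/-- neighbour of `h` through the port with absolute label `i` -/
def nbG (π ρ : Ω → Ω) (ℓ : Ω → Fin (m + 1)) (i : Fin (m + 1)) (h : Ω) : Ω :=
  π (ρ^[(i - ℓ h).val] h)

/-- view of radius `r`, absolute ports -/
def cvG (π ρ : Ω → Ω) (ℓ : Ω → Fin (m + 1)) (g : Ω → Sg) : (r : ℕ) → Ω → View Sg (Fin (m + 1)) r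
  | 0, h => g h
  | r + 1, h => (g h, fun i => (ℓ (nbG π ρ ℓ i h), cvG π ρ ℓ g r (nbG π ρ ℓ i h)))

/-- star type -/
def stG {Sg : Type*} (π ρ : Ω → Ω) (ℓ : Ω → Fin (m + 1)) (g : Ω → Sg) (h : Ω) : St Sg (m + 1) :=
  (g h, fun i => (ℓ (nbG π ρ ℓ i h), g (nbG π ρ ℓ i h)))

/-- edge type -/
def edG {Sg : Type*} (π : Ω → Ω) (ℓ : Ω → Fin (m + 1)) (g : Ω → Sg) (h : Ω) : Th Sg (m + 1) :=
  (g h, ℓ h, ℓ (π h), g (π h))

variable {π ρ : Ω → Ω} {ℓ : Ω → Fin (m + 1)} {g : Ω → Sg}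

theorem cvG_succ (r : ℕ) (h : Ω) : (cvG π ρ ℓ g (r + 1) h : View Sg (Fin (m + 1)) (r + 1)) =
    ((g h, fun i => (ℓ (nbG π ρ ℓ i h), cvG π ρ ℓ g r (nbG π ρ ℓ i h))) :
      Sg × (Fin (m + 1) → Fin (m + 1) × View Sg (Fin (m + 1)) r)) := rfl

theorem cvG_succ_iff (r : ℕ) (h h' : Ω) :
    cvG π ρ ℓ g (r + 1) h = cvG π ρ ℓ g (r + 1) h' ↔
      g h = g h' ∧ ∀ i, ℓ (nbG π ρ ℓ i h) = ℓ (nbG π ρ ℓ i h') ∧
        cvG π ρ ℓ g r (nbG π ρ ℓ i h) = cvG π ρ ℓ g r (nbG π ρ ℓ i h') := by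
  rw [cvG_succ, cvG_succ]
  constructor
  · intro e
    obtain ⟨e1, e2⟩ := Prod.mk_inj.1 e
    exact ⟨e1, fun i => Prod.mk_inj.1 (congrFun e2 i)⟩
  · rintro ⟨e1, e2⟩
    exact Prod.mk_inj.2 ⟨e1, funext fun i => Prod.mk_inj.2 (e2 i)⟩

theorem stG_iff {Sg : Type*} {g : Ω → Sg} (h h' : Ω) :
    stG π ρ ℓ g h = stG π ρ ℓ g h' ↔
      g h = g h' ∧ ∀ i, ℓ (nbG π ρ ℓ i h) = ℓ (nbG π ρ ℓ i h') ∧
        g (nbG π ρ ℓ i h) = g (nbG π ρ ℓ i h') := by
  unfold stG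
  constructor
  · intro e
    obtain ⟨e1, e2⟩ := Prod.mk_inj.1 e
    exact ⟨e1, fun i => Prod.mk_inj.1 (congrFun e2 i)⟩
  · rintro ⟨e1, e2⟩
    exact Prod.mk_inj.2 ⟨e1, funext fun i => Prod.mk_inj.2 (e2 i)⟩

theorem cvG_root (r : ℕ) (h h' : Ω) (e : cvG π ρ ℓ g r h = cvG π ρ ℓ g r h') : g h = g h' := by
  cases r with
  | zero => exact e
  | succ r => exact ((cvG_succ_iff r h h').1 e).1

theorem cvG_det (r : ℕ) : ∀ h h' : Ω, cvG π ρ ℓ g (r + 1) h = cvG π ρ ℓ g (r + 1) h' →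
    cvG π ρ ℓ g r h = cvG π ρ ℓ g r h' := by
  induction r with
  | zero => intro h h' e; exact ((cvG_succ_iff 0 h h').1 e).1
  | succ r ih =>
    intro h h' e
    rw [cvG_succ_iff] at e ⊢
    exact ⟨e.1, fun i => ⟨(e.2 i).1, ih _ _ (e.2 i).2⟩⟩

/-- star types of views = larger views -/
theorem stG_cvG_iff (r : ℕ) (h h' : Ω) :
    stG π ρ ℓ (cvG π ρ ℓ g r) h = stG π ρ ℓ (cvG π ρ ℓ g r) h' ↔
      cvG π ρ ℓ g (r + 1) h = cvG π ρ ℓ g (r + 1) h' := by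
  rw [stG_iff]
  constructor
  · intro e
    rw [cvG_succ_iff]
    exact ⟨cvG_root r h h' e.1, e.2⟩
  · intro e
    exact ⟨cvG_det r h h' e, ((cvG_succ_iff r h h').1 e).2⟩

/-- rotation data -/
structure Rot (π ρ : Ω → Ω) (ℓ : Ω → Fin (m + 1)) : Prop where
  invol : ∀ h, π (π h) = h
  cyc : ∀ h, ρ^[m + 1] h = h
  lab : ∀ h, ℓ (ρ h) = ℓ h + 1

theorem Rot.lab_iter (H : Rot π ρ ℓ) (k : ℕ) (h : Ω) :
    ℓ (ρ^[k] h) = ℓ h + Fin.ofNat (m + 1) k := by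
  induction k with
  | zero =>
    have : Fin.ofNat (m + 1) 0 = 0 := rfl
    rw [this, add_zero]; rfl
  | succ k ih =>
    rw [Function.iterate_succ_apply', H.lab, ih]
    have : Fin.ofNat (m + 1) (k + 1) = Fin.ofNat (m + 1) k + 1 := by
      apply Fin.ext
      simp [Fin.val_add, Fin.ofNat, Nat.add_mod]
    rw [this, add_assoc]

theorem ofNat_val (k : Fin (m + 1)) : Fin.ofNat (m + 1) k.val = k := by
  apply Fin.ext
  simp [Fin.ofNat, Nat.mod_eq_of_lt k.isLt]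

theorem Rot.lab_iter_val (H : Rot π ρ ℓ) (k : Fin (m + 1)) (h : Ω) :
    ℓ (ρ^[k.val] h) = ℓ h + k := by
  rw [H.lab_iter, ofNat_val]

/-- iterating `j` times = iterating `(j mod d)` times -/
theorem Rot.iter_ofNat (H : Rot π ρ ℓ) (k : ℕ) (h : Ω) :
    ρ^[(Fin.ofNat (m + 1) k).val] h = ρ^[k] h := by
  have h1 : ∀ q, ρ^[(m + 1) * q] h = h := by
    intro q
    rw [Function.iterate_mul]
    have : (ρ^[m + 1]) = id := funext H.cyc
    rw [this]; simp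
  have h2 : (Fin.ofNat (m + 1) k).val = k % (m + 1) := rfl
  conv_rhs => rw [← Nat.mod_add_div k (m + 1)]
  rw [Function.iterate_add_apply, h1, h2]

theorem Rot.nb_rho (H : Rot π ρ ℓ) (i : Fin (m + 1)) (h : Ω) :
    nbG π ρ ℓ i (ρ h) = nbG π ρ ℓ i h := by
  unfold nbG
  rw [H.lab]
  congr 1
  have h1 : ρ h = ρ^[(Fin.ofNat (m + 1) 1).val] h := by rw [H.iter_ofNat]; rfl
  conv_lhs => rw [h1]
  rw [rot_branch' H.cyc]
  have h2 : Fin.ofNat (m + 1) 1 = 1 := by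
    apply Fin.ext
    simp [Fin.ofNat]
  rw [h2]
  have h3 : i - (ℓ h + 1) + 1 = i - ℓ h := by abel
  rw [h3]

theorem Rot.nb_rho_iter (H : Rot π ρ ℓ) (i : Fin (m + 1)) (k : ℕ) (h : Ω) :
    nbG π ρ ℓ i (ρ^[k] h) = nbG π ρ ℓ i h := by
  induction k with
  | zero => rfl
  | succ k ih => rw [Function.iterate_succ_apply', H.nb_rho, ih]

/-- the branches of `S`, `Vw` are neighbours -/
theorem Rot.branch (H : Rot π ρ ℓ) (k : ℕ) (h : Ω) :
    π (ρ^[k] h) = nbG π ρ ℓ (ℓ h + Fin.ofNat (m + 1) k) h := by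
  unfold nbG
  rw [add_sub_cancel_left, H.iter_ofNat]

theorem Rot.nb_self (_H : Rot π ρ ℓ) (h : Ω) : nbG π ρ ℓ (ℓ h) h = π h := by
  unfold nbG
  rw [sub_self]; rfl

theorem Rot.nb_eq (i : Fin (m + 1)) (h : Ω) :
    nbG π ρ ℓ i h = π (ρ^[(i - ℓ h).val] h) := rfl

theorem cvG_rho (H : Rot π ρ ℓ) (hg : ∀ h, g (ρ h) = g h) (r : ℕ) (h : Ω) :
    cvG π ρ ℓ g r (ρ h) = cvG π ρ ℓ g r h := by
  cases r with
  | zero => exact hg h
  | succ r =>
    rw [cvG_succ, cvG_succ, hg]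
    simp only [H.nb_rho]

theorem stG_rho {Sg : Type*} {g : Ω → Sg} (H : Rot π ρ ℓ) (hg : ∀ h, g (ρ h) = g h) (h : Ω) :
    stG π ρ ℓ g (ρ h) = stG π ρ ℓ g h := by
  unfold stG
  simp only [H.nb_rho, hg]

theorem Rot.col (H : Rot π ρ ℓ) (hg : ∀ h, g (ρ h) = g h) (h h' : Ω) :
    ((ℓ (ρ h), g (ρ h)) : Fin (m + 1) × Sg) = (ℓ (ρ h'), g (ρ h')) ↔
      ((ℓ h, g h) : Fin (m + 1) × Sg) = (ℓ h', g h') := by
  rw [H.lab, H.lab, hg, hg, Prod.mk_inj, Prod.mk_inj, add_left_inj]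

/-- the one-sided view is determined by the label and the view -/
theorem S_of_cvG (H : Rot π ρ ℓ) (R : ℕ) : ∀ h h' : Ω, ℓ h = ℓ h' →
    cvG π ρ ℓ g R h = cvG π ρ ℓ g R h' →
    (S (fun h => (ℓ h, g h)) π ρ R h : ST (Fin (m + 1) × Sg) m R) =
      S (fun h => (ℓ h, g h)) π ρ R h' := by
  induction R with
  | zero =>
    intro h h' e1 e2
    exact Prod.ext e1 e2
  | succ R ih =>
    intro h h' e1 e2
    obtain ⟨e3, e4⟩ := (cvG_succ_iff R h h').1 e2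
    rw [S_succ_eq_iff]
    refine ⟨Prod.ext e1 e3, fun k => ?_⟩
    rw [H.branch, H.branch, e1]
    exact ih _ _ (e4 _).1 (e4 _).2

theorem cvG_of_Vw (H : Rot π ρ ℓ) (hg : ∀ h, g (ρ h) = g h) (R : ℕ) : ∀ h h' : Ω,
    (Vw (fun h => (ℓ h, g h)) π ρ R h :
      (Fin (m + 1) × Sg) × (Fin (m + 1) → ST (Fin (m + 1) × Sg) m R)) =
        Vw (fun h => (ℓ h, g h)) π ρ R h' →
    ℓ h = ℓ h' ∧ cvG π ρ ℓ g (R + 1) h = cvG π ρ ℓ g (R + 1) h' := by
  induction R with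
  | zero =>
    intro h h' e
    obtain ⟨e0, e1⟩ := (Vw_eq_iff _ π ρ 0 h h').1 e
    obtain ⟨e2, e3⟩ := Prod.mk_inj.1 e0
    refine ⟨e2, (cvG_succ_iff 0 h h').2 ⟨e3, fun i => ?_⟩⟩
    have e4 := e1 (i - ℓ h)
    rw [Rot.nb_eq, Rot.nb_eq, ← e2]
    exact Prod.mk_inj.1 e4
  | succ R ih =>
    intro h h' e
    obtain ⟨e0, e1⟩ := (Vw_eq_iff _ π ρ (R + 1) h h').1 e
    obtain ⟨e2, e3⟩ := Prod.mk_inj.1 e0
    refine ⟨e2, (cvG_succ_iff (R + 1) h h').2 ⟨e3, fun i => ?_⟩⟩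
    have e4 := Vw_nbr (m := m) H.cyc (H.col hg) H.invol R (i - ℓ h) h h' e
    rw [Rot.nb_eq, Rot.nb_eq, ← e2]
    exact ih _ _ e4

theorem Vw_of_cvG (H : Rot π ρ ℓ) (R : ℕ) (h h' : Ω) (e1 : ℓ h = ℓ h')
    (e2 : cvG π ρ ℓ g (R + 1) h = cvG π ρ ℓ g (R + 1) h') :
    (Vw (fun h => (ℓ h, g h)) π ρ R h :
      (Fin (m + 1) × Sg) × (Fin (m + 1) → ST (Fin (m + 1) × Sg) m R)) =
        Vw (fun h => (ℓ h, g h)) π ρ R h' := by
  obtain ⟨e3, e4⟩ := (cvG_succ_iff R h h').1 e2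
  rw [Vw_eq_iff]
  refine ⟨Prod.ext e1 e3, fun k => ?_⟩
  rw [H.branch, H.branch, e1]
  exact S_of_cvG H R _ _ (e4 _).1 (e4 _).2

/-- `Vw R` carries the same information as (label, star of views of radius `R`) -/
theorem Vw_iff_st (H : Rot π ρ ℓ) (hg : ∀ h, g (ρ h) = g h) (R : ℕ) (h h' : Ω) :
    (Vw (fun h => (ℓ h, g h)) π ρ R h :
      (Fin (m + 1) × Sg) × (Fin (m + 1) → ST (Fin (m + 1) × Sg) m R)) =
        Vw (fun h => (ℓ h, g h)) π ρ R h' ↔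
    (ℓ h, stG π ρ ℓ (cvG π ρ ℓ g R) h) = (ℓ h', stG π ρ ℓ (cvG π ρ ℓ g R) h') := by
  constructor
  · intro e
    obtain ⟨e1, e2⟩ := cvG_of_Vw H hg R h h' e
    exact Prod.mk_inj.2 ⟨e1, (stG_cvG_iff R _ _).2 e2⟩
  · intro e
    obtain ⟨e1, e2⟩ := Prod.mk_inj.1 e
    exact Vw_of_cvG H R h h' e1 ((stG_cvG_iff R _ _).1 e2)

theorem cvG_of_Ed (H : Rot π ρ ℓ) (hg : ∀ h, g (ρ h) = g h) (R : ℕ) (h h' : Ω)
    (e : (Ed (fun h => (ℓ h, g h)) π ρ R h :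
      ST (Fin (m + 1) × Sg) m R × ST (Fin (m + 1) × Sg) m R) =
        Ed (fun h => (ℓ h, g h)) π ρ R h') :
    ℓ h = ℓ h' ∧ cvG π ρ ℓ g R h = cvG π ρ ℓ g R h' := by
  obtain ⟨e1, e2⟩ := Prod.mk_inj.1 e
  cases R with
  | zero => exact Prod.mk_inj.1 e1
  | succ R =>
    exact cvG_of_Vw H hg R h h'
      ((Vw_iff_pair _ π ρ R h h').1 ⟨e1, S_det _ π ρ R _ _ e2⟩)

/-- `Ed R` carries the same information as the edge type of the views of radius `R` -/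
theorem Ed_iff_ed (H : Rot π ρ ℓ) (hg : ∀ h, g (ρ h) = g h) (R : ℕ) (h h' : Ω) :
    (Ed (fun h => (ℓ h, g h)) π ρ R h :
      ST (Fin (m + 1) × Sg) m R × ST (Fin (m + 1) × Sg) m R) =
        Ed (fun h => (ℓ h, g h)) π ρ R h' ↔
    edG π ℓ (cvG π ρ ℓ g R) h = edG π ℓ (cvG π ρ ℓ g R) h' := by
  constructor
  · intro e
    obtain ⟨e1, e2⟩ := cvG_of_Ed H hg R h h' e
    have e' : (Ed (fun h => (ℓ h, g h)) π ρ R (π h) :
        ST (Fin (m + 1) × Sg) m R × ST (Fin (m + 1) × Sg) m R) =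
        Ed (fun h => (ℓ h, g h)) π ρ R (π h') := by
      obtain ⟨a1, a2⟩ := Prod.mk_inj.1 e
      exact Prod.ext a2 (by
        show S _ π ρ R (π (π h)) = S _ π ρ R (π (π h'))
        rw [H.invol, H.invol]; exact a1)
    obtain ⟨e3, e4⟩ := cvG_of_Ed H hg R _ _ e'
    unfold edG
    rw [e1, e2, e3, e4]
  · intro e
    unfold edG at e
    obtain ⟨e1, e⟩ := Prod.mk_inj.1 e
    obtain ⟨e2, e⟩ := Prod.mk_inj.1 e
    obtain ⟨e3, e4⟩ := Prod.mk_inj.1 e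
    exact Prod.ext (S_of_cvG H R _ _ e2 e1) (S_of_cvG H R _ _ e3 e4)

end Gen

/-! ### Laws -/

section Meas

variable {Ω : Type v} [MeasurableSpace Ω] (μ : Measure Ω) [IsProbabilityMeasure μ] {m : ℕ}
  {π ρ : Ω → Ω} {ℓ : Ω → Fin (m + 1)}

/-- a rotation invariant variable is independent of the label, which is uniform -/
theorem lw_lab (H : Rot π ρ ℓ) (hρ : MeasurePreserving ρ μ μ) (hℓ : FM ℓ) {α : Type*} [Fintype α]
    {X : Ω → α} (hX : FM X) (hXρ : ∀ h, X (ρ h) = X h) (i : Fin (m + 1)) (a : α) :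
    lw μ (fun h => (ℓ h, X h)) (i, a) = ((m : ℝ) + 1)⁻¹ * lw μ X a := by
  have h1 : ∀ i : Fin (m + 1), lw μ (fun h => (ℓ h, X h)) (i + 1, a) =
      lw μ (fun h => (ℓ h, X h)) (i, a) := by
    intro i
    unfold lw
    rw [← hρ.measureReal_preimage ((hℓ.pair hX) (i + 1, a)).nullMeasurableSet]
    congr 1
    ext h
    simp only [Set.mem_preimage, Set.mem_singleton_iff, Prod.mk.injEq, H.lab, hXρ, add_left_inj]
  have h2 : ∀ k : ℕ, lw μ (fun h => (ℓ h, X h)) (Fin.ofNat (m + 1) k, a) =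
      lw μ (fun h => (ℓ h, X h)) (0, a) := by
    intro k
    induction k with
    | zero => rfl
    | succ k ih =>
      have : Fin.ofNat (m + 1) (k + 1) = Fin.ofNat (m + 1) k + 1 := by
        apply Fin.ext
        simp [Fin.val_add, Fin.ofNat, Nat.add_mod]
      rw [this, h1, ih]
  have h3 : ∀ i : Fin (m + 1), lw μ (fun h => (ℓ h, X h)) (i, a) =
      lw μ (fun h => (ℓ h, X h)) (0, a) := fun i => by
    have := h2 i.val
    rwa [ofNat_val] at this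
  rw [lw_snd μ hℓ hX a, Finset.sum_congr rfl fun i _ => h3 i, sum_const, card_univ,
    Fintype.card_fin, nsmul_eq_mul, h3 i]
  push_cast
  field_simp

theorem H_lab (H' : Rot π ρ ℓ) (hρ : MeasurePreserving ρ μ μ) (hℓ : FM ℓ) {α : Type*} [Fintype α]
    {X : Ω → α} (hX : FM X) (hXρ : ∀ h, X (ρ h) = X h) :
    H μ (fun h => (ℓ h, X h)) = Real.log (m + 1) + H μ X := by
  have hm : (0 : ℝ) < (m : ℝ) + 1 := by positivity
  unfold H
  rw [Fintype.sum_prod_type]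
  have h2 : ∀ (i : Fin (m + 1)) (a : α), Real.negMulLog (lw μ (fun h => (ℓ h, X h)) (i, a)) =
      ((m : ℝ) + 1)⁻¹ * (lw μ X a * Real.log (m + 1) + Real.negMulLog (lw μ X a)) := by
    intro i a
    rw [lw_lab μ H' hρ hℓ hX hXρ]
    rcases eq_or_ne (lw μ X a) 0 with h | h
    · rw [h]; simp
    · simp only [Real.negMulLog]
      rw [Real.log_mul (by positivity) h, Real.log_inv]
      ring
  simp only [h2, Finset.sum_const, Finset.card_univ, nsmul_eq_mul, Fintype.card_fin]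
  rw [← Finset.mul_sum, Finset.sum_add_distrib, ← Finset.sum_mul, sum_lw _ hX]
  push_cast
  field_simp

/-- the edge type as a function of the label and the star type -/
def edOfSt {Sg : Type*} (x : Fin (m + 1) × St Sg (m + 1)) : Th Sg (m + 1) :=
  (x.2.1, x.1, (x.2.2 x.1).1, (x.2.2 x.1).2)

omit [MeasurableSpace Ω] in
theorem edG_eq {Sg : Type*} {g : Ω → Sg} (H : Rot π ρ ℓ) (h : Ω) :
    edG π ℓ g h = edOfSt (ℓ h, stG π ρ ℓ g h) := by
  unfold edG edOfSt stG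
  simp only [H.nb_self]

theorem lw_edG {Sg : Type} [Fintype Sg] [DecidableEq Sg] {g : Ω → Sg} (H : Rot π ρ ℓ)
    (hρ : MeasurePreserving ρ μ μ) (hℓ : FM ℓ) (hst : FM (stG π ρ ℓ g))
    (hg : ∀ h, g (ρ h) = g h) (t : Th Sg (m + 1)) :
    lw μ (edG π ℓ g) t = SpecB1.edgeR (lw μ (stG π ρ ℓ g)) t / ((m + 1 : ℕ) : ℝ) := by
  have e1 : edG π ℓ g = fun h => edOfSt (ℓ h, stG π ρ ℓ g h) := funext fun h => edG_eq H h
  rw [e1, lw_comp μ (hℓ.pair hst) edOfSt t, Finset.sum_filter, Fintype.sum_prod_type]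
  obtain ⟨σ, i, j, σ'⟩ := t
  rw [Finset.sum_eq_single i]
  · unfold SpecB1.edgeR
    rw [Finset.sum_div]
    refine Finset.sum_congr rfl fun s _ => ?_
    rw [lw_lab μ H hρ hℓ hst (stG_rho H hg)]
    by_cases h : s.1 = σ ∧ s.2 i = (j, σ')
    · have h' : edOfSt (i, s) = ((σ, i, j, σ') : Th Sg (m + 1)) := by
        unfold edOfSt; simp only [h.1, h.2]
      rw [if_pos h', if_pos h]
      push_cast
      rw [div_eq_inv_mul]
    · have h' : ¬ edOfSt (i, s) = ((σ, i, j, σ') : Th Sg (m + 1)) := by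
        intro e
        apply h
        unfold edOfSt at e
        simp only [Prod.mk.injEq] at e
        exact ⟨e.1, Prod.ext e.2.2.1 e.2.2.2⟩
      rw [if_neg h', if_neg h, zero_div]
  · intro i' _ hi'
    refine Finset.sum_eq_zero fun s _ => ?_
    rw [if_neg]
    intro e
    unfold edOfSt at e
    simp only [Prod.mk.injEq] at e
    exact hi' e.2.1
  · simp

/-- `Psi` in terms of the star law -/
theorem Psi_eq_PsiR {Sg : Type} [Fintype Sg] {g : Ω → Sg} (H' : Rot π ρ ℓ) (hℓ : FM ℓ)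
    (hs : Stat μ m (fun h => (ℓ h, g h)) π ρ) (hg : ∀ h, g (ρ h) = g h) (R : ℕ)
    [DecidableEq (View Sg (Fin (m + 1)) R)] :
    EntTree397.Psi μ m (fun h => (ℓ h, g h)) π ρ R =
      Real.log (m + 1) + SpecB1.PsiR (lw μ (stG π ρ ℓ (cvG π ρ ℓ g R))) := by
  have hne : Nonempty Ω := μ.nonempty_of_neZero
  have hst : FM (stG π ρ ℓ (cvG π ρ ℓ g R)) :=
    FM_of_det (hs.fmVw R) fun h h' e => (Prod.mk_inj.1 ((Vw_iff_st H' hg R h h').1 e)).2
  have hed : FM (edG π ℓ (cvG π ρ ℓ g R)) :=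
    FM_of_det (hs.fmEd R) fun h h' e => (Ed_iff_ed H' hg R h h').1 e
  have h1 : HV μ m (fun h => (ℓ h, g h)) π ρ R =
      Real.log (m + 1) + H μ (stG π ρ ℓ (cvG π ρ ℓ g R)) := by
    rw [← H_lab μ H' hs.mpρ hℓ hst (stG_rho H' (cvG_rho H' hg R))]
    exact H_eq_of_det μ (hs.fmVw R) (hℓ.pair hst) fun h h' => (Vw_iff_st H' hg R h h').symm
  have h2 : EntTree397.HE μ m (fun h => (ℓ h, g h)) π ρ R = H μ (edG π ℓ (cvG π ρ ℓ g R)) :=
    H_eq_of_det μ (hs.fmEd R) hed fun h h' => (Ed_iff_ed H' hg R h h').symm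
  have h3 : H μ (edG π ℓ (cvG π ρ ℓ g R)) =
      ∑ t, Real.negMulLog (SpecB1.edgeR (lw μ (stG π ρ ℓ (cvG π ρ ℓ g R))) t /
        ((m + 1 : ℕ) : ℝ)) := by
    unfold H
    exact Finset.sum_congr rfl fun t _ => by
      rw [lw_edG μ H' hs.mpρ hℓ hst (cvG_rho H' hg R)]
  unfold EntTree397.Psi SpecB1.PsiR
  rw [h1, h2, h3]
  unfold H
  push_cast
  ring

end Meas

/-! ### Configurations -/

section ConfSec

open Crest.Agent.R166.View47 hiding lb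

theorem rot_conf {m : ℕ} {T : Type*} [MeasurableSpace T] :
    Rot (cross : Conf (m + 1) (Fin (m + 1) × T) → _) (rotn 1) View47.lb :=
  ⟨cross_cross, rotn_cyc, fun ξ => lb_rotn 1 ξ⟩

theorem nbG_conf {m : ℕ} {T : Type} [MeasurableSpace T] (i : Fin (m + 1))
    (ζ : Conf (m + 1) (Fin (m + 1) × T)) : nbG cross (rotn 1) View47.lb i ζ = SpecB1.nbr i ζ := by
  unfold nbG SpecB1.nbr
  rw [rotn_iter, ofNat_val]
  rfl

theorem cvG_conf {m : ℕ} {T : Type} [MeasurableSpace T] {Sg : Type}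
    (g : Conf (m + 1) (Fin (m + 1) × T) → Sg) (r : ℕ) :
    ∀ ζ : Conf (m + 1) (Fin (m + 1) × T),
      cvG cross (rotn 1) View47.lb g r ζ = SpecB1.cview g r ζ := by
  induction r with
  | zero => intro ζ; rfl
  | succ r ih =>
    intro ζ
    rw [cvG_succ]
    simp only [nbG_conf, ih]
    rfl

theorem stG_conf {m : ℕ} {T : Type} [MeasurableSpace T] {Sg : Type}
    (g : Conf (m + 1) (Fin (m + 1) × T) → Sg) (ζ : Conf (m + 1) (Fin (m + 1) × T)) :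
    stG cross (rotn 1) View47.lb g ζ = SpecB1.cstar g ζ := by
  unfold stG
  simp only [nbG_conf]
  rfl

variable {d : ℕ} [NeZero d] {T : Type} [MeasurableSpace T] {Q : Measure (Conf d (Fin d × T))}
  [IsProbabilityMeasure Q] {Sg : Type} {g : Conf d (Fin d × T) → Sg}

/-- the colour `(label, g)` with `g` rotation invariant -/
theorem stat_col (hQ : Inv Q) (hgm : FM g) (hg : ∀ j ζ, g (rotn j ζ) = g ζ) :
    Stat Q (d - 1) (fun ζ => (View47.lb ζ, g ζ)) cross (rotn 1) := by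
  obtain ⟨m, rfl⟩ := Nat.exists_eq_succ_of_ne_zero (NeZero.ne d)
  refine stat_conf hQ measurable_rs (FM_lb.pair hgm) fun ξ ξ' => ?_
  rw [lb_rotn, lb_rotn, hg, hg, Prod.mk_inj, Prod.mk_inj, add_left_inj]

/-- **the bridge** : `Psi` of the colour `(label, g)` is `log d` plus the functional `PsiR` of the
law of the star types -/
theorem Psi_conf [Fintype Sg] (hQ : Inv Q) (hgm : FM g) (hg : ∀ j ζ, g (rotn j ζ) = g ζ) (R : ℕ)
    [DecidableEq (View Sg (Fin d) R)] :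
    EntTree397.Psi Q (d - 1) (fun ζ => (View47.lb ζ, g ζ)) cross (rotn 1) R =
      Real.log d + SpecB1.PsiR (SpecB1.qstar Q (SpecB1.cview g R)) := by
  obtain ⟨m, rfl⟩ := Nat.exists_eq_succ_of_ne_zero (NeZero.ne d)
  have h := Psi_eq_PsiR Q rot_conf FM_lb (stat_col hQ hgm hg) (fun ζ => hg 1 ζ) R
  have h1 : lw Q (stG cross (rotn 1) View47.lb (cvG cross (rotn 1) View47.lb g R)) =
      SpecB1.qstar Q (SpecB1.cview g R) := by
    have h2 : cvG cross (rotn 1) View47.lb g R = SpecB1.cview g R := funext fun ζ => cvG_conf g R ζ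
    have h3 : stG cross (rotn 1) View47.lb (SpecB1.cview g R) = SpecB1.cstar (SpecB1.cview g R) :=
      funext fun ζ => stG_conf _ ζ
    rw [h2, h3]
    rfl
  rw [h1] at h
  simp only [Nat.succ_eq_add_one]
  push_cast
  exact h

/-- difference form (the `log d` cancels) -/
theorem Psi_conf_sub [Fintype Sg] (hQ : Inv Q) (hgm : FM g) (hg : ∀ j ζ, g (rotn j ζ) = g ζ)
    (R : ℕ) [DecidableEq (View Sg (Fin d) 0)] [DecidableEq (View Sg (Fin d) R)] :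
    EntTree397.Psi Q (d - 1) (fun ζ => (View47.lb ζ, g ζ)) cross (rotn 1) 0 -
        EntTree397.Psi Q (d - 1) (fun ζ => (View47.lb ζ, g ζ)) cross (rotn 1) R =
      SpecB1.PsiR (SpecB1.qstar Q (SpecB1.cview g 0)) -
        SpecB1.PsiR (SpecB1.qstar Q (SpecB1.cview g R)) := by
  rw [Psi_conf hQ hgm hg, Psi_conf hQ hgm hg]
  ring

omit [MeasurableSpace T] in
/-- 955's views of the data and 47's -/
theorem cview_eq_vview {A : Type} (q : T → A) (r : ℕ) : ∀ ζ : Conf d (Fin d × T),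
    SpecB1.cview (fun ζ => q (ζ TW.nil).2) r ζ = vview r (mapC q ζ) := by
  induction r with
  | zero => intro ζ; rfl
  | succ r ih =>
    intro ζ
    rw [vview_succ, dt_mapC, lb_mapC]
    show ((q (ζ TW.nil).2, fun i => ((SpecB1.nbr i ζ TW.nil).1,
      SpecB1.cview (fun ζ => q (ζ TW.nil).2) r (SpecB1.nbr i ζ))) :
        A × (Fin d → Fin d × View A (Fin d) r)) = _
    simp only [ih]
    refine Prod.ext rfl (funext fun i => ?_)
    show ((SpecB1.nbr i ζ TW.nil).1, vview r (mapC q (SpecB1.nbr i ζ))) =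
      (View47.lb (step (i - View47.lb ζ) (mapC q ζ)), vview r (step (i - View47.lb ζ) (mapC q ζ)))
    rw [← mapC_step]
    rfl

end ConfSec

end Crest.Agent.R166.PsiBridge397
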