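import Crest.Agent.R166.TypC_674
import Crest.Agent.R166.Spec_B1_955

/-!
# R166, 40.6 (T): passage to the limit, abstract in the noise (helper674)

`typ_abs`: sequences of sets `U j` of exponentially non-negligible probability; for every `x ∈ U j`
a noise space with a random cell vector `Yv x ξ`; if every noise event of probability `≥ 1/2` hits at
least `exp (n κ - o(n))` cell vectors, and the star frequencies of the colours converge (with
probability `> 1/2`) to `qs`, then `log |A| + κ ≤ PsiR qs`.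
-/

set_option autoImplicit false

namespace Crest.Agent.R166.TypC674

open MeasureTheory Finset PairCount356 SpecB1 Crest.ProbabilityR.RandomMatrix Filter Topology
open Crest.Agent.R166.Seq980 (PS portLaw portLaw_apply)
open Crest.Agent.R166.Upp724 (View viewOf vroot vroot_viewOf)
open Crest.Agent.R166.Count674 (St Th)

section PsiR
variable {S : Type} [Fintype S] [DecidableEq S] {d : ℕ}

theorem continuous_edgeR (t : Th S d) : Continuous fun q : St S d → ℝ => edgeR q t := by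
  unfold edgeR
  refine continuous_finsetSum _ fun s _ => ?_
  by_cases h : s.1 = t.1 ∧ s.2 t.2.1 = (t.2.2.1, t.2.2.2)
  · simp only [h, and_self, if_true]
    exact continuous_apply s
  · simp only [h, if_false]
    exact continuous_const

theorem continuous_PsiR : Continuous (PsiR : (St S d → ℝ) → ℝ) := by
  unfold PsiR
  refine Continuous.sub ?_ (Continuous.mul continuous_const ?_)
  · exact continuous_finsetSum _ fun s _ => Real.continuous_negMulLog.comp (continuous_apply s)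
  · exact continuous_finsetSum _ fun t _ =>
      Real.continuous_negMulLog.comp ((continuous_edgeR t).div_const _)

theorem Psi_eq_PsiR (n : ℕ) (N : St S d → ℕ) :
    Count674.Psi n N = PsiR fun s => (N s : ℝ) / n := by
  unfold Count674.Psi PsiR
  congr 2
  refine Finset.sum_congr rfl fun t _ => ?_
  congr 1
  unfold Count674.edgeCnt edgeR
  push_cast
  rw [← div_div, Finset.sum_div]
  congr 1
  refine Finset.sum_congr rfl fun s _ => ?_
  split_ifs
  · rfl
  · simp

/-- `Psi` is close to `PsiR q` when the frequencies are close to `q` -/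
theorem Psi_close (q : St S d → ℝ) {ε : ℝ} (hε : 0 < ε) :
    ∃ δ : ℝ, 0 < δ ∧ ∀ (n : ℕ) (N : St S d → ℕ), (∀ s, |(N s : ℝ) / n - q s| ≤ δ) →
      |Count674.Psi n N - PsiR q| ≤ ε := by
  have h1 := (continuous_PsiR (S := S) (d := d)).continuousAt (x := q)
  rw [Metric.continuousAt_iff] at h1
  obtain ⟨δ, hδ, h2⟩ := h1 ε hε
  refine ⟨δ / 2, by positivity, fun n N hN => ?_⟩
  rw [Psi_eq_PsiR]
  have h3 : dist (fun s => (N s : ℝ) / n) q < δ := by
    refine lt_of_le_of_lt ?_ (half_lt_self hδ)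
    rw [dist_pi_le_iff (by positivity)]
    intro s
    rw [Real.dist_eq]
    exact hN s
  have h4 := h2 h3
  rw [Real.dist_eq] at h4
  exact h4.le

end PsiR

/-- (T), finite `n`, abstract in the noise -/
theorem typ_fin (d a R : ℕ) (hd : 1 ≤ d) (A B : Type) [Fintype A] [Fintype B]
    (q : ℝ → A) (hq : ∀ x, u1 (q ⁻¹' {x}) ≤ ((Fintype.card A : ℕ) : ENNReal)⁻¹)
    {ε : ℝ} (hε : 0 < ε) :
    ∃ N : ℕ, ∀ n : ℕ, N ≤ n → ∀ (U : Set (PS d n)), (∀ x ∈ U, IsPort x.1) →
      ENNReal.ofReal (Real.exp (-(ε * n))) ≤ portLaw d n U →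
      ∀ (Ξ : Type) (Yv : PS d n → Ξ → Fin n → B) (G : PS d n → Set Ξ) (κ : ℝ),
      (∀ x ∈ U, Real.exp (n * κ) ≤ (Nat.card {y : Fin n → B // ∃ ξ ∈ G x, Yv x ξ = y} : ℝ)) →
      ∃ x ∈ U, ∃ ξ ∈ G x, Real.log (Fintype.card A) + κ - 2 * ε ≤
        Count674.Psi n (Count674.starCnt x.1 (viewOf (⇑x.1)
          (colC a x.1 (fun v => q (x.2 v)) (Yv x ξ)) R)) := by
  classical
  obtain ⟨C, N, h⟩ := typ_count d a R hd A B q hq
  -- `C log (n+1) ≤ (ε/2) n` eventually
  have hlim : Tendsto (fun n : ℕ => C * Real.log ((n : ℝ) + 1) / n) atTop (𝓝 0) := by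
    have h1 : Tendsto (fun x : ℝ => Real.log x / x) atTop (𝓝 0) := by
      simpa using Real.isLittleO_log_id_atTop.tendsto_div_nhds_zero
    have h2 : Tendsto (fun n : ℕ => Real.log ((n : ℝ) + 1) / ((n : ℝ) + 1)) atTop (𝓝 0) := by
      refine h1.comp ?_
      exact tendsto_atTop_add_const_right _ _ tendsto_natCast_atTop_atTop
    have h3 : Tendsto (fun n : ℕ => ((n : ℝ) + 1) / n) atTop (𝓝 1) := by
      have h4 : Tendsto (fun n : ℕ => 1 + 1 / (n : ℝ)) atTop (𝓝 (1 + 0)) :=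
        tendsto_const_nhds.add tendsto_one_div_atTop_nhds_zero_nat
      rw [add_zero] at h4
      refine h4.congr' ?_
      filter_upwards [eventually_gt_atTop 0] with n hn
      have : (n : ℝ) ≠ 0 := by exact_mod_cast hn.ne'
      field_simp
    have h5 := (h2.mul h3).const_mul C
    rw [zero_mul, mul_zero] at h5
    refine h5.congr' ?_
    filter_upwards [eventually_gt_atTop 0] with n hn
    have h6 : (n : ℝ) ≠ 0 := by exact_mod_cast hn.ne'
    have h7 : (n : ℝ) + 1 ≠ 0 := by positivity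
    field_simp
  obtain ⟨N1, hN1⟩ := eventually_atTop.1 (hlim.eventually (gt_mem_nhds hε))
  refine ⟨max (max N N1) 1, fun n hn U hU hUP Ξ Yv G κ hhit => ?_⟩
  have hnN : N ≤ n := (le_max_left _ _).trans ((le_max_left _ _).trans hn)
  have hnN1 : N1 ≤ n := (le_max_right _ _).trans ((le_max_left _ _).trans hn)
  have hn1 : 1 ≤ n := (le_max_right _ _).trans hn
  have hnR : (0 : ℝ) < n := by exact_mod_cast hn1
  by_contra hcon
  push Not at hcon
  set ψ : ℝ := Real.log (Fintype.card A) + κ - 2 * ε with hψ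
  let Yc : PS d n → Finset (Fin n → B) := fun x =>
    univ.filter fun y => ∃ ξ ∈ G x, Yv x ξ = y
  have h1 := h n hnN U hU Yc (Real.exp (n * κ)) ψ (Real.exp_pos _) (by
      intro x hx
      refine (hhit x hx).trans (le_of_eq ?_)
      rw [Nat.card_eq_fintype_card, Fintype.card_subtype]) (by
      intro x hx y hy
      simp only [Yc, mem_filter, mem_univ, true_and] at hy
      obtain ⟨ξ, hξ, rfl⟩ := hy
      exact (hcon x hx ξ hξ).le) (Real.exp (-(ε * n))) (Real.exp_pos _) hUP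
  rw [Real.log_exp, Real.log_exp] at h1
  have h2 := hN1 n hnN1
  rw [div_lt_iff₀ hnR] at h2
  have h3 : (n : ℝ) * ψ = n * Real.log (Fintype.card A) + n * κ - 2 * (ε * n) := by
    rw [hψ]; ring
  rw [h3] at h1
  linarith

/-- (T) in the limit, abstract in the noise -/
theorem typ_abs (d a R : ℕ) (hd : 1 ≤ d) (A B : Type) [Fintype A] [Fintype B]
    (q : ℝ → A) (hq : ∀ x, u1 (q ⁻¹' {x}) ≤ ((Fintype.card A : ℕ) : ENNReal)⁻¹)
    (n : ℕ → ℕ) (hn : Tendsto n atTop atTop) (U : ∀ j, Set (PS d (n j)))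
    (hport : ∀ j, ∀ x ∈ U j, IsPort x.1)
    (hsize : ∀ ε : ℝ, 0 < ε → ∀ᶠ j in atTop,
      ENNReal.ofReal (Real.exp (-(ε * n j))) ≤ portLaw d (n j) (U j))
    (Ξ : ℕ → Type) [∀ j, MeasurableSpace (Ξ j)] (μ : ∀ j, Measure (Ξ j))
    [∀ j, IsProbabilityMeasure (μ j)] (Yv : ∀ j, PS d (n j) → Ξ j → Fin (n j) → B) (κ : ℝ)
    (hhit : ∀ ε : ℝ, 0 < ε → ∀ᶠ j in atTop, ∀ x ∈ U j, ∀ G : Set (Ξ j), 1 / 2 ≤ μ j G →
      Real.exp (n j * (κ - ε)) ≤ (Nat.card {y : Fin (n j) → B // ∃ ξ ∈ G, Yv j x ξ = y} : ℝ))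
    (qs : St (View (View A (Fin d) a × B) (Fin d) R) d → ℝ)
    (hconv : ∀ ε : ℝ, 0 < ε → ∀ᶠ j in atTop, ∀ x ∈ U j,
      μ j {ξ | ∃ σ, ε < |((Count674.starCnt x.1 (viewOf (⇑x.1)
          (colC a x.1 (fun v => q (x.2 v)) (Yv j x ξ)) R) σ : ℕ) : ℝ) / n j - qs σ|} ≤ 1 / 2) :
    Real.log (Fintype.card A) + κ ≤ PsiR qs := by
  classical
  refine le_of_forall_pos_le_add fun ε hε => ?_
  obtain ⟨δ, hδ, hclose⟩ := Psi_close qs (ε := ε / 4) (by positivity)
  obtain ⟨N, hN⟩ := typ_fin d a R hd A B q hq (ε := ε / 4) (by positivity)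
  obtain ⟨j, h1, h2, h3, h4⟩ := ((hn.eventually (eventually_ge_atTop N)).and
    ((hsize (ε / 4) (by positivity)).and ((hhit (ε / 4) (by positivity)).and
      (hconv δ hδ)))).exists
  let G : PS d (n j) → Set (Ξ j) := fun x =>
    {ξ | ∀ σ, |((Count674.starCnt x.1 (viewOf (⇑x.1)
          (colC a x.1 (fun v => q (x.2 v)) (Yv j x ξ)) R) σ : ℕ) : ℝ) / n j - qs σ| ≤ δ}
  have hG : ∀ x ∈ U j, 1 / 2 ≤ μ j (G x) := by
    intro x hx
    have h5 := h4 x hx
    have h6 : (Set.univ : Set (Ξ j)) ⊆ G x ∪ {ξ | ∃ σ, δ < |((Count674.starCnt x.1 (viewOf (⇑x.1)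
          (colC a x.1 (fun v => q (x.2 v)) (Yv j x ξ)) R) σ : ℕ) : ℝ) / n j - qs σ|} := by
      intro ξ _
      by_cases hξ : ξ ∈ G x
      · exact Or.inl hξ
      · right
        simp only [G, Set.mem_ofPred_eq, not_forall, not_le] at hξ
        exact hξ
    have h7 : (1 : ENNReal) ≤ μ j (G x) + 1 / 2 := by
      calc (1 : ENNReal) = μ j Set.univ := (measure_univ).symm
        _ ≤ _ := measure_mono h6
        _ ≤ _ := measure_union_le _ _
        _ ≤ _ := by gcongr
    by_contra hcon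
    push Not at hcon
    have h8 : μ j (G x) + 1 / 2 < 1 / 2 + 1 / 2 :=
      ENNReal.add_lt_add_right (by norm_num) hcon
    rw [ENNReal.add_halves] at h8
    exact absurd (h7.trans_lt h8) (lt_irrefl _)
  obtain ⟨x, hx, ξ, hξ, h5⟩ := hN (n j) h1 (U j) (hport j) h2 (Ξ j) (Yv j) G (κ - ε / 4)
    (fun x hx => h3 x hx (G x) (hG x hx))
  have h6 := (abs_le.1 (hclose (n j) _ hξ)).2
  linarith

end Crest.Agent.R166.TypC674
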