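import Mathlib
import Crest.Agent.R166.NoiseLLN_849
import Crest.Agent.R166.GaussQ_286

/-!
# R166, 40.7 (U) -> limit, part 2: the noise (helper724)

* `Qh_noise` : `Q(F + √t Z) = Q(F) + c η (2 √t ⟨b, ξ⟩ + t |ξ|²)`, `|b|² = Q(F) / (c η)`
* `Q_prob`   : `Q(F + √t Z) ≤ c η n k (t + η/c + δ)` with probability `≥ 1 - δ`
* `tail_prob`: uniform integrability of `|Z|²`
-/

set_option autoImplicit false
set_option linter.unusedSectionVars false

noncomputable section

namespace Crest.Agent.R166.UppProb724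

open MeasureTheory ProbabilityTheory Matrix
open Crest.Agent.R166.Noise547 Crest.Agent.R166.Gauss286 Crest.Agent.R166.NoiseLLN849

variable {V J : Type*} [Fintype V] [DecidableEq V] [Fintype J] {H : Matrix V V ℝ}

/-- star-local quadratic form -/
def Qh (H : Matrix V V ℝ) (E η : ℝ) (y : V → ℝ) : ℝ :=
  ∑ v, (((∑ w, H v w * y w) - E * y v) ^ 2 + η ^ 2 * y v ^ 2)

lemma Qh_eq (hH : H.IsHermitian) {E η c : ℝ} (hη : 0 < η) (hc : 0 < c) (y : V → ℝ) :
    Qh H E η y = c * η * ∑ i, (geta E η c (hH.eigenvalues i))⁻¹ *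
      (∑ x, ev hH i x * y x) ^ 2 := by
  have h1 := geta_inv_quad hH (E := E) hη hc y
  rw [fM_quad] at h1
  have h2 : c * η ≠ 0 := (mul_pos hc hη).ne'
  rw [h1, ← mul_assoc, mul_inv_cancel₀ h2, one_mul]
  rfl

/-- vector with given spectral coordinates -/
def bv (hH : H.IsHermitian) (a : V → ℝ) (x : V) : ℝ := ∑ i, a i * ev hH i x

lemma ev_bv (hH : H.IsHermitian) (a : V → ℝ) (i : V) : ∑ x, ev hH i x * bv hH a x = a i := by
  simp only [bv, Finset.mul_sum]
  rw [Finset.sum_comm]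
  have h1 : ∀ j, ∑ x, ev hH i x * (a j * ev hH j x) = a j * if i = j then 1 else 0 := by
    intro j
    rw [← ev_orth hH i j, Finset.mul_sum]
    exact Finset.sum_congr rfl fun x _ => by ring
  simp only [h1]
  simp

lemma bv_sq (hH : H.IsHermitian) (a : V → ℝ) : ∑ x, bv hH a x ^ 2 = ∑ i, a i ^ 2 := by
  rw [parseval hH (bv hH a)]
  exact Finset.sum_congr rfl fun i _ => by rw [ev_bv]

lemma bv_inner (hH : H.IsHermitian) (a z : V → ℝ) :
    ∑ x, bv hH a x * z x = ∑ i, a i * ∑ x, ev hH i x * z x := by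
  simp only [bv, Finset.mul_sum, Finset.sum_mul]
  rw [Finset.sum_comm]
  exact Finset.sum_congr rfl fun i _ => Finset.sum_congr rfl fun x _ => by ring

lemma Zn_eq_bv (hH : H.IsHermitian) (g : ℝ → ℝ) (ξ : J → V → ℝ) (j : J) (x : V) :
    Zn hH g ξ j x = bv hH (fun i => Real.sqrt (g (hH.eigenvalues i)) *
      ∑ y, ev hH i y * ξ j y) x := by
  simp only [Zn, bv, fM_apply, Finset.sum_mul, Finset.mul_sum]
  rw [Finset.sum_comm]
  exact Finset.sum_congr rfl fun i _ => Finset.sum_congr rfl fun y _ => by ring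

lemma ev_Zn (hH : H.IsHermitian) (g : ℝ → ℝ) (ξ : J → V → ℝ) (j : J) (i : V) :
    ∑ x, ev hH i x * Zn hH g ξ j x = Real.sqrt (g (hH.eigenvalues i)) *
      ∑ y, ev hH i y * ξ j y := by
  simp only [Zn_eq_bv]
  exact ev_bv hH _ i

/-- the linear coefficients -/
def bF (hH : H.IsHermitian) (E η c : ℝ) (F : V → ℝ) : V → ℝ :=
  bv hH fun i => (Real.sqrt (geta E η c (hH.eigenvalues i)))⁻¹ * ∑ x, ev hH i x * F x

lemma bF_sq (hH : H.IsHermitian) {E η c : ℝ} (hη : 0 < η) (hc : 0 < c) (F : V → ℝ) :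
    c * η * ∑ x, bF hH E η c F x ^ 2 = Qh H E η F := by
  rw [Qh_eq hH hη hc, bF, bv_sq]
  congr 1
  refine Finset.sum_congr rfl fun i _ => ?_
  rw [mul_pow, inv_pow, Real.sq_sqrt (geta_pos hη hc _).le]

lemma Qh_noise (hH : H.IsHermitian) {E η c t : ℝ} (hη : 0 < η) (hc : 0 < c) (ht : 0 ≤ t)
    (F : V → ℝ) (ξ : J → V → ℝ) (j : J) :
    Qh H E η (fun v => F v + Real.sqrt t * Zn hH (geta E η c) ξ j v) =
      Qh H E η F + c * η * (2 * Real.sqrt t * ∑ x, bF hH E η c F x * ξ j x +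
        t * ∑ x, ξ j x ^ 2) := by
  rw [Qh_eq hH hη hc, Qh_eq hH hη hc, bF, bv_inner, parseval hH (ξ j), ← mul_add]
  congr 1
  rw [Finset.mul_sum, Finset.mul_sum, ← Finset.sum_add_distrib, ← Finset.sum_add_distrib]
  refine Finset.sum_congr rfl fun i _ => ?_
  have h1 : ∑ x, ev hH i x * (F x + Real.sqrt t * Zn hH (geta E η c) ξ j x) =
      ∑ x, ev hH i x * F x + Real.sqrt t * (Real.sqrt (geta E η c (hH.eigenvalues i)) *
        ∑ y, ev hH i y * ξ j y) := by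
    rw [← ev_Zn, Finset.mul_sum, ← Finset.sum_add_distrib]
    exact Finset.sum_congr rfl fun x _ => by ring
  rw [h1]
  set f := ∑ x, ev hH i x * F x
  set ζ := ∑ y, ev hH i y * ξ j y
  have hg := geta_pos (E := E) hη hc (hH.eigenvalues i)
  set g := geta E η c (hH.eigenvalues i)
  have hs : Real.sqrt g ^ 2 = g := Real.sq_sqrt hg.le
  have hst : Real.sqrt t ^ 2 = t := Real.sq_sqrt ht
  have hs0 : Real.sqrt g ≠ 0 := (Real.sqrt_pos.2 hg).ne'
  have e1 : g⁻¹ = (Real.sqrt g)⁻¹ ^ 2 := by rw [inv_pow, hs]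
  rw [e1]
  have e2 : (Real.sqrt g)⁻¹ * Real.sqrt g = 1 := inv_mul_cancel₀ hs0
  calc (Real.sqrt g)⁻¹ ^ 2 * (f + Real.sqrt t * (Real.sqrt g * ζ)) ^ 2 =
      (Real.sqrt g)⁻¹ ^ 2 * f ^ 2 + 2 * Real.sqrt t * ((Real.sqrt g)⁻¹ * f *
        (((Real.sqrt g)⁻¹ * Real.sqrt g) * ζ)) +
        Real.sqrt t ^ 2 * ((((Real.sqrt g)⁻¹ * Real.sqrt g)) * ζ) ^ 2 := by ring
    _ = _ := by rw [e2, hst, one_mul]; ring

/-! ### Second moments -/

variable {ι κ : Type*} [Fintype ι] [Fintype κ]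

/-- Chebyshev -/
lemma cheb {Ω : Type*} [MeasurableSpace Ω] (μ : Measure Ω) [IsFiniteMeasure μ] {f : Ω → ℝ}
    (hf : Integrable (fun x => f x ^ 2) μ) {a M : ℝ} (ha : 0 < a)
    (hM : ∫ x, f x ^ 2 ∂μ ≤ M) : μ {x | a < |f x|} ≤ ENNReal.ofReal (M / a ^ 2) := by
  have h1 := mul_meas_ge_le_integral_of_nonneg (μ := μ) (f := fun x => f x ^ 2)
    (Filter.Eventually.of_forall fun x => sq_nonneg _) hf (a ^ 2)
  have h2 : μ.real {x | a ^ 2 ≤ f x ^ 2} ≤ M / a ^ 2 := by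
    rw [le_div_iff₀ (by positivity), mul_comm]
    exact h1.trans hM
  have h3 : μ {x | a < |f x|} ≤ μ {x | a ^ 2 ≤ f x ^ 2} := by
    refine measure_mono fun x hx => ?_
    simp only [Set.mem_ofPred_eq] at hx ⊢
    rw [← sq_abs (f x)]
    exact pow_le_pow_left₀ ha.le hx.le 2
  refine h3.trans ?_
  rw [← ENNReal.ofReal_toReal (measure_ne_top μ {x | a ^ 2 ≤ f x ^ 2})]
  exact ENNReal.ofReal_le_ofReal h2

/-- Markov -/
lemma markov {Ω : Type*} [MeasurableSpace Ω] (μ : Measure Ω) [IsFiniteMeasure μ] {f : Ω → ℝ}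
    (h0 : ∀ x, 0 ≤ f x) (hf : Integrable f μ) {a M : ℝ} (ha : 0 < a)
    (hM : ∫ x, f x ∂μ ≤ M) : μ {x | a < f x} ≤ ENNReal.ofReal (M / a) := by
  have h1 := mul_meas_ge_le_integral_of_nonneg (μ := μ) (f := f)
    (Filter.Eventually.of_forall h0) hf a
  have h2 : μ.real {x | a ≤ f x} ≤ M / a := by
    rw [le_div_iff₀ (by positivity), mul_comm]
    exact h1.trans hM
  have h3 : μ {x | a < f x} ≤ μ {x | a ≤ f x} := by
    refine measure_mono fun x hx => ?_
    simp only [Set.mem_ofPred_eq] at hx ⊢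
    exact hx.le
  refine h3.trans ?_
  rw [← ENNReal.ofReal_toReal (measure_ne_top μ {x | a ≤ f x})]
  exact ENNReal.ofReal_le_ofReal h2

lemma abs_lin_le (a : ι → ℝ) (x : ι → ℝ) :
    |∑ i, a i * x i| ≤ (∑ i, |a i|) * (1 + ∑ i, |x i|) := by
  have h0 : 0 ≤ ∑ i, |x i| := Finset.sum_nonneg fun _ _ => abs_nonneg _
  calc |∑ i, a i * x i| ≤ ∑ i, |a i| * |x i| := by
        refine (Finset.abs_sum_le_sum_abs _ _).trans (Finset.sum_le_sum fun i _ => ?_)
        rw [abs_mul]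
    _ ≤ ∑ i, |a i| * (1 + ∑ i, |x i|) := by
        refine Finset.sum_le_sum fun i _ => mul_le_mul_of_nonneg_left ?_ (abs_nonneg _)
        have := Finset.single_le_sum (f := fun i => |x i|) (fun i _ => abs_nonneg _)
          (Finset.mem_univ i)
        linarith
    _ = _ := by rw [← Finset.sum_mul]

lemma integrable_lin_pow (a : ι → ℝ) (m : ℕ) :
    Integrable (fun x : ι → ℝ => (∑ i, a i * x i) ^ m) (gv ι) := by
  refine integrable_gv (Measurable.aestronglyMeasurable (by fun_prop)) ((∑ i, |a i|) ^ m) m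
    fun x => ?_
  rw [norm_pow, Real.norm_eq_abs, ← mul_pow]
  exact pow_le_pow_left₀ (abs_nonneg _) (abs_lin_le a x) m

lemma integrable_sqsum : Integrable (fun x : ι → ℝ => (∑ i, (x i ^ 2 - 1)) ^ 2) (gv ι) := by
  refine integrable_gv (Measurable.aestronglyMeasurable (by fun_prop))
    ((Fintype.card ι : ℝ) ^ 2) 4 fun x => ?_
  have h0 : 0 ≤ ∑ i, |x i| := Finset.sum_nonneg fun _ _ => abs_nonneg _
  have h1 : |∑ i, (x i ^ 2 - 1)| ≤ Fintype.card ι * (1 + ∑ i, |x i|) ^ 2 := by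
    calc |∑ i, (x i ^ 2 - 1)| ≤ ∑ i, |x i ^ 2 - 1| := Finset.abs_sum_le_sum_abs _ _
      _ ≤ ∑ _i : ι, (1 + ∑ i, |x i|) ^ 2 := by
          refine Finset.sum_le_sum fun i _ => ?_
          have h2 := Finset.single_le_sum (f := fun i => |x i|) (fun i _ => abs_nonneg _)
            (Finset.mem_univ i)
          have h3 : |x i| ^ 2 = x i ^ 2 := sq_abs _
          rw [abs_le]
          constructor <;> nlinarith [abs_nonneg (x i)]
      _ = _ := by rw [Finset.sum_const, Finset.card_univ, nsmul_eq_mul]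
  rw [norm_pow, Real.norm_eq_abs]
  calc |∑ i, (x i ^ 2 - 1)| ^ 2 ≤ (Fintype.card ι * (1 + ∑ i, |x i|) ^ 2) ^ 2 :=
        pow_le_pow_left₀ (abs_nonneg _) h1 2
    _ = _ := by ring

/-- transfer from `gm` to `gv` -/
lemma gm_apply {A : Set (ι → κ → ℝ)} (hA : MeasurableSet A) :
    gm ι κ A = gv (ι × κ) {x | (fun i k => x (i, k)) ∈ A} := by
  rw [← gv_map_curry, Measure.map_apply measurable_curry' hA]
  rfl

lemma gm_lin (b : ι → κ → ℝ) {a M : ℝ} (ha : 0 < a) (hM : ∑ i, ∑ k, b i k ^ 2 ≤ M) :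
    gm ι κ {ξ | a < |∑ i, ∑ k, b i k * ξ i k|} ≤ ENNReal.ofReal (M / a ^ 2) := by
  have hm : MeasurableSet {ξ : ι → κ → ℝ | a < |∑ i, ∑ k, b i k * ξ i k|} := by
    refine measurableSet_lt measurable_const ?_
    fun_prop
  rw [gm_apply hm]
  have h1 := cheb (gv (ι × κ)) (f := fun x => ∑ p : ι × κ, b p.1 p.2 * x p)
    (integrable_lin_pow (fun p : ι × κ => b p.1 p.2) 2) (M := M) ha (by
      rw [lin_sq (fun p : ι × κ => b p.1 p.2), Fintype.sum_prod_type]
      exact hM)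
  refine le_trans (measure_mono fun x hx => ?_) h1
  simp only [Set.mem_ofPred_eq] at hx ⊢
  rw [Fintype.sum_prod_type]
  exact hx

lemma gm_sq {a M : ℝ} (ha : 0 < a) (hM : 2 * ((Fintype.card ι : ℝ) * Fintype.card κ) ≤ M) :
    gm ι κ {ξ | a < |∑ i, ∑ k, (ξ i k ^ 2 - 1)|} ≤ ENNReal.ofReal (M / a ^ 2) := by
  have hm : MeasurableSet {ξ : ι → κ → ℝ | a < |∑ i, ∑ k, (ξ i k ^ 2 - 1)|} := by
    refine measurableSet_lt measurable_const ?_
    fun_prop
  rw [gm_apply hm]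
  have h1 := cheb (gv (ι × κ)) (f := fun x => ∑ p : ι × κ, (x p ^ 2 - 1))
    integrable_sqsum (M := M) ha (by
      have := quad_diag (fun _ : ι × κ => (1 : ℝ))
      simp only [one_mul] at this
      rw [this]
      simpa [Fintype.card_prod] using hM)
  refine le_trans (measure_mono fun x hx => ?_) h1
  simp only [Set.mem_ofPred_eq] at hx ⊢
  rw [Fintype.sum_prod_type]
  exact hx

/-- `Q(F + √t Z) ≤ c η n k (t + η/c + δ)` with probability `≥ 1 - δ` -/
theorem Q_prob (k : ℕ) (E K' η c t : ℝ) (hη : 0 < η) (hc : 0 < c) (ht : 0 < t) (δ : ℝ)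
    (hδ : 0 < δ) : ∃ N : ℕ, ∀ n ≥ N, ∀ (H : Matrix (Fin n) (Fin n) ℝ) (hH : H.IsHermitian)
      (F : Fin k → Fin n → ℝ), (∀ i, ∑ v, F i v ^ 2 = n) →
      (∀ i, ∑ v, ((H.mulVec (F i)) v - E * F i v) ^ 2 ≤ (K' / n) ^ 2 * n) →
      gm (Fin k) (Fin n) {ξ | c * η * (n * k * (t + η / c + δ)) < ∑ κ, Qh H E η (fun v =>
        F κ v + Real.sqrt t * Zn hH (geta E η c) ξ κ v)} ≤ ENNReal.ofReal δ := by
  rcases Nat.eq_zero_or_pos k with hk | hk
  · subst hk
    refine ⟨0, fun n _ H hH F _ _ => ?_⟩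
    simp
  have hk' : (1 : ℝ) ≤ k := by exact_mod_cast hk
  -- constants
  set C1 : ℝ := K' ^ 2 + η ^ 2 with hC1
  set C : ℝ := 36 * t * (k * C1 / (c * η)) / (k * δ) ^ 2 + 18 * t ^ 2 * k / (k * δ) ^ 2 with hC
  have hC0 : 0 ≤ C := by positivity
  obtain ⟨N, hN⟩ := exists_nat_ge (max (C / δ) (3 * K' ^ 2 / (c * η * δ)) + 1)
  refine ⟨N, fun n hn H hH F hF hHF => ?_⟩
  have hn1 : max (C / δ) (3 * K' ^ 2 / (c * η * δ)) + 1 ≤ n := hN.trans (by exact_mod_cast hn)
  have hmax0 : 0 ≤ max (C / δ) (3 * K' ^ 2 / (c * η * δ)) := le_max_of_le_left (by positivity)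
  have hn1' : (1 : ℝ) ≤ n := by linarith
  have hn' : (0 : ℝ) < n := by linarith
  have hnC : C / δ ≤ n := (le_max_left _ _).trans (by linarith)
  have hnK : 3 * K' ^ 2 / (c * η * δ) ≤ n := (le_max_right _ _).trans (by linarith)
  have hcη : 0 < c * η := mul_pos hc hη
  -- the deterministic part
  have hQF : ∀ i, Qh H E η (F i) ≤ K' ^ 2 / n + η ^ 2 * n := by
    intro i
    have h1 := hHF i
    unfold Qh
    rw [Finset.sum_add_distrib, ← Finset.mul_sum, hF i]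
    refine add_le_add ?_ le_rfl
    refine h1.trans (le_of_eq ?_)
    field_simp
  have hQF2 : ∑ i, Qh H E η (F i) ≤ k * (K' ^ 2 / n + η ^ 2 * n) := by
    refine (Finset.sum_le_sum fun i _ => hQF i).trans (le_of_eq ?_)
    rw [Finset.sum_const, Finset.card_univ, Fintype.card_fin, nsmul_eq_mul]
  set b : Fin k → Fin n → ℝ := fun κ => bF hH E η c (F κ) with hb
  have hb2 : ∑ κ, ∑ v, b κ v ^ 2 ≤ n * (k * C1 / (c * η)) := by
    have h1 : c * η * ∑ κ, ∑ v, b κ v ^ 2 = ∑ i, Qh H E η (F i) := by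
      rw [Finset.mul_sum]
      exact Finset.sum_congr rfl fun i _ => bF_sq hH hη hc (F i)
    have h2 : K' ^ 2 / n ≤ K' ^ 2 * n := by
      rw [div_le_iff₀ hn']
      nlinarith [sq_nonneg K', mul_nonneg (sq_nonneg K') (by linarith : (0 : ℝ) ≤ n - 1),
        mul_nonneg (mul_nonneg (sq_nonneg K') (by linarith : (0 : ℝ) ≤ n - 1)) hn'.le]
    have h3 : c * η * ∑ κ, ∑ v, b κ v ^ 2 ≤ c * η * (n * (k * C1 / (c * η))) := by
      rw [h1]
      refine hQF2.trans ?_
      have e : c * η * (n * (k * C1 / (c * η))) = k * (K' ^ 2 * n + η ^ 2 * n) := by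
        rw [hC1]; field_simp
      rw [e]
      exact mul_le_mul_of_nonneg_left (by linarith) (by linarith)
    exact le_of_mul_le_mul_left h3 hcη
  -- the two events
  set a : ℝ := n * k * δ / 3 with ha
  have ha0 : 0 < a := by positivity
  have hst : 0 < Real.sqrt t := Real.sqrt_pos.2 ht
  have hst2 : Real.sqrt t ^ 2 = t := Real.sq_sqrt ht.le
  have h1 := gm_lin b (a := a / (2 * Real.sqrt t)) (by positivity) hb2
  have h2 := gm_sq (ι := Fin k) (κ := Fin n) (a := a / t) (M := 2 * (k * n)) (by positivity)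
    (by simp)
  have h3 : {ξ : Fin k → Fin n → ℝ | c * η * (n * k * (t + η / c + δ)) <
      ∑ κ, Qh H E η (fun v => F κ v + Real.sqrt t * Zn hH (geta E η c) ξ κ v)} ⊆
      {ξ | a / (2 * Real.sqrt t) < |∑ i, ∑ k, b i k * ξ i k|} ∪
      {ξ | a / t < |∑ i, ∑ k, (ξ i k ^ 2 - 1)|} := by
    intro ξ hξ
    simp only [Set.mem_union, Set.mem_ofPred_eq] at hξ ⊢
    by_contra hcon
    push Not at hcon
    obtain ⟨h4, h5⟩ := hcon
    rw [le_div_iff₀ (by positivity)] at h4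
    rw [le_div_iff₀ ht] at h5
    have h6 : ∑ κ, Qh H E η (fun v => F κ v + Real.sqrt t * Zn hH (geta E η c) ξ κ v) =
        ∑ κ, Qh H E η (F κ) + c * η * (2 * Real.sqrt t * ∑ i, ∑ k, b i k * ξ i k +
          t * (∑ i, ∑ k, (ξ i k ^ 2 - 1)) + t * (n * k)) := by
      simp only [Qh_noise hH hη hc ht.le]
      rw [Finset.sum_add_distrib, ← Finset.mul_sum, Finset.sum_add_distrib, ← Finset.mul_sum,
        ← Finset.mul_sum]
      simp only [Finset.sum_sub_distrib, Finset.sum_const, Finset.card_univ, Fintype.card_fin,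
        nsmul_eq_mul, mul_one]
      ring
    rw [h6] at hξ
    have h7 : 2 * Real.sqrt t * ∑ i, ∑ k, b i k * ξ i k ≤ a := by
      have := le_abs_self (∑ i, ∑ k, b i k * ξ i k)
      nlinarith
    have h8 : t * (∑ i, ∑ k, (ξ i k ^ 2 - 1)) ≤ a := by
      have := le_abs_self (∑ i, ∑ k, (ξ i k ^ 2 - 1))
      nlinarith
    have h9 : k * (K' ^ 2 / n) ≤ c * η * a := by
      have h10 : 3 * K' ^ 2 ≤ n * (c * η * δ) := by
        rwa [div_le_iff₀ (by positivity)] at hnK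
      have h11 : K' ^ 2 / n ≤ c * η * δ / 3 := by
        rw [div_le_div_iff₀ hn' (by norm_num)]
        linarith
      calc k * (K' ^ 2 / n) ≤ k * (c * η * δ / 3) :=
            mul_le_mul_of_nonneg_left h11 (by linarith)
        _ ≤ n * (k * (c * η * δ / 3)) := le_mul_of_one_le_left (by positivity) hn1'
        _ = _ := by rw [ha]; ring
    have h12 : c * η * (2 * Real.sqrt t * ∑ i, ∑ k, b i k * ξ i k +
          t * (∑ i, ∑ k, (ξ i k ^ 2 - 1)) + t * (n * k)) ≤ c * η * (a + a + t * (n * k)) :=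
      mul_le_mul_of_nonneg_left (by linarith) hcη.le
    have h13 : c * η * (n * k * (t + η / c + δ)) =
        k * (η ^ 2 * n) + c * η * a + c * η * (a + a + t * (n * k)) := by
      rw [ha]
      field_simp
      ring
    rw [h13] at hξ
    have h14 : ∑ κ, Qh H E η (F κ) ≤ k * (η ^ 2 * n) + c * η * a := by
      refine hQF2.trans ?_
      rw [mul_add]
      linarith
    linarith
  refine (measure_mono h3).trans ((measure_union_le _ _).trans ?_)
  refine (add_le_add h1 h2).trans ?_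
  rw [← ENNReal.ofReal_add (by positivity) (by positivity)]
  refine ENNReal.ofReal_le_ofReal ?_
  have h4 : n * (k * C1 / (c * η)) / (a / (2 * Real.sqrt t)) ^ 2 + 2 * (k * n) / (a / t) ^ 2 =
      C / n := by
    have e1 : (a / (2 * Real.sqrt t)) ^ 2 = a ^ 2 / (4 * t) := by
      rw [div_pow, mul_pow, hst2]; norm_num
    rw [e1, hC, ha]
    field_simp
    ring
  rw [h4, div_le_iff₀ hn']
  rw [div_le_iff₀ hδ] at hnC
  linarith

/-! ### Fourth moments and tails -/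

/-- `E (a · ξ)⁴ = 3 |a|⁴` -/
lemma lin_four (a : ι → ℝ) : ∫ x, (∑ i, a i * x i) ^ 4 ∂(gv ι) = 3 * (∑ i, a i ^ 2) ^ 2 := by
  have h := gv_map_eq_of (ι := ι) (κ := Unit) (ι' := Unit) (Matrix.of fun _ i => a i)
    (Matrix.of fun _ _ => Real.sqrt (∑ i, a i ^ 2)) (by
      ext u v
      simp only [Matrix.mul_apply, Matrix.of_apply, Matrix.transpose_apply, Finset.univ_unique,
        Finset.sum_singleton]
      rw [Real.mul_self_sqrt (Finset.sum_nonneg fun _ _ => sq_nonneg _)]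
      exact Finset.sum_congr rfl fun i _ => by ring)
  have h1 : ∫ y : Unit → ℝ, y () ^ 4 ∂((gv ι).map
      (fun x => (Matrix.of fun (_ : Unit) i => a i) *ᵥ x)) = ∫ x, (∑ i, a i * x i) ^ 4 ∂(gv ι) := by
    rw [integral_map (measurable_mulVec _).aemeasurable
      (Measurable.aestronglyMeasurable (by fun_prop))]
    rfl
  have h2 : ∫ y : Unit → ℝ, y () ^ 4 ∂((gv Unit).map
      (fun x => (Matrix.of fun (_ _ : Unit) => Real.sqrt (∑ i, a i ^ 2)) *ᵥ x)) =
      3 * (∑ i, a i ^ 2) ^ 2 := by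
    rw [integral_map (measurable_mulVec _).aemeasurable
      (Measurable.aestronglyMeasurable (by fun_prop))]
    have h3 : ∀ x : Unit → ℝ, ((Matrix.of fun (_ _ : Unit) => Real.sqrt (∑ i, a i ^ 2)) *ᵥ x) () ^ 4
        = (∑ i, a i ^ 2) ^ 2 * x () ^ 4 := by
      intro x
      simp only [Matrix.mulVec, dotProduct, Matrix.of_apply, Finset.univ_unique,
        Finset.sum_singleton]
      rw [mul_pow]
      congr 1
      have : Real.sqrt (∑ i, a i ^ 2) ^ 4 = (Real.sqrt (∑ i, a i ^ 2) ^ 2) ^ 2 := by ring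
      rw [this, Real.sq_sqrt (Finset.sum_nonneg fun _ _ => sq_nonneg _)]
    simp only [h3]
    rw [integral_const_mul, integral_comp_eval (μ := fun _ : Unit => gaussianReal 0 1)
      (f := fun x : ℝ => x ^ 4) (i := ()) (by fun_prop), int_x4]
    ring
  rw [← h1, h, h2]

lemma fM_diag_nonneg (hH : H.IsHermitian) {g : ℝ → ℝ} (hg : ∀ i, 0 ≤ g (hH.eigenvalues i))
    (x : V) : 0 ≤ fM hH g x x := by
  rw [fM_apply]
  exact Finset.sum_nonneg fun i _ => mul_nonneg (hg i) (mul_self_nonneg _)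

lemma row_sq (hH : H.IsHermitian) {g : ℝ → ℝ} (hg : ∀ i, 0 ≤ g (hH.eigenvalues i)) (x : V) :
    ∑ y, fM hH (fun t => Real.sqrt (g t)) x y ^ 2 = fM hH g x x := by
  have hS : fM hH (fun t => Real.sqrt (g t)) * fM hH (fun t => Real.sqrt (g t)) = fM hH g := by
    rw [fM_mul]
    exact fM_congr hH fun i => Real.mul_self_sqrt (hg i)
  rw [← hS, Matrix.mul_apply]
  refine Finset.sum_congr rfl fun y _ => ?_
  rw [fM_symm hH _ y x]
  ring

lemma int_Zn_four (hH : H.IsHermitian) {g : ℝ → ℝ} {M : ℝ} (hM : 0 ≤ M)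
    (hg : ∀ i, 0 ≤ g (hH.eigenvalues i)) (hgM : ∀ i, g (hH.eigenvalues i) ≤ M) (j : J) (x : V) :
    ∫ ξ, Zn hH g ξ j x ^ 4 ∂(gm J V) ≤ 3 * M ^ 2 := by
  have h1 : ∫ ξ, Zn hH g ξ j x ^ 4 ∂(gm J V) =
      ∫ z : V → ℝ, (∑ y, fM hH (fun t => Real.sqrt (g t)) x y * z y) ^ 4 ∂(gv V) :=
    integral_comp_eval (μ := fun _ : J => gv V)
      (f := fun z : V → ℝ => (∑ y, fM hH (fun t => Real.sqrt (g t)) x y * z y) ^ 4) (i := j)
      (Measurable.aestronglyMeasurable (by fun_prop))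
  rw [h1, lin_four, row_sq hH hg]
  have h2 : fM hH g x x ≤ M := by
    have := fM_abs_le hH (f := g) (M := M) (fun i => by
      rw [abs_of_nonneg (hg i)]; exact hgM i) x x
    exact (le_abs_self _).trans this
  have h3 := fM_diag_nonneg hH hg x
  nlinarith

lemma integrable_Zn_four (hH : H.IsHermitian) (g : ℝ → ℝ) (j : J) (x : V) :
    Integrable (fun ξ : J → V → ℝ => Zn hH g ξ j x ^ 4) (gm J V) :=
  integrable_comp_eval (μ := fun _ : J => gv V)
    (f := fun z : V → ℝ => (∑ y, fM hH (fun t => Real.sqrt (g t)) x y * z y) ^ 4) (i := j)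
    (integrable_lin_pow _ 4)

/-- uniform integrability of the noise -/
theorem tail_prob (k : ℕ) (M t : ℝ) (hM : 0 < M) (ht : 0 < t) (δ : ℝ) (hδ : 0 < δ) :
    ∃ L0 : ℝ, 0 < L0 ∧ ∀ L ≥ L0, ∀ (n : ℕ) (H : Matrix (Fin n) (Fin n) ℝ) (hH : H.IsHermitian)
      (g : ℝ → ℝ), (∀ i, 0 ≤ g (hH.eigenvalues i)) → (∀ i, g (hH.eigenvalues i) ≤ M) →
      gm (Fin k) (Fin n) {ξ | δ * (n * k) < ∑ κ, ∑ v,
        (if L < |Real.sqrt t * Zn hH g ξ κ v| then (Real.sqrt t * Zn hH g ξ κ v) ^ 2 else 0)} ≤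
        ENNReal.ofReal δ := by
  refine ⟨1 + 3 * t ^ 2 * M ^ 2 / δ ^ 2, by positivity, fun L hL n H hH g hg hgM => ?_⟩
  have hL1 : 1 ≤ L := le_trans (by have : 0 ≤ 3 * t ^ 2 * M ^ 2 / δ ^ 2 := by positivity
                                   linarith) hL
  have hL2 : 3 * t ^ 2 * M ^ 2 / δ ^ 2 ≤ L := by linarith
  have hL0 : 0 < L := by linarith
  rcases Nat.eq_zero_or_pos (n * k) with hnk | hnk
  · have h0 : (n : ℝ) * k = 0 := by exact_mod_cast hnk
    have hempty : {ξ : Fin k → Fin n → ℝ | δ * (n * k) < ∑ κ, ∑ v,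
        (if L < |Real.sqrt t * Zn hH g ξ κ v| then (Real.sqrt t * Zn hH g ξ κ v) ^ 2 else 0)} =
        ∅ := by
      ext ξ
      simp only [Set.mem_ofPred_eq, Set.mem_empty_iff_false, iff_false, not_lt, h0, mul_zero]
      rcases Nat.mul_eq_zero.1 hnk with h | h
      · subst h; simp
      · subst h; simp
    rw [hempty, measure_empty]
    exact zero_le
  have hnk' : (0 : ℝ) < n * k := by exact_mod_cast hnk
  set f : (Fin k → Fin n → ℝ) → ℝ := fun ξ => ∑ κ, ∑ v, t ^ 2 * Zn hH g ξ κ v ^ 4 / L ^ 2 with hf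
  have hfi : ∀ κ v, Integrable (fun ξ : Fin k → Fin n → ℝ => t ^ 2 * Zn hH g ξ κ v ^ 4 / L ^ 2)
      (gm (Fin k) (Fin n)) := fun κ v =>
    ((integrable_Zn_four hH g κ v).const_mul (t ^ 2)).div_const _
  have hint : ∫ ξ, f ξ ∂(gm (Fin k) (Fin n)) ≤ (n * k) * (3 * t ^ 2 * M ^ 2 / L ^ 2) := by
    rw [hf, integral_finsetSum _ fun κ _ => integrable_finsetSum _ fun v _ => hfi κ v]
    calc ∑ κ : Fin k, ∫ ξ : Fin k → Fin n → ℝ, ∑ v, t ^ 2 * Zn hH g ξ κ v ^ 4 / L ^ 2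
          ∂(gm (Fin k) (Fin n)) ≤ ∑ _κ : Fin k, ∑ _v : Fin n, 3 * t ^ 2 * M ^ 2 / L ^ 2 := by
          refine Finset.sum_le_sum fun κ _ => ?_
          rw [integral_finsetSum _ fun v _ => hfi κ v]
          refine Finset.sum_le_sum fun v _ => ?_
          rw [integral_div, integral_const_mul]
          have := int_Zn_four hH hM.le hg hgM κ v
          refine div_le_div_of_nonneg_right ?_ (by positivity)
          nlinarith [mul_le_mul_of_nonneg_left this (sq_nonneg t)]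
      _ = _ := by
          simp only [Finset.sum_const, Finset.card_univ, Fintype.card_fin, nsmul_eq_mul]
          ring
  have h1 := markov (gm (Fin k) (Fin n)) (f := f) (fun ξ => by rw [hf]; positivity)
    (integrable_finsetSum _ fun κ _ => integrable_finsetSum _ fun v _ => hfi κ v)
    (a := δ * (n * k)) (by positivity) hint
  refine le_trans (measure_mono fun ξ hξ => ?_) (h1.trans (ENNReal.ofReal_le_ofReal ?_))
  · simp only [Set.mem_ofPred_eq] at hξ ⊢
    refine hξ.trans_le (Finset.sum_le_sum fun κ _ => Finset.sum_le_sum fun v _ => ?_)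
    have hst2 : Real.sqrt t ^ 2 = t := Real.sq_sqrt ht.le
    split_ifs with h
    · rw [le_div_iff₀ (by positivity)]
      have h2 : L ^ 2 ≤ (Real.sqrt t * Zn hH g ξ κ v) ^ 2 := by
        rw [← sq_abs (Real.sqrt t * Zn hH g ξ κ v)]
        exact pow_le_pow_left₀ hL0.le h.le 2
      calc (Real.sqrt t * Zn hH g ξ κ v) ^ 2 * L ^ 2 ≤
          (Real.sqrt t * Zn hH g ξ κ v) ^ 2 * (Real.sqrt t * Zn hH g ξ κ v) ^ 2 :=
            mul_le_mul_of_nonneg_left h2 (sq_nonneg _)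
        _ = (Real.sqrt t ^ 2) ^ 2 * Zn hH g ξ κ v ^ 4 := by ring
        _ = _ := by rw [hst2]
    · positivity
  · rw [div_le_iff₀ (by positivity), ← mul_assoc, mul_comm]
    refine le_trans ?_ (le_of_eq (mul_comm _ _))
    have h3 : 3 * t ^ 2 * M ^ 2 / L ^ 2 ≤ δ * δ := by
      rw [div_le_iff₀ (by positivity)]
      rw [div_le_iff₀ (by positivity)] at hL2
      have : L ≤ L ^ 2 := by nlinarith
      nlinarith [sq_nonneg δ, mul_le_mul_of_nonneg_left this (sq_nonneg δ)]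
    nlinarith [mul_le_mul_of_nonneg_left h3 hnk'.le]

end Crest.Agent.R166.UppProb724
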