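import Crest.Agent.R166.UppDet_724
import Crest.Agent.R166.UppProb_724
import Crest.Agent.R166.TypL_674

/-!
# R166, 40.7 (U) -> limit, part 3 (helper724): `SpecB1.Stmt_U`
-/

set_option autoImplicit false
set_option linter.unusedSectionVars false
set_option maxHeartbeats 800000

namespace Crest.Agent.R166.UppLim724

open MeasureTheory Finset PairCount356 SpecB1 Crest.ProbabilityR.RandomMatrix Filter Topology
open Crest.Agent.R166.Seq980 (PS portLaw)
open Crest.Agent.R166.Upp724 Crest.Agent.R166.Words955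
open Crest.Agent.R166.UppProb724
open Crest.Agent.R166.Count674 (St Th)

theorem isPairing_of_port {n d : ℕ} {p : Equiv.Perm (HE n d)} (hp : IsPort p) : IsPairing p :=
  ⟨hp.inv, fun h e => hp.noloop h (by rw [e])⟩

theorem Hp_eq_Hm {n d : ℕ} {p : Equiv.Perm (HE n d)} (hp : IsPort p) (s : ℝ) (ω : Fin n → ℝ) :
    Hp (⇑p) s ω = Hm (graphOf p) s ω := by
  classical
  unfold Hp Hm
  ext v w
  rw [Matrix.add_apply, Matrix.add_apply]
  congr 1
  · rw [SimpleGraph.adjMatrix_apply, adjP]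
    by_cases h : (graphOf p).Adj v w
    · rw [if_pos h]
      obtain ⟨i, hi⟩ := (hp.adj_iff).1 h
      rw [Finset.sum_eq_single i]
      · rw [if_pos hi]
      · intro j _ hj
        rw [if_neg]
        intro h2
        exact hj (hp.simple v j i (h2.trans hi.symm))
      · simp
    · rw [if_neg h]
      refine Finset.sum_eq_zero fun i _ => ?_
      rw [if_neg]
      intro h2
      exact h ((hp.adj_iff).2 ⟨i, h2⟩)

theorem logdet_congr {V : Type} [Fintype V] [DecidableEq V] {H H' : Matrix V V ℝ} (h : H = H')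
    (hH : H.IsHermitian) (hH' : H'.IsHermitian) (E η c : ℝ) : logdet hH E η c = logdet hH' E η c := by
  subst h
  rfl

theorem sum_Qs_eq_Qh {n d k : ℕ} {p : Equiv.Perm (HE n d)} (hp : IsPort p) (s E η : ℝ)
    (ω : Fin n → ℝ) (Y : Fin n → Fin k → ℝ) :
    ∑ v, Qs k (⇑p) s E η ω Y v = ∑ κ, Qh (Hm (graphOf p) s ω) E η (fun v => Y v κ) := by
  rw [sum_Qs, Hp_eq_Hm hp]
  rfl

/-- the tail of a sum -/
theorem tail_add {L a b : ℝ} (hL : 0 ≤ L) :
    (if 2 * L < |a + b| then (a + b) ^ 2 else 0) ≤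
      4 * (if L < |a| then a ^ 2 else 0) + 4 * (if L < |b| then b ^ 2 else 0) := by
  by_cases h : 2 * L < |a + b|
  · rw [if_pos h]
    have h1 := abs_add_le a b
    rcases le_total |a| |b| with h2 | h2
    · have h3 : L < |b| := by linarith
      rw [if_pos h3]
      have h4 : (a + b) ^ 2 ≤ 4 * b ^ 2 := by
        rw [← sq_abs (a + b), ← sq_abs b]
        nlinarith [abs_nonneg (a + b), abs_nonneg b]
      have h5 : 0 ≤ (if L < |a| then a ^ 2 else 0) := by split_ifs <;> positivity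
      linarith
    · have h3 : L < |a| := by linarith
      rw [if_pos h3]
      have h4 : (a + b) ^ 2 ≤ 4 * a ^ 2 := by
        rw [← sq_abs (a + b), ← sq_abs a]
        nlinarith [abs_nonneg (a + b), abs_nonneg a]
      have h5 : 0 ≤ (if L < |b| then b ^ 2 else 0) := by split_ifs <;> positivity
      linarith
  · rw [if_neg h]
    have h5 : 0 ≤ (if L < |b| then b ^ 2 else 0) := by split_ifs <;> positivity
    have h6 : 0 ≤ (if L < |a| then a ^ 2 else 0) := by split_ifs <;> positivity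
    linarith

theorem oq_close (m : ℕ) {x : ℝ} (hx : |x| ≤ 1) :
    |Lev47.orep m (Lev47.oq m x) - x| ≤ 2 * (1 / 2) ^ m := by
  have h := abs_le.1 hx
  exact Lev47.abs_lo_sub (by positivity) h.1 (by rw [Lev47.D_mul_M_o]; linarith)

theorem orep_le (m : ℕ) (i : Fin (2 ^ m)) : |Lev47.orep m i| ≤ 1 :=
  lo_abs (by positivity) (by rw [Lev47.D_mul_M_o]) i

/-- **(U) in probability**: along the sequence, with probability `≥ 1 - ε` in the noise -/
theorem upp_prob {d k : ℕ} [NeZero d] (S : Seq980.Seq d k) (s E K' η c t : ℝ) (hη : 0 < η)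
    (hc : 0 < c) (ht : 0 < t) (hS : Extra S s E K') (ε : ℝ) (hε : 0 < ε) :
    ∃ a0 m0 : ℕ, ∀ a m : ℕ, a0 ≤ a → m0 ≤ m → ∀ᶠ j in atTop, ∀ x ∈ S.U j,
      gmP k (S.n j) {ξ | ¬ Count674.Psi (S.n j) (Count674.starCnt x.1 (colV a m x
        (fun i v => S.F j x i v + Real.sqrt t * ZP s E η c x ξ i v))) ≤
        m * Real.log 2 + k * (m * Real.log 8) +
        (k : ℝ) / 2 * (Real.log (2 * Real.pi * Real.exp 1 * (t + η / c)) + ldet s E η c x) + ε} ≤
        ENNReal.ofReal ε := by
  set q : ℝ := t + η / c with hq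
  have hq0 : 0 < q := by positivity
  obtain ⟨δ, hδ, a0, hcore⟩ := upp_core d k s E η c hη hc q hq0 ε hε
  -- tolerances
  set δ' : ℝ := min (min (δ / 8) (ε / 2)) (δ / (8 * (k + 1))) with hδ'
  have hδ'0 : 0 < δ' := by positivity
  have hδ'1 : δ' ≤ δ / 8 := (min_le_left _ _).trans (min_le_left _ _)
  have hδ'2 : δ' ≤ ε / 2 := (min_le_left _ _).trans (min_le_right _ _)
  obtain ⟨N1, hN1⟩ := Q_prob k E K' η c t hη hc ht δ' hδ'0
  obtain ⟨L0, hL0, htail⟩ := tail_prob k (c / η) t (by positivity) ht δ' hδ'0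
  obtain ⟨M0, hM0⟩ := hS.ui δ' hδ'0
  -- the level
  obtain ⟨m1, hm1⟩ := pow_unbounded_of_one_lt (2 * max L0 (max M0 1)) (by norm_num : (1 : ℝ) < 2)
  obtain ⟨m2, hm2⟩ := exists_pow_lt_of_lt_one (show (0 : ℝ) < δ / 2 by positivity)
    (by norm_num : (1 / 2 : ℝ) < 1)
  refine ⟨a0, max m1 m2, fun a m ha hm => ?_⟩
  have hmm1 : m1 ≤ m := (le_max_left _ _).trans hm
  have hmm2 : m2 ≤ m := (le_max_right _ _).trans hm
  have hLm : 2 * max L0 (max M0 1) ≤ 2 ^ m :=
    hm1.le.trans (pow_le_pow_right₀ (by norm_num) hmm1)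
  have hhalf : (1 / 2 : ℝ) ^ m ≤ δ / 2 :=
    (pow_le_pow_of_le_one (by norm_num) (by norm_num) hmm2).trans hm2.le
  have h8 : (1 / 8 : ℝ) ^ m ≤ (1 / 2) ^ m := pow_le_pow_left₀ (by norm_num) (by norm_num) m
  have h1m : (1 / 8 : ℝ) ^ m ≤ 1 := pow_le_one₀ (by norm_num) (by norm_num)
  have h2m : (1 : ℝ) ≤ 2 ^ m := one_le_pow₀ (by norm_num)
  obtain ⟨ε', hε', N2, hN2⟩ := hcore (Fin (2 ^ m)) (Lev47.orep m) (orep_le m) (Lev47.oq m)
    (fun x hx => (oq_close m hx).trans (by linarith)) (2 ^ m) ((1 / 8) ^ m) (2 * 16 ^ m)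
    (by positivity) (by linarith) (h1m.trans h2m)
    (by have := Lev47.D_mul_M_y m; exact_mod_cast this) a ha
  filter_upwards [S.tendsto_n.eventually (eventually_ge_atTop (max N1 (max N2 1))), hM0,
    hS.tree a ε' hε'] with j hj hui htree x hx
  have hjN1 : N1 ≤ S.n j := (le_max_left _ _).trans hj
  have hjN2 : N2 ≤ S.n j := (le_max_left _ _).trans ((le_max_right _ _).trans hj)
  have hj1 : 1 ≤ S.n j := (le_max_right _ _).trans ((le_max_right _ _).trans hj)
  have hport := S.port j x hx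
  have hH := Hm_isHermitian (graphOf x.1) s x.2
  have hfr := hS.frame j x hx
  have hF : ∀ i, ∑ v, S.F j x i v ^ 2 = S.n j := S.frame j x hx
  have hHF : ∀ i, ∑ v, ((Hm (graphOf x.1) s x.2).mulVec (S.F j x i) v - E * S.F j x i v) ^ 2 ≤
      (K' / S.n j) ^ 2 * S.n j := hfr.2
  have h1 := hN1 (S.n j) hjN1 _ hH (S.F j x) hF hHF
  have h2 := htail (2 ^ m / 2) (by
    have := le_max_left L0 (max M0 1)
    linarith) (S.n j) _ hH (Noise547.geta E η c) (fun i => (Noise547.geta_pos hη hc _).le)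
    (fun i => Noise547.geta_le hη hc _)
  have h3 : {ξ : Fin k → Fin (S.n j) → ℝ | ¬ Count674.Psi (S.n j) (Count674.starCnt x.1 (colV a m x
        (fun i v => S.F j x i v + Real.sqrt t * ZP s E η c x ξ i v))) ≤
        m * Real.log 2 + k * (m * Real.log 8) +
        (k : ℝ) / 2 * (Real.log (2 * Real.pi * Real.exp 1 * q) + ldet s E η c x) + ε} ⊆
      {ξ | c * η * (S.n j * k * (t + η / c + δ')) < ∑ κ, Qh (Hm (graphOf x.1) s x.2) E η
        (fun v => S.F j x κ v + Real.sqrt t *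
          NoiseLLN849.Zn hH (Noise547.geta E η c) ξ κ v)} ∪
      {ξ | δ' * (S.n j * k) < ∑ κ, ∑ v,
        (if 2 ^ m / 2 < |Real.sqrt t * NoiseLLN849.Zn hH (Noise547.geta E η c) ξ κ v| then
          (Real.sqrt t * NoiseLLN849.Zn hH (Noise547.geta E η c) ξ κ v) ^ 2 else 0)} := by
    intro ξ hξ
    by_contra hcon
    simp only [Set.mem_union, Set.mem_ofPred_eq, not_or, not_lt] at hcon hξ
    obtain ⟨h4, h5⟩ := hcon
    apply hξ
    set Y : Fin (S.n j) → Fin k → ℝ := fun v κ => S.F j x κ v + Real.sqrt t *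
      NoiseLLN849.Zn hH (Noise547.geta E η c) ξ κ v with hY
    have hn0 : (0 : ℝ) ≤ S.n j := by positivity
    have hnb : nBad a ⇑x.1 ≤ nonTree a x.1 := nBad_le a _
    have hnb' : ((nBad a ⇑x.1 : ℕ) : ℝ) ≤ nonTree a x.1 := Nat.cast_le.2 hnb
    have h6 := hN2 (S.n j) hjN2 x.1 (isPairing_of_port hport) (hnb'.trans (htree x hx)) x.2
      (fun v => abs_le.2 (S.om j x hx v)) Y (by
        rw [sum_Qs_eq_Qh hport]
        refine h4.trans ?_
        refine mul_le_mul_of_nonneg_left ?_ (mul_pos hc hη).le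
        refine mul_le_mul_of_nonneg_left ?_ (by positivity)
        linarith) (by
        have h7 : ∀ κ v, (if (2 : ℝ) ^ m < |Y v κ| then Y v κ ^ 2 else 0) ≤
            4 * (if 2 ^ m / 2 < |S.F j x κ v| then S.F j x κ v ^ 2 else 0) +
            4 * (if 2 ^ m / 2 < |Real.sqrt t * NoiseLLN849.Zn hH (Noise547.geta E η c) ξ κ v| then
              (Real.sqrt t * NoiseLLN849.Zn hH (Noise547.geta E η c) ξ κ v) ^ 2 else 0) := by
          intro κ v
          have := tail_add (L := 2 ^ m / 2) (a := S.F j x κ v)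
            (b := Real.sqrt t * NoiseLLN849.Zn hH (Noise547.geta E η c) ξ κ v) (by positivity)
          rw [show (2 : ℝ) * (2 ^ m / 2) = 2 ^ m by ring] at this
          exact this
        have h8 : ∀ κ, ∑ v, (if (2 : ℝ) ^ m / 2 < |S.F j x κ v| then S.F j x κ v ^ 2 else 0) ≤
            δ' * S.n j := by
          intro κ
          refine (Finset.sum_le_sum fun v _ => ?_).trans (hui x hx κ)
          have h9 : M0 ≤ 2 ^ m / 2 := by
            have := (le_max_left M0 1).trans (le_max_right L0 (max M0 1))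
            linarith
          by_cases h10 : (2 : ℝ) ^ m / 2 < |S.F j x κ v|
          · rw [if_pos h10, if_pos (h9.trans_lt h10)]
          · rw [if_neg h10]
            split_ifs <;> positivity
        calc ∑ κ, ∑ v, (if (2 : ℝ) ^ m < |Y v κ| then Y v κ ^ 2 else 0) ≤
            ∑ κ, ∑ v, (4 * (if 2 ^ m / 2 < |S.F j x κ v| then S.F j x κ v ^ 2 else 0) +
            4 * (if 2 ^ m / 2 < |Real.sqrt t * NoiseLLN849.Zn hH (Noise547.geta E η c) ξ κ v| then
              (Real.sqrt t * NoiseLLN849.Zn hH (Noise547.geta E η c) ξ κ v) ^ 2 else 0)) :=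
              Finset.sum_le_sum fun κ _ => Finset.sum_le_sum fun v _ => h7 κ v
          _ = 4 * ∑ κ, ∑ v, (if (2 : ℝ) ^ m / 2 < |S.F j x κ v| then S.F j x κ v ^ 2 else 0) +
            4 * ∑ κ, ∑ v,
            (if 2 ^ m / 2 < |Real.sqrt t * NoiseLLN849.Zn hH (Noise547.geta E η c) ξ κ v| then
              (Real.sqrt t * NoiseLLN849.Zn hH (Noise547.geta E η c) ξ κ v) ^ 2 else 0) := by
              simp only [Finset.sum_add_distrib, ← Finset.mul_sum]
          _ ≤ 4 * ∑ _κ : Fin k, δ' * S.n j + 4 * (δ' * (S.n j * k)) := by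
              refine add_le_add ?_ ?_
              · exact mul_le_mul_of_nonneg_left (Finset.sum_le_sum fun κ _ => h8 κ) (by norm_num)
              · exact mul_le_mul_of_nonneg_left h5 (by norm_num)
          _ = 8 * δ' * (S.n j * k) := by
              rw [Finset.sum_const, Finset.card_univ, Fintype.card_fin, nsmul_eq_mul]; ring
          _ ≤ δ * (S.n j * k) := by
              refine mul_le_mul_of_nonneg_right ?_ (by positivity)
              linarith)
    have e1 : Real.log (Fintype.card (Fin (2 ^ m))) - k * Real.log ((1 / 8 : ℝ) ^ m) =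
        m * Real.log 2 + k * (m * Real.log 8) := by
      rw [Fintype.card_fin, one_div, inv_pow, Real.log_inv, Real.log_pow]
      push_cast
      rw [Real.log_pow]
      ring
    have e2 : logdet (Hp_isHermitian ⇑x.1 (isPairing_of_port hport).1 s x.2) E η c / S.n j =
        ldet s E η c x := by
      rw [logdet_congr (Hp_eq_Hm hport s x.2) _ hH]
      rfl
    rw [e1, e2] at h6
    refine le_trans ?_ (h6.trans (le_of_eq (by ring)))
    apply le_of_eq
    congr 2
  refine (measure_mono h3).trans ((measure_union_le _ _).trans ((add_le_add h1 h2).trans ?_))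
  rw [← ENNReal.ofReal_add hδ'0.le hδ'0.le]
  exact ENNReal.ofReal_le_ofReal (by linarith)

theorem PsiR_inst {S : Type} {d : ℕ} (i1 i2 : Fintype S) (j1 j2 : DecidableEq S)
    (q : St S d → ℝ) : @PsiR S i1 j1 d q = @PsiR S i2 j2 d q := by
  cases Subsingleton.elim i1 i2
  cases Subsingleton.elim j1 j2
  rfl

theorem PsiL_zero {d k : ℕ} [NeZero d] (t : ℝ) (Q : Measure (Conf d (S2 d k))) (a m : ℕ) :
    PsiL t Q a m 0 = PsiR (S := Col d k a m) (d := d) (qstar Q (gcol d k t a m)) := by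
  unfold PsiL
  exact PsiR_inst (S := Col d k a m) _ _ _ _ _

/-- **(U)** in the limit -/
theorem stmt_U : Stmt_U := by
  classical
  intro d k _ S s E K' η c t l Q hη hc ht hS hQ hL hld ε hε
  set ε1 : ℝ := min (ε / (4 * (k + 1))) (1 / 4) with hε1
  have hε10 : 0 < ε1 := by positivity
  have hε1a : ε1 ≤ ε / (4 * (k + 1)) := min_le_left _ _
  have hε1b : ε1 ≤ 1 / 4 := min_le_right _ _
  obtain ⟨a0, m0, hU⟩ := upp_prob S s E K' η c t hη hc ht hS ε1 hε10
  refine ⟨a0, m0, fun a m ha hm => ?_⟩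
  rw [PsiL_zero]
  set qs : St (Col d k a m) d → ℝ := qstar Q (gcol d k t a m) with hqs
  obtain ⟨δ, hδ, hclose⟩ := TypC674.Psi_close (S := Col d k a m) (d := d) qs (ε := ε / 4)
    (by positivity)
  have hL0 : ∀ᶠ j in atTop, ∀ x ∈ S.U j,
      gmP k (S.n j) {ξ | ∃ σ : St (Col d k a m) d, min δ (1 / 4) <
        |(Nat.card {v // Count674.starOf x.1
        (colV a m x (fun i v => S.F j x i v + Real.sqrt t * ZP s E η c x ξ i v)) v = σ} : ℝ)
          / S.n j - qs σ|} ≤ ENNReal.ofReal (min δ (1 / 4)) :=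
    hL a m 0 (min δ (1 / 4)) (by positivity)
  obtain ⟨j, h1, h2, h3⟩ := ((hU a m ha hm).and (hL0.and (hld ε1 hε10))).exists
  obtain ⟨x, hx⟩ := S.nonempty j
  have h1' := h1 x hx
  have h2' := h2 x hx
  have h3' := h3 x hx
  set Yc : (Fin k → Fin (S.n j) → ℝ) → Fin (S.n j) → Col d k a m := fun ξ =>
    colV a m x (fun i v => S.F j x i v + Real.sqrt t * ZP s E η c x ξ i v) with hYc
  -- a good noise
  have hex : ∃ ξ : Fin k → Fin (S.n j) → ℝ,
      Count674.Psi (S.n j) (Count674.starCnt x.1 (Yc ξ)) ≤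
        m * Real.log 2 + k * (m * Real.log 8) +
        (k : ℝ) / 2 * (Real.log (2 * Real.pi * Real.exp 1 * (t + η / c)) + ldet s E η c x) + ε1 ∧
      ∀ σ : St (Col d k a m) d,
        |(Nat.card {v // Count674.starOf x.1 (Yc ξ) v = σ} : ℝ) / S.n j - qs σ| ≤ δ := by
    by_contra hcon
    push Not at hcon
    have h4 : (Set.univ : Set (Fin k → Fin (S.n j) → ℝ)) ⊆
        {ξ | ¬ Count674.Psi (S.n j) (Count674.starCnt x.1 (Yc ξ)) ≤
        m * Real.log 2 + k * (m * Real.log 8) +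
        (k : ℝ) / 2 * (Real.log (2 * Real.pi * Real.exp 1 * (t + η / c)) + ldet s E η c x) + ε1} ∪
        {ξ | ∃ σ : St (Col d k a m) d, min δ (1 / 4) <
          |(Nat.card {v // Count674.starOf x.1 (Yc ξ) v = σ} : ℝ) / S.n j - qs σ|} := by
      intro ξ _
      by_cases h5 : Count674.Psi (S.n j) (Count674.starCnt x.1 (Yc ξ)) ≤
        m * Real.log 2 + k * (m * Real.log 8) +
        (k : ℝ) / 2 * (Real.log (2 * Real.pi * Real.exp 1 * (t + η / c)) + ldet s E η c x) + ε1
      · right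
        obtain ⟨σ, hσ⟩ := hcon ξ h5
        exact ⟨σ, (min_le_left _ _).trans_lt hσ⟩
      · left
        exact h5
    have h5 : (1 : ENNReal) ≤ ENNReal.ofReal ε1 + ENNReal.ofReal (min δ (1 / 4)) := by
      calc (1 : ENNReal) = gmP k (S.n j) Set.univ := (measure_univ).symm
        _ ≤ _ := measure_mono h4
        _ ≤ _ := measure_union_le _ _
        _ ≤ _ := add_le_add h1' h2'
    rw [← ENNReal.ofReal_add hε10.le (by positivity), ← ENNReal.ofReal_one,
      ENNReal.ofReal_le_ofReal_iff (by positivity)] at h5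
    have := min_le_right δ (1 / 4 : ℝ)
    linarith
  obtain ⟨ξ, h4, h5⟩ := hex
  have h6 := hclose (S.n j) (Count674.starCnt x.1 (Yc ξ)) (by
    intro σ
    have := h5 σ
    rw [Nat.card_eq_fintype_card, Fintype.card_subtype] at this
    exact this)
  have h7 := (abs_le.1 h6).1
  have h9 : ldet s E η c x ≤ l + ε1 := by linarith [(abs_le.1 h3').2]
  have hk0 : (0 : ℝ) ≤ (k : ℝ) / 2 := by positivity
  have h10 := mul_le_mul_of_nonneg_left h9 hk0
  have h11 : (k : ℝ) / 2 * ε1 + ε1 ≤ ε / 4 := by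
    have h12 : ((k : ℝ) + 1) * ε1 ≤ ε / 4 := by
      have := mul_le_mul_of_nonneg_left hε1a (by positivity : (0 : ℝ) ≤ (k : ℝ) + 1)
      refine this.trans (le_of_eq ?_)
      field_simp
    have : (0 : ℝ) ≤ (k : ℝ) * ε1 := by positivity
    linarith
  nlinarith

end Crest.Agent.R166.UppLim724
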