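import Crest.Agent.R166.Q0Fin_47
import Crest.Agent.R166.LLNStar_47
import Crest.Agent.R166.UppLim_724

/-!
Row 166 (helper47): the edge Markov property of the limit process, unconditional in the data of an
extracted sequence.
-/

set_option autoImplicit false

noncomputable section

namespace Crest.Agent.R166.MkvAll47

open MeasureTheory Filter Topology
open Crest.Agent.R166.Words955 Crest.Agent.R166.NoiseLim849
open Crest.Agent.R166.PhiAlg879 Crest.Agent.R166.MkvF47

/-- **The field `markov` of `B2.LimProc`.** -/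
theorem markov {d k : ℕ} [NeZero d] {S : Seq980.Seq d k} {s E K' ρ t : ℝ}
    (hX : SpecB1.Extra S s E K') (hρ : 0 < ρ)
    (ht : 0 < t) {η : ℕ → ℝ} (hη : ∀ l, 0 < η l) (hη0 : Tendsto η atTop (𝓝 0))
    {cl : Conf d (NoiseLim849.S1 d k) → ℂ}
    (hgood : ∀ᵐ ξ ∂S.P, Good Prod.fst s (fun l => ze E (η l)) cl ξ)
    {Q : ℕ → Measure (Conf d (NoiseLim849.S2 d k))}
    {Q0 : Measure (Conf d (NoiseLim849.S2 d k))}
    (hS : Q0_955.LawSeq S s E ρ η Q Q0) :
    ∀ (F G : Conf d (NoiseLim849.S2 d k) → ℝ), (∃ C, ∀ h, |F h| ≤ C) →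
      (∃ C, ∀ h, |G h| ≤ C) →
      Measurable[⨆ w : {w : List ℕ // B2.OutW d w},
        MeasurableSpace.comap (fun h => B2.YY t X0 Z0 (B2.wd cross (rotn 1) w.1 h))
          inferInstance] F →
      Measurable[⨆ w : {w : List ℕ // B2.OutW d w},
        MeasurableSpace.comap (fun h => B2.YY t X0 Z0 (B2.wd cross (rotn 1) w.1 (cross h)))
          inferInstance] G →
      Q0[fun h => F h * G h | EdgeM d k t] =ᵐ[Q0]
        fun h => (Q0[F | EdgeM d k t] h) * (Q0[G | EdgeM d k t] h) :=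
  Q0Fin47.markov_of_seq' UppLim724.stmt_U LLNStar47.llnStar hX hρ ht hη hη0 hgood hS

/-- shape check against the field of `B2.LimProc` -/
example {d k : ℕ} [NeZero d] {s E t ρ : ℝ} {P : Measure (Conf d (NoiseLim849.S2 d k))}
    {om : Conf d (NoiseLim849.S2 d k) → ℝ} {cav : Conf d (NoiseLim849.S2 d k) → ℂ}
    (L : B2.LimProc (EnvM d k) (MeasurableSpace.comap pr inferInstance) d k s E t ρ P cross (rotn 1) om cav X0 Z0) :
    ∀ (F G : Conf d (NoiseLim849.S2 d k) → ℝ), (∃ C, ∀ h, |F h| ≤ C) →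
      (∃ C, ∀ h, |G h| ≤ C) →
      Measurable[⨆ w : {w : List ℕ // B2.OutW d w},
        MeasurableSpace.comap (fun h => B2.YY t X0 Z0 (B2.wd cross (rotn 1) w.1 h))
          inferInstance] F →
      Measurable[⨆ w : {w : List ℕ // B2.OutW d w},
        MeasurableSpace.comap (fun h => B2.YY t X0 Z0 (B2.wd cross (rotn 1) w.1 (cross h)))
          inferInstance] G →
      P[fun h => F h * G h | EdgeM d k t] =ᵐ[P]
        fun h => (P[F | EdgeM d k t] h) * (P[G | EdgeM d k t] h) := L.markov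

end Crest.Agent.R166.MkvAll47
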