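import Crest.Agent.R166.PhiLimE_85

/-!
Row 166 (helper85), F4 / B15, part F: transport of the limit cavity field to every law on
configurations whose environment is iid, in the form of `B2.LimProc`.
-/

set_option autoImplicit false

open MeasureTheory ProbabilityTheory Filter Topology

namespace Crest.Agent.R166.PhiLim85

open Crest.ProbabilityR.RandomMatrix
open Crest.Agent.R166 Crest.Agent.R166.B2 Crest.Agent.R166.Words955
open Crest.Agent.R166.TreeG879 (cav treeG omOf tOp US clip omOf_cross omOf_step omOf_rotn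
  continuous_cav im_cav_pos norm_cav_le abs_clip_le clip_eq continuous_clip continuous_omOf)
open Crest.Agent.R166.EnvLaw289 Crest.Agent.R166.Erg424
open Crest.Agent.R166.TreeDefs350 (unif)

variable {d : ℕ} [NeZero d] {X : Type*} [MeasurableSpace X]

/-- clipped environment -/
def clipEnv (z : Conf d (Fin d × (ℝ × X))) : Conf d (Fin d × ℝ) :=
  fun w => ((z w).1, clip (z w).2.1)

/-- σ-algebra of the clipped environment -/
@[reducible] def EnvF (d : ℕ) [NeZero d] (X : Type*) : MeasurableSpace (Conf d (Fin d × (ℝ × X))) :=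
  MeasurableSpace.comap clipEnv inferInstance

/-- clipped potential at the root -/
def omF (z : Conf d (Fin d × (ℝ × X))) : ℝ := clip (z TW.nil).2.1

/-- clipping projection -/
def piF (t : ℝ × X) : ℝ := clip t.1

/-- limit cavity field -/
noncomputable def cavF (s E : ℝ) (η : ℕ → ℝ) (z : Conf d (Fin d × (ℝ × X))) : ℂ :=
  cavL s E η (omOf piF z)

omit [MeasurableSpace X] in
lemma cavF_eq (s E : ℝ) (η : ℕ → ℝ) (z : Conf d (Fin d × (ℝ × X))) :
    cavF s E η z = cavL s E η (omOf id (envP z)) := by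
  unfold cavF
  have : omOf piF z = fun w => clip (omOf id (envP z) w) := rfl
  rw [this, cavL_clip]

omit [MeasurableSpace X] in
lemma cavF_eq' (s E : ℝ) (η : ℕ → ℝ) (z : Conf d (Fin d × (ℝ × X))) :
    cavF s E η z = cavL s E η (omOf Prod.fst z) := cavF_eq s E η z

omit [MeasurableSpace X] in
lemma cav_piF (s : ℝ) (zz : ℂ) (z : Conf d (Fin d × (ℝ × X))) :
    cav s zz (omOf piF z) = cav s zz (omOf id (envP z)) := by
  have : omOf piF z = fun w => clip (omOf id (envP z) w) := rfl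
  rw [this, cav_clip]

lemma measurable_clipEnv : Measurable (clipEnv : Conf d (Fin d × (ℝ × X)) → _) := by
  refine measurable_pi_lambda _ fun w => ?_
  refine (measurable_fst.comp (measurable_pi_apply w)).prodMk ?_
  exact continuous_clip.measurable.comp
    (measurable_fst.comp (measurable_snd.comp (measurable_pi_apply w)))

lemma EnvF_le : EnvF d X ≤ (inferInstance : MeasurableSpace (Conf d (Fin d × (ℝ × X)))) :=
  measurable_clipEnv.comap_le

omit [MeasurableSpace X] in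
lemma meas_EnvF {Y : Type*} [MeasurableSpace Y] {f : Conf d (Fin d × ℝ) → Y} (hf : Measurable f) :
    Measurable[EnvF d X] fun z => f (clipEnv z) :=
  hf.comp (comap_measurable clipEnv)

omit [MeasurableSpace X] in
lemma omF_meas : Measurable[EnvF d X] (omF : Conf d (Fin d × (ℝ × X)) → ℝ) :=
  meas_EnvF measurable_om1

omit [MeasurableSpace X] in
lemma cavF_meas (s E : ℝ) {η : ℕ → ℝ} (hη : ∀ l, 0 < η l) :
    Measurable[EnvF d X] (cavF s E η : Conf d (Fin d × (ℝ × X)) → ℂ) :=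
  meas_EnvF (f := fun ξ => cavL s E η (omOf id ξ))
    ((measurable_cavL s E hη).comp measurable_omOf_id)

omit [MeasurableSpace X] in
lemma cF_meas (s E : ℝ) {η : ℕ → ℝ} (hη : ∀ l, 0 < η l) (l : ℕ) :
    Measurable[EnvF d X] fun z : Conf d (Fin d × (ℝ × X)) => cav s (ze E (η l)) (omOf piF z) :=
  meas_EnvF (f := c1 s E η l) (measurable_c1 s E hη l)

omit [MeasurableSpace X] in
lemma envP_mv (j : ℕ) (z : Conf d (Fin d × (ℝ × X))) :
    B2.mv cross (rotn 1) j (envP z) = envP (B2.mv cross (rotn 1) j z) := by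
  have h1 : ∀ k : ℕ, (rotn (1 : Fin d))^[k] (envP z) = envP ((rotn (1 : Fin d))^[k] z) := by
    intro k
    induction k with
    | zero => rfl
    | succ k ih => rw [Function.iterate_succ_apply', Function.iterate_succ_apply', ih, envP_rotn]
  unfold B2.mv
  rw [h1, envP_cross]

section law
variable {Q : Measure (Conf d (Fin d × (ℝ × X)))} (hlaw : Q.map envP = envLaw d unif)
include hlaw

lemma ae_env {p : Conf d (Fin d × ℝ) → Prop} (h : ∀ᵐ ξ ∂(mu1 d), p ξ) :
    ∀ᵐ z ∂Q, p (envP z) := by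
  have h' : ∀ᵐ ξ ∂(Q.map envP), p ξ := by rw [hlaw]; exact h
  exact ae_of_ae_map measurable_envP.aemeasurable h'

lemma ae_om_le : ∀ᵐ z ∂Q, |(z TW.nil).2.1| ≤ 1 := ae_env hlaw ae_om1_le

lemma ae_omF : ∀ᵐ z ∂Q, omF z = (z TW.nil).2.1 := by
  filter_upwards [ae_om_le hlaw] with z hz
  exact clip_eq hz

/-- **`cav_im`** -/
theorem cavF_im {s E ρ : ℝ} {η : ℕ → ℝ} (hC : CavSpec d s E ρ η) :
    ∀ᵐ z ∂Q, 0 < (cavF s E η z).im := by
  filter_upwards [ae_env hlaw hC.im] with z hz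
  rw [cavF_eq]; exact hz

/-- **`cav_rec`** -/
theorem cavF_rec {s E ρ : ℝ} {η : ℕ → ℝ} (hC : CavSpec d s E ρ η) :
    ∀ᵐ z ∂Q, cavF s E η z * ((E : ℂ) - s * omF z +
      ∑ j ∈ Finset.range (d - 1), cavF s E η (B2.mv cross (rotn 1) (j + 1) z)) = -1 := by
  filter_upwards [ae_env hlaw hC.rec', ae_omF hlaw] with z hz hom
  simp only [cavF_eq]
  simp only [envP_mv] at hz
  rw [hom]
  exact hz

/-- **`cav_lim`** -/
theorem cavF_lim {s E ρ : ℝ} {η : ℕ → ℝ} (hC : CavSpec d s E ρ η) :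
    ∃ (η' : ℕ → ℝ) (c : ℕ → Conf d (Fin d × (ℝ × X)) → ℂ), (∀ i, 0 < η' i) ∧
      Tendsto η' atTop (𝓝 0) ∧ (∀ i, Measurable[EnvF d X] (c i)) ∧
      (∀ i, ∀ᵐ h ∂Q, 0 < (c i h).im ∧ ‖c i h‖ ≤ 1 / η' i ∧
        c i h * ((E : ℂ) + Complex.I * η' i - s * omF h +
          ∑ j ∈ Finset.range (d - 1), c i (B2.mv cross (rotn 1) (j + 1) h)) = -1) ∧
      ∀ᵐ h ∂Q, Tendsto (fun i => c i h) atTop (𝓝 (cavF s E η h)) := by
  refine ⟨η, fun l z => cav s (ze E (η l)) (omOf piF z), hC.pos, hC.lim0,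
    cF_meas s E hC.pos, fun i => ?_, ?_⟩
  · have h1 : ∀ᵐ ξ ∂(mu1 d), c1 s E η i ξ * ((E : ℂ) + Complex.I * η i - s * om1 ξ +
        ∑ j ∈ Finset.range (d - 1), c1 s E η i (B2.mv cross (rotn 1) (j + 1) ξ)) = -1 := by
      filter_upwards [ae_om1_le (d := d)] with ξ hξ
      exact c1_rec s E hC.pos i hξ
    filter_upwards [ae_env hlaw h1, ae_omF hlaw] with z hz hom
    refine ⟨im_cav_pos s (ze_im_pos (hC.pos i)) _, ?_, ?_⟩
    · have := norm_cav_le s (ze_im_pos (E := E) (hC.pos i)) (omOf piF z)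
      rwa [ze_im] at this
    · simp only [cav_piF]
      simp only [envP_mv] at hz
      rw [hom]
      exact hz
  · filter_upwards [ae_env hlaw hC.lim] with z hz
    simp only [cav_piF, cavF_eq]
    exact hz

lemma ae_Gd [IsProbabilityMeasure Q] {s E ρ : ℝ} {η : ℕ → ℝ} (_hC : CavSpec d s E ρ η) :
    ∀ᵐ z ∂Q, Gd cross (rotn 1) d s E omF (cavF s E η) z =
      Gd cross (rotn 1) d s E om1 (fun ξ => cavL s E η (omOf id ξ)) (envP z) := by
  filter_upwards [ae_omF hlaw] with z hom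
  unfold Gd
  simp only [cavF_eq, envP_mv]
  rw [hom]
  rfl

/-- **`G_int`**, **`G_rho`** -/
theorem GF [IsProbabilityMeasure Q] {s E ρ : ℝ} {η : ℕ → ℝ} (hC : CavSpec d s E ρ η) :
    Integrable (fun z => (Gd cross (rotn 1) d s E omF (cavF s E η) z).im) Q ∧
      ∫ z, (Gd cross (rotn 1) d s E omF (cavF s E η) z).im ∂Q = Real.pi * ρ := by
  have hmp : MeasurePreserving (envP : Conf d (Fin d × (ℝ × X)) → _) Q (mu1 d) :=
    ⟨measurable_envP, hlaw⟩
  have hae : (fun z => (Gd cross (rotn 1) d s E omF (cavF s E η) z).im) =ᵐ[Q]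
      (fun ξ => (Gd cross (rotn 1) d s E om1 (fun ξ => cavL s E η (omOf id ξ)) ξ).im) ∘ envP := by
    filter_upwards [ae_Gd hlaw hC] with z hz
    simp only [Function.comp]
    rw [hz]
  constructor
  · exact (hmp.integrable_comp_of_integrable hC.G_int).congr hae.symm
  · rw [integral_congr_ae hae, ← hC.G_rho]
    have h1 := integral_map (μ := Q) measurable_envP.aemeasurable
      (f := fun ξ => (Gd cross (rotn 1) d s E om1 (fun ξ => cavL s E η (omOf id ξ)) ξ).im)
      (by rw [hlaw]; exact hC.G_int.aestronglyMeasurable)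
    rw [hlaw] at h1
    exact h1.symm

omit hlaw in
lemma mp_step (hQ : Inv Q) (i : Fin d) : MeasurePreserving (step i) Q Q := by
  have h1 : MeasurePreserving (cross : Conf d (Fin d × (ℝ × X)) → _) Q Q :=
    ⟨measurable_cross, hQ.1⟩
  have h2 : MeasurePreserving (rotn i : Conf d (Fin d × (ℝ × X)) → _) Q Q :=
    ⟨measurable_rotn measurable_rs i, hQ.2 i⟩
  exact h1.comp h2

omit hlaw in
lemma mp_reroot (hQ : Inv Q) (u : List (Fin d)) : MeasurePreserving (reroot u) Q Q := by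
  induction u with
  | nil => exact MeasurePreserving.id Q
  | cons i u ih => exact ih.comp (mp_step hQ i)

omit hlaw in
lemma ae_reroot (hQ : Inv Q) {p : Conf d (Fin d × (ℝ × X)) → Prop} (h : ∀ᵐ z ∂Q, p z) :
    ∀ᵐ z ∂Q, ∀ u : List (Fin d), p (reroot u z) := by
  rw [ae_all_iff]; intro u
  exact (mp_reroot hQ u).quasiMeasurePreserving.ae h

/-- helper879's `Good` for the unclipped environment -/
theorem good_fst (hQ : Inv Q) {s E ρ : ℝ} {η : ℕ → ℝ} (hC : CavSpec d s E ρ η) :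
    ∀ᵐ z ∂Q, PhiAlg879.Good Prod.fst s (fun l => ze E (η l))
      (fun z => cavL s E η (omOf Prod.fst z)) z := by
  have h1 := ae_reroot hQ (ae_env hlaw hC.lim)
  have h2 := ae_reroot hQ (ae_env hlaw hC.im)
  have h3 := ae_reroot hQ (ae_om_le hlaw)
  filter_upwards [h1, h2, h3] with z a1 a2 a3
  exact ⟨a1, a2, a3⟩

/-- helper879's `Good` for the clipped environment -/
theorem good_clip (hQ : Inv Q) {s E ρ : ℝ} {η : ℕ → ℝ} (hC : CavSpec d s E ρ η) :
    ∀ᵐ z ∂Q, PhiAlg879.Good piF s (fun l => ze E (η l)) (cavF s E η) z := by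
  have h1 := ae_reroot hQ (ae_env hlaw hC.lim)
  have h2 := ae_reroot hQ (cavF_im hlaw hC)
  filter_upwards [h1, h2] with z a1 a2
  refine ⟨fun u => ?_, a2, fun u => abs_clip_le _⟩
  simp only [cav_piF, cavF_eq]
  exact a1 u

/-- the limits of all entries of the tree Green function exist -/
theorem ae_lim_treeG (hQ : Inv Q) {s E ρ : ℝ} {η : ℕ → ℝ} (hC : CavSpec d s E ρ η) :
    ∀ᵐ z ∂Q, ∀ x y : TW d, ∃ L, Tendsto (fun l => treeG s (ze E (η l)) (omOf Prod.fst z) x y)
      atTop (𝓝 L) := by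
  filter_upwards [good_fst hlaw hQ hC] with z hz x y
  exact PhiAlg879.Good.lim_pair (fun l => ze_im_pos (hC.pos l)) (tendsto_ze hC.lim0) hz x y

end law

end Crest.Agent.R166.PhiLim85
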