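import Mathlib

/-!
# Row 166 (helper793), section 40.10, part 1: conditional expectations are continuous in total
variation (ce, TV, ce_close, Prd, prd_close).
-/

set_option autoImplicit false
set_option linter.unusedSectionVars false

noncomputable section

open MeasureTheory ProbabilityTheory Matrix Filter Topology
open scoped ENNReal

namespace Crest.Agent.R166.Lim793

/-! ### 1. elementary facts on conditional expectations of bounded functions -/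

section basic

variable {Ω : Type*} {m m0 : MeasurableSpace Ω} {P : Measure Ω}

lemma int_of_bdd [IsFiniteMeasure P] {f : Ω → ℝ} (hf : AEStronglyMeasurable f P) {C : ℝ}
    (hC : ∀ x, |f x| ≤ C) : Integrable f P :=
  Integrable.of_bound hf C (Eventually.of_forall fun x => by simpa using hC x)

lemma int_mul_condExp [IsProbabilityMeasure P] (hm : m ≤ m0) {s f : Ω → ℝ}
    (hs : StronglyMeasurable[m] s) {C : ℝ} (hsb : ∀ x, |s x| ≤ C) (hf : Integrable f P) :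
    ∫ x, s x * (P[f|m]) x ∂P = ∫ x, s x * f x ∂P := by
  have hsf : Integrable (s * f) P := by
    refine hf.bdd_mul (c := C) (hs.mono hm).aestronglyMeasurable ?_
    exact Eventually.of_forall fun x => by simpa using hsb x
  have h := condExp_mul_of_stronglyMeasurable_left hs hsf hf
  have h2 : ∫ x, (P[s * f|m]) x ∂P = ∫ x, (s * f) x ∂P := integral_condExp hm
  calc ∫ x, s x * (P[f|m]) x ∂P = ∫ x, (P[s * f|m]) x ∂P := by
        refine integral_congr_ae ?_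
        filter_upwards [h] with x hx
        rw [hx]; rfl
    _ = ∫ x, s x * f x ∂P := h2

/-- clipping to `[-1,1]` -/
def cl (x : ℝ) : ℝ := max (-1) (min 1 x)

lemma abs_cl (x : ℝ) : |cl x| ≤ 1 := by
  unfold cl
  rw [abs_le]
  constructor
  · exact le_max_left _ _
  · exact max_le (by norm_num) (min_le_left _ _)

lemma cl_eq {x : ℝ} (h : |x| ≤ 1) : cl x = x := by
  unfold cl
  rw [abs_le] at h
  rw [min_eq_right h.2, max_eq_right h.1]

lemma continuous_cl : Continuous cl := by unfold cl; fun_prop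

lemma measurable_cl : Measurable cl := continuous_cl.measurable

lemma abs_condExp_le_one [IsProbabilityMeasure P] {f : Ω → ℝ} (hf : ∀ x, |f x| ≤ 1) :
    ∀ᵐ x ∂P, |(P[f|m]) x| ≤ 1 := by
  exact ae_bdd_abs_condExp_of_ae_bdd_abs (Eventually.of_forall hf)

/-- the clipped conditional expectation: everywhere bounded by one -/
def ce (P : Measure Ω) (m : MeasurableSpace Ω) (f : Ω → ℝ) : Ω → ℝ := fun x => cl ((P[f|m]) x)

lemma abs_ce (f : Ω → ℝ) (x : Ω) : |ce P m f x| ≤ 1 := abs_cl _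

lemma ce_meas (f : Ω → ℝ) : Measurable[m] (ce P m f) :=
  measurable_cl.comp stronglyMeasurable_condExp.measurable

lemma ce_ae [IsProbabilityMeasure P] {f : Ω → ℝ} (hf : ∀ x, |f x| ≤ 1) :
    ce P m f =ᵐ[P] P[f|m] := by
  filter_upwards [abs_condExp_le_one (P := P) (m := m) hf] with x hx
  exact cl_eq hx

lemma int_mul_ce [IsProbabilityMeasure P] (hm : m ≤ m0) {s f : Ω → ℝ}
    (hs : Measurable[m] s) {C : ℝ} (hsb : ∀ x, |s x| ≤ C) (hf : Measurable f)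
    (hfb : ∀ x, |f x| ≤ 1) :
    ∫ x, s x * ce P m f x ∂P = ∫ x, s x * f x ∂P := by
  rw [← int_mul_condExp hm hs.stronglyMeasurable hsb (int_of_bdd hf.aestronglyMeasurable hfb)]
  refine integral_congr_ae ?_
  filter_upwards [ce_ae (P := P) (m := m) hfb] with x hx
  rw [hx]

end basic

/-! ### 2. conditional expectations are continuous in total variation -/

section tv

variable {Ω : Type*} {m0 : MeasurableSpace Ω}

/-- `TV P Q 𝒟 ε`: total variation distance on the σ-algebra `𝒟` at most `ε` (tested on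
functions bounded by one) -/
def TV (P Q : Measure Ω) (𝒟 : MeasurableSpace Ω) (ε : ℝ) : Prop :=
  ∀ H : Ω → ℝ, Measurable[𝒟] H → (∀ x, |H x| ≤ 1) → |∫ x, H x ∂P - ∫ x, H x ∂Q| ≤ ε

lemma ce_close {P Q : Measure Ω} [IsProbabilityMeasure P] [IsProbabilityMeasure Q]
    {𝒟 𝒞 : MeasurableSpace Ω} (hD : 𝒟 ≤ m0) (hC : 𝒞 ≤ 𝒟) {ε : ℝ} (hTV : TV P Q 𝒟 ε)
    {f g : Ω → ℝ} (hf : Measurable[𝒟] f) (hg : Measurable[𝒟] g) (hfb : ∀ x, |f x| ≤ 1)
    (hgb : ∀ x, |g x| ≤ 1) :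
    ∫ x, |ce P 𝒞 f x - ce Q 𝒞 g x| ∂P ≤ 2 * ε + ∫ x, |f x - g x| ∂Q := by
  have hC0 : 𝒞 ≤ m0 := hC.trans hD
  set u := ce P 𝒞 f with hu
  set v := ce Q 𝒞 g with hv
  have um : Measurable[𝒞] u := ce_meas f
  have vm : Measurable[𝒞] v := ce_meas g
  set s : Ω → ℝ := fun x => if v x ≤ u x then 1 else -1 with hs
  have sm : Measurable[𝒞] s :=
    Measurable.ite (measurableSet_le vm um) measurable_const measurable_const
  have sb : ∀ x, |s x| ≤ 1 := fun x => by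
    simp only [hs]; split_ifs <;> simp
  have ub : ∀ x, |u x| ≤ 1 := abs_ce f
  have vb : ∀ x, |v x| ≤ 1 := abs_ce g
  have hmul : ∀ {a b : ℝ}, |a| ≤ 1 → |b| ≤ 1 → |a * b| ≤ 1 := fun ha hb => by
    rw [abs_mul]; exact mul_le_one₀ ha (abs_nonneg _) hb
  have I1 : ∀ {R : @Measure Ω m0} [IsProbabilityMeasure R] {h : Ω → ℝ}, Measurable[m0] h →
      (∀ x, |h x| ≤ 1) → Integrable h R := fun hh hb =>
    int_of_bdd (hh.aestronglyMeasurable) hb
  have I2 : ∀ {R : @Measure Ω m0} [IsProbabilityMeasure R] {h k : Ω → ℝ}, Measurable[m0] h →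
      Measurable[m0] k → (∀ x, |h x| ≤ 1) → (∀ x, |k x| ≤ 1) →
      Integrable (fun x => h x * k x) R := fun hh hk hb kb =>
    I1 (hh.mul hk) fun x => hmul (hb x) (kb x)
  have sm0 := sm.mono hC0 le_rfl
  have um0 := um.mono hC0 le_rfl
  have vm0 := vm.mono hC0 le_rfl
  have fm0 := hf.mono hD le_rfl
  have gm0 := hg.mono hD le_rfl
  have e0 : ∫ x, |u x - v x| ∂P = ∫ x, s x * u x ∂P - ∫ x, s x * v x ∂P := by
    rw [← integral_sub (I2 sm0 um0 sb ub) (I2 sm0 vm0 sb vb)]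
    refine integral_congr_ae (Eventually.of_forall fun x => ?_)
    simp only [hs]
    split_ifs with h
    · rw [abs_of_nonneg (by linarith)]; ring
    · rw [abs_of_nonpos (by push Not at h; linarith)]; ring
  have e1 : ∫ x, s x * u x ∂P = ∫ x, s x * f x ∂P := int_mul_ce hC0 sm sb fm0 hfb
  have e2 : ∫ x, s x * v x ∂Q = ∫ x, s x * g x ∂Q := int_mul_ce hC0 sm sb gm0 hgb
  have t1 : |∫ x, s x * f x ∂P - ∫ x, s x * f x ∂Q| ≤ ε :=
    hTV _ ((sm.mono hC le_rfl).mul hf) fun x => hmul (sb x) (hfb x)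
  have t2 : |∫ x, s x * v x ∂P - ∫ x, s x * v x ∂Q| ≤ ε :=
    hTV _ ((sm.mono hC le_rfl).mul (vm.mono hC le_rfl)) fun x => hmul (sb x) (vb x)
  have t3 : ∫ x, s x * f x ∂Q - ∫ x, s x * g x ∂Q ≤ ∫ x, |f x - g x| ∂Q := by
    rw [← integral_sub (I2 sm0 fm0 sb hfb) (I2 sm0 gm0 sb hgb)]
    refine integral_mono ((I2 sm0 fm0 sb hfb).sub (I2 sm0 gm0 sb hgb))
      ((I1 fm0 hfb).sub (I1 gm0 hgb)).abs fun x => ?_
    simp only
    calc s x * f x - s x * g x = s x * (f x - g x) := by ring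
      _ ≤ |s x * (f x - g x)| := le_abs_self _
      _ = |s x| * |f x - g x| := abs_mul _ _
      _ ≤ 1 * |f x - g x| := mul_le_mul_of_nonneg_right (sb x) (abs_nonneg _)
      _ = |f x - g x| := one_mul _
  rw [e0, e1]
  have := abs_le.1 t1
  have := abs_le.1 t2
  linarith

/-- the defect functional of conditional independence -/
def Prd (P : Measure Ω) (𝒞 : MeasurableSpace Ω) (f g G : Ω → ℝ) : ℝ :=
  ∫ x, ce P 𝒞 f x * ce P 𝒞 g x * G x ∂P

theorem prd_close {P Q : Measure Ω} [IsProbabilityMeasure P] [IsProbabilityMeasure Q]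
    {𝒟 𝒞 : MeasurableSpace Ω} (hD : 𝒟 ≤ m0) (hC : 𝒞 ≤ 𝒟) {ε : ℝ} (hTV : TV P Q 𝒟 ε)
    {f f' g g' G : Ω → ℝ} (hf : Measurable[𝒟] f) (hf' : Measurable[𝒟] f')
    (hg : Measurable[𝒟] g) (hg' : Measurable[𝒟] g') (hG : Measurable[𝒞] G)
    (hfb : ∀ x, |f x| ≤ 1) (hfb' : ∀ x, |f' x| ≤ 1) (hgb : ∀ x, |g x| ≤ 1)
    (hgb' : ∀ x, |g' x| ≤ 1) (hGb : ∀ x, |G x| ≤ 1) :
    |Prd P 𝒞 f g G - Prd Q 𝒞 f' g' G| ≤
      5 * ε + ∫ x, |f x - f' x| ∂Q + ∫ x, |g x - g' x| ∂Q := by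
  have hC0 : 𝒞 ≤ m0 := hC.trans hD
  have hmul : ∀ {a b : ℝ}, |a| ≤ 1 → |b| ≤ 1 → |a * b| ≤ 1 := fun ha hb => by
    rw [abs_mul]; exact mul_le_one₀ ha (abs_nonneg _) hb
  have cm : ∀ (R : @Measure Ω m0) (h : Ω → ℝ), Measurable[m0] (ce R 𝒞 h) := fun R h =>
    (ce_meas (P := R) h).mono hC0 le_rfl
  have I1 : ∀ {h : Ω → ℝ}, Measurable[m0] h → (∀ x, |h x| ≤ 1) → Integrable h P := fun hh hb =>
    int_of_bdd hh.aestronglyMeasurable hb
  have Gm0 := hG.mono hC0 le_rfl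
  have a1 := ce_close hD hC hTV hf hf' hfb hfb'
  have a2 := ce_close hD hC hTV hg hg' hgb hgb'
  have t1 : |∫ x, ce Q 𝒞 f' x * ce Q 𝒞 g' x * G x ∂P -
      ∫ x, ce Q 𝒞 f' x * ce Q 𝒞 g' x * G x ∂Q| ≤ ε := by
    refine hTV _ ?_ fun x => hmul (hmul (abs_ce _ _) (abs_ce _ _)) (hGb x)
    exact (((ce_meas f').mul (ce_meas g')).mul hG).mono hC le_rfl
  have iA : Integrable (fun x => ce P 𝒞 f x * ce P 𝒞 g x * G x) P :=
    I1 (((cm _ _).mul (cm _ _)).mul Gm0) fun x => hmul (hmul (abs_ce _ _) (abs_ce _ _)) (hGb x)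
  have iB : Integrable (fun x => ce Q 𝒞 f' x * ce Q 𝒞 g' x * G x) P :=
    I1 (((cm _ _).mul (cm _ _)).mul Gm0) fun x => hmul (hmul (abs_ce _ _) (abs_ce _ _)) (hGb x)
  have iF : Integrable (fun x => |ce P 𝒞 f x - ce Q 𝒞 f' x|) P :=
    ((I1 (cm _ _) fun x => abs_ce _ _).sub (I1 (cm _ _) fun x => abs_ce _ _)).abs
  have iH : Integrable (fun x => |ce P 𝒞 g x - ce Q 𝒞 g' x|) P :=
    ((I1 (cm _ _) fun x => abs_ce _ _).sub (I1 (cm _ _) fun x => abs_ce _ _)).abs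
  have t2 : |∫ x, ce P 𝒞 f x * ce P 𝒞 g x * G x ∂P -
      ∫ x, ce Q 𝒞 f' x * ce Q 𝒞 g' x * G x ∂P| ≤
      ∫ x, |ce P 𝒞 f x - ce Q 𝒞 f' x| ∂P + ∫ x, |ce P 𝒞 g x - ce Q 𝒞 g' x| ∂P := by
    rw [← integral_sub iA iB, ← integral_add iF iH]
    refine (abs_integral_le_integral_abs).trans (integral_mono (iA.sub iB).abs (iF.add iH) ?_)
    intro x
    simp only
    have e : ce P 𝒞 f x * ce P 𝒞 g x * G x - ce Q 𝒞 f' x * ce Q 𝒞 g' x * G x =
        (ce P 𝒞 f x - ce Q 𝒞 f' x) * (ce P 𝒞 g x * G x) +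
          (ce P 𝒞 g x - ce Q 𝒞 g' x) * (ce Q 𝒞 f' x * G x) := by ring
    rw [e]
    refine (abs_add_le _ _).trans (add_le_add ?_ ?_)
    · rw [abs_mul]
      exact mul_le_of_le_one_right (abs_nonneg _) (hmul (abs_ce _ _) (hGb x))
    · rw [abs_mul]
      exact mul_le_of_le_one_right (abs_nonneg _) (hmul (abs_ce _ _) (hGb x))
  unfold Prd
  have := abs_le.1 t1
  have := abs_le.1 t2
  rw [abs_le]
  constructor <;> linarith

end tv

end Crest.Agent.R166.Lim793
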