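import Mathlib

/-!
# Row 166 (helper793): characters determine, Gaussian densities

* `ext_char`   : finite measures on `ι → ℝ` with the same characters `exp (i b·z)` are equal
* `uniq`       : a signed density orthogonal to all characters of `V` is orthogonal to all bounded
                 functions of `V`
* `gd S`       : centred Gaussian density with covariance `S` (positive definite),
  `int_gd` (characteristic function), `int_gd_one`, `integrable_gd`, `integral_comp_mulVec`
  (linear change of variables), `exists_factor` (`S = A Aᵀ`)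
-/

set_option autoImplicit false
set_option linter.unusedSectionVars false
set_option linter.unusedVariables false

noncomputable section

open MeasureTheory ProbabilityTheory Matrix Filter Topology
open scoped ENNReal MatrixOrder Matrix.Norms.L2Operator

namespace Crest.Agent.R166.Lim793

section uniq

variable {Ω : Type*} {m0 : MeasurableSpace Ω} {ι : Type*} [Fintype ι]

/-- finite measures on `ι → ℝ` with the same characteristic function are equal -/
theorem ext_char {μ₁ μ₂ : Measure (ι → ℝ)} [IsFiniteMeasure μ₁] [IsFiniteMeasure μ₂]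
    (h : ∀ b : ι → ℝ, ∫ z, Complex.exp ((b ⬝ᵥ z : ℝ) * Complex.I) ∂μ₁ =
      ∫ z, Complex.exp ((b ⬝ᵥ z : ℝ) * Complex.I) ∂μ₂) : μ₁ = μ₂ := by
  classical
  apply Measure.ext_of_charFunDual
  ext L
  set b : ι → ℝ := fun i => L (Pi.single i 1) with hb
  have hL : ∀ x : ι → ℝ, L x = b ⬝ᵥ x := by
    intro x
    have : x = ∑ i, x i • (Pi.single i (1:ℝ) : ι → ℝ) := by
      ext j
      simp [Finset.sum_apply, Pi.single_apply]
    conv_lhs => rw [this]
    rw [map_sum]
    simp only [map_smul, smul_eq_mul, dotProduct, hb]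
    exact Finset.sum_congr rfl fun i _ => mul_comm _ _
  rw [charFunDual_apply, charFunDual_apply]
  simp only [hL]
  exact h b

lemma integral_withDensity_ofReal (μ : Measure Ω) {w : Ω → ℝ} (hw : Integrable w μ) (hm : Measurable w)
    (g : Ω → ℂ) :
    ∫ a, g a ∂(μ.withDensity fun a => ENNReal.ofReal (w a)) = ∫ a, (max (w a) 0 : ℝ) * g a ∂μ := by
  have h := integral_withDensity_eq_integral_smul (μ := μ) (f := fun a => Real.toNNReal (w a))
    hm.real_toNNReal g
  have e : (fun a => ENNReal.ofReal (w a)) = fun a => ((Real.toNNReal (w a) : NNReal) : ℝ≥0∞) := rfl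
  rw [e, h]
  refine integral_congr_ae (Eventually.of_forall fun a => ?_)
  simp only [NNReal.smul_def, Real.coe_toNNReal', Complex.real_smul]

lemma integral_withDensity_ofReal' (μ : Measure Ω) {w : Ω → ℝ} (hw : Integrable w μ) (hm : Measurable w)
    (g : Ω → ℝ) :
    ∫ a, g a ∂(μ.withDensity fun a => ENNReal.ofReal (w a)) = ∫ a, (max (w a) 0 : ℝ) * g a ∂μ := by
  have h := integral_withDensity_eq_integral_smul (μ := μ) (f := fun a => Real.toNNReal (w a))
    hm.real_toNNReal g
  have e : (fun a => ENNReal.ofReal (w a)) = fun a => ((Real.toNNReal (w a) : NNReal) : ℝ≥0∞) := rfl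
  rw [e, h]
  refine integral_congr_ae (Eventually.of_forall fun a => ?_)
  simp only [NNReal.smul_def, Real.coe_toNNReal', smul_eq_mul]

/-- a finite signed density tested against all characters of `V` and orthogonal to all of them is
orthogonal to every bounded function of `V` -/
theorem uniq (μ : Measure Ω) [IsFiniteMeasure μ] {V : Ω → ι → ℝ} (hV : Measurable V)
    {w : Ω → ℝ} (hw : Integrable w μ) (hm : Measurable w)
    (h : ∀ b : ι → ℝ, ∫ a, (w a : ℂ) * Complex.exp ((b ⬝ᵥ V a : ℝ) * Complex.I) ∂μ = 0)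
    {f : (ι → ℝ) → ℝ} (hf : Measurable f) {C : ℝ} (hC : ∀ y, |f y| ≤ C) :
    ∫ a, w a * f (V a) ∂μ = 0 := by
  classical
  set μ₁ := μ.withDensity (fun a => ENNReal.ofReal (w a)) with hμ₁
  set μ₂ := μ.withDensity (fun a => ENNReal.ofReal (-w a)) with hμ₂
  have f1 : IsFiniteMeasure μ₁ := isFiniteMeasure_withDensity_ofReal hw.2
  have f2 : IsFiniteMeasure μ₂ := isFiniteMeasure_withDensity_ofReal hw.neg.2
  have key : μ₁.map V = μ₂.map V := by
    apply ext_char
    intro b
    have hcm : Measurable fun a => Complex.exp ((b ⬝ᵥ V a : ℝ) * Complex.I) := by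
      have : Measurable fun a => b ⬝ᵥ V a := by
        simp only [dotProduct]
        exact Finset.measurable_sum _ fun i _ => ((measurable_pi_apply i).comp hV).const_mul _
      fun_prop
    have hbm : Measurable fun z : ι → ℝ => Complex.exp ((b ⬝ᵥ z : ℝ) * Complex.I) := by
      have : Measurable fun z : ι → ℝ => b ⬝ᵥ z := by
        simp only [dotProduct]
        exact Finset.measurable_sum _ fun i _ => (measurable_pi_apply i).const_mul _
      fun_prop
    rw [integral_map hV.aemeasurable hbm.aestronglyMeasurable,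
      integral_map hV.aemeasurable hbm.aestronglyMeasurable]
    rw [hμ₁, hμ₂, integral_withDensity_ofReal μ hw hm,
      integral_withDensity_ofReal μ (w := fun a => - w a) hw.neg hm.neg]
    have hb1 : ∀ a, ‖Complex.exp ((b ⬝ᵥ V a : ℝ) * Complex.I)‖ ≤ 1 := fun a =>
      (Complex.norm_exp_ofReal_mul_I _).le
    have i1 : Integrable (fun a => ((max (w a) 0 : ℝ) : ℂ) *
        Complex.exp ((b ⬝ᵥ V a : ℝ) * Complex.I)) μ := by
      refine Integrable.mul_bdd (c := 1) ?_ hcm.aestronglyMeasurable (Eventually.of_forall hb1)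
      exact (hw.pos_part).ofReal
    have i2 : Integrable (fun a => ((max (-w a) 0 : ℝ) : ℂ) *
        Complex.exp ((b ⬝ᵥ V a : ℝ) * Complex.I)) μ := by
      refine Integrable.mul_bdd (c := 1) ?_ hcm.aestronglyMeasurable (Eventually.of_forall hb1)
      exact (hw.neg.pos_part).ofReal
    rw [← sub_eq_zero, ← integral_sub i1 i2, ← h b]
    refine integral_congr_ae (Eventually.of_forall fun a => ?_)
    simp only
    rw [← sub_mul, ← Complex.ofReal_sub]
    congr 2
    rcases le_total 0 (w a) with h0 | h0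
    · rw [max_eq_left h0, max_eq_right (by linarith)]; ring
    · rw [max_eq_right h0, max_eq_left (by linarith)]; ring
  have k2 : ∫ y, f y ∂(μ₁.map V) = ∫ y, f y ∂(μ₂.map V) := by rw [key]
  rw [integral_map hV.aemeasurable hf.aestronglyMeasurable,
    integral_map hV.aemeasurable hf.aestronglyMeasurable, hμ₁, hμ₂,
    integral_withDensity_ofReal' μ hw hm,
      integral_withDensity_ofReal' μ (w := fun a => - w a) hw.neg hm.neg] at k2
  have i1 : Integrable (fun a => max (w a) 0 * f (V a)) μ :=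
    Integrable.mul_bdd (c := C) hw.pos_part (hf.comp hV).aestronglyMeasurable
      (Eventually.of_forall fun a => by simpa using hC (V a))
  have i2 : Integrable (fun a => max (-w a) 0 * f (V a)) μ :=
    Integrable.mul_bdd (c := C) hw.neg.pos_part (hf.comp hV).aestronglyMeasurable
      (Eventually.of_forall fun a => by simpa using hC (V a))
  rw [← sub_eq_zero, ← integral_sub i1 i2] at k2
  rw [← k2]
  refine integral_congr_ae (Eventually.of_forall fun a => ?_)
  simp only
  rw [← sub_mul]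
  congr 1
  rcases le_total 0 (w a) with h0 | h0
  · rw [max_eq_left h0, max_eq_right (by linarith)]; ring
  · rw [max_eq_right h0, max_eq_left (by linarith)]; ring

end uniq

section density

variable {ι : Type*} [Fintype ι] [DecidableEq ι]

/-- the standard Gaussian density on `ι → ℝ` -/
def sd (y : ι → ℝ) : ℝ := ∏ i, gaussianPDFReal 0 1 (y i)

/-- the centred Gaussian density with covariance `S` -/
def gd (S : Matrix ι ι ℝ) (z : ι → ℝ) : ℝ :=
  (√(2 * Real.pi))⁻¹ ^ (Fintype.card ι) * (√ S.det)⁻¹ * Real.exp (-(z ⬝ᵥ S⁻¹ *ᵥ z) / 2)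

lemma sd_eq (y : ι → ℝ) :
    sd y = (√(2 * Real.pi))⁻¹ ^ (Fintype.card ι) * Real.exp (-(y ⬝ᵥ y) / 2) := by
  unfold sd
  simp only [gaussianPDFReal, Finset.prod_mul_distrib, Finset.prod_const, Finset.card_univ,
    ← Real.exp_sum, NNReal.coe_one, mul_one, sub_zero, dotProduct]
  congr 2
  rw [← Finset.sum_neg_distrib, Finset.sum_div]
  exact Finset.sum_congr rfl fun i _ => by ring

lemma int_sd (c : ι → ℝ) :
    ∫ y : ι → ℝ, (sd y : ℂ) * Complex.exp ((c ⬝ᵥ y : ℝ) * Complex.I) =
      Complex.exp (-((c ⬝ᵥ c : ℝ) : ℂ) / 2) := by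
  have h1 : ∀ y : ι → ℝ, (sd y : ℂ) * Complex.exp ((c ⬝ᵥ y : ℝ) * Complex.I) =
      ∏ i, ((gaussianPDFReal 0 1 (y i) : ℂ) * Complex.exp (c i * y i * Complex.I)) := by
    intro y
    rw [Finset.prod_mul_distrib, ← Complex.exp_sum]
    unfold sd
    push_cast
    congr 2
    simp only [dotProduct]
    push_cast
    rw [Finset.sum_mul]
  simp only [h1]
  rw [integral_fintype_prod_volume_eq_prod
    (fun i (y : ℝ) => (gaussianPDFReal 0 1 y : ℂ) * Complex.exp (c i * y * Complex.I))]
  have h2 : ∀ t : ℝ, ∫ y : ℝ, (gaussianPDFReal 0 1 y : ℂ) * Complex.exp (t * y * Complex.I) =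
      Complex.exp (-(t : ℂ) ^ 2 / 2) := by
    intro t
    have h3 := charFun_gaussianReal (μ := 0) (v := 1) t
    rw [charFun_apply_real, integral_gaussianReal_eq_integral_smul one_ne_zero] at h3
    simp only [Complex.real_smul] at h3
    rw [h3]
    congr 1
    simp
    ring
  simp only [h2]
  rw [← Complex.exp_sum]
  congr 1
  simp only [dotProduct]
  push_cast
  rw [← Finset.sum_neg_distrib, Finset.sum_div]
  exact Finset.sum_congr rfl fun i _ => by ring

/-- linear change of variables -/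
lemma integral_comp_mulVec {A : Matrix ι ι ℝ} (hA : A.det ≠ 0) (F : (ι → ℝ) → ℂ) :
    ∫ y, F (A *ᵥ y) = ((|A.det|⁻¹ : ℝ) : ℂ) * ∫ z, F z := by
  have h := Real.map_matrix_volume_pi_eq_smul_volume_pi hA
  have e : Function.Injective (toLin' A) := by
    rw [toLin'_apply']
    exact Matrix.mulVec_injective_iff_isUnit.2 ((Matrix.isUnit_iff_isUnit_det A).2 hA.isUnit)
  have me : MeasurableEmbedding (toLin' A) :=
    (LinearMap.continuous_of_finiteDimensional (toLin' A)).measurableEmbedding e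
  have h2 : ∫ z, F z ∂(Measure.map (toLin' A) volume) = ∫ y, F (toLin' A y) :=
    me.integral_map F
  rw [h, integral_smul_measure] at h2
  rw [abs_inv, ENNReal.toReal_ofReal (by positivity)] at h2
  simp only [toLin'_apply, Complex.real_smul] at h2
  rw [← h2]

lemma exists_factor {S : Matrix ι ι ℝ} (hS : S.PosDef) :
    ∃ A : Matrix ι ι ℝ, A.det ≠ 0 ∧ S = A * Aᵀ := by
  obtain ⟨B, hB⟩ := CStarAlgebra.nonneg_iff_eq_star_mul_self.mp hS.posSemidef.nonneg
  refine ⟨Bᵀ, ?_, ?_⟩
  · intro h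
    have h2 := hS.det_pos
    rw [hB, det_mul, star_eq_conjTranspose, conjTranspose_eq_transpose_of_trivial, h, zero_mul] at h2
    exact lt_irrefl _ h2
  · rw [transpose_transpose, hB, star_eq_conjTranspose, conjTranspose_eq_transpose_of_trivial]

lemma gd_mulVec {S A : Matrix ι ι ℝ} (hA : A.det ≠ 0) (hS : S = A * Aᵀ) (y : ι → ℝ) :
    gd S (A *ᵥ y) = |A.det|⁻¹ * sd y := by
  have h1 : S.det = A.det ^ 2 := by rw [hS, det_mul, det_transpose, sq]
  have hAu : IsUnit A.det := hA.isUnit
  have h2 : (A *ᵥ y) ⬝ᵥ (S⁻¹ *ᵥ (A *ᵥ y)) = y ⬝ᵥ y := by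
    have h3 : S⁻¹ *ᵥ (A *ᵥ y) = (Aᵀ)⁻¹ *ᵥ y := by
      rw [hS, Matrix.mul_inv_rev, Matrix.mulVec_mulVec, Matrix.mul_assoc,
        Matrix.nonsing_inv_mul A hAu, Matrix.mul_one]
    rw [h3, ← Matrix.vecMul_transpose, ← Matrix.dotProduct_mulVec, Matrix.mulVec_mulVec,
      Matrix.mul_nonsing_inv _ (by rwa [det_transpose]), Matrix.one_mulVec]
  unfold gd
  rw [sd_eq, h1, Real.sqrt_sq_eq_abs, h2]
  ring

theorem int_gd {S : Matrix ι ι ℝ} (hS : S.PosDef) (b : ι → ℝ) :
    ∫ z : ι → ℝ, (gd S z : ℂ) * Complex.exp ((b ⬝ᵥ z : ℝ) * Complex.I) =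
      Complex.exp (-((b ⬝ᵥ S *ᵥ b : ℝ) : ℂ) / 2) := by
  obtain ⟨A, hA, hSA⟩ := exists_factor hS
  have h := integral_comp_mulVec hA
    (fun z => (gd S z : ℂ) * Complex.exp ((b ⬝ᵥ z : ℝ) * Complex.I))
  have hne : ((|A.det|⁻¹ : ℝ) : ℂ) ≠ 0 := by
    rw [Complex.ofReal_ne_zero]; positivity
  have h2 : ∫ y, (gd S (A *ᵥ y) : ℂ) * Complex.exp ((b ⬝ᵥ (A *ᵥ y) : ℝ) * Complex.I) =
      ((|A.det|⁻¹ : ℝ) : ℂ) * Complex.exp (-((b ⬝ᵥ S *ᵥ b : ℝ) : ℂ) / 2) := by
    have h3 : ∀ y : ι → ℝ, (gd S (A *ᵥ y) : ℂ) * Complex.exp ((b ⬝ᵥ (A *ᵥ y) : ℝ) * Complex.I) =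
        ((|A.det|⁻¹ : ℝ) : ℂ) *
          ((sd y : ℂ) * Complex.exp (((Aᵀ *ᵥ b) ⬝ᵥ y : ℝ) * Complex.I)) := by
      intro y
      rw [gd_mulVec hA hSA, Matrix.dotProduct_mulVec, ← Matrix.mulVec_transpose]
      push_cast
      ring
    simp only [h3]
    rw [integral_const_mul, int_sd]
    congr 3
    rw [dotProduct_comm, Matrix.dotProduct_mulVec, ← Matrix.mulVec_transpose,
      transpose_transpose, Matrix.mulVec_mulVec, ← hSA, dotProduct_comm]
  rw [h2] at h
  exact (mul_left_cancel₀ hne h).symm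

lemma gd_nonneg (S : Matrix ι ι ℝ) (z : ι → ℝ) : 0 ≤ gd S z := by unfold gd; positivity

lemma gd_continuous (S : Matrix ι ι ℝ) : Continuous (gd S) := by
  unfold gd
  have : Continuous fun z : ι → ℝ => z ⬝ᵥ S⁻¹ *ᵥ z := by
    simp only [dotProduct, Matrix.mulVec]
    fun_prop
  fun_prop

theorem int_gd_one {S : Matrix ι ι ℝ} (hS : S.PosDef) : ∫ z : ι → ℝ, gd S z = 1 := by
  have h := int_gd hS 0
  simp only [zero_dotProduct, Complex.ofReal_zero, zero_mul, Complex.exp_zero, mul_one, neg_zero,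
    zero_div] at h
  have h2 : ((∫ z : ι → ℝ, gd S z : ℝ) : ℂ) = ∫ z : ι → ℝ, (gd S z : ℂ) := integral_ofReal.symm
  rw [h] at h2
  exact_mod_cast h2

theorem integrable_gd {S : Matrix ι ι ℝ} (hS : S.PosDef) : Integrable (gd S) := by
  by_contra h
  have := int_gd_one hS
  rw [integral_undef h] at this
  exact zero_ne_one this

end density
end Crest.Agent.R166.Lim793
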