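import Mathlib
import Crest.Agent.R166.GDens_793
import Crest.Agent.R166.CITV_793

/-!
# Row 166 (helper793), section 40.10, part 2: Gaussian noise given a base variable; joint density,
convergence in total variation, regression.
-/

set_option autoImplicit false
set_option linter.unusedSectionVars false
set_option linter.unusedVariables false

noncomputable section

open MeasureTheory ProbabilityTheory Matrix Filter Topology
open scoped ENNReal

namespace Crest.Agent.R166.Lim793

/-! ### 5. joint law -/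

section joint

variable {Ω : Type*} {m0 : MeasurableSpace Ω} {B : Type*} [MeasurableSpace B]
variable {ι : Type*} [Fintype ι] [DecidableEq ι]

/-- measurability of a matrix valued function, entrywise -/
def MM {κ κ' : Type*} (S : B → Matrix κ κ' ℝ) : Prop := ∀ i j, Measurable fun y => S y i j

lemma MM.det {S : B → Matrix ι ι ℝ} (hS : MM S) : Measurable fun y => (S y).det := by
  simp only [Matrix.det_apply]
  refine Finset.measurable_sum _ fun σ _ => ?_
  refine Measurable.const_smul ?_ _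
  exact Finset.measurable_prod _ fun i _ => hS _ _

lemma MM.updateRow {S : B → Matrix ι ι ℝ} (hS : MM S) (i : ι) (v : ι → ℝ) :
    MM fun y => (S y).updateRow i v := by
  intro k l
  simp only [Matrix.updateRow_apply]
  split_ifs
  · exact measurable_const
  · exact hS _ _

lemma MM.inv {S : B → Matrix ι ι ℝ} (hS : MM S) : MM fun y => (S y)⁻¹ := by
  intro i j
  simp only [Matrix.inv_def, Matrix.smul_apply, Ring.inverse_eq_inv', smul_eq_mul]
  refine hS.det.inv.mul ?_
  simp only [Matrix.adjugate_apply]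
  exact (hS.updateRow _ _).det

lemma MM.quad {κ κ' : Type*} [Fintype κ] [Fintype κ'] {S : B → Matrix κ κ' ℝ} (hS : MM S)
    {a : B → κ → ℝ} {b : B → κ' → ℝ}
    (ha : ∀ i, Measurable fun y => a y i) (hb : ∀ i, Measurable fun y => b y i) :
    Measurable fun y => a y ⬝ᵥ S y *ᵥ b y := by
  simp only [dotProduct, Matrix.mulVec]
  exact Finset.measurable_sum _ fun i _ => (ha i).mul
    (Finset.measurable_sum _ fun j _ => (hS i j).mul (hb j))

lemma MM.mul {κ κ' κ'' : Type*} [Fintype κ'] {S : B → Matrix κ κ' ℝ} {T : B → Matrix κ' κ'' ℝ}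
    (hS : MM S) (hT : MM T) : MM fun y => S y * T y := by
  intro i j
  simp only [Matrix.mul_apply]
  exact Finset.measurable_sum _ fun k _ => (hS i k).mul (hT k j)

lemma measurable_gd {S : B → Matrix ι ι ℝ} (hS : MM S) :
    Measurable fun p : B × (ι → ℝ) => gd (S p.1) p.2 := by
  unfold gd
  have h1 : Measurable fun p : B × (ι → ℝ) => (S p.1).det := hS.det.comp measurable_fst
  have h2 : Measurable fun p : B × (ι → ℝ) => p.2 ⬝ᵥ (S p.1)⁻¹ *ᵥ p.2 := by
    have h3 : MM (fun p : B × (ι → ℝ) => (S p.1)⁻¹) := fun i j => (hS.inv i j).comp measurable_fst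
    exact h3.quad (fun i => (measurable_pi_apply i).comp measurable_snd)
      (fun i => (measurable_pi_apply i).comp measurable_snd)
  exact ((h1.sqrt.inv).const_mul _).mul ((h2.neg.div_const 2).exp)

lemma lint_gd {S : Matrix ι ι ℝ} (hS : S.PosDef) : ∫⁻ z, ENNReal.ofReal (gd S z) = 1 := by
  rw [← ofReal_integral_eq_lintegral_ofReal (integrable_gd hS)
    (Eventually.of_forall (gd_nonneg S)), int_gd_one hS, ENNReal.ofReal_one]

/-- the joint law of base and Gaussian vector -/
def GM (Q : Measure B) (S : B → Matrix ι ι ℝ) : Measure (B × (ι → ℝ)) :=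
  (Q.prod volume).withDensity fun p => ENNReal.ofReal (gd (S p.1) p.2)

variable {Q : Measure B} [IsProbabilityMeasure Q] {S : B → Matrix ι ι ℝ}

lemma integrable_gd_prod (hS : MM S) (hpd : ∀ y, (S y).PosDef) :
    Integrable (fun p : B × (ι → ℝ) => gd (S p.1) p.2) (Q.prod volume) := by
  refine ⟨(measurable_gd hS).aestronglyMeasurable, ?_⟩
  rw [hasFiniteIntegral_iff_ofReal (Eventually.of_forall fun p => gd_nonneg _ _),
    lintegral_prod _ ((measurable_gd hS).ennreal_ofReal.aemeasurable)]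
  simp [lint_gd (hpd _)]

lemma integral_gd_prod (hS : MM S) (hpd : ∀ y, (S y).PosDef) :
    ∫ p : B × (ι → ℝ), gd (S p.1) p.2 ∂(Q.prod volume) = 1 := by
  rw [integral_prod _ (integrable_gd_prod hS hpd)]
  simp [int_gd_one (hpd _)]

lemma GM_prob (hS : MM S) (hpd : ∀ y, (S y).PosDef) : IsProbabilityMeasure (GM Q S) := by
  refine ⟨?_⟩
  rw [GM, withDensity_apply _ MeasurableSet.univ, Measure.restrict_univ,
    lintegral_prod _ ((measurable_gd hS).ennreal_ofReal.aemeasurable)]
  simp [lint_gd (hpd _)]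

lemma int_GM (hS : MM S) (hpd : ∀ y, (S y).PosDef) (h : B × (ι → ℝ) → ℂ) :
    ∫ p, h p ∂(GM Q S) = ∫ p : B × (ι → ℝ), (gd (S p.1) p.2 : ℂ) * h p ∂(Q.prod volume) := by
  rw [GM, integral_withDensity_ofReal _ (integrable_gd_prod hS hpd) (measurable_gd hS)]
  simp only [max_eq_left (gd_nonneg _ _)]

lemma int_GM' (hS : MM S) (hpd : ∀ y, (S y).PosDef) (h : B × (ι → ℝ) → ℝ) :
    ∫ p, h p ∂(GM Q S) = ∫ p : B × (ι → ℝ), gd (S p.1) p.2 * h p ∂(Q.prod volume) := by
  rw [GM, integral_withDensity_ofReal' _ (integrable_gd_prod hS hpd) (measurable_gd hS)]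
  simp only [max_eq_left (gd_nonneg _ _)]

/-- characters of the joint law, with coefficients depending on the base point -/
lemma int_GM_char (hS : MM S) (hpd : ∀ y, (S y).PosDef) {g : B → ℂ} (hg : Measurable g)
    {C : ℝ} (hgb : ∀ y, ‖g y‖ ≤ C) {b : B → ι → ℝ} (hb : ∀ i, Measurable fun y => b y i) :
    ∫ p, g p.1 * Complex.exp ((b p.1 ⬝ᵥ p.2 : ℝ) * Complex.I) ∂(GM Q S) =
      ∫ y, g y * Complex.exp (-((b y ⬝ᵥ S y *ᵥ b y : ℝ) : ℂ) / 2) ∂Q := by
  rw [int_GM hS hpd]
  have hm : Measurable fun p : B × (ι → ℝ) =>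
      g p.1 * Complex.exp ((b p.1 ⬝ᵥ p.2 : ℝ) * Complex.I) := by
    have h1 : Measurable fun p : B × (ι → ℝ) => b p.1 ⬝ᵥ p.2 := by
      simp only [dotProduct]
      exact Finset.measurable_sum _ fun i _ => ((hb i).comp measurable_fst).mul
        ((measurable_pi_apply i).comp measurable_snd)
    have h2 : Measurable fun p : B × (ι → ℝ) => g p.1 := hg.comp measurable_fst
    fun_prop
  have hb1 : ∀ p : B × (ι → ℝ), ‖g p.1 * Complex.exp ((b p.1 ⬝ᵥ p.2 : ℝ) * Complex.I)‖ ≤ C := by
    intro p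
    rw [norm_mul, Complex.norm_exp_ofReal_mul_I, mul_one]
    exact hgb _
  have hi : Integrable (fun p : B × (ι → ℝ) => (gd (S p.1) p.2 : ℂ) *
      (g p.1 * Complex.exp ((b p.1 ⬝ᵥ p.2 : ℝ) * Complex.I))) (Q.prod volume) :=
    Integrable.mul_bdd (c := C) (integrable_gd_prod hS hpd).ofReal hm.aestronglyMeasurable
      (Eventually.of_forall hb1)
  rw [integral_prod _ hi]
  refine integral_congr_ae (Eventually.of_forall fun y => ?_)
  simp only
  rw [← int_gd (hpd y) (b y), ← integral_const_mul]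
  refine integral_congr_ae (Eventually.of_forall fun z => ?_)
  simp only
  ring

/-- `V` is Gaussian with covariance `S (x)` given the base variable `x` (of law `Q`) -/
def GLaw {κ : Type*} [Fintype κ] (P : Measure Ω) (Q : Measure B) (x : Ω → B) (V : Ω → κ → ℝ)
    (S : B → Matrix κ κ ℝ) : Prop :=
  ∀ g : B → ℝ, Measurable g → (∀ y, |g y| ≤ 1) → ∀ b : κ → ℝ,
    ∫ ω, (g (x ω) : ℂ) * Complex.exp ((b ⬝ᵥ V ω : ℝ) * Complex.I) ∂P =
      ∫ y, (g y : ℂ) * Complex.exp (-((b ⬝ᵥ S y *ᵥ b : ℝ) : ℂ) / 2) ∂Q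

variable {P : Measure Ω} [IsProbabilityMeasure P] {x : Ω → B} {V : Ω → ι → ℝ}

theorem law_eq (hx : Measurable x) (hV : Measurable V) (hS : MM S) (hpd : ∀ y, (S y).PosDef)
    (h : GLaw P Q x V S) : P.map (fun ω => (x ω, V ω)) = GM Q S := by
  classical
  have hxV : Measurable fun ω => (x ω, V ω) := hx.prodMk hV
  have hG := GM_prob (Q := Q) hS hpd
  have i1 : IsProbabilityMeasure (P.map (fun ω => (x ω, V ω))) :=
    Measure.isProbabilityMeasure_map hxV.aemeasurable
  apply Measure.ext_prod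
  intro s t hs ht
  have key : (P.restrict (x ⁻¹' s)).map V = ((GM Q S).restrict (Prod.fst ⁻¹' s)).map Prod.snd := by
    apply ext_char
    intro b
    have hbm : Measurable fun z : ι → ℝ => Complex.exp ((b ⬝ᵥ z : ℝ) * Complex.I) := by
      have : Measurable fun z : ι → ℝ => b ⬝ᵥ z := by
        simp only [dotProduct]
        exact Finset.measurable_sum _ fun i _ => (measurable_pi_apply i).const_mul _
      fun_prop
    rw [integral_map hV.aemeasurable hbm.aestronglyMeasurable,
      integral_map measurable_snd.aemeasurable hbm.aestronglyMeasurable,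
      ← integral_indicator (hx hs), ← integral_indicator (measurable_fst hs)]
    set g : B → ℝ := s.indicator 1 with hg
    have hgm : Measurable g := measurable_one.indicator hs
    have hgb : ∀ y, |g y| ≤ 1 := by
      intro y
      simp only [hg, Set.indicator_apply]
      split_ifs <;> simp
    have e1 : ∫ ω, (x ⁻¹' s).indicator (fun ω => Complex.exp ((b ⬝ᵥ V ω : ℝ) * Complex.I)) ω ∂P =
        ∫ ω, (g (x ω) : ℂ) * Complex.exp ((b ⬝ᵥ V ω : ℝ) * Complex.I) ∂P := by
      refine integral_congr_ae (Eventually.of_forall fun ω => ?_)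
      simp only [hg, Set.indicator_apply, Set.mem_preimage]
      split_ifs <;> simp
    have e2 : ∫ p, (Prod.fst ⁻¹' s).indicator (fun p : B × (ι → ℝ) =>
        Complex.exp ((b ⬝ᵥ p.2 : ℝ) * Complex.I)) p ∂(GM Q S) =
        ∫ p, (g p.1 : ℂ) * Complex.exp ((b ⬝ᵥ p.2 : ℝ) * Complex.I) ∂(GM Q S) := by
      refine integral_congr_ae (Eventually.of_forall fun p => ?_)
      simp only [hg, Set.indicator_apply, Set.mem_preimage]
      split_ifs <;> simp
    rw [e1, e2, h g hgm hgb b]
    symm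
    exact int_GM_char (g := fun y => (g y : ℂ)) (b := fun _ => b) hS hpd (by fun_prop)
      (C := 1) (fun y => by simpa using hgb y) (fun i => measurable_const)
  have k2 := congrArg (fun μ : Measure (ι → ℝ) => μ t) key
  simp only [Measure.map_apply hV ht, Measure.map_apply measurable_snd ht,
    Measure.restrict_apply (hV ht), Measure.restrict_apply (measurable_snd ht)] at k2
  rw [Measure.map_apply hxV (hs.prod ht)]
  have e3 : (fun ω => (x ω, V ω)) ⁻¹' (s ×ˢ t) = V ⁻¹' t ∩ x ⁻¹' s := by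
    ext ω; simp [and_comm]
  have e4 : s ×ˢ t = (Prod.snd ⁻¹' t ∩ Prod.fst ⁻¹' s : Set (B × (ι → ℝ))) := by
    ext p; simp [and_comm]
  rw [e3, k2, e4]

/-- integrals of functions of base and Gaussian vector -/
theorem int_law (hx : Measurable x) (hV : Measurable V) (hS : MM S) (hpd : ∀ y, (S y).PosDef)
    (h : GLaw P Q x V S) {f : B × (ι → ℝ) → ℝ} (hf : Measurable f) :
    ∫ ω, f (x ω, V ω) ∂P = ∫ p : B × (ι → ℝ), gd (S p.1) p.2 * f p ∂(Q.prod volume) := by
  rw [← int_GM' hS hpd, ← law_eq hx hV hS hpd h, integral_map (hx.prodMk hV).aemeasurable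
    hf.aestronglyMeasurable]

theorem int_law_char (hx : Measurable x) (hV : Measurable V) (hS : MM S) (hpd : ∀ y, (S y).PosDef)
    (h : GLaw P Q x V S) {g : B → ℂ} (hg : Measurable g) {C : ℝ} (hgb : ∀ y, ‖g y‖ ≤ C)
    {b : B → ι → ℝ} (hb : ∀ i, Measurable fun y => b y i) :
    ∫ ω, g (x ω) * Complex.exp ((b (x ω) ⬝ᵥ V ω : ℝ) * Complex.I) ∂P =
      ∫ y, g y * Complex.exp (-((b y ⬝ᵥ S y *ᵥ b y : ℝ) : ℂ) / 2) ∂Q := by
  rw [← int_GM_char hS hpd hg hgb hb, ← law_eq hx hV hS hpd h,
    integral_map (hx.prodMk hV).aemeasurable]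
  have h1 : Measurable fun p : B × (ι → ℝ) => b p.1 ⬝ᵥ p.2 := by
    simp only [dotProduct]
    exact Finset.measurable_sum _ fun i _ => ((hb i).comp measurable_fst).mul
      ((measurable_pi_apply i).comp measurable_snd)
  have h2 : Measurable fun p : B × (ι → ℝ) => g p.1 := hg.comp measurable_fst
  exact Measurable.aestronglyMeasurable (by fun_prop)

end joint

/-! ### 6. Scheffé and total variation -/

section tv2

theorem scheffe {α : Type*} {mα : MeasurableSpace α} {μ : Measure α} {F : ℕ → α → ℝ} {G : α → ℝ}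
    (hF : ∀ n, Integrable (F n) μ) (hG : Integrable G μ) (h0 : ∀ n a, 0 ≤ F n a)
    (hG0 : ∀ a, 0 ≤ G a) (hI : ∀ n, ∫ a, F n a ∂μ = ∫ a, G a ∂μ)
    (hlim : ∀ᵐ a ∂μ, Tendsto (fun n => F n a) atTop (𝓝 (G a))) :
    Tendsto (fun n => ∫ a, |F n a - G a| ∂μ) atTop (𝓝 0) := by
  have e : ∀ n, ∫ a, |F n a - G a| ∂μ = 2 * ∫ a, max (G a - F n a) 0 ∂μ := by
    intro n
    have i1 : Integrable (fun a => F n a - G a) μ := (hF n).sub hG
    have i2 : Integrable (fun a => max (G a - F n a) 0) μ := (hG.sub (hF n)).pos_part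
    have e1 : ∀ a, |F n a - G a| = (F n a - G a) + 2 * max (G a - F n a) 0 := by
      intro a
      rcases le_total (F n a) (G a) with h | h
      · rw [abs_of_nonpos (by linarith), max_eq_left (by linarith)]; ring
      · rw [abs_of_nonneg (by linarith), max_eq_right (by linarith)]; ring
    simp only [e1]
    rw [integral_add i1 (i2.const_mul 2), integral_sub (hF n) hG, hI n, sub_self, zero_add,
      integral_const_mul]
  simp only [e]
  have h2 : Tendsto (fun n => ∫ a, max (G a - F n a) 0 ∂μ) atTop (𝓝 (∫ a, (0 : ℝ) ∂μ)) := by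
    refine tendsto_integral_of_dominated_convergence G
      (fun n => ((hG.sub (hF n)).pos_part).aestronglyMeasurable) hG (fun n => ?_) ?_
    · refine Eventually.of_forall fun a => ?_
      rw [Real.norm_eq_abs, abs_of_nonneg (le_max_right _ _)]
      exact max_le (by linarith [h0 n a]) (hG0 a)
    · filter_upwards [hlim] with a ha
      have : Tendsto (fun n => max (G a - F n a) 0) atTop (𝓝 (max (G a - G a) 0)) :=
        (tendsto_const_nhds.sub ha).max tendsto_const_nhds
      simpa using this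
  simpa using h2.const_mul 2

variable {Ω : Type*} {m0 : MeasurableSpace Ω} {B : Type*} [mB : MeasurableSpace B]
variable {ι : Type*} [Fintype ι] [DecidableEq ι]

lemma gd_tendsto {Sn : ℕ → Matrix ι ι ℝ} {S : Matrix ι ι ℝ} (hS : S.PosDef)
    (h : ∀ i j, Tendsto (fun n => Sn n i j) atTop (𝓝 (S i j))) (z : ι → ℝ) :
    Tendsto (fun n => gd (Sn n) z) atTop (𝓝 (gd S z)) := by
  have hM : Tendsto Sn atTop (𝓝 S) := by
    refine tendsto_pi_nhds.2 fun i => ?_
    exact tendsto_pi_nhds.2 (h i)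
  have hdet : Tendsto (fun n => (Sn n).det) atTop (𝓝 S.det) :=
    ((continuous_id.matrix_det).tendsto S).comp hM
  have hadj : ∀ i j, Tendsto (fun n => (Sn n).adjugate i j) atTop (𝓝 (S.adjugate i j)) := by
    intro i j
    have : Continuous fun A : Matrix ι ι ℝ => A.adjugate i j :=
      (continuous_id.matrix_adjugate).matrix_elem i j
    exact (this.tendsto S).comp hM
  have hd0 : S.det ≠ 0 := hS.det_pos.ne'
  have hinv : ∀ i j, Tendsto (fun n => (Sn n)⁻¹ i j) atTop (𝓝 (S⁻¹ i j)) := by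
    intro i j
    simp only [Matrix.inv_def, Matrix.smul_apply, Ring.inverse_eq_inv', smul_eq_mul]
    exact (hdet.inv₀ hd0).mul (hadj i j)
  unfold gd
  have hq : Tendsto (fun n => z ⬝ᵥ (Sn n)⁻¹ *ᵥ z) atTop (𝓝 (z ⬝ᵥ S⁻¹ *ᵥ z)) := by
    simp only [dotProduct, Matrix.mulVec]
    exact tendsto_finsetSum _ fun i _ => tendsto_const_nhds.mul
      (tendsto_finsetSum _ fun j _ => (hinv i j).mul tendsto_const_nhds)
  have hs : √ S.det ≠ 0 := by
    rw [Real.sqrt_ne_zero']; exact hS.det_pos
  refine Tendsto.mul (tendsto_const_nhds.mul ((hdet.sqrt).inv₀ hs)) ?_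
  exact (Real.continuous_exp.tendsto _).comp ((hq.neg).div_const 2)

variable {Q : Measure B} [IsProbabilityMeasure Q]

/-- total variation distance of two Gaussian noises on the σ-algebra of base and noise -/
theorem tv_law {P P' : Measure Ω} [IsProbabilityMeasure P] [IsProbabilityMeasure P']
    {x : Ω → B} {V : Ω → ι → ℝ} (hx : Measurable x) (hV : Measurable V)
    {S S' : B → Matrix ι ι ℝ} (hS : MM S) (hS' : MM S')
    (hpd : ∀ y, (S y).PosDef) (hpd' : ∀ y, (S' y).PosDef)
    (h : GLaw P Q x V S) (h' : GLaw P' Q x V S') :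
    TV P P' (MeasurableSpace.comap (fun ω => (x ω, V ω)) inferInstance)
      (∫ p : B × (ι → ℝ), |gd (S p.1) p.2 - gd (S' p.1) p.2| ∂(Q.prod volume)) := by
  intro H hH hb
  obtain ⟨f, hf, rfl⟩ := hH.exists_eq_measurable_comp
  -- make `f` bounded everywhere
  have hcl : ∀ ω, f (x ω, V ω) = cl (f (x ω, V ω)) := fun ω => (cl_eq (hb ω)).symm
  have e1 : ∀ ν : Measure Ω, ∫ ω, (f ∘ fun ω => (x ω, V ω)) ω ∂ν =
      ∫ ω, (fun p => cl (f p)) (x ω, V ω) ∂ν := by
    intro ν
    refine integral_congr_ae (Eventually.of_forall fun ω => ?_)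
    exact hcl ω
  have hm : Measurable fun p => cl (f p) := measurable_cl.comp hf
  rw [e1, e1, int_law hx hV hS hpd h hm, int_law hx hV hS' hpd' h' hm]
  have i1 : Integrable (fun p : B × (ι → ℝ) => gd (S p.1) p.2 * cl (f p)) (Q.prod volume) :=
    Integrable.mul_bdd (c := 1) (integrable_gd_prod hS hpd) hm.aestronglyMeasurable
      (Eventually.of_forall fun p => by simpa using abs_cl _)
  have i2 : Integrable (fun p : B × (ι → ℝ) => gd (S' p.1) p.2 * cl (f p)) (Q.prod volume) :=
    Integrable.mul_bdd (c := 1) (integrable_gd_prod hS' hpd') hm.aestronglyMeasurable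
      (Eventually.of_forall fun p => by simpa using abs_cl _)
  rw [← integral_sub i1 i2]
  refine (abs_integral_le_integral_abs).trans (integral_mono (i1.sub i2).abs
    ((integrable_gd_prod hS hpd).sub (integrable_gd_prod hS' hpd')).abs fun p => ?_)
  simp only
  rw [← sub_mul, abs_mul]
  exact mul_le_of_le_one_right (abs_nonneg _) (abs_cl _)

theorem tv_tendsto {Sn : ℕ → B → Matrix ι ι ℝ} {S : B → Matrix ι ι ℝ} (hSn : ∀ n, MM (Sn n))
    (hS : MM S) (hpdn : ∀ n y, (Sn n y).PosDef) (hpd : ∀ y, (S y).PosDef)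
    (hlim : ∀ᵐ y ∂Q, ∀ i j, Tendsto (fun n => Sn n y i j) atTop (𝓝 (S y i j))) :
    Tendsto (fun n => ∫ p : B × (ι → ℝ), |gd (Sn n p.1) p.2 - gd (S p.1) p.2| ∂(Q.prod volume))
      atTop (𝓝 0) := by
  refine scheffe (fun n => integrable_gd_prod (hSn n) (hpdn n)) (integrable_gd_prod hS hpd)
    (fun n p => gd_nonneg _ _) (fun p => gd_nonneg _ _) (fun n => ?_) ?_
  · rw [integral_gd_prod (hSn n) (hpdn n), integral_gd_prod hS hpd]
  · have h1 : ∀ᵐ p ∂(Q.prod (volume : Measure (ι → ℝ))),
        ∀ i j, Tendsto (fun n => Sn n p.1 i j) atTop (𝓝 (S p.1 i j)) :=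
      Measure.quasiMeasurePreserving_fst.ae hlim
    filter_upwards [h1] with p hp
    exact gd_tendsto (hpd _) hp _

end tv2

end Crest.Agent.R166.Lim793
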