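import Mathlib
import Crest.Agent.R166.LimA_793

/-!
# Row 166 (helper793), section 40.10, part 3: regression on the edge coordinates.
-/

set_option autoImplicit false
set_option linter.unusedSectionVars false
set_option linter.unusedVariables false

noncomputable section

open MeasureTheory ProbabilityTheory Matrix Filter Topology
open scoped ENNReal

namespace Crest.Agent.R166.Lim793

section reg

variable {Ω : Type*} {m0 : MeasurableSpace Ω} {B : Type*} [mB : MeasurableSpace B]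
variable {ι ρ : Type*} [Fintype ι] [DecidableEq ι] [Fintype ρ]

/-- two-variable form of `uniq` -/
theorem uniq₂ (μ : Measure Ω) [IsFiniteMeasure μ] {x : Ω → B} (hx : Measurable x)
    {V : Ω → ι → ℝ} (hV : Measurable V) {w : Ω → ℝ} (hw : Integrable w μ) (hm : Measurable w)
    (h : ∀ g : B → ℝ, Measurable g → (∀ y, |g y| ≤ 1) → ∀ b : ι → ℝ,
      ∫ a, ((g (x a) * w a : ℝ) : ℂ) * Complex.exp ((b ⬝ᵥ V a : ℝ) * Complex.I) ∂μ = 0)
    {f : B × (ι → ℝ) → ℝ} (hf : Measurable f) {C : ℝ} (hC : ∀ p, |f p| ≤ C) :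
    ∫ a, w a * f (x a, V a) ∂μ = 0 := by
  classical
  set μ₁ := μ.withDensity (fun a => ENNReal.ofReal (w a)) with hμ₁
  set μ₂ := μ.withDensity (fun a => ENNReal.ofReal (-w a)) with hμ₂
  have f1 : IsFiniteMeasure μ₁ := isFiniteMeasure_withDensity_ofReal hw.2
  have f2 : IsFiniteMeasure μ₂ := isFiniteMeasure_withDensity_ofReal hw.neg.2
  have hxV : Measurable fun a => (x a, V a) := hx.prodMk hV
  have pm : ∀ u : ℝ, max u 0 - max (-u) 0 = u := by
    intro u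
    rcases le_total 0 u with h0 | h0
    · rw [max_eq_left h0, max_eq_right (by linarith)]; ring
    · rw [max_eq_right h0, max_eq_left (by linarith)]; ring
  have key : μ₁.map (fun a => (x a, V a)) = μ₂.map (fun a => (x a, V a)) := by
    apply Measure.ext_prod
    intro s t hs ht
    set g : B → ℝ := s.indicator 1 with hg
    have hgm : Measurable g := measurable_one.indicator hs
    have hgb : ∀ y, |g y| ≤ 1 := by
      intro y
      simp only [hg, Set.indicator_apply]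
      split_ifs <;> simp
    have hgw : Integrable (fun a => g (x a) * w a) μ :=
      hw.bdd_mul (c := 1) (hgm.comp hx).aestronglyMeasurable
        (Eventually.of_forall fun a => by simpa using hgb (x a))
    have h1 := uniq μ hV hgw ((hgm.comp hx).mul hm) (h g hgm hgb)
      (f := t.indicator 1) (measurable_one.indicator ht) (C := 1)
      (fun y => by simp only [Set.indicator_apply]; split_ifs <;> simp)
    have hst : MeasurableSet ((fun a => (x a, V a)) ⁻¹' (s ×ˢ t)) := hxV (hs.prod ht)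
    rw [Measure.map_apply hxV (hs.prod ht), Measure.map_apply hxV (hs.prod ht)]
    have r1 : (μ₁ ((fun a => (x a, V a)) ⁻¹' (s ×ˢ t))).toReal =
        ∫ a, max (w a) 0 * (((fun a => (x a, V a)) ⁻¹' (s ×ˢ t)).indicator (1 : Ω → ℝ) a) ∂μ := by
      rw [← integral_withDensity_ofReal' μ hw hm, integral_indicator_one hst]
      rfl
    have r2 : (μ₂ ((fun a => (x a, V a)) ⁻¹' (s ×ˢ t))).toReal =
        ∫ a, max (-w a) 0 * (((fun a => (x a, V a)) ⁻¹' (s ×ˢ t)).indicator (1 : Ω → ℝ) a) ∂μ := by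
      rw [← integral_withDensity_ofReal' μ (w := fun a => -w a) hw.neg hm.neg,
        integral_indicator_one hst]
      rfl
    have im : Measurable (((fun a => (x a, V a)) ⁻¹' (s ×ˢ t)).indicator (1 : Ω → ℝ)) :=
      measurable_one.indicator hst
    have ib : ∀ᵐ a ∂μ, ‖((fun a => (x a, V a)) ⁻¹' (s ×ˢ t)).indicator (1 : Ω → ℝ) a‖ ≤ 1 :=
      Eventually.of_forall fun a => by
        simp only [Set.indicator_apply]; split_ifs <;> simp
    have i1 : Integrable (fun a => max (w a) 0 *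
        (((fun a => (x a, V a)) ⁻¹' (s ×ˢ t)).indicator (1 : Ω → ℝ) a)) μ :=
      Integrable.mul_bdd (c := 1) hw.pos_part im.aestronglyMeasurable ib
    have i2 : Integrable (fun a => max (-w a) 0 *
        (((fun a => (x a, V a)) ⁻¹' (s ×ˢ t)).indicator (1 : Ω → ℝ) a)) μ :=
      Integrable.mul_bdd (c := 1) hw.neg.pos_part im.aestronglyMeasurable ib
    have r3 : (μ₁ ((fun a => (x a, V a)) ⁻¹' (s ×ˢ t))).toReal =
        (μ₂ ((fun a => (x a, V a)) ⁻¹' (s ×ˢ t))).toReal := by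
      rw [r1, r2, ← sub_eq_zero, ← integral_sub i1 i2]
      refine Eq.trans (integral_congr_ae (Eventually.of_forall fun a => ?_)) h1
      simp only
      rw [← sub_mul, pm]
      simp only [hg, Set.indicator_apply, Set.mem_preimage, Set.mem_prod, Pi.one_apply]
      by_cases ha : x a ∈ s <;> by_cases hb : V a ∈ t <;> simp [ha, hb]
    exact (ENNReal.toReal_eq_toReal_iff' (measure_ne_top _ _) (measure_ne_top _ _)).1 r3
  have k2 : ∫ y, f y ∂(μ₁.map (fun a => (x a, V a))) = ∫ y, f y ∂(μ₂.map (fun a => (x a, V a))) := by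
    rw [key]
  rw [integral_map hxV.aemeasurable hf.aestronglyMeasurable,
    integral_map hxV.aemeasurable hf.aestronglyMeasurable, hμ₁, hμ₂,
    integral_withDensity_ofReal' μ hw hm,
      integral_withDensity_ofReal' μ (w := fun a => - w a) hw.neg hm.neg] at k2
  have i1 : Integrable (fun a => max (w a) 0 * f (x a, V a)) μ :=
    Integrable.mul_bdd (c := C) hw.pos_part (hf.comp hxV).aestronglyMeasurable
      (Eventually.of_forall fun a => by simpa using hC (x a, V a))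
  have i2 : Integrable (fun a => max (-w a) 0 * f (x a, V a)) μ :=
    Integrable.mul_bdd (c := C) hw.neg.pos_part (hf.comp hxV).aestronglyMeasurable
      (Eventually.of_forall fun a => by simpa using hC (x a, V a))
  rw [← sub_eq_zero, ← integral_sub i1 i2] at k2
  rw [← k2]
  refine integral_congr_ae (Eventually.of_forall fun a => ?_)
  simp only
  rw [← sub_mul, pm]

/-! ### block algebra -/

/-- the part of the vector indexed by `ι` -/
def vL (z : ι ⊕ ρ → ℝ) : ι → ℝ := fun i => z (Sum.inl i)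
/-- the part of the vector indexed by `ρ` -/
def vR (z : ι ⊕ ρ → ℝ) : ρ → ℝ := fun r => z (Sum.inr r)

lemma dot_elim (b : ι → ℝ) (c : ρ → ℝ) (z : ι ⊕ ρ → ℝ) :
    Sum.elim b c ⬝ᵥ z = b ⬝ᵥ vL z + c ⬝ᵥ vR z := by
  simp [dotProduct, Fintype.sum_sum_type, vL, vR]

/-- regression vector `Σ₁₁⁻¹ Σ₁₂ c` -/
def mcv (S : Matrix (ι ⊕ ρ) (ι ⊕ ρ) ℝ) (c : ρ → ℝ) : ι → ℝ :=
  S.toBlocks₁₁⁻¹ *ᵥ (S.toBlocks₁₂ *ᵥ c)

/-- residual variance -/
def rcv (S : Matrix (ι ⊕ ρ) (ι ⊕ ρ) ℝ) (c : ρ → ℝ) : ℝ :=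
  c ⬝ᵥ S.toBlocks₂₂ *ᵥ c - (S.toBlocks₁₂ *ᵥ c) ⬝ᵥ mcv S c

lemma quad_elim (S : Matrix (ι ⊕ ρ) (ι ⊕ ρ) ℝ) (hS : S.IsHermitian)
    (hd : IsUnit S.toBlocks₁₁.det) (b : ι → ℝ) (c : ρ → ℝ) :
    Sum.elim b c ⬝ᵥ S *ᵥ Sum.elim b c =
      (mcv S c + b) ⬝ᵥ S.toBlocks₁₁ *ᵥ (mcv S c + b) + rcv S c := by
  have h1 : Sum.elim b c ⬝ᵥ S *ᵥ Sum.elim b c =
      b ⬝ᵥ S.toBlocks₁₁ *ᵥ b + b ⬝ᵥ (S.toBlocks₁₂ *ᵥ c) +
        (c ⬝ᵥ (S.toBlocks₂₁ *ᵥ b) + c ⬝ᵥ (S.toBlocks₂₂ *ᵥ c)) := by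
    conv_lhs => rw [← fromBlocks_toBlocks S]
    rw [fromBlocks_mulVec, dot_elim]
    congr 1
    · rw [← dotProduct_add]; rfl
    · rw [← dotProduct_add]; rfl
  have hsym : S.toBlocks₂₁ = S.toBlocks₁₂ᵀ := by
    ext i j
    have := hS.apply (Sum.inl j) (Sum.inr i)
    simp only [star_trivial] at this
    simp [toBlocks₂₁, toBlocks₁₂, this]
  have h11 : S.toBlocks₁₁ᵀ = S.toBlocks₁₁ := by
    ext i j
    have := hS.apply (Sum.inl i) (Sum.inl j)
    simp only [star_trivial] at this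
    simp [toBlocks₁₁, this]
  have h2 : c ⬝ᵥ (S.toBlocks₂₁ *ᵥ b) = b ⬝ᵥ (S.toBlocks₁₂ *ᵥ c) := by
    rw [hsym, Matrix.mulVec_transpose, dotProduct_comm, ← Matrix.dotProduct_mulVec]
  have h3 : S.toBlocks₁₁ *ᵥ mcv S c = S.toBlocks₁₂ *ᵥ c := by
    unfold mcv
    rw [Matrix.mulVec_mulVec, Matrix.mul_nonsing_inv _ hd, Matrix.one_mulVec]
  have h4 : mcv S c ⬝ᵥ S.toBlocks₁₁ *ᵥ b = b ⬝ᵥ (S.toBlocks₁₂ *ᵥ c) := by
    rw [← h3, Matrix.dotProduct_mulVec, ← Matrix.mulVec_transpose, h11, dotProduct_comm]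
  rw [h1, h2, Matrix.mulVec_add, dotProduct_add, add_dotProduct, add_dotProduct, h3, h4]
  unfold rcv
  rw [dotProduct_comm (mcv S c) (S.toBlocks₁₂ *ᵥ c)]
  ring

lemma rcv_nonneg (S : Matrix (ι ⊕ ρ) (ι ⊕ ρ) ℝ) (hS : S.PosSemidef)
    (hd : IsUnit S.toBlocks₁₁.det) (c : ρ → ℝ) : 0 ≤ rcv S c := by
  have h := quad_elim S hS.1 hd (-mcv S c) c
  rw [add_neg_cancel, Matrix.mulVec_zero, dotProduct_zero, zero_add] at h
  rw [← h]
  have := hS.dotProduct_mulVec_nonneg (Sum.elim (-mcv S c) c)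
  simpa using this

lemma MM.b11 {S : B → Matrix (ι ⊕ ρ) (ι ⊕ ρ) ℝ} (hS : MM S) : MM fun y => (S y).toBlocks₁₁ :=
  fun i j => hS (Sum.inl i) (Sum.inl j)

lemma MM.b12 {S : B → Matrix (ι ⊕ ρ) (ι ⊕ ρ) ℝ} (hS : MM S) : MM fun y => (S y).toBlocks₁₂ :=
  fun i j => hS (Sum.inl i) (Sum.inr j)

lemma MM.b22 {S : B → Matrix (ι ⊕ ρ) (ι ⊕ ρ) ℝ} (hS : MM S) : MM fun y => (S y).toBlocks₂₂ :=
  fun i j => hS (Sum.inr i) (Sum.inr j)

lemma MM.mulVec {κ κ' : Type*} [Fintype κ'] {S : B → Matrix κ κ' ℝ} (hS : MM S)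
    {b : B → κ' → ℝ} (hb : ∀ i, Measurable fun y => b y i) (i : κ) :
    Measurable fun y => (S y *ᵥ b y) i := by
  simp only [dotProduct, Matrix.mulVec]
  exact Finset.measurable_sum _ fun j _ => (hS i j).mul (hb j)

lemma meas_mcv {S : B → Matrix (ι ⊕ ρ) (ι ⊕ ρ) ℝ} (hS : MM S) (c : ρ → ℝ) (i : ι) :
    Measurable fun y => mcv (S y) c i := by
  have h1 : ∀ j, Measurable fun y => ((S y).toBlocks₁₂ *ᵥ c) j := fun j =>
    MM.mulVec (b := fun _ => c) hS.b12 (fun _ => measurable_const) j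
  have h2 : MM fun y => ((S y).toBlocks₁₁)⁻¹ := hS.b11.inv
  exact MM.mulVec (b := fun y => (S y).toBlocks₁₂ *ᵥ c) h2 h1 i

lemma meas_rcv {S : B → Matrix (ι ⊕ ρ) (ι ⊕ ρ) ℝ} (hS : MM S) (c : ρ → ℝ) :
    Measurable fun y => rcv (S y) c := by
  unfold rcv
  have h1 : Measurable fun y => c ⬝ᵥ (S y).toBlocks₂₂ *ᵥ c :=
    MM.quad (a := fun _ => c) (b := fun _ => c) hS.b22 (fun _ => measurable_const)
      (fun _ => measurable_const)
  have h2 : ∀ j, Measurable fun y => ((S y).toBlocks₁₂ *ᵥ c) j := fun j =>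
    MM.mulVec (b := fun _ => c) hS.b12 (fun _ => measurable_const) j
  have h3 : Measurable fun y => ((S y).toBlocks₁₂ *ᵥ c) ⬝ᵥ mcv (S y) c := by
    have e : (fun y => ((S y).toBlocks₁₂ *ᵥ c) ⬝ᵥ mcv (S y) c) =
        fun y => ∑ j, ((S y).toBlocks₁₂ *ᵥ c) j * mcv (S y) c j := rfl
    rw [e]
    exact Finset.measurable_sum _ fun j _ => (h2 j).mul (meas_mcv hS c j)
  exact h1.sub h3

end reg

section reg2

variable {Ω : Type*} {m0 : MeasurableSpace Ω} {B : Type*} [mB : MeasurableSpace B]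
variable {ι ρ : Type*} [Fintype ι] [DecidableEq ι] [Fintype ρ] [DecidableEq ρ]
variable {Q : Measure B} [IsProbabilityMeasure Q]
variable {P : Measure Ω} [IsProbabilityMeasure P] {x : Ω → B} {z : Ω → ι ⊕ ρ → ℝ}
variable {S : B → Matrix (ι ⊕ ρ) (ι ⊕ ρ) ℝ}

/-- admissible covariance fields: measurable, positive semidefinite, positive definite on `ι` -/
structure Adm (S : B → Matrix (ι ⊕ ρ) (ι ⊕ ρ) ℝ) : Prop where
  mm : MM S
  psd : ∀ y, (S y).PosSemidef
  pd : ∀ y, (S y).toBlocks₁₁.PosDef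

lemma Adm.unit (hS : Adm S) (y : B) : IsUnit (S y).toBlocks₁₁.det :=
  isUnit_iff_ne_zero.2 (hS.pd y).det_pos.ne'

lemma meas_vL (hz : Measurable z) : Measurable fun ω => vL (z ω) :=
  measurable_pi_lambda _ fun i => (measurable_pi_apply (Sum.inl i)).comp hz

lemma meas_vR (hz : Measurable z) : Measurable fun ω => vR (z ω) :=
  measurable_pi_lambda _ fun i => (measurable_pi_apply (Sum.inr i)).comp hz

lemma quad_elim_zero (S : Matrix (ι ⊕ ρ) (ι ⊕ ρ) ℝ) (b : ι → ℝ) :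
    Sum.elim b (0 : ρ → ℝ) ⬝ᵥ S *ᵥ Sum.elim b 0 = b ⬝ᵥ S.toBlocks₁₁ *ᵥ b := by
  conv_lhs => rw [← fromBlocks_toBlocks S]
  rw [fromBlocks_mulVec, dot_elim, zero_dotProduct, add_zero]
  have e1 : ((0 : ρ → ℝ) : ρ → ℝ) = Sum.elim b (0 : ρ → ℝ) ∘ Sum.inr := rfl
  have : S.toBlocks₁₂ *ᵥ (Sum.elim b (0 : ρ → ℝ) ∘ Sum.inr) = 0 := by
    rw [← e1, Matrix.mulVec_zero]
  simp only [Sum.elim_comp_inl, this, add_zero]
  rfl

lemma GLaw.left (h : GLaw P Q x z S) :
    GLaw P Q x (fun ω => vL (z ω)) (fun y => (S y).toBlocks₁₁) := by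
  intro g hg hgb b
  have := h g hg hgb (Sum.elim b 0)
  simp only [quad_elim_zero] at this
  simp only [dot_elim, zero_dotProduct, add_zero] at this
  exact this

lemma mcv_neg (S : Matrix (ι ⊕ ρ) (ι ⊕ ρ) ℝ) (c : ρ → ℝ) : mcv S (-c) = -mcv S c := by
  unfold mcv; rw [Matrix.mulVec_neg, Matrix.mulVec_neg]

lemma rcv_neg (S : Matrix (ι ⊕ ρ) (ι ⊕ ρ) ℝ) (c : ρ → ℝ) : rcv S (-c) = rcv S c := by
  unfold rcv
  rw [mcv_neg, Matrix.mulVec_neg, Matrix.mulVec_neg, neg_dotProduct_neg, neg_dotProduct_neg]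

/-- the difference between the character and its regression -/
def Phi (x : Ω → B) (z : Ω → ι ⊕ ρ → ℝ) (S : B → Matrix (ι ⊕ ρ) (ι ⊕ ρ) ℝ) (c : ρ → ℝ) (ω : Ω) : ℂ :=
  Complex.exp ((c ⬝ᵥ vR (z ω) : ℝ) * Complex.I) -
    ((Real.exp (-rcv (S (x ω)) c / 2) : ℝ) : ℂ) *
      Complex.exp ((mcv (S (x ω)) c ⬝ᵥ vL (z ω) : ℝ) * Complex.I)

lemma meas_dotL {b : ι → ℝ} (hz : Measurable z) : Measurable fun ω => b ⬝ᵥ vL (z ω) := by
  simp only [dotProduct]
  exact Finset.measurable_sum _ fun i _ =>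
    ((measurable_pi_apply i).comp (meas_vL hz)).const_mul _

lemma meas_dotR {c : ρ → ℝ} (hz : Measurable z) : Measurable fun ω => c ⬝ᵥ vR (z ω) := by
  simp only [dotProduct]
  exact Finset.measurable_sum _ fun i _ =>
    ((measurable_pi_apply i).comp (meas_vR hz)).const_mul _

lemma meas_dotM (hS : MM S) {c : ρ → ℝ} (hx : Measurable x) (hz : Measurable z) :
    Measurable fun ω => mcv (S (x ω)) c ⬝ᵥ vL (z ω) := by
  simp only [dotProduct]
  exact Finset.measurable_sum _ fun i _ => ((meas_mcv hS c i).comp hx).mul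
    ((measurable_pi_apply i).comp (meas_vL hz))

theorem reg0 (hx : Measurable x) (hz : Measurable z) (hS : Adm S) (h : GLaw P Q x z S)
    {g : B → ℝ} (hg : Measurable g) (hgb : ∀ y, |g y| ≤ 1) (b : ι → ℝ) (c : ρ → ℝ) :
    ∫ ω, (g (x ω) : ℂ) * Phi x z S c ω * Complex.exp ((b ⬝ᵥ vL (z ω) : ℝ) * Complex.I) ∂P = 0 := by
  have h1 := h g hg hgb (Sum.elim b c)
  have h2 := int_law_char (g := fun y => (g y : ℂ) * ((Real.exp (-rcv (S y) c / 2) : ℝ) : ℂ))
    (C := 1) (b := fun y => mcv (S y) c + b) hx (meas_vL hz) hS.mm.b11 hS.pd h.left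
    (by
      have := meas_rcv hS.mm c
      fun_prop)
    (fun y => by
      rw [norm_mul, Complex.norm_real, Complex.norm_real, Real.norm_eq_abs, Real.norm_eq_abs,
        Real.abs_exp]
      refine mul_le_one₀ (hgb y) (Real.exp_pos _).le ?_
      rw [Real.exp_le_one_iff]
      have := rcv_nonneg (S y) (hS.psd y) (hS.unit y) c
      linarith)
    (fun i => (meas_mcv hS.mm c i).add measurable_const)
  have h3 : ∫ y, (g y : ℂ) * Complex.exp (-((Sum.elim b c ⬝ᵥ S y *ᵥ Sum.elim b c : ℝ) : ℂ) / 2) ∂Q =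
      ∫ y, ((g y : ℂ) * ((Real.exp (-rcv (S y) c / 2) : ℝ) : ℂ)) *
        Complex.exp (-(((mcv (S y) c + b) ⬝ᵥ (S y).toBlocks₁₁ *ᵥ (mcv (S y) c + b) : ℝ) : ℂ) / 2)
          ∂Q := by
    refine integral_congr_ae (Eventually.of_forall fun y => ?_)
    simp only
    rw [quad_elim (S y) (hS.psd y).1 (hS.unit y), mul_assoc, Complex.ofReal_exp,
      ← Complex.exp_add]
    congr 2
    push_cast
    ring
  rw [h3, ← h2] at h1
  have hgm : Measurable fun ω => g (x ω) := hg.comp hx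
  have hr : Measurable fun ω => rcv (S (x ω)) c := (meas_rcv hS.mm c).comp hx
  have i1 : Integrable (fun ω => (g (x ω) : ℂ) *
      Complex.exp ((Sum.elim b c ⬝ᵥ z ω : ℝ) * Complex.I)) P := by
    have hm : Measurable fun ω => Sum.elim b c ⬝ᵥ z ω := by
      simp only [dotProduct]
      exact Finset.measurable_sum _ fun i _ => ((measurable_pi_apply i).comp hz).const_mul _
    refine Integrable.of_bound (Measurable.aestronglyMeasurable (by fun_prop)) 1
      (Eventually.of_forall fun ω => ?_)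
    rw [norm_mul, Complex.norm_exp_ofReal_mul_I, mul_one, Complex.norm_real]
    exact hgb _
  have i2 : Integrable (fun ω => (g (x ω) : ℂ) * ((Real.exp (-rcv (S (x ω)) c / 2) : ℝ) : ℂ) *
      Complex.exp (((mcv (S (x ω)) c + b) ⬝ᵥ vL (z ω) : ℝ) * Complex.I)) P := by
    have hm : Measurable fun ω => (mcv (S (x ω)) c + b) ⬝ᵥ vL (z ω) := by
      simp only [add_dotProduct]
      exact (meas_dotM hS.mm hx hz).add (meas_dotL hz)
    refine Integrable.of_bound (Measurable.aestronglyMeasurable (by fun_prop)) 1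
      (Eventually.of_forall fun ω => ?_)
    rw [norm_mul, Complex.norm_exp_ofReal_mul_I, mul_one, norm_mul, Complex.norm_real,
      Complex.norm_real, Real.norm_eq_abs, Real.norm_eq_abs, Real.abs_exp]
    refine mul_le_one₀ (hgb _) (Real.exp_pos _).le ?_
    rw [Real.exp_le_one_iff]
    have := rcv_nonneg (S (x ω)) (hS.psd _) (hS.unit _) c
    linarith
  rw [← sub_eq_zero, ← integral_sub i1 i2] at h1
  rw [← h1]
  refine integral_congr_ae (Eventually.of_forall fun ω => ?_)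
  simp only [Phi, dot_elim, add_dotProduct]
  push_cast
  rw [add_mul, add_mul, Complex.exp_add, Complex.exp_add]
  ring

lemma norm_Phi_le (hS : Adm S) (c : ρ → ℝ) (ω : Ω) : ‖Phi x z S c ω‖ ≤ 2 := by
  unfold Phi
  refine (norm_sub_le _ _).trans ?_
  rw [norm_mul, Complex.norm_exp_ofReal_mul_I, Complex.norm_exp_ofReal_mul_I, Complex.norm_real,
    Real.norm_eq_abs, Real.abs_exp, mul_one]
  have : Real.exp (-rcv (S (x ω)) c / 2) ≤ 1 := by
    rw [Real.exp_le_one_iff]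
    have := rcv_nonneg (S (x ω)) (hS.psd _) (hS.unit _) c
    linarith
  linarith

/-- defect of `cos (c·U)` -/
def W0 (x : Ω → B) (z : Ω → ι ⊕ ρ → ℝ) (S : B → Matrix (ι ⊕ ρ) (ι ⊕ ρ) ℝ) (c : ρ → ℝ) (ω : Ω) : ℝ :=
  Real.cos (c ⬝ᵥ vR (z ω)) -
    Real.exp (-rcv (S (x ω)) c / 2) * Real.cos (mcv (S (x ω)) c ⬝ᵥ vL (z ω))

/-- defect of `sin (c·U)` -/
def W1 (x : Ω → B) (z : Ω → ι ⊕ ρ → ℝ) (S : B → Matrix (ι ⊕ ρ) (ι ⊕ ρ) ℝ) (c : ρ → ℝ) (ω : Ω) : ℝ :=
  Real.sin (c ⬝ᵥ vR (z ω)) -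
    Real.exp (-rcv (S (x ω)) c / 2) * Real.sin (mcv (S (x ω)) c ⬝ᵥ vL (z ω))

lemma W0_eq (c : ρ → ℝ) (ω : Ω) :
    (W0 x z S c ω : ℂ) = (1 / 2) * (Phi x z S c ω + Phi x z S (-c) ω) := by
  unfold W0 Phi
  rw [mcv_neg, rcv_neg, neg_dotProduct, neg_dotProduct]
  push_cast
  rw [Complex.cos, Complex.cos]
  ring

lemma W1_eq (c : ρ → ℝ) (ω : Ω) :
    (W1 x z S c ω : ℂ) = (-Complex.I / 2) * (Phi x z S c ω - Phi x z S (-c) ω) := by
  unfold W1 Phi
  rw [mcv_neg, rcv_neg, neg_dotProduct, neg_dotProduct]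
  push_cast
  rw [Complex.sin, Complex.sin]
  ring

lemma meas_Phi (hS : MM S) (hx : Measurable x) (hz : Measurable z) (c : ρ → ℝ) :
    Measurable (Phi x z S c) := by
  unfold Phi
  have h1 := meas_dotM (c := c) hS hx hz
  have h2 := meas_dotR (c := c) hz
  have h3 : Measurable fun ω => rcv (S (x ω)) c := (meas_rcv hS c).comp hx
  fun_prop

lemma meas_W0 (hS : MM S) (hx : Measurable x) (hz : Measurable z) (c : ρ → ℝ) :
    Measurable (W0 x z S c) := by
  unfold W0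
  have h1 := meas_dotM (c := c) hS hx hz
  have h2 := meas_dotR (c := c) hz
  have h3 : Measurable fun ω => rcv (S (x ω)) c := (meas_rcv hS c).comp hx
  fun_prop

lemma meas_W1 (hS : MM S) (hx : Measurable x) (hz : Measurable z) (c : ρ → ℝ) :
    Measurable (W1 x z S c) := by
  unfold W1
  have h1 := meas_dotM (c := c) hS hx hz
  have h2 := meas_dotR (c := c) hz
  have h3 : Measurable fun ω => rcv (S (x ω)) c := (meas_rcv hS c).comp hx
  fun_prop

lemma exp_rcv_le (hS : Adm S) (c : ρ → ℝ) (y : B) : Real.exp (-rcv (S y) c / 2) ≤ 1 := by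
  rw [Real.exp_le_one_iff]
  have := rcv_nonneg (S y) (hS.psd _) (hS.unit _) c
  linarith

lemma abs_W0_le (hS : Adm S) (c : ρ → ℝ) (ω : Ω) : |W0 x z S c ω| ≤ 2 := by
  unfold W0
  refine (abs_sub _ _).trans ?_
  rw [abs_mul, Real.abs_exp]
  have h1 := Real.abs_cos_le_one (c ⬝ᵥ vR (z ω))
  have h2 := mul_le_one₀ (exp_rcv_le hS c (x ω)) (abs_nonneg _)
    (Real.abs_cos_le_one (mcv (S (x ω)) c ⬝ᵥ vL (z ω)))
  linarith

lemma abs_W1_le (hS : Adm S) (c : ρ → ℝ) (ω : Ω) : |W1 x z S c ω| ≤ 2 := by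
  unfold W1
  refine (abs_sub _ _).trans ?_
  rw [abs_mul, Real.abs_exp]
  have h1 := Real.abs_sin_le_one (c ⬝ᵥ vR (z ω))
  have h2 := mul_le_one₀ (exp_rcv_le hS c (x ω)) (abs_nonneg _)
    (Real.abs_sin_le_one (mcv (S (x ω)) c ⬝ᵥ vL (z ω)))
  linarith

lemma int_Phi_mul (hx : Measurable x) (hz : Measurable z) (hS : Adm S) {g : B → ℝ}
    (hg : Measurable g) (hgb : ∀ y, |g y| ≤ 1) (b : ι → ℝ) (c : ρ → ℝ) :
    Integrable (fun ω => (g (x ω) : ℂ) * Phi x z S c ω *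
      Complex.exp ((b ⬝ᵥ vL (z ω) : ℝ) * Complex.I)) P := by
  have hgm : Measurable fun ω => g (x ω) := hg.comp hx
  have h1 := meas_Phi hS.mm hx hz c
  have h2 := meas_dotL (b := b) hz
  refine Integrable.of_bound (Measurable.aestronglyMeasurable (by fun_prop)) (1 * 2)
    (Eventually.of_forall fun ω => ?_)
  rw [norm_mul, Complex.norm_exp_ofReal_mul_I, mul_one, norm_mul, Complex.norm_real]
  exact mul_le_mul (hgb _) (norm_Phi_le hS c ω) (norm_nonneg _) zero_le_one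

theorem orth_W0 (hx : Measurable x) (hz : Measurable z) (hS : Adm S) (h : GLaw P Q x z S)
    (c : ρ → ℝ) {f : B × (ι → ℝ) → ℝ} (hf : Measurable f) {C : ℝ} (hC : ∀ p, |f p| ≤ C) :
    ∫ ω, W0 x z S c ω * f (x ω, vL (z ω)) ∂P = 0 := by
  refine uniq₂ P hx (meas_vL hz) ?_ (meas_W0 hS.mm hx hz c) ?_ hf hC
  · exact int_of_bdd (meas_W0 hS.mm hx hz c).aestronglyMeasurable (abs_W0_le hS c)
  · intro g hg hgb b
    have h1 := reg0 hx hz hS h hg hgb b c
    have h2 := reg0 hx hz hS h hg hgb b (-c)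
    have e : ∀ ω, ((g (x ω) * W0 x z S c ω : ℝ) : ℂ) *
        Complex.exp ((b ⬝ᵥ vL (z ω) : ℝ) * Complex.I) =
        (1 / 2) * ((g (x ω) : ℂ) * Phi x z S c ω * Complex.exp ((b ⬝ᵥ vL (z ω) : ℝ) * Complex.I) +
          (g (x ω) : ℂ) * Phi x z S (-c) ω *
            Complex.exp ((b ⬝ᵥ vL (z ω) : ℝ) * Complex.I)) := by
      intro ω
      rw [Complex.ofReal_mul, W0_eq]
      ring
    simp only [e]
    rw [integral_const_mul, integral_add (int_Phi_mul hx hz hS hg hgb b c)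
      (int_Phi_mul hx hz hS hg hgb b (-c)), h1, h2]
    simp

theorem orth_W1 (hx : Measurable x) (hz : Measurable z) (hS : Adm S) (h : GLaw P Q x z S)
    (c : ρ → ℝ) {f : B × (ι → ℝ) → ℝ} (hf : Measurable f) {C : ℝ} (hC : ∀ p, |f p| ≤ C) :
    ∫ ω, W1 x z S c ω * f (x ω, vL (z ω)) ∂P = 0 := by
  refine uniq₂ P hx (meas_vL hz) ?_ (meas_W1 hS.mm hx hz c) ?_ hf hC
  · exact int_of_bdd (meas_W1 hS.mm hx hz c).aestronglyMeasurable (abs_W1_le hS c)
  · intro g hg hgb b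
    have h1 := reg0 hx hz hS h hg hgb b c
    have h2 := reg0 hx hz hS h hg hgb b (-c)
    have e : ∀ ω, ((g (x ω) * W1 x z S c ω : ℝ) : ℂ) *
        Complex.exp ((b ⬝ᵥ vL (z ω) : ℝ) * Complex.I) =
        (-Complex.I / 2) * ((g (x ω) : ℂ) * Phi x z S c ω *
            Complex.exp ((b ⬝ᵥ vL (z ω) : ℝ) * Complex.I) -
          (g (x ω) : ℂ) * Phi x z S (-c) ω *
            Complex.exp ((b ⬝ᵥ vL (z ω) : ℝ) * Complex.I)) := by
      intro ω
      rw [Complex.ofReal_mul, W1_eq]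
      ring
    simp only [e]
    rw [integral_const_mul, integral_sub (int_Phi_mul hx hz hS hg hgb b c)
      (int_Phi_mul hx hz hS hg hgb b (-c)), h1, h2]
    simp

/-- regression of a cosine with phase depending on base and edge noise -/
theorem reg_cos (hx : Measurable x) (hz : Measurable z) (hS : Adm S) (h : GLaw P Q x z S)
    (c : ρ → ℝ) {φ : B × (ι → ℝ) → ℝ} (hφ : Measurable φ)
    {f : B × (ι → ℝ) → ℝ} (hf : Measurable f) {C : ℝ} (hC : ∀ p, |f p| ≤ C) :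
    ∫ ω, Real.cos (φ (x ω, vL (z ω)) + c ⬝ᵥ vR (z ω)) * f (x ω, vL (z ω)) ∂P =
      ∫ ω, (Real.exp (-rcv (S (x ω)) c / 2) *
        Real.cos (φ (x ω, vL (z ω)) + mcv (S (x ω)) c ⬝ᵥ vL (z ω))) * f (x ω, vL (z ω)) ∂P := by
  have hC0 : 0 ≤ C := (abs_nonneg _).trans (hC (x (Classical.choice (by
    have := (inferInstance : IsProbabilityMeasure P)
    exact nonempty_of_isProbabilityMeasure P)), fun _ => 0))
  have hf1 : Measurable fun p => Real.cos (φ p) * f p := by fun_prop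
  have hf2 : Measurable fun p => Real.sin (φ p) * f p := by fun_prop
  have b1 : ∀ p, |Real.cos (φ p) * f p| ≤ C := fun p => by
    rw [abs_mul]
    exact (mul_le_of_le_one_left (abs_nonneg _) (Real.abs_cos_le_one _)).trans (hC p)
  have b2 : ∀ p, |Real.sin (φ p) * f p| ≤ C := fun p => by
    rw [abs_mul]
    exact (mul_le_of_le_one_left (abs_nonneg _) (Real.abs_sin_le_one _)).trans (hC p)
  have o1 := orth_W0 hx hz hS h c hf1 b1
  have o2 := orth_W1 hx hz hS h c hf2 b2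
  have hxz : Measurable fun ω => (x ω, vL (z ω)) := hx.prodMk (meas_vL hz)
  have mR := meas_dotR (c := c) hz
  have mM := meas_dotM (c := c) hS.mm hx hz
  have mr : Measurable fun ω => rcv (S (x ω)) c := (meas_rcv hS.mm c).comp hx
  have mφ : Measurable fun ω => φ (x ω, vL (z ω)) := hφ.comp hxz
  have mf : Measurable fun ω => f (x ω, vL (z ω)) := hf.comp hxz
  have i1 : Integrable (fun ω => Real.cos (φ (x ω, vL (z ω)) + c ⬝ᵥ vR (z ω)) *
      f (x ω, vL (z ω))) P := by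
    refine int_of_bdd (C := C) (Measurable.aestronglyMeasurable (by fun_prop)) fun ω => ?_
    rw [abs_mul]
    exact (mul_le_of_le_one_left (abs_nonneg _) (Real.abs_cos_le_one _)).trans (hC _)
  have i2 : Integrable (fun ω => (Real.exp (-rcv (S (x ω)) c / 2) *
        Real.cos (φ (x ω, vL (z ω)) + mcv (S (x ω)) c ⬝ᵥ vL (z ω))) * f (x ω, vL (z ω))) P := by
    refine int_of_bdd (C := C) (Measurable.aestronglyMeasurable (by fun_prop)) fun ω => ?_
    rw [abs_mul, abs_mul, Real.abs_exp]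
    exact (mul_le_of_le_one_left (abs_nonneg _) (mul_le_one₀ (exp_rcv_le hS c _) (abs_nonneg _)
      (Real.abs_cos_le_one _))).trans (hC _)
  have mW0 := meas_W0 hS.mm hx hz c
  have mW1 := meas_W1 hS.mm hx hz c
  have i3 : Integrable (fun ω => W0 x z S c ω * (Real.cos (φ (x ω, vL (z ω))) *
      f (x ω, vL (z ω)))) P := by
    refine int_of_bdd (C := 2 * C) (Measurable.aestronglyMeasurable (by fun_prop)) fun ω => ?_
    rw [abs_mul]
    exact mul_le_mul (abs_W0_le hS c ω) (b1 _) (abs_nonneg _) (by norm_num)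
  have i4 : Integrable (fun ω => W1 x z S c ω * (Real.sin (φ (x ω, vL (z ω))) *
      f (x ω, vL (z ω)))) P := by
    refine int_of_bdd (C := 2 * C) (Measurable.aestronglyMeasurable (by fun_prop)) fun ω => ?_
    rw [abs_mul]
    exact mul_le_mul (abs_W1_le hS c ω) (b2 _) (abs_nonneg _) (by norm_num)
  rw [← sub_eq_zero, ← integral_sub i1 i2]
  have e : ∀ ω, Real.cos (φ (x ω, vL (z ω)) + c ⬝ᵥ vR (z ω)) * f (x ω, vL (z ω)) -
      (Real.exp (-rcv (S (x ω)) c / 2) *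
        Real.cos (φ (x ω, vL (z ω)) + mcv (S (x ω)) c ⬝ᵥ vL (z ω))) * f (x ω, vL (z ω)) =
      W0 x z S c ω * (Real.cos (φ (x ω, vL (z ω))) * f (x ω, vL (z ω))) -
        W1 x z S c ω * (Real.sin (φ (x ω, vL (z ω))) * f (x ω, vL (z ω))) := by
    intro ω
    unfold W0 W1
    rw [Real.cos_add, Real.cos_add]
    ring
  simp only [e]
  rw [integral_sub i3 i4]
  have o1' : ∫ ω, W0 x z S c ω * (Real.cos (φ (x ω, vL (z ω))) * f (x ω, vL (z ω))) ∂P = 0 := o1
  have o2' : ∫ ω, W1 x z S c ω * (Real.sin (φ (x ω, vL (z ω))) * f (x ω, vL (z ω))) ∂P = 0 := o2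
  rw [o1', o2', sub_zero]

end reg2

end Crest.Agent.R166.Lim793
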