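import Mathlib
import Crest.Agent.R166.LimB_793

/-!
# Row 166 (helper793), section 40.10, part 4: the limit `η → 0` (finite windows, cosines).
-/

set_option autoImplicit false
set_option linter.unusedSectionVars false
set_option linter.unusedVariables false

noncomputable section

open MeasureTheory ProbabilityTheory Matrix Filter Topology
open scoped ENNReal

namespace Crest.Agent.R166.Lim793

section lim

variable {Ω : Type*} {m0 : MeasurableSpace Ω} {B : Type*} [mB : MeasurableSpace B]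
variable {ι ρ : Type*} [Fintype ι] [DecidableEq ι] [Fintype ρ] [DecidableEq ρ]
variable {Q : Measure B} [IsProbabilityMeasure Q]

/-- cosine test function -/
def Fc (x : Ω → B) (z : Ω → ι ⊕ ρ → ℝ) (φ : B × (ι → ℝ) → ℝ) (c : ρ → ℝ) (ω : Ω) : ℝ :=
  Real.cos (φ (x ω, vL (z ω)) + c ⬝ᵥ vR (z ω))

/-- its regression on base and edge -/
def FR (x : Ω → B) (z : Ω → ι ⊕ ρ → ℝ) (S : B → Matrix (ι ⊕ ρ) (ι ⊕ ρ) ℝ)
    (φ : B × (ι → ℝ) → ℝ) (c : ρ → ℝ) (ω : Ω) : ℝ :=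
  Real.exp (-rcv (S (x ω)) c / 2) * Real.cos (φ (x ω, vL (z ω)) + mcv (S (x ω)) c ⬝ᵥ vL (z ω))

/-- σ-algebra of base and edge noise -/
abbrev DD (x : Ω → B) (z : Ω → ι ⊕ ρ → ℝ) : MeasurableSpace Ω :=
  MeasurableSpace.comap (fun ω => (x ω, vL (z ω))) inferInstance

lemma DD_le {x : Ω → B} {z : Ω → ι ⊕ ρ → ℝ} (hx : Measurable x) (hz : Measurable z) :
    DD x z ≤ m0 := (hx.prodMk (meas_vL hz)).comap_le

lemma meas_pair {x : Ω → B} {z : Ω → ι ⊕ ρ → ℝ} :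
    Measurable[DD x z] fun ω => (x ω, vL (z ω)) := comap_measurable _

lemma FR_eq {x : Ω → B} {z : Ω → ι ⊕ ρ → ℝ} {S : B → Matrix (ι ⊕ ρ) (ι ⊕ ρ) ℝ}
    {φ : B × (ι → ℝ) → ℝ} {c : ρ → ℝ} :
    FR x z S φ c = (fun p : B × (ι → ℝ) => Real.exp (-rcv (S p.1) c / 2) *
      Real.cos (φ p + mcv (S p.1) c ⬝ᵥ p.2)) ∘ (fun ω => (x ω, vL (z ω))) := rfl

lemma meas_FR_aux {S : B → Matrix (ι ⊕ ρ) (ι ⊕ ρ) ℝ} (hS : MM S)
    {φ : B × (ι → ℝ) → ℝ} (hφ : Measurable φ) (c : ρ → ℝ) :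
    Measurable (fun p : B × (ι → ℝ) => Real.exp (-rcv (S p.1) c / 2) *
      Real.cos (φ p + mcv (S p.1) c ⬝ᵥ p.2)) := by
  have h1 : Measurable fun p : B × (ι → ℝ) => rcv (S p.1) c := (meas_rcv hS c).comp measurable_fst
  have h2 : Measurable fun p : B × (ι → ℝ) => mcv (S p.1) c ⬝ᵥ p.2 := by
    simp only [dotProduct]
    exact Finset.measurable_sum _ fun i _ => ((meas_mcv hS c i).comp measurable_fst).mul
      ((measurable_pi_apply i).comp measurable_snd)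
  fun_prop

lemma meas_FR {x : Ω → B} {z : Ω → ι ⊕ ρ → ℝ} {S : B → Matrix (ι ⊕ ρ) (ι ⊕ ρ) ℝ} (hS : MM S)
    {φ : B × (ι → ℝ) → ℝ} (hφ : Measurable φ) (c : ρ → ℝ) :
    Measurable[DD x z] (FR x z S φ c) := by
  rw [FR_eq]
  exact (meas_FR_aux hS hφ c).comp meas_pair

lemma meas_Fc {x : Ω → B} {z : Ω → ι ⊕ ρ → ℝ} (hx : Measurable x) (hz : Measurable z)
    {φ : B × (ι → ℝ) → ℝ} (hφ : Measurable φ) (c : ρ → ℝ) : Measurable (Fc x z φ c) := by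
  unfold Fc
  have h1 : Measurable fun ω => φ (x ω, vL (z ω)) := hφ.comp (hx.prodMk (meas_vL hz))
  have h2 := meas_dotR (c := c) hz
  exact Real.measurable_cos.comp (h1.add h2)

lemma abs_Fc_le {x : Ω → B} {z : Ω → ι ⊕ ρ → ℝ} {φ : B × (ι → ℝ) → ℝ} {c : ρ → ℝ} (ω : Ω) :
    |Fc x z φ c ω| ≤ 1 := Real.abs_cos_le_one _

lemma abs_FR_le {x : Ω → B} {z : Ω → ι ⊕ ρ → ℝ} {S : B → Matrix (ι ⊕ ρ) (ι ⊕ ρ) ℝ} (hS : Adm S)
    {φ : B × (ι → ℝ) → ℝ} {c : ρ → ℝ} (ω : Ω) : |FR x z S φ c ω| ≤ 1 := by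
  unfold FR
  rw [abs_mul, Real.abs_exp]
  exact mul_le_one₀ (exp_rcv_le hS c _) (abs_nonneg _) (Real.abs_cos_le_one _)

/-- regression, tested against functions measurable with respect to base and edge -/
lemma int_Fc_mul {P : Measure Ω} [IsProbabilityMeasure P] {x : Ω → B} {z : Ω → ι ⊕ ρ → ℝ}
    (hx : Measurable x) (hz : Measurable z) {S : B → Matrix (ι ⊕ ρ) (ι ⊕ ρ) ℝ} (hS : Adm S)
    (h : GLaw P Q x z S) (c : ρ → ℝ) {φ : B × (ι → ℝ) → ℝ} (hφ : Measurable φ)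
    {G : Ω → ℝ} (hG : Measurable[DD x z] G) (hGb : ∀ ω, |G ω| ≤ 1) :
    ∫ ω, Fc x z φ c ω * G ω ∂P = ∫ ω, FR x z S φ c ω * G ω ∂P := by
  obtain ⟨f, hf, rfl⟩ := hG.exists_eq_measurable_comp
  have hcl : ∀ ω, f (x ω, vL (z ω)) = cl (f (x ω, vL (z ω))) := fun ω => (cl_eq (hGb ω)).symm
  have h1 := reg_cos hx hz hS h c hφ (f := fun p => cl (f p)) (measurable_cl.comp hf) (C := 1)
    (fun p => abs_cl _)
  simp only [← hcl] at h1
  exact h1

lemma condExp_congr_sets {P : Measure Ω} [IsProbabilityMeasure P] {𝒞 : MeasurableSpace Ω}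
    (hC : 𝒞 ≤ m0) {f g : Ω → ℝ} (hf : Integrable f P) (hg : Integrable g P)
    (h : ∀ s, MeasurableSet[𝒞] s → ∫ ω in s, f ω ∂P = ∫ ω in s, g ω ∂P) :
    P[f|𝒞] =ᵐ[P] P[g|𝒞] := by
  symm
  refine ae_eq_condExp_of_forall_setIntegral_eq hC hf
    (fun s hs _ => integrable_condExp.integrableOn) (fun s hs _ => ?_)
    stronglyMeasurable_condExp.aestronglyMeasurable
  rw [setIntegral_condExp hC hg hs, h s hs]

lemma ce_Fc {P : Measure Ω} [IsProbabilityMeasure P] {x : Ω → B} {z : Ω → ι ⊕ ρ → ℝ}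
    (hx : Measurable x) (hz : Measurable z) {S : B → Matrix (ι ⊕ ρ) (ι ⊕ ρ) ℝ} (hS : Adm S)
    (h : GLaw P Q x z S) (c : ρ → ℝ) {φ : B × (ι → ℝ) → ℝ} (hφ : Measurable φ)
    {𝒞 : MeasurableSpace Ω} (hC : 𝒞 ≤ DD x z) :
    ce P 𝒞 (Fc x z φ c) =ᵐ[P] ce P 𝒞 (FR x z S φ c) := by
  classical
  have hD := DD_le hx hz
  have h1 : P[Fc x z φ c|𝒞] =ᵐ[P] P[FR x z S φ c|𝒞] := by
    refine condExp_congr_sets (hC.trans hD)
      (int_of_bdd (meas_Fc hx hz hφ c).aestronglyMeasurable abs_Fc_le)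
      (int_of_bdd ((meas_FR hS.mm hφ c).mono hD le_rfl).aestronglyMeasurable (abs_FR_le hS)) ?_
    intro s hs
    have hs0 : MeasurableSet[m0] s := hD _ (hC _ hs)
    have hG : Measurable[DD x z] (s.indicator (1 : Ω → ℝ)) :=
      (measurable_const : Measurable[DD x z] (fun _ : Ω => (1:ℝ))).indicator (hC _ hs)
    have hGb : ∀ ω, |s.indicator (1 : Ω → ℝ) ω| ≤ 1 := fun ω => by
      simp only [Set.indicator_apply]; split_ifs <;> simp
    have h2 := int_Fc_mul hx hz hS h c hφ hG hGb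
    rw [← integral_indicator hs0, ← integral_indicator hs0]
    have e : ∀ (F : Ω → ℝ), s.indicator F = fun ω => F ω * s.indicator (1 : Ω → ℝ) ω := by
      intro F
      ext ω
      simp only [Set.indicator_apply]; split_ifs <;> simp
    rw [e (Fc x z φ c), e (FR x z S φ c)]
    exact h2
  filter_upwards [h1] with ω hω
  unfold ce
  rw [hω]

lemma Prd_congr {P : Measure Ω} {𝒞 : MeasurableSpace Ω} {f f' g g' G : Ω → ℝ}
    (hf : ce P 𝒞 f =ᵐ[P] ce P 𝒞 f') (hg : ce P 𝒞 g =ᵐ[P] ce P 𝒞 g') :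
    Prd P 𝒞 f g G = Prd P 𝒞 f' g' G := by
  unfold Prd
  refine integral_congr_ae ?_
  filter_upwards [hf, hg] with ω h1 h2
  rw [h1, h2]

/-- the law of the base variable -/
lemma GLaw.map_eq {κ : Type*} [Fintype κ] {P : Measure Ω} [IsProbabilityMeasure P] {x : Ω → B}
    {V : Ω → κ → ℝ} (hx : Measurable x) {S : B → Matrix κ κ ℝ} (h : GLaw P Q x V S) :
    P.map x = Q := by
  classical
  ext s hs
  set g : B → ℝ := s.indicator 1 with hg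
  have hgb : ∀ y, |g y| ≤ 1 := fun y => by
    simp only [hg, Set.indicator_apply]; split_ifs <;> simp
  have h1 := h g (measurable_one.indicator hs) hgb 0
  simp only [zero_dotProduct, Complex.ofReal_zero, zero_mul, Complex.exp_zero, mul_one, neg_zero,
    zero_div] at h1
  have h2 : ∫ ω, g (x ω) ∂P = ∫ y, g y ∂Q := by
    have h3 : ((∫ ω, g (x ω) ∂P : ℝ) : ℂ) = ((∫ y, g y ∂Q : ℝ) : ℂ) := by
      rw [← integral_complex_ofReal, ← integral_complex_ofReal]; exact h1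
    exact_mod_cast h3
  have e1 : (fun ω => g (x ω)) = (x ⁻¹' s).indicator 1 := by
    ext ω; simp [hg, Set.indicator_apply]
  rw [e1, hg, integral_indicator_one (hx hs), integral_indicator_one hs] at h2
  rw [Measure.map_apply hx hs]
  exact (measureReal_eq_measureReal_iff).1 h2

lemma GLaw.ae {κ : Type*} [Fintype κ] {P : Measure Ω} [IsProbabilityMeasure P] {x : Ω → B}
    {V : Ω → κ → ℝ} (hx : Measurable x) {S : B → Matrix κ κ ℝ} (h : GLaw P Q x V S)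
    {p : B → Prop} (hp : ∀ᵐ y ∂Q, p y) : ∀ᵐ ω ∂P, p (x ω) := by
  have h1 := h.map_eq hx
  rw [← h1] at hp
  exact ae_of_ae_map hx.aemeasurable hp

lemma mcv_tendsto {Sn : ℕ → Matrix (ι ⊕ ρ) (ι ⊕ ρ) ℝ} {S : Matrix (ι ⊕ ρ) (ι ⊕ ρ) ℝ}
    (hS : S.toBlocks₁₁.det ≠ 0) (h : ∀ i j, Tendsto (fun n => Sn n i j) atTop (𝓝 (S i j)))
    (c : ρ → ℝ) (i : ι) : Tendsto (fun n => mcv (Sn n) c i) atTop (𝓝 (mcv S c i)) := by
  have hM : Tendsto (fun n => (Sn n).toBlocks₁₁) atTop (𝓝 S.toBlocks₁₁) := by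
    refine tendsto_pi_nhds.2 fun i => ?_
    exact tendsto_pi_nhds.2 fun j => h _ _
  have hdet : Tendsto (fun n => (Sn n).toBlocks₁₁.det) atTop (𝓝 S.toBlocks₁₁.det) :=
    ((continuous_id.matrix_det).tendsto _).comp hM
  have hadj : ∀ i j, Tendsto (fun n => (Sn n).toBlocks₁₁.adjugate i j) atTop
      (𝓝 (S.toBlocks₁₁.adjugate i j)) := by
    intro i j
    have : Continuous fun A : Matrix ι ι ℝ => A.adjugate i j :=
      (continuous_id.matrix_adjugate).matrix_elem i j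
    exact (this.tendsto _).comp hM
  have hinv : ∀ i j, Tendsto (fun n => (Sn n).toBlocks₁₁⁻¹ i j) atTop
      (𝓝 (S.toBlocks₁₁⁻¹ i j)) := by
    intro i j
    simp only [Matrix.inv_def, Matrix.smul_apply, Ring.inverse_eq_inv', smul_eq_mul]
    exact (hdet.inv₀ hS).mul (hadj i j)
  have h12 : ∀ j, Tendsto (fun n => ((Sn n).toBlocks₁₂ *ᵥ c) j) atTop
      (𝓝 ((S.toBlocks₁₂ *ᵥ c) j)) := by
    intro j
    simp only [Matrix.mulVec, dotProduct]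
    exact tendsto_finsetSum _ fun k _ => (h _ _).mul tendsto_const_nhds
  have e : ∀ A : Matrix (ι ⊕ ρ) (ι ⊕ ρ) ℝ, mcv A c i =
      ∑ j, A.toBlocks₁₁⁻¹ i j * (A.toBlocks₁₂ *ᵥ c) j := fun A => rfl
  simp only [e]
  exact tendsto_finsetSum _ fun j _ => (hinv i j).mul (h12 j)

lemma rcv_tendsto {Sn : ℕ → Matrix (ι ⊕ ρ) (ι ⊕ ρ) ℝ} {S : Matrix (ι ⊕ ρ) (ι ⊕ ρ) ℝ}
    (hS : S.toBlocks₁₁.det ≠ 0) (h : ∀ i j, Tendsto (fun n => Sn n i j) atTop (𝓝 (S i j)))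
    (c : ρ → ℝ) : Tendsto (fun n => rcv (Sn n) c) atTop (𝓝 (rcv S c)) := by
  have h12 : ∀ j, Tendsto (fun n => ((Sn n).toBlocks₁₂ *ᵥ c) j) atTop
      (𝓝 ((S.toBlocks₁₂ *ᵥ c) j)) := by
    intro j
    simp only [Matrix.mulVec, dotProduct]
    exact tendsto_finsetSum _ fun k _ => (h _ _).mul tendsto_const_nhds
  have h22 : Tendsto (fun n => c ⬝ᵥ (Sn n).toBlocks₂₂ *ᵥ c) atTop
      (𝓝 (c ⬝ᵥ S.toBlocks₂₂ *ᵥ c)) := by
    simp only [Matrix.mulVec, dotProduct]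
    exact tendsto_finsetSum _ fun k _ => tendsto_const_nhds.mul
      (tendsto_finsetSum _ fun l _ => (h _ _).mul tendsto_const_nhds)
  unfold rcv
  refine h22.sub ?_
  have e : ∀ A : Matrix (ι ⊕ ρ) (ι ⊕ ρ) ℝ, (A.toBlocks₁₂ *ᵥ c) ⬝ᵥ mcv A c =
      ∑ j, (A.toBlocks₁₂ *ᵥ c) j * mcv A c j := fun A => rfl
  simp only [e]
  exact tendsto_finsetSum _ fun j _ => (h12 j).mul (mcv_tendsto hS h c j)

/-- standing assumptions of the limit `η → 0` -/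
structure LimSetup (P : ℕ → Measure Ω) (P' : Measure Ω) (Q : Measure B) (x : Ω → B)
    (z : Ω → ι ⊕ ρ → ℝ) (Sn : ℕ → B → Matrix (ι ⊕ ρ) (ι ⊕ ρ) ℝ)
    (S : B → Matrix (ι ⊕ ρ) (ι ⊕ ρ) ℝ) : Prop where
  hP : ∀ n, IsProbabilityMeasure (P n)
  hP' : IsProbabilityMeasure P'
  hx : Measurable x
  hz : Measurable z
  hSn : ∀ n, Adm (Sn n)
  hS : Adm S
  law : ∀ n, GLaw (P n) Q x z (Sn n)
  law' : GLaw P' Q x z S
  lim : ∀ᵐ y ∂Q, ∀ i j, Tendsto (fun n => Sn n y i j) atTop (𝓝 (S y i j))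

variable {P : ℕ → Measure Ω} {P' : Measure Ω} {x : Ω → B}
    {z : Ω → ι ⊕ ρ → ℝ} {Sn : ℕ → B → Matrix (ι ⊕ ρ) (ι ⊕ ρ) ℝ}
    {S : B → Matrix (ι ⊕ ρ) (ι ⊕ ρ) ℝ}

/-- total variation error -/
def ev (Q : Measure B) (Sn : ℕ → B → Matrix (ι ⊕ ρ) (ι ⊕ ρ) ℝ)
    (S : B → Matrix (ι ⊕ ρ) (ι ⊕ ρ) ℝ) (n : ℕ) : ℝ :=
  ∫ p : B × (ι → ℝ), |gd ((Sn n p.1).toBlocks₁₁) p.2 - gd ((S p.1).toBlocks₁₁) p.2|
    ∂(Q.prod volume)

lemma LimSetup.ev_tendsto (L : LimSetup P P' Q x z Sn S) :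
    Tendsto (ev Q Sn S) atTop (𝓝 0) := by
  have h0 : ∀ᵐ y ∂Q, ∀ i j, Tendsto (fun n => (Sn n y).toBlocks₁₁ i j) atTop
      (𝓝 ((S y).toBlocks₁₁ i j)) := by
    filter_upwards [L.lim] with y hy
    exact fun i j => hy _ _
  have h1 : ∀ n, MM fun y => (Sn n y).toBlocks₁₁ := fun n => (L.hSn n).mm.b11
  have h2 : MM fun y => (S y).toBlocks₁₁ := L.hS.mm.b11
  exact tv_tendsto (Q := Q) (Sn := fun n y => (Sn n y).toBlocks₁₁)
    (S := fun y => (S y).toBlocks₁₁) h1 h2 (fun n => (L.hSn n).pd) L.hS.pd h0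

lemma LimSetup.tv (L : LimSetup P P' Q x z Sn S) (n : ℕ) :
    TV (P n) P' (DD x z) (ev Q Sn S n) := by
  have := L.hP n
  have := L.hP'
  have h1 : MM fun y => (Sn n y).toBlocks₁₁ := (L.hSn n).mm.b11
  have h2 : MM fun y => (S y).toBlocks₁₁ := L.hS.mm.b11
  have h3 : GLaw (P n) Q x (fun ω => vL (z ω)) (fun y => (Sn n y).toBlocks₁₁) := (L.law n).left
  have h4 : GLaw P' Q x (fun ω => vL (z ω)) (fun y => (S y).toBlocks₁₁) := L.law'.left
  exact tv_law (P := P n) (P' := P') (V := fun ω => vL (z ω))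
    (S := fun y => (Sn n y).toBlocks₁₁) (S' := fun y => (S y).toBlocks₁₁)
    L.hx (meas_vL L.hz) h1 h2 (L.hSn n).pd L.hS.pd h3 h4

lemma LimSetup.FR_tendsto (L : LimSetup P P' Q x z Sn S) {φ : B × (ι → ℝ) → ℝ}
    (hφ : Measurable φ) (c : ρ → ℝ) :
    Tendsto (fun n => ∫ ω, |FR x z (Sn n) φ c ω - FR x z S φ c ω| ∂P') atTop (𝓝 0) := by
  have := L.hP'
  have hD := DD_le L.hx L.hz
  have h0 : ∫ ω, (0 : ℝ) ∂P' = 0 := by simp
  rw [← h0]
  refine tendsto_integral_of_dominated_convergence (fun _ => (2 : ℝ)) (fun n => ?_)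
    (integrable_const _) (fun n => ?_) ?_
  · exact ((((meas_FR (L.hSn n).mm hφ c).mono hD le_rfl).sub
      ((meas_FR L.hS.mm hφ c).mono hD le_rfl)).abs).aestronglyMeasurable
  · refine Eventually.of_forall fun ω => ?_
    rw [Real.norm_eq_abs, abs_abs]
    refine (abs_sub _ _).trans ?_
    have h1 := abs_FR_le (L.hSn n) (x := x) (z := z) (φ := φ) (c := c) ω
    have h2 := abs_FR_le L.hS (x := x) (z := z) (φ := φ) (c := c) ω
    linarith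
  · filter_upwards [L.law'.ae L.hx L.lim] with ω hω
    have hd : (S (x ω)).toBlocks₁₁.det ≠ 0 := (L.hS.pd _).det_pos.ne'
    have h1 := rcv_tendsto hd hω c
    have h2 : Tendsto (fun n => mcv (Sn n (x ω)) c ⬝ᵥ vL (z ω)) atTop
        (𝓝 (mcv (S (x ω)) c ⬝ᵥ vL (z ω))) := by
      simp only [dotProduct]
      exact tendsto_finsetSum _ fun i _ => (mcv_tendsto hd hω c i).mul tendsto_const_nhds
    have h3 : Tendsto (fun n => FR x z (Sn n) φ c ω) atTop (𝓝 (FR x z S φ c ω)) := by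
      unfold FR
      refine Tendsto.mul ?_ ?_
      · exact (Real.continuous_exp.tendsto _).comp ((h1.neg).div_const 2)
      · exact (Real.continuous_cos.tendsto _).comp (tendsto_const_nhds.add h2)
    have h4 := (h3.sub_const (FR x z S φ c ω)).abs
    simpa using h4

/-- integrals of a cosine against a function of base and edge converge -/
theorem LimSetup.int_tendsto (L : LimSetup P P' Q x z Sn S) {φ : B × (ι → ℝ) → ℝ}
    (hφ : Measurable φ) (c : ρ → ℝ) {G : Ω → ℝ} (hG : Measurable[DD x z] G)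
    (hGb : ∀ ω, |G ω| ≤ 1) :
    Tendsto (fun n => ∫ ω, Fc x z φ c ω * G ω ∂(P n)) atTop
      (𝓝 (∫ ω, Fc x z φ c ω * G ω ∂P')) := by
  have := L.hP
  have := L.hP'
  have hD := DD_le L.hx L.hz
  rw [int_Fc_mul L.hx L.hz L.hS L.law' c hφ hG hGb]
  have e : ∀ n, ∫ ω, Fc x z φ c ω * G ω ∂(P n) = ∫ ω, FR x z (Sn n) φ c ω * G ω ∂(P n) :=
    fun n => int_Fc_mul L.hx L.hz (L.hSn n) (L.law n) c hφ hG hGb
  simp only [e]
  rw [tendsto_iff_dist_tendsto_zero]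
  have hG0 : Measurable G := hG.mono hD le_rfl
  refine squeeze_zero (fun n => dist_nonneg) (fun n => ?_)
    (by simpa using L.ev_tendsto.add (L.FR_tendsto hφ c))
  rw [Real.dist_eq]
  have hmul : ∀ {a b : ℝ}, |a| ≤ 1 → |b| ≤ 1 → |a * b| ≤ 1 := fun ha hb => by
    rw [abs_mul]; exact mul_le_one₀ ha (abs_nonneg _) hb
  have t1 := L.tv n (fun ω => FR x z (Sn n) φ c ω * G ω) ((meas_FR (L.hSn n).mm hφ c).mul hG)
    (fun ω => hmul (abs_FR_le (L.hSn n) ω) (hGb ω))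
  have i1 : Integrable (fun ω => FR x z (Sn n) φ c ω * G ω) P' :=
    int_of_bdd (((meas_FR (L.hSn n).mm hφ c).mono hD le_rfl).mul hG0).aestronglyMeasurable
      (fun ω => hmul (abs_FR_le (L.hSn n) ω) (hGb ω))
  have i2 : Integrable (fun ω => FR x z S φ c ω * G ω) P' :=
    int_of_bdd (((meas_FR L.hS.mm hφ c).mono hD le_rfl).mul hG0).aestronglyMeasurable
      (fun ω => hmul (abs_FR_le L.hS ω) (hGb ω))
  have i3 : Integrable (fun ω => FR x z (Sn n) φ c ω - FR x z S φ c ω) P' :=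
    (int_of_bdd (((meas_FR (L.hSn n).mm hφ c).mono hD le_rfl)).aestronglyMeasurable
      (abs_FR_le (L.hSn n))).sub
    (int_of_bdd (((meas_FR L.hS.mm hφ c).mono hD le_rfl)).aestronglyMeasurable (abs_FR_le L.hS))
  have t2 : |∫ ω, FR x z (Sn n) φ c ω * G ω ∂P' - ∫ ω, FR x z S φ c ω * G ω ∂P'| ≤
      ∫ ω, |FR x z (Sn n) φ c ω - FR x z S φ c ω| ∂P' := by
    rw [← integral_sub i1 i2]
    refine (abs_integral_le_integral_abs).trans (integral_mono (i1.sub i2).abs i3.abs fun ω => ?_)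
    simp only
    rw [← sub_mul, abs_mul]
    exact mul_le_of_le_one_right (abs_nonneg _) (hGb ω)
  calc |∫ ω, FR x z (Sn n) φ c ω * G ω ∂(P n) - ∫ ω, FR x z S φ c ω * G ω ∂P'|
      ≤ |∫ ω, FR x z (Sn n) φ c ω * G ω ∂(P n) - ∫ ω, FR x z (Sn n) φ c ω * G ω ∂P'| +
        |∫ ω, FR x z (Sn n) φ c ω * G ω ∂P' - ∫ ω, FR x z S φ c ω * G ω ∂P'| :=
        abs_sub_le _ _ _
    _ ≤ ev Q Sn S n + ∫ ω, |FR x z (Sn n) φ c ω - FR x z S φ c ω| ∂P' := add_le_add t1 t2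

/-- the product functional converges -/
theorem LimSetup.prd_tendsto (L : LimSetup P P' Q x z Sn S) {φ ψ : B × (ι → ℝ) → ℝ}
    (hφ : Measurable φ) (hψ : Measurable ψ) (a b : ρ → ℝ) {𝒞 : MeasurableSpace Ω}
    (hC : 𝒞 ≤ DD x z) {G : Ω → ℝ} (hG : Measurable[𝒞] G) (hGb : ∀ ω, |G ω| ≤ 1) :
    Tendsto (fun n => Prd (P n) 𝒞 (Fc x z φ a) (Fc x z ψ b) G) atTop
      (𝓝 (Prd P' 𝒞 (Fc x z φ a) (Fc x z ψ b) G)) := by
  have := L.hP
  have := L.hP'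
  have hD := DD_le L.hx L.hz
  rw [Prd_congr (ce_Fc L.hx L.hz L.hS L.law' a hφ hC) (ce_Fc L.hx L.hz L.hS L.law' b hψ hC)]
  have e : ∀ n, Prd (P n) 𝒞 (Fc x z φ a) (Fc x z ψ b) G =
      Prd (P n) 𝒞 (FR x z (Sn n) φ a) (FR x z (Sn n) ψ b) G := fun n =>
    Prd_congr (ce_Fc L.hx L.hz (L.hSn n) (L.law n) a hφ hC)
      (ce_Fc L.hx L.hz (L.hSn n) (L.law n) b hψ hC)
  simp only [e]
  rw [tendsto_iff_dist_tendsto_zero]
  refine squeeze_zero (fun n => dist_nonneg) (fun n => ?_)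
    (by simpa using ((L.ev_tendsto.const_mul 5).add (L.FR_tendsto hφ a)).add (L.FR_tendsto hψ b))
  rw [Real.dist_eq]
  exact prd_close hD hC (L.tv n) (meas_FR (L.hSn n).mm hφ a) (meas_FR L.hS.mm hφ a)
    (meas_FR (L.hSn n).mm hψ b) (meas_FR L.hS.mm hψ b) hG (abs_FR_le (L.hSn n)) (abs_FR_le L.hS)
    (abs_FR_le (L.hSn n)) (abs_FR_le L.hS) hGb

/-- **Window theorem.** Approximate conditional independence with vanishing error becomes exact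
conditional independence in the limit (cosine test functions). -/
theorem LimSetup.exact (L : LimSetup P P' Q x z Sn S) {φ ψ : B × (ι → ℝ) → ℝ}
    (hφ : Measurable φ) (hψ : Measurable ψ) (a b : ρ → ℝ) {𝒞 : MeasurableSpace Ω}
    (hC : 𝒞 ≤ DD x z) {G : Ω → ℝ} (hG : Measurable[𝒞] G) (hGb : ∀ ω, |G ω| ≤ 1)
    {δ : ℕ → ℝ} (hδ : Tendsto δ atTop (𝓝 0))
    (h : ∀ n, |∫ ω, Fc x z φ a ω * Fc x z ψ b ω * G ω ∂(P n) -
      Prd (P n) 𝒞 (Fc x z φ a) (Fc x z ψ b) G| ≤ δ n) :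
    ∫ ω, Fc x z φ a ω * Fc x z ψ b ω * G ω ∂P' = Prd P' 𝒞 (Fc x z φ a) (Fc x z ψ b) G := by
  have := L.hP
  have := L.hP'
  have hD := DD_le L.hx L.hz
  have hG' : Measurable[DD x z] G := hG.mono hC le_rfl
  have hG0 : Measurable[m0] G := hG'.mono hD le_rfl
  have hmul : ∀ {a b : ℝ}, |a| ≤ 1 → |b| ≤ 1 → |a * b| ≤ 1 := fun ha hb => by
    rw [abs_mul]; exact mul_le_one₀ ha (abs_nonneg _) hb
  -- product to sum
  have e : ∀ ν : @Measure Ω m0, IsProbabilityMeasure ν →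
      ∫ ω, Fc x z φ a ω * Fc x z ψ b ω * G ω ∂ν =
      (1 / 2) * (∫ ω, Fc x z (fun p => φ p + ψ p) (a + b) ω * G ω ∂ν +
        ∫ ω, Fc x z (fun p => φ p - ψ p) (a - b) ω * G ω ∂ν) := by
    intro ν hν
    have i1 : Integrable (fun ω => Fc x z (fun p => φ p + ψ p) (a + b) ω * G ω) ν :=
      int_of_bdd ((meas_Fc L.hx L.hz (hφ.add hψ) (a + b)).mul hG0).aestronglyMeasurable
        (fun ω => hmul (abs_Fc_le ω) (hGb ω))
    have i2 : Integrable (fun ω => Fc x z (fun p => φ p - ψ p) (a - b) ω * G ω) ν :=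
      int_of_bdd ((meas_Fc L.hx L.hz (hφ.sub hψ) (a - b)).mul hG0).aestronglyMeasurable
        (fun ω => hmul (abs_Fc_le ω) (hGb ω))
    rw [← integral_add i1 i2, ← integral_const_mul]
    refine integral_congr_ae (Eventually.of_forall fun ω => ?_)
    simp only [Fc, add_dotProduct, sub_dotProduct]
    have h1 : φ (x ω, vL (z ω)) + ψ (x ω, vL (z ω)) + (a ⬝ᵥ vR (z ω) + b ⬝ᵥ vR (z ω)) =
        (φ (x ω, vL (z ω)) + a ⬝ᵥ vR (z ω)) + (ψ (x ω, vL (z ω)) + b ⬝ᵥ vR (z ω)) := by ring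
    have h2 : φ (x ω, vL (z ω)) - ψ (x ω, vL (z ω)) + (a ⬝ᵥ vR (z ω) - b ⬝ᵥ vR (z ω)) =
        (φ (x ω, vL (z ω)) + a ⬝ᵥ vR (z ω)) - (ψ (x ω, vL (z ω)) + b ⬝ᵥ vR (z ω)) := by ring
    have key : ∀ α β γ : ℝ, Real.cos α * Real.cos β * γ =
        1 / 2 * (Real.cos (α + β) * γ + Real.cos (α - β) * γ) := by
      intro α β γ
      rw [Real.cos_add, Real.cos_sub]; ring
    rw [h1, h2]
    exact key _ _ _
  have t1 : Tendsto (fun n => ∫ ω, Fc x z φ a ω * Fc x z ψ b ω * G ω ∂(P n)) atTop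
      (𝓝 (∫ ω, Fc x z φ a ω * Fc x z ψ b ω * G ω ∂P')) := by
    rw [e P' L.hP']
    have e' : ∀ n, ∫ ω, Fc x z φ a ω * Fc x z ψ b ω * G ω ∂(P n) = _ := fun n => e (P n) (L.hP n)
    simp only [e']
    exact ((L.int_tendsto (hφ.add hψ) (a + b) hG' hGb).add
      (L.int_tendsto (hφ.sub hψ) (a - b) hG' hGb)).const_mul _
  have t2 := L.prd_tendsto hφ hψ a b hC hG hGb
  have t3 := (t1.sub t2).abs
  have t4 : |∫ ω, Fc x z φ a ω * Fc x z ψ b ω * G ω ∂P' -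
      Prd P' 𝒞 (Fc x z φ a) (Fc x z ψ b) G| ≤ 0 := le_of_tendsto_of_tendsto' t3 hδ h
  have t5 := abs_nonpos_iff.1 t4
  linarith

end lim

end Crest.Agent.R166.Lim793
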