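import Mathlib
import Crest.Agent.R166.LimC_793
import Crest.Agent.R166.Lim_47

/-!
# Row 166 (helper793), section 40.10, part 5: from cosines to all bounded functions.
-/

set_option autoImplicit false
set_option linter.unusedSectionVars false
set_option linter.unusedVariables false

noncomputable section

open MeasureTheory ProbabilityTheory Matrix Filter Topology
open scoped ENNReal

namespace Crest.Agent.R166.Lim793

section ext

variable {Ω : Type*} {m0 : MeasurableSpace Ω} {P : Measure Ω} [IsProbabilityMeasure P]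

/-- exact conditional independence of two bounded functions, in integral form -/
def CIint (P : Measure Ω) (𝒞 : MeasurableSpace Ω) (f g : Ω → ℝ) : Prop :=
  ∀ G : Ω → ℝ, Measurable[𝒞] G → (∀ ω, |G ω| ≤ 1) →
    ∫ ω, f ω * g ω * G ω ∂P = Prd P 𝒞 f g G

lemma CIint.symm {𝒞 : MeasurableSpace Ω} {f g : Ω → ℝ} (h : CIint P 𝒞 f g) : CIint P 𝒞 g f := by
  intro G hG hb
  have h1 := h G hG hb
  have e1 : ∀ ω, g ω * f ω * G ω = f ω * g ω * G ω := fun ω => by ring
  have e2 : Prd P 𝒞 g f G = Prd P 𝒞 f g G := by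
    unfold Prd
    refine integral_congr_ae (Eventually.of_forall fun ω => ?_)
    simp only
    ring
  simp only [e1]
  rw [h1, e2]

lemma abs_mul_le_one {a b : ℝ} (ha : |a| ≤ 1) (hb : |b| ≤ 1) : |a * b| ≤ 1 := by
  rw [abs_mul]; exact mul_le_one₀ ha (abs_nonneg _) hb

/-- the test weight -/
def wt (P : Measure Ω) (𝒞 : MeasurableSpace Ω) (g G : Ω → ℝ) (ω : Ω) : ℝ :=
  (g ω - ce P 𝒞 g ω) * G ω

lemma meas_wt {𝒞 : MeasurableSpace Ω} (hC : 𝒞 ≤ m0) {g G : Ω → ℝ} (hg : Measurable[m0] g)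
    (hG : Measurable[𝒞] G) : Measurable[m0] (wt P 𝒞 g G) :=
  (hg.sub ((ce_meas (P := P) g).mono hC le_rfl)).mul (hG.mono hC le_rfl)

lemma abs_wt {𝒞 : MeasurableSpace Ω} {g G : Ω → ℝ} (hg : ∀ ω, |g ω| ≤ 1) (hG : ∀ ω, |G ω| ≤ 1)
    (ω : Ω) : |wt P 𝒞 g G ω| ≤ 2 := by
  unfold wt
  rw [abs_mul]
  have h1 := abs_sub (g ω) (ce P 𝒞 g ω)
  have h2 := abs_ce (P := P) (m := 𝒞) g ω
  have h3 := hg ω
  have h4 : |g ω - ce P 𝒞 g ω| ≤ 2 := by linarith
  exact (mul_le_of_le_one_right (abs_nonneg _) (hG ω)).trans h4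

/-- `CIint` is the statement that `f` is orthogonal to the test weights -/
lemma ciint_iff {𝒞 : MeasurableSpace Ω} (hC : 𝒞 ≤ m0) {f g : Ω → ℝ} (hf : Measurable[m0] f)
    (hfb : ∀ ω, |f ω| ≤ 1) (hg : Measurable[m0] g) (hgb : ∀ ω, |g ω| ≤ 1) {G : Ω → ℝ}
    (hG : Measurable[𝒞] G) (hGb : ∀ ω, |G ω| ≤ 1) :
    (∫ ω, f ω * g ω * G ω ∂P = Prd P 𝒞 f g G) ↔ ∫ ω, f ω * wt P 𝒞 g G ω ∂P = 0 := by
  have hcm : Measurable[m0] (ce P 𝒞 g) := (ce_meas (P := P) g).mono hC le_rfl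
  have hG0 : Measurable[m0] G := hG.mono hC le_rfl
  have h1 : Prd P 𝒞 f g G = ∫ ω, f ω * (ce P 𝒞 g ω * G ω) ∂P := by
    have h2 := int_mul_ce (P := P) hC (s := fun ω => ce P 𝒞 g ω * G ω) (f := f)
      ((ce_meas (P := P) g).mul hG) (C := 1)
      (fun ω => abs_mul_le_one (abs_ce g ω) (hGb ω)) hf hfb
    unfold Prd
    calc ∫ ω, ce P 𝒞 f ω * ce P 𝒞 g ω * G ω ∂P = ∫ ω, (ce P 𝒞 g ω * G ω) * ce P 𝒞 f ω ∂P :=
          integral_congr_ae (Eventually.of_forall fun ω => by simp only; ring)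
      _ = ∫ ω, (ce P 𝒞 g ω * G ω) * f ω ∂P := h2
      _ = ∫ ω, f ω * (ce P 𝒞 g ω * G ω) ∂P :=
          integral_congr_ae (Eventually.of_forall fun ω => by simp only; ring)
  rw [h1, ← sub_eq_zero]
  have i1 : Integrable (fun ω => f ω * g ω * G ω) P :=
    int_of_bdd ((hf.mul hg).mul hG0).aestronglyMeasurable
      (fun ω => abs_mul_le_one (abs_mul_le_one (hfb ω) (hgb ω)) (hGb ω))
  have i2 : Integrable (fun ω => f ω * (ce P 𝒞 g ω * G ω)) P :=
    int_of_bdd (hf.mul (hcm.mul hG0)).aestronglyMeasurable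
      (fun ω => abs_mul_le_one (hfb ω) (abs_mul_le_one (abs_ce g ω) (hGb ω)))
  rw [← integral_sub i1 i2]
  have e : ∀ ω, f ω * g ω * G ω - f ω * (ce P 𝒞 g ω * G ω) = f ω * wt P 𝒞 g G ω := by
    intro ω; unfold wt; ring
  simp only [e]

lemma meas_dotU {κ : Type*} [Fintype κ] {U : Ω → κ → ℝ} (hU : Measurable U) (α : κ → ℝ) :
    Measurable fun ω => α ⬝ᵥ U ω := by
  simp only [dotProduct]
  exact Finset.measurable_sum _ fun i _ => ((measurable_pi_apply i).comp hU).const_mul _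

lemma char_zero {κ : Type*} [Fintype κ] {U : Ω → κ → ℝ} (hU : Measurable U) {w : Ω → ℝ}
    (hwi : Integrable w P)
    (hc : ∀ (α : κ → ℝ) (θ : ℝ), ∫ ω, Real.cos (θ + α ⬝ᵥ U ω) * w ω ∂P = 0) (b : κ → ℝ) :
    ∫ ω, (w ω : ℂ) * Complex.exp ((b ⬝ᵥ U ω : ℝ) * Complex.I) ∂P = 0 := by
  have hd := meas_dotU hU b
  have c1 := hc b 0
  have c2 := hc b (-(Real.pi / 2))
  have e2 : ∀ ω, Real.cos (-(Real.pi / 2) + b ⬝ᵥ U ω) = Real.sin (b ⬝ᵥ U ω) := by
    intro ω
    rw [neg_add_eq_sub, ← Real.cos_pi_div_two_sub, ← Real.cos_neg]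
    congr 1; ring
  simp only [e2] at c2
  simp only [zero_add] at c1
  have i1 : Integrable (fun ω => ((Real.cos (b ⬝ᵥ U ω) * w ω : ℝ) : ℂ)) P :=
    (Integrable.bdd_mul (c := 1) hwi (Real.measurable_cos.comp hd).aestronglyMeasurable
      (Eventually.of_forall fun ω => by simpa using Real.abs_cos_le_one _)).ofReal
  have i2 : Integrable (fun ω => ((Real.sin (b ⬝ᵥ U ω) * w ω : ℝ) : ℂ) * Complex.I) P :=
    ((Integrable.bdd_mul (c := 1) hwi (Real.measurable_sin.comp hd).aestronglyMeasurable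
      (Eventually.of_forall fun ω => by simpa using Real.abs_sin_le_one _)).ofReal).mul_const _
  have e : ∀ ω, (w ω : ℂ) * Complex.exp ((b ⬝ᵥ U ω : ℝ) * Complex.I) =
      ((Real.cos (b ⬝ᵥ U ω) * w ω : ℝ) : ℂ) +
        ((Real.sin (b ⬝ᵥ U ω) * w ω : ℝ) : ℂ) * Complex.I := by
    intro ω
    rw [Complex.exp_mul_I]
    push_cast
    ring
  simp only [e]
  rw [integral_add i1 i2, integral_complex_ofReal, integral_mul_const, integral_complex_ofReal,
    c1, c2]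
  simp

lemma meas_fam {I : Type*} {Y : I → Ω → ℝ} (hY : ∀ i, Measurable (Y i)) (t : Finset I) :
    Measurable fun ω (i : t) => Y i.1 ω := measurable_pi_lambda _ fun i => hY i.1

/-- cosines are enough (finite window) -/
theorem ext1 {𝒞 : MeasurableSpace Ω} (hC : 𝒞 ≤ m0) {κ : Type*} [Fintype κ] {U : Ω → κ → ℝ}
    (hU : Measurable[m0] U) {g : Ω → ℝ} (hg : Measurable[m0] g) (hgb : ∀ ω, |g ω| ≤ 1)
    (h : ∀ (α : κ → ℝ) (θ : ℝ), CIint P 𝒞 (fun ω => Real.cos (θ + α ⬝ᵥ U ω)) g)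
    {f : (κ → ℝ) → ℝ} (hf : Measurable f) (hfb : ∀ y, |f y| ≤ 1) :
    CIint P 𝒞 (fun ω => f (U ω)) g := by
  intro G hG hGb
  have hfU : Measurable[m0] fun ω => f (U ω) := hf.comp hU
  rw [ciint_iff hC hfU (fun ω => hfb _) hg hgb hG hGb]
  have hw := meas_wt (P := P) hC hg hG
  have hwi : Integrable (wt P 𝒞 g G) P := int_of_bdd hw.aestronglyMeasurable (abs_wt hgb hGb)
  have hc : ∀ (α : κ → ℝ) (θ : ℝ), ∫ ω, Real.cos (θ + α ⬝ᵥ U ω) * wt P 𝒞 g G ω ∂P = 0 := by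
    intro α θ
    exact (ciint_iff hC (Real.measurable_cos.comp (measurable_const.add (meas_dotU hU α)))
      (fun ω => Real.abs_cos_le_one _) hg hgb hG hGb).1 (h α θ G hG hGb)
  have h1 := uniq P hU hwi hw (char_zero hU hwi hc) hf hfb
  rw [← h1]
  exact integral_congr_ae (Eventually.of_forall fun ω => mul_comm _ _)

/-- from finite windows to the σ-algebra generated by all coordinates -/
theorem ext2 {𝒞 : MeasurableSpace Ω} (hC : 𝒞 ≤ m0) {I : Type*} {Y : I → Ω → ℝ}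
    (hY : ∀ i, Measurable[m0] (Y i)) (IA : Set I) {g : Ω → ℝ} (hg : Measurable[m0] g)
    (hgb : ∀ ω, |g ω| ≤ 1)
    (h : ∀ (t : Finset I), (↑t ⊆ IA) → ∀ (α : t → ℝ) (θ : ℝ),
      CIint P 𝒞 (fun ω => Real.cos (θ + α ⬝ᵥ fun i : t => Y i.1 ω)) g)
    {F : Ω → ℝ} (hF : Measurable[⨆ i ∈ IA, MeasurableSpace.comap (Y i) inferInstance] F)
    (hFb : ∀ ω, |F ω| ≤ 1) : CIint P 𝒞 F g := by
  classical
  set 𝒜 : MeasurableSpace Ω := ⨆ i ∈ IA, MeasurableSpace.comap (Y i) inferInstance with h𝒜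
  have hA : 𝒜 ≤ m0 := iSup₂_le fun i _ => (hY i).comap_le
  intro G hG hGb
  rw [ciint_iff hC (hF.mono hA le_rfl) hFb hg hgb hG hGb]
  have hw := meas_wt (P := P) hC hg hG
  have hwi : Integrable (wt P 𝒞 g G) P := int_of_bdd hw.aestronglyMeasurable (abs_wt hgb hGb)
  have key : ∀ s, MeasurableSet[𝒜] s → ∫ ω in s, wt P 𝒞 g G ω ∂P = 0 := by
    have hgen := generateFrom_piiUnionInter_measurableSet
      (fun i => MeasurableSpace.comap (Y i) inferInstance) IA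
    have hpi : IsPiSystem (piiUnionInter
        (fun i => {s | MeasurableSet[MeasurableSpace.comap (Y i) inferInstance] s}) IA) :=
      isPiSystem_piiUnionInter _ (fun i =>
        @MeasurableSpace.isPiSystem_measurableSet Ω (MeasurableSpace.comap (Y i) inferInstance)) IA
    intro s hs
    have huniv : ∫ ω, wt P 𝒞 g G ω ∂P = 0 := by
      have h1 := h ∅ (by simp) 0 0
      have h2 := (ciint_iff hC (f := fun _ => (1:ℝ)) measurable_const (fun _ => by simp) hg hgb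
        hG hGb).1 (by
          have h3 := h1 G hG hGb
          simpa using h3)
      simpa using h2
    induction s, hs using MeasurableSpace.induction_on_inter hgen.symm hpi with
    | empty => simp
    | basic s hs =>
      obtain ⟨t, htA, f, hf, rfl⟩ := hs
      -- sets `f i = Y i ⁻¹' u i`
      have hu : ∀ i ∈ t, ∃ u : Set ℝ, MeasurableSet u ∧ Y i ⁻¹' u = f i := fun i hi => hf i hi
      choose! u hum hue using hu
      set U : Ω → t → ℝ := fun ω i => Y i.1 ω with hU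
      have hUm : Measurable[m0] U := meas_fam hY t
      set T : Set (t → ℝ) := {y | ∀ i, y i ∈ u i.1} with hT
      have hTm : MeasurableSet T := by
        have : T = ⋂ i : t, (fun y : t → ℝ => y i) ⁻¹' (u i.1) := by ext y; simp [hT]
        rw [this]
        exact MeasurableSet.iInter fun i => (measurable_pi_apply i) (hum i.1 i.2)
      have hTe : (⋂ i ∈ t, f i) = U ⁻¹' T := by
        ext ω
        simp only [Set.mem_iInter, Set.mem_preimage, hT, Set.mem_ofPred_eq, hU]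
        constructor
        · intro h1 i
          have := h1 i.1 i.2
          rw [← hue i.1 i.2] at this
          exact this
        · intro h1 i hi
          rw [← hue i hi]
          exact h1 ⟨i, hi⟩
      have h2' := ext1 hC hUm hg hgb (fun α θ => h t htA α θ)
        (f := T.indicator 1) (measurable_one.indicator hTm)
        (fun y => by simp only [Set.indicator_apply]; split_ifs <;> simp) G hG hGb
      have h2 := (ciint_iff hC (f := fun ω => T.indicator 1 (U ω))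
        ((measurable_one.indicator hTm).comp hUm)
        (fun ω => by simp only [Set.indicator_apply]; split_ifs <;> simp)
        hg hgb hG hGb).1 h2'
      rw [hTe, ← integral_indicator (hUm hTm), ← h2]
      refine integral_congr_ae (Eventually.of_forall fun ω => ?_)
      simp only [Set.indicator_apply, Set.mem_preimage, Pi.one_apply]
      split_ifs <;> simp
    | compl s hs ih =>
      rw [setIntegral_compl (hA _ hs) hwi, ih, huniv, sub_zero]
    | iUnion f hd hm ih =>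
      rw [integral_iUnion (fun i => hA _ (hm i)) hd hwi.integrableOn]
      simp [ih]
  -- conclude
  have h0 : P[wt P 𝒞 g G|𝒜] =ᵐ[P] 0 := by
    symm
    refine ae_eq_condExp_of_forall_setIntegral_eq hA hwi (fun s _ _ => integrableOn_zero)
      (fun s hs _ => ?_) stronglyMeasurable_zero.aestronglyMeasurable
    rw [key s hs]; simp
  have h1 := int_mul_condExp (P := P) hA hF.stronglyMeasurable hFb hwi
  rw [← h1]
  have : ∫ ω, F ω * (P[wt P 𝒞 g G|𝒜]) ω ∂P = ∫ ω, (0 : ℝ) ∂P := by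
    refine integral_congr_ae ?_
    filter_upwards [h0] with ω hω
    rw [hω]; simp
  rw [this, integral_zero]

/-- product formula for conditional expectations -/
theorem condExp_mul_of_ciint {𝒞 : MeasurableSpace Ω} (hC : 𝒞 ≤ m0) {f g : Ω → ℝ}
    (hf : Measurable[m0] f) (hfb : ∀ ω, |f ω| ≤ 1) (hg : Measurable[m0] g)
    (hgb : ∀ ω, |g ω| ≤ 1) (h : CIint P 𝒞 f g) :
    P[fun ω => f ω * g ω|𝒞] =ᵐ[P] fun ω => (P[f|𝒞]) ω * (P[g|𝒞]) ω := by
  classical
  have hfg : Integrable (fun ω => f ω * g ω) P :=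
    int_of_bdd (hf.mul hg).aestronglyMeasurable (fun ω => abs_mul_le_one (hfb ω) (hgb ω))
  have hce : (fun ω => ce P 𝒞 f ω * ce P 𝒞 g ω) =ᵐ[P] fun ω => (P[f|𝒞]) ω * (P[g|𝒞]) ω := by
    filter_upwards [ce_ae (P := P) (m := 𝒞) hfb, ce_ae (P := P) (m := 𝒞) hgb] with ω h1 h2
    rw [h1, h2]
  refine Filter.EventuallyEq.trans ?_ hce
  symm
  have hm : Measurable[𝒞] fun ω => ce P 𝒞 f ω * ce P 𝒞 g ω :=
    (ce_meas (P := P) f).mul (ce_meas (P := P) g)
  have hmi : Integrable (fun ω => ce P 𝒞 f ω * ce P 𝒞 g ω) P :=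
    int_of_bdd (hm.mono hC le_rfl).aestronglyMeasurable
      (fun ω => abs_mul_le_one (abs_ce f ω) (abs_ce g ω))
  refine ae_eq_condExp_of_forall_setIntegral_eq hC hfg (fun s _ _ => hmi.integrableOn)
      (fun s hs _ => ?_) hm.stronglyMeasurable.aestronglyMeasurable
  have hG : Measurable[𝒞] (s.indicator (1 : Ω → ℝ)) :=
    (measurable_const : Measurable[𝒞] (fun _ : Ω => (1:ℝ))).indicator hs
  have h1 := h _ hG (fun ω => by simp only [Set.indicator_apply]; split_ifs <;> simp)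
  unfold Prd at h1
  rw [← integral_indicator (hC _ hs), ← integral_indicator (hC _ hs)]
  have e : ∀ (F : Ω → ℝ), s.indicator F = fun ω => F ω * s.indicator (1 : Ω → ℝ) ω := by
    intro F
    ext ω
    simp only [Set.indicator_apply]; split_ifs <;> simp
  rw [e fun ω => ce P 𝒞 f ω * ce P 𝒞 g ω, e fun ω => f ω * g ω]
  exact h1.symm

/-- product formula, arbitrary bounds -/
theorem condExp_mul_of_ciint' {𝒞 : MeasurableSpace Ω} (hC : 𝒞 ≤ m0) {f g : Ω → ℝ}
    (hf : Measurable[m0] f) (hg : Measurable[m0] g) {C D : ℝ} (hC0 : 0 < C) (hD0 : 0 < D)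
    (hfb : ∀ ω, |f ω| ≤ C) (hgb : ∀ ω, |g ω| ≤ D)
    (h : CIint P 𝒞 (fun ω => C⁻¹ * f ω) (fun ω => D⁻¹ * g ω)) :
    P[fun ω => f ω * g ω|𝒞] =ᵐ[P] fun ω => (P[f|𝒞]) ω * (P[g|𝒞]) ω := by
  have hfb' : ∀ ω, |C⁻¹ * f ω| ≤ 1 := fun ω => by
    rw [abs_mul, abs_inv, abs_of_pos hC0, inv_mul_le_one₀ hC0]; exact hfb ω
  have hgb' : ∀ ω, |D⁻¹ * g ω| ≤ 1 := fun ω => by
    rw [abs_mul, abs_inv, abs_of_pos hD0, inv_mul_le_one₀ hD0]; exact hgb ω
  have h1 := condExp_mul_of_ciint hC (hf.const_mul C⁻¹) hfb' (hg.const_mul D⁻¹) hgb' h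
  have e1 : P[fun ω => C⁻¹ * f ω|𝒞] =ᵐ[P] fun ω => C⁻¹ * (P[f|𝒞]) ω :=
    condExp_smul (μ := P) C⁻¹ f 𝒞
  have e2 : P[fun ω => D⁻¹ * g ω|𝒞] =ᵐ[P] fun ω => D⁻¹ * (P[g|𝒞]) ω :=
    condExp_smul (μ := P) D⁻¹ g 𝒞
  have e3 : P[fun ω => C⁻¹ * f ω * (D⁻¹ * g ω)|𝒞] =ᵐ[P]
      fun ω => (C⁻¹ * D⁻¹) * (P[fun ω => f ω * g ω|𝒞]) ω := by
    have : (fun ω => C⁻¹ * f ω * (D⁻¹ * g ω)) = (C⁻¹ * D⁻¹) • fun ω => f ω * g ω := by
      ext ω; simp only [Pi.smul_apply, smul_eq_mul]; ring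
    rw [this]
    exact condExp_smul (μ := P) (C⁻¹ * D⁻¹) _ 𝒞
  filter_upwards [h1, e1, e2, e3] with ω a1 a2 a3 a4
  rw [a4, a2, a3] at a1
  have hCi : C⁻¹ * D⁻¹ ≠ 0 := by positivity
  have : (C⁻¹ * D⁻¹) * (P[fun ω => f ω * g ω|𝒞]) ω =
      (C⁻¹ * D⁻¹) * ((P[f|𝒞]) ω * (P[g|𝒞]) ω) := by rw [a1]; ring
  exact mul_left_cancel₀ hCi this

end ext

end Crest.Agent.R166.Lim793
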