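import Mathlib
import Crest.Agent.R166.LimD_793

/-!
# Row 166 (helper793), section 40.10, part 6: the edge Markov property in the limit `η → 0`.

`markov_limit`: abstract final theorem. Gaussian noises `zz i` (`i` in any index type) with
covariance kernels `K n (x)` given the base variable `x` (carrying environment and `X`), values
`Y i = xx i (x) + c0 * zz i`. If under `P n` the two sides are approximately conditionally
independent given `𝒞` (error tending to zero for every finite window), then under the limit law `P'`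
they are conditionally independent. Only nondegeneracy on the edge is used.
-/

set_option autoImplicit false
set_option linter.unusedSectionVars false
set_option linter.unusedVariables false
set_option linter.unusedSimpArgs false

noncomputable section

open MeasureTheory ProbabilityTheory Matrix Filter Topology
open scoped ENNReal

namespace Crest.Agent.R166.Lim793

open Lim47 (ApproxCI defect)

section fin

variable {Ω : Type*} {m0 : MeasurableSpace Ω} {B : Type*} [mB : MeasurableSpace B] {I : Type}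

/-- covariance matrix of a finite family -/
def Kmat (K : B → I → I → ℝ) {κ : Type} (j : κ → I) (y : B) : Matrix κ κ ℝ :=
  Matrix.of fun k l => K y (j k) (j l)

lemma MM_Kmat {K : B → I → I → ℝ} (hK : ∀ i j, Measurable fun y => K y i j) {κ : Type} (j : κ → I) :
    MM (Kmat K j) := fun k l => hK _ _

/-- changing the covariance on a null set -/
lemma GLaw.congr {κ : Type*} [Fintype κ] {P : Measure Ω} {Q : Measure B} {x : Ω → B}
    {V : Ω → κ → ℝ} {S S' : B → Matrix κ κ ℝ} (h : GLaw P Q x V S) (hS : ∀ᵐ y ∂Q, S y = S' y) :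
    GLaw P Q x V S' := by
  intro g hg hgb b
  rw [h g hg hgb b]
  refine integral_congr_ae ?_
  filter_upwards [hS] with y hy
  rw [hy]

/-- approximate conditional independence with an additional weight -/
lemma approx_weight {P : Measure Ω} [IsProbabilityMeasure P] {𝒜 ℬ 𝒞 : MeasurableSpace Ω}
    (hA : 𝒜 ≤ m0) (hB : ℬ ≤ m0) (hCA : 𝒞 ≤ 𝒜) {δ : ℝ} (h : ApproxCI P 𝒜 ℬ 𝒞 δ)
    {f g G : Ω → ℝ} (hf : Measurable[𝒜] f) (hg : Measurable[ℬ] g) (hG : Measurable[𝒞] G)
    (hfb : ∀ ω, |f ω| ≤ 1) (hgb : ∀ ω, |g ω| ≤ 1) (hGb : ∀ ω, |G ω| ≤ 1) :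
    |∫ ω, f ω * g ω * G ω ∂P - Prd P 𝒞 f g G| ≤ δ := by
  have hC : 𝒞 ≤ m0 := hCA.trans hA
  have h1 := h (fun ω => f ω * G ω) g (hf.mul (hG.mono hCA le_rfl)) hg
    (fun ω => abs_mul_le_one (hfb ω) (hGb ω)) hgb
  unfold defect at h1
  have hf0 : Measurable[m0] f := hf.mono hA le_rfl
  have hfi : Integrable f P := int_of_bdd hf0.aestronglyMeasurable hfb
  have hfG : Integrable (f * G) P :=
    int_of_bdd (hf0.mul (hG.mono hC le_rfl)).aestronglyMeasurable
      (fun ω => abs_mul_le_one (hfb ω) (hGb ω))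
  have e1 := condExp_mul_of_stronglyMeasurable_right (μ := P) (m := 𝒞) (f := f) (g := G)
    hG.stronglyMeasurable hfG hfi
  have e2 : ∫ ω, (P[fun ω => f ω * G ω|𝒞]) ω * (P[g|𝒞]) ω ∂P = Prd P 𝒞 f g G := by
    unfold Prd
    refine integral_congr_ae ?_
    filter_upwards [e1, ce_ae (P := P) (m := 𝒞) hfb, ce_ae (P := P) (m := 𝒞) hgb] with ω a1 a2 a3
    have a4 : (P[fun ω => f ω * G ω|𝒞]) ω = (P[f|𝒞]) ω * G ω := a1
    rw [a4, a2, a3]; ring
  have e3 : ∀ ω, (fun ω => f ω * G ω) ω * g ω = f ω * g ω * G ω := fun ω => by simp only; ring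
  simp only [e3] at h1
  rw [e2] at h1
  exact h1

/-- data of the limit `η → 0` -/
structure Setup (P : ℕ → Measure Ω) (P' : Measure Ω) (Q : Measure B) (x : Ω → B)
    (zz : I → Ω → ℝ) (K : ℕ → B → I → I → ℝ) (K' : B → I → I → ℝ)
    {ι : Type} (e : ι → I) : Prop where
  hP : ∀ n, IsProbabilityMeasure (P n)
  hP' : IsProbabilityMeasure P'
  hQ : IsProbabilityMeasure Q
  hx : Measurable x
  hz : ∀ i, Measurable (zz i)
  hK : ∀ n i j, Measurable fun y => K n y i j
  hK' : ∀ i j, Measurable fun y => K' y i j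
  law : ∀ n (κ : Type) [Fintype κ] (j : κ → I),
    GLaw (P n) Q x (fun ω k => zz (j k) ω) (Kmat (K n) j)
  law' : ∀ (κ : Type) [Fintype κ] (j : κ → I),
    GLaw P' Q x (fun ω k => zz (j k) ω) (Kmat K' j)
  psd : ∀ n (κ : Type) [Fintype κ] (j : κ → I), ∀ᵐ y ∂Q, (Kmat (K n) j y).PosSemidef
  psd' : ∀ (κ : Type) [Fintype κ] (j : κ → I), ∀ᵐ y ∂Q, (Kmat K' j y).PosSemidef
  pd : ∀ n, ∀ᵐ y ∂Q, (Kmat (K n) e y).PosDef
  pd' : ∀ᵐ y ∂Q, (Kmat K' e y).PosDef
  lim : ∀ᵐ y ∂Q, ∀ i j, Tendsto (fun n => K n y i j) atTop (𝓝 (K' y i j))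

variable {P : ℕ → Measure Ω} {P' : Measure Ω} {Q : Measure B} {x : Ω → B}
    {zz : I → Ω → ℝ} {K : ℕ → B → I → I → ℝ} {K' : B → I → I → ℝ}
    {ι : Type} {e : ι → I}

/-- modified covariance -/
def Smod {κ : Type} [DecidableEq κ] (N : Set B) [DecidablePred (· ∈ N)] (K : B → I → I → ℝ)
    (j : κ → I) (y : B) : Matrix κ κ ℝ := if y ∈ N then 1 else Kmat K j y

lemma adm_Smod {ρ : Type} [Fintype ι] [Fintype ρ] [DecidableEq ι] [DecidableEq ρ] {N : Set B}
    [DecidablePred (· ∈ N)] (hN : MeasurableSet N) {K : B → I → I → ℝ}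
    (hK : ∀ i j, Measurable fun y => K y i j) (j : ι ⊕ ρ → I)
    (h1 : ∀ y, y ∉ N → (Kmat K j y).PosSemidef)
    (h2 : ∀ y, y ∉ N → (Kmat K (j ∘ Sum.inl) y).PosDef) : Adm (Smod N K j) := by
  refine ⟨?_, ?_, ?_⟩
  · intro k l
    have : (fun y => Smod N K j y k l) =
        fun y => if y ∈ N then (1 : Matrix (ι ⊕ ρ) (ι ⊕ ρ) ℝ) k l else K y (j k) (j l) := by
      ext y
      unfold Smod
      split_ifs <;> rfl
    rw [this]
    exact Measurable.ite hN measurable_const (hK _ _)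
  · intro y
    unfold Smod
    split_ifs with h
    · exact Matrix.PosSemidef.one
    · exact h1 y h
  · intro y
    unfold Smod
    split_ifs with h
    · have : (1 : Matrix (ι ⊕ ρ) (ι ⊕ ρ) ℝ).toBlocks₁₁ = 1 := by
        ext a b
        simp [toBlocks₁₁, Matrix.one_apply]
      rw [this]
      exact Matrix.PosDef.one
    · exact h2 y h

/-- values -/
def Yv (x : Ω → B) (zz : I → Ω → ℝ) (xx : I → B → ℝ) (c0 : ℝ) (i : I) (ω : Ω) : ℝ :=
  xx i (x ω) + c0 * zz i ω

variable [Fintype ι] [DecidableEq ι]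

/-- exact conditional independence for cosines of finite windows -/
theorem Setup.window (L : Setup P P' Q x zz K K' e) {xx : I → B → ℝ}
    (hxx : ∀ i, Measurable (xx i)) (c0 : ℝ) {𝒞 : MeasurableSpace Ω}
    (hC : 𝒞 ≤ MeasurableSpace.comap (fun ω => (x ω, fun i => zz (e i) ω)) inferInstance)
    (tA tB : Finset I) {δ : ℕ → ℝ} (hδ : Tendsto δ atTop (𝓝 0))
    (hCI : ∀ n, ApproxCI (P n)
      (𝒞 ⊔ ⨆ i ∈ (tA : Set I), MeasurableSpace.comap (Yv x zz xx c0 i) inferInstance)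
      (𝒞 ⊔ ⨆ i ∈ (tB : Set I), MeasurableSpace.comap (Yv x zz xx c0 i) inferInstance) 𝒞 (δ n))
    (α : tA → ℝ) (θ : ℝ) (β : tB → ℝ) (θ' : ℝ) :
    CIint P' 𝒞 (fun ω => Real.cos (θ + α ⬝ᵥ fun i : tA => Yv x zz xx c0 i.1 ω))
      (fun ω => Real.cos (θ' + β ⬝ᵥ fun i : tB => Yv x zz xx c0 i.1 ω)) := by
  classical
  have := L.hQ
  set j : ι ⊕ (tA ⊕ tB) → I := Sum.elim e (Sum.elim Subtype.val Subtype.val) with hj
  set z : Ω → ι ⊕ (tA ⊕ tB) → ℝ := fun ω k => zz (j k) ω with hz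
  have hzm : Measurable[m0] z := @measurable_pi_lambda Ω (ι ⊕ (tA ⊕ tB)) (fun _ => ℝ) m0 _ _
    (fun k => L.hz (j k))
  -- good set
  have hgood : ∀ᵐ y ∂Q, (∀ n, (Kmat (K n) j y).PosSemidef ∧ (Kmat (K n) e y).PosDef) ∧
      (Kmat K' j y).PosSemidef ∧ (Kmat K' e y).PosDef := by
    filter_upwards [ae_all_iff.2 fun n => L.psd n _ j, ae_all_iff.2 fun n => L.pd n,
      L.psd' _ j, L.pd'] with y a1 a2 a3 a4
    exact ⟨fun n => ⟨a1 n, a2 n⟩, a3, a4⟩
  obtain ⟨N, hNs, hNm, hN0⟩ := exists_measurable_superset_of_null (ae_iff.1 hgood)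
  have hout : ∀ y, y ∉ N → (∀ n, (Kmat (K n) j y).PosSemidef ∧ (Kmat (K n) e y).PosDef) ∧
      (Kmat K' j y).PosSemidef ∧ (Kmat K' e y).PosDef := by
    intro y hy
    by_contra hc
    exact hy (hNs hc)
  have hNae : ∀ᵐ y ∂Q, y ∉ N := measure_eq_zero_iff_ae_notMem.1 hN0
  have hje : j ∘ Sum.inl = e := rfl
  have LS : LimSetup P P' Q x z (fun n => Smod N (K n) j) (Smod N K' j) := by
    refine ⟨L.hP, L.hP', L.hx, hzm, fun n => ?_, ?_, fun n => ?_, ?_, ?_⟩
    · exact adm_Smod hNm (L.hK n) j (fun y hy => ((hout y hy).1 n).1)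
        (fun y hy => by rw [hje]; exact ((hout y hy).1 n).2)
    · exact adm_Smod hNm L.hK' j (fun y hy => (hout y hy).2.1)
        (fun y hy => by rw [hje]; exact (hout y hy).2.2)
    · refine (L.law n _ j).congr ?_
      filter_upwards [hNae] with y hy
      simp [Smod, hy]
    · refine (L.law' _ j).congr ?_
      filter_upwards [hNae] with y hy
      simp [Smod, hy]
    · filter_upwards [hNae, L.lim] with y hy hl
      intro a b
      simp only [Smod, hy, if_false]
      exact hl _ _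
  -- test functions
  set a : tA ⊕ tB → ℝ := Sum.elim (c0 • α) 0 with ha
  set b : tA ⊕ tB → ℝ := Sum.elim 0 (c0 • β) with hb
  set φ : B × (ι → ℝ) → ℝ := fun p => θ + α ⬝ᵥ fun i : tA => xx i.1 p.1 with hφ
  set ψ : B × (ι → ℝ) → ℝ := fun p => θ' + β ⬝ᵥ fun i : tB => xx i.1 p.1 with hψ
  have hφm : Measurable φ := by
    refine measurable_const.add ?_
    simp only [dotProduct]
    exact Finset.measurable_sum _ fun i _ => ((hxx i.1).comp measurable_fst).const_mul _
  have hψm : Measurable ψ := by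
    refine measurable_const.add ?_
    simp only [dotProduct]
    exact Finset.measurable_sum _ fun i _ => ((hxx i.1).comp measurable_fst).const_mul _
  have eA : (fun ω => Real.cos (θ + α ⬝ᵥ fun i : tA => Yv x zz xx c0 i.1 ω)) = Fc x z φ a := by
    ext ω
    unfold Fc
    congr 1
    simp only [hφ, ha, dot_elim, zero_dotProduct, add_zero, smul_dotProduct, smul_eq_mul]
    rw [add_assoc]
    congr 1
    simp only [hz, hj, Yv, vR, vL, dotProduct, Sum.elim_inl, Sum.elim_inr, Finset.mul_sum]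
    rw [← Finset.sum_add_distrib]
    exact Finset.sum_congr rfl fun i _ => by ring
  have eB : (fun ω => Real.cos (θ' + β ⬝ᵥ fun i : tB => Yv x zz xx c0 i.1 ω)) = Fc x z ψ b := by
    ext ω
    unfold Fc
    congr 1
    simp only [hψ, hb, dot_elim, zero_dotProduct, zero_add, smul_dotProduct, smul_eq_mul]
    rw [add_assoc]
    congr 1
    simp only [hz, hj, Yv, vR, vL, dotProduct, Sum.elim_inl, Sum.elim_inr, Finset.mul_sum]
    rw [← Finset.sum_add_distrib]
    exact Finset.sum_congr rfl fun i _ => by ring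
  rw [eA, eB]
  intro G hG hGb
  have hD : 𝒞 ≤ DD x z := hC
  have hDm := DD_le L.hx hzm
  have hYm : ∀ i, Measurable[m0] (Yv x zz xx c0 i) := fun i =>
    ((hxx i).comp L.hx).add ((L.hz i).const_mul c0)
  have hAle : ∀ t : Finset I, (𝒞 ⊔ ⨆ i ∈ (t : Set I),
      MeasurableSpace.comap (Yv x zz xx c0 i) inferInstance) ≤ m0 := fun t =>
    sup_le (hD.trans hDm) (iSup₂_le fun i _ => (hYm i).comap_le)
  refine LS.exact hφm hψm a b hD hG hGb hδ (fun n => ?_)
  have := L.hP n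
  have mA : ∀ (t : Finset I) (γ : t → ℝ) (τ : ℝ), Measurable[𝒞 ⊔ ⨆ i ∈ (t : Set I),
      MeasurableSpace.comap (Yv x zz xx c0 i) inferInstance]
      (fun ω => Real.cos (τ + γ ⬝ᵥ fun i : t => Yv x zz xx c0 i.1 ω)) := by
    intro t γ τ
    have h1 : ∀ i : t, Measurable[𝒞 ⊔ ⨆ i ∈ (t : Set I),
      MeasurableSpace.comap (Yv x zz xx c0 i) inferInstance] (Yv x zz xx c0 i.1) := by
      intro i
      have h2 : MeasurableSpace.comap (Yv x zz xx c0 i.1) inferInstance ≤
          ⨆ i ∈ (t : Set I), MeasurableSpace.comap (Yv x zz xx c0 i) inferInstance :=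
        le_iSup₂_of_le i.1 i.2 le_rfl
      exact (comap_measurable _).mono (h2.trans le_sup_right) le_rfl
    refine Real.measurable_cos.comp (measurable_const.add ?_)
    simp only [dotProduct]
    exact Finset.measurable_sum _ fun i _ => (h1 i).const_mul _
  refine approx_weight (hAle tA) (hAle tB) le_sup_left (hCI n) ?_ ?_ hG abs_Fc_le abs_Fc_le hGb
  · rw [← eA]; exact mA tA α θ
  · rw [← eB]; exact mA tB β θ'

/-- **Edge Markov property in the limit.** -/
theorem markov_limit (L : Setup P P' Q x zz K K' e) {xx : I → B → ℝ}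
    (hxx : ∀ i, Measurable (xx i)) (c0 : ℝ) {𝒞 : MeasurableSpace Ω}
    (hC : 𝒞 ≤ MeasurableSpace.comap (fun ω => (x ω, fun i => zz (e i) ω)) inferInstance)
    (IA IB : Set I)
    (hCI : ∀ (tA tB : Finset I), (tA : Set I) ⊆ IA → (tB : Set I) ⊆ IB →
      ∃ δ : ℕ → ℝ, Tendsto δ atTop (𝓝 0) ∧ ∀ n, ApproxCI (P n)
      (𝒞 ⊔ ⨆ i ∈ (tA : Set I), MeasurableSpace.comap (Yv x zz xx c0 i) inferInstance)
      (𝒞 ⊔ ⨆ i ∈ (tB : Set I), MeasurableSpace.comap (Yv x zz xx c0 i) inferInstance) 𝒞 (δ n))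
    {F G : Ω → ℝ}
    (hF : Measurable[⨆ i ∈ IA, MeasurableSpace.comap (Yv x zz xx c0 i) inferInstance] F)
    (hG : Measurable[⨆ i ∈ IB, MeasurableSpace.comap (Yv x zz xx c0 i) inferInstance] G)
    (hFb : ∃ C, ∀ ω, |F ω| ≤ C) (hGb : ∃ C, ∀ ω, |G ω| ≤ C) :
    P'[fun ω => F ω * G ω|𝒞] =ᵐ[P'] fun ω => (P'[F|𝒞]) ω * (P'[G|𝒞]) ω := by
  classical
  have := L.hP'
  have hzm : Measurable[m0] fun ω => (fun i => zz (e i) ω : ι → ℝ) :=
    @measurable_pi_lambda Ω ι (fun _ => ℝ) m0 _ _ (fun k => L.hz (e k))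
  have hC0 : 𝒞 ≤ m0 := hC.trans (L.hx.prodMk hzm).comap_le
  have hYm : ∀ i, Measurable[m0] (Yv x zz xx c0 i) := fun i =>
    ((hxx i).comp L.hx).add ((L.hz i).const_mul c0)
  have hAle : ∀ J : Set I, (⨆ i ∈ J,
      MeasurableSpace.comap (Yv x zz xx c0 i) inferInstance) ≤ m0 := fun t =>
    iSup₂_le fun i _ => (hYm i).comap_le
  -- product property for functions bounded by one
  have key : ∀ F G : Ω → ℝ,
      Measurable[⨆ i ∈ IA, MeasurableSpace.comap (Yv x zz xx c0 i) inferInstance] F →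
      Measurable[⨆ i ∈ IB, MeasurableSpace.comap (Yv x zz xx c0 i) inferInstance] G →
      (∀ ω, |F ω| ≤ 1) → (∀ ω, |G ω| ≤ 1) → CIint P' 𝒞 F G := by
    intro F G hF hG hFb hGb
    have hG0 : Measurable[m0] G := hG.mono (hAle IB) le_rfl
    refine ext2 hC0 hYm IA hG0 hGb ?_ hF hFb
    intro tA htA α θ
    -- now exchange the roles
    have hcA : Measurable[m0] (fun ω => Real.cos (θ + α ⬝ᵥ fun i : tA => Yv x zz xx c0 i.1 ω)) :=
      Real.measurable_cos.comp (measurable_const.add (meas_dotU (meas_fam hYm tA) α))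
    refine CIint.symm ?_
    refine ext2 hC0 hYm IB hcA (fun ω => Real.abs_cos_le_one _) ?_ hG hGb
    intro tB htB β θ'
    refine CIint.symm ?_
    obtain ⟨δ, hδ, h⟩ := hCI tA tB htA htB
    exact L.window hxx c0 hC tA tB hδ h α θ β θ'
  obtain ⟨C, hCb⟩ := hFb
  obtain ⟨D, hDb⟩ := hGb
  have hC1 : 0 < max C 1 := lt_max_of_lt_right one_pos
  have hD1 : 0 < max D 1 := lt_max_of_lt_right one_pos
  refine condExp_mul_of_ciint' hC0 (hF.mono (hAle IA) le_rfl) (hG.mono (hAle IB) le_rfl) hC1 hD1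
    (fun ω => (hCb ω).trans (le_max_left _ _)) (fun ω => (hDb ω).trans (le_max_left _ _)) ?_
  refine key _ _ (hF.const_mul _) (hG.const_mul _) (fun ω => ?_) (fun ω => ?_)
  · rw [abs_mul, abs_inv, abs_of_pos hC1, inv_mul_le_one₀ hC1]
    exact (hCb ω).trans (le_max_left _ _)
  · rw [abs_mul, abs_inv, abs_of_pos hD1, inv_mul_le_one₀ hD1]
    exact (hDb ω).trans (le_max_left _ _)

end fin

end Crest.Agent.R166.Lim793
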