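import Mathlib
import Crest.Agent.R166.LimE_793
import Crest.Agent.R166.NoiseLim4_849

/-!
# Row 166 (helper793), section 40.10, part 7: `markov_limit` on the configuration space.

Base space `Conf d (S1 d k)` (label, `ω`, `X`), process space `Conf d (S2 d k)`, noise coordinates
indexed by `TW d × Fin k`, covariance `Γ w w' ⊗ 1`.
-/

set_option autoImplicit false
set_option linter.unusedSectionVars false
set_option linter.unusedVariables false
set_option linter.unusedSimpArgs false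

noncomputable section

open MeasureTheory ProbabilityTheory Matrix Filter Topology
open scoped ENNReal

namespace Crest.Agent.R166.Lim793

open Lim47 (ApproxCI defect)
open Words955 NoiseLim849

section conf

variable {d k : ℕ} [NeZero d]

/-- noise coordinates -/
def zc (i : TW d × Fin k) (ζ : Conf d (S2 d k)) : ℝ := (ζ i.1).2.2.2 i.2

/-- `X` coordinates on the base -/
def xc (i : TW d × Fin k) (y : Conf d (S1 d k)) : ℝ := (y i.1).2.2 i.2

/-- covariance `Γ ⊗ 1` -/
def KG (Γ : TW d → TW d → Conf d (S1 d k) → ℝ) (y : Conf d (S1 d k)) (i j : TW d × Fin k) : ℝ :=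
  if i.2 = j.2 then Γ i.1 j.1 y else 0

/-- character identity (955's `NLaw.char`, real test functions) -/
def CharForm (P : Measure (Conf d (S1 d k))) (Γ : TW d → TW d → Conf d (S1 d k) → ℝ)
    (Q : Measure (Conf d (S2 d k))) : Prop :=
  ∀ (B : Finset (TW d)) (τ : B → Fin k → ℝ) (φ : Conf d (S1 d k) → ℝ), Measurable φ →
    (∀ y, |φ y| ≤ 1) →
    ∫ ζ, (φ (pr ζ) : ℂ) * Complex.exp (Complex.I * ((zph B τ ζ : ℝ) : ℂ)) ∂Q =
      ∫ y, (φ y : ℂ) * cch Γ B τ y ∂P

/-- collected coefficients -/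
def tauOf {κ : Type} [Fintype κ] (j : κ → TW d × Fin k) (b : κ → ℝ) (w : TW d) (l : Fin k) : ℝ :=
  ∑ m, if j m = (w, l) then b m else 0

/-- words occurring in a family -/
def wordsOf {κ : Type} [Fintype κ] (j : κ → TW d × Fin k) : Finset (TW d) :=
  Finset.univ.image fun m => (j m).1

lemma sum_tauOf {κ : Type} [Fintype κ] (j : κ → TW d × Fin k) (b : κ → ℝ)
    (f : TW d → Fin k → ℝ) :
    ∑ l, ∑ w : wordsOf j, tauOf j b w.1 l * f w.1 l = ∑ m, b m * f (j m).1 (j m).2 := by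
  classical
  have h1 : ∀ l, ∑ w : wordsOf j, tauOf j b w.1 l * f w.1 l =
      ∑ w ∈ wordsOf j, tauOf j b w l * f w l := fun l =>
    Finset.sum_coe_sort (wordsOf j) fun w => tauOf j b w l * f w l
  simp only [h1]
  rw [Finset.sum_comm]
  simp only [tauOf, Finset.sum_mul]
  rw [Finset.sum_congr rfl fun w _ => Finset.sum_comm, Finset.sum_comm]
  refine Finset.sum_congr rfl fun m _ => ?_
  rw [Finset.sum_eq_single (j m).1]
  · rw [Finset.sum_eq_single (j m).2]
    · simp
    · intro l _ hl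
      rw [if_neg, zero_mul]
      intro h
      exact hl (by rw [h])
    · simp
  · intro w _ hw
    refine Finset.sum_eq_zero fun l _ => ?_
    rw [if_neg, zero_mul]
    intro h
    exact hw (by rw [h])
  · intro h
    exact absurd (Finset.mem_image_of_mem _ (Finset.mem_univ m)) h

lemma zph_tauOf {κ : Type} [Fintype κ] (j : κ → TW d × Fin k) (b : κ → ℝ)
    (ζ : Conf d (S2 d k)) :
    zph (wordsOf j) (fun w l => tauOf j b w.1 l) ζ = b ⬝ᵥ fun m => zc (j m) ζ := by
  unfold zph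
  rw [sum_tauOf j b fun w l => (ζ w).2.2.2 l]
  rfl

lemma Qf_tauOf {κ : Type} [Fintype κ] (j : κ → TW d × Fin k) (b : κ → ℝ)
    (Γ : TW d → TW d → Conf d (S1 d k) → ℝ) (y : Conf d (S1 d k)) :
    Qf (fun (w : wordsOf j) l => tauOf j b w.1 l) (gam Γ (wordsOf j) y) =
      b ⬝ᵥ Kmat (KG Γ) j y *ᵥ b := by
  classical
  unfold Qf gam
  have h1 : ∀ l, ∑ w : wordsOf j, ∑ w' : wordsOf j,
      tauOf j b w.1 l * Γ w.1 w'.1 y * tauOf j b w'.1 l =
      ∑ w : wordsOf j, tauOf j b w.1 l *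
        (fun (w : TW d) (l : Fin k) => ∑ w' : wordsOf j, Γ w w'.1 y * tauOf j b w'.1 l) w.1 l := by
    intro l
    refine Finset.sum_congr rfl fun w _ => ?_
    simp only [Finset.mul_sum]
    exact Finset.sum_congr rfl fun w' _ => by ring
  simp only [h1]
  rw [sum_tauOf j b (fun (w : TW d) (l : Fin k) => ∑ w' : wordsOf j, Γ w w'.1 y * tauOf j b w'.1 l)]
  simp only [dotProduct, Matrix.mulVec, Kmat, Matrix.of_apply]
  refine Finset.sum_congr rfl fun m _ => ?_
  congr 1
  have h2 : ∑ w' : wordsOf j, Γ (j m).1 w'.1 y * tauOf j b w'.1 (j m).2 =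
      ∑ l, ∑ w' : wordsOf j, tauOf j b w'.1 l *
        (fun (w' : TW d) (l : Fin k) => if (j m).2 = l then Γ (j m).1 w' y else 0) w'.1 l := by
    rw [Finset.sum_eq_single (j m).2]
    · refine Finset.sum_congr rfl fun w' _ => ?_
      simp [mul_comm]
    · intro l _ hl
      refine Finset.sum_eq_zero fun w' _ => ?_
      simp only
      rw [if_neg (Ne.symm hl), mul_zero]
    · simp
  rw [h2, sum_tauOf j b (fun (w' : TW d) (l : Fin k) => if (j m).2 = l then Γ (j m).1 w' y else 0)]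
  refine Finset.sum_congr rfl fun m' _ => ?_
  unfold KG
  rw [mul_comm]

theorem CharForm.glaw {P : Measure (Conf d (S1 d k))} {Γ : TW d → TW d → Conf d (S1 d k) → ℝ}
    {Q : Measure (Conf d (S2 d k))} (h : CharForm P Γ Q) {κ : Type} [Fintype κ]
    (j : κ → TW d × Fin k) : GLaw Q P pr (fun ζ m => zc (j m) ζ) (Kmat (KG Γ) j) := by
  intro g hg hgb b
  have h1 := h (wordsOf j) (fun w l => tauOf j b w.1 l) g hg hgb
  simp only [zph_tauOf, cch, Qf_tauOf] at h1
  rw [← h1]
  refine integral_congr_ae (Eventually.of_forall fun ζ => ?_)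
  simp only
  rw [mul_comm Complex.I]

/-- symmetric and positive semidefinite kernel -/
def SPSD (G : TW d → TW d → ℝ) : Prop :=
  (∀ w w', G w w' = G w' w) ∧
    ∀ (B : Finset (TW d)) (c : B → ℝ), 0 ≤ ∑ b, ∑ b', c b * G b.1 b'.1 * c b'

lemma psd_Kmat {Γ : TW d → TW d → Conf d (S1 d k) → ℝ} {y : Conf d (S1 d k)}
    (h : SPSD fun w w' => Γ w w' y) {κ : Type} [Fintype κ] (j : κ → TW d × Fin k) :
    (Kmat (KG Γ) j y).PosSemidef := by
  refine Matrix.PosSemidef.of_dotProduct_mulVec_nonneg ?_ fun b => ?_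
  · ext a c
    simp only [Matrix.conjTranspose_apply, Kmat, Matrix.of_apply, star_trivial, KG]
    have hs : Γ (j c).1 (j a).1 y = Γ (j a).1 (j c).1 y := h.1 (j c).1 (j a).1
    by_cases hl : (j a).2 = (j c).2
    · rw [if_pos hl, if_pos hl.symm, hs]
    · rw [if_neg hl, if_neg (Ne.symm hl)]
  · rw [star_trivial, ← Qf_tauOf]
    exact Qf_nonneg _ (h.2 _)

/-- the edge family -/
def eI {α : Type} (e0 : α → TW d) (p : α × Fin k) : TW d × Fin k := (e0 p.1, p.2)

lemma pd_Kmat {α : Type} [Fintype α] {Γ : TW d → TW d → Conf d (S1 d k) → ℝ}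
    {y : Conf d (S1 d k)} (hs : ∀ w w', Γ w w' y = Γ w' w y) {e0 : α → TW d}
    (h : (Matrix.of fun a a' => Γ (e0 a) (e0 a') y : Matrix α α ℝ).PosDef) :
    (Kmat (KG Γ) (eI (k := k) e0) y).PosDef := by
  classical
  refine Matrix.PosDef.of_dotProduct_mulVec_pos ?_ fun b hb => ?_
  · ext a c
    have hss : Γ (e0 c.1) (e0 a.1) y = Γ (e0 a.1) (e0 c.1) y := hs (e0 c.1) (e0 a.1)
    simp only [Matrix.conjTranspose_apply, Kmat, Matrix.of_apply, star_trivial]
    unfold KG
    by_cases hl : a.2 = c.2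
    · rw [if_pos (show (eI (k := k) e0 a).2 = (eI (k := k) e0 c).2 from hl),
        if_pos (show (eI (k := k) e0 c).2 = (eI (k := k) e0 a).2 from hl.symm)]
      exact hss
    · rw [if_neg (show ¬ (eI (k := k) e0 a).2 = (eI (k := k) e0 c).2 from hl),
        if_neg (show ¬ (eI (k := k) e0 c).2 = (eI (k := k) e0 a).2 from fun h => hl h.symm)]
  · rw [star_trivial]
    have e : b ⬝ᵥ Kmat (KG Γ) (eI (k := k) e0) y *ᵥ b =
        ∑ l, (fun a => b (a, l)) ⬝ᵥ (Matrix.of fun a a' => Γ (e0 a) (e0 a') y : Matrix α α ℝ) *ᵥ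
          (fun a => b (a, l)) := by
      simp only [dotProduct, Matrix.mulVec, Kmat, Matrix.of_apply, KG, eI, Fintype.sum_prod_type]
      rw [Finset.sum_comm]
      refine Finset.sum_congr rfl fun l _ => Finset.sum_congr rfl fun a _ => ?_
      congr 1
      refine Finset.sum_congr rfl fun a' _ => ?_
      rw [Finset.sum_eq_single l]
      · simp
      · intro l' _ hl
        simp [Ne.symm hl]
      · simp
    rw [e]
    have hnn : ∀ l, 0 ≤ (fun a => b (a, l)) ⬝ᵥ
        (Matrix.of fun a a' => Γ (e0 a) (e0 a') y : Matrix α α ℝ) *ᵥ (fun a => b (a, l)) := by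
      intro l
      have := h.posSemidef.dotProduct_mulVec_nonneg (fun a => b (a, l))
      simpa using this
    obtain ⟨⟨a0, l0⟩, h0⟩ := Function.ne_iff.1 hb
    have hl0 : (fun a => b (a, l0)) ≠ 0 := by
      intro hc
      exact h0 (congrFun hc a0)
    have hpos : 0 < (fun a => b (a, l0)) ⬝ᵥ
        (Matrix.of fun a a' => Γ (e0 a) (e0 a') y : Matrix α α ℝ) *ᵥ (fun a => b (a, l0)) := by
      have := h.dotProduct_mulVec_pos hl0
      simpa using this
    exact Finset.sum_pos' (fun l _ => hnn l) ⟨l0, Finset.mem_univ _, hpos⟩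

/-- `Y = X + √t Z` at the word `w` -/
def Yw (t : ℝ) (w : TW d) (ζ : Conf d (S2 d k)) : Fin k → ℝ :=
  fun l => (ζ w).2.2.1 l + Real.sqrt t * (ζ w).2.2.2 l

lemma comap_Yw (t : ℝ) (w : TW d) :
    MeasurableSpace.comap (Yw t w : Conf d (S2 d k) → Fin k → ℝ) inferInstance =
      ⨆ l, MeasurableSpace.comap (Yv pr zc xc (Real.sqrt t) (w, l)) inferInstance := by
  have h1 : (inferInstance : MeasurableSpace (Fin k → ℝ)) =
      ⨆ l, MeasurableSpace.comap (fun v : Fin k → ℝ => v l) inferInstance := rfl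
  rw [h1, MeasurableSpace.comap_iSup]
  refine iSup_congr fun l => ?_
  rw [MeasurableSpace.comap_comp]
  rfl

lemma iSup_Yw (t : ℝ) (A : Set (TW d)) :
    (⨆ w ∈ A, MeasurableSpace.comap (Yw t w : Conf d (S2 d k) → Fin k → ℝ) inferInstance) =
      ⨆ i ∈ (A ×ˢ (Set.univ : Set (Fin k))),
        MeasurableSpace.comap (Yv pr zc xc (Real.sqrt t) i) inferInstance := by
  simp only [comap_Yw]
  apply le_antisymm
  · refine iSup₂_le fun w hw => iSup_le fun l => ?_
    exact le_iSup₂_of_le (w, l) ⟨hw, Set.mem_univ _⟩ le_rfl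
  · refine iSup₂_le fun i hi => ?_
    exact le_iSup₂_of_le i.1 hi.1 (le_iSup_of_le i.2 le_rfl)

theorem measurable_pr' : Measurable (pr : Conf d (S2 d k) → Conf d (S1 d k)) := by
  refine measurable_pi_lambda _ fun w => ?_
  have h := measurable_pi_apply (X := fun _ : TW d => S2 d k) w
  exact (h.fst).prodMk ((h.snd.fst).prodMk h.snd.snd.fst)

theorem measurable_zc (i : TW d × Fin k) : Measurable (zc i : Conf d (S2 d k) → ℝ) := by
  have h := measurable_pi_apply (X := fun _ : TW d => S2 d k) i.1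
  exact (measurable_pi_apply i.2).comp h.snd.snd.snd

theorem measurable_xc (i : TW d × Fin k) : Measurable (xc i : Conf d (S1 d k) → ℝ) := by
  have h := measurable_pi_apply (X := fun _ : TW d => S1 d k) i.1
  exact (measurable_pi_apply i.2).comp h.snd.snd

/-- data on the configuration space -/
structure ConfSetup (P : Measure (Conf d (S1 d k))) (Qn : ℕ → Measure (Conf d (S2 d k)))
    (Q0 : Measure (Conf d (S2 d k))) (Γn : ℕ → TW d → TW d → Conf d (S1 d k) → ℝ)
    (Γ0 : TW d → TW d → Conf d (S1 d k) → ℝ) {α : Type} (e0 : α → TW d) : Prop where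
  hP : IsProbabilityMeasure P
  hQn : ∀ n, IsProbabilityMeasure (Qn n)
  hQ0 : IsProbabilityMeasure Q0
  mn : ∀ n w w', Measurable (Γn n w w')
  m0 : ∀ w w', Measurable (Γ0 w w')
  charn : ∀ n, CharForm P (Γn n) (Qn n)
  char0 : CharForm P Γ0 Q0
  psdn : ∀ n, ∀ᵐ y ∂P, SPSD fun w w' => Γn n w w' y
  psd0 : ∀ᵐ y ∂P, SPSD fun w w' => Γ0 w w' y
  pdn : ∀ n, ∀ᵐ y ∂P, (Matrix.of fun a a' => Γn n (e0 a) (e0 a') y : Matrix α α ℝ).PosDef
  pd0 : ∀ᵐ y ∂P, (Matrix.of fun a a' => Γ0 (e0 a) (e0 a') y : Matrix α α ℝ).PosDef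
  lim : ∀ᵐ y ∂P, ∀ w w', Tendsto (fun n => Γn n w w' y) atTop (𝓝 (Γ0 w w' y))

theorem ConfSetup.setup {P : Measure (Conf d (S1 d k))} {Qn : ℕ → Measure (Conf d (S2 d k))}
    {Q0 : Measure (Conf d (S2 d k))} {Γn : ℕ → TW d → TW d → Conf d (S1 d k) → ℝ}
    {Γ0 : TW d → TW d → Conf d (S1 d k) → ℝ} {α : Type} [Fintype α] {e0 : α → TW d}
    (L : ConfSetup P Qn Q0 Γn Γ0 e0) :
    Setup Qn Q0 P pr zc (fun n => KG (Γn n)) (KG Γ0) (eI (k := k) e0) where
  hP := L.hQn
  hP' := L.hQ0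
  hQ := L.hP
  hx := measurable_pr'
  hz := measurable_zc
  hK := fun n i j => by
    unfold KG
    split_ifs
    · exact L.mn n _ _
    · exact measurable_const
  hK' := fun i j => by
    unfold KG
    split_ifs
    · exact L.m0 _ _
    · exact measurable_const
  law := fun n κ _ j => (L.charn n).glaw j
  law' := fun κ _ j => L.char0.glaw j
  psd := fun n κ _ j => by
    filter_upwards [L.psdn n] with y hy
    exact psd_Kmat hy j
  psd' := fun κ _ j => by
    filter_upwards [L.psd0] with y hy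
    exact psd_Kmat hy j
  pd := fun n => by
    filter_upwards [L.psdn n, L.pdn n] with y hy h2
    exact pd_Kmat hy.1 h2
  pd' := by
    filter_upwards [L.psd0, L.pd0] with y hy h2
    exact pd_Kmat hy.1 h2
  lim := by
    filter_upwards [L.lim] with y hy
    intro i j
    unfold KG
    split_ifs
    · exact hy _ _
    · exact tendsto_const_nhds

/-- **Edge Markov property of the limit process on the configuration space.** -/
theorem ConfSetup.markov {P : Measure (Conf d (S1 d k))} {Qn : ℕ → Measure (Conf d (S2 d k))}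
    {Q0 : Measure (Conf d (S2 d k))} {Γn : ℕ → TW d → TW d → Conf d (S1 d k) → ℝ}
    {Γ0 : TW d → TW d → Conf d (S1 d k) → ℝ} {α : Type} [Fintype α] [DecidableEq α]
    {e0 : α → TW d} (L : ConfSetup P Qn Q0 Γn Γ0 e0) (t : ℝ)
    {Env 𝒞 : MeasurableSpace (Conf d (S2 d k))}
    (hEnv : Env ≤ MeasurableSpace.comap (pr : Conf d (S2 d k) → Conf d (S1 d k)) inferInstance)
    (hC : 𝒞 = Env ⊔ ⨆ a, MeasurableSpace.comap
      (Yw t (e0 a) : Conf d (S2 d k) → Fin k → ℝ) inferInstance)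
    (A B : Set (TW d))
    (hCI : ∀ A' B' : Finset (TW d), (A' : Set (TW d)) ⊆ A → (B' : Set (TW d)) ⊆ B →
      ∃ δ : ℕ → ℝ, Tendsto δ atTop (𝓝 0) ∧ ∀ n, ApproxCI (Qn n)
      (𝒞 ⊔ ⨆ w ∈ (A' : Set (TW d)), MeasurableSpace.comap
        (Yw t w : Conf d (S2 d k) → Fin k → ℝ) inferInstance)
      (𝒞 ⊔ ⨆ w ∈ (B' : Set (TW d)), MeasurableSpace.comap
        (Yw t w : Conf d (S2 d k) → Fin k → ℝ) inferInstance) 𝒞 (δ n))
    {F G : Conf d (S2 d k) → ℝ}
    (hF : Measurable[⨆ w ∈ A, MeasurableSpace.comap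
        (Yw t w : Conf d (S2 d k) → Fin k → ℝ) inferInstance] F)
    (hG : Measurable[⨆ w ∈ B, MeasurableSpace.comap
        (Yw t w : Conf d (S2 d k) → Fin k → ℝ) inferInstance] G)
    (hFb : ∃ C, ∀ ω, |F ω| ≤ C) (hGb : ∃ C, ∀ ω, |G ω| ≤ C) :
    Q0[fun ω => F ω * G ω|𝒞] =ᵐ[Q0] fun ω => (Q0[F|𝒞]) ω * (Q0[G|𝒞]) ω := by
  classical
  have hpe : 𝒞 ≤ MeasurableSpace.comap
      (fun ω => (pr ω, fun i => zc (eI (k := k) e0 i) ω)) inferInstance := by
    have hm : Measurable[MeasurableSpace.comap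
      (fun ω => (pr ω, fun i => zc (eI (k := k) e0 i) ω)) inferInstance]
      (fun ω => (pr ω, fun i => zc (eI (k := k) e0 i) ω)) := comap_measurable _
    rw [hC]
    refine sup_le (hEnv.trans ?_) (iSup_le fun a => ?_)
    · exact (measurable_fst.comp hm).comap_le
    · rw [comap_Yw]
      refine iSup_le fun l => ?_
      have h1 : Measurable fun p : Conf d (S1 d k) × (α × Fin k → ℝ) =>
          xc (e0 a, l) p.1 + Real.sqrt t * p.2 (a, l) :=
        ((measurable_xc _).comp measurable_fst).add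
          (((measurable_pi_apply (a, l)).comp measurable_snd).const_mul _)
      exact (h1.comp hm).comap_le
  refine markov_limit L.setup measurable_xc (Real.sqrt t) hpe (A ×ˢ Set.univ) (B ×ˢ Set.univ)
    ?_ (by rw [← iSup_Yw]; exact hF) (by rw [← iSup_Yw]; exact hG) hFb hGb
  intro tA tB hA hB
  obtain ⟨δ, hδ, h⟩ := hCI (tA.image Prod.fst) (tB.image Prod.fst)
    (by
      intro w hw
      obtain ⟨i, hi, rfl⟩ := Finset.mem_image.1 hw
      exact (hA hi).1)
    (by
      intro w hw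
      obtain ⟨i, hi, rfl⟩ := Finset.mem_image.1 hw
      exact (hB hi).1)
  refine ⟨δ, hδ, fun n => (h n).mono ?_ ?_ le_rfl⟩
  · refine sup_le_sup_left ?_ _
    rw [iSup_Yw]
    refine iSup₂_le fun i hi => ?_
    refine le_iSup₂_of_le i ⟨?_, Set.mem_univ _⟩ le_rfl
    exact Finset.mem_coe.2 (Finset.mem_image_of_mem _ hi)
  · refine sup_le_sup_left ?_ _
    rw [iSup_Yw]
    refine iSup₂_le fun i hi => ?_
    refine le_iSup₂_of_le i ⟨?_, Set.mem_univ _⟩ le_rfl
    exact Finset.mem_coe.2 (Finset.mem_image_of_mem _ hi)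

end conf

end Crest.Agent.R166.Lim793
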