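import Mathlib
import Crest.Agent.R166.EnvLaw_289
import Crest.Agent.R166.TreeLike4_942

/-!
Row 166 (helper289), F3/(E1): law of large numbers for local functions of (labels, data) seen from
a uniform half-edge of a uniform port-numbered `d`-regular graph.

Method: `Ports n d` is invariant under conjugation by vertex rotations `rho r`; given `p` the pairs
`(r v, f v)` are iid over the vertices; the views of half-edges at distance `> 2a` are independent;
at tree-like half-edges the law of the view is exactly `envLaw`.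
-/

set_option autoImplicit false

namespace Crest.Agent.R166.LLN289

open MeasureTheory ProbabilityTheory Crest.Agent.R166.Words955 Crest.Agent.R166.EnvLaw289
open Crest.Agent.R166.TreeLike942

noncomputable section

/-! ### Rotations of the ports at the vertices -/

section rot

variable {n d : ℕ} [NeZero d]

/-- rotation of the ports of each vertex `v` by `r v` -/
def rho (r : Fin n → Fin d) : Equiv.Perm (HE n d) where
  toFun h := (h.1, r h.1 + h.2)
  invFun h := (h.1, -(r h.1) + h.2)
  left_inv h := by simp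
  right_inv h := by simp

@[simp] theorem rho_apply (r : Fin n → Fin d) (h : HE n d) : rho r h = (h.1, r h.1 + h.2) := rfl

@[simp] theorem rho_inv_apply (r : Fin n → Fin d) (h : HE n d) :
    (rho r)⁻¹ h = (h.1, -(r h.1) + h.2) := rfl

theorem conjP_rho_apply (r : Fin n → Fin d) (p : Equiv.Perm (HE n d)) (h : HE n d) :
    conjP (rho r) p (rho r h) = rho r (p h) := by
  rw [conjP_apply]
  congr 2
  exact (rho r).symm_apply_apply h

theorem walk_conj (r : Fin n → Fin d) (p : Equiv.Perm (HE n d)) (w : List (Fin d))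
    (h : HE n d) : walk (conjP (rho r) p) w (rho r h) = rho r (walk p w h) := by
  induction w generalizing h with
  | nil => rfl
  | cons i w ih =>
    have h1 : (((rho r h).1, (rho r h).2 + i) : HE n d) = rho r (h.1, h.2 + i) := by
      simp [add_assoc]
    rw [walk, walk, h1, conjP_rho_apply, ih]

theorem isPort_conj {p : Equiv.Perm (HE n d)} (hp : IsPort p) (r : Fin n → Fin d) :
    IsPort (conjP (rho r) p) where
  inv := conjP_inv_inv _ _ hp.inv
  noloop h := by
    rw [conjP_apply]
    intro h1
    exact hp.noloop ((rho r)⁻¹ h) (by simpa using h1)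
  simple v i j h := by
    rw [conjP_apply, conjP_apply] at h
    simp only [rho_apply, rho_inv_apply] at h
    have := hp.simple v _ _ h
    simpa using this

/-- `Ports` is invariant under the rotations -/
theorem sum_Ports_conj {α : Type*} [AddCommMonoid α] (r : Fin n → Fin d)
    (F : Equiv.Perm (HE n d) → α) :
    ∑ p ∈ Ports n d, F (conjP (rho r) p) = ∑ p ∈ Ports n d, F p := by
  refine Finset.sum_bij' (fun p _ => conjP (rho r) p) (fun p _ => conjP (rho (-r)) p) ?_ ?_ ?_ ?_ ?_
  · intro p hp
    exact mem_Ports.2 (isPort_conj (mem_Ports.1 hp) r)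
  · intro p hp
    exact mem_Ports.2 (isPort_conj (mem_Ports.1 hp) (-r))
  · intro p _
    rw [conjP_conjP]
    have : rho (-r) * rho r = 1 := by
      ext1 h
      simp [Equiv.Perm.mul_apply]
    rw [this]
    simp [conjP]
  · intro p _
    rw [conjP_conjP]
    have : rho r * rho (-r) = 1 := by
      ext1 h
      simp [Equiv.Perm.mul_apply]
    rw [this]
    simp [conjP]
  · intro p _
    rfl

omit [NeZero d] in
/-- walks are injective in the starting half-edge -/
theorem walk_injective (p : Equiv.Perm (HE n d)) (w : List (Fin d)) :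
    Function.Injective (walk p w : HE n d → HE n d) := by
  induction w with
  | nil => exact fun _ _ h => h
  | cons i w ih =>
    intro h h' hh
    have h1 := p.injective (ih hh)
    simp only [Prod.mk.injEq, add_left_inj] at h1
    exact Prod.ext h1.1 h1.2

end rot

/-! ### Views -/

section view

variable {n d : ℕ} [NeZero d] {T : Type*}

/-- the configuration seen from `h`, with data `x v = (rotation, datum)` at the vertices -/
def view (p : Equiv.Perm (HE n d)) (h : HE n d) (x : Fin n → Fin d × T) : Conf d (Fin d × T) :=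
  fun w => rl (walk p w.1 h).2 (x (walk p w.1 h).1)

theorem conf_conj (p : Equiv.Perm (HE n d)) (r : Fin n → Fin d) (f : Fin n → T) (h : HE n d) :
    conf (conjP (rho r) p) (lab f) (rho r h) = view p h (fun v => (r v, f v)) := by
  funext w
  simp only [conf, walk_conj]
  simp only [view, lab, rho_apply, rl]
  rw [add_comm]

/-- `g` depends only on the words of length `≤ a` -/
def Loc (a : ℕ) (g : Conf d (Fin d × T) → ℝ) : Prop :=
  ∀ ξ ξ' : Conf d (Fin d × T), (∀ w : TW d, w.len ≤ a → ξ w = ξ' w) → g ξ = g ξ'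

/-- the sum over half-edges in the rotated graph -/
theorem sum_conf_conj (p : Equiv.Perm (HE n d)) (r : Fin n → Fin d) (f : Fin n → T)
    (g : Conf d (Fin d × T) → ℝ) :
    ∑ h, g (conf (conjP (rho r) p) (lab f) h) = ∑ h, g (view p h (fun v => (r v, f v))) := by
  rw [← Equiv.sum_comp (rho r) (fun h => g (conf (conjP (rho r) p) (lab f) h))]
  simp only [conf_conj]

/-- words of length `≤ a` -/
abbrev BW (d : ℕ) [NeZero d] (a : ℕ) : Type := {w : TW d // w ∈ TW.ball d a}

/-- extension of a configuration on the ball -/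
def ext (a : ℕ) (y : BW d a → Fin d × T) : Conf d (Fin d × T) := fun w =>
  if hw : w ∈ TW.ball d a then y ⟨w, hw⟩
  else y ⟨TW.nil, by simp [TW.len, TW.nil]⟩

theorem Loc.ext {a : ℕ} {g : Conf d (Fin d × T) → ℝ} (hg : Loc a g) (ξ : Conf d (Fin d × T)) :
    g (ext a (fun b => ξ b.1)) = g ξ := by
  apply hg
  intro w hw
  have : w ∈ TW.ball d a := TW.mem_ball.2 hw
  simp [LLN289.ext, this]

variable [MeasurableSpace T]

theorem measurable_ext (a : ℕ) :
    Measurable (ext a : (BW d a → Fin d × T) → Conf d (Fin d × T)) := by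
  refine measurable_pi_lambda _ fun _w => ?_
  unfold ext
  split_ifs
  · exact measurable_pi_apply _
  · exact measurable_pi_apply _

theorem measurable_view (p : Equiv.Perm (HE n d)) (h : HE n d) :
    Measurable (view p h : (Fin n → Fin d × T) → Conf d (Fin d × T)) :=
  measurable_pi_lambda _ fun _w => (measurable_rl _).comp (measurable_pi_apply _)

/-- the iid law on the vertices -/
def vLaw (n d : ℕ) (τ : Measure T) : Measure (Fin n → Fin d × T) :=
  Measure.pi fun _ => siteLaw d τ

instance (τ : Measure T) [IsProbabilityMeasure τ] : IsProbabilityMeasure (vLaw n d τ) := by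
  unfold vLaw; infer_instance

/-- **exact law of the view at a tree-like half-edge** -/
theorem integral_view (τ : Measure T) [IsProbabilityMeasure τ] (p : Equiv.Perm (HE n d))
    (h : HE n d) (a : ℕ)
    (hinj : Set.InjOn (fun w : TW d => (walk p w.1 h).1) {w | w.len ≤ a})
    {g : Conf d (Fin d × T) → ℝ} (hg : Measurable g) (hloc : Loc a g) :
    ∫ x, g (view p h x) ∂(vLaw n d τ) = ∫ ξ, g ξ ∂(envLaw d τ) := by
  classical
  -- the law of the restricted view
  have hv : Function.Injective (fun b : BW d a => (walk p b.1.1 h).1) := by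
    intro b b' hb
    exact Subtype.ext (hinj (TW.mem_ball.1 b.2) (TW.mem_ball.1 b'.2) hb)
  have h1 : (vLaw n d τ).map (fun x (b : BW d a) => view p h x b.1) =
      Measure.infinitePi fun _ : BW d a => siteLaw d τ := by
    have e1 : (fun (x : Fin n → Fin d × T) (b : BW d a) => view p h x b.1) =
        (fun (y : BW d a → Fin d × T) b => rl (walk p b.1.1 h).2 (y b)) ∘
          (fun x (b : BW d a) => x (walk p b.1.1 h).1) := rfl
    rw [e1, ← Measure.map_map, vLaw, ← Measure.infinitePi_eq_pi,
      Measure.map_infinitePi_infinitePi_of_inj (P := fun _ : Fin n => siteLaw d τ) hv,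
      Measure.infinitePi_map_pi (μ := fun _ : BW d a => siteLaw d τ)
        (f := fun b : BW d a => rl (walk p b.1.1 h).2) (fun b => measurable_rl _)]
    · congr 1
      funext b
      exact siteLaw_rl τ _
    · exact measurable_pi_lambda _ fun b => (measurable_rl _).comp (measurable_pi_apply _)
    · exact measurable_pi_lambda _ fun b => measurable_pi_apply _
  have h2 : (envLaw d τ).map (fun (ξ : Conf d (Fin d × T)) (b : BW d a) => ξ b.1) =
      Measure.infinitePi fun _ : BW d a => siteLaw d τ :=
    envLaw_map_inj τ (fun b : BW d a => b.1) Subtype.val_injective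
  have hge : AEStronglyMeasurable (fun y : BW d a → Fin d × T => g (ext a y))
      (Measure.infinitePi fun _ : BW d a => siteLaw d τ) :=
    (hg.comp (measurable_ext a)).aestronglyMeasurable
  have hm1 : Measurable (fun (x : Fin n → Fin d × T) (b : BW d a) => view p h x b.1) :=
    measurable_pi_lambda _ fun b => (measurable_pi_apply _).comp (measurable_view p h)
  have hm2 : Measurable (fun (ξ : Conf d (Fin d × T)) (b : BW d a) => ξ b.1) :=
    measurable_pi_lambda _ fun b => measurable_pi_apply _
  calc ∫ x, g (view p h x) ∂(vLaw n d τ)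
      = ∫ x, g (ext a (fun b => view p h x b.1)) ∂(vLaw n d τ) := by
        simp only [hloc.ext]
    _ = ∫ y, g (ext a y) ∂((vLaw n d τ).map (fun x (b : BW d a) => view p h x b.1)) := by
        rw [integral_map hm1.aemeasurable]
        rw [h1]; exact hge
    _ = ∫ y, g (ext a y) ∂((envLaw d τ).map
          (fun (ξ : Conf d (Fin d × T)) (b : BW d a) => ξ b.1)) := by rw [h1, h2]
    _ = ∫ ξ, g (ext a (fun b => ξ b.1)) ∂(envLaw d τ) := by
        rw [integral_map hm2.aemeasurable]
        rw [h2]; exact hge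
    _ = ∫ ξ, g ξ ∂(envLaw d τ) := by simp only [hloc.ext]

/-- vertices of the ball of radius `a` seen from `h` -/
def vtx (p : Equiv.Perm (HE n d)) (a : ℕ) (h : HE n d) : Finset (Fin n) :=
  (TW.ball d a).image fun w => (walk p w.1 h).1

/-- **views of half-edges with disjoint balls are independent** -/
theorem indep_view (τ : Measure T) [IsProbabilityMeasure τ] (p : Equiv.Perm (HE n d))
    (h h' : HE n d) (a : ℕ) (hd : Disjoint (vtx p a h) (vtx p a h'))
    {g : Conf d (Fin d × T) → ℝ} (hg : Measurable g) (hloc : Loc a g) :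
    IndepFun (fun x => g (view p h x)) (fun x => g (view p h' x)) (vLaw n d τ) := by
  classical
  have hi : iIndepFun (fun (v : Fin n) (x : Fin n → Fin d × T) => x v) (vLaw n d τ) :=
    iIndepFun_pi (X := fun _ x => x) (fun _ => aemeasurable_id)
  have hi2 := hi.indepFun_finset (vtx p a h) (vtx p a h') hd (fun v => measurable_pi_apply v)
  have hmem : ∀ (k : HE n d) (b : BW d a), (walk p b.1.1 k).1 ∈ vtx p a k := fun k b =>
    Finset.mem_image.2 ⟨b.1, b.2, rfl⟩
  let φ : ∀ k : HE n d, (vtx p a k → Fin d × T) → ℝ := fun k y =>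
    g (ext a (fun b => rl (walk p b.1.1 k).2 (y ⟨(walk p b.1.1 k).1, hmem k b⟩)))
  have hφ : ∀ k, Measurable (φ k) := by
    intro k
    refine hg.comp ((measurable_ext a).comp ?_)
    exact measurable_pi_lambda _ fun b => (measurable_rl _).comp (measurable_pi_apply _)
  have h3 := hi2.comp (hφ h) (hφ h')
  have e : ∀ k : HE n d, (φ k ∘ fun (x : Fin n → Fin d × T) (i : vtx p a k) => x i) =
      fun x => g (view p k x) := by
    intro k
    funext x
    exact hloc.ext (view p k x)
  rw [e h, e h'] at h3
  exact h3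

/-- number of half-edges whose ball meets the ball of a given half-edge -/
theorem card_meet (p : Equiv.Perm (HE n d)) (a : ℕ) (h : HE n d) :
    (Finset.univ.filter fun h' => ¬ Disjoint (vtx p a h) (vtx p a h')).card ≤
      (TW.ball d a).card * (TW.ball d a).card * d := by
  classical
  have hsub : (Finset.univ.filter fun h' => ¬ Disjoint (vtx p a h) (vtx p a h')) ⊆
      ((TW.ball d a) ×ˢ ((TW.ball d a) ×ˢ (Finset.univ : Finset (Fin d)))).biUnion
        (fun t => Finset.univ.filter fun h' : HE n d =>
          walk p t.2.1.1 h' = ((walk p t.1.1 h).1, t.2.2)) := by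
    intro h' hh'
    rw [Finset.mem_filter, Finset.not_disjoint_iff] at hh'
    obtain ⟨_, v, hv, hv'⟩ := hh'
    obtain ⟨w, hw, hwv⟩ := Finset.mem_image.1 hv
    obtain ⟨w', hw', hwv'⟩ := Finset.mem_image.1 hv'
    refine Finset.mem_biUnion.2 ⟨(w, w', (walk p w'.1 h').2), ?_, ?_⟩
    · simp [Finset.mem_product] at hw hw' ⊢
      exact ⟨hw, hw'⟩
    · refine Finset.mem_filter.2 ⟨Finset.mem_univ _, ?_⟩
      refine Prod.ext ?_ rfl
      simp only
      rw [hwv, hwv']
  refine (Finset.card_le_card hsub).trans ?_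
  refine (Finset.card_biUnion_le_card_mul _ _ 1 ?_).trans ?_
  · intro t _
    refine Finset.card_le_one.2 ?_
    intro x hx y hy
    have h1 := (Finset.mem_filter.1 hx).2
    have h2 := (Finset.mem_filter.1 hy).2
    exact walk_injective p t.2.1.1 (h1.trans h2.symm)
  · rw [mul_one, Finset.card_product, Finset.card_product, Finset.card_univ, Fintype.card_fin,
      mul_assoc]

/-- constant of the variance bound -/
def CB (d : ℕ) [NeZero d] (a : ℕ) : ℕ := (TW.ball d a).card * (TW.ball d a).card * d

theorem memLp_view (τ : Measure T) [IsProbabilityMeasure τ] (p : Equiv.Perm (HE n d))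
    (h : HE n d) {g : Conf d (Fin d × T) → ℝ} (hg : Measurable g) (hb : ∀ ξ, |g ξ| ≤ 1) :
    MemLp (fun x => g (view p h x)) 2 (vLaw n d τ) := by
  refine MemLp.of_bound (hg.comp (measurable_view p h)).aestronglyMeasurable 1 ?_
  exact Filter.Eventually.of_forall fun x => by rw [Real.norm_eq_abs]; exact hb _

/-- covariance of two bounded functions -/
theorem abs_cov_le {Ω : Type*} [MeasurableSpace Ω] (μ : Measure Ω) [IsProbabilityMeasure μ]
    {X Y : Ω → ℝ} (hX : ∀ x, |X x| ≤ 1) (hY : ∀ x, |Y x| ≤ 1) : cov[X, Y; μ] ≤ 4 := by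
  have hmX : |μ[X]| ≤ 1 := by
    have := norm_integral_le_of_norm_le_const (μ := μ) (f := X) (C := 1)
      (Filter.Eventually.of_forall fun x => by rw [Real.norm_eq_abs]; exact hX x)
    simpa using this
  have hmY : |μ[Y]| ≤ 1 := by
    have := norm_integral_le_of_norm_le_const (μ := μ) (f := Y) (C := 1)
      (Filter.Eventually.of_forall fun x => by rw [Real.norm_eq_abs]; exact hY x)
    simpa using this
  have h1 : |cov[X, Y; μ]| ≤ 4 := by
    rw [covariance]
    have := norm_integral_le_of_norm_le_const (μ := μ)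
      (f := fun x => (X x - μ[X]) * (Y x - μ[Y])) (C := 4)
      (Filter.Eventually.of_forall fun x => by
        rw [Real.norm_eq_abs, abs_mul]
        have h2 : |X x - μ[X]| ≤ 2 := by
          have := abs_sub (X x) (μ[X])
          have := hX x
          linarith
        have h3 : |Y x - μ[Y]| ≤ 2 := by
          have := abs_sub (Y x) (μ[Y])
          have := hY x
          linarith
        calc |X x - μ[X]| * |Y x - μ[Y]| ≤ 2 * 2 :=
              mul_le_mul h2 h3 (abs_nonneg _) (by norm_num)
          _ = 4 := by norm_num)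
    simpa using this
  exact (le_abs_self _).trans h1

/-- **variance bound** -/
theorem var_sum_view (τ : Measure T) [IsProbabilityMeasure τ] (p : Equiv.Perm (HE n d))
    (a : ℕ) {g : Conf d (Fin d × T) → ℝ} (hg : Measurable g) (hb : ∀ ξ, |g ξ| ≤ 1)
    (hloc : Loc a g) :
    Var[fun x => ∑ h, g (view p h x); vLaw n d τ] ≤ 4 * CB d a * (n * d) := by
  classical
  rw [variance_fun_sum (fun h => memLp_view τ p h hg hb)]
  calc ∑ h, ∑ h', cov[fun x => g (view p h x), fun x => g (view p h' x); vLaw n d τ]
      ≤ ∑ h : HE n d, ∑ h' : HE n d,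
          (if ¬ Disjoint (vtx p a h) (vtx p a h') then (4 : ℝ) else 0) := by
        refine Finset.sum_le_sum fun h _ => Finset.sum_le_sum fun h' _ => ?_
        by_cases hd : Disjoint (vtx p a h) (vtx p a h')
        · rw [if_neg (not_not.2 hd),
            (indep_view τ p h h' a hd hg hloc).covariance_eq_zero (memLp_view τ p h hg hb)
            (memLp_view τ p h' hg hb)]
        · rw [if_pos hd]
          exact abs_cov_le (vLaw n d τ) (fun x => hb _) (fun x => hb _)
    _ ≤ ∑ _h : HE n d, (4 * CB d a : ℝ) := by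
        refine Finset.sum_le_sum fun h _ => ?_
        rw [← Finset.sum_filter, Finset.sum_const, nsmul_eq_mul, mul_comm]
        have := card_meet p a h
        have h2 : (((Finset.univ.filter fun h' => ¬ Disjoint (vtx p a h) (vtx p a h')).card : ℕ) : ℝ)
          ≤ CB d a := by exact_mod_cast this
        linarith
    _ = 4 * CB d a * (n * d) := by
        rw [Finset.sum_const, Finset.card_univ, IsPort.card_HE, nsmul_eq_mul]
        push_cast
        ring

/-- half-edges whose word map is not injective on the ball of radius `a` -/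
def badH (p : Equiv.Perm (HE n d)) (a : ℕ) : Finset (HE n d) := by
  classical exact Finset.univ.filter fun h =>
    ¬ Set.InjOn (fun w : TW d => (walk p w.1 h).1) {w | w.len ≤ a}

theorem abs_integral_le_one {Ω : Type*} [MeasurableSpace Ω] (μ : Measure Ω)
    [IsProbabilityMeasure μ] {X : Ω → ℝ} (hX : ∀ x, |X x| ≤ 1) : |∫ x, X x ∂μ| ≤ 1 := by
  have := norm_integral_le_of_norm_le_const (μ := μ) (f := X) (C := 1)
    (Filter.Eventually.of_forall fun x => by rw [Real.norm_eq_abs]; exact hX x)
  simpa using this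

/-- the mean of the average -/
theorem mean_sum_view (τ : Measure T) [IsProbabilityMeasure τ] (p : Equiv.Perm (HE n d))
    (a : ℕ) {g : Conf d (Fin d × T) → ℝ} (hg : Measurable g) (hb : ∀ ξ, |g ξ| ≤ 1)
    (hloc : Loc a g) :
    |(∫ x, ∑ h, g (view p h x) ∂(vLaw n d τ)) - (n * d) * ∫ ξ, g ξ ∂(envLaw d τ)| ≤
      2 * (badH p a).card := by
  classical
  have hint : ∀ h : HE n d, Integrable (fun x => g (view p h x)) (vLaw n d τ) := fun h =>
    (memLp_view τ p h hg hb).integrable (by norm_num)
  rw [integral_finsetSum _ (fun h _ => hint h)]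
  have e : ((n : ℝ) * d) * ∫ ξ, g ξ ∂(envLaw d τ) =
      ∑ _h : HE n d, ∫ ξ, g ξ ∂(envLaw d τ) := by
    rw [Finset.sum_const, Finset.card_univ, IsPort.card_HE, nsmul_eq_mul]
    push_cast
    ring
  rw [e, ← Finset.sum_sub_distrib]
  refine (Finset.abs_sum_le_sum_abs _ _).trans ?_
  calc ∑ h : HE n d, |(∫ x, g (view p h x) ∂(vLaw n d τ)) - ∫ ξ, g ξ ∂(envLaw d τ)|
      ≤ ∑ h : HE n d, (if h ∈ badH p a then (2 : ℝ) else 0) := by
        refine Finset.sum_le_sum fun h _ => ?_
        split_ifs with hbad
        · have h1 := abs_integral_le_one (vLaw n d τ) (X := fun x => g (view p h x))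
            (fun x => hb _)
          have h2 := abs_integral_le_one (envLaw d τ) (X := g) hb
          have h3 := abs_sub (∫ x, g (view p h x) ∂(vLaw n d τ)) (∫ ξ, g ξ ∂(envLaw d τ))
          linarith
        · have hinj : Set.InjOn (fun w : TW d => (walk p w.1 h).1) {w | w.len ≤ a} := by
            by_contra hcon
            exact hbad (by simp [badH, hcon])
          rw [integral_view τ p h a hinj hg hloc, sub_self, abs_zero]
    _ = 2 * (badH p a).card := by
        rw [← Finset.sum_filter, Finset.sum_const, nsmul_eq_mul, mul_comm]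
        congr 3
        ext h
        simp

/-- **quenched law of large numbers** (given `p`, over the rotations and the data) -/
theorem quenched (τ : Measure T) [IsProbabilityMeasure τ] (hn : 0 < n)
    (p : Equiv.Perm (HE n d)) (a : ℕ) {g : Conf d (Fin d × T) → ℝ} (hg : Measurable g)
    (hb : ∀ ξ, |g ξ| ≤ 1) (hloc : Loc a g) {ε : ℝ} (hε : 0 < ε)
    (hbad : ((badH p a).card : ℝ) ≤ ε / 4 * (n * d)) :
    vLaw n d τ {x | ε < |(∑ h, g (view p h x)) / (n * d) - ∫ ξ, g ξ ∂(envLaw d τ)|} ≤
      ENNReal.ofReal (16 * CB d a / (ε ^ 2 * (n * d))) := by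
  classical
  have hd0 : 0 < d := Nat.pos_of_ne_zero (NeZero.ne d)
  have hN : (0 : ℝ) < n * d := by positivity
  set S : (Fin n → Fin d × T) → ℝ := fun x => ∑ h, g (view p h x) with hS
  have hSm : MemLp S 2 (vLaw n d τ) := by
    have := memLp_finsetSum (μ := vLaw n d τ) (p := 2) (Finset.univ : Finset (HE n d))
      (f := fun h x => g (view p h x)) (fun h _ => memLp_view τ p h hg hb)
    exact this
  have hc : 0 < ε / 2 * (n * d) := by positivity
  have h1 := meas_ge_le_variance_div_sq hSm hc
  have hsub : {x | ε < |S x / (n * d) - ∫ ξ, g ξ ∂(envLaw d τ)|} ⊆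
      {x | ε / 2 * (n * d) ≤ |S x - (vLaw n d τ)[S]|} := by
    intro x hx
    simp only [Set.mem_ofPred_eq] at hx ⊢
    have h2 := mean_sum_view τ p a hg hb hloc
    set m := ∫ ξ, g ξ ∂(envLaw d τ) with hm
    have h3 : |S x - (n * d) * m| = |S x / (n * d) - m| * (n * d) := by
      rw [← abs_of_pos hN, ← abs_mul, abs_of_pos hN]
      congr 1
      field_simp
    have h4 : ε * (n * d) < |S x - (n * d) * m| := by
      rw [h3]
      exact mul_lt_mul_of_pos_right hx hN
    have h5 : |S x - (n * d) * m| ≤ |S x - (vLaw n d τ)[S]| + |(vLaw n d τ)[S] - (n * d) * m| :=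
      abs_sub_le _ _ _
    have h6 : |(vLaw n d τ)[S] - (n * d) * m| ≤ ε / 2 * (n * d) := by
      refine h2.trans ?_
      calc 2 * ((badH p a).card : ℝ) ≤ 2 * (ε / 4 * (n * d)) := by linarith
        _ = ε / 2 * (n * d) := by ring
    linarith
  refine (measure_mono hsub).trans (h1.trans (ENNReal.ofReal_le_ofReal ?_))
  rw [div_le_div_iff₀ (by positivity) (by positivity)]
  have h7 := var_sum_view τ p a hg hb hloc
  calc Var[S; vLaw n d τ] * (ε ^ 2 * (n * d)) ≤ (4 * CB d a * (n * d)) * (ε ^ 2 * (n * d)) := by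
        gcongr
    _ = 16 * CB d a * (ε / 2 * (n * d)) ^ 2 := by ring

end view

/-! ### The law of large numbers over `Ports × data` -/

section main

variable {d : ℕ} [NeZero d] {T : Type*} [MeasurableSpace T]

/-- averaging over the rotations -/
theorem sum_Ports_rot {n : ℕ} (τ : Measure T) [IsProbabilityMeasure τ]
    {g : Conf d (Fin d × T) → ℝ} (hg : Measurable g) (B : Set ℝ) (hB : MeasurableSet B) :
    ∑ p ∈ Ports n d, (Measure.pi fun _ : Fin n => τ) {f | (∑ h, g (conf p (lab f) h)) ∈ B} =
      ∑ p ∈ Ports n d, vLaw n d τ {x | (∑ h, g (view p h x)) ∈ B} := by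
  classical
  have hmeas : ∀ p : Equiv.Perm (HE n d), MeasurableSet
      {x : Fin n → Fin d × T | (∑ h, g (view p h x)) ∈ B} := by
    intro p
    have : Measurable (fun x : Fin n → Fin d × T => ∑ h, g (view p h x)) :=
      Finset.measurable_sum _ fun h _ => hg.comp (measurable_view p h)
    exact this hB
  -- the law `vLaw` as a product
  have hlaw : ∀ p : Equiv.Perm (HE n d), vLaw n d τ {x | (∑ h, g (view p h x)) ∈ B} =
      ∫⁻ r, (Measure.pi fun _ : Fin n => τ)
        {f | (∑ h, g (view p h (fun v => (r v, f v)))) ∈ B} ∂(Measure.pi fun _ : Fin n => uFin d) := by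
    intro p
    have hmp := measurePreserving_arrowProdEquivProdArrow (Fin d) T (Fin n)
      (fun _ => uFin d) (fun _ => τ)
    have h1 := hmp.symm.measure_preimage (hmeas p).nullMeasurableSet
    have e1 : vLaw n d τ = Measure.pi fun _ : Fin n => (uFin d).prod τ := rfl
    rw [e1, ← h1, Measure.prod_apply]
    · rfl
    · exact (MeasurableEquiv.measurable _) (hmeas p)
  have hr : ∀ r : Fin n → Fin d,
      ∑ p ∈ Ports n d, (Measure.pi fun _ : Fin n => τ)
        {f | (∑ h, g (view p h (fun v => (r v, f v)))) ∈ B} =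
      ∑ p ∈ Ports n d, (Measure.pi fun _ : Fin n => τ) {f | (∑ h, g (conf p (lab f) h)) ∈ B} := by
    intro r
    rw [← sum_Ports_conj r (fun p => (Measure.pi fun _ : Fin n => τ)
      {f | (∑ h, g (conf p (lab f) h)) ∈ B})]
    refine Finset.sum_congr rfl fun p _ => ?_
    congr 1
    ext f
    simp only [Set.mem_ofPred_eq]
    rw [sum_conf_conj]
  simp only [hlaw]
  rw [← lintegral_finsetSum' _ (fun p _ => (measurable_of_finite _).aemeasurable)]
  simp only [hr]
  rw [lintegral_const, measure_univ, mul_one]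

theorem card_badH_le {n : ℕ} (p : Equiv.Perm (HE n d)) (a : ℕ) :
    (badH p a).card ≤ Nat.card {v : Fin n // ¬ TreeAt Prod.fst p a v} * d := by
  classical
  refine le_trans (le_of_eq ?_) (card_bad_half_le p a)
  rw [Nat.subtype_card (badH p a)]
  intro h
  simp [badH]

/-- **law of large numbers for local functions of (labels, data)**, uniform over all local
functions of radius `a` bounded by `1` and all laws of the data -/
theorem lln (d a : ℕ) [NeZero d] {ε δ : ℝ} (hε : 0 < ε) (hδ : 0 < δ) :
    ∃ N : ℕ, ∀ n ≥ N, ∀ (T : Type*) [MeasurableSpace T] (τ : Measure T)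
      [IsProbabilityMeasure τ] (g : Conf d (Fin d × T) → ℝ), Measurable g → (∀ ξ, |g ξ| ≤ 1) →
      Loc a g →
      ∑ p ∈ Ports n d, (Measure.pi fun _ : Fin n => τ)
        {f | ε < |(∑ h, g (conf p (lab f) h)) / (n * d) - ∫ ξ, g ξ ∂(envLaw d τ)|} ≤
          ENNReal.ofReal δ * ((Ports n d).card : ENNReal) := by
  classical
  have hd0 : 0 < d := Nat.pos_of_ne_zero (NeZero.ne d)
  have hd0' : (0 : ℝ) < d := by exact_mod_cast hd0
  obtain ⟨N1, h1⟩ := tree_whp_Ports d a hd0 (ε / 4) (δ / 2) (by positivity) (by positivity)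
  obtain ⟨N2, h2⟩ := exists_nat_gt (16 * CB d a / (ε ^ 2 * d) / (δ / 2))
  refine ⟨max (max N1 N2) 1, fun n hn T _ τ _ g hg hb hloc => ?_⟩
  have hn1 : N1 ≤ n := (le_max_left _ _).trans ((le_max_left _ _).trans hn)
  have hn2 : N2 ≤ n := (le_max_right _ _).trans ((le_max_left _ _).trans hn)
  have hn3 : 1 ≤ n := (le_max_right _ _).trans hn
  have hn0 : (0 : ℝ) < n := by exact_mod_cast hn3
  set m := ∫ ξ, g ξ ∂(envLaw d τ) with hm
  have hB : MeasurableSet {y : ℝ | ε < |y / (n * d) - m|} :=
    measurableSet_lt measurable_const (((measurable_id.div_const _).sub_const _).norm)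
  have h3 := sum_Ports_rot (n := n) τ hg {y : ℝ | ε < |y / (n * d) - m|} hB
  simp only [Set.mem_ofPred_eq] at h3
  rw [h3]
  -- bad port numberings
  set Pb := (Ports n d).filter fun p => ε / 4 * (n * d) < ((badH p a).card : ℝ) with hPb
  have h4 : (Pb.card : ℝ) ≤ δ / 2 * ((Ports n d).card : ℝ) := by
    refine h1 n hn1 Pb (Finset.filter_subset _ _) fun p hp => ?_
    have h5 := (Finset.mem_filter.1 hp).2
    have h6 : ((badH p a).card : ℝ) ≤
        (Nat.card {v : Fin n // ¬ TreeAt Prod.fst p a v} : ℝ) * d := by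
      exact_mod_cast card_badH_le p a
    have h7 : ε / 4 * n * d ≤ (Nat.card {v : Fin n // ¬ TreeAt Prod.fst p a v} : ℝ) * d := by
      calc ε / 4 * n * d = ε / 4 * (n * d) := by ring
        _ ≤ _ := h5.le.trans h6
    exact le_of_mul_le_mul_right h7 hd0'
  have h8 : ENNReal.ofReal (16 * CB d a / (ε ^ 2 * (n * d))) ≤ ENNReal.ofReal (δ / 2) := by
    apply ENNReal.ofReal_le_ofReal
    have h9 : 16 * CB d a / (ε ^ 2 * d) / (δ / 2) < n :=
      h2.trans_le (by exact_mod_cast hn2)
    rw [div_lt_iff₀ (by positivity)] at h9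
    rw [div_le_iff₀ (by positivity)]
    rw [div_lt_iff₀ (by positivity)] at h9
    nlinarith
  have hle : ∀ p ∈ Ports n d, vLaw n d τ {x | ε < |(∑ h, g (view p h x)) / (n * d) - m|} ≤
      (if p ∈ Pb then 1 else 0) + ENNReal.ofReal (δ / 2) := by
    intro p hp
    split_ifs with hpb
    · exact prob_le_one.trans le_self_add
    · rw [zero_add]
      refine (quenched τ hn3 p a hg hb hloc hε ?_).trans h8
      by_contra hcon
      exact hpb (Finset.mem_filter.2 ⟨hp, not_le.1 hcon⟩)
  refine (Finset.sum_le_sum hle).trans ?_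
  rw [Finset.sum_add_distrib, Finset.sum_const, nsmul_eq_mul, ← Finset.sum_filter,
    Finset.sum_const, nsmul_eq_mul, mul_one]
  have h10 : ((Ports n d).filter fun p => p ∈ Pb) = Pb := by
    ext p
    simp [hPb]
  rw [h10]
  have h11 : (Pb.card : ENNReal) ≤ ENNReal.ofReal (δ / 2) * ((Ports n d).card : ENNReal) := by
    rw [← ENNReal.ofReal_natCast, ← ENNReal.ofReal_natCast,
      ← ENNReal.ofReal_mul (by positivity)]
    exact ENNReal.ofReal_le_ofReal h4
  calc (Pb.card : ENNReal) + ((Ports n d).card : ENNReal) * ENNReal.ofReal (δ / 2)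
      ≤ ENNReal.ofReal (δ / 2) * ((Ports n d).card : ENNReal) +
        ((Ports n d).card : ENNReal) * ENNReal.ofReal (δ / 2) := by gcongr
    _ = (ENNReal.ofReal (δ / 2) + ENNReal.ofReal (δ / 2)) * ((Ports n d).card : ENNReal) := by ring
    _ = ENNReal.ofReal δ * ((Ports n d).card : ENNReal) := by
        rw [← ENNReal.ofReal_add (by positivity) (by positivity), add_halves]

/-- the same for the normalised law of the port numberings -/
theorem lln' (d a : ℕ) [NeZero d] {ε δ : ℝ} (hε : 0 < ε) (hδ : 0 < δ) :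
    ∃ N : ℕ, ∀ n ≥ N, ∀ (T : Type*) [MeasurableSpace T] (τ : Measure T)
      [IsProbabilityMeasure τ] (g : Conf d (Fin d × T) → ℝ), Measurable g → (∀ ξ, |g ξ| ≤ 1) →
      Loc a g →
      ((Ports n d).card : ENNReal)⁻¹ * ∑ p ∈ Ports n d, (Measure.pi fun _ : Fin n => τ)
        {f | ε < |(∑ h, g (conf p (lab f) h)) / (n * d) - ∫ ξ, g ξ ∂(envLaw d τ)|} ≤
          ENNReal.ofReal δ := by
  obtain ⟨N, hN⟩ := lln d a hε hδ
  refine ⟨N, fun n hn T _ τ _ g hg hb hloc => ?_⟩
  have h1 := hN n hn T τ g hg hb hloc
  rcases Nat.eq_zero_or_pos (Ports n d).card with h0 | h0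
  · rw [Finset.card_eq_zero.1 h0]
    simp
  · have h2 : ((Ports n d).card : ENNReal) ≠ 0 := by exact_mod_cast h0.ne'
    have h3 : ((Ports n d).card : ENNReal) ≠ ⊤ := ENNReal.natCast_ne_top _
    calc _ ≤ ((Ports n d).card : ENNReal)⁻¹ *
          (ENNReal.ofReal δ * ((Ports n d).card : ENNReal)) := by gcongr
      _ = ENNReal.ofReal δ := by
          rw [mul_comm (ENNReal.ofReal δ), ← mul_assoc, ENNReal.inv_mul_cancel h2 h3, one_mul]

end main

end

end Crest.Agent.R166.LLN289
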