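import Mathlib

/-!
Row 166 (helper980), ThmB-final, module F1: abstract extraction of a sequence of events on which
all tests converge to deterministic values.
-/

set_option autoImplicit false

namespace Crest.Agent.R166.Extract980

open MeasureTheory Filter Topology

/-- the value of a test in a finite grid -/
noncomputable def grid (m : ℕ) (t : ℝ) : Fin (2 * m + 3) :=
  ⟨(⌊(m : ℝ) * (t + 1)⌋ + 1).toNat ⊓ (2 * m + 2), by
    have : (⌊(m : ℝ) * (t + 1)⌋ + 1).toNat ⊓ (2 * m + 2) ≤ 2 * m + 2 := min_le_right _ _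
    omega⟩

/-- equal grid values of numbers of `[-1,1]` imply distance at most `1/m` -/
theorem grid_close {m : ℕ} (hm : 0 < m) {s t : ℝ} (hs : |s| ≤ 1) (ht : |t| ≤ 1)
    (h : grid m s = grid m t) : |s - t| ≤ 1 / m := by
  have hm' : (0 : ℝ) < m := by exact_mod_cast hm
  have key : ∀ u : ℝ, |u| ≤ 1 → ((grid m u : Fin (2 * m + 3)) : ℕ) = (⌊(m : ℝ) * (u + 1)⌋ + 1).toNat
      ∧ 0 ≤ ⌊(m : ℝ) * (u + 1)⌋ + 1 := by
    intro u hu
    have h0 : 0 ≤ (m : ℝ) * (u + 1) := by
      have := (abs_le.1 hu).1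
      apply mul_nonneg hm'.le
      linarith
    have h1 : (m : ℝ) * (u + 1) ≤ 2 * m := by
      have := (abs_le.1 hu).2
      nlinarith
    have hfl : 0 ≤ ⌊(m : ℝ) * (u + 1)⌋ := Int.floor_nonneg.2 h0
    have hfl2 : ⌊(m : ℝ) * (u + 1)⌋ ≤ 2 * m := by
      have : ((⌊(m : ℝ) * (u + 1)⌋ : ℤ) : ℝ) ≤ ((2 * m : ℤ) : ℝ) := by
        push_cast
        exact (Int.floor_le _).trans h1
      exact_mod_cast this
    refine ⟨?_, by omega⟩
    simp only [grid]
    apply min_eq_left
    omega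
  obtain ⟨hs1, hs2⟩ := key s hs
  obtain ⟨ht1, ht2⟩ := key t ht
  have h2 : (⌊(m : ℝ) * (s + 1)⌋ + 1).toNat = (⌊(m : ℝ) * (t + 1)⌋ + 1).toNat := by
    rw [← hs1, ← ht1, h]
  have h3 : ⌊(m : ℝ) * (s + 1)⌋ = ⌊(m : ℝ) * (t + 1)⌋ := by omega
  have h4 := Int.abs_sub_lt_one_of_floor_eq_floor h3
  have h5 : (m : ℝ) * (s + 1) - (m : ℝ) * (t + 1) = m * (s - t) := by ring
  rw [h5, abs_mul, abs_of_pos hm'] at h4
  rw [le_div_iff₀ hm', mul_comm]
  exact h4.le

/-- a set covered by the fibres of a map to a finite type has a fibre of large measure -/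
theorem exists_fiber {Ω : Type*} [MeasurableSpace Ω] (μ : Measure Ω) {α : Type*} [Fintype α]
    [Nonempty α] (B : Set Ω) (g : Ω → α) :
    ∃ a : α, μ B ≤ (Fintype.card α : ENNReal) * μ {x ∈ B | g x = a} := by
  classical
  by_contra hcon
  push Not at hcon
  have hcov : B ⊆ ⋃ a ∈ (Finset.univ : Finset α), {x ∈ B | g x = a} := by
    intro x hx
    simp [hx]
  have h1 : μ B ≤ ∑ a : α, μ {x ∈ B | g x = a} :=
    (measure_mono hcov).trans (measure_biUnion_finset_le _ _)
  have hc0 : (Fintype.card α : ENNReal) ≠ 0 := by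
    exact_mod_cast Fintype.card_ne_zero
  have hct : (Fintype.card α : ENNReal) ≠ ⊤ := ENNReal.natCast_ne_top _
  have h2 : (Fintype.card α : ENNReal) * μ B ≤ (Fintype.card α : ENNReal) *
      ∑ a : α, μ {x ∈ B | g x = a} := mul_le_mul_right h1 _
  rw [Finset.mul_sum] at h2
  have h3 : ∑ a : α, (Fintype.card α : ENNReal) * μ {x ∈ B | g x = a} < ∑ _a : α, μ B := by
    apply ENNReal.sum_lt_sum_of_nonempty Finset.univ_nonempty
    intro a _
    exact hcon a
  rw [Finset.sum_const, Finset.card_univ, nsmul_eq_mul] at h3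
  exact absurd (h2.trans_lt h3) (lt_irrefl _)

/-- **extraction** -/
theorem extract (Ω : ℕ → Type*) [∀ n, MeasurableSpace (Ω n)] (μ : ∀ n, Measure (Ω n))
    (𝓕 : ℕ → Type*) (Bad : ℕ → ∀ n, Ω n → 𝓕 n → Prop) (Good : ℕ → ℕ → ∀ n, Set (Ω n))
    (ψ : ℕ → ∀ n, Ω n → 𝓕 n → ℝ) (hψ : ∀ i n x F, |ψ i n x F| ≤ 1)
    (ε : ℝ) (hε : 0 < ε)
    (hbad : ∀ m N : ℕ, ∃ n, N ≤ n ∧ ENNReal.ofReal ε < μ n {x | ∃ F, Bad m n x F})
    (hgood : ∀ m i : ℕ, ∃ N : ℕ, ∀ n, N ≤ n →
      μ n (Good m i n)ᶜ ≤ ENNReal.ofReal (ε / 2 ^ (i + 2))) :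
    ∃ (n : ℕ → ℕ) (m : ℕ → ℕ) (U : ∀ j, Set (Ω (n j))) (F : ∀ j, Ω (n j) → 𝓕 (n j)) (c : ℕ → ℝ),
      StrictMono n ∧ (∀ j, j ≤ m j) ∧
      (∀ j, ∀ x ∈ U j, Bad (m j) (n j) x (F j x)) ∧
      (∀ j, ∀ i ≤ j, U j ⊆ Good (m j) i (n j)) ∧
      (∀ j, ENNReal.ofReal (Real.exp (-(n j : ℝ) / (j + 1))) ≤ μ (n j) (U j)) ∧
      (∀ i, |c i| ≤ 1) ∧
      ∀ i, ∀ δ : ℝ, 0 < δ → ∀ᶠ j in atTop, ∀ x ∈ U j, |ψ i (n j) x (F j x) - c i| ≤ δ := by
  classical
  choose Ng hNg using hgood
  -- the level `m` data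
  have hlev : ∀ (m N : ℕ), ∃ n, N ≤ n ∧ ∃ (U : Set (Ω n)) (F : Ω n → 𝓕 n) (c : ℕ → ℝ),
      (∀ x ∈ U, Bad m n x (F x)) ∧ (∀ i ≤ m, U ⊆ Good m i n) ∧
      ENNReal.ofReal (Real.exp (-(n : ℝ) / (m + 1))) ≤ μ n U ∧ (∀ i, |c i| ≤ 1) ∧
      ∀ i < m, ∀ x ∈ U, |ψ i n x (F x) - c i| ≤ 1 / m := by
    intro m N
    -- the number of cells and the loss
    set C : ℕ := Fintype.card (Fin m → Fin (2 * m + 3)) with hC
    have hCpos : 0 < C := Fintype.card_pos
    set δ : ℝ := ε / 2 / C with hδ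
    have hCR : (0 : ℝ) < C := by exact_mod_cast hCpos
    have hδpos : 0 < δ := by positivity
    obtain ⟨M, hM⟩ : ∃ M : ℕ, ∀ n : ℕ, M ≤ n → Real.exp (-(n : ℝ) / (m + 1)) ≤ δ := by
      have h1 : Tendsto (fun n : ℕ => Real.exp (-((n : ℝ) / ((m : ℝ) + 1)))) atTop (𝓝 0) := by
        apply Real.tendsto_exp_neg_atTop_nhds_zero.comp
        exact Tendsto.atTop_div_const (by positivity) tendsto_natCast_atTop_atTop
      obtain ⟨M, hM⟩ := (h1.eventually (gt_mem_nhds hδpos)).exists_forall_of_atTop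
      refine ⟨M, fun n hn => ?_⟩
      have := hM n hn
      rw [neg_div]
      exact this.le
    obtain ⟨n, hn, hbn⟩ := hbad m (N ⊔ M ⊔ (Finset.range (m + 1)).sup (Ng m))
    have hnN : N ≤ n := (le_sup_left.trans le_sup_left).trans hn
    have hnM : M ≤ n := (le_sup_right.trans le_sup_left).trans hn
    have hnG : ∀ i ≤ m, Ng m i ≤ n := fun i hi =>
      ((Finset.le_sup (f := Ng m) (Finset.mem_range.2 (by omega))).trans le_sup_right).trans hn
    refine ⟨n, hnN, ?_⟩
    set B : Set (Ω n) := {x | ∃ F, Bad m n x F} ∩ ⋂ i ∈ Finset.range (m + 1), Good m i n with hB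
    -- measure of `B`
    have hBmeas : ENNReal.ofReal (ε / 2) ≤ μ n B := by
      have hcov : {x | ∃ F, Bad m n x F} ⊆ B ∪ ⋃ i ∈ Finset.range (m + 1), (Good m i n)ᶜ := by
        intro x hx
        by_cases hxG : x ∈ ⋂ i ∈ Finset.range (m + 1), Good m i n
        · exact Or.inl ⟨hx, hxG⟩
        · right
          simp only [Set.mem_iInter, not_forall] at hxG
          obtain ⟨i, hi, hxi⟩ := hxG
          exact Set.mem_biUnion hi hxi
      have h1 : μ n {x | ∃ F, Bad m n x F} ≤ μ n B + ∑ i ∈ Finset.range (m + 1),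
          ENNReal.ofReal (ε / 2 ^ (i + 2)) := by
        refine (measure_mono hcov).trans ((measure_union_le _ _).trans ?_)
        gcongr
        refine (measure_biUnion_finset_le _ _).trans (Finset.sum_le_sum fun i hi => ?_)
        exact hNg m i n (hnG i (by have := Finset.mem_range.1 hi; omega))
      have h2 : ∑ i ∈ Finset.range (m + 1), ENNReal.ofReal (ε / 2 ^ (i + 2))
          ≤ ENNReal.ofReal (ε / 2) := by
        rw [← ENNReal.ofReal_sum_of_nonneg (fun i _ => by positivity)]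
        apply ENNReal.ofReal_le_ofReal
        have h3 : ∀ M : ℕ, ∑ i ∈ Finset.range M, ε / 2 ^ (i + 2) = ε / 2 - ε / 2 / 2 ^ M := by
          intro M
          induction M with
          | zero => simp
          | succ M ih =>
            rw [Finset.sum_range_succ, ih]
            field_simp
            ring
        rw [h3]
        have : 0 ≤ ε / 2 / 2 ^ (m + 1) := by positivity
        linarith
      have h4 : ENNReal.ofReal ε ≤ μ n B + ENNReal.ofReal (ε / 2) :=
        hbn.le.trans (h1.trans (by gcongr))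
      have h5 : ENNReal.ofReal ε = ENNReal.ofReal (ε / 2) + ENNReal.ofReal (ε / 2) := by
        rw [← ENNReal.ofReal_add (by positivity) (by positivity)]
        congr 1
        ring
      rw [h5] at h4
      exact (ENNReal.add_le_add_iff_right ENNReal.ofReal_ne_top).1 h4
    have hBne : B.Nonempty := by
      rw [Set.nonempty_iff_ne_empty]
      intro h0
      rw [h0, measure_empty] at hBmeas
      have : ENNReal.ofReal (ε / 2) ≠ 0 := by
        rw [Ne, ENNReal.ofReal_eq_zero, not_le]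
        positivity
      exact this (le_antisymm hBmeas zero_le)
    obtain ⟨x0, hx0⟩ := hBne
    have hFx : ∀ x : Ω n, ∃ F : 𝓕 n, x ∈ B → Bad m n x F := by
      intro x
      by_cases hx : x ∈ B
      · obtain ⟨F, hF⟩ := hx.1
        exact ⟨F, fun _ => hF⟩
      · obtain ⟨F, _⟩ := hx0.1
        exact ⟨F, fun h => absurd h hx⟩
    choose F hF using hFx
    -- the cell
    obtain ⟨a, ha⟩ := exists_fiber (μ n) B (fun x => fun i : Fin m => grid m (ψ i n x (F x)))
    set U : Set (Ω n) := {x ∈ B | (fun i : Fin m => grid m (ψ i n x (F x))) = a} with hU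
    have hUmeas : ENNReal.ofReal δ ≤ μ n U := by
      have h1 : ENNReal.ofReal (ε / 2) ≤ (C : ENNReal) * μ n U := hBmeas.trans ha
      have h2 : ENNReal.ofReal (ε / 2) = (C : ENNReal) * ENNReal.ofReal δ := by
        rw [← ENNReal.ofReal_natCast C, ← ENNReal.ofReal_mul (by positivity)]
        congr 1
        rw [hδ]
        field_simp
      rw [h2] at h1
      have hc0 : (C : ENNReal) ≠ 0 := by exact_mod_cast hCpos.ne'
      exact (ENNReal.mul_le_mul_iff_right hc0 (ENNReal.natCast_ne_top _)).1 h1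
    have hUne : U.Nonempty := by
      rw [Set.nonempty_iff_ne_empty]
      intro h0
      rw [h0, measure_empty] at hUmeas
      have : ENNReal.ofReal δ ≠ 0 := by
        rw [Ne, ENNReal.ofReal_eq_zero, not_le]
        exact hδpos
      exact this (le_antisymm hUmeas zero_le)
    obtain ⟨x1, hx1⟩ := hUne
    refine ⟨U, F, fun i => ψ i n x1 (F x1), ?_, ?_, ?_, ?_, ?_⟩
    · intro x hx
      exact hF x hx.1
    · intro i hi x hx
      have := hx.1.2
      simp only [Set.mem_iInter] at this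
      exact this i (Finset.mem_range.2 (by omega))
    · exact (ENNReal.ofReal_le_ofReal (hM n hnM)).trans hUmeas
    · intro i
      exact hψ _ _ _ _
    · intro i hi x hx
      have h1 := hx.2
      have h2 := hx1.2
      have h3 : grid m (ψ i n x (F x)) = grid m (ψ i n x1 (F x1)) := by
        have e1 := congrFun h1 ⟨i, hi⟩
        have e2 := congrFun h2 ⟨i, hi⟩
        simp only at e1 e2
        rw [e1, e2]
      exact grid_close (by omega) (hψ _ _ _ _) (hψ _ _ _ _) h3
  -- choose the levels with increasing `n`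
  choose nf hnf Uf Ff cf h1 h2 h3 h4 h5 using hlev
  -- `seq m` = the size at level `m`
  let sz : ℕ → ℕ := fun j => Nat.rec (nf 0 0) (fun i r => nf (i + 1) (r + 1)) j
  have hsz0 : sz 0 = nf 0 0 := rfl
  have hszs : ∀ j, sz (j + 1) = nf (j + 1) (sz j + 1) := fun j => rfl
  let N : ℕ → ℕ := fun j => match j with
    | 0 => 0
    | (j + 1) => sz j + 1
  have hN : ∀ j, sz j = nf j (N j) := by
    intro j
    cases j with
    | zero => rfl
    | succ j => rfl
  have hmono : StrictMono sz := by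
    apply strictMono_nat_of_lt_succ
    intro j
    rw [hszs]
    have := hnf (j + 1) (sz j + 1)
    omega
  -- compactness of the limit values
  let K : Set (ℕ → ℝ) := Set.pi Set.univ fun _ => Set.Icc (-1 : ℝ) 1
  have hK : IsCompact K := isCompact_univ_pi fun _ => isCompact_Icc
  have hcK : ∀ j, cf j (N j) ∈ K := by
    intro j i _
    exact abs_le.1 (h4 j (N j) i)
  obtain ⟨c, hcmem, φ, hφ, hlim⟩ := hK.tendsto_subseq hcK
  refine ⟨fun j => nf (φ j) (N (φ j)), φ, fun j => Uf (φ j) (N (φ j)), fun j => Ff (φ j) (N (φ j)),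
    c, ?_, ?_, ?_, ?_, ?_, ?_, ?_⟩
  · intro a b hab
    show nf (φ a) (N (φ a)) < nf (φ b) (N (φ b))
    rw [← hN, ← hN]
    exact hmono (hφ hab)
  · intro j
    exact hφ.id_le j
  · intro j x hx
    exact h1 _ _ x hx
  · intro j i hi
    exact h2 _ _ i (hi.trans (hφ.id_le j))
  · intro j
    refine le_trans ?_ (h3 (φ j) (N (φ j)))
    apply ENNReal.ofReal_le_ofReal
    apply Real.exp_le_exp.2
    rw [neg_div, neg_div, neg_le_neg_iff]
    apply div_le_div_of_nonneg_left (by positivity) (by positivity)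
    have : (j : ℝ) ≤ φ j := by exact_mod_cast hφ.id_le j
    linarith
  · intro i
    have := hcmem i (Set.mem_univ _)
    exact abs_le.2 this
  · intro i δ hδ
    have hci : Tendsto (fun j => cf (φ j) (N (φ j)) i) atTop (𝓝 (c i)) := by
      have := (continuous_apply i).tendsto c |>.comp hlim
      exact this
    have e1 : ∀ᶠ j in atTop, |cf (φ j) (N (φ j)) i - c i| < δ / 2 := by
      have := (Metric.tendsto_nhds.1 hci) (δ / 2) (by positivity)
      exact this
    have e2 : ∀ᶠ j : ℕ in atTop, 1 / (φ j : ℝ) < δ / 2 := by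
      have h6 : Tendsto (fun j => 1 / (φ j : ℝ)) atTop (𝓝 0) := by
        have := tendsto_one_div_atTop_nhds_zero_nat (𝕜 := ℝ)
        exact this.comp hφ.tendsto_atTop
      exact h6.eventually (gt_mem_nhds (by positivity))
    have e3 : ∀ᶠ j : ℕ in atTop, i < φ j := hφ.tendsto_atTop.eventually_gt_atTop i
    filter_upwards [e1, e2, e3] with j g1 g2 g3 x hx
    have g4 := h5 (φ j) (N (φ j)) i g3 x hx
    calc |ψ i (nf (φ j) (N (φ j))) x (Ff (φ j) (N (φ j)) x) - c i|
        ≤ |ψ i (nf (φ j) (N (φ j))) x (Ff (φ j) (N (φ j)) x) - cf (φ j) (N (φ j)) i|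
          + |cf (φ j) (N (φ j)) i - c i| := abs_sub_le _ _ _
      _ ≤ δ / 2 + δ / 2 := by linarith
      _ = δ := by ring

end Crest.Agent.R166.Extract980
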