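import Crest.Agent.R166.Spine_419
import Crest.Agent.R166.Ports_269
import Crest.Agent.R166.Words_955
import Crest.Agent.R166.Extract_980
import Crest.Agent.R166.LimLaw_980

/-!
Row 166 (helper980), ThmB-final: the sequence `(n_j, U_j, F_j)` extracted from a family of bad
events of probability `> ε`, and its limit law on `Conf d (Fin d × ℝ × (Fin k → ℝ))`
(label, potential, frame).
-/

set_option autoImplicit false

namespace Crest.Agent.R166.Seq980

open MeasureTheory Filter Topology BoundedContinuousFunction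
open Crest.ProbabilityR.RandomMatrix
open Crest.Agent.R166 Crest.Agent.R166.Words955 Crest.Agent.R166.LimLaw980

/-! ### The law of the port-numbered graph and the potentials -/

/-- sample space: permutation of the half-edges and potentials -/
abbrev PS (d n : ℕ) : Type := Equiv.Perm (HE n d) × (Fin n → ℝ)

instance instMSPerm (n d : ℕ) : MeasurableSpace (Equiv.Perm (HE n d)) := ⊤

/-- uniform port-numbered graph and independent potentials -/
noncomputable def portLaw (d n : ℕ) : Measure (PS d n) :=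
  (((Ports n d).card : ENNReal)⁻¹ • ∑ p ∈ Ports n d, Measure.dirac p).prod (potentialLaw n)

theorem sum_dirac_prod' {ι κ : Type*} [MeasurableSpace κ] [MeasurableSingletonClass κ] {n : ℕ}
    (S : Finset ι) (φ : ι → κ)
    (μ : Measure (Fin n → ℝ)) [SFinite μ] (A : Set (κ × (Fin n → ℝ))) :
    ((∑ i ∈ S, Measure.dirac (φ i)).prod μ) A = ∑ i ∈ S, μ {ω | (φ i, ω) ∈ A} := by
  classical
  induction S using Finset.induction_on with
  | empty => simp
  | insert a S ha ih =>
    rw [Finset.sum_insert ha, Measure.add_prod, Measure.add_apply, ih, Finset.sum_insert ha,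
      Measure.dirac_prod, (measurableEmbedding_prodMk_left (φ a)).map_apply]
    rfl

instance instMSCPerm (n d : ℕ) : MeasurableSingletonClass (Equiv.Perm (HE n d)) :=
  ⟨fun _ => trivial⟩

/-- valid for every set, measurable or not -/
theorem portLaw_apply {d n : ℕ} (A : Set (PS d n)) :
    portLaw d n A = ((Ports n d).card : ENNReal)⁻¹ *
      ∑ p ∈ Ports n d, (potentialLaw n) {ω | (p, ω) ∈ A} := by
  rw [portLaw, Measure.prod_smul_left, Measure.smul_apply, sum_dirac_prod' _ (fun p => p),
    smul_eq_mul]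

/-- transfer of events of `(G, ω)` -/
theorem portLaw_preimage {d n : ℕ} (A : Set (SimpleGraph (Fin n) × (Fin n → ℝ))) :
    portLaw d n {x | (graphOf x.1, x.2) ∈ A} = law n d A := by
  rw [portLaw_apply, law_apply]
  rfl

theorem Whp_iff_port {d n : ℕ} (ε : ℝ) (Q : SimpleGraph (Fin n) → (Fin n → ℝ) → Prop) :
    Whp n d ε Q ↔ portLaw d n {x | ¬ Q (graphOf x.1) x.2} ≤ ENNReal.ofReal ε := by
  rw [Whp, ← portLaw_preimage]
  rfl

theorem portLaw_univ_le {d n : ℕ} : portLaw d n Set.univ ≤ 1 := by
  rw [portLaw_apply]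
  have h1 : ∀ p ∈ Ports n d, (potentialLaw n) {ω | (p, ω) ∈ (Set.univ : Set (PS d n))} = 1 := by
    intro p _
    have : {ω : Fin n → ℝ | (p, ω) ∈ (Set.univ : Set (PS d n))} = Set.univ := by
      ext; simp
    rw [this, measure_univ]
  rw [Finset.sum_congr rfl h1]
  simp only [Finset.sum_const, nsmul_eq_mul, mul_one]
  exact ENNReal.inv_mul_le_one _

/-- admissible samples -/
def okSet (d n : ℕ) : Set (PS d n) := {x | IsPort x.1 ∧ ∀ v, x.2 v ∈ Set.Icc (-1 : ℝ) 1}

theorem potentialLaw_cube_compl (n : ℕ) :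
    (potentialLaw n) {ω | ∀ v, ω v ∈ Set.Icc (-1 : ℝ) 1}ᶜ = 0 := by
  have h1 : {ω : Fin n → ℝ | ∀ v, ω v ∈ Set.Icc (-1 : ℝ) 1}ᶜ
      ⊆ ⋃ v : Fin n, (fun ω : Fin n → ℝ => ω v) ⁻¹' (Set.Icc (-1 : ℝ) 1)ᶜ := by
    intro ω hω
    simp only [Set.mem_compl_iff, Set.mem_ofPred_eq, not_forall] at hω
    obtain ⟨v, hv⟩ := hω
    exact Set.mem_iUnion.2 ⟨v, hv⟩
  refine measure_mono_null h1 ((measure_iUnion_null_iff).2 fun v => ?_)
  have hp : IsProbabilityMeasure ((2⁻¹ : NNReal) • (volume.restrict (Set.Icc (-1 : ℝ) 1))) := by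
    constructor
    rw [Measure.smul_apply, Measure.restrict_apply_univ, Real.volume_Icc]
    have h2 : ENNReal.ofReal (1 - -1) = 2 := by
      norm_num
    rw [h2, ENNReal.smul_def, smul_eq_mul, ENNReal.coe_inv (by norm_num)]
    exact ENNReal.inv_mul_cancel (by norm_num) (by norm_num)
  have hm : MeasurableSet ((Set.Icc (-1 : ℝ) 1)ᶜ) := measurableSet_Icc.compl
  have h3 := (measurePreserving_eval
    (fun _ : Fin n => ((2⁻¹ : NNReal) • (volume.restrict (Set.Icc (-1 : ℝ) 1)))) v).measure_preimage
    hm.nullMeasurableSet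
  have h4 : (potentialLaw n) ((fun ω : Fin n → ℝ => ω v) ⁻¹' (Set.Icc (-1 : ℝ) 1)ᶜ)
      = ((2⁻¹ : NNReal) • (volume.restrict (Set.Icc (-1 : ℝ) 1))) (Set.Icc (-1 : ℝ) 1)ᶜ := h3
  rw [h4, Measure.smul_apply, Measure.restrict_apply hm]
  simp

theorem okSet_compl (d n : ℕ) : portLaw d n (okSet d n)ᶜ = 0 := by
  rw [portLaw_apply]
  have h1 : ∀ p ∈ Ports n d, (potentialLaw n) {ω | (p, ω) ∈ (okSet d n)ᶜ} = 0 := by
    intro p hp
    have hp' := mem_Ports.1 hp
    refine measure_mono_null ?_ (potentialLaw_cube_compl n)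
    intro ω hω
    simp only [okSet, Set.mem_compl_iff, Set.mem_ofPred_eq, not_and] at hω ⊢
    exact hω hp'
  rw [Finset.sum_eq_zero h1, mul_zero]

/-! ### Colours and empirical laws -/

/-- colour of a half-edge: label, potential, frame -/
abbrev S1 (d k : ℕ) : Type := Fin d × ℝ × (Fin k → ℝ)

/-- the colouring defined by potentials and a frame -/
def col {d n k : ℕ} (ω : Fin n → ℝ) (F : Fin k → Fin n → ℝ) : HE n d → S1 d k :=
  lab fun v => (ω v, fun i => F i v)

theorem emp_prob {d n : ℕ} [NeZero d] [NeZero n] {S : Type*} [MeasurableSpace S]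
    (p : HE n d → HE n d) (c : HE n d → S) : IsProbabilityMeasure (emp p c) := by
  constructor
  unfold emp
  rw [Measure.smul_apply, Measure.finsetSum_apply]
  simp only [measure_univ, Finset.sum_const, Finset.card_univ, nsmul_eq_mul, mul_one, smul_eq_mul]
  apply ENNReal.inv_mul_cancel
  · exact_mod_cast Fintype.card_ne_zero
  · exact ENNReal.natCast_ne_top _

theorem integral_emp {d n : ℕ} [NeZero d] {S : Type*} [MeasurableSpace S]
    {G : Type*} [NormedAddCommGroup G] [NormedSpace ℝ G] [CompleteSpace G]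
    (p : HE n d → HE n d) (c : HE n d → S) (φ : Conf d S → G) (hφ : StronglyMeasurable φ) :
    ∫ ξ, φ ξ ∂(emp p c) = ((Fintype.card (HE n d) : ℝ))⁻¹ • ∑ h, φ (conf p c h) := by
  unfold emp
  rw [integral_smul_measure, integral_finsetSum_measure]
  · simp only [integral_dirac' _ _ hφ]
    congr 1
    simp
  · intro h _
    exact integrable_dirac' hφ (by simp)

/-- real coordinates of configurations -/
abbrev TT (d k : ℕ) [NeZero d] : Type := TW d × (Fin 2 ⊕ Fin k)

/-- embedding of the configuration space into a countable product of lines -/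
def emb (d k : ℕ) [NeZero d] (ξ : Conf d (S1 d k)) : TT d k → ℝ := fun t =>
  match t.2 with
  | Sum.inl i => if i = 0 then (((ξ t.1).1 : ℕ) : ℝ) else (ξ t.1).2.1
  | Sum.inr i => (ξ t.1).2.2 i

theorem continuous_emb (d k : ℕ) [NeZero d] : Continuous (emb d k) := by
  refine continuous_pi fun t => ?_
  obtain ⟨w, t⟩ := t
  rcases t with i | i
  · by_cases hi : i = 0
    · simp only [emb, hi, if_true]
      have h1 : Continuous fun ξ : Conf d (S1 d k) => (ξ w).1 :=
        continuous_fst.comp (continuous_apply w)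
      have h2 : Continuous fun l : Fin d => (((l : ℕ)) : ℝ) := continuous_of_discreteTopology
      exact h2.comp h1
    · simp only [emb, hi, if_false]
      exact (continuous_fst.comp continuous_snd).comp (continuous_apply w)
  · simp only [emb]
    exact (continuous_apply i).comp
      ((continuous_snd.comp continuous_snd).comp (continuous_apply w))

theorem isClosedEmbedding_emb (d k : ℕ) [NeZero d] : IsClosedEmbedding (emb d k) := by
  -- the embedding of one colour
  let e1 : S1 d k → (Fin 2 ⊕ Fin k) → ℝ := fun x t =>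
    match t with
    | Sum.inl i => if i = 0 then ((x.1 : ℕ) : ℝ) else x.2.1
    | Sum.inr i => x.2.2 i
  have hc1 : Continuous e1 := by
    refine continuous_pi fun t => ?_
    rcases t with i | i
    · by_cases hi : i = 0
      · simp only [e1, hi, if_true]
        have h2 : Continuous fun l : Fin d => (((l : ℕ)) : ℝ) := continuous_of_discreteTopology
        exact h2.comp continuous_fst
      · simp only [e1, hi, if_false]
        exact continuous_fst.comp continuous_snd
    · simp only [e1]
      exact (continuous_apply i).comp (continuous_snd.comp continuous_snd)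
  -- proper and injective
  have hinj1 : Function.Injective e1 := by
    rintro ⟨l, w, x⟩ ⟨l', w', x'⟩ h
    have h0 := congrFun h (Sum.inl 0)
    have h1 := congrFun h (Sum.inl 1)
    simp only [e1, if_true, Nat.cast_inj] at h0
    simp only [e1] at h1
    have hl : l = l' := Fin.ext h0
    have hw : w = w' := by simpa using h1
    have hx : x = x' := by
      funext i
      exact congrFun h (Sum.inr i)
    rw [hl, hw, hx]
  have hcl1 : IsClosedEmbedding e1 := by
    refine Topology.IsClosedEmbedding.of_continuous_injective_isClosedMap hc1 hinj1 ?_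
    -- closed map: finite union over the label of closed embeddings
    intro A hA
    have hset : e1 '' A = ⋃ l : Fin d, (fun y : (Fin 2 ⊕ Fin k) → ℝ => y) ''
        {y | y (Sum.inl 0) = ((l : ℕ) : ℝ) ∧ (l, y (Sum.inl 1), fun i => y (Sum.inr i)) ∈ A} := by
      ext y
      simp only [Set.mem_image, Set.mem_iUnion, Set.mem_ofPred_eq, exists_eq_right]
      constructor
      · rintro ⟨⟨l, w, x⟩, hx, rfl⟩
        refine ⟨l, by simp [e1], ?_⟩
        simpa [e1] using hx
      · rintro ⟨l, h0, hm⟩
        refine ⟨_, hm, ?_⟩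
        funext t
        rcases t with i | i
        · fin_cases i
          · simp [e1, h0]
          · simp [e1]
        · simp [e1]
    rw [hset]
    refine isClosed_iUnion_of_finite fun l => ?_
    rw [Set.image_id']
    refine IsClosed.inter ?_ ?_
    · exact isClosed_eq (continuous_apply _) continuous_const
    · refine hA.preimage ?_
      refine continuous_const.prodMk ((continuous_apply _).prodMk ?_)
      exact continuous_pi fun i => continuous_apply _
  -- product of closed embeddings
  have hpi : IsClosedEmbedding (fun (ξ : Conf d (S1 d k)) (w : TW d) => e1 (ξ w)) := by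
    refine ⟨⟨?_, ?_⟩, ?_⟩
    · exact Topology.IsInducing.piMap (fun _ => hcl1.isInducing)
    · intro ξ ξ' h
      funext w
      exact hinj1 (congrFun h w)
    · have : Set.range (fun (ξ : Conf d (S1 d k)) (w : TW d) => e1 (ξ w))
          = Set.pi Set.univ fun _ : TW d => Set.range e1 := by
        ext y
        simp only [Set.mem_range, Set.mem_pi, Set.mem_univ, true_imp_iff]
        constructor
        · rintro ⟨ξ, rfl⟩ w
          exact ⟨_, rfl⟩
        · intro h
          choose ξ hξ using h
          exact ⟨ξ, funext hξ⟩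
      rw [this]
      exact isClosed_set_pi fun _ _ => hcl1.isClosed_range
  -- currying homeomorphism
  have hcurry : IsClosedEmbedding (fun (y : TW d → (Fin 2 ⊕ Fin k) → ℝ) (t : TT d k) =>
      y t.1 t.2) := by
    have : (fun (y : TW d → (Fin 2 ⊕ Fin k) → ℝ) (t : TT d k) => y t.1 t.2)
        = (Homeomorph.mk (Equiv.curry (TW d) (Fin 2 ⊕ Fin k) ℝ).symm
          (continuous_pi fun t => (continuous_apply t.2).comp (continuous_apply t.1))
          (continuous_pi fun w => continuous_pi fun i => continuous_apply (w, i))) := by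
      rfl
    rw [this]
    exact Homeomorph.isClosedEmbedding _
  have := hcurry.comp hpi
  convert this using 1
  funext ξ t
  obtain ⟨w, t⟩ := t
  rcases t with i | i <;> rfl


/-! ### Empirical laws at one site -/

theorem walk_bij {d n : ℕ} [NeZero d] (p : Equiv.Perm (HE n d)) (w : List (Fin d)) :
    Function.Bijective (walk (fun h => p h) w) := by
  induction w with
  | nil => exact Function.bijective_id
  | cons i w ih =>
    have h1 : (walk (fun h => p h) (i :: w))
        = (walk (fun h => p h) w) ∘ (fun h => p (h.1, h.2 + i)) := by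
      funext h; rfl
    rw [h1]
    refine ih.comp ?_
    have h2 : (fun h : HE n d => p (h.1, h.2 + i))
        = p ∘ (Equiv.prodCongr (Equiv.refl (Fin n)) (Equiv.addRight i)) := by
      funext h; rfl
    rw [h2]
    exact p.bijective.comp (Equiv.bijective _)

theorem emp_apply {d n : ℕ} [NeZero d] {S : Type*} [MeasurableSpace S]
    (p : HE n d → HE n d) (c : HE n d → S) {A : Set (Conf d S)} (hA : MeasurableSet A) :
    emp p c A = ((Fintype.card (HE n d) : ENNReal))⁻¹ *
      ∑ h, A.indicator (fun _ => (1 : ENNReal)) (conf p c h) := by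
  unfold emp
  rw [Measure.smul_apply, Measure.finsetSum_apply, smul_eq_mul]
  congr 1
  refine Finset.sum_congr rfl fun h _ => ?_
  rw [Measure.dirac_apply' _ hA]
  rfl

/-- sums over the empirical law of a function of one site -/
theorem sum_conf_site {d n : ℕ} [NeZero d] {S : Type*} {M : Type*} [AddCommMonoid M]
    (p : Equiv.Perm (HE n d)) (c : HE n d → S) (w : TW d) (f : S → M) :
    ∑ h, f (conf (fun h => p h) c h w) = ∑ h, f (c h) := by
  have := (walk_bij p w.1).sum_comp (fun h => f (c h))
  exact this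

theorem emp_tail {d n k : ℕ} [NeZero d] [NeZero n] (x : PS d n) (F : Fin k → Fin n → ℝ)
    (hom : ∀ v, x.2 v ∈ Set.Icc (-1 : ℝ) 1) (hF : ∀ i, ∑ v, (F i v) ^ 2 = n)
    (t : TT d k) {M : ℝ} (hM : (d : ℝ) < M) (hM1 : 1 ≤ M) :
    emp x.1 (col x.2 F) {ξ | M < |emb d k ξ t|} ≤ ENNReal.ofReal (1 / M ^ 2) := by
  have hM0 : 0 < M := by linarith
  have hmeas : MeasurableSet {ξ : Conf d (S1 d k) | M < |emb d k ξ t|} := by
    have : Continuous fun ξ : Conf d (S1 d k) => |emb d k ξ t| :=
      ((continuous_apply t).comp (continuous_emb d k)).abs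
    exact (isOpen_lt continuous_const this).measurableSet
  have hcardpos : (0 : ℝ) < Fintype.card (HE n d) := by exact_mod_cast Fintype.card_pos
  obtain ⟨w, t⟩ := t
  rw [emp_apply _ _ hmeas]
  rcases t with i | i
  · have h0 : ∀ h : HE n d, Set.indicator {ξ : Conf d (S1 d k) | M < |emb d k ξ (w, Sum.inl i)|}
        (fun _ => (1 : ENNReal)) (conf (fun h => x.1 h) (col x.2 F) h) = 0 := by
      intro h
      apply Set.indicator_of_notMem
      simp only [Set.mem_ofPred_eq, not_lt, emb, conf, col, lab]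
      split_ifs
      · rw [abs_of_nonneg (by positivity)]
        have : ((walk (fun h => x.1 h) w.1 h).2 : ℕ) ≤ d := (Fin.isLt _).le
        have h2 : (((walk (fun h => x.1 h) w.1 h).2 : ℕ) : ℝ) ≤ d := by exact_mod_cast this
        linarith
      · have := hom (walk (fun h => x.1 h) w.1 h).1
        exact (abs_le.2 this).trans hM1
    rw [Finset.sum_congr rfl fun h _ => h0 h]
    simp
  · have h0 : ∀ h : HE n d, Set.indicator {ξ : Conf d (S1 d k) | M < |emb d k ξ (w, Sum.inr i)|}
        (fun _ => (1 : ENNReal)) (conf (fun h => x.1 h) (col x.2 F) h)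
        ≤ ENNReal.ofReal ((conf (fun h => x.1 h) (col x.2 F) h w).2.2 i ^ 2 / M ^ 2) := by
      intro h
      by_cases hm : conf (fun h => x.1 h) (col x.2 F) h
          ∈ {ξ : Conf d (S1 d k) | M < |emb d k ξ (w, Sum.inr i)|}
      · rw [Set.indicator_of_mem hm]
        simp only [Set.mem_ofPred_eq, emb] at hm
        rw [← ENNReal.ofReal_one]
        apply ENNReal.ofReal_le_ofReal
        rw [le_div_iff₀ (by positivity), one_mul]
        exact (pow_le_pow_left₀ hM0.le hm.le 2).trans_eq (sq_abs _)
      · rw [Set.indicator_of_notMem hm]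
        exact zero_le
    calc ((Fintype.card (HE n d) : ENNReal))⁻¹ * ∑ h,
          Set.indicator {ξ : Conf d (S1 d k) | M < |emb d k ξ (w, Sum.inr i)|}
          (fun _ => (1 : ENNReal)) (conf (fun h => x.1 h) (col x.2 F) h)
        ≤ ((Fintype.card (HE n d) : ENNReal))⁻¹ * ∑ h : HE n d,
          ENNReal.ofReal ((conf (fun h => x.1 h) (col x.2 F) h w).2.2 i ^ 2 / M ^ 2) := by
          gcongr with h _
          exact h0 h
      _ = ((Fintype.card (HE n d) : ENNReal))⁻¹ * ENNReal.ofReal (∑ h : HE n d,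
          ((conf (fun h => x.1 h) (col x.2 F) h w).2.2 i ^ 2 / M ^ 2)) := by
          rw [ENNReal.ofReal_sum_of_nonneg]
          intro h _
          positivity
      _ = ((Fintype.card (HE n d) : ENNReal))⁻¹ *
          ENNReal.ofReal ((Fintype.card (HE n d) : ℝ) * (1 / M ^ 2)) := by
          congr 2
          rw [sum_conf_site x.1 (col x.2 F) w (fun y : S1 d k => y.2.2 i ^ 2 / M ^ 2)]
          simp only [col, lab]
          rw [Fintype.sum_prod_type]
          simp only [Finset.sum_const, Finset.card_univ, Fintype.card_fin, nsmul_eq_mul]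
          rw [← Finset.mul_sum, ← Finset.sum_div, hF i, Fintype.card_prod, Fintype.card_fin,
            Fintype.card_fin]
          push_cast
          ring
      _ = ENNReal.ofReal (1 / M ^ 2) := by
          rw [ENNReal.ofReal_mul hcardpos.le, ← mul_assoc, ENNReal.ofReal_natCast,
            ENNReal.inv_mul_cancel, one_mul]
          · exact_mod_cast Fintype.card_ne_zero
          · exact ENNReal.natCast_ne_top _

/-! ### The extracted sequence -/

/-- an extracted sequence `(n_j, U_j, F_j)` with its limit law `P` -/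
structure Seq (d k : ℕ) [NeZero d] where
  /-- sizes -/
  n : ℕ → ℕ
  /-- events -/
  U : ∀ j, Set (PS d (n j))
  /-- frames -/
  F : ∀ j, PS d (n j) → Fin k → Fin (n j) → ℝ
  /-- the limit law -/
  P : Measure (Conf d (S1 d k))
  mono : StrictMono n
  pos : ∀ j, 0 < n j
  port : ∀ j, ∀ x ∈ U j, IsPort x.1
  om : ∀ j, ∀ x ∈ U j, ∀ v, x.2 v ∈ Set.Icc (-1 : ℝ) 1
  frame : ∀ j, ∀ x ∈ U j, ∀ i, ∑ v, (F j x i v) ^ 2 = n j
  mass : ∀ j, ENNReal.ofReal (Real.exp (-(n j : ℝ) / (j + 1))) ≤ portLaw d (n j) (U j)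
  prob : IsProbabilityMeasure P
  lim : ∀ (φ : Conf d (S1 d k) →ᵇ ℝ) (δ : ℝ), 0 < δ → ∀ᶠ j in atTop, ∀ x ∈ U j,
    |∫ ξ, φ ξ ∂(emp x.1 (col x.2 (F j x))) - ∫ ξ, φ ξ ∂P| ≤ δ

theorem Seq.nonempty {d k : ℕ} [NeZero d] (S : Seq d k) (j : ℕ) : (S.U j).Nonempty := by
  rw [Set.nonempty_iff_ne_empty]
  intro h0
  have h1 := S.mass j
  rw [h0, measure_empty] at h1
  have h2 : ENNReal.ofReal (Real.exp (-(S.n j : ℝ) / (j + 1))) ≠ 0 := by
    rw [Ne, ENNReal.ofReal_eq_zero, not_le]
    positivity
  exact h2 (le_antisymm h1 zero_le)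

theorem Seq.tendsto_n {d k : ℕ} [NeZero d] (S : Seq d k) : Tendsto S.n atTop atTop :=
  S.mono.tendsto_atTop

/-- the value of a test character on a sample -/
noncomputable def tv {d k : ℕ} [NeZero d] (q : TT d k →₀ ℚ) (n : ℕ) (x : PS d n)
    (F : Fin k → Fin n → ℝ) : ℂ :=
  if n = 0 then 0 else ∫ ξ, ech (emb d k) (continuous_emb d k) q ξ ∂(emp x.1 (col x.2 F))

theorem norm_tv_le {d k : ℕ} [NeZero d] (q : TT d k →₀ ℚ) (n : ℕ) (x : PS d n)
    (F : Fin k → Fin n → ℝ) : ‖tv q n x F‖ ≤ 1 := by
  unfold tv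
  split_ifs with h
  · simp
  · have : NeZero n := ⟨h⟩
    have := emp_prob (d := d) (n := n) x.1 (col x.2 F)
    have h1 := norm_integral_le_of_norm_le_const (μ := emp x.1 (col x.2 F))
      (f := fun ξ => ech (emb d k) (continuous_emb d k) q ξ) (C := 1)
      (Eventually.of_forall fun ξ => by
        rw [ech_apply, mul_comm, Complex.norm_exp_ofReal_mul_I])
    simpa using h1

/-- **existence of the extracted sequence and of its limit law** -/
theorem exists_seq {d k : ℕ} [NeZero d] (ε : ℝ) (hε : 0 < ε)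
    (PB : ℕ → ∀ n, PS d n → (Fin k → Fin n → ℝ) → Prop)
    (hframe : ∀ m n x F, PB m n x F → ∀ i, ∑ v, (F i v) ^ 2 = n)
    (hbad : ∀ m N : ℕ, ∃ n, N ≤ n ∧ ENNReal.ofReal ε < portLaw d n {x | ∃ F, PB m n x F})
    (G0 : ℕ → ∀ n, Set (PS d n))
    (hG0 : ∀ i, ∀ δ : ℝ, 0 < δ → ∃ N : ℕ, ∀ n, N ≤ n →
      portLaw d n (G0 i n)ᶜ ≤ ENNReal.ofReal δ)
    (Good : ℕ → ℕ → ∀ n, Set (PS d n))
    (hGood : ∀ m i, ∃ N : ℕ, ∀ n, N ≤ n →
      portLaw d n (Good m i n)ᶜ ≤ ENNReal.ofReal (ε / 4 ^ (i + 2))) :
    ∃ (S : Seq d k) (m : ℕ → ℕ), (∀ j, j ≤ m j) ∧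
      (∀ j, ∀ x ∈ S.U j, PB (m j) (S.n j) x (S.F j x)) ∧
      (∀ j, ∀ i ≤ j, S.U j ⊆ G0 i (S.n j)) ∧
      (∀ j, ∀ i ≤ j, S.U j ⊆ Good (m j) i (S.n j)) := by
  classical
  obtain ⟨en, hen⟩ := exists_surjective_nat ((TT d k →₀ ℚ) × Bool)
  obtain ⟨n, m, U, F, c, hmono, hm, hbadU, hgoodU, hmass, hc, hconv⟩ :=
    Extract980.extract (fun n => PS d n) (fun n => portLaw d n) (fun n => Fin k → Fin n → ℝ)
      (fun m n x F => 0 < n ∧ x ∈ okSet d n ∧ PB m n x F)
      (fun m i n => Good m i n ∩ G0 i n)
      (fun i n x F => if (en i).2 then (tv (en i).1 n x F).re else (tv (en i).1 n x F).im)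
      (by
        intro i n x F
        split_ifs
        · exact (Complex.abs_re_le_norm _).trans (norm_tv_le _ _ _ _)
        · exact (Complex.abs_im_le_norm _).trans (norm_tv_le _ _ _ _))
      ε hε
      (by
        intro m N
        obtain ⟨n, hn, hb⟩ := hbad m (N + 1)
        refine ⟨n, by omega, hb.trans_le ?_⟩
        have hsub : {x | ∃ F, PB m n x F}
            ⊆ {x | ∃ F, 0 < n ∧ x ∈ okSet d n ∧ PB m n x F} ∪ (okSet d n)ᶜ := by
          rintro x ⟨F, hF⟩
          by_cases hx : x ∈ okSet d n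
          · exact Or.inl ⟨F, by omega, hx, hF⟩
          · exact Or.inr hx
        calc portLaw d n {x | ∃ F, PB m n x F}
            ≤ portLaw d n {x | ∃ F, 0 < n ∧ x ∈ okSet d n ∧ PB m n x F}
              + portLaw d n (okSet d n)ᶜ := (measure_mono hsub).trans (measure_union_le _ _)
          _ = portLaw d n {x | ∃ F, 0 < n ∧ x ∈ okSet d n ∧ PB m n x F} := by
            rw [okSet_compl, add_zero])
      (by
        intro m i
        obtain ⟨N1, hN1⟩ := hGood m i
        obtain ⟨N2, hN2⟩ := hG0 i (ε / 4 ^ (i + 2)) (by positivity)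
        refine ⟨max N1 N2, fun n hn => ?_⟩
        have e1 := hN1 n (le_trans (le_max_left _ _) hn)
        have e2 := hN2 n (le_trans (le_max_right _ _) hn)
        rw [Set.compl_inter]
        refine (measure_union_le _ _).trans ((add_le_add e1 e2).trans ?_)
        rw [← ENNReal.ofReal_add (by positivity) (by positivity)]
        apply ENNReal.ofReal_le_ofReal
        have h4 : (4 : ℝ) ^ (i + 2) = 2 ^ (i + 2) * 2 ^ (i + 2) := by
          rw [← mul_pow]; norm_num
        have h2 : (2 : ℝ) ≤ 2 ^ (i + 2) := by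
          calc (2 : ℝ) = 2 ^ 1 := by norm_num
            _ ≤ 2 ^ (i + 2) := pow_le_pow_right₀ (by norm_num) (by omega)
        rw [h4, ← two_mul, mul_div_assoc']
        rw [div_le_div_iff₀ (by positivity) (by positivity)]
        have h5 : 0 < ε * 2 ^ (i + 2) := by positivity
        nlinarith)
  -- positivity of the sizes
  have hne : ∀ j, (U j).Nonempty := by
    intro j
    rw [Set.nonempty_iff_ne_empty]
    intro h0
    have h1 := hmass j
    rw [h0, measure_empty] at h1
    have h2 : ENNReal.ofReal (Real.exp (-(n j : ℝ) / (j + 1))) ≠ 0 := by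
      rw [Ne, ENNReal.ofReal_eq_zero, not_le]
      positivity
    exact h2 (le_antisymm h1 zero_le)
  have hpos : ∀ j, 0 < n j := by
    intro j
    obtain ⟨x, hx⟩ := hne j
    exact (hbadU j x hx).1
  -- the family of empirical laws
  let A : Type := {a : Σ j, PS d (n j) // a.2 ∈ U a.1}
  let l : Filter A := comap (fun a : A => a.1.1) atTop
  have hl : l.NeBot := by
    apply Filter.comap_neBot
    intro t ht
    obtain ⟨j, hj⟩ := (Filter.mem_atTop_sets.1 ht)
    obtain ⟨x, hx⟩ := hne j
    exact ⟨⟨⟨j, x⟩, hx⟩, hj j le_rfl⟩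
  have hpr : ∀ a : A, IsProbabilityMeasure (emp a.1.2.1 (col a.1.2.2 (F a.1.1 a.1.2))) := by
    intro a
    have : NeZero (n a.1.1) := ⟨(hpos _).ne'⟩
    exact emp_prob _ _
  let μ : A → ProbabilityMeasure (Conf d (S1 d k)) := fun a =>
    ⟨emp a.1.2.1 (col a.1.2.2 (F a.1.1 a.1.2)), hpr a⟩
  -- indices of the real and imaginary parts
  choose ix hix using hen
  let c' : (TT d k →₀ ℚ) → ℂ := fun q => (c (ix (q, true)) : ℂ) + c (ix (q, false)) * Complex.I
  obtain ⟨P, hP⟩ := exists_limit (emb d k) (isClosedEmbedding_emb d k) l μ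
    (by
      intro t e he
      obtain ⟨M, hM1, hM2, hM3⟩ : ∃ M : ℝ, (d : ℝ) < M ∧ 1 ≤ M ∧ ENNReal.ofReal (1 / M ^ 2) ≤ e := by
        by_cases htop : e = ⊤
        · exact ⟨d + 1, by linarith, by
            have : (0 : ℝ) ≤ d := by positivity
            linarith, by rw [htop]; exact le_top⟩
        · have hr : 0 < e.toReal := ENNReal.toReal_pos he.ne' htop
          refine ⟨d + 1 + 1 / e.toReal, ?_, ?_, ?_⟩
          · have : 0 < 1 / e.toReal := by positivity
            linarith
          · have : 0 < 1 / e.toReal := by positivity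
            have : (0 : ℝ) ≤ d := by positivity
            linarith
          · refine (ENNReal.ofReal_le_ofReal ?_).trans_eq (ENNReal.ofReal_toReal htop)
            have h1 : 0 < 1 / e.toReal := by positivity
            have h2 : (0 : ℝ) ≤ d := by positivity
            have h3 : 1 / e.toReal ≤ (d + 1 + 1 / e.toReal) ^ 2 := by nlinarith
            calc 1 / ((d : ℝ) + 1 + 1 / e.toReal) ^ 2 ≤ 1 / (1 / e.toReal) :=
                  one_div_le_one_div_of_le h1 h3
              _ = e.toReal := by rw [one_div_one_div]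
      refine ⟨M, fun a => ?_⟩
      have : NeZero (n a.1.1) := ⟨(hpos _).ne'⟩
      have hb := hbadU a.1.1 a.1.2 a.2
      exact (emp_tail a.1.2 (F a.1.1 a.1.2) hb.2.1.2
        (hframe _ _ _ _ hb.2.2) t hM1 hM2).trans hM3)
    c'
    (by
      intro q
      have key : ∀ (b : Bool), Tendsto (fun a : A =>
          (if b then (tv q (n a.1.1) a.1.2 (F a.1.1 a.1.2)).re
            else (tv q (n a.1.1) a.1.2 (F a.1.1 a.1.2)).im)) l (𝓝 (c (ix (q, b)))) := by
        intro b
        rw [Metric.tendsto_nhds]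
        intro δ hδ
        have h1 := hconv (ix (q, b)) (δ / 2) (by positivity)
        have h2 : ∀ᶠ a : A in l, ∀ x ∈ U a.1.1,
            |(if (en (ix (q, b))).2 then (tv (en (ix (q, b))).1 (n a.1.1) x (F a.1.1 x)).re
              else (tv (en (ix (q, b))).1 (n a.1.1) x (F a.1.1 x)).im) - c (ix (q, b))| ≤ δ / 2 :=
          (tendsto_comap (f := fun a : A => a.1.1) (x := atTop)).eventually h1
        filter_upwards [h2] with a ha
        have h3 := ha a.1.2 a.2
        rw [hix] at h3
        rw [Real.dist_eq]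
        simp only at h3
        linarith
      have h1 := key true
      have h2 := key false
      simp only [if_true, Bool.false_eq_true, if_false] at h1 h2
      have h3 : Tendsto (fun a : A => (((tv q (n a.1.1) a.1.2 (F a.1.1 a.1.2)).re : ℝ) : ℂ)
          + (((tv q (n a.1.1) a.1.2 (F a.1.1 a.1.2)).im : ℝ) : ℂ) * Complex.I) l (𝓝 (c' q)) :=
        ((Complex.continuous_ofReal.tendsto _).comp h1).add
          (((Complex.continuous_ofReal.tendsto _).comp h2).mul_const _)
      refine h3.congr fun a => ?_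
      rw [Complex.re_add_im]
      unfold tv
      rw [if_neg (hpos _).ne']
      rfl)
  have hPlim := fun φ : Conf d (S1 d k) →ᵇ ℝ =>
    (ProbabilityMeasure.tendsto_iff_forall_integral_tendsto.1 hP) φ
  refine ⟨⟨n, U, F, P, hmono, hpos, ?_, ?_, ?_, hmass, P.2, ?_⟩, m, hm, ?_, ?_, ?_⟩
  · intro j x hx
    exact (hbadU j x hx).2.1.1
  · intro j x hx
    exact (hbadU j x hx).2.1.2
  · intro j x hx
    exact hframe _ _ _ _ (hbadU j x hx).2.2
  · intro φ δ hδ
    have h1 := (Metric.tendsto_nhds.1 (hPlim φ)) δ hδ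
    rw [Filter.eventually_comap] at h1
    filter_upwards [h1] with j hj x hx
    have h2 := hj ⟨⟨j, x⟩, hx⟩ rfl
    rw [Real.dist_eq] at h2
    exact h2.le
  · intro j x hx
    exact (hbadU j x hx).2.2
  · intro j i hi x hx
    exact (hgoodU j i hi hx).2
  · intro j i hi x hx
    exact (hgoodU j i hi hx).1

end Crest.Agent.R166.Seq980
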