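import Mathlib
import Crest.Agent.R166.LLN_289
import Crest.Agent.R166.Seq_980
import Crest.Agent.R166.Erg_424
import Crest.Agent.R166.TreeDefs_350

/-!
Row 166 (helper289), F3/(E1), limit part: the environment (labels, potentials) is iid under the
limit law `S.P` of an extracted sequence `S : Seq d k`, as soon as the countably many law of large
numbers events `GEnv` (each of probability `→ 1`) contain `U j` eventually.
-/

set_option autoImplicit false

namespace Crest.Agent.R166.LimEnv289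

open MeasureTheory Filter Topology BoundedContinuousFunction
open Crest.ProbabilityR.RandomMatrix
open Crest.Agent.R166.Words955 Crest.Agent.R166.EnvLaw289 Crest.Agent.R166.LLN289
open Crest.Agent.R166.LimLaw980 Crest.Agent.R166.Seq980 Crest.Agent.R166.Erg424
open Crest.Agent.R166.TreeDefs350 (unif)

noncomputable section

theorem potentialLaw_eq (n : ℕ) : potentialLaw n = Measure.pi fun _ : Fin n => unif := rfl

/-- **law of large numbers over `portLaw`** -/
theorem lln_port (d a : ℕ) [NeZero d] {ε δ : ℝ} (hε : 0 < ε) (hδ : 0 < δ) :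
    ∃ N : ℕ, ∀ n ≥ N, ∀ g : Conf d (Fin d × ℝ) → ℝ, Measurable g → (∀ ξ, |g ξ| ≤ 1) → Loc a g →
      portLaw d n {x | ε < |(∑ h, g (conf x.1 (lab x.2) h)) / (n * d) -
        ∫ ξ, g ξ ∂(envLaw d unif)|} ≤ ENNReal.ofReal δ := by
  obtain ⟨N, hN⟩ := lln' d a hε hδ
  refine ⟨N, fun n hn g hg hb hloc => ?_⟩
  have h1 := hN n hn ℝ unif g hg hb hloc
  rw [portLaw_apply, potentialLaw_eq]
  exact h1

/-! ### Characters of the environment -/

/-- real coordinates of the environment -/
def embE (d : ℕ) [NeZero d] (ξ : Conf d (Fin d × ℝ)) : TW d × Bool → ℝ := fun t =>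
  if t.2 then (((ξ t.1).1 : ℕ) : ℝ) else (ξ t.1).2

theorem continuous_embE (d : ℕ) [NeZero d] : Continuous (embE d) := by
  refine continuous_pi fun t => ?_
  obtain ⟨w, b⟩ := t
  cases b
  · simp only [embE, Bool.false_eq_true, if_false]
    exact continuous_snd.comp (continuous_apply w)
  · simp only [embE, if_true]
    have h1 : Continuous fun ξ : Conf d (Fin d × ℝ) => (ξ w).1 :=
      continuous_fst.comp (continuous_apply w)
    have h2 : Continuous fun l : Fin d => (((l : ℕ)) : ℝ) := continuous_of_discreteTopology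
    exact h2.comp h1

theorem injective_embE (d : ℕ) [NeZero d] : Function.Injective (embE d) := by
  intro ξ ξ' h
  funext w
  have h0 := congrFun h (w, true)
  have h1 := congrFun h (w, false)
  simp only [embE, if_true, Nat.cast_inj] at h0
  simp only [embE, Bool.false_eq_true, if_false] at h1
  exact Prod.ext (Fin.ext h0) h1

/-- real and imaginary parts of the characters of the environment -/
def gq (d : ℕ) [NeZero d] (q : (TW d × Bool) →₀ ℚ) (b : Bool) (ξ : Conf d (Fin d × ℝ)) : ℝ :=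
  if b then Real.cos (phase q (embE d ξ)) else Real.sin (phase q (embE d ξ))

theorem continuous_gq (d : ℕ) [NeZero d] (q : (TW d × Bool) →₀ ℚ) (b : Bool) :
    Continuous (gq d q b) := by
  have h1 := (continuous_phase q).comp (continuous_embE d)
  unfold gq
  cases b
  · simp only [Bool.false_eq_true, if_false]
    exact Real.continuous_sin.comp h1
  · simp only [if_true]
    exact Real.continuous_cos.comp h1

theorem abs_gq_le (d : ℕ) [NeZero d] (q : (TW d × Bool) →₀ ℚ) (b : Bool)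
    (ξ : Conf d (Fin d × ℝ)) : |gq d q b ξ| ≤ 1 := by
  unfold gq
  split_ifs
  · exact Real.abs_cos_le_one _
  · exact Real.abs_sin_le_one _

theorem loc_gq (d : ℕ) [NeZero d] (q : (TW d × Bool) →₀ ℚ) (b : Bool) :
    ∃ a : ℕ, Loc a (gq d q b) := by
  refine ⟨q.support.sup fun t => t.1.len, fun ξ ξ' h => ?_⟩
  have h1 : phase q (embE d ξ) = phase q (embE d ξ') := by
    unfold phase Finsupp.sum
    refine Finset.sum_congr rfl fun t ht => ?_
    have h2 : ξ t.1 = ξ' t.1 :=
      h t.1 (Finset.le_sup (f := fun t : TW d × Bool => t.1.len) ht)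
    simp only [embE, h2]
  simp only [gq, h1]

/-- index of the law of large numbers events -/
abbrev EIx (d : ℕ) [NeZero d] : Type := ((TW d × Bool) →₀ ℚ) × Bool × ℕ

instance (d : ℕ) [NeZero d] : Countable (EIx d) := inferInstance

/-- the law of large numbers events -/
def GEnv (d : ℕ) [NeZero d] (i : EIx d) (n : ℕ) : Set (PS d n) :=
  {x | |(∑ h, gq d i.1 i.2.1 (conf x.1 (lab x.2) h)) / (n * d) -
    ∫ ξ, gq d i.1 i.2.1 ξ ∂(envLaw d unif)| ≤ 1 / ((i.2.2 : ℝ) + 1)}

/-- the events have probability `→ 1` (hypothesis `hG0` of `Seq980.exists_seq`) -/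
theorem GEnv_whp (d : ℕ) [NeZero d] (i : EIx d) (δ : ℝ) (hδ : 0 < δ) :
    ∃ N : ℕ, ∀ n, N ≤ n → portLaw d n (GEnv d i n)ᶜ ≤ ENNReal.ofReal δ := by
  obtain ⟨a, ha⟩ := loc_gq d i.1 i.2.1
  have hε : 0 < 1 / ((i.2.2 : ℝ) + 1) := by positivity
  obtain ⟨N, hN⟩ := lln_port d a hε hδ
  refine ⟨N, fun n hn => ?_⟩
  have h1 := hN n hn _ (continuous_gq d i.1 i.2.1).measurable (abs_gq_le d i.1 i.2.1) ha
  have h2 : (GEnv d i n)ᶜ = {x : PS d n |
      1 / ((i.2.2 : ℝ) + 1) < |(∑ h, gq d i.1 i.2.1 (conf x.1 (lab x.2) h)) / (n * d) -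
        ∫ ξ, gq d i.1 i.2.1 ξ ∂(envLaw d unif)|} := by
    ext x
    simp [GEnv]
  rw [h2]
  exact h1

/-- the same events indexed by natural numbers -/
def GEnvN (d : ℕ) [NeZero d] (i : ℕ) (n : ℕ) : Set (PS d n) :=
  GEnv d ((exists_surjective_nat (EIx d)).choose i) n

theorem GEnvN_whp (d : ℕ) [NeZero d] (i : ℕ) (δ : ℝ) (hδ : 0 < δ) :
    ∃ N : ℕ, ∀ n, N ≤ n → portLaw d n (GEnvN d i n)ᶜ ≤ ENNReal.ofReal δ :=
  GEnv_whp d _ δ hδ

theorem GEnvN_surj (d : ℕ) [NeZero d] (i : EIx d) : ∃ m, GEnvN d m = GEnv d i := by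
  obtain ⟨m, hm⟩ := (exists_surjective_nat (EIx d)).choose_spec i
  exact ⟨m, by unfold GEnvN; rw [hm]⟩

theorem continuous_envP {d : ℕ} [NeZero d] {X : Type*} [TopologicalSpace X] :
    Continuous (envP : Conf d (Fin d × (ℝ × X)) → Conf d (Fin d × ℝ)) := by
  refine continuous_pi fun w => ?_
  exact (continuous_fst.comp (continuous_apply w)).prodMk
    (continuous_fst.comp (continuous_snd.comp (continuous_apply w)))

/-- test functions on the limit space -/
def φq (d k : ℕ) [NeZero d] (q : (TW d × Bool) →₀ ℚ) (b : Bool) : Conf d (S1 d k) →ᵇ ℝ :=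
  BoundedContinuousFunction.ofNormedAddCommGroup (fun ξ => gq d q b (envP ξ))
    ((continuous_gq d q b).comp continuous_envP) 1
    (fun ξ => by rw [Real.norm_eq_abs]; exact abs_gq_le d q b _)

/-- values of the integrals under the limit law -/
theorem integral_gq {d k : ℕ} [NeZero d] (S : Seq d k)
    (hG : ∀ i : EIx d, ∀ᶠ j in atTop, S.U j ⊆ GEnv d i (S.n j))
    (q : (TW d × Bool) →₀ ℚ) (b : Bool) :
    ∫ ξ, gq d q b (envP ξ) ∂S.P = ∫ ξ, gq d q b ξ ∂(envLaw d unif) := by
  have key : ∀ m : ℕ, |(∫ ξ, gq d q b (envP ξ) ∂S.P) - ∫ ξ, gq d q b ξ ∂(envLaw d unif)| ≤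
      2 * (1 / ((m : ℝ) + 1)) := by
    intro m
    have h1 := S.lim (φq d k q b) (1 / ((m : ℝ) + 1)) (by positivity)
    obtain ⟨j, hj1, hj2⟩ := (h1.and (hG (q, b, m))).exists
    obtain ⟨x, hx⟩ := S.nonempty j
    have h3 := hj1 x hx
    have h4 : |(∑ h, gq d q b (conf x.1 (lab x.2) h)) / ((S.n j : ℝ) * d) -
      ∫ ξ, gq d q b ξ ∂(envLaw d unif)| ≤ 1 / ((m : ℝ) + 1) := hj2 hx
    have h5 : ∫ ξ, (φq d k q b) ξ ∂(emp x.1 (col x.2 (S.F j x))) =
        (∑ h, gq d q b (conf x.1 (lab x.2) h)) / ((S.n j : ℝ) * d) := by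
      rw [Seq980.integral_emp x.1 (col x.2 (S.F j x)) (φq d k q b)
        (φq d k q b).continuous.stronglyMeasurable]
      rw [IsPort.card_HE, smul_eq_mul, mul_comm, ← div_eq_mul_inv]
      push_cast
      rfl
    have h6 : ∫ ξ, (φq d k q b) ξ ∂S.P = ∫ ξ, gq d q b (envP ξ) ∂S.P := rfl
    rw [h5, h6] at h3
    rw [abs_sub_comm] at h3
    calc |(∫ ξ, gq d q b (envP ξ) ∂S.P) - ∫ ξ, gq d q b ξ ∂(envLaw d unif)|
        ≤ |(∫ ξ, gq d q b (envP ξ) ∂S.P) -
            (∑ h, gq d q b (conf x.1 (lab x.2) h)) / ((S.n j : ℝ) * d)| +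
          |(∑ h, gq d q b (conf x.1 (lab x.2) h)) / ((S.n j : ℝ) * d) -
            ∫ ξ, gq d q b ξ ∂(envLaw d unif)| := abs_sub_le _ _ _
      _ ≤ 1 / ((m : ℝ) + 1) + 1 / ((m : ℝ) + 1) := add_le_add h3 h4
      _ = 2 * (1 / ((m : ℝ) + 1)) := by ring
  have hlim : Tendsto (fun m : ℕ => 2 * (1 / ((m : ℝ) + 1))) atTop (𝓝 (2 * 0)) :=
    tendsto_one_div_add_atTop_nhds_zero_nat.const_mul 2
  rw [mul_zero] at hlim
  have h0 := ge_of_tendsto' hlim key
  exact sub_eq_zero.1 (abs_nonpos_iff.1 h0)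

/-- **the environment is iid under the limit law** -/
theorem env_law {d k : ℕ} [NeZero d] (S : Seq d k)
    (hG : ∀ i : EIx d, ∀ᶠ j in atTop, S.U j ⊆ GEnv d i (S.n j)) :
    S.P.map envP = envLaw d unif := by
  have hp := S.prob
  have hm : Measurable (envP : Conf d (S1 d k) → Conf d (Fin d × ℝ)) := measurable_envP
  have hprob : IsProbabilityMeasure (S.P.map (envP : Conf d (S1 d k) → Conf d (Fin d × ℝ))) :=
    Measure.isProbabilityMeasure_map hm.aemeasurable
  refine ext_of_ech (embE d) (continuous_embE d) (injective_embE d) fun q => ?_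
  have hre : ∀ μ : Measure (Conf d (Fin d × ℝ)), IsProbabilityMeasure μ →
      ∫ ξ, ech (embE d) (continuous_embE d) q ξ ∂μ =
        ((∫ ξ, gq d q true ξ ∂μ : ℝ) : ℂ) + ((∫ ξ, gq d q false ξ ∂μ : ℝ) : ℂ) * Complex.I := by
    intro μ hμ
    have h1 := integral_re_add_im (μ := μ) ((ech (embE d) (continuous_embE d) q).integrable μ)
    rw [← h1]
    have e1 : ∀ ξ, RCLike.re (ech (embE d) (continuous_embE d) q ξ) = gq d q true ξ := by
      intro ξ
      simp only [ech_apply, gq, if_true, RCLike.re_to_complex]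
      rw [mul_comm, Complex.exp_ofReal_mul_I_re]
    have e2 : ∀ ξ, RCLike.im (ech (embE d) (continuous_embE d) q ξ) = gq d q false ξ := by
      intro ξ
      simp only [ech_apply, gq, Bool.false_eq_true, if_false, RCLike.im_to_complex]
      rw [mul_comm, Complex.exp_ofReal_mul_I_im]
    simp only [e1, e2]
    rfl
  rw [hre _ hprob, hre _ (envLaw_prob unif)]
  have e : ∀ b, ∫ ξ, gq d q b ξ ∂(S.P.map envP) = ∫ ξ, gq d q b ξ ∂(envLaw d unif) := by
    intro b
    rw [integral_map hm.aemeasurable (continuous_gq d q b).aestronglyMeasurable]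
    exact integral_gq S hG q b
  rw [e true, e false]

/-- version for the natural-number indexed events -/
theorem env_law_N {d k : ℕ} [NeZero d] (S : Seq d k)
    (hG : ∀ i : ℕ, ∀ᶠ j in atTop, S.U j ⊆ GEnvN d i (S.n j)) :
    S.P.map envP = envLaw d unif := by
  refine env_law S fun i => ?_
  obtain ⟨m, hm⟩ := GEnvN_surj d i
  have := hG m
  rw [hm] at this
  exact this

end

end Crest.Agent.R166.LimEnv289
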