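import Mathlib
import Crest.Agent.R166.LawEta_849
import Crest.Agent.R166.LimEnv_289

/-!
Row 166, section 40.2 (helper849): consequences of the characteristic function of `P_η`.

* `law_scalar`: under `Q` the pair `(pr ζ, τ·Z)` has the law of `(ζ, √(τ·Γ(ζ)·τ) N)`;
* `null_of_pos`: `Q {f(pr ζ) + τ·Z = r} = 0` if `τ·Γ·τ > 0`;
* `Y_null`, `om_null`, `Q_om_null`: the continuity sets for the quantisation.
-/

set_option autoImplicit false
set_option linter.unusedSectionVars false

noncomputable section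

namespace Crest.Agent.R166.NoiseLim849

open MeasureTheory ProbabilityTheory Matrix Filter Topology
open Crest.Agent.R166.Words955 Crest.Agent.R166.LimLaw980 Crest.Agent.R166.Seq980
open Crest.Agent.R166.EnvLaw289 Crest.Agent.R166.Erg424
open Crest.Agent.R166.TreeDefs350 (unif)

attribute [local instance] opens_S2 borel_S2 polish_S2

set_option synthInstance.maxSize 2000 in
theorem polish_S1R (d k : ℕ) [NeZero d] : PolishSpace (Conf d (NoiseLim849.S1 d k) × ℝ) :=
  inferInstance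

attribute [local instance] polish_S1R

variable {d k : ℕ} [NeZero d]

/-- `Q` has the characteristic function of `P ⊗ N(0, Γ ⊗ I)` -/
def HasChar (P : Measure (Conf d (NoiseLim849.S1 d k)))
    (Γ : TW d → TW d → Conf d (NoiseLim849.S1 d k) → ℝ)
    (Q : Measure (Conf d (NoiseLim849.S2 d k))) : Prop :=
  ∀ (B : Finset (TW d)) (τ : B → Fin k → ℝ) (φ : Conf d (NoiseLim849.S1 d k) → ℂ), Continuous φ →
    (∀ ζ, ‖φ ζ‖ ≤ 1) →
    ∫ ζ, φ (pr ζ) * Complex.exp (Complex.I * ((zph B τ ζ : ℝ) : ℂ)) ∂Q =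
      ∫ ζ, φ ζ * cch Γ B τ ζ ∂P

lemma phase_elim {T : Type*} (q : (T ⊕ Unit) →₀ ℚ) (a : T → ℝ) (z : ℝ) :
    phase q (Sum.elim a fun _ => z) =
      phase q (Sum.elim a fun _ => 0) + (q (Sum.inr ()) : ℝ) * z := by
  classical
  unfold phase Finsupp.sum
  have key : ∀ t : T ⊕ Unit, (Sum.elim a (fun _ => z) t : ℝ) =
      Sum.elim a (fun _ => (0 : ℝ)) t + (if t = Sum.inr () then z else 0) := by
    rintro (t | t) <;> simp
  simp_rw [key, mul_add, Finset.sum_add_distrib]
  congr 1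
  simp only [mul_ite, mul_zero, Finset.sum_ite_eq']
  split_ifs with h
  · rfl
  · have : q (Sum.inr ()) = 0 := by simpa using h
    simp [this]

lemma char_gauss (u : ℝ) :
    ∫ x, Complex.exp (Complex.I * ((u * x : ℝ) : ℂ)) ∂(gaussianReal 0 1) =
      Complex.exp (-((u ^ 2 : ℝ) : ℂ) / 2) := by
  have h3 := charFun_gaussianReal (μ := 0) (v := 1) u
  rw [charFun_apply_real] at h3
  have h4 : ∀ t : ℝ, Complex.exp (Complex.I * ((u * t : ℝ) : ℂ)) =
      Complex.exp ((u : ℂ) * (t : ℂ) * Complex.I) := by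
    intro t
    congr 1
    push_cast
    ring
  simp only [h4]
  rw [h3]
  congr 1
  push_cast
  ring

lemma zph_smul (B : Finset (TW d)) (τ : B → Fin k → ℝ) (r : ℝ)
    (ζ : Conf d (NoiseLim849.S2 d k)) :
    zph B (fun b j => r * τ b j) ζ = r * zph B τ ζ := by
  unfold zph
  simp only [Finset.mul_sum, mul_assoc]

lemma Qf_smul {B : Finset (TW d)} (τ : B → Fin k → ℝ) (r : ℝ) (Γ : B → B → ℝ) :
    Qf (fun b j => r * τ b j) Γ = r ^ 2 * Qf τ Γ := by
  unfold Qf
  simp only [Finset.mul_sum]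
  refine Finset.sum_congr rfl fun j _ => Finset.sum_congr rfl fun b _ =>
    Finset.sum_congr rfl fun b' _ => by ring

lemma continuous_Qf_gam {Γ : TW d → TW d → Conf d (NoiseLim849.S1 d k) → ℝ}
    (hΓ : ∀ w w', Continuous (Γ w w')) (B : Finset (TW d)) (τ : B → Fin k → ℝ) :
    Continuous fun ζ => Qf τ (gam Γ B ζ) := by
  unfold Qf gam
  fun_prop

/-- **the scalar law**: `(pr ζ, τ·Z)` has the law of `(ζ, √(τ·Γ(ζ)·τ) N)` -/
theorem law_scalar {P : Measure (Conf d (NoiseLim849.S1 d k))} [IsProbabilityMeasure P]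
    {Q : Measure (Conf d (NoiseLim849.S2 d k))} [IsProbabilityMeasure Q]
    {Γ : TW d → TW d → Conf d (NoiseLim849.S1 d k) → ℝ} (hΓ : ∀ w w', Continuous (Γ w w'))
    (hpsd : ∀ (B : Finset (TW d)) (c : B → ℝ) ζ, 0 ≤ ∑ b, ∑ b', c b * Γ b.1 b'.1 ζ * c b')
    (h : HasChar P Γ Q) (B : Finset (TW d)) (τ : B → Fin k → ℝ) :
    Q.map (fun ζ => (pr ζ, zph B τ ζ)) =
      (P.prod (gaussianReal 0 1)).map fun x => (x.1, Real.sqrt (Qf τ (gam Γ B x.1)) * x.2) := by
  have hq : Continuous fun ζ => Qf τ (gam Γ B ζ) := continuous_Qf_gam hΓ B τ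
  have hm1 : Measurable fun ζ : Conf d (NoiseLim849.S2 d k) => (pr ζ, zph B τ ζ) :=
    (continuous_pr.prodMk (continuous_zph B τ)).measurable
  have hc2 : Continuous fun x : Conf d (NoiseLim849.S1 d k) × ℝ =>
      (x.1, Real.sqrt (Qf τ (gam Γ B x.1)) * x.2) := by
    have : Continuous fun x : Conf d (NoiseLim849.S1 d k) × ℝ =>
        Real.sqrt (Qf τ (gam Γ B x.1)) := Real.continuous_sqrt.comp (hq.comp continuous_fst)
    fun_prop
  have hm2 := hc2.measurable
  have : IsProbabilityMeasure (Q.map fun ζ => (pr ζ, zph B τ ζ)) :=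
    Measure.isProbabilityMeasure_map hm1.aemeasurable
  have : IsProbabilityMeasure ((P.prod (gaussianReal 0 1)).map fun x =>
      (x.1, Real.sqrt (Qf τ (gam Γ B x.1)) * x.2)) :=
    Measure.isProbabilityMeasure_map hm2.aemeasurable
  set Φ : Conf d (NoiseLim849.S1 d k) × ℝ → (TT d k ⊕ Unit) → ℝ :=
    fun x => Sum.elim (emb d k x.1) fun _ => x.2 with hΦ
  have hΦc : Continuous Φ := by
    refine continuous_pi fun t => ?_
    rcases t with t | t
    · exact (continuous_apply t).comp ((continuous_emb d k).comp continuous_fst)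
    · exact continuous_snd
  have hΦi : Function.Injective Φ := by
    rintro ⟨a, b⟩ ⟨a', b'⟩ hab
    have h1 : emb d k a = emb d k a' := by
      funext t
      exact congrFun hab (Sum.inl t)
    have h2 : b = b' := congrFun hab (Sum.inr ())
    rw [(isClosedEmbedding_emb d k).injective h1, h2]
  refine ext_of_ech Φ hΦc hΦi fun q => ?_
  rw [integral_map hm1.aemeasurable (ech Φ hΦc q).continuous.aestronglyMeasurable,
    integral_map hm2.aemeasurable (ech Φ hΦc q).continuous.aestronglyMeasurable]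
  set r : ℝ := (q (Sum.inr ()) : ℝ) with hr
  set φ : Conf d (NoiseLim849.S1 d k) → ℂ := fun ζ =>
    Complex.exp (Complex.I * ((phase q (Sum.elim (emb d k ζ) fun _ => 0) : ℝ) : ℂ)) with hφ
  have hφc : Continuous φ := by
    have h1 : Continuous fun ζ : Conf d (NoiseLim849.S1 d k) =>
        phase q (Sum.elim (emb d k ζ) fun _ => 0) := by
      refine (continuous_phase q).comp (continuous_pi fun t => ?_)
      rcases t with t | t
      · exact (continuous_apply t).comp (continuous_emb d k)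
      · exact continuous_const
    fun_prop
  have hφn : ∀ ζ, ‖φ ζ‖ ≤ 1 := fun ζ => by
    simp only [hφ]
    rw [mul_comm, Complex.norm_exp_ofReal_mul_I]
  have hech : ∀ ζ z, ech Φ hΦc q (ζ, z) = φ ζ * Complex.exp (Complex.I * ((r * z : ℝ) : ℂ)) := by
    intro ζ z
    rw [ech_apply]
    simp only [hΦ, hφ]
    rw [phase_elim, ← Complex.exp_add, ← mul_add]
    push_cast
    rfl
  have hL : ∫ ζ, ech Φ hΦc q (pr ζ, zph B τ ζ) ∂Q =
      ∫ ζ, φ ζ * cch Γ B (fun b j => r * τ b j) ζ ∂P := by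
    rw [← h B (fun b j => r * τ b j) φ hφc hφn]
    refine integral_congr_ae (Eventually.of_forall fun ζ => ?_)
    simp only [hech, zph_smul]
  have hR : ∫ x : Conf d (NoiseLim849.S1 d k) × ℝ,
      ech Φ hΦc q (x.1, Real.sqrt (Qf τ (gam Γ B x.1)) * x.2) ∂(P.prod (gaussianReal 0 1)) =
      ∫ ζ, φ ζ * cch Γ B (fun b j => r * τ b j) ζ ∂P := by
    rw [integral_prod]
    · refine integral_congr_ae (Eventually.of_forall fun ζ => ?_)
      simp only [hech]
      rw [integral_const_mul]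
      congr 1
      have h0 : 0 ≤ Qf τ (gam Γ B ζ) := Qf_nonneg τ fun c => hpsd B c ζ
      have h1 : ∀ x : ℝ, r * (Real.sqrt (Qf τ (gam Γ B ζ)) * x) =
          (r * Real.sqrt (Qf τ (gam Γ B ζ))) * x := fun x => by ring
      simp only [h1]
      rw [char_gauss, cch, Qf_smul, mul_pow, Real.sq_sqrt h0]
    · refine Integrable.of_bound ((ech Φ hΦc q).continuous.comp hc2).aestronglyMeasurable 1
        (Eventually.of_forall fun x => ?_)
      simp only [hech, norm_mul]
      rw [mul_comm Complex.I, Complex.norm_exp_ofReal_mul_I, mul_one]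
      exact hφn _
  rw [hL, hR]

/-- level sets of `f(pr ζ) + τ·Z` are null -/
theorem null_of_pos {P : Measure (Conf d (NoiseLim849.S1 d k))} [IsProbabilityMeasure P]
    {Q : Measure (Conf d (NoiseLim849.S2 d k))} [IsProbabilityMeasure Q]
    {Γ : TW d → TW d → Conf d (NoiseLim849.S1 d k) → ℝ} (hΓ : ∀ w w', Continuous (Γ w w'))
    (hpsd : ∀ (B : Finset (TW d)) (c : B → ℝ) ζ, 0 ≤ ∑ b, ∑ b', c b * Γ b.1 b'.1 ζ * c b')
    (h : HasChar P Γ Q) (B : Finset (TW d)) (τ : B → Fin k → ℝ)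
    (hpos : ∀ᵐ ζ ∂P, 0 < Qf τ (gam Γ B ζ)) {f : Conf d (NoiseLim849.S1 d k) → ℝ}
    (hf : Measurable f) (r : ℝ) : Q {ζ | f (pr ζ) + zph B τ ζ = r} = 0 := by
  have hq : Continuous fun ζ => Qf τ (gam Γ B ζ) := continuous_Qf_gam hΓ B τ
  have hm1 : Measurable fun ζ : Conf d (NoiseLim849.S2 d k) => (pr ζ, zph B τ ζ) :=
    (continuous_pr.prodMk (continuous_zph B τ)).measurable
  have hc2 : Continuous fun x : Conf d (NoiseLim849.S1 d k) × ℝ =>
      (x.1, Real.sqrt (Qf τ (gam Γ B x.1)) * x.2) := by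
    have : Continuous fun x : Conf d (NoiseLim849.S1 d k) × ℝ =>
        Real.sqrt (Qf τ (gam Γ B x.1)) := Real.continuous_sqrt.comp (hq.comp continuous_fst)
    fun_prop
  have hm2 := hc2.measurable
  set A : Set (Conf d (NoiseLim849.S1 d k) × ℝ) := {x | f x.1 + x.2 = r} with hA
  have hAm : MeasurableSet A :=
    measurableSet_eq_fun ((hf.comp measurable_fst).add measurable_snd) measurable_const
  have h1 : Q {ζ | f (pr ζ) + zph B τ ζ = r} = (Q.map fun ζ => (pr ζ, zph B τ ζ)) A := by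
    rw [Measure.map_apply hm1 hAm]
    rfl
  rw [h1, law_scalar hΓ hpsd h B τ, Measure.map_apply hm2 hAm,
    Measure.prod_apply (hm2 hAm), lintegral_eq_zero_iff (measurable_measure_prodMk_left (hm2 hAm))]
  filter_upwards [hpos] with ζ hζ
  have h2 : Prod.mk ζ ⁻¹' ((fun x : Conf d (NoiseLim849.S1 d k) × ℝ =>
      (x.1, Real.sqrt (Qf τ (gam Γ B x.1)) * x.2)) ⁻¹' A) ⊆
      {(r - f ζ) / Real.sqrt (Qf τ (gam Γ B ζ))} := by
    intro x hx
    simp only [hA, Set.mem_preimage, Set.mem_ofPred_eq] at hx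
    have h3 : Real.sqrt (Qf τ (gam Γ B ζ)) ≠ 0 := (Real.sqrt_pos.2 hζ).ne'
    rw [Set.mem_singleton_iff, eq_div_iff h3]
    linarith
  refine measure_mono_null h2 ?_
  have : NullSingletonClass (gaussianReal 0 1) := nullSingletonClass_gaussianReal (by norm_num)
  exact measure_singleton _

/-- the level sets of `Y = X + √t Z` are null -/
theorem Y_null {P : Measure (Conf d (NoiseLim849.S1 d k))} [IsProbabilityMeasure P]
    {Q : Measure (Conf d (NoiseLim849.S2 d k))} [IsProbabilityMeasure Q]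
    {Γ : TW d → TW d → Conf d (NoiseLim849.S1 d k) → ℝ} (hΓ : ∀ w w', Continuous (Γ w w'))
    (hpsd : ∀ (B : Finset (TW d)) (c : B → ℝ) ζ, 0 ≤ ∑ b, ∑ b', c b * Γ b.1 b'.1 ζ * c b')
    (h : HasChar P Γ Q) (w : TW d) (hpos : ∀ᵐ ζ ∂P, 0 < Γ w w ζ) (i : Fin k) {t : ℝ} (ht : 0 < t)
    (r : ℝ) : Q {ζ | (ζ w).2.2.1 i + Real.sqrt t * (ζ w).2.2.2 i = r} = 0 := by
  classical
  set B : Finset (TW d) := {w} with hB
  have hw : w ∈ B := Finset.mem_singleton_self w
  set τ : B → Fin k → ℝ := fun _ j => if j = i then Real.sqrt t else 0 with hτ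
  have huniq : (Finset.univ : Finset B) = {⟨w, hw⟩} := by
    ext b
    simp only [Finset.mem_univ, Finset.mem_singleton, true_iff]
    exact Subtype.ext (Finset.mem_singleton.1 b.2)
  have hz : ∀ ζ : Conf d (NoiseLim849.S2 d k), zph B τ ζ = Real.sqrt t * (ζ w).2.2.2 i := by
    intro ζ
    unfold zph
    rw [huniq]
    simp only [Finset.sum_singleton, hτ, ite_mul, zero_mul, Finset.sum_ite_eq', Finset.mem_univ,
      if_true]
  have hQ : ∀ ζ, Qf τ (gam Γ B ζ) = t * Γ w w ζ := by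
    intro ζ
    unfold Qf
    rw [huniq]
    simp only [Finset.sum_singleton, hτ, ite_mul, zero_mul, mul_ite, mul_zero,
      Finset.sum_ite_eq', Finset.mem_univ, if_true, gam]
    have h1 := Real.mul_self_sqrt ht.le
    calc Real.sqrt t * Γ w w ζ * Real.sqrt t = (Real.sqrt t * Real.sqrt t) * Γ w w ζ := by ring
      _ = _ := by rw [h1]
  have h1 := null_of_pos hΓ hpsd h B τ (by
    filter_upwards [hpos] with ζ hζ
    rw [hQ]
    exact mul_pos ht hζ) (f := fun ζ => (ζ w).2.2 i) (by fun_prop) r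
  simp only [hz] at h1
  exact h1

/-- the potentials have no atoms -/
theorem om_null {P : Measure (Conf d (NoiseLim849.S1 d k))}
    (henv : P.map (envP (X := Fin k → ℝ)) = envLaw d unif) (w : TW d) (r : ℝ) :
    P {ζ | (ζ w).2.1 = r} = 0 := by
  have hA : MeasurableSet {ξ : Conf d (Fin d × ℝ) | (ξ w).2 = r} :=
    measurableSet_eq_fun (by fun_prop) measurable_const
  have h1 : P {ζ : Conf d (NoiseLim849.S1 d k) | (ζ w).2.1 = r} =
      (P.map (envP (X := Fin k → ℝ))) {ξ : Conf d (Fin d × ℝ) | (ξ w).2 = r} := by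
    rw [Measure.map_apply measurable_envP hA]
    rfl
  have hB : MeasurableSet {x : Fin d × ℝ | x.2 = r} :=
    measurableSet_eq_fun measurable_snd measurable_const
  have h2 : (envLaw d unif) {ξ : Conf d (Fin d × ℝ) | (ξ w).2 = r} =
      (siteLaw d unif) {x : Fin d × ℝ | x.2 = r} := by
    rw [← envLaw_eval unif w, Measure.map_apply (measurable_pi_apply w) hB]
    rfl
  have h3 : {x : Fin d × ℝ | x.2 = r} = (Set.univ : Set (Fin d)) ×ˢ ({r} : Set ℝ) := by
    ext x
    simp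
  have h4 : unif ({r} : Set ℝ) = 0 := by
    rw [unif, Measure.smul_apply]
    have : (volume.restrict (Set.Icc (-1 : ℝ) 1)) ({r} : Set ℝ) = 0 := measure_singleton _
    rw [this]
    simp
  rw [h1, henv, h2, h3, siteLaw, Measure.prod_prod, h4, mul_zero]

theorem Q_om_null {P : Measure (Conf d (NoiseLim849.S1 d k))}
    {Q : Measure (Conf d (NoiseLim849.S2 d k))} (hmarg : Q.map pr = P)
    (henv : P.map (envP (X := Fin k → ℝ)) = envLaw d unif) (w : TW d) (r : ℝ) :
    Q {ζ | (ζ w).2.1 = r} = 0 := by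
  have hA : MeasurableSet {ζ : Conf d (NoiseLim849.S1 d k) | (ζ w).2.1 = r} :=
    measurableSet_eq_fun (by fun_prop) measurable_const
  have h1 := om_null henv w r
  rw [← hmarg, Measure.map_apply continuous_pr.measurable hA] at h1
  exact h1

/-- **the law `P_η` with all its properties**, including the continuity sets -/
theorem lawEta_null (S : Seq980.Seq d k) {s E K' : ℝ} (hX : SpecB1.Extra S s E K') {η c : ℝ}
    (hη : 0 < η) (hc : 0 < c) (henv : S.P.map (envP (X := Fin k → ℝ)) = envLaw d unif) :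
    ∃ Q : Measure (Conf d (NoiseLim849.S2 d k)), SpecB1.IsNoisyLim S s E η c Q ∧
      Q.map pr = S.P ∧ Inv Q ∧ HasChar S.P (gamG k s E η c) Q ∧
      (∀ w (r : ℝ), Q {ζ | (ζ w).2.1 = r} = 0) ∧
      ∀ t : ℝ, 0 < t → ∀ w i (r : ℝ),
        Q {ζ | (ζ w).2.2.1 i + Real.sqrt t * (ζ w).2.2.2 i = r} = 0 := by
  obtain ⟨Q, h1, h2, h3, h4⟩ := lawEta S hX hη hc
  have := h1.1
  have := S.prob
  have h5 : HasChar S.P (gamG k s E η c) Q := h4
  refine ⟨Q, h1, h2, h3, h5, fun w r => Q_om_null h2 henv w r, fun t ht w i r => ?_⟩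
  exact Y_null (fun w w' => continuous_gamG k s E hη c w w')
    (fun B v ζ => gamG_psd k s E hη hc.le B v ζ) h5 w
    (Eventually.of_forall fun ζ => gamG_pos k s E hη hc w ζ) i ht r

end Crest.Agent.R166.NoiseLim849
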