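import Mathlib
import Crest.Agent.R166.Q0_955
import Crest.Agent.R166.LawEta_849

/-!
Row 166, section 40.10 (helper955): properties of laws with Gaussian noise.

* `inv_of_tendsto` : invariance of the limit;
* `NLaw.char_var` : characteristic function with frequencies depending on `(label, ω, X)`;
* `NLaw.zph_eq_zero` : linear combinations of variance zero vanish;
* `NLaw.condExp`, `NLaw.condExp_var` : conditional characteristic function.
-/

set_option autoImplicit false
set_option linter.unusedSectionVars false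
set_option linter.unusedVariables false

noncomputable section

namespace Crest.Agent.R166.Q0_955

open MeasureTheory ProbabilityTheory Filter Topology BoundedContinuousFunction
open Crest.Agent.R166.Words955 Crest.Agent.R166.LimLaw980 Crest.Agent.R166.NoiseLim849
open Crest.Agent.R166.Lim793

section law2

variable {d k : ℕ} [NeZero d]

attribute [local instance] opens_S2 borel_S2 polish_S2

variable {P : Measure (Conf d (S1 d k))} {Γ : TW d → TW d → Conf d (S1 d k) → ℝ}
  {Q : Measure (Conf d (S2 d k))}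

/-- invariance passes to weak limits -/
theorem inv_of_tendsto {Q : ℕ → ProbabilityMeasure (Conf d (S2 d k))}
    {Q0 : ProbabilityMeasure (Conf d (S2 d k))} (h : Tendsto Q atTop (𝓝 Q0))
    (hI : ∀ n, Inv (Q n : Measure (Conf d (S2 d k)))) :
    Inv (Q0 : Measure (Conf d (S2 d k))) := by
  have hS : BorelSpace (S2 d k) := inferInstance
  constructor
  · refine map_eq_of_tendsto h continuous_cross fun n f hf _ => ?_
    have h1 := (hI n).1
    conv_rhs => rw [← h1]
    rw [integral_map measurable_cross.aemeasurable hf.aestronglyMeasurable]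
  · intro i
    have hr : Continuous (rotn i : Conf d (S2 d k) → Conf d (S2 d k)) := by
      refine continuous_rotn (fun j => ?_) i
      exact (continuous_of_discreteTopology (f := fun x : Fin d => x + j)).prodMap continuous_id
    refine map_eq_of_tendsto h hr fun n f hf _ => ?_
    have h1 := (hI n).2 i
    conv_rhs => rw [← h1]
    rw [integral_map hr.measurable.aemeasurable hf.aestronglyMeasurable]

theorem continuous_zph_left (B : Finset (TW d)) (ζ : Conf d (S2 d k)) :
    Continuous fun τ : B → Fin k → ℝ => zph B τ ζ := by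
  unfold zph
  fun_prop

theorem continuous_cch_left (B : Finset (TW d)) (ζ : Conf d (S1 d k)) :
    Continuous fun τ : B → Fin k → ℝ => cch Γ B τ ζ := by
  unfold cch Qf
  fun_prop

theorem measurable_zph_var (B : Finset (TW d)) {a : Conf d (S1 d k) → B → Fin k → ℝ}
    (ha : Measurable a) : Measurable fun ζ : Conf d (S2 d k) => zph B (a (pr ζ)) ζ := by
  have h1 : ∀ (b : B) (j : Fin k), Measurable fun ζ : Conf d (S2 d k) => a (pr ζ) b j :=
    fun b j => ((measurable_pi_apply j).comp ((measurable_pi_apply b).comp ha)).comp measurable_pr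
  have h2 : ∀ (b : B) (j : Fin k), Measurable fun ζ : Conf d (S2 d k) => (ζ b.1).2.2.2 j := by
    intro b j
    fun_prop
  unfold zph
  exact Finset.measurable_sum _ fun j _ => Finset.measurable_sum _ fun b _ => (h1 b j).mul (h2 b j)

theorem measurable_cch_var (hΓ : ∀ w w', Measurable (Γ w w')) (B : Finset (TW d))
    {a : Conf d (S1 d k) → B → Fin k → ℝ} (ha : Measurable a) :
    Measurable fun ζ => cch Γ B (a ζ) ζ := by
  have h1 : ∀ (b : B) (j : Fin k), Measurable fun ζ : Conf d (S1 d k) => a ζ b j :=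
    fun b j => (measurable_pi_apply j).comp ((measurable_pi_apply b).comp ha)
  have h2 : Measurable fun ζ => Qf (a ζ) (gam Γ B ζ) := by
    unfold Qf gam
    exact Finset.measurable_sum _ fun j _ => Finset.measurable_sum _ fun b _ =>
      Finset.measurable_sum _ fun b' _ => ((h1 b j).mul (hΓ _ _)).mul (h1 b' j)
  unfold cch
  fun_prop

theorem norm_exp_zph' (x : ℝ) : ‖Complex.exp (Complex.I * (x : ℂ))‖ = 1 := by
  rw [mul_comm, Complex.norm_exp_ofReal_mul_I]

/-- characteristic function with finitely many frequencies -/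
theorem NLaw.char_simple (h : NLaw P Γ Q) (hΓ : IsCov P Γ) (B : Finset (TW d))
    (a : SimpleFunc (Conf d (S1 d k)) (B → Fin k → ℝ)) {φ : Conf d (S1 d k) → ℂ}
    (hφ : Measurable φ) {C : ℝ} (hC : ∀ ζ, ‖φ ζ‖ ≤ C) :
    ∫ ζ, φ (pr ζ) * Complex.exp (Complex.I * ((zph B (a (pr ζ)) ζ : ℝ) : ℂ)) ∂Q =
      ∫ ζ, φ ζ * cch Γ B (a ζ) ζ ∂P := by
  classical
  have := h.prob
  have := h.probP
  set ψ : (B → Fin k → ℝ) → Conf d (S1 d k) → ℂ := fun v ζ => if a ζ = v then φ ζ else 0 with hψ
  have hψm : ∀ v, Measurable (ψ v) := fun v =>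
    Measurable.ite (a.measurableSet_fiber v) hφ measurable_const
  have hC0 : 0 ≤ C := by
    obtain ⟨ζ⟩ := (inferInstance : (ae P).NeBot).nonempty
    exact (norm_nonneg _).trans (hC ζ)
  have hψC : ∀ v ζ, ‖ψ v ζ‖ ≤ C := by
    intro v ζ
    simp only [hψ]
    split_ifs
    · exact hC ζ
    · simpa using hC0
  have e1 : ∀ ζ : Conf d (S2 d k),
      φ (pr ζ) * Complex.exp (Complex.I * ((zph B (a (pr ζ)) ζ : ℝ) : ℂ)) =
      ∑ v ∈ a.range, ψ v (pr ζ) * Complex.exp (Complex.I * ((zph B v ζ : ℝ) : ℂ)) := by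
    intro ζ
    rw [Finset.sum_eq_single (a (pr ζ))]
    · simp [hψ]
    · intro v _ hv
      simp [hψ, Ne.symm hv]
    · intro hv
      exact absurd (a.mem_range_self _) hv
  have e2 : ∀ ζ : Conf d (S1 d k), φ ζ * cch Γ B (a ζ) ζ =
      ∑ v ∈ a.range, ψ v ζ * cch Γ B v ζ := by
    intro ζ
    rw [Finset.sum_eq_single (a ζ)]
    · simp [hψ]
    · intro v _ hv
      simp [hψ, Ne.symm hv]
    · intro hv
      exact absurd (a.mem_range_self _) hv
  simp only [e1, e2]
  rw [integral_finsetSum, integral_finsetSum]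
  · exact Finset.sum_congr rfl fun v _ => h.char' B v (hψm v) (hψC v)
  · intro v _
    refine Integrable.of_bound ((hψm v).mul (measurable_cch hΓ.meas B v)).aestronglyMeasurable
      (C * 1) ?_
    filter_upwards [hΓ.norm_cch B] with ζ hζ
    rw [norm_mul]
    exact mul_le_mul (hψC v ζ) (hζ v) (norm_nonneg _) hC0
  · intro v _
    refine Integrable.of_bound (((hψm v).comp measurable_pr).mul
      (measurable_exp_zph B v)).aestronglyMeasurable (C * 1) (Eventually.of_forall fun ζ => ?_)
    rw [norm_mul]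
    exact mul_le_mul (hψC v _) (norm_exp_zph B v ζ) (norm_nonneg _) hC0

/-- characteristic function with frequencies depending on `(label, ω, X)` -/
theorem NLaw.char_var (h : NLaw P Γ Q) (hΓ : IsCov P Γ) (B : Finset (TW d))
    {a : Conf d (S1 d k) → B → Fin k → ℝ} (ha : Measurable a) {φ : Conf d (S1 d k) → ℂ}
    (hφ : Measurable φ) {C : ℝ} (hC : ∀ ζ, ‖φ ζ‖ ≤ C) :
    ∫ ζ, φ (pr ζ) * Complex.exp (Complex.I * ((zph B (a (pr ζ)) ζ : ℝ) : ℂ)) ∂Q =
      ∫ ζ, φ ζ * cch Γ B (a ζ) ζ ∂P := by
  have := h.prob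
  have := h.probP
  have hC0 : 0 ≤ C := by
    obtain ⟨ζ⟩ := (inferInstance : (ae P).NeBot).nonempty
    exact (norm_nonneg _).trans (hC ζ)
  have has : StronglyMeasurable a := ha.stronglyMeasurable
  have h1 : Tendsto (fun n => ∫ ζ, φ (pr ζ) *
      Complex.exp (Complex.I * ((zph B (has.approx n (pr ζ)) ζ : ℝ) : ℂ)) ∂Q) atTop
      (𝓝 (∫ ζ, φ (pr ζ) * Complex.exp (Complex.I * ((zph B (a (pr ζ)) ζ : ℝ) : ℂ)) ∂Q)) := by
    refine tendsto_integral_of_dominated_convergence (fun _ => C) (fun n => ?_)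
      (integrable_const _) (fun n => Eventually.of_forall fun ζ => ?_)
      (Eventually.of_forall fun ζ => ?_)
    · have h2 := measurable_zph_var (d := d) B (has.approx n).measurable
      have h3 : Measurable fun ζ : Conf d (S2 d k) => φ (pr ζ) := hφ.comp measurable_pr
      exact (h3.mul (by fun_prop)).aestronglyMeasurable
    · rw [norm_mul, norm_exp_zph', mul_one]
      exact hC _
    · have h2 := has.tendsto_approx (pr ζ)
      have h3 : Continuous fun τ : B → Fin k → ℝ =>
          Complex.exp (Complex.I * ((zph B τ ζ : ℝ) : ℂ)) := by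
        have := continuous_zph_left B ζ
        fun_prop
      exact ((h3.tendsto _).comp h2).const_mul _
  have h2 : Tendsto (fun n => ∫ ζ, φ ζ * cch Γ B (has.approx n ζ) ζ ∂P) atTop
      (𝓝 (∫ ζ, φ ζ * cch Γ B (a ζ) ζ ∂P)) := by
    refine tendsto_integral_of_dominated_convergence (fun _ => C * 1) (fun n => ?_)
      (integrable_const _) (fun n => ?_) (Eventually.of_forall fun ζ => ?_)
    · exact (hφ.mul (measurable_cch_var hΓ.meas B (has.approx n).measurable)).aestronglyMeasurable
    · filter_upwards [hΓ.norm_cch B] with ζ hζ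
      rw [norm_mul]
      exact mul_le_mul (hC ζ) (hζ _) (norm_nonneg _) hC0
    · have h2 := has.tendsto_approx ζ
      exact (((continuous_cch_left B ζ).tendsto _).comp h2).const_mul _
  exact tendsto_nhds_unique h1 (h2.congr fun n => (h.char_simple hΓ B _ hφ hC).symm)

theorem zph_smul (B : Finset (TW d)) (τ : B → Fin k → ℝ) (t : ℝ) (ζ : Conf d (S2 d k)) :
    zph B (t • τ) ζ = t * zph B τ ζ := by
  unfold zph
  simp only [Pi.smul_apply, smul_eq_mul, Finset.mul_sum, mul_assoc]

theorem Qf_smul {B J : Type*} [Fintype B] [Fintype J] (τ : B → J → ℝ) (G : B → B → ℝ) (t : ℝ) :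
    Qf (t • τ) G = t ^ 2 * Qf τ G := by
  unfold Qf
  simp only [Pi.smul_apply, smul_eq_mul, Finset.mul_sum]
  refine Finset.sum_congr rfl fun j _ => Finset.sum_congr rfl fun b _ =>
    Finset.sum_congr rfl fun b' _ => ?_
  ring

/-- linear combinations of `Z` of conditional variance zero vanish -/
theorem NLaw.zph_eq_zero (h : NLaw P Γ Q) (hΓ : IsCov P Γ) (B : Finset (TW d))
    {a : Conf d (S1 d k) → B → Fin k → ℝ} (ha : Measurable a)
    (h0 : ∀ᵐ ζ ∂P, Qf (a ζ) (gam Γ B ζ) = 0) : ∀ᵐ ζ ∂Q, zph B (a (pr ζ)) ζ = 0 := by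
  have := h.prob
  have := h.probP
  have hm := measurable_zph_var (d := d) (k := k) B ha
  have hp : IsProbabilityMeasure (Q.map fun ζ => zph B (a (pr ζ)) ζ) :=
    Measure.isProbabilityMeasure_map hm.aemeasurable
  have h1 : (Q.map fun ζ => zph B (a (pr ζ)) ζ) = Measure.dirac (0 : ℝ) := by
    refine Measure.ext_of_charFun ?_
    funext t
    rw [charFun_apply_real, integral_map hm.aemeasurable (by fun_prop), charFun_dirac]
    have h2 := h.char_var hΓ B (a := fun ζ => t • a ζ) (ha.const_smul t) (φ := fun _ => 1)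
      measurable_const (C := 1) (fun _ => by simp)
    simp only [one_mul, zph_smul] at h2
    have h3 : ∫ ζ, cch Γ B (t • a ζ) ζ ∂P = ∫ ζ, (1 : ℂ) ∂P := by
      refine integral_congr_ae ?_
      filter_upwards [h0] with ζ hζ
      unfold cch
      rw [Qf_smul, hζ]
      simp
    rw [h3] at h2
    simp only [integral_const, probReal_univ, one_smul] at h2
    simp only [inner_zero_left, Complex.ofReal_zero, zero_mul, Complex.exp_zero]
    rw [← h2]
    refine integral_congr_ae (Eventually.of_forall fun ζ => ?_)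
    simp only
    push_cast
    congr 1
    ring
  have h2 : ∀ᵐ x ∂(Q.map fun ζ => zph B (a (pr ζ)) ζ), x = 0 := by
    rw [h1]
    exact (ae_dirac_iff (p := fun x : ℝ => x = 0)
      (measurableSet_singleton (0 : ℝ))).2 rfl
  exact ae_of_ae_map hm.aemeasurable h2

/-- conditional characteristic function with random frequencies -/
theorem NLaw.condExp_var (h : NLaw P Γ Q) (hΓ : IsCov P Γ) (B : Finset (TW d))
    {a : Conf d (S1 d k) → B → Fin k → ℝ} (ha : Measurable a) :
    Q[fun ζ => Complex.exp (Complex.I * ((zph B (a (pr ζ)) ζ : ℝ) : ℂ)) |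
      MeasurableSpace.comap pr inferInstance] =ᵐ[Q] fun ζ => cch Γ B (a (pr ζ)) (pr ζ) := by
  have := h.prob
  have := h.probP
  have hle : MeasurableSpace.comap (pr : Conf d (S2 d k) → Conf d (S1 d k)) inferInstance ≤
      (inferInstance : MeasurableSpace (Conf d (S2 d k))) := measurable_pr.comap_le
  have hm := measurable_zph_var (d := d) (k := k) B ha
  have hi : Integrable (fun ζ => Complex.exp (Complex.I * ((zph B (a (pr ζ)) ζ : ℝ) : ℂ))) Q := by
    refine Integrable.of_bound ?_ 1 (Eventually.of_forall fun ζ => (norm_exp_zph' _).le)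
    exact Measurable.aestronglyMeasurable (by fun_prop)
  have hcm := measurable_cch_var hΓ.meas B ha
  have hci : Integrable (fun ζ => cch Γ B (a (pr ζ)) (pr ζ)) Q := by
    refine Integrable.of_bound (hcm.comp measurable_pr).aestronglyMeasurable 1 ?_
    have h1 : ∀ᵐ ζ ∂P, ‖cch Γ B (a ζ) ζ‖ ≤ 1 := (hΓ.norm_cch B).mono fun ζ hζ => hζ _
    rw [← h.marg] at h1
    exact ae_of_ae_map measurable_pr.aemeasurable h1
  symm
  refine ae_eq_condExp_of_forall_setIntegral_eq hle hi (fun s _ _ => hci.integrableOn) ?_ ?_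
  · rintro s ⟨A, hA, rfl⟩ _
    rw [← integral_indicator (measurable_pr hA), ← integral_indicator (measurable_pr hA)]
    set φ : Conf d (S1 d k) → ℂ := A.indicator fun _ => 1 with hφ
    have hφm : Measurable φ := measurable_const.indicator hA
    have hφb : ∀ ζ, ‖φ ζ‖ ≤ 1 := by
      intro ζ
      by_cases hζ : ζ ∈ A
      · rw [hφ, Set.indicator_of_mem hζ]; simp
      · rw [hφ, Set.indicator_of_notMem hζ]; simp
    have h1 := h.char_var hΓ B ha hφm hφb
    have e1 : ∫ ζ, (pr ⁻¹' A).indicator
        (fun ζ => Complex.exp (Complex.I * ((zph B (a (pr ζ)) ζ : ℝ) : ℂ))) ζ ∂Q =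
        ∫ ζ, φ (pr ζ) * Complex.exp (Complex.I * ((zph B (a (pr ζ)) ζ : ℝ) : ℂ)) ∂Q := by
      refine integral_congr_ae (Eventually.of_forall fun ζ => ?_)
      by_cases hζ : pr ζ ∈ A
      · have h2 : ζ ∈ pr ⁻¹' A := hζ
        simp only [hφ, Set.indicator_of_mem hζ, Set.indicator_of_mem h2, one_mul]
      · have h2 : ζ ∉ pr ⁻¹' A := hζ
        simp only [hφ, Set.indicator_of_notMem hζ, Set.indicator_of_notMem h2, zero_mul]
    have e2 : ∫ ζ, (pr ⁻¹' A).indicator (fun ζ => cch Γ B (a (pr ζ)) (pr ζ)) ζ ∂Q =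
        ∫ ζ, φ ζ * cch Γ B (a ζ) ζ ∂P := by
      rw [← h.marg, integral_map (f := fun ζ => φ ζ * cch Γ B (a ζ) ζ)
        measurable_pr.aemeasurable (hφm.mul hcm).aestronglyMeasurable]
      refine integral_congr_ae (Eventually.of_forall fun ζ => ?_)
      by_cases hζ : pr ζ ∈ A
      · have h2 : ζ ∈ pr ⁻¹' A := hζ
        simp only [hφ, Set.indicator_of_mem hζ, Set.indicator_of_mem h2, one_mul]
      · have h2 : ζ ∉ pr ⁻¹' A := hζ
        simp only [hφ, Set.indicator_of_notMem hζ, Set.indicator_of_notMem h2, zero_mul]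
    rw [e1, e2, h1]
  · exact (hcm.comp (comap_measurable pr)).aestronglyMeasurable

/-- conditional characteristic function -/
theorem NLaw.condExp (h : NLaw P Γ Q) (hΓ : IsCov P Γ) (B : Finset (TW d))
    (τ : B → Fin k → ℝ) :
    Q[fun ζ => Complex.exp (Complex.I * ((zph B τ ζ : ℝ) : ℂ)) |
      MeasurableSpace.comap pr inferInstance] =ᵐ[Q] fun ζ => cch Γ B τ (pr ζ) :=
  h.condExp_var hΓ B (a := fun _ => τ) measurable_const

end law2

end Crest.Agent.R166.Q0_955
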