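import Mathlib
import Crest.Agent.R166.Q02_955
import Crest.Agent.R166.NoiseNull_849
import Crest.Agent.R166.PhiAlg_879
import Crest.Agent.R166.LimF_793

/-!
Row 166, section 40.10 (helper955): the limit law `Q₀` (`η → 0`) for a sequence `S : Seq980.Seq`.

`LawSeq S s E ρ η Q Q0` collects everything about the laws `Q l` (at `E + i η l`) and their weak
limit `Q0`; `law_seq` is the existence theorem.
-/

set_option autoImplicit false
set_option linter.unusedSectionVars false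
set_option linter.unusedVariables false

noncomputable section

namespace Crest.Agent.R166.Q0_955

open MeasureTheory ProbabilityTheory Filter Topology BoundedContinuousFunction
open Crest.Agent.R166.Words955 Crest.Agent.R166.LimLaw980 Crest.Agent.R166.NoiseLim849
open Crest.Agent.R166.Lim793 Crest.Agent.R166.TreeG879 Crest.Agent.R166.PhiAlg879
open Crest.Agent.R166.EnvLaw289 Crest.Agent.R166.Erg424
open Crest.Agent.R166.TreeDefs350 (unif)

section law3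

variable {d k : ℕ} [NeZero d]

attribute [local instance] opens_S2 borel_S2 polish_S2

/-- the kernel at the energy `E + i η` in the two notations -/
theorem gamG_eq_PhiL (s E η ρ : ℝ) :
    gamG (d := d) k s E η (1 / (Real.pi * ρ)) =
      fun w w' ζ => PhiL (T := ℝ × (Fin k → ℝ)) Prod.fst s ρ (ze E η) w w' ζ := by
  funext w w' ζ
  unfold gamG PhiL
  ring

theorem isCov_gamG (P : Measure (Conf d (S1 d k))) (s E : ℝ) {η c : ℝ} (hη : 0 < η)
    (hc : 0 ≤ c) : IsCov P (gamG k s E η c) :=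
  ⟨fun w w' => (continuous_gamG k s E hη c w w').measurable,
    Eventually.of_forall fun ζ B c' => gamG_psd k s E hη hc B c' ζ⟩

theorem HasChar.nlaw {P : Measure (Conf d (S1 d k))} [IsProbabilityMeasure P]
    {Γ : TW d → TW d → Conf d (S1 d k) → ℝ} {Q : Measure (Conf d (S2 d k))}
    [IsProbabilityMeasure Q] (h : HasChar P Γ Q) (hΓ : IsCov P Γ) : NLaw P Γ Q :=
  NLaw.of_continuous hΓ h

theorem NLaw.charForm {P : Measure (Conf d (S1 d k))}
    {Γ : TW d → TW d → Conf d (S1 d k) → ℝ} {Q : Measure (Conf d (S2 d k))}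
    (h : NLaw P Γ Q) : CharForm P Γ Q := fun B τ φ hφ hφ1 =>
  h.char B τ (fun ζ => (φ ζ : ℂ)) (by fun_prop) (fun ζ => by
    rw [Complex.norm_real, Real.norm_eq_abs]
    exact hφ1 ζ)

/-- the laws at `E + i η l` and their limit -/
structure LawSeq (S : Seq980.Seq d k) (s E ρ : ℝ) (η : ℕ → ℝ)
    (Q : ℕ → Measure (Conf d (S2 d k))) (Q0 : Measure (Conf d (S2 d k))) : Prop where
  prob : ∀ l, IsProbabilityMeasure (Q l)
  noisy : ∀ l, SpecB1.IsNoisyLim S s E (η l) (1 / (Real.pi * ρ)) (Q l)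
  inv : ∀ l, Inv (Q l)
  cov : ∀ l, IsCov S.P (gamG k s E (η l) (1 / (Real.pi * ρ)))
  nlaw : ∀ l, NLaw S.P (gamG k s E (η l) (1 / (Real.pi * ρ))) (Q l)
  om_null : ∀ l w (r : ℝ), Q l {ζ | (ζ w).2.1 = r} = 0
  Y_null : ∀ l (t : ℝ), 0 < t → ∀ w i (r : ℝ),
    Q l {ζ | (ζ w).2.2.1 i + Real.sqrt t * (ζ w).2.2.2 i = r} = 0
  prob0 : IsProbabilityMeasure Q0
  inv0 : Inv Q0
  cov0 : IsCov S.P (Phi (T := ℝ × (Fin k → ℝ)) Prod.fst s ρ fun l => ze E (η l))
  nlaw0 : NLaw S.P (Phi (T := ℝ × (Fin k → ℝ)) Prod.fst s ρ fun l => ze E (η l)) Q0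
  tendsto : ∀ f : Conf d (S2 d k) →ᵇ ℝ,
    Tendsto (fun l => ∫ ζ, f ζ ∂(Q l)) atTop (𝓝 (∫ ζ, f ζ ∂Q0))
  /-- convergence of the kernels -/
  lim : ∀ᵐ ζ ∂S.P, ∀ w w', Tendsto (fun l => gamG k s E (η l) (1 / (Real.pi * ρ)) w w' ζ) atTop
    (𝓝 (Phi (T := ℝ × (Fin k → ℝ)) Prod.fst s ρ (fun l => ze E (η l)) w w' ζ))

/-- **existence of the limit law `Q₀`** -/
theorem law_seq (S : Seq980.Seq d k) {s E K' ρ : ℝ} (hX : SpecB1.Extra S s E K')
    (henv : S.P.map (envP (X := Fin k → ℝ)) = envLaw d unif) (hρ : 0 < ρ) {η : ℕ → ℝ}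
    (hη : ∀ l, 0 < η l)
    (hlim : ∀ᵐ ζ ∂S.P, ∀ w w', ∃ L : ℂ, Tendsto (fun l =>
      treeG s (ze E (η l)) (omOf (T := ℝ × (Fin k → ℝ)) Prod.fst ζ) w w') atTop (𝓝 L)) :
    ∃ (Q : ℕ → Measure (Conf d (S2 d k))) (Q0 : Measure (Conf d (S2 d k))),
      LawSeq S s E ρ η Q Q0 := by
  have := S.prob
  have hc : 0 < 1 / (Real.pi * ρ) := by positivity
  have hz : ∀ l, 0 < (ze E (η l)).im := fun l => by rw [NoiseLim849.ze_im]; exact hη l
  choose Q h1 h2 h3 h4 h5 h6 using fun l => lawEta_null S hX (hη l) hc henv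
  have hp : ∀ l, IsProbabilityMeasure (Q l) := fun l => (h1 l).1
  have hcov : ∀ l, IsCov S.P (gamG k s E (η l) (1 / (Real.pi * ρ))) := fun l =>
    isCov_gamG S.P s E (hη l) hc.le
  have hn : ∀ l, NLaw S.P (gamG k s E (η l) (1 / (Real.pi * ρ))) (Q l) := fun l =>
    HasChar.nlaw (h4 l) (hcov l)
  have hlim' : ∀ᵐ ζ ∂S.P, ∀ w w', Tendsto (fun l =>
      gamG k s E (η l) (1 / (Real.pi * ρ)) w w' ζ) atTop
      (𝓝 (Phi (T := ℝ × (Fin k → ℝ)) Prod.fst s ρ (fun l => ze E (η l)) w w' ζ)) := by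
    filter_upwards [hlim] with ζ hζ w w'
    obtain ⟨L, hL⟩ := hζ w w'
    have h7 := (Phi_eq_of (ρ := ρ) hz hL).1
    simp only [gamG_eq_PhiL]
    exact h7
  have hlimw : ∀ w w', ∀ᵐ ζ ∂S.P, Tendsto (fun l =>
      gamG k s E (η l) (1 / (Real.pi * ρ)) w w' ζ) atTop
      (𝓝 (Phi (T := ℝ × (Fin k → ℝ)) Prod.fst s ρ (fun l => ze E (η l)) w w' ζ)) := fun w w' =>
    hlim'.mono fun ζ hζ => hζ w w'
  have hm : ∀ w w' : TW d, Measurable
      (Phi (T := ℝ × (Fin k → ℝ)) Prod.fst s ρ (fun l => ze E (η l)) w w') := fun w w' =>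
    measurable_Phi continuous_fst hz w w'
  set Qp : ℕ → ProbabilityMeasure (Conf d (S2 d k)) := fun l => ⟨Q l, hp l⟩ with hQp
  obtain ⟨hc0, Q0, hQ0, hn0⟩ := exists_limit_law (Q := Qp) hcov hm hlimw hn
  refine ⟨Q, Q0, ⟨hp, h1, h3, hcov, hn, h5, h6, inferInstance, ?_, hc0, hn0, ?_, hlim'⟩⟩
  · exact inv_of_tendsto hQ0 h3
  · exact fun f => (ProbabilityMeasure.tendsto_iff_forall_integral_tendsto.1 hQ0) f

end law3

end Crest.Agent.R166.Q0_955
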