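import Mathlib
import Crest.Agent.R166.PhiAlg_879
import Crest.Agent.R166.Q02_955

/-!
# Row 166 (helper879): the fields `Z_gauss` and `Z_eq` of `LimProc`

Hypotheses: `Q0_955.NLaw P Φ Q`, `Q0_955.IsCov P Φ` for the kernel `Φ = Phi Prod.fst s ρ z` and the
convergence of the cavity numbers (`PhiAlg879.Good`) `P`-almost everywhere.
-/

set_option autoImplicit false
set_option linter.unusedSectionVars false
noncomputable section
open MeasureTheory Filter Topology Finset

namespace Crest.Agent.R166.ZG879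

open Words955 TreeG879 PhiAlg879 NoiseLim849

variable {d : ℕ} [NeZero d]

/-! ### General families -/

section fam
variable {k : ℕ} {P : Type*} [Fintype P]

theorem Qf_fam' (f : P → TW d) (x : P → Fin k → ℝ) (K : TW d → TW d → ℝ) :
    Qf (famT f x) (fun b b' => K b.1 b'.1) = ∑ j, ∑ p, ∑ q, x p j * K (f p) (f q) * x q j := by
  unfold Qf
  refine Finset.sum_congr rfl fun j _ => ?_
  have h1 : ∀ b : famB f, ∑ b' : famB f, famT f x b j * K b.1 b'.1 * famT f x b' j =
      famT f x b j * ∑ q, x q j * K b.1 (f q) := fun b => by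
    rw [← sum_famT f x j fun w => K b.1 w, Finset.mul_sum]
    exact Finset.sum_congr rfl fun b' _ => by ring
  rw [Finset.sum_congr rfl fun b _ => h1 b,
    sum_famT f x j fun w => ∑ q, x q j * K w (f q)]
  refine Finset.sum_congr rfl fun p _ => ?_
  rw [Finset.mul_sum]
  exact Finset.sum_congr rfl fun q _ => by ring

end fam

section win
variable {k : ℕ} {T : Type*} {π : T → ℝ} {s ρ E : ℝ} {z : ℕ → ℂ} {cl : Conf d (Fin d × T) → ℂ}
  (hz : ∀ l, 0 < (z l).im) (hzE : Tendsto z atTop (𝓝 (E : ℂ)))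
include hz hzE

/-- the exponent of `LimProc.Z_gauss` -/
theorem Qf_win' {ζ : Conf d (Fin d × T)} (h : Good π s z cl ζ) (w : List ℕ)
    (hw : B2.OutW d w) (α : Fin k → ℝ) (x : B2.St d → Fin k → ℝ) :
    Qf (famT (win w hw) (winC α x)) (fun b b' => Phi π s ρ z b.1 b'.1 ζ) =
      ∑ l, (α l ^ 2 * (B2.Gd Words955.cross (rotn 1) d s E (om0 π) cl
          (B2.wd Words955.cross (rotn 1) w (Words955.cross ζ))).im
        + 2 * ∑ a, α l * x a l * (B2.Go Words955.cross (rotn 1) d s E (om0 π) cl w ζ a).im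
        + ∑ a, ∑ b, x a l * x b l *
          (B2.Gs Words955.cross (rotn 1) d s E (om0 π) cl ζ a b).im) / (Real.pi * ρ) := by
  rw [Qf_fam' (win w hw) (winC α x) fun x y => Phi π s ρ z x y ζ]
  refine Finset.sum_congr rfl fun j _ => ?_
  have so : ∀ f : Option (B2.St d) → ℝ, ∑ p, f p = f none + ∑ a, f (some a) :=
    fun f => Fintype.sum_option f
  simp only [so]
  have e1 : Phi π s ρ z (win w hw none) (win w hw none) ζ = _ := h.Phi_far hz hzE w hw
  have e2 : ∀ a, Phi π s ρ z (win w hw none) (win w hw (some a)) ζ = _ :=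
    fun a => h.Phi_far_star hz hzE w hw a
  have e3 : ∀ a, Phi π s ρ z (win w hw (some a)) (win w hw none) ζ = _ :=
    fun a => (Phi_symm hz _ _ _).trans (h.Phi_far_star hz hzE w hw a)
  have e4 : ∀ a b, Phi π s ρ z (win w hw (some a)) (win w hw (some b)) ζ = _ :=
    fun a b => h.Phi_star hz hzE a b
  simp only [e1, e2, e3, e4, winC]
  rw [Finset.sum_add_distrib]
  have h5 : ∑ a, α j * ((B2.Go Words955.cross (rotn 1) d s E (om0 π) cl w ζ a).im /
      (Real.pi * ρ)) * x a j = (∑ a, α j * x a j *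
        (B2.Go Words955.cross (rotn 1) d s E (om0 π) cl w ζ a).im) / (Real.pi * ρ) := by
    rw [Finset.sum_div]; exact Finset.sum_congr rfl fun a _ => by ring
  have h6 : ∑ a, x a j * ((B2.Go Words955.cross (rotn 1) d s E (om0 π) cl w ζ a).im /
      (Real.pi * ρ)) * α j = (∑ a, α j * x a j *
        (B2.Go Words955.cross (rotn 1) d s E (om0 π) cl w ζ a).im) / (Real.pi * ρ) := by
    rw [Finset.sum_div]; exact Finset.sum_congr rfl fun a _ => by ring
  have h7 : ∑ a, ∑ b, x a j * ((B2.Gs Words955.cross (rotn 1) d s E (om0 π) cl ζ a b).im /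
      (Real.pi * ρ)) * x b j = (∑ a, ∑ b, x a j * x b j *
        (B2.Gs Words955.cross (rotn 1) d s E (om0 π) cl ζ a b).im) / (Real.pi * ρ) := by
    rw [Finset.sum_div]
    refine Finset.sum_congr rfl fun a _ => ?_
    rw [Finset.sum_div]; exact Finset.sum_congr rfl fun b _ => by ring
  rw [h5, h6, h7]
  ring

omit hz hzE in
theorem PhiL_psd {z : ℂ} (hz : 0 < z.im) (hρ : 0 < ρ) (ζ : Conf d (Fin d × T))
    (B : Finset (TW d)) (v : B → ℝ) : 0 ≤ ∑ b, ∑ b', v b * PhiL π s ρ z b.1 b'.1 ζ * v b' := by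
  classical
  set a : TW d → ℝ := fun w => if h : w ∈ B then v ⟨w, h⟩ else 0 with ha
  have h2 := treeG_im_nonneg s hz (omOf π ζ) B a
  have hav : ∀ b : B, a b.1 = v b := fun b => by simp [ha]
  have h3 : ∑ b : B, ∑ b' : B, v b * PhiL π s ρ z b.1 b'.1 ζ * v b' =
      (Real.pi * ρ)⁻¹ * ∑ x ∈ B, ∑ y ∈ B, a x * a y * (treeG s z (omOf π ζ) x y).im := by
    rw [← Finset.sum_coe_sort B, Finset.mul_sum]
    refine Finset.sum_congr rfl fun b _ => ?_
    rw [← Finset.sum_coe_sort B, Finset.mul_sum]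
    refine Finset.sum_congr rfl fun b' _ => ?_
    rw [hav, hav, PhiL]
    ring
  rw [h3]
  have := Real.pi_pos
  exact mul_nonneg (by positivity) h2

theorem Phi_psd (hρ : 0 < ρ) {ζ : Conf d (Fin d × T)} (h : Good π s z cl ζ)
    (B : Finset (TW d)) (v : B → ℝ) : 0 ≤ ∑ b, ∑ b', v b * Phi π s ρ z b.1 b'.1 ζ * v b' := by
  refine ge_of_tendsto' (x := atTop) (f := fun l => ∑ b : B, ∑ b' : B,
    v b * PhiL π s ρ (z l) b.1 b'.1 ζ * v b') ?_ fun l => PhiL_psd (hz l) hρ ζ B v
  refine tendsto_finsetSum _ fun b _ => tendsto_finsetSum _ fun b' _ => ?_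
  exact (tendsto_const_nhds.mul (h.tendsto_Phi hz hzE b.1 b'.1)).mul tendsto_const_nhds

/-- the eigenvector equation for the limit kernel -/
theorem Phi_eqn {ζ : Conf d (Fin d × T)} (h : Good π s z cl ζ) (y : TW d) :
    ∑ i : Fin d, Phi π s ρ z (TW.single i) y ζ =
      (E - s * clip (om0 π ζ)) * Phi π s ρ z TW.nil y ζ := by
  classical
  obtain ⟨L, hL⟩ := h.lim_pair hz hzE TW.nil y
  have h0 := (Phi_eq_of (ρ := ρ) hz hL).2
  have hi : ∀ i : Fin d, ∃ L : ℂ, Tendsto (fun l => treeG s (z l) (omOf π ζ) (TW.single i) y)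
      atTop (𝓝 L) := fun i => h.lim_pair hz hzE _ _
  choose Li hLi using hi
  have h1 : ∀ i, Phi π s ρ z (TW.single i) y ζ = (Li i).im / (Real.pi * ρ) := fun i =>
    (Phi_eq_of hz (hLi i)).2
  simp only [h1]
  rw [h0, ← Finset.sum_div]
  have h2 : ∀ l, ∑ i : Fin d, treeG s (z l) (omOf π ζ) (TW.single i) y +
      ((s * clip (om0 π ζ) : ℝ) - z l) * treeG s (z l) (omOf π ζ) TW.nil y =
      if TW.nil = y then 1 else 0 := fun l => by
    have h3 := (tOp s (omOf π ζ)).G_eqn (hz l).ne' TW.nil y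
    rw [tOp_nb, nbT_nil, Finset.sum_image (fun i _ j _ hij => single_injective hij)] at h3
    rw [← h3]
    rfl
  have h4 : Tendsto (fun l => ∑ i : Fin d, treeG s (z l) (omOf π ζ) (TW.single i) y +
      ((s * clip (om0 π ζ) : ℝ) - z l) * treeG s (z l) (omOf π ζ) TW.nil y) atTop
      (𝓝 (∑ i, Li i + ((s * clip (om0 π ζ) : ℝ) - (E : ℂ)) * L)) :=
    (tendsto_finsetSum _ fun i _ => hLi i).add ((tendsto_const_nhds.sub hzE).mul hL)
  simp only [h2] at h4
  have h5 := tendsto_nhds_unique h4 tendsto_const_nhds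
  have h6 := congrArg Complex.im h5
  have h7 : ((if TW.nil = y then 1 else 0 : ℂ)).im = 0 := by split_ifs <;> simp
  rw [h7, Complex.add_im, Complex.im_sum] at h6
  have h8 : (((s * clip (om0 π ζ) : ℝ) - (E : ℂ)) * L).im = (s * clip (om0 π ζ) - E) * L.im := by
    rw [← Complex.ofReal_sub, Complex.im_ofReal_mul]
  rw [h8] at h6
  have h9 : ∑ i, (Li i).im = (E - s * clip (om0 π ζ)) * L.im := by linarith
  rw [h9]; ring

end win


/-! ### The fields -/

section fields
variable {k : ℕ} {P : Measure (Conf d (S1 d k))} {Q : Measure (Conf d (S2 d k))}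
  {s ρ E : ℝ} {z : ℕ → ℂ} {cL : (TW d → ℝ) → ℂ}

/-- clipped potential read off vertex data `(ω, ...)` -/
def cp {T : Type*} (t : ℝ × T) : ℝ := clip t.1

/-- the limit cavity field as a function of the configuration -/
def cavC (cL : (TW d → ℝ) → ℂ) {T : Type*} (ζ : Conf d (Fin d × (ℝ × T))) : ℂ := cL (omOf cp ζ)

lemma clip_clip (t : ℝ) : clip (clip t) = clip t := clip_eq (abs_clip_le t)

/-- the tree operator only depends on the clipped potential -/
lemma tOp_congr (s : ℝ) {om om' : TW d → ℝ} (h : ∀ x, clip (om x) = clip (om' x)) :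
    tOp s om = tOp s om' := by
  unfold tOp
  congr 1
  funext x
  rw [h]

lemma treeG_congr (s : ℝ) (z : ℂ) {om om' : TW d → ℝ} (h : ∀ x, clip (om x) = clip (om' x))
    (x y : TW d) : treeG s z om x y = treeG s z om' x y := by
  unfold treeG
  rw [tOp_congr s h]

lemma cav_congr (s : ℝ) (z : ℂ) {om om' : TW d → ℝ} (h : ∀ x, clip (om x) = clip (om' x)) :
    cav s z om = cav s z om' := by
  unfold cav
  rw [tOp_congr s h]

lemma clip_omOf {T : Type*} (ζ : Conf d (Fin d × (ℝ × T))) (x : TW d) :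
    clip (omOf cp ζ x) = clip (omOf Prod.fst ζ x) := clip_clip _

lemma PhiL_cp {T : Type*} (z : ℂ) (x y : TW d) (ζ : Conf d (Fin d × (ℝ × T))) :
    PhiL cp s ρ z x y ζ = PhiL Prod.fst s ρ z x y ζ := by
  unfold PhiL
  rw [treeG_congr s z (clip_omOf ζ)]

lemma Phi_cp {T : Type*} (z : ℕ → ℂ) (x y : TW d) (ζ : Conf d (Fin d × (ℝ × T))) :
    Phi cp s ρ z x y ζ = Phi Prod.fst s ρ z x y ζ := by
  unfold Phi
  simp only [PhiL_cp]

/-- good configurations for the clipped potential -/
theorem good_cp {T : Type*} {ζ : Conf d (Fin d × (ℝ × T))} {cl : Conf d (Fin d × (ℝ × T)) → ℂ}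
    (h : Good Prod.fst s z cl ζ) : Good cp s z cl ζ where
  lim u := (h.lim u).congr fun l => (cav_congr s (z l) (clip_omOf _)).symm
  im u := h.im u
  om u := abs_clip_le _

theorem good_of {T : Type*} {ζ : Conf d (Fin d × (ℝ × T))}
    (hl : ∀ u : List (Fin d), Tendsto (fun l => cav s (z l) (omOf Prod.fst (reroot u ζ))) atTop
      (𝓝 (cL (omOf cp (reroot u ζ)))))
    (him : ∀ u : List (Fin d), 0 < (cL (omOf cp (reroot u ζ))).im) :
    Good cp s z (cavC cL) ζ where
  lim u := (hl u).congr fun l => (cav_congr s (z l) (clip_omOf _)).symm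
  im u := him u
  om u := abs_clip_le _

lemma cross_pr (ζ : Conf d (S2 d k)) : cross (pr ζ) = pr (cross ζ) := rfl

lemma rotn_pr (i : Fin d) (ζ : Conf d (S2 d k)) : rotn i (pr ζ) = pr (rotn i ζ) := by
  funext w
  by_cases h : w = TW.nil
  · subst h; rfl
  · simp only [rotn, pr, h, if_false]

lemma reroot_pr (u : List (Fin d)) (ζ : Conf d (S2 d k)) : reroot u (pr ζ) = pr (reroot u ζ) := by
  induction u generalizing ζ with
  | nil => rfl
  | cons i u ih => rw [reroot, step, rotn_pr, cross_pr, ih]; rfl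

theorem good_pr {ζ : Conf d (S2 d k)} :
    Good cp s z (cavC cL) (pr ζ) ↔ Good cp s z (cavC cL) ζ := by
  constructor
  · intro h
    refine ⟨fun u => ?_, fun u => ?_, fun u => ?_⟩
    · have := h.lim u
      rw [reroot_pr] at this; exact this
    · have := h.im u
      rw [reroot_pr] at this; exact this
    · have := h.om u
      rw [reroot_pr] at this; exact this
  · intro h
    refine ⟨fun u => ?_, fun u => ?_, fun u => ?_⟩
    · have := h.lim u
      rw [reroot_pr]; exact this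
    · have := h.im u
      rw [reroot_pr]; exact this
    · have := h.om u
      rw [reroot_pr]; exact this

theorem good_Q (hmarg : Q.map pr = P) (h : ∀ᵐ ζ ∂P, Good cp s z (cavC cL) ζ) :
    ∀ᵐ ζ ∂Q, Good cp s z (cavC cL) ζ := by
  rw [← hmarg] at h
  exact (ae_of_ae_map Q0_955.measurable_pr.aemeasurable h).mono fun ζ hζ => good_pr.1 hζ

/-- **the field `Z_gauss`** -/
theorem Z_gauss (hz : ∀ l, 0 < (z l).im) (hzE : Tendsto z atTop (𝓝 (E : ℂ)))
    (hN : Q0_955.NLaw P (Phi Prod.fst s ρ z) Q) (hC : Q0_955.IsCov P (Phi Prod.fst s ρ z))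
    (hg : ∀ᵐ ζ ∂P, Good cp s z (cavC cL) ζ)
    (w : List ℕ) (hw : B2.OutW d w) (α : Fin k → ℝ) (x : B2.St d → Fin k → ℝ) :
    Q[fun h => Complex.exp (Complex.I *
        ((∑ l, (α l * (B2.wd cross (rotn 1) w (cross h) TW.nil).2.2.2 l +
          ∑ a, x a l * (B2.sv cross (rotn 1) d h a TW.nil).2.2.2 l) : ℝ) : ℂ)) |
        MeasurableSpace.comap pr inferInstance]
      =ᵐ[Q] fun h => Complex.exp (((-(1 / 2) * ∑ l,
        (α l ^ 2 * (B2.Gd cross (rotn 1) d s E (fun z => clip (z TW.nil).2.1)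
            (fun z => cL (omOf (fun t => clip t.1) z))
            (B2.wd cross (rotn 1) w (cross h))).im
          + 2 * ∑ a, α l * x a l * (B2.Go cross (rotn 1) d s E (fun z => clip (z TW.nil).2.1)
            (fun z => cL (omOf (fun t => clip t.1) z)) w h a).im
          + ∑ a, ∑ b, x a l * x b l *
            (B2.Gs cross (rotn 1) d s E (fun z => clip (z TW.nil).2.1)
            (fun z => cL (omOf (fun t => clip t.1) z)) h a b).im) /
          (Real.pi * ρ) : ℝ) : ℂ)) := by
  have h1 := hN.condExp hC (famB (win w hw)) (famT (win w hw) (winC α x))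
  have e1 : (fun ζ : Conf d (S2 d k) => Complex.exp (Complex.I *
      ((zph (famB (win w hw)) (famT (win w hw) (winC α x)) ζ : ℝ) : ℂ))) =
      fun h => Complex.exp (Complex.I *
        ((∑ l, (α l * (B2.wd cross (rotn 1) w (cross h) TW.nil).2.2.2 l +
          ∑ a, x a l * (B2.sv cross (rotn 1) d h a TW.nil).2.2.2 l) : ℝ) : ℂ)) := by
    funext ζ
    rw [zph_win]
  rw [e1] at h1
  refine h1.trans ?_
  filter_upwards [good_Q hN.marg hg] with ζ hζ
  have h2 := Qf_win' (ρ := ρ) hz hzE hζ w hw α x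
  have h3 : Qf (famT (win w hw) (winC α x))
      (gam (Phi Prod.fst s ρ z) (famB (win w hw)) (pr ζ)) =
      Qf (famT (win w hw) (winC α x)) (fun b b' => Phi cp s ρ z b.1 b'.1 ζ) := by
    congr 1
    funext b b'
    exact (Phi_cp z b.1 b'.1 (pr ζ)).symm
  rw [cch, h3, h2]
  congr 1
  have h4 : ∀ r : ℝ, (-((r : ℝ) : ℂ)) / 2 = (((-(1 / 2) * r : ℝ)) : ℂ) := fun r => by
    push_cast; ring
  exact h4 _

lemma ws_none : (ws (none : B2.St d) : TW d) = TW.nil := rfl

lemma ws_some (i : Fin d) : (ws (some i : B2.St d) : TW d) = TW.single i := rfl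

/-- the coefficients of the eigenvector equation -/
def eqC (s E : ℝ) (l : Fin k) (ζ : Conf d (S1 d k)) : B2.St d → Fin k → ℝ
  | none => fun j => if j = l then -(E - s * clip (ζ TW.nil).2.1) else 0
  | some _ => fun j => if j = l then 1 else 0

lemma measurable_eqC (s E : ℝ) (l : Fin k) (a : B2.St d) (j : Fin k) :
    Measurable fun ζ : Conf d (S1 d k) => eqC s E l ζ a j := by
  cases a with
  | none =>
    simp only [eqC]
    refine Measurable.ite (MeasurableSet.const _) ?_ measurable_const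
    have h1 : Measurable fun ζ : Conf d (S1 d k) => clip (ζ TW.nil).2.1 :=
      continuous_clip.measurable.comp (by fun_prop)
    exact ((h1.const_mul s).const_sub E).neg
  | some i =>
    simp only [eqC]
    exact measurable_const

lemma measurable_famT (s E : ℝ) (l : Fin k) :
    Measurable fun ζ : Conf d (S1 d k) => famT (ws : B2.St d → TW d) (eqC s E l ζ) := by
  classical
  refine measurable_pi_iff.2 fun b => measurable_pi_iff.2 fun j => ?_
  unfold famT
  refine Finset.measurable_sum _ fun p _ => ?_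
  split_ifs
  · exact measurable_eqC s E l p j
  · exact measurable_const

/-- **the field `Z_eq`** -/
theorem Z_eq (hz : ∀ l, 0 < (z l).im) (hzE : Tendsto z atTop (𝓝 (E : ℂ)))
    (hN : Q0_955.NLaw P (Phi Prod.fst s ρ z) Q) (hC : Q0_955.IsCov P (Phi Prod.fst s ρ z))
    (hg : ∀ᵐ ζ ∂P, Good cp s z (cavC cL) ζ) :
    ∀ᵐ h ∂Q, ∀ l, ∑ i ∈ Finset.range d, (B2.mv cross (rotn 1) i h TW.nil).2.2.2 l =
      (E - s * clip (h TW.nil).2.1) * (h TW.nil).2.2.2 l := by
  rw [ae_all_iff]
  intro l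
  have h0 : ∀ᵐ ζ ∂P, Qf (famT (ws : B2.St d → TW d) (eqC s E l ζ))
      (gam (Phi Prod.fst s ρ z) (famB ws) ζ) = 0 := by
    filter_upwards [hg] with ζ hζ
    rw [Qf_fam]
    refine Finset.sum_eq_zero fun j _ => Finset.sum_eq_zero fun p _ => ?_
    have h1 := Phi_eqn (ρ := ρ) hz hzE hζ (ws p)
    simp only [Phi_cp] at h1
    by_cases hj : j = l
    · subst hj
      have h2 : ∑ q, eqC s E j ζ p j * Phi Prod.fst s ρ z (ws p) (ws q) ζ * eqC s E j ζ q j =
          eqC s E j ζ p j * ∑ q, Phi Prod.fst s ρ z (ws q) (ws p) ζ * eqC s E j ζ q j := by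
        rw [Finset.mul_sum]
        refine Finset.sum_congr rfl fun q _ => ?_
        rw [Phi_symm hz (ws p) (ws q)]
        ring
      rw [h2]
      refine mul_eq_zero_of_right _ ?_
      rw [Fintype.sum_option]
      simp only [eqC, if_true, mul_one, ws_none, ws_some]
      rw [h1]
      change Phi Prod.fst s ρ z TW.nil (ws p) ζ * -(E - s * clip (ζ TW.nil).2.1) +
        (E - s * clip (clip (ζ TW.nil).2.1)) * Phi Prod.fst s ρ z TW.nil (ws p) ζ = 0
      rw [clip_clip]
      ring
    · refine Finset.sum_eq_zero fun q _ => ?_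
      have h3 : eqC s E l ζ p j = 0 := by
        cases p <;> simp [eqC, hj]
      rw [h3]; ring
  have h1 := hN.zph_eq_zero hC (famB (ws : B2.St d → TW d)) (measurable_famT s E l) h0
  filter_upwards [h1] with h hh
  rw [zph_fam, Finset.sum_eq_single l] at hh
  · rw [Fintype.sum_option] at hh
    simp only [eqC, if_true, one_mul, ws_none, ws_some] at hh
    have h2 := sum_mv (fun ξ : Conf d (S2 d k) => (ξ TW.nil).2.2.2 l) h
    rw [h2]
    have h3 : ∀ i : Fin d, (step i h) TW.nil = h (TW.single i) := fun i =>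
      reroot_nil (TW.single i) h
    simp only [h3]
    have h4 : (pr h TW.nil).2.1 = (h TW.nil).2.1 := rfl
    rw [h4] at hh
    linarith
  · intro j _ hj
    refine Finset.sum_eq_zero fun p _ => ?_
    have h3 : eqC s E l (pr h) p j = 0 := by
      cases p <;> simp [eqC, hj]
    rw [h3, zero_mul]
  · intro hl; exact absurd (Finset.mem_univ _) hl

end fields

end Crest.Agent.R166.ZG879
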