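import Crest.Agent.R166.Hinge_980
import Crest.Agent.R166.PhiLimF_85
import Crest.Agent.R166.Q03_955
import Crest.Agent.R166.MkvAll_47
import Crest.Agent.R166.ZG_879
import Crest.Agent.R166.LimProcX_974
import Crest.Agent.R166.Events_974
import Crest.Agent.R166.Fin42_385
import Crest.Agent.R166.MartFin_663

/-!
# Row 166 (helper980), F6: the limit process and Theorem B
-/

set_option autoImplicit false
set_option linter.unusedSectionVars false

noncomputable section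

namespace Crest.Agent.R166.ThmBFin980

open MeasureTheory ProbabilityTheory Filter Topology
open Crest.ProbabilityR.RandomMatrix Crest.Agent.R166 Crest.Agent.R166.Words955
open Crest.Agent.R166.TreeG879 (clip omOf)
open Crest.Agent.R166.PhiLim85 (cavL CavSpec)
open Crest.Agent.R166.NoiseLim849 (S2 pr)
open Crest.Agent.R166.Seq980 (Seq)
open Crest.Agent.R166.LimProps974 (UIF)
open Crest.Agent.R166.LimProcX974 (Env FX om XX ZZ)
open Crest.Agent.R166.EnvLaw289 (envLaw)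
open Crest.Agent.R166.Erg424 (envP measurable_envP)
open Crest.Agent.R166.TreeDefs350 (unif)

variable {d k : ℕ} [NeZero d]

/-- limit cavity field on the noisy configurations -/
def cavQ (s E : ℝ) (η : ℕ → ℝ) (z : Conf d (S2 d k)) : ℂ :=
  cavL s E η (omOf (fun t => clip t.1) z)

theorem map_envP {Q : Measure (Conf d (S2 d k))} {S : Seq d k} (hQ : Q.map pr = S.P)
    (henv : S.P.map (envP (X := Fin k → ℝ)) = envLaw d unif) :
    Q.map (envP (X := (Fin k → ℝ) × (Fin k → ℝ))) = envLaw d unif := by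
  have h5 : (envP : Conf d (S2 d k) → Conf d (Fin d × ℝ)) =
      (envP : Conf d (NoiseLim849.S1 d k) → Conf d (Fin d × ℝ)) ∘ pr := rfl
  rw [h5, ← Measure.map_map measurable_envP LimProcX974.measurable_pr, hQ, henv]

/-- **the limit process** -/
theorem limProc {S : Seq d k} {s E K' ρ : ℝ}
    (hd : 3 ≤ d) (hρ : 0 < ρ) (hX : SpecB1.Extra S s E K') (hui : UIF S)
    (hmo : LimProps974.MeanOrth S)
    (henv : S.P.map (envP (X := Fin k → ℝ)) = envLaw d unif) {η : ℕ → ℝ}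
    (hC : CavSpec d s E ρ η) {Q : ℕ → Measure (Conf d (S2 d k))} {Q0 : Measure (Conf d (S2 d k))}
    (hS : Q0_955.LawSeq S s E ρ η Q Q0) :
    B2.LimProc (Env d k) (FX d k) d k s E 1 ρ Q0 cross (rotn 1) om (cavQ s E η) XX ZZ := by
  have := S.prob
  have hp0 := hS.prob0
  have hQ : Q0.map pr = S.P := hS.nlaw0.marg
  have hlaw := map_envP hQ henv
  have hz : ∀ l, 0 < (ze E (η l)).im := fun l => by rw [NoiseLim849.ze_im]; exact hC.pos l
  have hzE : Tendsto (fun l => ze E (η l)) atTop (𝓝 (E : ℂ)) := Q0Fin47.tendsto_ze hC.lim0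
  have hgP : ∀ᵐ ξ ∂S.P, PhiAlg879.Good Prod.fst s (fun l => ze E (η l))
      (fun z => cavL s E η (omOf Prod.fst z)) ξ :=
    PhiLim85.good_fst henv (LimProps974.inv_P S) hC
  have hgP' : ∀ᵐ ξ ∂S.P, PhiAlg879.Good ZG879.cp s (fun l => ze E (η l))
      (ZG879.cavC (cavL s E η)) ξ :=
    PhiLim85.good_clip henv (LimProps974.inv_P S) hC
  refine
    { hd := hd
      ht := one_pos
      hρ := hρ
      prob := hp0
      pp_mp := LimProcX974.pp_mp hS.inv0
      rr_mp := LimProcX974.rr_mp hS.inv0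
      pp_pp := cross_cross
      rr_d := LimProcX974.rr_d
      Env_le := LimProcX974.Env_le_FX
      FX_le := LimProcX974.FX_le
      pp_Env := LimProcX974.pp_Env
      rr_Env := LimProcX974.rr_Env
      pp_FX := LimProcX974.pp_FX
      rr_FX := LimProcX974.rr_FX
      om_meas := LimProcX974.om_meas
      om_rr := LimProcX974.om_rr
      cav_meas := PhiLim85.cavF_meas s E hC.pos
      cav_im := PhiLim85.cavF_im hlaw hC
      cav_rec := PhiLim85.cavF_rec hlaw hC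
      cav_lim := PhiLim85.cavF_lim hlaw hC
      X_meas := LimProcX974.X_meas
      X_rr := LimProcX974.X_rr
      X_L2 := LimProcX974.X_L2 hQ hui
      X_eq := LimProcX974.X_eq hQ s E (Mean974.near_of_frame S (Eventually.of_forall hX.frame))
      X_cov := LimProcX974.X_cov hQ hui
        (Mean974.orth_of_frame S (Eventually.of_forall hX.frame))
      X_mean := LimProcX974.X_mean hQ hui hmo
      Z_meas := LimProcX974.Z_meas
      Z_rr := LimProcX974.Z_rr
      Z_eq := ZG879.Z_eq hz hzE hS.nlaw0 hS.cov0 hgP'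
      Z_gauss := ZG879.Z_gauss hz hzE hS.nlaw0 hS.cov0 hgP'
      G_int := (PhiLim85.GF hlaw hC).1
      G_rho := (PhiLim85.GF hlaw hC).2
      markov := MkvAll47.markov hX hρ one_pos hC.pos hC.lim0 hgP hS
      erg := LimProcX974.erg (by omega) hS.inv0 hQ henv }

/-- F5 (helper487): the violation contradicts `EdgeGauss` -/
def F5 : Prop :=
  ∀ {d k : ℕ} [NeZero d] (S : Seq d k) {s E K' ρ : ℝ}, SpecB1.Extra S s E K' →
    ∀ (τ : Fin k → Fin 2 → ℝ) (χ : Matrix (Fin 2) (Fin 2) ℂ → ℝ), Continuous χ →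
    HasCompactSupport χ → ∀ {ε : ℝ}, 0 < ε → ∀ (ζ : ℕ → ℝ), (∀ i, 0 < ζ i) →
    Tendsto ζ atTop (𝓝 0) →
    (∀ i, ∀ᶠ j in atTop, ∀ x ∈ S.U j,
      ε ≤ ‖Hinge980.viol s E ρ (ζ i) τ χ (graphOf x.1) x.2 (S.F j x)‖) →
    ∀ (cL : (TW d → ℝ) → ℂ), Measurable cL →
    (∀ᵐ ξ ∂S.P, Tendsto (fun i => TreeG879.cav s (ze E (ζ i)) (omOf Prod.fst ξ)) atTop
      (𝓝 (cL (omOf Prod.fst ξ)))) →
    (∀ᵐ ξ ∂S.P, Tendsto (fun i => TreeG879.cav s (ze E (ζ i)) (omOf Prod.fst (cross ξ))) atTop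
      (𝓝 (cL (omOf Prod.fst (cross ξ))))) →
    (∀ᵐ ξ ∂S.P, 0 < (cL (omOf Prod.fst ξ)).im) →
    (∀ᵐ ξ ∂S.P, 0 < (cL (omOf Prod.fst (cross ξ))).im) →
    ∀ (Q : Measure (Conf d (S2 d k))), Q.map pr = S.P →
    B2.EdgeGauss (Env d k) k ρ Q cross (fun z => cL (omOf (fun t => clip t.1) z)) XX → False

/-- **Theorem B** -/
theorem thmB (h5 : F5) {s E ρ : ℝ}
    (hd : 3 ≤ d) (hs : 0 ≤ s) (hE : E ≠ d) (hρ : 0 < ρ) (hFix : ImFix d s E ρ)
    (hLoc : LocLim d s E) (hNd : NonDeg d s E) (hNo : NoEsc d s E) : ThmB d s E ρ := by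
  by_contra hT
  obtain ⟨k, K', τ, χ, ε, b, Fs, hχ, hχs, hε, hb, -, H⟩ := Hinge980.exists_counter hLoc hT
  obtain ⟨η, hC⟩ := PhiLim85.cav_seq hs hLoc hNd hFix
  obtain ⟨G, hG1, hG2⟩ := Events974.exists_events hd hs hE hFix hNo K' hb
  obtain ⟨S, m, φ, hm, hφ, hF, hFs, hUG, hviol⟩ := H η hC.pos hC.lim0 (fun _ i n => G i n)
    (fun _ i => hG1 i)
  obtain ⟨hX, hui, hmo, henv⟩ := hG2 k S hF fun i =>
    (eventually_ge_atTop i).mono fun j hj => hUG j i hj
  have hprob := S.prob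
  have hinv := LimProps974.inv_P S
  obtain ⟨Q, Q0, hS⟩ := Q0_955.law_seq S hX henv hρ hC.pos (PhiLim85.ae_lim_treeG henv hinv hC)
  have hQ : Q0.map pr = S.P := hS.nlaw0.marg
  have hLP := limProc hd hρ hX hui hmo henv hC hS
  have hEG := Fin42.stmt_42_6 _ _ _ _ _ _ _ _ _ _ _ _ _ _ _ hLP
    (Mart663.stmt_42_4' _ _ _ _ _ _ _ _ _ _ _ _ _ _ _ hLP)
  have hmp : MeasurePreserving (cross : Conf d (NoiseLim849.S1 d k) → _) S.P S.P :=
    ⟨measurable_cross, hinv.1⟩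
  have hl : ∀ᵐ ξ ∂S.P, Tendsto (fun i => TreeG879.cav s (ze E (η i)) (omOf Prod.fst ξ)) atTop
      (𝓝 (cavL s E η (omOf Prod.fst ξ))) := PhiLim85.ae_env henv hC.lim
  have hi : ∀ᵐ ξ ∂S.P, 0 < (cavL s E η (omOf Prod.fst ξ)).im := PhiLim85.ae_env henv hC.im
  have hl' : ∀ᵐ ξ ∂S.P, Tendsto (fun i => TreeG879.cav s (ze E (η (φ i))) (omOf Prod.fst ξ)) atTop
      (𝓝 (cavL s E η (omOf Prod.fst ξ))) :=
    hl.mono fun ξ h => h.comp hφ.tendsto_atTop
  exact h5 S hX τ χ hχ hχs hε (fun i => η (φ i)) (fun i => hC.pos _)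
    (hC.lim0.comp hφ.tendsto_atTop) hviol (cavL s E η) (PhiLim85.measurable_cavL s E hC.pos)
    hl' (hmp.quasiMeasurePreserving.ae hl') hi (hmp.quasiMeasurePreserving.ae hi) Q0 hQ hEG

end Crest.Agent.R166.ThmBFin980
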