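import Crest.Agent.R166.Audit_383
import Crest.Agent.R166.ThmBFin_980

/-!
Row 166: audit of the composition (helper383), part 2: `StmtB0`, `StmtBs` from 980's `thmB`;
S0251 from `F5`; S0252 from `F5` and `F3From`.
-/

set_option autoImplicit false

namespace Crest.Agent.R166.Audit383

open MeasureTheory ProbabilityTheory Crest.ProbabilityR.RandomMatrix Crest.Agent.R166
open Crest.Agent.R166.Asm423 Crest.Agent.R166.Master423

theorem ne_of_sq_lt {d : ℕ} {E : ℝ} (hE : E ^ 2 < 4 * ((d : ℝ) - 1)) : E ≠ d := by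
  rintro rfl
  nlinarith [sq_nonneg ((d : ℝ) - 2)]

theorem stmtB0 (h5 : ThmBFin980.F5) : StmtB0 := by
  intro d E hd hE _ hFix hLoc hNd hNo _
  have : NeZero d := ⟨by omega⟩
  exact ThmBFin980.thmB h5 hd le_rfl (ne_of_sq_lt hE) (kestenMcKay_pos hd hE) hFix hLoc hNd hNo

theorem stmtBs (h5 : ThmBFin980.F5) : StmtBs := by
  intro d hd κ hκ
  have : NeZero d := ⟨by omega⟩
  refine ⟨1, one_pos, fun s hs _ E ρ hE hρ _ _ hFix hLoc hNd hNo => ?_⟩
  have hd1 : (0 : ℝ) ≤ (d : ℝ) - 1 := by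
    have : (3 : ℝ) ≤ d := by exact_mod_cast hd
    linarith
  have h1 : |E| < 2 * Real.sqrt ((d : ℝ) - 1) := by linarith
  have h2 : E ^ 2 < 4 * ((d : ℝ) - 1) := by
    have h3 := Real.sq_sqrt hd1
    have h4 : |E| ^ 2 < (2 * Real.sqrt ((d : ℝ) - 1)) ^ 2 :=
      pow_lt_pow_left₀ h1 (abs_nonneg E) two_ne_zero
    rw [sq_abs, mul_pow, h3] at h4
    linarith
  exact ThmBFin980.thmB h5 hd hs.le (ne_of_sq_lt h2) hρ hFix hLoc hNd hNo

/-- **S0251 from `F5`**, in the form of the template -/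
theorem s0251_f5 (h5 : ThmBFin980.F5)
    (d : ℕ) (hd : 3 ≤ d) (E : ℝ) (hE : E ^ 2 < 4 * ((d : ℝ) - 1))
    (h : ℝ → ℝ) (hcont : Continuous h) (hsupp : HasCompactSupport h) (hpos : ∀ t, 0 ≤ h t) :
    ∀ ε : ℝ, 0 < ε → ∃ N : ℕ, ∀ n : ℕ, N ≤ n → (regularGraphs n d).Nonempty →
      |regularAverage n d (fun G => adjLaplaceWeight G
          (unfoldAt h (n * kestenMcKayDensity d E) E)) -
          ∫ g, goeLaplaceWeight g (unfoldAt h (n / Real.pi) 0) ∂goeDisorderLaw n| < ε :=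
  s0251_from (stmtB0 h5) d hd E hE h hcont hsupp hpos

/-- **S0252 from `F5` and `F3From`**, in the form of the template -/
theorem s0252_f5 (h5 : ThmBFin980.F5) (h3 : ∀ d : ℕ, 3 ≤ d → SpecF3.F3From d)
    (d : ℕ) (hd : 3 ≤ d) (κ : ℝ) (hκ : 0 < κ) (hκ' : κ < 2 * Real.sqrt ((d : ℝ) - 1)) :
    ∃ s₀ : ℝ, 0 < s₀ ∧ ∀ s : ℝ, 0 < s → s < s₀ →
      ∃ ν : MeasureTheory.Measure ℝ, IsTreeDOS d s ν ∧
        ∃ (ρ : ℝ → ℝ) (U : Set ℝ), IsOpen U ∧
          Set.Icc (-(2 * Real.sqrt ((d : ℝ) - 1)) + κ) (2 * Real.sqrt ((d : ℝ) - 1) - κ) ⊆ U ∧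
          ContinuousOn ρ U ∧ (∀ t ∈ U, 0 ≤ ρ t) ∧
          ν.restrict U = (MeasureTheory.volume.restrict U).withDensity
            (fun t => ENNReal.ofReal (ρ t)) ∧
          (∀ E ∈ Set.Icc (-(2 * Real.sqrt ((d : ℝ) - 1)) + κ)
            (2 * Real.sqrt ((d : ℝ) - 1) - κ), 0 < ρ E) ∧
          ∀ E ∈ Set.Icc (-(2 * Real.sqrt ((d : ℝ) - 1)) + κ) (2 * Real.sqrt ((d : ℝ) - 1) - κ),
            ∀ h : ℝ → ℝ, Continuous h → HasCompactSupport h → (∀ t, 0 ≤ h t) →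
              ∀ ε : ℝ, 0 < ε → ∃ N : ℕ, ∀ n : ℕ, N ≤ n → d < n → Even (n * d) →
                |regularAverage n d (fun G => ∫ ω, disorderedLaplaceWeight G s ω
                      (unfoldAt h (n * ρ E) E) ∂potentialLaw n) -
                    ∫ g, goeLaplaceWeight g (unfoldAt h (n / Real.pi) 0) ∂goeDisorderLaw n|
                  < ε :=
  s0252_from (stmtBs h5) h3 d hd κ hκ hκ'

end Crest.Agent.R166.Audit383
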