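import Crest.Agent.R166.CleanOut_501

/-!
Row 166, section 31 (helper501): outputs of the clean case, part 2: `LocLim`, `NearClean`, `NonDeg`,
`ImFix`, `ImLim` for `s = 0` from the block law `BlkLaw0` (= Theorem A at `s = 0`), the full uniform
integrability `UIf` and the facts on the clean block.
-/

set_option autoImplicit false

namespace Crest.Agent.R166.Out501

open Finset Classical MeasureTheory Crest.ProbabilityR.RandomMatrix Crest.Agent.R166
open Crest.Agent.R166.Exc501 (bl nb EL NM)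

noncomputable section

lemma bnorm_nonneg (A : Matrix (Fin 2) (Fin 2) ℂ) : 0 ≤ bnorm A :=
  le_trans (norm_nonneg (A 0 0)) (le_trans (le_max_left _ _) (le_max_left _ _))

lemma entry_le_bnorm (A : Matrix (Fin 2) (Fin 2) ℂ) (i j : Fin 2) : ‖A i j‖ ≤ bnorm A := by
  unfold bnorm
  fin_cases i <;> fin_cases j
  · exact le_trans (le_max_left _ _) (le_max_left _ _)
  · exact le_trans (le_max_right _ _) (le_max_left _ _)
  · exact le_trans (le_max_left _ _) (le_max_right _ _)
  · exact le_trans (le_max_right _ _) (le_max_right _ _)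

lemma bnorm_le {A : Matrix (Fin 2) (Fin 2) ℂ} {c : ℝ} (h : ∀ i j, ‖A i j‖ ≤ c) : bnorm A ≤ c :=
  max_le (max_le (h _ _) (h _ _)) (max_le (h _ _) (h _ _))

lemma bnorm_add_le (A B : Matrix (Fin 2) (Fin 2) ℂ) : bnorm (A + B) ≤ bnorm A + bnorm B :=
  bnorm_le fun i j => (norm_add_le _ _).trans (add_le_add (entry_le_bnorm A i j)
    (entry_le_bnorm B i j))

lemma bnorm_neg (A : Matrix (Fin 2) (Fin 2) ℂ) : bnorm (-A) = bnorm A := by
  unfold bnorm
  simp

lemma bnorm_sub_comm (A B : Matrix (Fin 2) (Fin 2) ℂ) : bnorm (A - B) = bnorm (B - A) := by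
  rw [← bnorm_neg, neg_sub]

lemma bnorm_tri (A B C : Matrix (Fin 2) (Fin 2) ℂ) : bnorm (A - C) ≤ bnorm (A - B) + bnorm (B - C) := by
  have : A - C = (A - B) + (B - C) := by abel
  rw [this]; exact bnorm_add_le _ _

variable {n : ℕ}

lemma eAvg_mono {G : SimpleGraph (Fin n)} {f g : Fin n → Fin n → ℝ} (h : ∀ u w, f u w ≤ g u w) :
    eAvg G f ≤ eAvg G g := by
  unfold eAvg
  exact div_le_div_of_nonneg_right (Finset.sum_le_sum fun v _ => h _ _) (Nat.cast_nonneg _)

lemma eAvg_add {G : SimpleGraph (Fin n)} (f g : Fin n → Fin n → ℝ) :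
    eAvg G (fun u w => f u w + g u w) = eAvg G f + eAvg G g := by
  unfold eAvg
  rw [Finset.sum_add_distrib, add_div]

lemma eAvg_const_mul {G : SimpleGraph (Fin n)} (c : ℝ) (f : Fin n → Fin n → ℝ) :
    eAvg G (fun u w => c * f u w) = c * eAvg G f := by
  unfold eAvg
  rw [← Finset.mul_sum, mul_div_assoc]

lemma eAvg_const_le {G : SimpleGraph (Fin n)} {c : ℝ} (hc : 0 ≤ c) :
    eAvg G (fun _ _ => c) ≤ c := by
  unfold eAvg
  rw [Finset.sum_const, nsmul_eq_mul]
  rcases Nat.eq_zero_or_pos (darts G).card with h | h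
  · rw [h]; simpa using hc
  · have : (0:ℝ) < (darts G).card := by exact_mod_cast h
    rw [mul_div_assoc, mul_div_cancel₀]
    exact this.ne'

/-- indicator that the block is far from `B` -/
def farI (r : ℝ) (B A : Matrix (Fin 2) (Fin 2) ℂ) : ℝ := if bnorm (A - B) ≤ r then 0 else 1

lemma farI_nonneg (r : ℝ) (B A : Matrix (Fin 2) (Fin 2) ℂ) : 0 ≤ farI r B A := by
  unfold farI; split_ifs <;> norm_num

lemma farI_le_one (r : ℝ) (B A : Matrix (Fin 2) (Fin 2) ℂ) : farI r B A ≤ 1 := by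
  unfold farI; split_ifs <;> norm_num

lemma farI_mono {r r' : ℝ} {B B' A : Matrix (Fin 2) (Fin 2) ℂ} (h : r + bnorm (B - B') ≤ r') :
    farI r' B' A ≤ farI r B A := by
  unfold farI
  split_ifs with h1 h2 h2
  · exact le_rfl
  · norm_num
  · exfalso
    exact h1 ((bnorm_tri A B B').trans (by linarith))
  · exact le_rfl

/-- **Block law, clean case** (= Theorem A at `s = 0`). -/
def BlkLaw0 (d : ℕ) (E : ℝ) : Prop :=
  ∀ δ : ℝ, 0 < δ → ∃ K0 : ℝ, 0 < K0 ∧ ∃ N : ℕ, ∀ n : ℕ, N ≤ n →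
    (regularGraphs n d).Nonempty → FracLe n d δ (fun G => ∀ η : ℝ, K0 / n ≤ η → η ≤ 1 →
      eAvg G (fun u w => farI δ (Bclean d (ze E η)) (Blk (Res (A0 G) (ze E η)) u w)) ≤ δ)

/-- facts on the clean block -/
structure CleanFacts (d : ℕ) (E ρ : ℝ) : Prop where
  cont : ∀ δ : ℝ, 0 < δ → ∃ η0 : ℝ, 0 < η0 ∧ ∀ η : ℝ, 0 < η → η ≤ η0 →
    bnorm (Bclean d (ze E η) - Bclean d (E : ℂ)) ≤ δ
  im : (Bclean d (E : ℂ) 0 0).im = Real.pi * ρ
  pd : ∃ c : ℝ, 0 < c ∧ ∀ x : Fin 2 → ℝ, c * (x 0 ^ 2 + x 1 ^ 2) ≤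
    ∑ a, ∑ b, x a * (Bclean d (E : ℂ) a b).im * x b

theorem locLim_clean {d : ℕ} {E ρ : ℝ} (hB : BlkLaw0 d E) (hC : CleanFacts d E ρ) :
    LocLim d 0 E := by
  intro ε hε
  set δ : ℝ := ε / 8 with hδ
  have hδ0 : 0 < δ := by positivity
  obtain ⟨η1, hη1, hcont⟩ := hC.cont δ hδ0
  obtain ⟨K0, hK0, N0, hN0⟩ := hB δ hδ0
  refine ⟨min η1 1, by positivity, K0, hK0, fun η hη hηle K hK => ?_⟩
  obtain ⟨N1, hN1⟩ := exists_nat_ge (K0 / η)
  obtain ⟨N2, hN2⟩ := exists_nat_ge (K / min η1 1)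
  refine ⟨max (max N0 N1) (max N2 1), fun n hn hne => ?_⟩
  have hn0 : N0 ≤ n := le_trans (le_max_left _ _) (le_trans (le_max_left _ _) hn)
  have hn1 : N1 ≤ n := le_trans (le_max_right _ _) (le_trans (le_max_left _ _) hn)
  have hn2 : N2 ≤ n := le_trans (le_max_left _ _) (le_trans (le_max_right _ _) hn)
  have hn3 : 1 ≤ n := le_trans (le_max_right _ _) (le_trans (le_max_right _ _) hn)
  have hnR : (0:ℝ) < n := by exact_mod_cast hn3
  have hδε : δ ≤ ε := by rw [hδ]; linarith
  refine whp_of_fracLe hne ((hN0 n hn0 hne).mono hδε fun _ _ h => h) ?_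
  intro G _ hG ω
  rw [Hm_zero]
  have hmin : 0 < min η1 1 := by positivity
  have hKpos : 0 < K := hK0.trans_le hK
  have hKn : K / n ≤ min η1 1 := by
    have : K / min η1 1 ≤ n := hN2.trans (by exact_mod_cast hn2)
    rw [div_le_iff₀ hmin] at this
    rw [div_le_iff₀ hnR]
    linarith
  have hKn0 : 0 < K / n := by positivity
  have hη' : K0 / n ≤ η := by
    have : K0 / η ≤ n := hN1.trans (by exact_mod_cast hn1)
    rw [div_le_iff₀ hη] at this
    rw [div_le_iff₀ hnR]
    linarith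
  have a1 := hG (K / n) (by gcongr) (hKn.trans (min_le_right _ _))
  have a2 := hG η hη' (hηle.trans (min_le_right _ _))
  have c1 := hcont (K / n) hKn0 (hKn.trans (min_le_left _ _))
  have c2 := hcont η hη (hηle.trans (min_le_left _ _))
  have hmain : eAvg G (fun u w => min 1 (bnorm (Blk (Res (A0 G) (zz E K n)) u w -
        Blk (Res (A0 G) (ze E η)) u w))) ≤
      eAvg G (fun u w => (farI δ (Bclean d (ze E (K / n))) (Blk (Res (A0 G) (ze E (K / n))) u w) +
        farI δ (Bclean d (ze E η)) (Blk (Res (A0 G) (ze E η)) u w)) + 4 * δ) := by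
    refine eAvg_mono fun u w => ?_
    have hzz : zz E K n = ze E (K / n) := rfl
    rw [hzz]
    set A1 := Blk (Res (A0 G) (ze E (K / n))) u w with hA1
    set A2 := Blk (Res (A0 G) (ze E η)) u w with hA2
    by_cases h1 : bnorm (A1 - Bclean d (ze E (K / n))) ≤ δ
    · by_cases h2 : bnorm (A2 - Bclean d (ze E η)) ≤ δ
      · have t1 := bnorm_tri A1 (Bclean d (ze E (K / n))) A2
        have t2 := bnorm_tri (Bclean d (ze E (K / n))) (Bclean d (E : ℂ)) A2
        have t3 := bnorm_tri (Bclean d (E : ℂ)) (Bclean d (ze E η)) A2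
        rw [bnorm_sub_comm (Bclean d (E : ℂ)) (Bclean d (ze E η))] at t3
        rw [bnorm_sub_comm (Bclean d (ze E η)) A2] at t3
        have t4 := farI_nonneg δ (Bclean d (ze E (K / n))) A1
        have t5 := farI_nonneg δ (Bclean d (ze E η)) A2
        exact (min_le_right _ _).trans (by linarith)
      · have t4 := farI_nonneg δ (Bclean d (ze E (K / n))) A1
        have t5 : farI δ (Bclean d (ze E η)) A2 = 1 := by unfold farI; rw [if_neg h2]
        exact (min_le_left _ _).trans (by linarith)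
    · have t4 : farI δ (Bclean d (ze E (K / n))) A1 = 1 := by unfold farI; rw [if_neg h1]
      have t5 := farI_nonneg δ (Bclean d (ze E η)) A2
      exact (min_le_left _ _).trans (by linarith)
  refine hmain.trans ?_
  rw [eAvg_add, eAvg_add]
  have h4 : eAvg G (fun _ _ => 4 * δ) ≤ 4 * δ := eAvg_const_le (by positivity)
  have : δ + δ + 4 * δ ≤ ε := by rw [hδ]; linarith
  linarith

theorem nearClean_clean {d : ℕ} {E ρ : ℝ} (hB : BlkLaw0 d E) (hC : CleanFacts d E ρ) {r : ℝ}
    (hr : 0 < r) : NearClean d 0 E r := by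
  set δ : ℝ := min (1/4) (r/2) with hδ
  have hδ0 : 0 < δ := by positivity
  obtain ⟨η1, hη1, hcont⟩ := hC.cont δ hδ0
  obtain ⟨K0, hK0, N0, hN0⟩ := hB δ hδ0
  refine ⟨min η1 1, by positivity, fun η hη hηle => ?_⟩
  obtain ⟨N1, hN1⟩ := exists_nat_ge (K0 / η)
  refine ⟨max (max N0 N1) 1, fun n hn hne => ?_⟩
  have hn0 : N0 ≤ n := le_trans (le_max_left _ _) (le_trans (le_max_left _ _) hn)
  have hn1 : N1 ≤ n := le_trans (le_max_right _ _) (le_trans (le_max_left _ _) hn)
  have hn3 : 1 ≤ n := le_trans (le_max_right _ _) hn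
  have hnR : (0:ℝ) < n := by exact_mod_cast hn3
  refine whp_of_fracLe hne ((hN0 n hn0 hne).mono (min_le_left _ _) fun _ _ h => h) ?_
  intro G _ hG ω
  rw [Hm_zero]
  have hη' : K0 / n ≤ η := by
    have : K0 / η ≤ n := hN1.trans (by exact_mod_cast hn1)
    rw [div_le_iff₀ hη] at this
    rw [div_le_iff₀ hnR]
    linarith
  have a2 := hG η hη' (hηle.trans (min_le_right _ _))
  have c2 := hcont η hη (hηle.trans (min_le_left _ _))
  refine le_trans ?_ (a2.trans (min_le_left _ _))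
  refine eAvg_mono fun u w => ?_
  have h5 : δ ≤ r / 2 := min_le_right _ _
  exact farI_mono (r := δ) (r' := r) (B := Bclean d (ze E η)) (B' := Bclean d (E : ℂ))
    (by linarith)

theorem nonDeg_clean {d : ℕ} {E ρ : ℝ} (hB : BlkLaw0 d E) (hC : CleanFacts d E ρ) :
    NonDeg d 0 E := by
  intro ε hε
  obtain ⟨c, hc, hpd⟩ := hC.pd
  set δ : ℝ := min ε (c/8) with hδ
  have hδ0 : 0 < δ := by positivity
  obtain ⟨η1, hη1, hcont⟩ := hC.cont δ hδ0
  obtain ⟨K0, hK0, N0, hN0⟩ := hB δ hδ0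
  refine ⟨c / 2, by positivity, min η1 1, by positivity, fun η hη hηle => ?_⟩
  obtain ⟨N1, hN1⟩ := exists_nat_ge (K0 / η)
  refine ⟨max (max N0 N1) 1, fun n hn hne => ?_⟩
  have hn0 : N0 ≤ n := le_trans (le_max_left _ _) (le_trans (le_max_left _ _) hn)
  have hn1 : N1 ≤ n := le_trans (le_max_right _ _) (le_trans (le_max_left _ _) hn)
  have hn3 : 1 ≤ n := le_trans (le_max_right _ _) hn
  have hnR : (0:ℝ) < n := by exact_mod_cast hn3
  refine whp_of_fracLe hne ((hN0 n hn0 hne).mono (min_le_left _ _) fun _ _ h => h) ?_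
  intro G _ hG ω
  rw [Hm_zero]
  have hη' : K0 / n ≤ η := by
    have : K0 / η ≤ n := hN1.trans (by exact_mod_cast hn1)
    rw [div_le_iff₀ hη] at this
    rw [div_le_iff₀ hnR]
    linarith
  have a2 := hG η hη' (hηle.trans (min_le_right _ _))
  have c2 := hcont η hη (hηle.trans (min_le_left _ _))
  refine le_trans ?_ (a2.trans (min_le_left _ _))
  refine eAvg_mono fun u w => ?_
  set A := Blk (Res (A0 G) (ze E η)) u w with hA
  unfold farI
  by_cases h1 : bnorm (A - Bclean d (ze E η)) ≤ δ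
  · rw [if_pos h1, if_pos]
    intro x
    have hdist : ∀ a b, ‖A a b - Bclean d (E : ℂ) a b‖ ≤ c / 4 := by
      intro a b
      have h2 : bnorm (A - Bclean d (E : ℂ)) ≤ c / 4 := by
        have h5 : δ ≤ c / 8 := min_le_right _ _
        exact (bnorm_tri A (Bclean d (ze E η)) _).trans (by linarith)
      exact (entry_le_bnorm (A - Bclean d (E : ℂ)) a b).trans h2
    have hterm : ∀ a b, x a * (Bclean d (E : ℂ) a b).im * x b - c / 4 * (|x a| * |x b|) ≤
        x a * (A a b).im * x b := by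
      intro a b
      have h3 : |(A a b).im - (Bclean d (E : ℂ) a b).im| ≤ c / 4 := by
        rw [← Complex.sub_im]
        exact (Complex.abs_im_le_norm _).trans (hdist a b)
      have h4 : |x a * ((A a b).im - (Bclean d (E : ℂ) a b).im) * x b| ≤ c / 4 * (|x a| * |x b|) := by
        rw [abs_mul, abs_mul]
        calc |x a| * |(A a b).im - (Bclean d (E : ℂ) a b).im| * |x b| ≤
              |x a| * (c / 4) * |x b| := by gcongr
          _ = c / 4 * (|x a| * |x b|) := by ring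
      have h5 := (abs_le.1 h4).1
      nlinarith
    have hsum := hpd x
    simp only [Fin.sum_univ_two] at hsum ⊢
    have t00 := hterm 0 0
    have t01 := hterm 0 1
    have t10 := hterm 1 0
    have t11 := hterm 1 1
    have s0 : |x 0| * |x 0| = x 0 ^ 2 := by rw [← pow_two, sq_abs]
    have s1 : |x 1| * |x 1| = x 1 ^ 2 := by rw [← pow_two, sq_abs]
    have s01 : 2 * (|x 0| * |x 1|) ≤ x 0 ^ 2 + x 1 ^ 2 := by
      have := sq_nonneg (|x 0| - |x 1|)
      nlinarith
    nlinarith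
  · rw [if_neg h1]
    split_ifs <;> norm_num

/-- vertex averages are edge averages -/
lemma vAvg_eq_eAvg {d : ℕ} (hd : 0 < d) {G : SimpleGraph (Fin n)} (hG : G ∈ regularGraphs n d)
    (f : Fin n → ℝ) : vAvg f = eAvg G (fun u _ => f u) := by
  have hreg := mem_regularGraphs.1 hG
  have h1 : ∀ f : Fin n → ℝ, ∑ p ∈ darts G, f p.1 = d * ∑ v, f v := by
    intro f
    unfold darts
    rw [Finset.sum_filter, Fintype.sum_prod_type, Finset.mul_sum]
    refine Finset.sum_congr rfl fun v _ => ?_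
    simp only
    rw [← Finset.sum_filter, Finset.sum_const, nsmul_eq_mul]
    congr 1
    have := hreg v
    unfold nb at this
    rw [← this]
  have h2 : ((darts G).card : ℝ) = d * n := by
    have := h1 (fun _ => 1)
    simpa using this
  unfold vAvg eAvg
  rw [h1, h2, mul_div_mul_left]
  exact_mod_cast hd.ne'

lemma mn_im {G : SimpleGraph (Fin n)} {z : ℂ} :
    (mn (A0 G) z).im = vAvg (fun v => (Res (A0 G) z v v).im) := by
  unfold mn vAvg Matrix.trace
  rw [Complex.div_natCast_im, Complex.im_sum]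
  rfl

/-- general estimate of the imaginary part of the trace -/
lemma im_estimate {d : ℕ} (hd : 0 < d) {G : SimpleGraph (Fin n)} (hG : G ∈ regularGraphs n d)
    {E ρ η δ δ' M t : ℝ} (hC : (Bclean d (E : ℂ) 0 0).im = Real.pi * ρ) (hδ : 0 ≤ δ) (hM : 0 ≤ M)
    (hn : 0 < n)
    (hfar : eAvg G (fun u w => farI δ (Bclean d (ze E η)) (Blk (Res (A0 G) (ze E η)) u w)) ≤ δ)
    (hcl : bnorm (Bclean d (ze E η) - Bclean d (E : ℂ)) ≤ δ')
    (htail : vAvg (fun v => if M < ‖Res (A0 G) (ze E η) v v‖ then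
      ‖Res (A0 G) (ze E η) v v‖ else 0) ≤ t) :
    |(mn (A0 G) (ze E η)).im - Real.pi * ρ| ≤ (δ + δ') + δ * (M + |Real.pi * ρ|) + t := by
  rw [mn_im]
  have hδ' : 0 ≤ δ' := (bnorm_nonneg _).trans hcl
  have hpt : ∀ u w : Fin n, |(Res (A0 G) (ze E η) u u).im - Real.pi * ρ| ≤
      (δ + δ') + (M + |Real.pi * ρ|) *
        farI δ (Bclean d (ze E η)) (Blk (Res (A0 G) (ze E η)) u w) +
      (if M < ‖Res (A0 G) (ze E η) u u‖ then ‖Res (A0 G) (ze E η) u u‖ else 0) := by
    intro u w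
    have h0 : 0 ≤ (if M < ‖Res (A0 G) (ze E η) u u‖ then ‖Res (A0 G) (ze E η) u u‖ else 0) := by
      split_ifs <;> positivity
    by_cases h1 : bnorm (Blk (Res (A0 G) (ze E η)) u w - Bclean d (ze E η)) ≤ δ
    · have hf : farI δ (Bclean d (ze E η)) (Blk (Res (A0 G) (ze E η)) u w) = 0 := by
        unfold farI; rw [if_pos h1]
      rw [hf, mul_zero, add_zero]
      have h2 := (bnorm_tri (Blk (Res (A0 G) (ze E η)) u w) (Bclean d (ze E η))
        (Bclean d (E : ℂ))).trans (add_le_add h1 hcl)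
      have h3 := (entry_le_bnorm _ 0 0).trans h2
      have h4 : |(Res (A0 G) (ze E η) u u).im - Real.pi * ρ| ≤
          ‖(Blk (Res (A0 G) (ze E η)) u w - Bclean d (E : ℂ)) 0 0‖ := by
        rw [← hC]
        have : (Res (A0 G) (ze E η) u u).im - (Bclean d (E : ℂ) 0 0).im =
            ((Blk (Res (A0 G) (ze E η)) u w - Bclean d (E : ℂ)) 0 0).im := by
          rw [Matrix.sub_apply, Complex.sub_im]; rfl
        rw [this]
        exact Complex.abs_im_le_norm _
      linarith
    · have hf : farI δ (Bclean d (ze E η)) (Blk (Res (A0 G) (ze E η)) u w) = 1 := by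
        unfold farI; rw [if_neg h1]
      rw [hf, mul_one]
      have h3 : |(Res (A0 G) (ze E η) u u).im| ≤ M +
          (if M < ‖Res (A0 G) (ze E η) u u‖ then ‖Res (A0 G) (ze E η) u u‖ else 0) := by
        have := Complex.abs_im_le_norm (Res (A0 G) (ze E η) u u)
        split_ifs with h
        · linarith
        · linarith [not_lt.1 h]
      have h4 := abs_sub (Res (A0 G) (ze E η) u u).im (Real.pi * ρ)
      linarith
  have hnR : (0:ℝ) < n := by exact_mod_cast hn
  have h5 : vAvg (fun v => (Res (A0 G) (ze E η) v v).im) - Real.pi * ρ =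
      vAvg (fun v => (Res (A0 G) (ze E η) v v).im - Real.pi * ρ) := by
    unfold vAvg
    rw [Finset.sum_sub_distrib, sub_div]
    simp only [Finset.sum_const, Finset.card_univ, Fintype.card_fin, nsmul_eq_mul]
    field_simp
  have h6 : |vAvg (fun v => (Res (A0 G) (ze E η) v v).im - Real.pi * ρ)| ≤
      vAvg (fun v => |(Res (A0 G) (ze E η) v v).im - Real.pi * ρ|) := by
    unfold vAvg
    rw [abs_div, abs_of_pos hnR]
    exact div_le_div_of_nonneg_right (Finset.abs_sum_le_sum_abs _ _) hnR.le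
  rw [h5]
  refine h6.trans ?_
  rw [vAvg_eq_eAvg hd hG]
  refine (eAvg_mono (g := fun u w => (δ + δ') + (M + |Real.pi * ρ|) *
        farI δ (Bclean d (ze E η)) (Blk (Res (A0 G) (ze E η)) u w) +
      (if M < ‖Res (A0 G) (ze E η) u u‖ then ‖Res (A0 G) (ze E η) u u‖ else 0)) hpt).trans ?_
  rw [eAvg_add, eAvg_add, eAvg_const_mul (M + |Real.pi * ρ|)
    (fun u w => farI δ (Bclean d (ze E η)) (Blk (Res (A0 G) (ze E η)) u w)),
    ← vAvg_eq_eAvg hd hG (fun u =>
    if M < ‖Res (A0 G) (ze E η) u u‖ then ‖Res (A0 G) (ze E η) u u‖ else 0)]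
  have h7 : eAvg G (fun _ _ => δ + δ') ≤ δ + δ' := eAvg_const_le (by positivity)
  have h8 : (M + |Real.pi * ρ|) * eAvg G (fun u w => farI δ (Bclean d (ze E η))
      (Blk (Res (A0 G) (ze E η)) u w)) ≤ (M + |Real.pi * ρ|) * δ := by
    gcongr
  linarith

theorem imFix_clean {d : ℕ} (hd : 0 < d) {E ρ : ℝ} (hB : BlkLaw0 d E) (hC : CleanFacts d E ρ) :
    ImFix d 0 E ρ := by
  intro ε hε
  obtain ⟨η1, hη1, hcont⟩ := hC.cont (ε/8) (by positivity)
  refine ⟨min η1 1, by positivity, fun η hη hηle => ?_⟩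
  -- here `δ` may depend on `η`
  set M : ℝ := 1 / η with hM
  have hM0 : 0 < M := by positivity
  set δ : ℝ := min (ε/8) (ε / (4 * (M + |Real.pi * ρ|))) with hδ
  have hden : 0 < M + |Real.pi * ρ| := by positivity
  have hδ0 : 0 < δ := by positivity
  obtain ⟨K0, hK0, N0, hN0⟩ := hB δ hδ0
  obtain ⟨N1, hN1⟩ := exists_nat_ge (K0 / η)
  refine ⟨max (max N0 N1) 1, fun n hn hne => ?_⟩
  have hn0 : N0 ≤ n := le_trans (le_max_left _ _) (le_trans (le_max_left _ _) hn)
  have hn1 : N1 ≤ n := le_trans (le_max_right _ _) (le_trans (le_max_left _ _) hn)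
  have hn3 : 1 ≤ n := le_trans (le_max_right _ _) hn
  have hnR : (0:ℝ) < n := by exact_mod_cast hn3
  have hδ1 : δ ≤ ε / 8 := min_le_left _ _
  refine whp_of_fracLe hne ((hN0 n hn0 hne).mono (hδ1.trans (by linarith)) fun _ _ h => h) ?_
  intro G hGr hG ω
  rw [Hm_zero]
  have hη' : K0 / n ≤ η := by
    have : K0 / η ≤ n := hN1.trans (by exact_mod_cast hn1)
    rw [div_le_iff₀ hη] at this
    rw [div_le_iff₀ hnR]
    linarith
  have a2 := hG η hη' (hηle.trans (min_le_right _ _))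
  have c2 := hcont η hη (hηle.trans (min_le_left _ _))
  have htail : vAvg (fun v : Fin n => if M < ‖Res (A0 G) (ze E η) v v‖ then
      ‖Res (A0 G) (ze E η) v v‖ else 0) ≤ 0 := by
    have hz : (ze E η).im = η := by simp [ze]
    have : ∀ v : Fin n, ¬ (M < ‖Res (A0 G) (ze E η) v v‖) := by
      intro v
      have := Exc501.norm_diag_le (A0_symm G) (z := ze E η) (by rw [hz]; exact hη) v
      rw [hz] at this
      exact not_lt.2 this
    simp [this, vAvg]
  have key := im_estimate hd hGr hC.im hδ0.le hM0.le (by omega) a2 c2 htail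
  refine key.trans ?_
  have h9 : δ * (M + |Real.pi * ρ|) ≤ ε / 4 := by
    have : δ ≤ ε / (4 * (M + |Real.pi * ρ|)) := min_le_right _ _
    calc δ * (M + |Real.pi * ρ|) ≤ ε / (4 * (M + |Real.pi * ρ|)) * (M + |Real.pi * ρ|) := by gcongr
      _ = ε / 4 := by field_simp
  linarith

theorem imLim_clean {d : ℕ} (hd : 0 < d) {E ρ : ℝ} (hB : BlkLaw0 d E) (hU : UIf d E)
    (hC : CleanFacts d E ρ) : ImLim d 0 E ρ := by
  intro ε hε
  obtain ⟨M', hM'⟩ := hU 1 one_pos (ε/8) (by positivity)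
  set M : ℝ := max M' 1 with hM
  have hM0 : 0 < M := by positivity
  set δ : ℝ := min (ε/8) (ε / (4 * (M + |Real.pi * ρ|))) with hδ
  have hden : 0 < M + |Real.pi * ρ| := by positivity
  have hδ0 : 0 < δ := by positivity
  obtain ⟨η1, hη1, hcont⟩ := hC.cont (ε/8) (by positivity)
  obtain ⟨K0, hK0, N0, hN0⟩ := hB δ hδ0
  refine ⟨max K0 1, by positivity, fun K hK => ?_⟩
  obtain ⟨N1, hN1⟩ := hM' K ((le_max_right _ _).trans hK)
  obtain ⟨N2, hN2⟩ := exists_nat_ge (K / min η1 1)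
  refine ⟨max (max N0 N1) (max N2 1), fun n hn hne => ?_⟩
  have hn0 : N0 ≤ n := le_trans (le_max_left _ _) (le_trans (le_max_left _ _) hn)
  have hn1 : N1 ≤ n := le_trans (le_max_right _ _) (le_trans (le_max_left _ _) hn)
  have hn2 : N2 ≤ n := le_trans (le_max_left _ _) (le_trans (le_max_right _ _) hn)
  have hn3 : 1 ≤ n := le_trans (le_max_right _ _) (le_trans (le_max_right _ _) hn)
  have hnR : (0:ℝ) < n := by exact_mod_cast hn3
  have hδ1 : δ ≤ ε / 8 := min_le_left _ _
  refine whp_of_fracLe hne (((hN0 n hn0 hne).and (hN1 n hn1 hne)).mono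
    (by linarith) fun _ _ h => h) ?_
  intro G hGr hG ω
  rw [Hm_zero]
  have hmin : 0 < min η1 1 := by positivity
  have hKpos : 0 < K := lt_of_lt_of_le (by positivity) hK
  have hKn : K / n ≤ min η1 1 := by
    have : K / min η1 1 ≤ n := hN2.trans (by exact_mod_cast hn2)
    rw [div_le_iff₀ hmin] at this
    rw [div_le_iff₀ hnR]
    linarith
  have hKn0 : 0 < K / n := by positivity
  have hK0K : K0 ≤ K := (le_max_left _ _).trans hK
  have a1 := hG.1 (K / n) (by gcongr) (hKn.trans (min_le_right _ _))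
  have c1 := hcont (K / n) hKn0 (hKn.trans (min_le_left _ _))
  have htail : vAvg (fun v : Fin n => if M < ‖Res (A0 G) (ze E (K/n)) v v‖ then
      ‖Res (A0 G) (ze E (K/n)) v v‖ else 0) ≤ ε / 8 := by
    refine le_trans ?_ hG.2
    unfold tailA
    refine vAvg_mono fun v => ?_
    have hzz : zz E K n = ze E (K / n) := rfl
    rw [hzz]
    split_ifs with h1 h2 h2
    · exact le_rfl
    · exact absurd ((le_max_left M' 1).trans_lt h1) h2
    · positivity
    · exact le_rfl
  have key := im_estimate hd hGr hC.im hδ0.le hM0.le (by omega) a1 c1 htail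
  have hzz : zz E K n = ze E (K / n) := rfl
  rw [hzz]
  refine key.trans ?_
  have h9 : δ * (M + |Real.pi * ρ|) ≤ ε / 4 := by
    have : δ ≤ ε / (4 * (M + |Real.pi * ρ|)) := min_le_right _ _
    calc δ * (M + |Real.pi * ρ|) ≤ ε / (4 * (M + |Real.pi * ρ|)) * (M + |Real.pi * ρ|) := by gcongr
      _ = ε / 4 := by field_simp
  linarith

end

end Crest.Agent.R166.Out501
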