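import Crest.Agent.R166.BlkLaw0_355
import Crest.Agent.R166.CleanOut2_501

/-!
# R166, section 31 (helper355): `ThmA d → Out501.BlkLaw0 d E`
-/

set_option autoImplicit false

namespace Crest.Agent.R166.BlkLaw355

open Crest.Agent.R166 Crest.ProbabilityR.RandomMatrix

theorem out_blkLaw0 {d : ℕ} (hd : 3 ≤ d) (h : SpecA.ThmA d) {E : ℝ}
    (hE : E ^ 2 < 4 * ((d : ℝ) - 1)) : Out501.BlkLaw0 d E := by
  classical
  intro δ hδ
  obtain ⟨K0, hK0, H⟩ := blkLaw0_of_thmA hd h hE δ hδ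
  obtain ⟨N, H⟩ := H K0 le_rfl
  refine ⟨K0, hK0, N, fun n hn _ => ?_⟩
  have h1 := H n hn (fun _ => 0)
  unfold Out501.FracLe
  refine le_trans ?_ h1
  refine Nat.cast_le.2 (Finset.card_le_card ?_)
  intro G hG
  rw [Finset.mem_filter] at hG ⊢
  obtain ⟨hG, hbad⟩ := hG
  push Not at hbad
  obtain ⟨η, h2, h3, h4⟩ := hbad
  refine ⟨hG, η, h2, h3, h4.trans_le ?_⟩
  unfold Out501.farI
  refine le_of_eq ?_
  congr 1
  funext u w
  have hA : Hm G 0 (fun _ => 0) = Out501.A0 G := rfl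
  rw [hA]
  by_cases hc : bnorm (Blk (Res (Out501.A0 G) (ze E η)) u w - Bclean d (ze E η)) ≤ δ
  · rw [if_pos hc, if_neg (not_lt.2 hc)]
  · rw [if_neg hc, if_pos (not_le.1 hc)]

end Crest.Agent.R166.BlkLaw355
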