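import Mathlib

/-!
Row 166, section 30.6: the abstract second moment lemma (finite sums only).

`Gr` = finite set of states (port-numbered graphs), `Mv` = FIXED finite set of moves,
`Ed` = FIXED finite set of sites (half-edges), `ctr : M → E` the centre of a move, every site is the
centre of exactly `q` moves.  `sw` is a (total, lazy) involution of `Gr × Mv` keeping the centre.
`f p e` is a bounded observable.

`nu p` = average of `f p e` over the sites, `g p` = average over the moves of `f (sw p m).1 (ctr m)`.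
If `f` is stable under every single move (in the mean over sites) and most double moves commute,
then `nu` is close to `g` in mean square.
-/

set_option autoImplicit false

namespace Crest.Agent.R166.Sec269

open Finset

variable {P M E : Type*}

/-- empirical average over sites -/
noncomputable def nuAvg (Ed : Finset E) (f : P → E → ℝ) (p : P) : ℝ :=
  (∑ e ∈ Ed, f p e) / (Ed.card : ℝ)

/-- one-step (resampled) average over moves -/
noncomputable def gAvg (Mv : Finset M) (ctr : M → E) (sw : P → M → P × M) (f : P → E → ℝ)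
    (p : P) : ℝ :=
  (∑ m ∈ Mv, f (sw p m).1 (ctr m)) / (Mv.card : ℝ)

/-- The data of a lazy reversible family of moves. -/
structure MoveSystem (Gr : Finset P) (Mv : Finset M) (Ed : Finset E) (ctr : M → E) (q : ℕ)
    (sw : P → M → P × M) : Prop where
  ctr_mem : ∀ m ∈ Mv, ctr m ∈ Ed
  ctr_card : ∀ e ∈ Ed, ∀ [DecidableEq E], (Mv.filter (fun m => ctr m = e)).card = q
  mem_left : ∀ p ∈ Gr, ∀ m ∈ Mv, (sw p m).1 ∈ Gr
  mem_right : ∀ p ∈ Gr, ∀ m ∈ Mv, (sw p m).2 ∈ Mv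
  inv : ∀ p ∈ Gr, ∀ m ∈ Mv, sw (sw p m).1 (sw p m).2 = (p, m)
  ctr_sw : ∀ p ∈ Gr, ∀ m ∈ Mv, ctr (sw p m).2 = ctr m

section

variable {Gr : Finset P} {Mv : Finset M} {Ed : Finset E} {ctr : M → E} {q : ℕ}
  {sw : P → M → P × M}

/-- change of variables `(p,m) ↦ sw (p,m)` -/
theorem sum_change (h : MoveSystem Gr Mv Ed ctr q sw) {α : Type*} [AddCommMonoid α]
    (F : P → M → α) :
    ∑ p ∈ Gr, ∑ m ∈ Mv, F p m = ∑ p ∈ Gr, ∑ m ∈ Mv, F (sw p m).1 (sw p m).2 := by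
  rw [← Finset.sum_product', ← Finset.sum_product']
  refine Finset.sum_nbij' (fun x => sw x.1 x.2) (fun x => sw x.1 x.2) ?_ ?_ ?_ ?_ ?_
  · rintro ⟨p, m⟩ hx
    rw [Finset.mem_product] at hx ⊢
    exact ⟨h.mem_left p hx.1 m hx.2, h.mem_right p hx.1 m hx.2⟩
  · rintro ⟨p, m⟩ hx
    rw [Finset.mem_product] at hx ⊢
    exact ⟨h.mem_left p hx.1 m hx.2, h.mem_right p hx.1 m hx.2⟩
  · rintro ⟨p, m⟩ hx
    rw [Finset.mem_product] at hx
    exact h.inv p hx.1 m hx.2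
  · rintro ⟨p, m⟩ hx
    rw [Finset.mem_product] at hx
    exact h.inv p hx.1 m hx.2
  · rintro ⟨p, m⟩ hx
    rw [Finset.mem_product] at hx
    have := h.inv p hx.1 m hx.2
    simp only [this]

/-- sums over moves of functions of the centre -/
theorem sum_ctr (h : MoveSystem Gr Mv Ed ctr q sw) (φ : E → ℝ) :
    ∑ m ∈ Mv, φ (ctr m) = (q : ℝ) * ∑ e ∈ Ed, φ e := by
  classical
  rw [← Finset.sum_fiberwise_of_maps_to (s := Mv) (t := Ed) (g := ctr) h.ctr_mem, Finset.mul_sum]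
  refine Finset.sum_congr rfl fun e he => ?_
  have : ∀ m ∈ Mv.filter (fun m => ctr m = e), φ (ctr m) = φ e := by
    intro m hm
    rw [(Finset.mem_filter.1 hm).2]
  rw [Finset.sum_congr rfl this, Finset.sum_const, h.ctr_card e he, nsmul_eq_mul]

theorem card_moves (h : MoveSystem Gr Mv Ed ctr q sw) : (Mv.card : ℝ) = q * Ed.card := by
  have := sum_ctr h (fun _ => (1 : ℝ))
  simpa using this

/-- averages over moves of functions of the centre -/
theorem avg_ctr (h : MoveSystem Gr Mv Ed ctr q sw) (hM : Mv.Nonempty) (φ : E → ℝ) :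
    ∑ m ∈ Mv, φ (ctr m) = (Mv.card : ℝ) * ((∑ e ∈ Ed, φ e) / (Ed.card : ℝ)) := by
  have hc := card_moves h
  have hMpos : (0 : ℝ) < Mv.card := by exact_mod_cast hM.card_pos
  have hE : (Ed.card : ℝ) ≠ 0 := by
    intro h0
    rw [hc, h0, mul_zero] at hMpos
    exact lt_irrefl _ hMpos
  rw [sum_ctr h φ, hc]
  field_simp

/-- the key integration by parts: `∑ g h = ∑_{p,m} f(p,ctr m) h(sw p m)/|Mv|` -/
theorem sum_gAvg_mul (h : MoveSystem Gr Mv Ed ctr q sw) (hM : Mv.Nonempty) (f : P → E → ℝ)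
    (k : P → ℝ) :
    (Mv.card : ℝ) * ∑ p ∈ Gr, gAvg Mv ctr sw f p * k p
      = ∑ p ∈ Gr, ∑ m ∈ Mv, f p (ctr m) * k (sw p m).1 := by
  have hMpos : (0 : ℝ) < Mv.card := by exact_mod_cast hM.card_pos
  have h1 : (Mv.card : ℝ) * ∑ p ∈ Gr, gAvg Mv ctr sw f p * k p
      = ∑ p ∈ Gr, ∑ m ∈ Mv, f (sw p m).1 (ctr m) * k p := by
    rw [Finset.mul_sum]
    refine Finset.sum_congr rfl fun p _ => ?_
    rw [← Finset.sum_mul, gAvg]
    field_simp
  rw [h1, sum_change h]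
  refine Finset.sum_congr rfl fun p hp => Finset.sum_congr rfl fun m hm => ?_
  rw [h.inv p hp m hm, h.ctr_sw p hp m hm]

theorem sum_nuAvg_mul (h : MoveSystem Gr Mv Ed ctr q sw) (hM : Mv.Nonempty) (f : P → E → ℝ)
    (k : P → ℝ) :
    (Mv.card : ℝ) * ∑ p ∈ Gr, nuAvg Ed f p * k p
      = ∑ p ∈ Gr, ∑ m ∈ Mv, f p (ctr m) * k p := by
  rw [Finset.mul_sum]
  refine Finset.sum_congr rfl fun p _ => ?_
  rw [← Finset.sum_mul, avg_ctr h hM (fun e => f p e), nuAvg]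
  ring

/-- **Second moment lemma (30.6).** -/
theorem second_moment (h : MoveSystem Gr Mv Ed ctr q sw) (hM : Mv.Nonempty)
    (f : P → E → ℝ) (hf : ∀ p ∈ Gr, ∀ e ∈ Ed, |f p e| ≤ 1) (δ₁ δ₂ : ℝ)
    (hstab : ∀ p ∈ Gr, ∀ m ∈ Mv,
      ∑ e ∈ Ed, |f (sw p m).1 e - f p e| ≤ δ₂ * (Ed.card : ℝ))
    (hcomm : ∃ Bad : P → Finset (M × M),
      (∀ p ∈ Gr, ((Bad p).card : ℝ) ≤ δ₁ * (Mv.card : ℝ) ^ 2) ∧
      (∀ p ∈ Gr, ∀ m ∈ Mv, ∀ m' ∈ Mv, (m, m') ∉ Bad p →
        (sw (sw p m).1 m').1 = (sw (sw p m').1 m).1)) :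
    ∑ p ∈ Gr, (nuAvg Ed f p - gAvg Mv ctr sw f p) ^ 2 ≤ (2 * δ₂ + 2 * δ₁) * (Gr.card : ℝ) := by
  classical
  have hMpos : (0 : ℝ) < Mv.card := by exact_mod_cast hM.card_pos
  have hc := card_moves h
  have hEpos : (0 : ℝ) < Ed.card := by
    rcases (Nat.cast_nonneg Ed.card : (0 : ℝ) ≤ Ed.card).lt_or_eq with h1 | h1
    · exact h1
    · rw [hc, ← h1, mul_zero] at hMpos
      exact absurd hMpos (lt_irrefl _)
  set ν := nuAvg Ed f with hν
  set g := gAvg Mv ctr sw f with hg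
  -- stability of ν
  have hνst : ∀ p ∈ Gr, ∀ m ∈ Mv, |ν (sw p m).1 - ν p| ≤ δ₂ := by
    intro p hp m hm
    have : ν (sw p m).1 - ν p = (∑ e ∈ Ed, (f (sw p m).1 e - f p e)) / (Ed.card : ℝ) := by
      rw [hν, nuAvg, nuAvg, Finset.sum_sub_distrib, sub_div]
    rw [this, abs_div, abs_of_pos hEpos, div_le_iff₀ hEpos]
    exact (Finset.abs_sum_le_sum_abs _ _).trans (hstab p hp m hm)
  -- E2 vs E1
  have hA1 : (Mv.card : ℝ) * ∑ p ∈ Gr, g p * ν p
      = ∑ p ∈ Gr, ∑ m ∈ Mv, f p (ctr m) * ν (sw p m).1 := sum_gAvg_mul h hM f ν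
  have hA2 : (Mv.card : ℝ) * ∑ p ∈ Gr, ν p * ν p
      = ∑ p ∈ Gr, ∑ m ∈ Mv, f p (ctr m) * ν p := sum_nuAvg_mul h hM f ν
  have hA : |(Mv.card : ℝ) * ∑ p ∈ Gr, g p * ν p - (Mv.card : ℝ) * ∑ p ∈ Gr, ν p * ν p|
      ≤ (Gr.card : ℝ) * ((Mv.card : ℝ) * δ₂) := by
    rw [hA1, hA2, ← Finset.sum_sub_distrib]
    refine (Finset.abs_sum_le_sum_abs _ _).trans ?_
    rw [← nsmul_eq_mul]
    refine Finset.sum_le_card_nsmul _ _ _ fun p hp => ?_
    rw [← Finset.sum_sub_distrib]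
    refine (Finset.abs_sum_le_sum_abs _ _).trans ?_
    rw [← nsmul_eq_mul]
    refine Finset.sum_le_card_nsmul _ _ _ fun m hm => ?_
    rw [← mul_sub, abs_mul]
    calc |f p (ctr m)| * |ν (sw p m).1 - ν p| ≤ 1 * δ₂ :=
          mul_le_mul (hf p hp _ (h.ctr_mem m hm)) (hνst p hp m hm) (abs_nonneg _) zero_le_one
      _ = δ₂ := one_mul _
  -- E3 vs E2
  have hB1 : (Mv.card : ℝ) * ∑ p ∈ Gr, g p * g p
      = ∑ p ∈ Gr, ∑ m ∈ Mv, f p (ctr m) * g (sw p m).1 := sum_gAvg_mul h hM f g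
  have hB2 : (Mv.card : ℝ) * ∑ p ∈ Gr, ν p * g p
      = ∑ p ∈ Gr, ∑ m ∈ Mv, f p (ctr m) * g p := sum_nuAvg_mul h hM f g
  obtain ⟨Bad, hBad, hgood⟩ := hcomm
  -- total variation of g
  have hT : ∑ p ∈ Gr, ∑ m ∈ Mv, |g (sw p m).1 - g p|
      ≤ (Gr.card : ℝ) * ((Mv.card : ℝ) * (δ₂ + 2 * δ₁)) := by
    have hpt : ∀ p ∈ Gr, ∀ m ∈ Mv, (Mv.card : ℝ) * |g (sw p m).1 - g p|
        ≤ ∑ m' ∈ Mv, (|f (sw (sw p m').1 m).1 (ctr m') - f (sw p m').1 (ctr m')|
            + if (m, m') ∈ Bad p then (2 : ℝ) else 0) := by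
      intro p hp m hm
      have e1 : (Mv.card : ℝ) * |g (sw p m).1 - g p|
          = |∑ m' ∈ Mv, (f (sw (sw p m).1 m').1 (ctr m') - f (sw p m').1 (ctr m'))| := by
        have : g (sw p m).1 - g p
            = (∑ m' ∈ Mv, (f (sw (sw p m).1 m').1 (ctr m') - f (sw p m').1 (ctr m')))
              / (Mv.card : ℝ) := by
          rw [hg, gAvg, gAvg, Finset.sum_sub_distrib, sub_div]
        rw [this, abs_div, abs_of_pos hMpos]
        field_simp
      rw [e1]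
      refine (Finset.abs_sum_le_sum_abs _ _).trans (Finset.sum_le_sum fun m' hm' => ?_)
      by_cases hb : (m, m') ∈ Bad p
      · rw [if_pos hb]
        have ha := hf _ (h.mem_left _ (h.mem_left p hp m hm) m' hm') _ (h.ctr_mem m' hm')
        have hb' := hf _ (h.mem_left p hp m' hm') _ (h.ctr_mem m' hm')
        have := abs_sub (f (sw (sw p m).1 m').1 (ctr m')) (f (sw p m').1 (ctr m'))
        have h3 := abs_nonneg (f (sw (sw p m').1 m).1 (ctr m') - f (sw p m').1 (ctr m'))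
        linarith
      · rw [if_neg hb, hgood p hp m hm m' hm' hb, add_zero]
    have hsum : (Mv.card : ℝ) * ∑ p ∈ Gr, ∑ m ∈ Mv, |g (sw p m).1 - g p|
        ≤ ∑ p ∈ Gr, ∑ m ∈ Mv, ∑ m' ∈ Mv,
            |f (sw (sw p m').1 m).1 (ctr m') - f (sw p m').1 (ctr m')|
          + ∑ p ∈ Gr, ∑ m ∈ Mv, ∑ m' ∈ Mv, (if (m, m') ∈ Bad p then (2 : ℝ) else 0) := by
      rw [Finset.mul_sum, ← Finset.sum_add_distrib]
      refine Finset.sum_le_sum fun p hp => ?_
      rw [Finset.mul_sum, ← Finset.sum_add_distrib]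
      refine Finset.sum_le_sum fun m hm => ?_
      rw [← Finset.sum_add_distrib]
      exact hpt p hp m hm
    have hfirst : ∑ p ∈ Gr, ∑ m ∈ Mv, ∑ m' ∈ Mv,
            |f (sw (sw p m').1 m).1 (ctr m') - f (sw p m').1 (ctr m')|
        ≤ (Gr.card : ℝ) * ((Mv.card : ℝ) * ((Mv.card : ℝ) * δ₂)) := by
      have hswap : ∑ p ∈ Gr, ∑ m ∈ Mv, ∑ m' ∈ Mv,
            |f (sw (sw p m').1 m).1 (ctr m') - f (sw p m').1 (ctr m')|
          = ∑ m ∈ Mv, ∑ p ∈ Gr, ∑ m' ∈ Mv,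
            |f (sw (sw p m').1 m).1 (ctr m') - f (sw p m').1 (ctr m')| := Finset.sum_comm
      rw [hswap]
      have hm1 : ∀ m ∈ Mv, ∑ p ∈ Gr, ∑ m' ∈ Mv,
            |f (sw (sw p m').1 m).1 (ctr m') - f (sw p m').1 (ctr m')|
          ≤ (Gr.card : ℝ) * ((Mv.card : ℝ) * δ₂) := by
        intro m hm
        have := sum_change h (fun p m' => |f (sw p m).1 (ctr m') - f p (ctr m')|)
        have e2 : ∑ p ∈ Gr, ∑ m' ∈ Mv,
            |f (sw (sw p m').1 m).1 (ctr m') - f (sw p m').1 (ctr m')|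
            = ∑ p ∈ Gr, ∑ m' ∈ Mv, |f (sw p m).1 (ctr m') - f p (ctr m')| := by
          rw [this]
          refine Finset.sum_congr rfl fun p hp => Finset.sum_congr rfl fun m' hm' => ?_
          simp only [h.ctr_sw p hp m' hm']
        rw [e2, ← nsmul_eq_mul]
        refine Finset.sum_le_card_nsmul _ _ _ fun p hp => ?_
        rw [avg_ctr h hM (fun e => |f (sw p m).1 e - f p e|)]
        refine mul_le_mul_of_nonneg_left ?_ hMpos.le
        rw [div_le_iff₀ hEpos]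
        exact hstab p hp m hm
      calc ∑ m ∈ Mv, ∑ p ∈ Gr, ∑ m' ∈ Mv,
            |f (sw (sw p m').1 m).1 (ctr m') - f (sw p m').1 (ctr m')|
          ≤ Mv.card • ((Gr.card : ℝ) * ((Mv.card : ℝ) * δ₂)) :=
            Finset.sum_le_card_nsmul _ _ _ hm1
        _ = (Gr.card : ℝ) * ((Mv.card : ℝ) * ((Mv.card : ℝ) * δ₂)) := by
            rw [nsmul_eq_mul]; ring
    have hsecond : ∑ p ∈ Gr, ∑ m ∈ Mv, ∑ m' ∈ Mv, (if (m, m') ∈ Bad p then (2 : ℝ) else 0)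
        ≤ (Gr.card : ℝ) * (2 * (δ₁ * (Mv.card : ℝ) ^ 2)) := by
      rw [← nsmul_eq_mul]
      refine Finset.sum_le_card_nsmul _ _ _ fun p hp => ?_
      rw [← Finset.sum_product', ← Finset.sum_filter, Finset.sum_const, nsmul_eq_mul, mul_comm]
      refine mul_le_mul_of_nonneg_left ?_ (by norm_num)
      refine le_trans ?_ (hBad p hp)
      have : (Mv ×ˢ Mv).filter (fun x => (x.1, x.2) ∈ Bad p) ⊆ Bad p := by
        intro x hx
        exact (Finset.mem_filter.1 hx).2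
      exact_mod_cast Finset.card_le_card this
    have hfin : (Mv.card : ℝ) * ∑ p ∈ Gr, ∑ m ∈ Mv, |g (sw p m).1 - g p|
        ≤ (Mv.card : ℝ) * ((Gr.card : ℝ) * ((Mv.card : ℝ) * (δ₂ + 2 * δ₁))) := by
      refine hsum.trans ((add_le_add hfirst hsecond).trans (le_of_eq ?_))
      ring
    exact le_of_mul_le_mul_left hfin hMpos
  have hB : |(Mv.card : ℝ) * ∑ p ∈ Gr, g p * g p - (Mv.card : ℝ) * ∑ p ∈ Gr, ν p * g p|
      ≤ (Gr.card : ℝ) * ((Mv.card : ℝ) * (δ₂ + 2 * δ₁)) := by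
    rw [hB1, hB2, ← Finset.sum_sub_distrib]
    refine (Finset.abs_sum_le_sum_abs _ _).trans (le_trans ?_ hT)
    refine Finset.sum_le_sum fun p hp => ?_
    rw [← Finset.sum_sub_distrib]
    refine (Finset.abs_sum_le_sum_abs _ _).trans (Finset.sum_le_sum fun m hm => ?_)
    rw [← mul_sub, abs_mul]
    calc |f p (ctr m)| * |g (sw p m).1 - g p| ≤ 1 * |g (sw p m).1 - g p| :=
          mul_le_mul_of_nonneg_right (hf p hp _ (h.ctr_mem m hm)) (abs_nonneg _)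
      _ = |g (sw p m).1 - g p| := one_mul _
  -- conclusion
  have hexp : (Mv.card : ℝ) * ∑ p ∈ Gr, (ν p - g p) ^ 2
      = ((Mv.card : ℝ) * ∑ p ∈ Gr, g p * g p - (Mv.card : ℝ) * ∑ p ∈ Gr, ν p * g p)
        - ((Mv.card : ℝ) * ∑ p ∈ Gr, g p * ν p - (Mv.card : ℝ) * ∑ p ∈ Gr, ν p * ν p) := by
    rw [← mul_sub, ← mul_sub, ← mul_sub, ← Finset.sum_sub_distrib, ← Finset.sum_sub_distrib,
      ← Finset.sum_sub_distrib]
    congr 1
    refine Finset.sum_congr rfl fun p _ => ?_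
    ring
  have h1 := abs_le.1 hA
  have h2 := abs_le.1 hB
  have hfin : (Mv.card : ℝ) * ∑ p ∈ Gr, (ν p - g p) ^ 2
      ≤ (Mv.card : ℝ) * ((2 * δ₂ + 2 * δ₁) * (Gr.card : ℝ)) := by
    rw [hexp]
    nlinarith [h1.1, h2.2]
  exact le_of_mul_le_mul_left hfin hMpos

end

end Crest.Agent.R166.Sec269
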