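import Crest.Agent.R166.SwP_470
import Crest.Agent.R166.Ports_269
import Crest.Agent.R166.Sec_269

/-!
# Row 166, section 20: ball-boundary resampling of port-numbered graphs (helper470)

Two-sided ball of depth `L ≥ 1` around the half-edge (directed edge) `h0`:
* `rt p h0 s`     : root of the side `s` (`true ↦ h0`, `false ↦ p h0`)
* `bv p h0 s w`   : vertex of the ball with word `w` (`|w| ≤ L`, letters `≠ 0`) on the side `s`
* `TL L p h0`     : tree-like: all `bv p h0 s w`, `|w| ≤ L`, distinct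
* `BI d L`        : index type of the boundary edges, `tau p h0 i` the boundary half-edge (tail at
                    depth `L-1`, head at depth `L`)
* `BVal L p h0 b` : validity of the choices `b : BI d L → HE n d`
* `bsw L p (h0,b)`: the lazy switching; new edges `tau i — b i`, `p (tau i) — p (b i)`
* `moveSystem`    : it is a `Sec269.MoveSystem` on `Ports n d` with all moves `HE × (BI → HE)`
* `desc_bsw`, `bv_bsw_lt`, `bv_bsw_eq` : the ball after the switching
-/

set_option autoImplicit false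
set_option linter.unusedSectionVars false

open Finset

namespace Crest.Agent.R166.SwP470

variable {n d : ℕ}

lemma isSP_of_isPort {p : Equiv.Perm (HE n d)} (hp : IsPort p) : IsSP (α := HE n d) Prod.fst p where
  inv := hp.inv
  loop := hp.noloop
  multi := fun _ _ h1 h2 => hp.fst_inj h1 h2

lemma isPort_of_isSP {p : Equiv.Perm (HE n d)} (hp : IsSP (α := HE n d) Prod.fst p) : IsPort p where
  inv := hp.inv
  noloop := hp.loop
  simple := fun v i j h => by
    have := hp.multi (v, i) (v, j) rfl h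
    simpa using this

lemma adj_iff_adj {p : Equiv.Perm (HE n d)} (hp : IsPort p) {v w : Fin n} :
    Adj (α := HE n d) Prod.fst p v w ↔ (graphOf p).Adj v w := by
  rw [hp.adj_iff]
  constructor
  · rintro ⟨⟨v', i⟩, rfl, h2⟩
    exact ⟨i, h2⟩
  · rintro ⟨i, hi⟩
    exact ⟨(v, i), rfl, hi⟩

section ball

variable [NeZero d]

/-- nonzero letters -/
abbrev NZ (d : ℕ) [NeZero d] : Type := {k : Fin d // k ≠ 0}

/-- word of nonzero letters -/
def NZw (w : List (Fin d)) : Prop := ∀ k ∈ w, k ≠ 0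

/-- index type of the boundary -/
abbrev BI (d : ℕ) [NeZero d] (L : ℕ) : Type := Bool × (Fin L → NZ d)

/-- the word of a boundary index -/
def wd {L : ℕ} (f : Fin L → NZ d) : List (Fin d) := List.ofFn fun i => (f i).1

lemma wd_length {L : ℕ} (f : Fin L → NZ d) : (wd f).length = L := by simp [wd]

lemma wd_NZw {L : ℕ} (f : Fin L → NZ d) : NZw (wd f) := by
  intro k hk
  simp only [wd, List.mem_ofFn] at hk
  obtain ⟨i, rfl⟩ := hk
  exact (f i).2

lemma wd_inj {L : ℕ} {f g : Fin L → NZ d} (h : wd f = wd g) : f = g := by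
  unfold wd at h
  have := List.ofFn_injective h
  funext i
  exact Subtype.ext (congrFun this i)

lemma exists_wd {L : ℕ} {w : List (Fin d)} (hw : NZw w) (hl : w.length = L) :
    ∃ f : Fin L → NZ d, wd f = w := by
  subst hl
  refine ⟨fun i => ⟨w.get i, hw _ (List.get_mem w i)⟩, ?_⟩
  simp [wd]

/-- root half-edge of a side -/
def rt (p : Equiv.Perm (HE n d)) (h0 : HE n d) (s : Bool) : HE n d := if s then h0 else p h0

/-- ball vertex -/
def bv (p : Equiv.Perm (HE n d)) (h0 : HE n d) (s : Bool) (w : List (Fin d)) : Fin n :=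
  (p (desc p (rt p h0 s) w)).1

/-- the ball of depth `L` around `h0` is a tree -/
def TL (L : ℕ) (p : Equiv.Perm (HE n d)) (h0 : HE n d) : Prop :=
  ∀ s s' w w', NZw w → NZw w' → w.length ≤ L → w'.length ≤ L →
    bv p h0 s w = bv p h0 s' w' → s = s' ∧ w = w'

/-- boundary half-edge -/
def tau {L : ℕ} (p : Equiv.Perm (HE n d)) (h0 : HE n d) (i : BI d L) : HE n d :=
  desc p (rt p h0 i.1) (wd i.2)

/-- its partner -/
def ab {L : ℕ} (p : Equiv.Perm (HE n d)) (h0 : HE n d) (i : BI d L) : HE n d := p (tau p h0 i)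

/-- validity of the choices -/
structure BVal (L : ℕ) (p : Equiv.Perm (HE n d)) (h0 : HE n d) (b : BI d L → HE n d) : Prop where
  tl : TL L p h0
  bu : ∀ s w i, NZw w → w.length ≤ L → bv p h0 s w ≠ (b i).1
  bw : ∀ s w i, NZw w → w.length ≤ L → bv p h0 s w ≠ (p (b i)).1
  uu : ∀ i j, (b i).1 = (b j).1 → i = j
  ww : ∀ i j, (p (b i)).1 = (p (b j)).1 → i = j
  uw : ∀ i j, (b i).1 ≠ (p (b j)).1
  ntu : ∀ i, ¬ Adj (α := HE n d) Prod.fst p (tau p h0 i).1 (b i).1
  naw : ∀ i, ¬ Adj (α := HE n d) Prod.fst p (ab p h0 i).1 (p (b i)).1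

section
variable {p : Equiv.Perm (HE n d)} {h0 : HE n d} {L : ℕ} {b : BI d L → HE n d}

lemma NZw.append {w : List (Fin d)} {k : Fin d} (h : NZw (w ++ [k])) : NZw w ∧ k ≠ 0 :=
  ⟨fun x hx => h x (by simp [hx]), h k (by simp)⟩

lemma desc_snoc (p : Equiv.Perm (HE n d)) (h : HE n d) (w : List (Fin d)) (k : Fin d) :
    desc p h (w ++ [k]) = rot k (p (desc p h w)) := by
  rw [desc_append]; rfl

lemma p_rt (hp : IsPort p) (s : Bool) : p (rt p h0 (!s)) = rt p h0 s := by
  cases s
  · simp [rt]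
  · simp [rt, hp.inv]

/-- the tail of a half-edge of the ball is the ball vertex one step before -/
lemma desc_fst_snoc (s : Bool) (w : List (Fin d)) (k : Fin d) :
    (desc p (rt p h0 s) (w ++ [k])).1 = bv p h0 s w := by
  rw [desc_snoc]; rfl

lemma desc_fst_nil (hp : IsPort p) (s : Bool) :
    (desc p (rt p h0 s) []).1 = bv p h0 (!s) [] := by
  simp only [desc_nil, bv]
  rw [p_rt hp]

/-- the tail is always a ball vertex -/
lemma desc_fst (hp : IsPort p) (s : Bool) (w : List (Fin d)) (hw : NZw w) :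
    ∃ s' w', NZw w' ∧ w'.length ≤ w.length - 1 ∧ (desc p (rt p h0 s) w).1 = bv p h0 s' w' := by
  rcases List.eq_nil_or_concat w with rfl | ⟨w', k, rfl⟩
  · exact ⟨!s, [], by simp [NZw], by simp, desc_fst_nil hp s⟩
  · rw [List.concat_eq_append] at hw ⊢
    exact ⟨s, w', hw.append.1, by simp, desc_fst_snoc s w' k⟩

lemma tau_fst (hL : 1 ≤ L) (i : BI d L) :
    ∃ w', NZw w' ∧ w'.length = L - 1 ∧ (tau p h0 i).1 = bv p h0 i.1 w' := by
  rcases List.eq_nil_or_concat (wd i.2) with h | ⟨w', k, h⟩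
  · have := wd_length i.2
    rw [h] at this
    simp at this
    omega
  · rw [List.concat_eq_append] at h
    have h1 := wd_NZw i.2
    have h2 := wd_length i.2
    rw [h] at h1 h2
    refine ⟨w', h1.append.1, by simp at h2; omega, ?_⟩
    unfold tau
    rw [h, desc_fst_snoc]

lemma ab_fst (i : BI d L) : (ab p h0 i).1 = bv p h0 i.1 (wd i.2) := rfl

lemma BVal.val (hL : 1 ≤ L) (hp : IsPort p) (h : BVal L p h0 b) :
    Val (α := HE n d) Prod.fst p (ab p h0) b := by
  have key : ∀ i j : BI d L, (p (ab p h0 i)).1 ≠ (ab p h0 j).1 := by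
    intro i j hij
    unfold ab at hij
    rw [hp.inv] at hij
    obtain ⟨w', h1, h2, h3⟩ := tau_fst (p := p) (h0 := h0) hL i
    rw [h3] at hij
    have := h.tl _ _ _ _ h1 (wd_NZw j.2) (by omega) (wd_length j.2).le hij
    have h4 := congrArg List.length this.2
    rw [wd_length] at h4
    omega
  have key2 : ∀ i : BI d L, ∃ w', NZw w' ∧ w'.length ≤ L ∧ (p (ab p h0 i)).1 = bv p h0 i.1 w' := by
    intro i
    unfold ab
    rw [hp.inv]
    obtain ⟨w', h1, h2, h3⟩ := tau_fst (p := p) (h0 := h0) hL i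
    exact ⟨w', h1, by omega, h3⟩
  refine ⟨?_, h.uu, h.ww, ?_, ?_, h.uw, key, ?_, ?_, ?_, h.naw⟩
  · intro i j hij
    have := h.tl _ _ _ _ (wd_NZw i.2) (wd_NZw j.2) (wd_length i.2).le (wd_length j.2).le hij
    exact Prod.ext this.1 (wd_inj this.2)
  · intro i j
    exact h.bu _ _ _ (wd_NZw i.2) (wd_length i.2).le
  · intro i j
    exact h.bw _ _ _ (wd_NZw i.2) (wd_length i.2).le
  · intro i j
    obtain ⟨w', h1, h2, h3⟩ := key2 i
    rw [h3]; exact h.bu _ _ _ h1 h2
  · intro i j
    obtain ⟨w', h1, h2, h3⟩ := key2 i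
    rw [h3]; exact h.bw _ _ _ h1 h2
  · intro i
    have := h.ntu i
    unfold ab
    rwa [hp.inv]

/-- the interior half-edges of the ball are not touched -/
lemma BVal.out (hL : 1 ≤ L) (hp : IsPort p) (h : BVal L p h0 b) (s : Bool) {w : List (Fin d)}
    (hw : NZw w) (hl : w.length < L) :
    Out p (ab p h0) b (desc p (rt p h0 s) w) := by
  obtain ⟨s', w', hw', hl', hx⟩ := desc_fst (p := p) (h0 := h0) hp s w hw
  refine ⟨fun i hi => ?_, fun i hi => ?_, fun i hi => ?_, fun i hi => ?_⟩
  · have h1 : (ab p h0 i).1 = (desc p (rt p h0 s) w).1 := by rw [hi]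
    rw [hx, ab_fst] at h1
    have := h.tl _ _ _ _ (wd_NZw i.2) hw' (wd_length i.2).le (by omega) h1
    have h4 := congrArg List.length this.2
    rw [wd_length] at h4
    omega
  · have h1 : (b i).1 = (desc p (rt p h0 s) w).1 := by rw [hi]
    rw [hx] at h1
    exact h.bu s' w' i hw' (by omega) h1.symm
  · have h1 : (ab p h0 i).1 = bv p h0 s w := by
      unfold bv
      rw [← hi, hp.inv]
    rw [ab_fst] at h1
    have := h.tl _ _ _ _ (wd_NZw i.2) hw (wd_length i.2).le hl.le h1
    have h4 := congrArg List.length this.2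
    rw [wd_length] at h4
    omega
  · have h1 : (p (b i)).1 = (desc p (rt p h0 s) w).1 := by rw [hi]
    rw [hx] at h1
    exact h.bw s' w' i hw' (by omega) h1.symm

/-- the switched pairing -/
noncomputable def np (p : Equiv.Perm (HE n d)) (h0 : HE n d) {L : ℕ} (b : BI d L → HE n d) :
    Equiv.Perm (HE n d) := cj (ab p h0) b p

lemma BVal.np_interior (hL : 1 ≤ L) (hp : IsPort p) (h : BVal L p h0 b) (s : Bool)
    {w : List (Fin d)} (hw : NZw w) (hl : w.length < L) :
    np p h0 b (desc p (rt p h0 s) w) = p (desc p (rt p h0 s) w) :=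
  (h.out hL hp s hw hl).cj (isSP_of_isPort hp)

lemma BVal.rt_eq (hL : 1 ≤ L) (hp : IsPort p) (h : BVal L p h0 b) (s : Bool) :
    rt (np p h0 b) h0 s = rt p h0 s := by
  cases s
  · have := h.np_interior hL hp true (w := []) (by simp [NZw]) (by simp; omega)
    simpa [rt] using this
  · rfl

/-- words of length `≤ L` see the same half-edges -/
lemma BVal.desc_eq (hL : 1 ≤ L) (hp : IsPort p) (h : BVal L p h0 b) (s : Bool)
    {w : List (Fin d)} (hw : NZw w) (hl : w.length ≤ L) :
    desc (np p h0 b) (rt (np p h0 b) h0 s) w = desc p (rt p h0 s) w := by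
  induction w using List.reverseRecOn with
  | nil => simpa using h.rt_eq hL hp s
  | append_singleton w k ih =>
    have hl' : w.length < L := by simp at hl; omega
    rw [desc_snoc, desc_snoc, ih hw.append.1 hl'.le, h.np_interior hL hp s hw.append.1 hl']

lemma BVal.tau_eq (hL : 1 ≤ L) (hp : IsPort p) (h : BVal L p h0 b) (i : BI d L) :
    tau (np p h0 b) h0 i = tau p h0 i :=
  h.desc_eq hL hp _ (wd_NZw i.2) (wd_length i.2).le

lemma BVal.ab_eq (hL : 1 ≤ L) (hp : IsPort p) (h : BVal L p h0 b) (i : BI d L) :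
    ab (np p h0 b) h0 i = b i := by
  have h1 := (h.val hL hp).cj_t (isSP_of_isPort hp) i
  unfold ab
  rw [h.tau_eq hL hp]
  have h2 : p (ab p h0 i) = tau p h0 i := hp.inv _
  rw [h2] at h1
  exact h1

/-- interior ball vertices are unchanged -/
lemma BVal.bv_lt (hL : 1 ≤ L) (hp : IsPort p) (h : BVal L p h0 b) (s : Bool)
    {w : List (Fin d)} (hw : NZw w) (hl : w.length < L) :
    bv (np p h0 b) h0 s w = bv p h0 s w := by
  unfold bv
  rw [h.desc_eq hL hp s hw hl.le, h.np_interior hL hp s hw hl]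

/-- the new boundary vertices are the `u_i` -/
lemma BVal.bv_wd (hL : 1 ≤ L) (hp : IsPort p) (h : BVal L p h0 b) (i : BI d L) :
    bv (np p h0 b) h0 i.1 (wd i.2) = (b i).1 := by
  have := h.ab_eq hL hp i
  rw [← this]; rfl

/-- every ball vertex after the switching -/
lemma BVal.bv_cases (hL : 1 ≤ L) (hp : IsPort p) (h : BVal L p h0 b) (s : Bool)
    {w : List (Fin d)} (hw : NZw w) (hl : w.length ≤ L) :
    (w.length < L ∧ bv (np p h0 b) h0 s w = bv p h0 s w) ∨
      ∃ f : Fin L → NZ d, wd f = w ∧ bv (np p h0 b) h0 s w = (b (s, f)).1 := by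
  rcases lt_or_eq_of_le hl with h1 | h1
  · exact Or.inl ⟨h1, h.bv_lt hL hp s hw h1⟩
  · obtain ⟨f, hf⟩ := exists_wd hw h1
    refine Or.inr ⟨f, hf, ?_⟩
    rw [← hf]
    exact h.bv_wd hL hp (s, f)

lemma BVal.isPort (hL : 1 ≤ L) (hp : IsPort p) (h : BVal L p h0 b) : IsPort (np p h0 b) :=
  isPort_of_isSP ((h.val hL hp).isSP (isSP_of_isPort hp))

/-- **validity is symmetric** -/
theorem BVal.symm (hL : 1 ≤ L) (hp : IsPort p) (h : BVal L p h0 b) :
    BVal L (np p h0 b) h0 (ab p h0) := by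
  have hV := h.val hL hp
  have hS := hV.symm (isSP_of_isPort hp)
  have hab : ∀ i, ab (np p h0 b) h0 i = b i := fun i => h.ab_eq hL hp i
  have hpa : ∀ i, np p h0 b (ab p h0 i) = p (b i) := fun i => hV.cj_a i
  refine ⟨?_, ?_, ?_, hS.uu, hS.ww, hS.uw, ?_, ?_⟩
  · intro s s' w w' hw hw' hl hl' he
    rcases h.bv_cases hL hp s hw hl with ⟨h1, h2⟩ | ⟨f, h1, h2⟩ <;>
    rcases h.bv_cases hL hp s' hw' hl' with ⟨h3, h4⟩ | ⟨g, h3, h4⟩
    · rw [h2, h4] at he
      exact h.tl _ _ _ _ hw hw' hl hl' he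
    · rw [h2, h4] at he
      exact absurd he (h.bu s w _ hw hl)
    · rw [h2, h4] at he
      exact absurd he.symm (h.bu s' w' _ hw' hl')
    · rw [h2, h4] at he
      have := h.uu _ _ he
      simp only [Prod.mk.injEq] at this
      exact ⟨this.1, by rw [← h1, ← h3, this.2]⟩
  · intro s w i hw hl
    rcases h.bv_cases hL hp s hw hl with ⟨h1, h2⟩ | ⟨f, h1, h2⟩
    · rw [h2]
      intro he
      rw [ab_fst] at he
      have := h.tl _ _ _ _ hw (wd_NZw i.2) hl (wd_length i.2).le he
      have h4 := congrArg List.length this.2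
      rw [wd_length] at h4
      omega
    · rw [h2]
      exact (hV.au _ _).symm
  · intro s w i hw hl
    rw [hpa]
    rcases h.bv_cases hL hp s hw hl with ⟨h1, h2⟩ | ⟨f, h1, h2⟩
    · rw [h2]; exact h.bw s w i hw hl
    · rw [h2]; exact h.uw _ _
  · intro i
    have h1 := hS.ntu i
    rw [← hab i] at h1
    have h2 : (np p h0 b) (ab (np p h0 b) h0 i) = tau (np p h0 b) h0 i := by
      unfold ab
      exact (h.isPort hL hp).inv _
    have h3 : cj (ab p h0) b p = np p h0 b := rfl
    rw [h3, h2] at h1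
    exact h1
  · intro i
    have h1 := hS.naw i
    rw [hab]
    exact h1

/-- switching back -/
theorem BVal.np_np (hL : 1 ≤ L) (hp : IsPort p) (h : BVal L p h0 b) :
    np (np p h0 b) h0 (ab p h0 : BI d L → HE n d) = p := by
  have hab : ab (np p h0 b) h0 = b := funext fun i => h.ab_eq hL hp i
  unfold np
  have h3 : cj (ab p h0) b p = np p h0 b := rfl
  rw [h3, hab]
  exact cj_cj _ _ _

end

/-! ### the lazy switching -/

open Classical in
/-- the lazy switching -/
noncomputable def bsw (L : ℕ) (p : Equiv.Perm (HE n d)) (m : HE n d × (BI d L → HE n d)) :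
    Equiv.Perm (HE n d) × (HE n d × (BI d L → HE n d)) :=
  if BVal L p m.1 m.2 then (np p m.1 m.2, (m.1, ab p m.1)) else (p, m)

lemma bsw_pos {L : ℕ} {p : Equiv.Perm (HE n d)} {m : HE n d × (BI d L → HE n d)}
    (h : BVal L p m.1 m.2) : bsw L p m = (np p m.1 m.2, (m.1, ab p m.1)) := by
  unfold bsw; rw [if_pos h]

lemma bsw_neg {L : ℕ} {p : Equiv.Perm (HE n d)} {m : HE n d × (BI d L → HE n d)}
    (h : ¬ BVal L p m.1 m.2) : bsw L p m = (p, m) := by
  unfold bsw; rw [if_neg h]

/-- **the ball-boundary resampling is a move system** -/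
theorem moveSystem (n d L : ℕ) [NeZero d] (hL : 1 ≤ L) :
    Sec269.MoveSystem (Ports n d)
      (Finset.univ : Finset (HE n d × (BI d L → HE n d))) (Finset.univ : Finset (HE n d)) Prod.fst
      (Fintype.card (BI d L → HE n d)) (bsw L) where
  ctr_mem := fun _ _ => Finset.mem_univ _
  ctr_card := fun e _ _ => by
    classical
    have : (Finset.univ.filter fun m : HE n d × (BI d L → HE n d) => m.1 = e)
        = (Finset.univ : Finset (BI d L → HE n d)).map
          ⟨fun b => (e, b), fun _ _ h => (Prod.mk.inj h).2⟩ := by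
      ext m
      rw [Finset.mem_filter, Finset.mem_map]
      constructor
      · rintro ⟨_, h⟩
        exact ⟨m.2, Finset.mem_univ _, Prod.ext h.symm rfl⟩
      · rintro ⟨y', _, h⟩
        exact ⟨Finset.mem_univ _, (congrArg Prod.fst h).symm⟩
    rw [this, Finset.card_map, Finset.card_univ]
  mem_left := fun p hp m _ => by
    rw [mem_Ports] at hp
    by_cases h : BVal L p m.1 m.2
    · rw [bsw_pos h, mem_Ports]; exact h.isPort hL hp
    · rw [bsw_neg h, mem_Ports]; exact hp
  mem_right := fun _ _ _ _ => Finset.mem_univ _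
  inv := fun p hp m _ => by
    rw [mem_Ports] at hp
    by_cases h : BVal L p m.1 m.2
    · rw [bsw_pos h]
      have h2 := h.symm hL hp
      rw [bsw_pos (m := (m.1, ab p m.1)) h2]
      have h3 : ab (np p m.1 m.2) m.1 = m.2 := funext fun i => h.ab_eq hL hp i
      simp only [h.np_np hL hp, h3]
    · rw [bsw_neg h, bsw_neg h]
  ctr_sw := fun p _ m _ => by
    by_cases h : BVal L p m.1 m.2
    · rw [bsw_pos h]
    · rw [bsw_neg h]

end ball

end Crest.Agent.R166.SwP470
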