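import Crest.Agent.R166.Tree_798
import Crest.Agent.R166.SwP2_470

/-!
# R166, section 20: tree-likeness counts in the form of `SwP2_470` / `SpecA_598` (helper798)
-/

set_option autoImplicit false

open Finset

namespace Crest.Agent.R166.Tree798

open Crest.Agent.R166 Crest.Agent.R166.Sw798

variable {n d : ℕ} [NeZero d]

omit [NeZero d] in
lemma rt_eq (p : Equiv.Perm (HE n d)) (h : HE n d) (b : Bool) :
    SwP470.rt p h b = hb p (!b) h := by
  cases b <;> rfl

lemma bv_eq (p : Equiv.Perm (HE n d)) (h : HE n d) (b : Bool) (w : List (Fin d)) :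
    SwP470.bv p h b w = nd p h (!b) w := by
  unfold SwP470.bv nd
  rw [rt_eq]

lemma TL_iff {L : ℕ} {p : Equiv.Perm (HE n d)} {h : HE n d} :
    SwP470.TL L p h ↔ TreeE p L h := by
  constructor
  · intro hT b w b' w' h1 h2 h3 h4 h5
    have h6 := hT (!b) (!b') w w' h1 h2 h3 h4 (by
      rw [bv_eq, bv_eq, Bool.not_not, Bool.not_not]
      exact h5)
    exact ⟨by simpa using h6.1, h6.2⟩
  · intro hT b b' w w' h1 h2 h3 h4 h5
    rw [bv_eq, bv_eq] at h5
    have h6 := hT (!b) w (!b') w' h1 h2 h3 h4 h5
    exact ⟨by simpa using h6.1, h6.2⟩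

open Classical in
/-- the expected number of half-edges which are not tree-like at depth `L` is bounded -/
theorem sum_card_not_TL_le (hd : 2 ≤ d) (L : ℕ) :
    (∑ p ∈ Ports n d, ((Finset.univ.filter fun h : HE n d => ¬ SwP470.TL L p h).card : ℝ)) ≤
      CT d L * (Ports n d).card := by
  have h := sum_card_notT_le (n := n) hd L
  refine le_of_eq_of_le ?_ h
  refine Finset.sum_congr rfl fun p _ => ?_
  congr 2
  ext x
  simp [notT, TL_iff]

open Classical in
/-- exceptional vertices: some half-edge at `v` is not tree-like at depth `L` -/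
def excV (L : ℕ) (p : Equiv.Perm (HE n d)) (v : Fin n) : Prop := ∃ i, ¬ SwP470.TL L p (v, i)

open Classical in
/-- the expected number of exceptional vertices is bounded -/
theorem sum_card_excV_le (hd : 2 ≤ d) (L : ℕ) :
    (∑ p ∈ Ports n d, ((Finset.univ.filter fun v : Fin n => excV L p v).card : ℝ)) ≤
      CT d L * (Ports n d).card := by
  refine le_trans (Finset.sum_le_sum fun p _ => ?_) (sum_card_not_TL_le (n := n) hd L)
  have hsub : (Finset.univ.filter fun v : Fin n => excV L p v) ⊆
      (Finset.univ.filter fun h : HE n d => ¬ SwP470.TL L p h).image Prod.fst := by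
    intro v hv
    obtain ⟨i, hi⟩ := (Finset.mem_filter.1 hv).2
    exact Finset.mem_image.2 ⟨(v, i), Finset.mem_filter.2 ⟨Finset.mem_univ _, hi⟩, rfl⟩
  exact_mod_cast (Finset.card_le_card hsub).trans Finset.card_image_le

/-- the ball of a bigger radius -/
lemma TL_mono {L L' : ℕ} (hL : L ≤ L') {p : Equiv.Perm (HE n d)} {h : HE n d}
    (hT : SwP470.TL L' p h) : SwP470.TL L p h := TL_iff.2 ((TL_iff.1 hT).mono hL)

end Crest.Agent.R166.Tree798
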