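import Crest.Agent.R166.ExcD_501
import Crest.Agent.R166.TreeTL_798

/-!
Row 166, section 31.5 (helper501): a vertex whose ball spans a tree (`¬ EL`) is tree-like in the
sense of helper470/798: `TL L p h` for every half-edge `h` at `v`.
-/

set_option autoImplicit false

open Finset

namespace Crest.Agent.R166.Exc501

open Crest.Agent.R166 Crest.Agent.R166.Tree798

section

variable {n d : ℕ} [NeZero d] {p : Equiv.Perm (HE n d)}

lemma one_ne (hd : 2 ≤ d) : (1 : Fin d) ≠ 0 := by
  intro h
  have := congrArg Fin.val h
  rw [Fin.val_one', Nat.mod_eq_of_lt (by omega)] at this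
  simp at this

/-- the endpoint of the walk -/
lemma vs_last (g : HE n d) (u : List (Fin d)) :
    vs p g (u ++ [1]) (u.length + 1) = (p (desc p g u)).1 := by
  rw [vs_succ _ _ _ (by simp)]
  congr 3
  simp

lemma vs_mid (g : HE n d) (u : List (Fin d)) {j : ℕ} (hj : j ≤ u.length) :
    vs p g (u ++ [1]) (j + 1) = (p (desc p g (u.take j))).1 := by
  rw [vs_succ _ _ _ (by simp; omega)]
  congr 3
  rw [List.take_append_of_le_length hj]

/-- two words with the same endpoint -/
theorem word_inj (hd : 2 ≤ d) (hp : IsPort p) {v : Fin n} {L : ℕ}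
    (h : ¬ EL (graphOf p) (L + 1) v) {g g' : HE n d} (hg : g.1 = v) (hg' : g'.1 = v)
    {w w' : List (Fin d)} (hw : NZ w) (hw' : NZ w') (hl : w.length ≤ L) (hl' : w'.length ≤ L)
    (he : (p (desc p g w)).1 = (p (desc p g' w')).1) : g = g' ∧ w = w' := by
  have hnz1 : NZ ([1] : List (Fin d)) := by
    intro k hk
    simp only [List.mem_singleton] at hk
    rw [hk]
    exact one_ne hd
  have h1 := walk_inj h (vs p g (w ++ [1])) (vs p g' (w' ++ [1])) (w.length + 1)
    (w'.length + 1) (by omega) (by omega) hg hg'
    (fun j hj => vs_adj hp g _ j (by simp; omega)) (fun j hj => vs_adj hp g' _ j (by simp; omega))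
    (fun j hj => vs_ne_two hp g _ (NZ_append.2 ⟨hw, hnz1⟩) j (by simp; omega))
    (fun j hj => vs_ne_two hp g' _ (NZ_append.2 ⟨hw', hnz1⟩) j (by simp; omega))
    (by rw [vs_last, vs_last]; exact he)
  obtain ⟨hlen, hall⟩ := h1
  have hlen' : w.length = w'.length := by omega
  have hstep : ∀ j ≤ w.length, desc p g (w.take j) = desc p g' (w'.take j) ∧
      w.take j = w'.take j := by
    intro j
    induction j with
    | zero =>
      intro _
      have h2 := hall 1 (by omega)
      rw [vs_mid g w (Nat.zero_le _), vs_mid g' w' (Nat.zero_le _)] at h2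
      refine ⟨hp.fst_inj ?_ h2, by simp⟩
      simp [hg, hg']
    | succ j ih =>
      intro hj
      obtain ⟨ih1, ih2⟩ := ih (by omega)
      have e1 := desc_take_succ p g w j (by omega)
      have e2 := desc_take_succ p g' w' j (by omega)
      have h2 := hall (j + 2) (by omega)
      rw [vs_mid g w hj, vs_mid g' w' (by omega)] at h2
      have h3 : (desc p g (w.take (j + 1))).1 = (desc p g' (w'.take (j + 1))).1 := by
        rw [e1, e2, ih1]; rfl
      have h4 := hp.fst_inj h3 h2
      refine ⟨h4, ?_⟩
      rw [e1, e2, ih1] at h4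
      have h5 : w[j] = w'[j] := by
        have := congrArg Prod.snd h4
        simpa [child, rot] using this
      rw [List.take_succ_eq_append_getElem (by omega : j < w.length),
        List.take_succ_eq_append_getElem (by omega : j < w'.length), ih2, h5]
  refine ⟨by simpa using (hstep 0 (Nat.zero_le _)).1, ?_⟩
  have h6 := (hstep w.length le_rfl).2
  rw [List.take_length] at h6
  rw [h6, hlen', List.take_length]

/-- the walk never comes back to its starting point -/
theorem word_ne (hd : 2 ≤ d) (hp : IsPort p) {v : Fin n} {L : ℕ}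
    (h : ¬ EL (graphOf p) (L + 1) v) {g : HE n d} (hg : g.1 = v)
    {w : List (Fin d)} (hw : NZ w) (hl : w.length ≤ L) :
    (p (desc p g w)).1 ≠ v := by
  have hnz1 : NZ ([1] : List (Fin d)) := by
    intro k hk
    simp only [List.mem_singleton] at hk
    rw [hk]
    exact one_ne hd
  intro he
  have h1 := walk_inj h (vs p g (w ++ [1])) (fun _ => v) (w.length + 1)
    0 (by omega) (by omega) hg rfl
    (fun j hj => vs_adj hp g _ j (by simp; omega)) (fun j hj => absurd hj (by omega))
    (fun j hj => vs_ne_two hp g _ (NZ_append.2 ⟨hw, hnz1⟩) j (by simp; omega))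
    (fun j hj => absurd hj (by omega))
    (by rw [vs_last]; exact he)
  omega

/-- **bridge**: `¬ EL` at radius `L+1` implies tree-likeness at depth `L` of all half-edges. -/
theorem TL_of_not_EL (hd : 2 ≤ d) (hp : IsPort p) {L : ℕ} {h : HE n d}
    (hE : ¬ EL (graphOf p) (L + 1) h.1) : SwP470.TL L p h := by
  have hpp : ∀ k, desc p (p h) [k] = rot k h := by
    intro k
    show rot k (p (p h)) = rot k h
    rw [hp.inv]
  have hcons : ∀ k (w : List (Fin d)), SwP470.bv p h false (k :: w) =
      (p (desc p (rot k h) w)).1 := by
    intro k w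
    show (p (desc p (child p (p h) k) w)).1 = _
    have : child p (p h) k = rot k h := hpp k
    rw [this]
  have hnil : SwP470.bv p h false [] = h.1 := by
    show (p (p h)).1 = h.1
    rw [hp.inv]
  have htrue : ∀ w, SwP470.bv p h true w = (p (desc p h w)).1 := fun w => rfl
  have hNZ : ∀ {k : Fin d} {w : List (Fin d)}, SwP470.NZw (k :: w) → k ≠ 0 ∧ NZ w :=
    fun {k w} hw => ⟨hw k (by simp), fun x hx => hw x (by simp [hx])⟩
  intro s s' w w' hw hw' hl hl' he
  cases s <;> cases s'
  · -- both false
    cases w with
    | nil =>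
      cases w' with
      | nil => exact ⟨rfl, rfl⟩
      | cons k w' =>
        rw [hnil, hcons] at he
        simp only [List.length_cons] at hl'
        exact absurd he.symm (word_ne hd hp hE (rot_fst k h) (hNZ hw').2 (by omega))
    | cons k w =>
      simp only [List.length_cons] at hl
      cases w' with
      | nil =>
        rw [hnil, hcons] at he
        exact absurd he (word_ne hd hp hE (rot_fst k h) (hNZ hw).2 (by omega))
      | cons k' w' =>
        simp only [List.length_cons] at hl'
        rw [hcons, hcons] at he
        have h1 := word_inj hd hp hE (rot_fst k h) (rot_fst k' h) (hNZ hw).2 (hNZ hw').2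
          (by omega) (by omega) he
        refine ⟨rfl, ?_⟩
        have h2 : k = k' := by
          have := congrArg Prod.snd h1.1
          simpa [rot] using this
        rw [h2, h1.2]
  · cases w with
    | nil =>
      rw [hnil, htrue] at he
      exact absurd he.symm (word_ne hd hp hE rfl hw' hl')
    | cons k w =>
      simp only [List.length_cons] at hl
      rw [hcons, htrue] at he
      have h1 := word_inj hd hp hE (rot_fst k h) rfl (hNZ hw).2 hw' (by omega) hl' he
      exact absurd ((rot_eq_iff k h).1 h1.1) (hNZ hw).1
  · cases w' with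
    | nil =>
      rw [hnil, htrue] at he
      exact absurd he (word_ne hd hp hE rfl hw hl)
    | cons k w' =>
      simp only [List.length_cons] at hl'
      rw [hcons, htrue] at he
      have h1 := word_inj hd hp hE (rot_fst k h) rfl (hNZ hw').2 hw (by omega) hl he.symm
      exact absurd ((rot_eq_iff k h).1 h1.1) (hNZ hw').1
  · rw [htrue, htrue] at he
    exact ⟨rfl, (word_inj hd hp hE rfl rfl hw hw' hl hl' he).2⟩

end

end Crest.Agent.R166.Exc501
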