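import Crest.Agent.R166.Res2_789
import Crest.Agent.R166.Defs_419

/-!
# R166, section 30.8 (helper355): dependence of blocks on the scale `η`

* `norm_Res_sub_le` : `|R_xy(z) - R_xy(w)| ≤ |z-w| √(Im R_xx(z)/Im z) √(Im R_yy(w)/Im w)`
* `im_ratio_le`, `im_ratio_le'` : `Im R_xx` at two scales `η ≤ η'` are comparable (factor `η'/η`)
* `norm_entry_sub_le` : `|R_xy(E+iη)-R_xy(E+iη')| ≤ (η'/η-1) √2 √(Im R_xx Im R_yy)`, `η' ≤ 2η`
* `norm_Res_le` : `|R_xy(z)| ≤ 1/Im z`
* `sq_min_sub_le` : the truncated squared distances to the clean value, (H5)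
* `avg` versions, (H5), (H6).
-/

set_option autoImplicit false
set_option linter.unusedSectionVars false

open Matrix Complex

namespace Crest.Agent.R166.ScaleD355

open Crest.Agent.R166.Res789

variable {V : Type*} [Fintype V] [DecidableEq V]

/-- the two definitions of the resolvent agree -/
lemma Res_eq (H : Matrix V V ℝ) (z : ℂ) : Crest.Agent.R166.Res H z = Res789.Res H z := rfl

/-- Ward identity for a row -/
lemma sum_row_sq {H : Matrix V V ℝ} (hH : Hᵀ = H) {z : ℂ} (hz : 0 < z.im) (x : V) :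
    ∑ k, ‖Res789.Res H z x k‖ ^ 2 = (Res789.Res H z x x).im / z.im := by
  have hw := congrFun (congrFun (ward hH hz) x) x
  simp only [cx_apply, imM_apply, Matrix.smul_apply, Matrix.mul_apply, smul_eq_mul,
    Matrix.conjTranspose_apply] at hw
  have hre := congrArg Complex.re hw
  rw [Complex.ofReal_re, Complex.re_ofReal_mul, Complex.re_sum] at hre
  rw [hre, mul_div_assoc, mul_comm, div_mul_cancel₀ _ hz.ne']
  refine Finset.sum_congr rfl fun k _ => ?_
  rw [← Complex.normSq_eq_norm_sq, Complex.normSq_apply]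
  simp

lemma Res_symm_apply {H : Matrix V V ℝ} (hH : Hᵀ = H) {z : ℂ} (hz : 0 < z.im) (x y : V) :
    Res789.Res H z x y = Res789.Res H z y x := by
  have := congrFun (congrFun (Res_transpose hH hz) y) x
  simpa using this

lemma sum_col_sq {H : Matrix V V ℝ} (hH : Hᵀ = H) {z : ℂ} (hz : 0 < z.im) (x : V) :
    ∑ k, ‖Res789.Res H z k x‖ ^ 2 = (Res789.Res H z x x).im / z.im := by
  rw [← sum_row_sq hH hz x]
  exact Finset.sum_congr rfl fun k _ => by rw [Res_symm_apply hH hz k x]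

lemma im_diag_nonneg {H : Matrix V V ℝ} (hH : Hᵀ = H) {z : ℂ} (hz : 0 < z.im) (x : V) :
    0 ≤ (Res789.Res H z x x).im := by
  have h1 := sum_row_sq hH hz x
  have h2 : 0 ≤ ∑ k, ‖Res789.Res H z x k‖ ^ 2 := Finset.sum_nonneg fun _ _ => by positivity
  rw [h1] at h2
  rcases le_or_gt 0 (Res789.Res H z x x).im with h | h
  · exact h
  · have := div_neg_of_neg_of_pos h hz
    linarith

/-- entries of the resolvent are bounded by `1/Im z` -/
lemma norm_diag_le {H : Matrix V V ℝ} (hH : Hᵀ = H) {z : ℂ} (hz : 0 < z.im) (x : V) :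
    ‖Res789.Res H z x x‖ ≤ 1 / z.im := by
  have h1 := sum_row_sq hH hz x
  have h2 : ‖Res789.Res H z x x‖ ^ 2 ≤ ∑ k, ‖Res789.Res H z x k‖ ^ 2 :=
    Finset.single_le_sum (f := fun k => ‖Res789.Res H z x k‖ ^ 2) (fun _ _ => by positivity)
      (Finset.mem_univ x)
  have h3 : (Res789.Res H z x x).im ≤ ‖Res789.Res H z x x‖ := Complex.im_le_norm _
  set a := ‖Res789.Res H z x x‖ with ha
  have ha0 : 0 ≤ a := norm_nonneg _
  have h4 : a ^ 2 ≤ a / z.im := by
    refine h2.trans ?_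
    rw [h1]
    gcongr
  rcases ha0.eq_or_lt with h0 | h0
  · rw [← h0]; positivity
  · rw [le_div_iff₀ hz]
    rw [le_div_iff₀ hz] at h4
    nlinarith

/-- entries of the resolvent are bounded by `1/Im z` -/
lemma norm_Res_le {H : Matrix V V ℝ} (hH : Hᵀ = H) {z : ℂ} (hz : 0 < z.im) (x y : V) :
    ‖Res789.Res H z x y‖ ≤ 1 / z.im := by
  have h1 := sum_row_sq hH hz x
  have h2 : ‖Res789.Res H z x y‖ ^ 2 ≤ ∑ k, ‖Res789.Res H z x k‖ ^ 2 :=
    Finset.single_le_sum (f := fun k => ‖Res789.Res H z x k‖ ^ 2) (fun _ _ => by positivity)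
      (Finset.mem_univ y)
  have h3 : (Res789.Res H z x x).im ≤ 1 / z.im :=
    (Complex.im_le_norm _).trans (norm_diag_le hH hz x)
  have h4 : ‖Res789.Res H z x y‖ ^ 2 ≤ (1 / z.im) ^ 2 := by
    refine h2.trans ?_
    rw [h1, div_le_iff₀ hz]
    refine h3.trans (le_of_eq ?_)
    field_simp
  exact (pow_le_pow_iff_left₀ (norm_nonneg _) (by positivity) (by norm_num)).mp h4

/-- comparison of entries at two energies -/
theorem norm_Res_sub_le {H : Matrix V V ℝ} (hH : Hᵀ = H) {z w : ℂ} (hz : 0 < z.im)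
    (hw : 0 < w.im) (x y : V) :
    ‖Res789.Res H z x y - Res789.Res H w x y‖ ≤
      ‖z - w‖ * (Real.sqrt ((Res789.Res H z x x).im / z.im) *
        Real.sqrt ((Res789.Res H w y y).im / w.im)) := by
  have h1 := congrFun (congrFun (Res_sub hH hz hw) x) y
  simp only [Matrix.sub_apply, Matrix.smul_apply, Matrix.mul_apply, smul_eq_mul] at h1
  rw [h1, norm_mul]
  refine mul_le_mul_of_nonneg_left ?_ (norm_nonneg _)
  rw [← sum_row_sq hH hz x, ← sum_col_sq hH hw y]
  calc ‖∑ k, Res789.Res H z x k * Res789.Res H w k y‖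
      ≤ ∑ k, ‖Res789.Res H z x k‖ * ‖Res789.Res H w k y‖ := by
        refine (norm_sum_le _ _).trans (le_of_eq ?_)
        exact Finset.sum_congr rfl fun k _ => norm_mul _ _
    _ ≤ _ := Real.sum_mul_le_sqrt_mul_sqrt _ _ _

/-- the spectral parameter `E + iη` -/
def zq (E η : ℝ) : ℂ := ⟨E, η⟩

lemma ze_eq (E η : ℝ) : ze E η = zq E η := by
  unfold ze zq
  apply Complex.ext <;> simp

lemma zz_eq (E K : ℝ) (n : ℕ) : zz E K n = zq E (K / n) := by
  unfold zz zq
  apply Complex.ext <;> simp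

lemma norm_zq_sub {E η η' : ℝ} (h : η ≤ η') : ‖zq E η - zq E η'‖ = η' - η := by
  have : zq E η - zq E η' = ((η - η' : ℝ) : ℂ) * I := by
    unfold zq
    apply Complex.ext <;> simp
  rw [this, norm_mul, Complex.norm_I, mul_one, Complex.norm_real, Real.norm_eq_abs,
    abs_sub_comm, abs_of_nonneg (by linarith)]

/-- abstract quadratic inequality -/
lemma ratio_aux {a b s s' : ℝ} (ha : 0 ≤ a) (hb : 0 ≤ b) (hs : 0 < s) (hs' : 0 < s')
    (h : s * s' * (a ^ 2 - b ^ 2) ≤ (s' ^ 2 - s ^ 2) * (a * b)) : s * a ≤ s' * b := by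
  by_contra hcon
  push Not at hcon
  have h1 : (s * a - s' * b) * (s' * a + s * b) ≤ 0 := by nlinarith
  have h2 : 0 < a := by
    by_contra h0
    have : a = 0 := le_antisymm (not_lt.mp h0) ha
    rw [this] at hcon
    have : 0 ≤ s' * b := by positivity
    linarith
  have h3 : 0 < s' * a + s * b := by positivity
  have h4 : 0 < s * a - s' * b := by linarith
  have := mul_pos h4 h3
  linarith

private lemma ratio_pre {H : Matrix V V ℝ} (hH : Hᵀ = H) {E η η' : ℝ} (hη : 0 < η)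
    (h : η ≤ η') (x : V) :
    Real.sqrt η * Real.sqrt η' * |(Res789.Res H (zq E η) x x).im -
      (Res789.Res H (zq E η') x x).im| ≤ (η' - η) *
      (Real.sqrt ((Res789.Res H (zq E η) x x).im) * Real.sqrt ((Res789.Res H (zq E η') x x).im)) := by
  have hη' : 0 < η' := by linarith
  have hz : 0 < (zq E η).im := hη
  have hw : 0 < (zq E η').im := hη'
  have h1 := norm_Res_sub_le hH hz hw x x
  rw [norm_zq_sub h] at h1
  have h2 : |(Res789.Res H (zq E η) x x).im - (Res789.Res H (zq E η') x x).im| ≤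
      ‖Res789.Res H (zq E η) x x - Res789.Res H (zq E η') x x‖ := by
    have := Complex.abs_im_le_norm (Res789.Res H (zq E η) x x - Res789.Res H (zq E η') x x)
    simpa using this
  have e1 : (zq E η).im = η := rfl
  have e2 : (zq E η').im = η' := rfl
  rw [e1, e2, Real.sqrt_div (im_diag_nonneg hH hz x), Real.sqrt_div (im_diag_nonneg hH hw x)] at h1
  have h3 := h2.trans h1
  have hsη : 0 < Real.sqrt η := Real.sqrt_pos.mpr hη
  have hsη' : 0 < Real.sqrt η' := Real.sqrt_pos.mpr hη'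
  calc _ ≤ Real.sqrt η * Real.sqrt η' * ((η' - η) *
        (Real.sqrt (Res789.Res H (zq E η) x x).im / Real.sqrt η *
          (Real.sqrt (Res789.Res H (zq E η') x x).im / Real.sqrt η'))) := by gcongr
    _ = _ := by field_simp

/-- `Im R_xx(η) ≤ (η'/η) Im R_xx(η')` -/
theorem im_ratio_le {H : Matrix V V ℝ} (hH : Hᵀ = H) {E η η' : ℝ} (hη : 0 < η) (h : η ≤ η')
    (x : V) :
    (Res789.Res H (zq E η) x x).im ≤ η' / η * (Res789.Res H (zq E η') x x).im := by
  have hη' : 0 < η' := by linarith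
  have hz : 0 < (zq E η).im := hη
  have hw : 0 < (zq E η').im := hη'
  have h0 := im_diag_nonneg hH hz x
  have h0' := im_diag_nonneg hH hw x
  have h1 := ratio_pre hH hη h x (E := E)
  set A := (Res789.Res H (zq E η) x x).im with hA
  set B := (Res789.Res H (zq E η') x x).im with hB
  have hsη : 0 < Real.sqrt η := Real.sqrt_pos.mpr hη
  have hsη' : 0 < Real.sqrt η' := Real.sqrt_pos.mpr hη'
  have h2 := ratio_aux (Real.sqrt_nonneg A) (Real.sqrt_nonneg B) hsη hsη' (by
    rw [Real.sq_sqrt h0, Real.sq_sqrt h0', Real.sq_sqrt hη.le, Real.sq_sqrt hη'.le]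
    refine le_trans ?_ h1
    gcongr
    exact le_abs_self _)
  have h3 : (Real.sqrt η * Real.sqrt A) ^ 2 ≤ (Real.sqrt η' * Real.sqrt B) ^ 2 := by gcongr
  rw [mul_pow, mul_pow, Real.sq_sqrt h0, Real.sq_sqrt h0', Real.sq_sqrt hη.le,
    Real.sq_sqrt hη'.le] at h3
  rw [div_mul_eq_mul_div, le_div_iff₀ hη]
  linarith

/-- `Im R_xx(η') ≤ (η'/η) Im R_xx(η)` -/
theorem im_ratio_le' {H : Matrix V V ℝ} (hH : Hᵀ = H) {E η η' : ℝ} (hη : 0 < η) (h : η ≤ η')
    (x : V) :
    (Res789.Res H (zq E η') x x).im ≤ η' / η * (Res789.Res H (zq E η) x x).im := by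
  have hη' : 0 < η' := by linarith
  have hz : 0 < (zq E η).im := hη
  have hw : 0 < (zq E η').im := hη'
  have h0 := im_diag_nonneg hH hz x
  have h0' := im_diag_nonneg hH hw x
  have h1 := ratio_pre hH hη h x (E := E)
  set A := (Res789.Res H (zq E η) x x).im with hA
  set B := (Res789.Res H (zq E η') x x).im with hB
  have hsη : 0 < Real.sqrt η := Real.sqrt_pos.mpr hη
  have hsη' : 0 < Real.sqrt η' := Real.sqrt_pos.mpr hη'
  have h2 := ratio_aux (Real.sqrt_nonneg B) (Real.sqrt_nonneg A) hsη hsη' (by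
    rw [Real.sq_sqrt h0, Real.sq_sqrt h0', Real.sq_sqrt hη.le, Real.sq_sqrt hη'.le,
      mul_comm (Real.sqrt B)]
    refine le_trans ?_ h1
    gcongr
    rw [abs_sub_comm]
    exact le_abs_self _)
  have h3 : (Real.sqrt η * Real.sqrt B) ^ 2 ≤ (Real.sqrt η' * Real.sqrt A) ^ 2 := by gcongr
  rw [mul_pow, mul_pow, Real.sq_sqrt h0, Real.sq_sqrt h0', Real.sq_sqrt hη.le,
    Real.sq_sqrt hη'.le] at h3
  rw [div_mul_eq_mul_div, le_div_iff₀ hη]
  linarith

/-- entries at two comparable scales, in terms of the smaller scale -/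
theorem norm_entry_sub_le {H : Matrix V V ℝ} (hH : Hᵀ = H) {E η η' : ℝ} (hη : 0 < η)
    (h : η ≤ η') (h2 : η' ≤ 2 * η) (x y : V) {M : ℝ}
    (hx : (Res789.Res H (zq E η) x x).im ≤ M) (hy : (Res789.Res H (zq E η) y y).im ≤ M) :
    ‖Res789.Res H (zq E η) x y - Res789.Res H (zq E η') x y‖ ≤ 2 * M * (η' / η - 1) := by
  have hη' : 0 < η' := by linarith
  have hz : 0 < (zq E η).im := hη
  have hw : 0 < (zq E η').im := hη'
  have h1 := norm_Res_sub_le hH hz hw x y
  rw [norm_zq_sub h] at h1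
  have e1 : (zq E η).im = η := rfl
  have e2 : (zq E η').im = η' := rfl
  rw [e1, e2] at h1
  have hM : 0 ≤ M := (im_diag_nonneg hH hz x).trans hx
  have h3 : (Res789.Res H (zq E η') y y).im ≤ 2 * M := by
    refine (im_ratio_le' hH hη h y).trans ?_
    have : η' / η ≤ 2 := by rw [div_le_iff₀ hη]; linarith
    have h4 := im_diag_nonneg hH hz y
    nlinarith
  refine h1.trans ?_
  have h5 : Real.sqrt ((Res789.Res H (zq E η) x x).im / η) ≤ Real.sqrt (2 * M / η) := by
    apply Real.sqrt_le_sqrt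
    gcongr
    linarith
  have h6 : Real.sqrt ((Res789.Res H (zq E η') y y).im / η') ≤ Real.sqrt (2 * M / η) := by
    apply Real.sqrt_le_sqrt
    gcongr
  calc (η' - η) * (Real.sqrt ((Res789.Res H (zq E η) x x).im / η) *
        Real.sqrt ((Res789.Res H (zq E η') y y).im / η'))
      ≤ (η' - η) * (Real.sqrt (2 * M / η) * Real.sqrt (2 * M / η)) := by
        gcongr
    _ = (η' - η) * (2 * M / η) := by rw [Real.mul_self_sqrt (by positivity)]
    _ = _ := by field_simp

/-- entries at two comparable scales, in terms of the larger scale -/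
theorem norm_entry_sub_le' {H : Matrix V V ℝ} (hH : Hᵀ = H) {E η η' : ℝ} (hη : 0 < η)
    (h : η ≤ η') (h2 : η' ≤ 2 * η) (x y : V) {M : ℝ}
    (hx : (Res789.Res H (zq E η') x x).im ≤ M) (hy : (Res789.Res H (zq E η') y y).im ≤ M) :
    ‖Res789.Res H (zq E η) x y - Res789.Res H (zq E η') x y‖ ≤ 4 * M * (η' / η - 1) := by
  have hη' : 0 < η' := by linarith
  have hw : 0 < (zq E η').im := hη'
  have hM : 0 ≤ M := (im_diag_nonneg hH hw x).trans hx
  have h3 : ∀ y, (Res789.Res H (zq E η') y y).im ≤ M →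
      (Res789.Res H (zq E η) y y).im ≤ 2 * M := by
    intro y hy
    refine (im_ratio_le hH hη h y).trans ?_
    have : η' / η ≤ 2 := by rw [div_le_iff₀ hη]; linarith
    have h4 := im_diag_nonneg hH hw y
    have h5 : 0 ≤ η' / η := by positivity
    nlinarith
  have h4 := norm_entry_sub_le hH hη h h2 x y (h3 x hx) (h3 y hy)
  linarith

/-! ### the truncated distance to the clean value -/

/-- an admissible "norm" on blocks -/
structure BNorm {ι : Type*} (N : Matrix ι ι ℂ → ℝ) (c : ℝ) : Prop where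
  lip : ∀ A B e, 0 ≤ e → (∀ i j, ‖A i j - B i j‖ ≤ e) → N A ≤ N B + c * e
  ge : ∀ A i j, ‖A i j‖ ≤ N A

lemma bnorm_BNorm : BNorm bnorm 1 where
  lip := by
    intro A B e _ h
    unfold bnorm
    have key : ∀ i j, ‖A i j‖ ≤ ‖B i j‖ + e := by
      intro i j
      have h1 : ‖A i j‖ ≤ ‖B i j‖ + ‖A i j - B i j‖ := by
        have := norm_add_le (B i j) (A i j - B i j)
        simpa using this
      linarith [h i j]
    have hB00 : ‖B 0 0‖ ≤ max (max ‖B 0 0‖ ‖B 0 1‖) (max ‖B 1 0‖ ‖B 1 1‖) := by simp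
    have hB01 : ‖B 0 1‖ ≤ max (max ‖B 0 0‖ ‖B 0 1‖) (max ‖B 1 0‖ ‖B 1 1‖) := by simp
    have hB10 : ‖B 1 0‖ ≤ max (max ‖B 0 0‖ ‖B 0 1‖) (max ‖B 1 0‖ ‖B 1 1‖) := by simp
    have hB11 : ‖B 1 1‖ ≤ max (max ‖B 0 0‖ ‖B 0 1‖) (max ‖B 1 0‖ ‖B 1 1‖) := by simp
    refine max_le (max_le ?_ ?_) (max_le ?_ ?_)
    · linarith [key 0 0]
    · linarith [key 0 1]
    · linarith [key 1 0]
    · linarith [key 1 1]
  ge := by
    intro A i j
    unfold bnorm
    fin_cases i <;> fin_cases j <;> simp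

variable {ι : Type*} [Fintype ι] [DecidableEq ι]

/-- block of the resolvent minus the clean value -/
noncomputable def devM (H : Matrix V V ℝ) (f : ι → V) (E η : ℝ) (m : ℂ) : Matrix ι ι ℂ :=
  (Res789.Res H (zq E η)).submatrix f f - m • (1 : Matrix ι ι ℂ)

lemma im_le_of_dev {N : Matrix ι ι ℂ → ℝ} {c : ℝ} (hN : BNorm N c) {H : Matrix V V ℝ}
    {f : ι → V} {E η r Mm : ℝ} {m : ℂ} (hm : ‖m‖ ≤ Mm) (hD : N (devM H f E η m) ≤ r) (i : ι) :
    (Res789.Res H (zq E η) (f i) (f i)).im ≤ Mm + r := by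
  have h1 := hN.ge (devM H f E η m) i i
  unfold devM at h1 hD
  simp only [Matrix.sub_apply, Matrix.submatrix_apply, Matrix.smul_apply, Matrix.one_apply_eq,
    smul_eq_mul, mul_one] at h1
  have h2 : ‖Res789.Res H (zq E η) (f i) (f i)‖ ≤
      ‖m‖ + ‖Res789.Res H (zq E η) (f i) (f i) - m‖ := by
    have := norm_add_le m (Res789.Res H (zq E η) (f i) (f i) - m)
    simpa using this
  have h3 := Complex.im_le_norm (Res789.Res H (zq E η) (f i) (f i))
  linarith

private lemma dev_entry {H : Matrix V V ℝ} {f : ι → V} {E η η' : ℝ} {m m' : ℂ} {a b : ℝ}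
    (hb : 0 ≤ b)
    (h : ∀ i j, ‖Res789.Res H (zq E η) (f i) (f j) - Res789.Res H (zq E η') (f i) (f j)‖ ≤ a)
    (hm : ‖m - m'‖ ≤ b) (i j : ι) :
    ‖devM H f E η m i j - devM H f E η' m' i j‖ ≤ a + b := by
  unfold devM
  simp only [Matrix.sub_apply, Matrix.submatrix_apply, Matrix.smul_apply, smul_eq_mul]
  have e1 : Res789.Res H (zq E η) (f i) (f j) - m * (1 : Matrix ι ι ℂ) i j -
      (Res789.Res H (zq E η') (f i) (f j) - m' * (1 : Matrix ι ι ℂ) i j) =
      (Res789.Res H (zq E η) (f i) (f j) - Res789.Res H (zq E η') (f i) (f j)) -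
        (m - m') * (1 : Matrix ι ι ℂ) i j := by ring
  rw [e1]
  refine (norm_sub_le _ _).trans ?_
  have h1 : ‖(m - m') * (1 : Matrix ι ι ℂ) i j‖ ≤ b := by
    by_cases hij : i = j
    · subst hij; simpa using hm
    · rw [Matrix.one_apply_ne hij]; simpa using hb
  linarith [h i j]

/-- **(H5)**, pointwise: the truncated squared distance to the clean value is Lipschitz in
`log η`. -/
theorem sq_min_sub_le {N : Matrix ι ι ℂ → ℝ} {c : ℝ} (hN : BNorm N c) (hc : 0 ≤ c)
    (hN0 : ∀ A, 0 ≤ N A) {H : Matrix V V ℝ} (hH : Hᵀ = H) (f : ι → V) {E η η' r Mm Lm : ℝ}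
    {m m' : ℂ} (hη : 0 < η) (h : η ≤ η') (h2 : η' ≤ 2 * η) (hr : 0 ≤ r) (hm : ‖m‖ ≤ Mm)
    (hm' : ‖m'‖ ≤ Mm) (hLm : 0 ≤ Lm) (hmm : ‖m - m'‖ ≤ Lm * (η' / η - 1)) :
    |(min r (N (devM H f E η m))) ^ 2 - (min r (N (devM H f E η' m'))) ^ 2| ≤
      2 * r * (c * (4 * (Mm + r) + Lm)) * (η' / η - 1) := by
  have ht : 0 ≤ η' / η - 1 := by
    have : 1 ≤ η' / η := by rw [le_div_iff₀ hη]; linarith
    linarith
  have hMm : 0 ≤ Mm := (norm_nonneg _).trans hm
  set A := N (devM H f E η m) with hA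
  set B := N (devM H f E η' m') with hB
  by_cases hboth : r ≤ A ∧ r ≤ B
  · rw [min_eq_left hboth.1, min_eq_left hboth.2, sub_self, abs_zero]
    positivity
  · have hent : ∀ i j, ‖Res789.Res H (zq E η) (f i) (f j) -
        Res789.Res H (zq E η') (f i) (f j)‖ ≤ 4 * (Mm + r) * (η' / η - 1) := by
      intro i j
      by_cases hAr : A ≤ r
      · have := norm_entry_sub_le hH hη h h2 (f i) (f j) (im_le_of_dev hN hm hAr i)
          (im_le_of_dev hN hm hAr j)
        refine this.trans ?_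
        gcongr
        linarith
      · have hBr : B ≤ r := by
          by_contra hcon
          exact hboth ⟨le_of_lt (not_le.mp hAr), le_of_lt (not_le.mp hcon)⟩
        exact norm_entry_sub_le' hH hη h h2 (f i) (f j) (im_le_of_dev hN hm' hBr i)
          (im_le_of_dev hN hm' hBr j)
    have hb : 0 ≤ Lm * (η' / η - 1) := by positivity
    have hD := dev_entry hb hent hmm
    have hD' : ∀ i j, ‖devM H f E η' m' i j - devM H f E η m i j‖ ≤
        4 * (Mm + r) * (η' / η - 1) + Lm * (η' / η - 1) := fun i j => by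
      rw [norm_sub_rev]; exact hD i j
    have he : 0 ≤ 4 * (Mm + r) * (η' / η - 1) + Lm * (η' / η - 1) := by positivity
    have h3 := hN.lip _ _ _ he hD
    have h4 := hN.lip _ _ _ he hD'
    rw [← hA, ← hB] at h3 h4
    have hA0 : 0 ≤ A := hN0 _
    have hB0 : 0 ≤ B := hN0 _
    have h5 : |min r A - min r B| ≤ c * (4 * (Mm + r) * (η' / η - 1) + Lm * (η' / η - 1)) := by
      have h6 : |min r A - min r B| ≤ |A - B| := by
        have := abs_min_sub_min_le_max r A r B
        simpa using this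
      refine h6.trans ?_
      rw [abs_le]
      constructor <;> linarith
    have h7 : 0 ≤ min r A := le_min hr hA0
    have h8 : 0 ≤ min r B := le_min hr hB0
    have h9 : min r A ≤ r := min_le_left _ _
    have h10 : min r B ≤ r := min_le_left _ _
    calc |(min r A) ^ 2 - (min r B) ^ 2| = |min r A - min r B| * (min r A + min r B) := by
          rw [sq_sub_sq, abs_mul, mul_comm, abs_of_nonneg (by linarith : 0 ≤ min r A + min r B)]
      _ ≤ (c * (4 * (Mm + r) * (η' / η - 1) + Lm * (η' / η - 1))) * (2 * r) := by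
          gcongr
          linarith
      _ = _ := by ring

/-- **(H6)**, pointwise: at a large scale everything is small. -/
theorem min_dev_le {N : Matrix ι ι ℂ → ℝ} {c : ℝ} (hN : BNorm N c) (hN0 : N 0 = 0)
    {H : Matrix V V ℝ} (hH : Hᵀ = H) (f : ι → V) {E η r : ℝ} {m : ℂ} (hη : 0 < η)
    (hm : ‖m‖ ≤ 1 / η) : min r (N (devM H f E η m)) ≤ 2 * c / η := by
  refine (min_le_right _ _).trans ?_
  have h1 := hN.lip (devM H f E η m) 0 (2 / η) (by positivity) (by
    intro i j
    unfold devM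
    simp only [Matrix.sub_apply, Matrix.submatrix_apply, Matrix.smul_apply, smul_eq_mul,
      Matrix.zero_apply, sub_zero]
    refine (norm_sub_le _ _).trans ?_
    have h2 : ‖Res789.Res H (zq E η) (f i) (f j)‖ ≤ 1 / η :=
      norm_Res_le hH (z := zq E η) hη (f i) (f j)
    have h3 : ‖m * (1 : Matrix ι ι ℂ) i j‖ ≤ 1 / η := by
      by_cases hij : i = j
      · subst hij; simpa using hm
      · rw [Matrix.one_apply_ne hij]; simp; positivity
    have : (2 : ℝ) / η = 1 / η + 1 / η := by ring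
    linarith)
  rw [hN0, zero_add] at h1
  refine h1.trans (le_of_eq (by ring))

end Crest.Agent.R166.ScaleD355
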