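import Crest.Agent.R166.Tree_798
import Crest.Agent.R166.Stab_269
import Crest.Agent.R166.ScaleD_355

/-!
# R166: blocks at a FIXED scale (top scale of the multiscale induction) (helper383)

For a half-edge `h` whose edge ball of radius `L+1` is a tree, the cavity block `B⁰_h(z)` is
`(1/Im z)·√(3 (2 (b|m|²)^{L+1} + s² (L+1)² |m|²))`-close to `m I`, entrywise, `b = d-1`.
Proof: explicit approximate column `∑_{|w| ≤ L} m (-m)^{|w|} e_{w}` of the resolvent of the graph
minus the edge.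
-/

set_option autoImplicit false

open Matrix Finset

namespace Crest.Agent.R166.Top383

open Crest.Agent.R166 Crest.Agent.R166.Tree798 Crest.Agent.R166.Stab269

variable {n d : ℕ} [NeZero d] {p : Equiv.Perm (HE n d)}

/-! ### The adjacency operator on port graphs -/

/-- `(A v)(x) = ∑_i v((p (x,i)).1)` -/
noncomputable def Aop (p : Equiv.Perm (HE n d)) (v : Fin n → ℂ) (x : Fin n) : ℂ :=
  ∑ i : Fin d, v (p (x, i)).1

omit [NeZero d] in
lemma Aop_sum {ι : Type*} (s : Finset ι) (f : ι → Fin n → ℂ) :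
    Aop p (fun x => ∑ j ∈ s, f j x) = fun x => ∑ j ∈ s, Aop p (f j) x := by
  funext x
  unfold Aop
  rw [Finset.sum_comm]

omit [NeZero d] in
lemma Aop_add (f g : Fin n → ℂ) : Aop p (fun x => f x + g x) = fun x => Aop p f x + Aop p g x := by
  funext x
  unfold Aop
  rw [Finset.sum_add_distrib]

omit [NeZero d] in
lemma Aop_smul (c : ℂ) (g : Fin n → ℂ) : Aop p (fun x => c * g x) = fun x => c * Aop p g x := by
  funext x
  unfold Aop
  rw [Finset.mul_sum]

/-- the number of non-zero words of length `r` leading from `g` to `x` -/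
def cnt (p : Equiv.Perm (HE n d)) : ℕ → HE n d → Fin n → ℕ
  | 0, g, x => if (p g).1 = x then 1 else 0
  | r + 1, g, x => ∑ k ∈ Finset.univ.filter (fun k : Fin d => k ≠ 0), cnt p r (child p g k) x

/-- indicator function -/
def ind (v x : Fin n) : ℂ := if v = x then 1 else 0

lemma cnt_zero (g : HE n d) (x : Fin n) : (cnt p 0 g x : ℂ) = ind (p g).1 x := by
  simp [cnt, ind]

lemma cnt_succ (r : ℕ) (g : HE n d) (x : Fin n) : (cnt p (r + 1) g x : ℂ) =
    ∑ k ∈ Finset.univ.filter (fun k : Fin d => k ≠ 0), (cnt p r (child p g k) x : ℂ) := by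
  simp [cnt]

omit [NeZero d] in
/-- the adjacency operator on an indicator -/
lemma Aop_ind (hp : IsPort p) (v x : Fin n) :
    Aop p (ind v) x = ∑ j : Fin d, ind (p (v, j)).1 x := by
  classical
  have key : ∀ a c : Fin n, (∑ i : Fin d, (if (p (a, i)).1 = c then (1 : ℂ) else 0)) =
      if (graphOf p).Adj a c then 1 else 0 := by
    intro a c
    by_cases h : (graphOf p).Adj a c
    · rw [if_pos h]
      obtain ⟨i, hi⟩ := hp.adj_iff.1 h
      rw [Finset.sum_eq_single i]
      · rw [if_pos hi]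
      · intro j _ hj
        rw [if_neg]
        intro h2
        exact hj (hp.simple a j i (h2.trans hi.symm))
      · intro h'
        exact absurd (Finset.mem_univ _) h'
    · rw [if_neg h]
      refine Finset.sum_eq_zero fun i _ => ?_
      rw [if_neg]
      intro h2
      exact h (hp.adj_iff.2 ⟨i, h2⟩)
  have h1 : Aop p (ind v) x = ∑ i : Fin d, (if (p (x, i)).1 = v then (1 : ℂ) else 0) := by
    unfold Aop ind
    refine Finset.sum_congr rfl fun i _ => ?_
    by_cases h : v = (p (x, i)).1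
    · rw [if_pos h, if_pos h.symm]
    · rw [if_neg h, if_neg (fun e => h e.symm)]
  have h2 : (∑ j : Fin d, ind (p (v, j)).1 x) =
      ∑ j : Fin d, (if (p (v, j)).1 = x then (1 : ℂ) else 0) := rfl
  rw [h1, h2, key x v, key v x]
  by_cases h : (graphOf p).Adj x v
  · rw [if_pos h, if_pos h.symm]
  · rw [if_neg h, if_neg (fun e => h e.symm)]

/-- sum over all rotations = rotation `0` + the others -/
lemma sum_rot (F : HE n d → ℂ) (h : HE n d) :
    ∑ j : Fin d, F (h.1, j) = F h + ∑ k ∈ Finset.univ.filter (fun k : Fin d => k ≠ 0),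
      F (rot k h) := by
  classical
  have h1 : ∑ j : Fin d, F (h.1, j) = ∑ k : Fin d, F (rot k h) := by
    have := Equiv.sum_comp (Equiv.addLeft h.2) (fun j : Fin d => F (h.1, j))
    rw [← this]
    rfl
  rw [h1, ← Finset.sum_filter_add_sum_filter_not Finset.univ (fun k : Fin d => k = 0)]
  congr 1
  rw [Finset.filter_eq', if_pos (Finset.mem_univ _), Finset.sum_singleton, rot_zero]

/-- the adjacency operator on level `0` -/
lemma Aop_cnt_zero (hp : IsPort p) (g : HE n d) (x : Fin n) :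
    Aop p (fun x => (cnt p 0 g x : ℂ)) x = ind g.1 x + cnt p 1 g x := by
  have h0 : (fun x => (cnt p 0 g x : ℂ)) = ind (p g).1 := funext fun x => cnt_zero g x
  rw [h0, Aop_ind hp, sum_rot (fun h' => ind (p h').1 x) (p g), hp.inv, cnt_succ]
  congr 1
  refine Finset.sum_congr rfl fun k _ => ?_
  rw [cnt_zero]
  rfl

lemma card_nz : (Finset.univ.filter (fun k : Fin d => k ≠ 0)).card = d - 1 := by
  rw [Finset.filter_ne' Finset.univ (0 : Fin d), Finset.card_erase_of_mem (Finset.mem_univ _),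
    Finset.card_univ, Fintype.card_fin]

/-- the adjacency operator on level `r+1` -/
lemma Aop_cnt_succ (hp : IsPort p) (r : ℕ) (g : HE n d) (x : Fin n) :
    Aop p (fun x => (cnt p (r + 1) g x : ℂ)) x =
      cnt p (r + 2) g x + ((d - 1 : ℕ) : ℂ) * cnt p r g x := by
  induction r generalizing g x with
  | zero =>
    have h0 : (fun x => (cnt p (0 + 1) g x : ℂ)) = fun x =>
        ∑ k ∈ Finset.univ.filter (fun k : Fin d => k ≠ 0), (cnt p 0 (child p g k) x : ℂ) :=
      funext fun x => cnt_succ 0 g x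
    rw [h0, Aop_sum]
    simp only
    rw [cnt_succ (p := p) (0 + 1) g x]
    have h1 : ∀ k ∈ Finset.univ.filter (fun k : Fin d => k ≠ 0),
        Aop p (fun x => (cnt p 0 (child p g k) x : ℂ)) x =
          cnt p (0 + 1) (child p g k) x + ind (p g).1 x := by
      intro k _
      rw [Aop_cnt_zero hp]
      rw [add_comm]
      rfl
    rw [Finset.sum_congr rfl h1, Finset.sum_add_distrib, Finset.sum_const, card_nz, nsmul_eq_mul,
      cnt_zero]
  | succ r ih =>
    have h0 : (fun x => (cnt p (r + 1 + 1) g x : ℂ)) = fun x =>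
        ∑ k ∈ Finset.univ.filter (fun k : Fin d => k ≠ 0), (cnt p (r + 1) (child p g k) x : ℂ) :=
      funext fun x => cnt_succ (r + 1) g x
    rw [h0, Aop_sum]
    simp only
    rw [Finset.sum_congr rfl fun k _ => ih (child p g k) x, Finset.sum_add_distrib,
      ← Finset.mul_sum, ← cnt_succ, ← cnt_succ]

/-! ### The approximate column -/

/-- coefficients -/
noncomputable def cf (m : ℂ) (r : ℕ) : ℂ := m * (-m) ^ r

lemma cf_rec {m z b : ℂ} (hm : m * (z + b * m) = -1) (r : ℕ) :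
    cf m r - z * cf m (r + 1) + b * cf m (r + 2) = 0 := by
  unfold cf
  have : m * (-m) ^ r - z * (m * (-m) ^ (r + 1)) + b * (m * (-m) ^ (r + 2)) =
      m * (-m) ^ r * (1 + m * (z + b * m)) := by ring
  rw [this, hm]; ring

lemma cf_zero {m z b : ℂ} (hm : m * (z + b * m) = -1) : b * cf m 1 - z * cf m 0 = 1 := by
  unfold cf
  have : b * (m * (-m) ^ 1) - z * (m * (-m) ^ 0) = - (m * (z + b * m)) := by ring
  rw [this, hm]; ring

/-- the approximate column -/
noncomputable def col (p : Equiv.Perm (HE n d)) (m : ℂ) (L : ℕ) (g : HE n d) (x : Fin n) : ℂ :=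
  ∑ r ∈ Finset.range (L + 1), cf m r * cnt p r g x

lemma col_succ (m : ℂ) (L : ℕ) (g : HE n d) (x : Fin n) :
    col p m (L + 1) g x = col p m L g x + cf m (L + 1) * cnt p (L + 1) g x := by
  unfold col
  rw [Finset.sum_range_succ]

/-- the equation of the approximate column (no tree-likeness needed) -/
lemma col_eq (hp : IsPort p) {m z : ℂ} (hm : m * (z + ((d - 1 : ℕ) : ℂ) * m) = -1) (L : ℕ)
    (g : HE n d) (x : Fin n) :
    Aop p (col p m L g) x - z * col p m L g x =
      cf m 0 * ind g.1 x + ind (p g).1 x + cf m L * cnt p (L + 1) g x -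
        ((d - 1 : ℕ) : ℂ) * cf m (L + 1) * cnt p L g x := by
  induction L with
  | zero =>
    have h1 : col p m 0 g = fun x => cf m 0 * (cnt p 0 g x : ℂ) := by
      funext x; simp [col]
    rw [h1, Aop_smul]
    simp only
    rw [Aop_cnt_zero hp, cnt_zero]
    have := cf_zero hm
    linear_combination (ind (p g).1 x) * this
  | succ L ih =>
    have h1 : col p m (L + 1) g = fun x => col p m L g x + cf m (L + 1) * (cnt p (L + 1) g x : ℂ) :=
      funext fun x => col_succ m L g x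
    rw [h1, Aop_add, Aop_smul]
    simp only
    rw [Aop_cnt_succ hp]
    have := cf_rec hm L
    linear_combination ih + (cnt p (L + 1) g x : ℂ) * this

/-! ### Multiplicities on tree-like balls -/

lemma exists_word (r : ℕ) (g : HE n d) (x : Fin n) (h : cnt p r g x ≠ 0) :
    ∃ w : List (Fin d), NZ w ∧ w.length = r ∧ (p (desc p g w)).1 = x := by
  induction r generalizing g with
  | zero =>
    refine ⟨[], ?_, rfl, ?_⟩
    · intro k hk; simp at hk
    · by_contra hne
      apply h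
      simp only [cnt]
      exact if_neg hne
  | succ r ih =>
    simp only [cnt] at h
    obtain ⟨k, hk, hk2⟩ := Finset.exists_ne_zero_of_sum_ne_zero h
    rw [Finset.mem_filter] at hk
    obtain ⟨w, h1, h2, h3⟩ := ih (child p g k) hk2
    refine ⟨k :: w, ?_, by simp [h2], h3⟩
    intro l hl
    rcases List.mem_cons.1 hl with rfl | hl
    · exact hk.2
    · exact h1 l hl

lemma cnt_le_one (r : ℕ) (g : HE n d)
    (hinj : ∀ w w' : List (Fin d), NZ w → NZ w' → w.length = r → w'.length = r →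
      (p (desc p g w)).1 = (p (desc p g w')).1 → w = w') (x : Fin n) : cnt p r g x ≤ 1 := by
  classical
  induction r generalizing g with
  | zero =>
    simp only [cnt]
    split_ifs <;> omega
  | succ r ih =>
    simp only [cnt]
    by_cases hex : ∃ k ∈ Finset.univ.filter (fun k : Fin d => k ≠ 0), cnt p r (child p g k) x ≠ 0
    · obtain ⟨k, hk, hk2⟩ := hex
      rw [Finset.sum_eq_single k]
      · apply ih
        intro w w' h1 h2 h3 h4 h5
        have hk' := (Finset.mem_filter.1 hk).2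
        have hnz : ∀ u : List (Fin d), NZ u → NZ (k :: u) := by
          intro u hu l hl
          rcases List.mem_cons.1 hl with rfl | hl
          · exact hk'
          · exact hu l hl
        have := hinj (k :: w) (k :: w') (hnz w h1) (hnz w' h2) (by simp [h3]) (by simp [h4]) h5
        exact (List.cons.inj this).2
      · intro k' hk' hne
        by_contra hc
        obtain ⟨w, h1, h2, h3⟩ := exists_word r (child p g k) x hk2
        obtain ⟨w', h1', h2', h3'⟩ := exists_word r (child p g k') x hc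
        have hkk := (Finset.mem_filter.1 hk).2
        have hkk' := (Finset.mem_filter.1 hk').2
        have hnz : ∀ (l : Fin d) (u : List (Fin d)), l ≠ 0 → NZ u → NZ (l :: u) := by
          intro l u hl hu a ha
          rcases List.mem_cons.1 ha with rfl | ha
          · exact hl
          · exact hu a ha
        have := hinj (k :: w) (k' :: w') (hnz k w hkk h1) (hnz k' w' hkk' h1') (by simp [h2])
          (by simp [h2']) (by
            show (p (desc p (child p g k) w)).1 = (p (desc p (child p g k') w')).1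
            rw [h3, h3'])
        exact hne (List.cons.inj this).1.symm
      · intro hn
        exact absurd hk hn
    · push Not at hex
      rw [Finset.sum_eq_zero hex]
      omega

lemma sum_cnt (r : ℕ) (g : HE n d) : ∑ x, cnt p r g x = (d - 1) ^ r := by
  induction r generalizing g with
  | zero =>
    simp only [cnt, pow_zero]
    rw [Finset.sum_ite_eq]
    simp
  | succ r ih =>
    simp only [cnt]
    rw [Finset.sum_comm, Finset.sum_congr rfl fun k _ => ih (child p g k), Finset.sum_const,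
      card_nz, smul_eq_mul, pow_succ, mul_comm]

lemma sum_cnt_sq (r : ℕ) (g : HE n d) (h : ∀ x, cnt p r g x ≤ 1) :
    ∑ x, ‖(cnt p r g x : ℂ)‖ ^ 2 = ((d - 1 : ℕ) : ℝ) ^ r := by
  have h1 : ∀ x, ‖(cnt p r g x : ℂ)‖ ^ 2 = (cnt p r g x : ℝ) := by
    intro x
    have := h x
    interval_cases hh : cnt p r g x <;> simp
  rw [Finset.sum_congr rfl fun x _ => h1 x]
  have := sum_cnt (p := p) r g
  exact_mod_cast this

/-! ### tree-like edge balls -/

section TreeLike

variable {L : ℕ} {h : HE n d}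

lemma nd_nil_same (b : Bool) : nd p h b [] = (p (hb p b h)).1 := rfl

lemma fst_hb (hp : IsPort p) (b : Bool) : (hb p b h).1 = nd p h (!b) [] := by
  cases b
  · simp [nd, hb, hp.inv]
  · simp [nd, hb]

lemma treeE_cnt_le (hT : TreeE p L h) (b : Bool) {r : ℕ} (hr : r ≤ L) (x : Fin n) :
    cnt p r (hb p b h) x ≤ 1 := by
  apply cnt_le_one
  intro w w' h1 h2 h3 h4 h5
  exact (hT b w b w' h1 h2 (by omega) (by omega) h5).2

lemma treeE_cnt_other (hp : IsPort p) (hT : TreeE p L h) (b : Bool) {r : ℕ} (hr : r ≤ L) :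
    cnt p r (hb p b h) (hb p b h).1 = 0 := by
  by_contra hc
  obtain ⟨w, h1, h2, h3⟩ := exists_word r _ _ hc
  rw [fst_hb hp] at h3
  have hnil : NZ ([] : List (Fin d)) := by intro k hk; simp at hk
  have := (hT b w (!b) [] h1 hnil (by omega) (by simp) h3).1
  cases b <;> simp at this

lemma treeE_cnt_self (hT : TreeE p L h) (b : Bool) {r : ℕ} (hr : r ≤ L) (hr0 : r ≠ 0) :
    cnt p r (hb p b h) (p (hb p b h)).1 = 0 := by
  by_contra hc
  obtain ⟨w, h1, h2, h3⟩ := exists_word r _ _ hc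
  have hnil : NZ ([] : List (Fin d)) := by intro k hk; simp at hk
  have := (hT b w b [] h1 hnil (by omega) (by simp) h3).2
  rw [this] at h2
  simp at h2
  exact hr0 h2.symm

lemma treeE_col_other (hp : IsPort p) (hT : TreeE p L h) (b : Bool) (m : ℂ) :
    col p m L (hb p b h) (hb p b h).1 = 0 := by
  unfold col
  refine Finset.sum_eq_zero fun r hr => ?_
  rw [Finset.mem_range] at hr
  rw [treeE_cnt_other hp hT b (by omega)]
  simp

lemma treeE_col_self (hT : TreeE p L h) (b : Bool) (m : ℂ) :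
    col p m L (hb p b h) (p (hb p b h)).1 = m := by
  unfold col
  rw [Finset.sum_range_succ', Finset.sum_eq_zero, zero_add]
  · simp [cf, cnt]
  · intro r hr
    rw [Finset.mem_range] at hr
    rw [treeE_cnt_self hT b (by omega) (by omega)]
    simp

end TreeLike

/-! ### the residual -/

/-- the residual vector -/
noncomputable def res (p : Equiv.Perm (HE n d)) (s : ℝ) (ω : Fin n → ℝ) (m : ℂ) (L : ℕ)
    (g : HE n d) (x : Fin n) : ℂ :=
  cf m L * cnt p (L + 1) g x - ((d - 1 : ℕ) : ℂ) * cf m (L + 1) * cnt p L g x +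
    s * ω x * col p m L g x

lemma norm_cf (m : ℂ) (r : ℕ) : ‖cf m r‖ = ‖m‖ ^ (r + 1) := by
  unfold cf
  rw [norm_mul, norm_pow, norm_neg, pow_succ, mul_comm]

lemma norm_add3_sq (a b c : ℂ) : ‖a - b + c‖ ^ 2 ≤ 3 * (‖a‖ ^ 2 + ‖b‖ ^ 2 + ‖c‖ ^ 2) := by
  have h1 : ‖a - b + c‖ ≤ ‖a‖ + ‖b‖ + ‖c‖ :=
    (norm_add_le _ _).trans (add_le_add (norm_sub_le _ _) le_rfl)
  have h2 : ‖a - b + c‖ ^ 2 ≤ (‖a‖ + ‖b‖ + ‖c‖) ^ 2 := pow_le_pow_left₀ (norm_nonneg _) h1 2
  nlinarith [sq_nonneg (‖a‖ - ‖b‖), sq_nonneg (‖a‖ - ‖c‖), sq_nonneg (‖b‖ - ‖c‖)]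

lemma sum_col_sq_le {L : ℕ} {g : HE n d} (hc : ∀ r ≤ L, ∀ x, cnt p r g x ≤ 1) {m : ℂ}
    (hbm : ((d - 1 : ℕ) : ℝ) * ‖m‖ ^ 2 ≤ 1) :
    ∑ x, ‖col p m L g x‖ ^ 2 ≤ ((L : ℝ) + 1) ^ 2 * ‖m‖ ^ 2 := by
  have h1 : ∀ x, ‖col p m L g x‖ ^ 2 ≤ ((L : ℝ) + 1) * ∑ r ∈ Finset.range (L + 1),
      ‖cf m r * (cnt p r g x : ℂ)‖ ^ 2 := by
    intro x
    have h2 : ‖col p m L g x‖ ≤ ∑ r ∈ Finset.range (L + 1), ‖cf m r * (cnt p r g x : ℂ)‖ :=
      norm_sum_le _ _
    have h3 := sq_sum_le_card_mul_sum_sq (s := Finset.range (L + 1))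
      (f := fun r => ‖cf m r * (cnt p r g x : ℂ)‖)
    rw [Finset.card_range] at h3
    push_cast at h3
    exact (pow_le_pow_left₀ (norm_nonneg _) h2 2).trans h3
  calc ∑ x, ‖col p m L g x‖ ^ 2
      ≤ ∑ x, ((L : ℝ) + 1) * ∑ r ∈ Finset.range (L + 1), ‖cf m r * (cnt p r g x : ℂ)‖ ^ 2 :=
        Finset.sum_le_sum fun x _ => h1 x
    _ = ((L : ℝ) + 1) * ∑ r ∈ Finset.range (L + 1), ∑ x, ‖cf m r * (cnt p r g x : ℂ)‖ ^ 2 := by
        rw [← Finset.mul_sum, Finset.sum_comm]
    _ ≤ ((L : ℝ) + 1) * ∑ r ∈ Finset.range (L + 1), ‖m‖ ^ 2 := by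
        refine mul_le_mul_of_nonneg_left ?_ (by positivity)
        refine Finset.sum_le_sum fun r hr => ?_
        rw [Finset.mem_range] at hr
        have : ∑ x, ‖cf m r * (cnt p r g x : ℂ)‖ ^ 2 =
            ‖m‖ ^ 2 * (((d - 1 : ℕ) : ℝ) * ‖m‖ ^ 2) ^ r := by
          rw [Finset.sum_congr rfl fun x _ => by rw [norm_mul, mul_pow], ← Finset.mul_sum,
            sum_cnt_sq r g (hc r (by omega)), norm_cf, mul_pow]
          ring
        rw [this]
        calc ‖m‖ ^ 2 * (((d - 1 : ℕ) : ℝ) * ‖m‖ ^ 2) ^ r ≤ ‖m‖ ^ 2 * 1 :=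
              mul_le_mul_of_nonneg_left (pow_le_one₀ (by positivity) hbm) (by positivity)
          _ = ‖m‖ ^ 2 := mul_one _
    _ = ((L : ℝ) + 1) ^ 2 * ‖m‖ ^ 2 := by
        rw [Finset.sum_const, Finset.card_range, nsmul_eq_mul]
        push_cast
        ring

lemma sum_res_sq_le {L : ℕ} {g : HE n d} (hc : ∀ r ≤ L + 1, ∀ x, cnt p r g x ≤ 1) {m : ℂ}
    (hbm : ((d - 1 : ℕ) : ℝ) * ‖m‖ ^ 2 ≤ 1) (s : ℝ) {ω : Fin n → ℝ} (hω : ∀ v, |ω v| ≤ 1) :
    ∑ x, ‖res p s ω m L g x‖ ^ 2 ≤
      3 * (2 * (((d - 1 : ℕ) : ℝ) * ‖m‖ ^ 2) ^ (L + 1) + s ^ 2 * (((L : ℝ) + 1) ^ 2 * ‖m‖ ^ 2)) := by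
  set q := ((d - 1 : ℕ) : ℝ) * ‖m‖ ^ 2 with hq
  have hq0 : 0 ≤ q := by positivity
  have e1 : ∑ x, ‖cf m L * (cnt p (L + 1) g x : ℂ)‖ ^ 2 = q ^ (L + 1) := by
    rw [Finset.sum_congr rfl fun x _ => by rw [norm_mul, mul_pow], ← Finset.mul_sum,
      sum_cnt_sq (L + 1) g (hc (L + 1) le_rfl), norm_cf, hq, mul_pow]
    ring
  have e2 : ∑ x, ‖((d - 1 : ℕ) : ℂ) * cf m (L + 1) * (cnt p L g x : ℂ)‖ ^ 2 = q ^ (L + 2) := by
    rw [Finset.sum_congr rfl fun x _ => by rw [norm_mul, mul_pow], ← Finset.mul_sum,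
      sum_cnt_sq L g (hc L (by omega)), norm_mul, norm_cf, hq, mul_pow, mul_pow, Complex.norm_natCast]
    ring
  have e3 : ∑ x, ‖(s : ℂ) * ω x * col p m L g x‖ ^ 2 ≤ s ^ 2 * (((L : ℝ) + 1) ^ 2 * ‖m‖ ^ 2) := by
    calc ∑ x, ‖(s : ℂ) * ω x * col p m L g x‖ ^ 2 ≤ ∑ x, s ^ 2 * ‖col p m L g x‖ ^ 2 := by
          refine Finset.sum_le_sum fun x _ => ?_
          rw [norm_mul, norm_mul, Complex.norm_real, Complex.norm_real, mul_pow, mul_pow,
            Real.norm_eq_abs, Real.norm_eq_abs, sq_abs, sq_abs]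
          have h1 : ω x ^ 2 ≤ 1 := by
            rw [← sq_abs]
            exact pow_le_one₀ (abs_nonneg _) (hω x)
          have h2 : 0 ≤ s ^ 2 * ‖col p m L g x‖ ^ 2 := by positivity
          nlinarith
      _ = s ^ 2 * ∑ x, ‖col p m L g x‖ ^ 2 := by rw [Finset.mul_sum]
      _ ≤ _ := mul_le_mul_of_nonneg_left
          (sum_col_sq_le (fun r hr => hc r (by omega)) hbm) (by positivity)
  have hqq : q ^ (L + 2) ≤ q ^ (L + 1) := pow_le_pow_of_le_one hq0 hbm (by omega)
  calc ∑ x, ‖res p s ω m L g x‖ ^ 2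
      ≤ ∑ x, 3 * (‖cf m L * (cnt p (L + 1) g x : ℂ)‖ ^ 2 +
          ‖((d - 1 : ℕ) : ℂ) * cf m (L + 1) * (cnt p L g x : ℂ)‖ ^ 2 +
          ‖(s : ℂ) * ω x * col p m L g x‖ ^ 2) := Finset.sum_le_sum fun x _ => norm_add3_sq _ _ _
    _ = 3 * (∑ x, ‖cf m L * (cnt p (L + 1) g x : ℂ)‖ ^ 2 +
          ∑ x, ‖((d - 1 : ℕ) : ℂ) * cf m (L + 1) * (cnt p L g x : ℂ)‖ ^ 2 +
          ∑ x, ‖(s : ℂ) * ω x * col p m L g x‖ ^ 2) := by
        rw [← Finset.mul_sum, Finset.sum_add_distrib, Finset.sum_add_distrib]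
    _ ≤ _ := by
        rw [e1, e2]
        nlinarith

/-! ### the resolvent of the graph minus the edge -/

/-- the graph matrix with the edge `h` removed -/
noncomputable def Hcut (p : Equiv.Perm (HE n d)) (s : ℝ) (ω : Fin n → ℝ) (h : HE n d) :
    Matrix (Fin n) (Fin n) ℝ :=
  Hm (graphOf p) s ω + Res789.emb ![h.1, (p h).1] !![0, -1; -1, 0]

omit [NeZero d] in
lemma Kcut_symm : (!![0, -1; -1, 0] : Matrix (Fin 2) (Fin 2) ℝ)ᵀ = !![0, -1; -1, 0] := by
  ext i j
  fin_cases i <;> fin_cases j <;> rfl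

lemma emb_edge {V : Type*} [Fintype V] [DecidableEq V] (u w x y : V) :
    Res789.emb ![u, w] !![0, -1; -1, 0] x y =
      (if u = x ∧ w = y then -1 else 0) + (if w = x ∧ u = y then -1 else 0) := by
  rw [Res789.emb_apply]
  simp [Fin.sum_univ_two]

omit [NeZero d] in
lemma Hcut_symm (s : ℝ) (ω : Fin n → ℝ) (h : HE n d) : (Hcut p s ω h)ᵀ = Hcut p s ω h := by
  unfold Hcut
  rw [Matrix.transpose_add, Hm_symm, Res789.emb_symm _ Kcut_symm]

omit [NeZero d] in
lemma inj_edge (hp : IsPort p) (h : HE n d) : Function.Injective ![h.1, (p h).1] := by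
  intro i j hij
  have hne := hp.noloop h
  fin_cases i <;> fin_cases j
  · rfl
  · exact absurd hij.symm hne
  · exact absurd hij hne
  · rfl

omit [NeZero d] in
/-- the cavity block is the block of the resolvent of the graph minus the edge -/
theorem B0_eq (hp : IsPort p) (s : ℝ) (ω : Fin n → ℝ) {z : ℂ} (hz : 0 < z.im) (h : HE n d) :
    B0 p s ω z h = (Res789.Res (Hcut p s ω h) z).submatrix ![h.1, (p h).1] ![h.1, (p h).1] := by
  unfold Hcut
  rw [Res789.Res_emb_block (Hm_symm _ _ _) hz (inj_edge hp h) Kcut_symm]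
  unfold B0 cavB Res789.Pm BE Blk
  rw [Res_eq]
  congr 2
  rw [sub_eq_add_neg]
  congr 1
  ext i j
  fin_cases i <;> fin_cases j <;> simp [W2]

omit [NeZero d] in
lemma Hm_mulVec (hp : IsPort p) (s : ℝ) (ω : Fin n → ℝ) (v : Fin n → ℂ) (x : Fin n) :
    (Res789.cx (Hm (graphOf p) s ω) *ᵥ v) x = Aop p v x + s * ω x * v x := by
  classical
  have h1 : ∀ y, Res789.cx (Hm (graphOf p) s ω) x y * v y =
      (if (graphOf p).Adj x y then v y else 0) + (if x = y then s * ω x * v y else 0) := by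
    intro y
    rw [Res789.cx_apply, Hm_apply]
    by_cases h1 : (graphOf p).Adj x y <;> by_cases h2 : x = y
    · subst h2
      exact absurd h1 ((graphOf p).loopless.irrefl x)
    · simp [h1, h2]
    · subst h2
      simp [h1]
    · simp [h1, h2]
  have h2 : (∑ y, if (graphOf p).Adj x y then v y else 0) = ∑ i : Fin d, v (p (x, i)).1 := by
    rw [← Finset.sum_filter]
    have himg : (Finset.univ.filter fun y => (graphOf p).Adj x y) =
        (Finset.univ : Finset (Fin d)).image (fun i => (p (x, i)).1) := by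
      ext w
      simp [hp.adj_iff]
    rw [himg, Finset.sum_image]
    intro i _ j _ hij
    exact hp.simple x i j hij
  show ∑ y, Res789.cx (Hm (graphOf p) s ω) x y * v y = _
  rw [Finset.sum_congr rfl fun y _ => h1 y, Finset.sum_add_distrib, h2]
  congr 1
  rw [Finset.sum_ite_eq]
  simp

/-- the equation of the approximate column for the graph minus the edge -/
lemma Hcut_col (hp : IsPort p) (s : ℝ) (ω : Fin n → ℝ) {m z : ℂ}
    (hm : m * (z + ((d - 1 : ℕ) : ℂ) * m) = -1) {L : ℕ} {h : HE n d} (hT : TreeE p L h)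
    (b : Bool) (x : Fin n) :
    (Res789.cx (Hcut p s ω h) *ᵥ col p m L (hb p b h)) x - z * col p m L (hb p b h) x =
      ind (p (hb p b h)).1 x + res p s ω m L (hb p b h) x := by
  have hinj := inj_edge hp h
  have hne : h.1 ≠ (p h).1 := (hp.noloop h).symm
  set g := hb p b h with hg
  set X := col p m L g with hX
  have h1 : (Res789.cx (Hcut p s ω h) *ᵥ X) x =
      (Res789.cx (Hm (graphOf p) s ω) *ᵥ X) x +
      (Res789.cx (Res789.emb ![h.1, (p h).1] !![0, -1; -1, 0]) *ᵥ X) x := by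
    unfold Hcut
    rw [Res789.cx_add, Matrix.add_mulVec]
    rfl
  -- the rank-two perturbation
  have h2 : (Res789.cx (Res789.emb ![h.1, (p h).1] !![0, -1; -1, 0]) *ᵥ X) x =
      - ind h.1 x * X (p h).1 - ind (p h).1 x * X h.1 := by
    show ∑ y, Res789.cx (Res789.emb ![h.1, (p h).1] !![0, -1; -1, 0]) x y * X y = _
    have e : ∀ y, Res789.cx (Res789.emb ![h.1, (p h).1] !![0, -1; -1, 0]) x y * X y =
        (if (p h).1 = y then - ind h.1 x * X y else 0) +
        (if h.1 = y then - ind (p h).1 x * X y else 0) := by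
      intro y
      rw [Res789.cx_apply, emb_edge]
      unfold ind
      split_ifs <;> first | (push_cast; ring1) | (exfalso; tauto)
    rw [Finset.sum_congr rfl fun y _ => e y, Finset.sum_add_distrib, Finset.sum_ite_eq,
      Finset.sum_ite_eq]
    simp
    ring
  have hself : X (p g).1 = m := treeE_col_self hT b m
  have hoth : X g.1 = 0 := treeE_col_other hp hT b m
  have h3 : - ind h.1 x * X (p h).1 - ind (p h).1 x * X h.1 = - m * ind g.1 x := by
    rw [hg] at hself hoth
    cases b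
    · simp only [hb, Bool.false_eq_true, if_false] at hself hoth
      rw [hg]
      simp only [hb, Bool.false_eq_true, if_false]
      rw [hself, hoth]; ring
    · simp only [hb, if_true, hp.inv] at hself hoth
      rw [hg]
      simp only [hb, if_true]
      rw [hself, hoth]; ring
  have h4 := col_eq hp hm L g x
  rw [h1, h2, h3, Hm_mulVec hp]
  unfold res
  have h5 : cf m 0 = m := by simp [cf]
  rw [h5] at h4
  linear_combination h4

/-- **fixed scale**: the column of the resolvent of the graph minus the edge -/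
theorem column_bound (hp : IsPort p) (s : ℝ) {ω : Fin n → ℝ} (hω : ∀ v, |ω v| ≤ 1) {m z : ℂ}
    (hz : 0 < z.im) (hm : m * (z + ((d - 1 : ℕ) : ℂ) * m) = -1)
    (hbm : ((d - 1 : ℕ) : ℝ) * ‖m‖ ^ 2 ≤ 1) {L : ℕ} {h : HE n d} (hT : TreeE p (L + 1) h)
    (b : Bool) (x : Fin n) :
    ‖Res789.Res (Hcut p s ω h) z x (p (hb p b h)).1 - col p m L (hb p b h) x‖ ≤
      (1 / z.im) * Real.sqrt (3 * (2 * (((d - 1 : ℕ) : ℝ) * ‖m‖ ^ 2) ^ (L + 1) +
        s ^ 2 * (((L : ℝ) + 1) ^ 2 * ‖m‖ ^ 2))) := by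
  set g := hb p b h with hg
  set X := col p m L g with hX
  set R := Res789.Res (Hcut p s ω h) z with hR
  have hH := Hcut_symm (p := p) s ω h
  have hTL : TreeE p L h := hT.mono (by omega)
  -- R * (H - z) = 1
  have hinv : R * (Res789.cx (Hcut p s ω h) - z • (1 : Matrix (Fin n) (Fin n) ℂ)) = 1 :=
    Res789.Res_mul_sub hH hz
  have hvec : (Res789.cx (Hcut p s ω h) - z • (1 : Matrix (Fin n) (Fin n) ℂ)) *ᵥ X =
      fun x => ind (p g).1 x + res p s ω m L g x := by
    funext y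
    rw [Matrix.sub_mulVec, Pi.sub_apply, Matrix.smul_mulVec, Matrix.one_mulVec]
    exact Hcut_col hp s ω hm hTL b y
  have hX2 : X = R *ᵥ (fun x => ind (p g).1 x + res p s ω m L g x) := by
    rw [← hvec, Matrix.mulVec_mulVec, hinv, Matrix.one_mulVec]
  have hX3 : X x = R x (p g).1 + ∑ y, R x y * res p s ω m L g y := by
    rw [hX2]
    show ∑ y, R x y * (ind (p g).1 y + res p s ω m L g y) = _
    simp only [mul_add, Finset.sum_add_distrib, ind, mul_ite, mul_one, mul_zero,
      Finset.sum_ite_eq, Finset.mem_univ, if_true]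
  have hX4 : R x (p g).1 - X x = - ∑ y, R x y * res p s ω m L g y := by
    rw [hX3]; ring
  rw [hX4, norm_neg]
  have hrow : ∑ k, ‖R x k‖ ^ 2 ≤ (1 / z.im) ^ 2 := by
    rw [ScaleD355.sum_row_sq hH hz x]
    have h1 : (R x x).im ≤ 1 / z.im :=
      (Complex.im_le_norm _).trans (ScaleD355.norm_diag_le hH hz x)
    rw [div_le_iff₀ hz]
    refine h1.trans (le_of_eq ?_)
    field_simp
  have hres := sum_res_sq_le (p := p) (L := L) (g := g)
    (fun r hr x => treeE_cnt_le hT b hr x) hbm s hω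
  calc ‖∑ y, R x y * res p s ω m L g y‖
      ≤ ∑ y, ‖R x y‖ * ‖res p s ω m L g y‖ := by
        refine (norm_sum_le _ _).trans (le_of_eq ?_)
        exact Finset.sum_congr rfl fun y _ => norm_mul _ _
    _ ≤ Real.sqrt (∑ y, ‖R x y‖ ^ 2) * Real.sqrt (∑ y, ‖res p s ω m L g y‖ ^ 2) :=
        Real.sum_mul_le_sqrt_mul_sqrt _ _ _
    _ ≤ (1 / z.im) * Real.sqrt (3 * (2 * (((d - 1 : ℕ) : ℝ) * ‖m‖ ^ 2) ^ (L + 1) +
        s ^ 2 * (((L : ℝ) + 1) ^ 2 * ‖m‖ ^ 2))) := by
        refine mul_le_mul ?_ (Real.sqrt_le_sqrt hres) (Real.sqrt_nonneg _) (by positivity)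
        calc Real.sqrt (∑ y, ‖R x y‖ ^ 2) ≤ Real.sqrt ((1 / z.im) ^ 2) := Real.sqrt_le_sqrt hrow
          _ = 1 / z.im := Real.sqrt_sq (by positivity)

/-- the entrywise bound of the cavity block at a fixed scale -/
theorem B0_entry_bound (hp : IsPort p) (s : ℝ) {ω : Fin n → ℝ} (hω : ∀ v, |ω v| ≤ 1) {m z : ℂ}
    (hz : 0 < z.im) (hm : m * (z + ((d - 1 : ℕ) : ℂ) * m) = -1)
    (hbm : ((d - 1 : ℕ) : ℝ) * ‖m‖ ^ 2 ≤ 1) {L : ℕ} {h : HE n d} (hT : TreeE p (L + 1) h)
    (i j : Fin 2) :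
    ‖(B0 p s ω z h - m • (1 : Matrix (Fin 2) (Fin 2) ℂ)) i j‖ ≤
      (1 / z.im) * Real.sqrt (3 * (2 * (((d - 1 : ℕ) : ℝ) * ‖m‖ ^ 2) ^ (L + 1) +
        s ^ 2 * (((L : ℝ) + 1) ^ 2 * ‖m‖ ^ 2))) := by
  have hTL : TreeE p L h := hT.mono (by omega)
  rw [B0_eq hp s ω hz h]
  have key := column_bound hp s hω hz hm hbm hT
  have s1 : col p m L (hb p true h) h.1 = m := by
    have := treeE_col_self hTL true m
    simpa [hb, hp.inv] using this
  have s2 : col p m L (hb p true h) (p h).1 = 0 := by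
    have := treeE_col_other hp hTL true m
    simpa [hb] using this
  have s3 : col p m L (hb p false h) (p h).1 = m := by
    have := treeE_col_self hTL false m
    simpa [hb] using this
  have s4 : col p m L (hb p false h) h.1 = 0 := by
    have := treeE_col_other hp hTL false m
    simpa [hb] using this
  have k1 := key true h.1
  have k2 := key true (p h).1
  have k3 := key false (p h).1
  have k4 := key false h.1
  rw [s1] at k1
  rw [s2] at k2
  rw [s3] at k3
  rw [s4] at k4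
  simp only [hb, if_true, hp.inv, Bool.false_eq_true, if_false] at k1 k2 k3 k4
  fin_cases i <;> fin_cases j
  · simpa using k1
  · simpa using k4
  · simpa using k2
  · simpa using k3

end Crest.Agent.R166.Top383
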