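import Crest.Agent.R166.SpecA_598
import Crest.Agent.R166.ScaleV_355
import Crest.Agent.R166.Top_383

/-!
# R166, THEOREM A (30.8) from the one-step estimates (helper383)

`SpecA.StepA d → SpecA.ThmA d`.
-/

set_option autoImplicit false

open Finset

namespace Crest.Agent.R166.ThmA383

open Crest.Agent.R166 Crest.Agent.R166.SpecA Crest.Agent.R166.Multi383 Crest.Agent.R166.ScaleV355
  Crest.Agent.R166.Root355 Crest.Agent.R166.Tree798 Crest.Agent.R166.ScaleD355

/-- monotonicity of `Step` in the constant and in the error -/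
lemma Step.mono {Γ : Type*} {Gr : Finset Γ} {V gV : Γ → ℝ} {μ gμ : Γ → ℂ} {err err' : Γ → ℝ}
    {a : ℂ} {C C' c θ κ s : ℝ} (h : Step Gr V gV μ gμ err a C c θ κ s) (hC : 0 ≤ C) (hCC : C ≤ C')
    (hκ : 0 ≤ κ) (herr : ∀ G ∈ Gr, 0 ≤ err G) (hee : ∀ G ∈ Gr, err G ≤ err' G) :
    Step Gr V gV μ gμ err' a C' c θ κ s := by
  refine ⟨h.nonneg, fun G hG => ?_, fun G hG => ?_, h.res, ?_, ?_⟩
  · refine (h.one G hG).trans ?_
    have h1 := herr G hG
    have h2 := hee G hG
    have h3 : 0 ≤ ‖μ G‖ ^ 2 + V G ^ 2 + (κ + err G) + s ^ 2 := by positivity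
    have h4 : ‖μ G‖ ^ 2 + V G ^ 2 + (κ + err G) + s ^ 2 ≤
      ‖μ G‖ ^ 2 + V G ^ 2 + (κ + err' G) + s ^ 2 := by linarith
    have := mul_le_mul hCC h4 h3 (hC.trans hCC)
    linarith
  · refine (h.mean G hG).trans ?_
    have h1 := herr G hG
    have h2 := hee G hG
    have h0 := h.nonneg G hG
    have h3 : 0 ≤ V G + |s| + Real.sqrt (κ + err G) := by positivity
    have h4 : V G + |s| + Real.sqrt (κ + err G) ≤ V G + |s| + Real.sqrt (κ + err' G) := by
      have := Real.sqrt_le_sqrt (add_le_add_right h2 κ)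
      linarith
    exact mul_le_mul hCC h4 h3 (hC.trans hCC)
  · refine h.sm1.trans ?_
    gcongr
  · refine h.sm2.trans ?_
    gcongr

/-- `b |m|² ≤ b / (1 + b)` at the scale `η = 1` -/
lemma b_normSq_top {d : ℕ} (hd : 2 ≤ d) (E : ℝ) :
    ((d - 1 : ℕ) : ℝ) * ‖mc d (ze E 1)‖ ^ 2 ≤ ((d : ℝ) - 1) / (1 + ((d : ℝ) - 1)) := by
  have hd2 : (2 : ℝ) ≤ d := by exact_mod_cast hd
  have hcast : ((d - 1 : ℕ) : ℝ) = (d : ℝ) - 1 := by
    rw [Nat.cast_sub (by omega)]; simp
  have hz : 0 < (zq E 1).im := one_pos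
  have r := mc_isRoot hd hz
  rw [hcast, ze_eq, ← Complex.normSq_eq_norm_sq]
  have h1 := r.im_eq
  have h2 := r.im_le_one (by linarith) hz.le
  have e2 : (zq E 1).im = 1 := rfl
  rw [e2] at h1
  have h3 := r.im_pos
  set b := (d : ℝ) - 1 with hb
  set N := Complex.normSq (mc d (zq E 1)) with hN
  set t := (mc d (zq E 1)).im with ht
  have hb0 : 0 < b := by linarith
  have hN1 : N = t / (1 + b * t) := by
    rw [eq_div_iff (by positivity)]; exact h1
  rw [hN1, mul_div_assoc', div_le_div_iff₀ (by positivity) (by positivity)]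
  nlinarith

/-- the clean root in the form of `Top383` -/
lemma mc_eq_top {d : ℕ} (hd : 2 ≤ d) (E : ℝ) :
    mc d (ze E 1) * (ze E 1 + ((d - 1 : ℕ) : ℂ) * mc d (ze E 1)) = -1 := by
  have hz : 0 < (zq E 1).im := one_pos
  have r := mc_isRoot hd hz
  have h := r.eq
  have hcast : ((d - 1 : ℕ) : ℂ) = (d : ℂ) - 1 := by
    rw [Nat.cast_sub (by omega)]; simp
  rw [hcast, ze_eq, ← d_sub_one]
  exact h

lemma Lroot_mono {d : ℕ} (hd : 2 ≤ d) {E A : ℝ} (hE : |E| ≤ A) (hA : A ^ 2 < 4 * ((d : ℝ) - 1)) :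
    Lroot d E 1 ≤ Lroot d A 1 := by
  have hd2 : (2 : ℝ) ≤ d := by exact_mod_cast hd
  have hb : 0 < (d : ℝ) - 1 := by linarith
  have h1 : 0 < 1 - A ^ 2 / (4 * ((d : ℝ) - 1)) := by
    rw [sub_pos, div_lt_one (by positivity)]; exact hA
  have h2 : E ^ 2 ≤ A ^ 2 := by
    rw [← sq_abs E]
    exact pow_le_pow_left₀ (abs_nonneg _) hE 2
  have h3 : 1 - A ^ 2 / (4 * ((d : ℝ) - 1)) ≤ 1 - E ^ 2 / (4 * ((d : ℝ) - 1)) := by
    have : E ^ 2 / (4 * ((d : ℝ) - 1)) ≤ A ^ 2 / (4 * ((d : ℝ) - 1)) := by gcongr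
    linarith
  unfold Lroot
  exact div_le_div_of_nonneg_left (by positivity) h1 h3

variable {n d : ℕ}

lemma Vp_eq (rs : ℝ) (p : Equiv.Perm (HE n d)) (s : ℝ) (ω : Fin n → ℝ) (z : ℂ) :
    Vp rs p s ω z = Vq rs p s ω z := by
  unfold Vp Vq Dv Dq dev
  rw [Nat.cast_mul]

/-- the deviation at the top scale at a tree-like half-edge -/
lemma dev_top (hd : 2 ≤ d) {p : Equiv.Perm (HE n d)} (hp : IsPort p) (E s : ℝ) {ω : Fin n → ℝ}
    (hω : ∀ v, |ω v| ≤ 1) [NeZero d] {L : ℕ} {h : HE n d} (hT : TreeE p (L + 1) h) :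
    dev p s ω (ze E 1) h ^ 2 ≤ 6 * (((d : ℝ) - 1) / (1 + ((d : ℝ) - 1))) ^ (L + 1) +
      3 * s ^ 2 * ((L : ℝ) + 1) ^ 2 := by
  have hd2 : (2 : ℝ) ≤ d := by exact_mod_cast hd
  have hz : 0 < (ze E 1).im := by rw [ze_eq]; exact one_pos
  have hz1 : (ze E 1).im = 1 := by rw [ze_eq]; rfl
  have hbm := b_normSq_top hd E
  have hb0 : 0 < (d : ℝ) - 1 := by linarith
  have hq1 : ((d : ℝ) - 1) / (1 + ((d : ℝ) - 1)) ≤ 1 := by
    rw [div_le_one (by positivity)]; linarith
  have hm1 : ‖mc d (ze E 1)‖ ≤ 1 := by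
    rw [ze_eq]; exact (mc_isRoot hd (one_pos : 0 < (zq E 1).im)).norm_le_one (by linarith) (by exact zero_le_one)
  have key := Top383.B0_entry_bound hp s hω hz (mc_eq_top hd E) (hbm.trans hq1) hT
  rw [hz1] at key
  set X : ℝ := 3 * (2 * (((d - 1 : ℕ) : ℝ) * ‖mc d (ze E 1)‖ ^ 2) ^ (L + 1) +
        s ^ 2 * (((L : ℝ) + 1) ^ 2 * ‖mc d (ze E 1)‖ ^ 2)) with hX
  have hX0 : 0 ≤ X := by positivity
  have hdev : dev p s ω (ze E 1) h ≤ Real.sqrt X := by
    unfold dev bnorm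
    have k := fun i j => (key i j).trans (le_of_eq (by ring : (1 / 1 : ℝ) * Real.sqrt X = Real.sqrt X))
    exact max_le (max_le (k 0 0) (k 0 1)) (max_le (k 1 0) (k 1 1))
  have hdev0 : 0 ≤ dev p s ω (ze E 1) h := bnorm_nonneg _
  calc dev p s ω (ze E 1) h ^ 2 ≤ Real.sqrt X ^ 2 := pow_le_pow_left₀ hdev0 hdev 2
    _ = X := Real.sq_sqrt hX0
    _ ≤ 6 * (((d : ℝ) - 1) / (1 + ((d : ℝ) - 1))) ^ (L + 1) + 3 * s ^ 2 * ((L : ℝ) + 1) ^ 2 := by
        have h1 : (((d - 1 : ℕ) : ℝ) * ‖mc d (ze E 1)‖ ^ 2) ^ (L + 1) ≤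
            (((d : ℝ) - 1) / (1 + ((d : ℝ) - 1))) ^ (L + 1) :=
          pow_le_pow_left₀ (by positivity) hbm _
        have h2 : s ^ 2 * (((L : ℝ) + 1) ^ 2 * ‖mc d (ze E 1)‖ ^ 2) ≤
            s ^ 2 * (((L : ℝ) + 1) ^ 2 * 1) := by
          have : ‖mc d (ze E 1)‖ ^ 2 ≤ 1 := pow_le_one₀ (norm_nonneg _) hm1
          gcongr
        rw [hX]
        nlinarith

/-- `V_G` at the top scale -/
lemma Vp_top (hn : 0 < n) (hd : 2 ≤ d) {p : Equiv.Perm (HE n d)} (hp : IsPort p) (E s : ℝ)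
    {ω : Fin n → ℝ} (hω : ∀ v, |ω v| ≤ 1) [NeZero d] (L : ℕ) {rs : ℝ} (hrs : 0 ≤ rs) :
    Vp rs p s ω (ze E 1) ≤ 6 * (((d : ℝ) - 1) / (1 + ((d : ℝ) - 1))) ^ (L + 1) +
      3 * s ^ 2 * ((L : ℝ) + 1) ^ 2 + rs ^ 2 * ((notT p (L + 1)).card / ((n * d : ℕ) : ℝ)) := by
  classical
  have hnd : (0 : ℝ) < ((n * d : ℕ) : ℝ) := by
    have : 0 < n * d := Nat.mul_pos hn (by omega)
    exact_mod_cast this
  have hd2 : (2 : ℝ) ≤ d := by exact_mod_cast hd
  set Y : ℝ := 6 * (((d : ℝ) - 1) / (1 + ((d : ℝ) - 1))) ^ (L + 1) +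
      3 * s ^ 2 * ((L : ℝ) + 1) ^ 2 with hY
  have hb0 : 0 < (d : ℝ) - 1 := by linarith
  have hY0 : 0 ≤ Y := by positivity
  unfold Vp
  rw [div_le_iff₀ hnd, add_mul, mul_assoc, div_mul_cancel₀ _ hnd.ne']
  have hcard : (Finset.univ : Finset (HE n d)).card = n * d := by
    rw [Finset.card_univ, Fintype.card_prod, Fintype.card_fin, Fintype.card_fin]
  calc ∑ h : HE n d, Dv rs p s ω (ze E 1) h ^ 2
      ≤ ∑ h : HE n d, (Y + if h ∈ notT p (L + 1) then rs ^ 2 else 0) := by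
        refine Finset.sum_le_sum fun h _ => ?_
        have hD0 : 0 ≤ Dv rs p s ω (ze E 1) h := le_min hrs (bnorm_nonneg _)
        split_ifs with hh
        · have : Dv rs p s ω (ze E 1) h ^ 2 ≤ rs ^ 2 := pow_le_pow_left₀ hD0 (min_le_left _ _) 2
          linarith
        · have hT : TreeE p (L + 1) h := by
            by_contra hcon
            apply hh
            simp only [notT, Finset.mem_filter, Finset.mem_univ, true_and]
            exact hcon
          have h1 := dev_top hd hp E s hω hT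
          have : Dv rs p s ω (ze E 1) h ^ 2 ≤ dev p s ω (ze E 1) h ^ 2 :=
            pow_le_pow_left₀ hD0 (min_le_right _ _) 2
          linarith
    _ = Y * ((n * d : ℕ) : ℝ) + rs ^ 2 * (notT p (L + 1)).card := by
        rw [Finset.sum_add_distrib, Finset.sum_const, hcard, nsmul_eq_mul, Finset.sum_ite_mem,
          Finset.univ_inter, Finset.sum_const, nsmul_eq_mul]
        ring

/-- **THEOREM A** from the one-step estimates. -/
theorem thmA_of_step (d : ℕ) : ThmAFromStep d := by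
  classical
  intro hstepA A hA0 hA
  have hd1 : 1 < (d : ℝ) := by nlinarith [sq_nonneg A, mul_pos hA0 hA0]
  have hd : 2 ≤ d := by exact_mod_cast hd1
  have hd2 : (2 : ℝ) ≤ d := by exact_mod_cast hd
  haveI : NeZero d := ⟨by omega⟩
  have hb0 : 0 < (d : ℝ) - 1 := by linarith
  obtain ⟨rs, C, c, s0, hrs, hC, hc, hs0, H⟩ := hstepA A hA0 hA
  -- the enlarged constant
  set C' : ℝ := max C (CH5 d A 1 rs) with hC'
  have hCC : C ≤ C' := le_max_left _ _
  have hC'0 : 0 < C' := lt_of_lt_of_le hC hCC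
  have hcA : 0 < cA C' c := cA_pos hC'0 hc
  set v0 : ℝ := 1 / (4 * cA C' c) with hv0
  have hv0p : 0 < v0 := by positivity
  have hv0c : cA C' c * v0 ≤ 1 / 4 := by
    rw [hv0]; field_simp; norm_num
  -- the radius
  set q : ℝ := ((d : ℝ) - 1) / (1 + ((d : ℝ) - 1)) with hq
  have hq0 : 0 ≤ q := by positivity
  have hq1 : q < 1 := by rw [hq, div_lt_one (by positivity)]; linarith
  obtain ⟨L, hL⟩ := exists_pow_lt_of_lt_one (show 0 < v0 / 24 by positivity) hq1
  have hL' : q ^ (L + 1) ≤ v0 / 24 := by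
    rw [pow_succ]
    have : q ^ L * q ≤ q ^ L * 1 := mul_le_mul_of_nonneg_left hq1.le (by positivity)
    linarith
  -- the strength
  set S : ℝ := min s0 (min 1 (min (v0 / (4 * cA C' c)) (v0 / (12 * ((L : ℝ) + 1) ^ 2)))) with hS
  have hS0 : 0 < S := by
    rw [hS]
    refine lt_min hs0 (lt_min one_pos (lt_min (by positivity) (by positivity)))
  refine ⟨rs, 2 * cA C' c, S, hrs, by positivity, hS0, ?_⟩
  intro δ hδ
  -- the small parameter
  set δ' : ℝ := min (δ / 2) (min (v0 / 4) (min (3 / (4 * rs ^ 2)) 1)) with hδ'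
  have hδ'0 : 0 < δ' := by
    rw [hδ']
    refine lt_min (by positivity) (lt_min (by positivity) (lt_min (by positivity) one_pos))
  have hδ1 : δ' ≤ δ / 2 := min_le_left _ _
  have hδ2 : δ' ≤ v0 / 4 := (min_le_right _ _).trans (min_le_left _ _)
  have hδ3 : δ' ≤ 3 / (4 * rs ^ 2) :=
    (min_le_right _ _).trans ((min_le_right _ _).trans (min_le_left _ _))
  set X : ℝ := cD C' c δ' * (1 + min 1 (δ' / C')) / min 1 (δ' / C') with hX
  have hmin : 0 < min 1 (δ' / C') := lt_min one_pos (by positivity)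
  have hX0 : 0 ≤ X := by
    have := cD_nonneg hC'0 hc hδ'0
    rw [hX]; positivity
  set K0 : ℝ := max (12 * cA C' c / δ') (2 * X / δ + 1) with hK0
  have hK0p : 0 < K0 := lt_of_lt_of_le (by positivity) (le_max_left _ _)
  refine ⟨K0, hK0p, ?_⟩
  intro K hK
  have hKp : 0 < K := hK0p.trans_le hK
  set Ct : ℝ := C + CT d (L + 1) / d with hCt
  have hCt0 : 0 < Ct := by
    have := CT_nonneg d (L + 1)
    rw [hCt]; positivity
  refine ⟨⌈12 * cA C' c * Ct / δ' * (2 / δ)⌉₊ + 1, ?_⟩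
  intro n hnN E s hE hs ω hω
  have hn : 0 < n := by omega
  have hnR : (0 : ℝ) < n := by exact_mod_cast hn
  have hnbig : 12 * cA C' c * Ct / δ' * (2 / δ) ≤ n := by
    refine (Nat.le_ceil _).trans ?_
    exact_mod_cast (by omega : ⌈12 * cA C' c * Ct / δ' * (2 / δ)⌉₊ ≤ n)
  have hsS0 : |s| ≤ s0 := hs.trans (min_le_left _ _)
  have hs1 : |s| ≤ 1 := hs.trans ((min_le_right _ _).trans (min_le_left _ _))
  have hs2 : |s| ≤ v0 / (4 * cA C' c) :=
    hs.trans ((min_le_right _ _).trans ((min_le_right _ _).trans (min_le_left _ _)))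
  have hs3 : |s| ≤ v0 / (12 * ((L : ℝ) + 1) ^ 2) :=
    hs.trans ((min_le_right _ _).trans ((min_le_right _ _).trans (min_le_right _ _)))
  have hssq : s ^ 2 ≤ |s| := by
    rw [← sq_abs s, sq]
    calc |s| * |s| ≤ |s| * 1 := mul_le_mul_of_nonneg_left hs1 (abs_nonneg _)
      _ = |s| := mul_one _
  obtain ⟨err, herr0, herrsum, HS⟩ := H n hn
  have HS' := fun (η : ℝ) (h0 : 0 < η) (h1 : η ≤ 1) => HS E s η hE hsS0 h0 h1 ω hω
  -- choose the one-step functions at every scale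
  have hch : ∀ η : ℝ, ∃ (gV : Equiv.Perm (HE n d) → ℝ) (gm : Equiv.Perm (HE n d) → ℂ),
      0 < η → η ≤ 1 → Step (Ports n d) (fun p => Vp rs p s ω (ze E η)) gV
        (fun p => mup rs p s ω (ze E η)) gm err
        (((d : ℂ) - 1) * mc d (ze E η) ^ 2) C c (1 / 4) (1 / (n * η)) s := by
    intro η
    by_cases h : 0 < η ∧ η ≤ 1
    · obtain ⟨gV, gm, hg⟩ := HS' η h.1 h.2
      exact ⟨gV, gm, fun _ _ => hg⟩
    · exact ⟨fun _ => 0, fun _ => 0, fun h0 h1 => absurd ⟨h0, h1⟩ h⟩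
  choose gV gm hg using hch
  -- the enlarged error
  set err' : Equiv.Perm (HE n d) → ℝ :=
    fun p => err p + (notT p (L + 1)).card / ((n * d : ℕ) : ℝ) with herr'
  have hnd : (0 : ℝ) < ((n * d : ℕ) : ℝ) := by
    have : 0 < n * d := Nat.mul_pos hn (by omega)
    exact_mod_cast this
  have herr'0 : ∀ p, 0 ≤ err' p := fun p => by
    have := herr0 p
    simp only [herr']
    positivity
  have hee : ∀ p, err p ≤ err' p := fun p => by
    have : (0 : ℝ) ≤ (notT p (L + 1)).card / ((n * d : ℕ) : ℝ) := by positivity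
    simp only [herr']
    linarith
  have hsum : ∑ p ∈ Ports n d, err' p ≤ Ct / n * (Ports n d).card := by
    have h1 := sum_card_notT_le (n := n) hd (L + 1)
    simp only [herr']
    rw [Finset.sum_add_distrib, ← Finset.sum_div]
    have h2 : (∑ p ∈ Ports n d, ((notT p (L + 1)).card : ℝ)) / ((n * d : ℕ) : ℝ) ≤
        CT d (L + 1) * (Ports n d).card / ((n * d : ℕ) : ℝ) :=
      div_le_div_of_nonneg_right h1 hnd.le
    have h3 : CT d (L + 1) * ((Ports n d).card : ℝ) / ((n * d : ℕ) : ℝ) =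
        CT d (L + 1) / d / n * (Ports n d).card := by
      rw [Nat.cast_mul]
      have : (d : ℝ) ≠ 0 := by positivity
      field_simp
    have h4 : Ct / n * ((Ports n d).card : ℝ) = C / n * (Ports n d).card +
        CT d (L + 1) / d / n * (Ports n d).card := by
      rw [hCt]; ring
    linarith
  have hmain := multiscale (Ports n d) (n : ℝ) 1 (fun η p => Vp rs p s ω (ze E η)) gV
    (fun η p => mup rs p s ω (ze E η)) gm err' (fun η => ((d : ℂ) - 1) * mc d (ze E η) ^ 2)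
    (C := C') (c := c) (θ := 1 / 4) (s := s) (v0 := v0) (δ := δ') (Ce := Ct / n) hnR one_pos
    hC'0 hc le_rfl
    (fun η h0 h1 => Step.mono (hg η h0 h1) hC.le hCC (by positivity) (fun p _ => herr0 p)
      (fun p _ => hee p))
    (fun p _ => herr'0 p) hsum
    (by
      intro p hp η η' h0 h1 h2 h3
      have hE2 : E ^ 2 < 4 * ((d : ℝ) - 1) := by
        refine lt_of_le_of_lt ?_ hA
        rw [← sq_abs E]
        exact pow_le_pow_left₀ (abs_nonneg _) hE 2
      have := Vq_le_add hd hrs.le (mem_Ports.1 hp) s ω hE2 h0 h1 h2 h3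
      simp only [Vp_eq]
      refine this.trans ?_
      have h5 : 0 ≤ η' / η - 1 := by
        have : 1 ≤ η' / η := by rw [le_div_iff₀ h0]; linarith
        linarith
      have h6 : CH5 d E 1 rs ≤ C' := by
        refine le_trans ?_ (le_max_right _ _)
        unfold CH5
        have := Lroot_mono hd hE hA
        gcongr
      have := mul_le_mul_of_nonneg_right h6 h5
      linarith)
    (by
      intro p hp hpe
      have h1 := Vp_top hn hd (mem_Ports.1 hp) E s hω L hrs.le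
      rw [← hq] at h1
      have h2 : (notT p (L + 1)).card / ((n * d : ℕ) : ℝ) ≤ err' p := by
        have := herr0 p
        simp only [herr']
        linarith
      have h3 : err' p ≤ δ' / (12 * cA C' c) := by
        rw [le_div_iff₀ (by positivity)]; linarith
      have h4 : rs ^ 2 * ((notT p (L + 1)).card / ((n * d : ℕ) : ℝ)) ≤ v0 / 4 := by
        calc rs ^ 2 * ((notT p (L + 1)).card / ((n * d : ℕ) : ℝ))
            ≤ rs ^ 2 * (δ' / (12 * cA C' c)) :=
              mul_le_mul_of_nonneg_left (h2.trans h3) (by positivity)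
          _ ≤ rs ^ 2 * ((3 / (4 * rs ^ 2)) / (12 * cA C' c)) := by gcongr
          _ = v0 / 4 := by
              rw [hv0]; field_simp; norm_num
      have h5 : 6 * q ^ (L + 1) ≤ v0 / 4 := by linarith
      have h6 : 3 * s ^ 2 * ((L : ℝ) + 1) ^ 2 ≤ v0 / 4 := by
        have : s ^ 2 ≤ v0 / (12 * ((L : ℝ) + 1) ^ 2) := hssq.trans hs3
        rw [le_div_iff₀ (by positivity)] at this
        linarith
      linarith)
    hv0c hδ'0
    (by
      have h1 : s ^ 2 ≤ v0 / (4 * cA C' c) := hssq.trans hs2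
      rw [le_div_iff₀ (by positivity)] at h1
      linarith)
    hKp
    (by
      have : 12 * cA C' c / δ' ≤ K := (le_max_left _ _).trans hK
      rw [div_le_iff₀ hδ'0] at this
      linarith)
  have hN0 : (0 : ℝ) ≤ (Ports n d).card := Nat.cast_nonneg _
  have hfin : X / K * (Ports n d).card + 12 * cA C' c * (Ct / n) / δ' * (Ports n d).card ≤
      δ * (Ports n d).card := by
    have h1 : X / K ≤ δ / 2 := by
      have : 2 * X / δ ≤ K := by
        have := (le_max_right (12 * cA C' c / δ') (2 * X / δ + 1)).trans hK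
        linarith
      rw [div_le_iff₀ hδ] at this
      rw [div_le_iff₀ hKp]
      linarith
    have h2 : 12 * cA C' c * (Ct / n) / δ' ≤ δ / 2 := by
      have e1 : 12 * cA C' c * (Ct / n) / δ' = (12 * cA C' c * Ct / δ') / n := by
        field_simp
      rw [e1, div_le_iff₀ hnR]
      have e2 : 12 * cA C' c * Ct / δ' = (12 * cA C' c * Ct / δ' * (2 / δ)) * (δ / 2) := by
        field_simp
      rw [e2]
      have := mul_le_mul_of_nonneg_right hnbig (show 0 ≤ δ / 2 by positivity)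
      linarith
    have h3 := mul_le_mul_of_nonneg_right h1 hN0
    have h4 := mul_le_mul_of_nonneg_right h2 hN0
    linarith
  refine le_trans ?_ (hmain.trans hfin)
  refine Nat.cast_le.2 (Finset.card_le_card ?_)
  intro p hp
  rw [Finset.mem_filter] at hp ⊢
  obtain ⟨hp1, η, h1, h2, h3⟩ := hp
  refine ⟨hp1, η, h1, h2, ?_⟩
  have : 2 * δ' ≤ δ := by linarith
  linarith

end Crest.Agent.R166.ThmA383
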