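import Crest.Agent.R166.CleanOut3_501
import Crest.Agent.R166.BridgeEL_501
import Crest.Agent.R166.BlkLaw1_355
import Crest.Agent.R166.ThmA_383
import Crest.Agent.R166.UIfin_566

/-!
Row 166, section 31 (helper501): outputs of the clean case from Theorem A and 31.4 (helper566).
-/

set_option autoImplicit false

namespace Crest.Agent.R166.Out501

open Finset MeasureTheory Crest.ProbabilityR.RandomMatrix Crest.Agent.R166
open Crest.Agent.R166.Exc501 (bl nb EL NM)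

/-- the exceptional vertices at depth `L`: some half-edge at `v` is not tree-like -/
def excTL (d : ℕ) [NeZero d] (L : ℕ) (n : ℕ) (p : Equiv.Perm (HE n d)) (v : Fin n) : Prop :=
  ∃ i, ¬ SwP470.TL L p (v, i)

lemma excTL_EL {d : ℕ} [NeZero d] (hd : 2 ≤ d) (L : ℕ) {n : ℕ} {p : Equiv.Perm (HE n d)}
    (hp : IsPort p) {v : Fin n} (h : excTL d L n p v) : EL (graphOf p) (L + 1) v := by
  by_contra hE
  obtain ⟨i, hi⟩ := h
  exact hi (Exc501.TL_of_not_EL hd hp (h := (v, i)) hE)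

/-- from 566's output to the form used in `CleanOut3_501` -/
theorem uip_of_uniEsc {d : ℕ} {E : ℝ} {exc : ∀ n : ℕ, Equiv.Perm (HE n d) → Fin n → Prop} {L : ℕ}
    (hexc : ∀ (n : ℕ) (p : Equiv.Perm (HE n d)), IsPort p → ∀ v, exc n p v →
      EL (graphOf p) L v)
    (h : Clean566.UniEsc d E exc) : UIp d E := by
  classical
  refine ⟨L, fun κ hκ ε hε => ?_⟩
  obtain ⟨M, hM⟩ := h κ hκ ε hε
  refine ⟨M, fun K hK => ?_⟩
  obtain ⟨N, hN⟩ := hM K hK
  refine ⟨N, fun n hn => le_trans ?_ (hN n hn)⟩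
  refine Nat.cast_le.2 (Finset.card_le_card ?_)
  intro p hp
  rw [Finset.mem_filter] at hp ⊢
  refine ⟨hp.1, hp.2.trans_le ?_⟩
  have hport : IsPort p := mem_Ports.1 hp.1
  unfold tailT
  refine vAvg_mono fun v => ?_
  have hA : Hm (graphOf p) 0 0 = A0 (graphOf p) := Hm_zero _ _
  rw [hA]
  by_cases hc : ¬ EL (graphOf p) L v ∧ M < ‖Res (A0 (graphOf p)) (zz E K n) v v‖
  · rw [if_pos hc, if_pos ⟨fun he => hc.1 (hexc n p hport v he), hc.2⟩]
  · rw [if_neg hc]
    split_ifs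
    · exact norm_nonneg _
    · exact le_rfl

theorem uip_of_uniEscTL {d : ℕ} [NeZero d] (hd : 2 ≤ d) {E : ℝ} {L : ℕ}
    (h : Clean566.UniEsc d E (excTL d L)) : UIp d E :=
  uip_of_uniEsc (L := L + 1) (fun _ _ hp _ he => excTL_EL hd L hp he) h

/-- **all the outputs for `s = 0`** from Theorem A and 31.4 -/
theorem outputs_of {d : ℕ} [NeZero d] (hd : 3 ≤ d) {E : ℝ} (hE : E ^ 2 < 4 * ((d : ℝ) - 1))
    (hA : SpecA.ThmA d) {L : ℕ} (h : Clean566.UniEsc d E (excTL d L)) :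
    ImLim d 0 E (kestenMcKayDensity d E) ∧ ImFix d 0 E (kestenMcKayDensity d E) ∧
      LocLim d 0 E ∧ NoEsc d 0 E ∧ NonDeg d 0 E ∧ ∀ r : ℝ, 0 < r → NearClean d 0 E r :=
  clean_outputs hd hE (BlkLaw355.out_blkLaw0 hd hA hE) (uip_of_uniEscTL (by omega) h)

end Crest.Agent.R166.Out501
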