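import Mathlib
import Crest.Agent.R166.EnvB_536
import Crest.Agent.R166.EnvC_536
import Crest.Agent.R166.Noise_547

/-!
Row 166 (helper536): tools for `EnvDet`: uniform continuity, polynomial approximation of the
resolvent, `Whp` bookkeeping, one constant for all `ε`.
-/

set_option autoImplicit false

namespace Crest.Agent.R166.Env536

open MeasureTheory ProbabilityTheory Finset Crest.ProbabilityR.RandomMatrix

/-! ### test functions -/

theorem uc_entries {χ : Matrix (Fin 2) (Fin 2) ℂ → ℝ} (hc : Continuous χ)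
    (hs : HasCompactSupport χ) {ε : ℝ} (hε : 0 < ε) :
    ∃ δ : ℝ, 0 < δ ∧ ∀ A B : Matrix (Fin 2) (Fin 2) ℂ, (∀ i j, ‖A i j - B i j‖ < δ) →
      |χ A - χ B| < ε := by
  have h1 : UniformContinuous (fun f : Fin 2 → Fin 2 → ℂ => χ f) :=
    HasCompactSupport.uniformContinuous_of_continuous (f := fun f : Fin 2 → Fin 2 → ℂ => χ f) hs hc
  rw [Metric.uniformContinuous_iff] at h1
  obtain ⟨δ, hδ, h2⟩ := h1 ε hε
  refine ⟨δ, hδ, fun A B hAB => ?_⟩
  have h3 := h2 (a := (A : Fin 2 → Fin 2 → ℂ)) (b := (B : Fin 2 → Fin 2 → ℂ)) (by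
    rw [dist_pi_lt_iff hδ]
    intro i
    rw [dist_pi_lt_iff hδ]
    intro j
    rw [dist_eq_norm]
    exact hAB i j)
  rwa [Real.dist_eq] at h3

theorem chi_bdd {χ : Matrix (Fin 2) (Fin 2) ℂ → ℝ} (hc : Continuous χ)
    (hs : HasCompactSupport χ) : ∃ M : ℝ, 0 < M ∧ ∀ A, |χ A| ≤ M := by
  obtain ⟨M, hM⟩ := hs.exists_bound_of_continuous hc
  refine ⟨|M| + 1, by positivity, fun A => (hM A).trans ?_⟩
  linarith [le_abs_self M]

/-! ### the resolvent as a polynomial -/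

theorem res_eq_fM {V : Type*} [Fintype V] [DecidableEq V] {H : Matrix V V ℝ}
    (hH : H.IsHermitian) {z : ℂ} (hz : z.im ≠ 0) (x y : V) :
    Res H z x y = (Noise547.fM hH (fun t => (((t : ℂ) - z)⁻¹).re) x y : ℂ) +
      Complex.I * (Noise547.fM hH (fun t => (((t : ℂ) - z)⁻¹).im) x y : ℂ) := by
  rw [Noise547.res_apply hH hz, Noise547.fM_apply, Noise547.fM_apply, Complex.ofReal_sum,
    Complex.ofReal_sum, Finset.mul_sum, ← Finset.sum_add_distrib]
  refine sum_congr rfl fun i _ => ?_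
  push_cast
  conv_lhs => rw [← Complex.re_add_im (((Noise547.ev hH i x : ℂ) * (Noise547.ev hH i y : ℂ)))]
  have h1 : (((hH.eigenvalues i : ℂ) - z)⁻¹) =
      ((((hH.eigenvalues i : ℂ) - z)⁻¹).re : ℂ) +
        ((((hH.eigenvalues i : ℂ) - z)⁻¹).im : ℂ) * Complex.I := (Complex.re_add_im _).symm
  rw [Complex.re_add_im]
  conv_lhs => rw [h1]
  ring

theorem res_poly (E η L δ : ℝ) (hη : 0 < η) (hδ : 0 < δ) :
    ∃ P Q : Polynomial ℝ, ∀ (n : ℕ) (H : Matrix (Fin n) (Fin n) ℝ), H.IsHermitian →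
      (∀ x, ∑ y, |H x y| ≤ L) → ∀ x y, ‖Res H (ze E η) x y -
        ((Polynomial.aeval H P x y : ℂ) + Complex.I * (Polynomial.aeval H Q x y : ℂ))‖ ≤ δ := by
  have hz : (ze E η).im ≠ 0 := by simp [ze]; exact hη.ne'
  have hne : ∀ t : ℝ, (t : ℂ) - ze E η ≠ 0 := by
    intro t h
    have := congrArg Complex.im h
    simp only [Complex.sub_im, Complex.ofReal_im, zero_sub, Complex.zero_im, neg_eq_zero] at this
    exact hz this
  have hcont : Continuous fun t : ℝ => ((t : ℂ) - ze E η)⁻¹ :=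
    (Complex.continuous_ofReal.sub continuous_const).inv₀ hne
  obtain ⟨P, hP⟩ := Noise547.exists_poly (Complex.continuous_re.comp hcont) L (half_pos hδ)
  obtain ⟨Q, hQ⟩ := Noise547.exists_poly (Complex.continuous_im.comp hcont) L (half_pos hδ)
  refine ⟨P, Q, fun n H hH hL x y => ?_⟩
  have hL' := fun i => Noise547.eig_abs_le hH hL i
  rw [res_eq_fM hH hz, ← Noise547.fM_poly hH, ← Noise547.fM_poly hH]
  have h1 := Noise547.fM_sub_abs_le hH (f := fun t => (((t : ℂ) - ze E η)⁻¹).re)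
    (g := fun t => P.eval t) (fun i => hP _ (hL' i)) x y
  have h2 := Noise547.fM_sub_abs_le hH (f := fun t => (((t : ℂ) - ze E η)⁻¹).im)
    (g := fun t => Q.eval t) (fun i => hQ _ (hL' i)) x y
  have h3 : ∀ a b c e : ℝ, |a - c| ≤ δ / 2 → |b - e| ≤ δ / 2 →
      ‖((a : ℂ) + Complex.I * (b : ℂ)) - ((c : ℂ) + Complex.I * (e : ℂ))‖ ≤ δ := by
    intro a b c e h1 h2
    have e1 : ((a : ℂ) + Complex.I * (b : ℂ)) - ((c : ℂ) + Complex.I * (e : ℂ)) =
        ((a - c : ℝ) : ℂ) + Complex.I * ((b - e : ℝ) : ℂ) := by push_cast; ring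
    rw [e1]
    refine (norm_add_le _ _).trans ?_
    rw [norm_mul, Complex.norm_I, one_mul, Complex.norm_real, Complex.norm_real,
      Real.norm_eq_abs, Real.norm_eq_abs]
    linarith
  exact h3 _ _ _ _ h1 h2

theorem Hm_herm {n : ℕ} (G : SimpleGraph (Fin n)) (s : ℝ) (ω : Fin n → ℝ) :
    (Hm G s ω).IsHermitian := by
  classical
  unfold Hm
  refine Matrix.IsHermitian.add ?_ ?_
  · rw [Matrix.IsHermitian, Matrix.conjTranspose_eq_transpose_of_trivial]
    exact SimpleGraph.transpose_adjMatrix G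
  · rw [Matrix.IsHermitian, Matrix.conjTranspose_eq_transpose_of_trivial, Matrix.transpose_smul,
      Matrix.diagonal_transpose]

theorem Hm_rowsum {n d : ℕ} {p : Equiv.Perm (HE n d)} (hp : IsPort p) (s : ℝ)
    {ω : Fin n → ℝ} (hω : ∀ i, |ω i| ≤ 1) (x : Fin n) :
    ∑ y, |Hm (graphOf p) s ω x y| ≤ d + |s| := by
  classical
  have h1 : ∀ y, |Hm (graphOf p) s ω x y| ≤
      (if (graphOf p).Adj x y then (1 : ℝ) else 0) + (if x = y then |s| else 0) := by
    intro y
    unfold Hm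
    rw [Matrix.add_apply, Matrix.smul_apply, SimpleGraph.adjMatrix_apply, smul_eq_mul]
    refine (abs_add_le _ _).trans (add_le_add ?_ ?_)
    · split_ifs <;> simp
    · by_cases hxy : x = y
      · subst hxy
        rw [Matrix.diagonal_apply_eq, if_pos rfl, abs_mul]
        exact mul_le_of_le_one_right (abs_nonneg _) (hω x)
      · rw [Matrix.diagonal_apply_ne _ hxy, if_neg hxy]
        simp
  refine (sum_le_sum fun y _ => h1 y).trans ?_
  rw [sum_add_distrib, sum_ite_eq]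
  have h2 := sum_adj hp x (fun _ => (1 : ℝ))
  rw [h2]
  simp

/-! ### `Whp` tools -/

section W

variable {n d : ℕ}

/-- if the potential event is likely for all port graphs outside a small bad set -/
theorem whp_of_ports {ε1 ε2 : ℝ} (h1 : 0 ≤ ε1) (h2 : 0 ≤ ε2)
    (Q : SimpleGraph (Fin n) → (Fin n → ℝ) → Prop) (Bad : Finset (Equiv.Perm (HE n d)))
    (hBad : Bad ⊆ Ports n d) (hcard : (Bad.card : ℝ) ≤ ε1 * ((Ports n d).card : ℝ))
    (hgood : ∀ p ∈ Ports n d, p ∉ Bad →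
      (potentialLaw n) {ω | ¬ Q (graphOf p) ω} ≤ ENNReal.ofReal ε2) :
    Whp n d (ε1 + ε2) Q := by
  classical
  rw [Whp_iff, ← sum_sdiff hBad]
  rcases Nat.eq_zero_or_pos (Ports n d).card with h0 | h0
  · have e1 : Ports n d = ∅ := card_eq_zero.1 h0
    have e2 : Bad = ∅ := by rw [← subset_empty, ← e1]; exact hBad
    rw [e1, e2]
    simp
  have hne : ((Ports n d).card : ENNReal) ≠ 0 := by exact_mod_cast h0.ne'
  have htop : ((Ports n d).card : ENNReal) ≠ ⊤ := ENNReal.natCast_ne_top _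
  have a1 : ∑ p ∈ Ports n d \ Bad, (potentialLaw n) {ω | ¬ Q (graphOf p) ω} ≤
      ((Ports n d).card : ENNReal) * ENNReal.ofReal ε2 := by
    refine (sum_le_card_nsmul _ _ (ENNReal.ofReal ε2) fun p hp => ?_).trans ?_
    · rw [mem_sdiff] at hp
      exact hgood p hp.1 hp.2
    · rw [nsmul_eq_mul]
      refine mul_le_mul_left ?_ _
      exact_mod_cast card_le_card sdiff_subset
  have a2 : ∑ p ∈ Bad, (potentialLaw n) {ω | ¬ Q (graphOf p) ω} ≤
      ((Ports n d).card : ENNReal) * ENNReal.ofReal ε1 := by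
    refine (sum_le_card_nsmul _ _ 1 fun p hp => prob_le_one).trans ?_
    rw [nsmul_eq_mul, mul_one]
    have e1 : ((Ports n d).card : ENNReal) = ENNReal.ofReal ((Ports n d).card : ℝ) := by simp
    have e2 : (Bad.card : ENNReal) = ENNReal.ofReal (Bad.card : ℝ) := by simp
    rw [e1, e2, ← ENNReal.ofReal_mul (Nat.cast_nonneg _)]
    exact ENNReal.ofReal_le_ofReal (by linarith)
  calc ((Ports n d).card : ENNReal)⁻¹ * (∑ p ∈ Ports n d \ Bad,
        (potentialLaw n) {ω | ¬ Q (graphOf p) ω} +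
        ∑ p ∈ Bad, (potentialLaw n) {ω | ¬ Q (graphOf p) ω})
      ≤ ((Ports n d).card : ENNReal)⁻¹ * (((Ports n d).card : ENNReal) * ENNReal.ofReal ε2 +
        ((Ports n d).card : ENNReal) * ENNReal.ofReal ε1) := by
        gcongr
    _ = ENNReal.ofReal (ε1 + ε2) := by
        rw [← mul_add, ← mul_assoc, ENNReal.inv_mul_cancel hne htop, one_mul,
          ← ENNReal.ofReal_add h2 h1, add_comm]

theorem law_univ (hne : (regularGraphs n d).Nonempty) : (law n d) Set.univ = 1 := by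
  have h0 : (Ports n d).card ≠ 0 := by
    have := card_pos.2 (Ports_nonempty_iff.2 hne)
    omega
  rw [law_apply]
  simp only [Set.mem_univ, Set.ofPred_true, measure_univ, sum_const, nsmul_eq_mul, mul_one]
  exact ENNReal.inv_mul_cancel (by exact_mod_cast h0) (ENNReal.natCast_ne_top _)

theorem whp_mono {ε ε' : ℝ} {P P' : SimpleGraph (Fin n) → (Fin n → ℝ) → Prop}
    (h : Whp n d ε P) (hε : ε ≤ ε') (hP : ∀ G ω, P G ω → P' G ω) : Whp n d ε' P' := by
  unfold Whp at h ⊢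
  refine (measure_mono ?_).trans (h.trans (ENNReal.ofReal_le_ofReal hε))
  intro x hx hx'
  exact hx (hP _ _ hx')

/-- two likely events intersect -/
theorem whp_inter (hne : (regularGraphs n d).Nonempty) {ε1 ε2 : ℝ} (h1 : 0 ≤ ε1) (h2 : 0 ≤ ε2)
    (h12 : ε1 + ε2 < 1) {P1 P2 : SimpleGraph (Fin n) → (Fin n → ℝ) → Prop}
    (hP1 : Whp n d ε1 P1) (hP2 : Whp n d ε2 P2) : ∃ G ω, P1 G ω ∧ P2 G ω := by
  by_contra hcon
  push Not at hcon
  have h3 : (Set.univ : Set (SimpleGraph (Fin n) × (Fin n → ℝ))) ⊆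
      {x | ¬ P1 x.1 x.2} ∪ {x | ¬ P2 x.1 x.2} := by
    intro x _
    by_cases hx : P1 x.1 x.2
    · exact Or.inr (hcon _ _ hx)
    · exact Or.inl hx
  have h4 := (measure_mono h3).trans (measure_union_le (μ := law n d) _ _)
  rw [law_univ hne] at h4
  have h5 := h4.trans (add_le_add hP1 hP2)
  rw [← ENNReal.ofReal_add h1 h2] at h5
  have h6 : ENNReal.ofReal (ε1 + ε2) < 1 := by
    rw [ENNReal.ofReal_lt_one]
    exact h12
  exact absurd h5 (not_le.2 h6)

end W

/-- one constant for all `ε` -/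
theorem exists_const (d : ℕ) (X : ∀ n : ℕ, SimpleGraph (Fin n) → (Fin n → ℝ) → ℝ)
    (h : ∀ ε : ℝ, 0 < ε → ∃ c : ℝ, ∃ N : ℕ, ∀ n : ℕ, N ≤ n → (regularGraphs n d).Nonempty →
      Whp n d ε fun G ω => |X n G ω - c| ≤ ε) :
    ∃ c : ℝ, ∀ ε : ℝ, 0 < ε → ∃ N : ℕ, ∀ n : ℕ, N ≤ n → (regularGraphs n d).Nonempty →
      Whp n d ε fun G ω => |X n G ω - c| ≤ ε := by
  by_cases hinf : ∃ N : ℕ, ∀ n : ℕ, N ≤ n → ¬ (regularGraphs n d).Nonempty
  · obtain ⟨N, hN⟩ := hinf
    exact ⟨0, fun ε _ => ⟨N, fun n hn hne => absurd hne (hN n hn)⟩⟩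
  push Not at hinf
  have hpos : ∀ k : ℕ, (0 : ℝ) < 1 / (k + 3) := fun k => by positivity
  choose c N hcN using fun k : ℕ => h (1 / (k + 3)) (hpos k)
  have hclose : ∀ k l : ℕ, |c k - c l| ≤ 1 / ((k : ℝ) + 3) + 1 / ((l : ℝ) + 3) := by
    intro k l
    obtain ⟨n, hn, hne⟩ := hinf (max (N k) (N l))
    have h1 := hcN k n ((le_max_left _ _).trans hn) hne
    have h2 := hcN l n ((le_max_right _ _).trans hn) hne
    have hlt : (1 : ℝ) / (k + 3) + 1 / (l + 3) < 1 := by
      have a1 : (1 : ℝ) / (k + 3) ≤ 1 / 3 :=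
        one_div_le_one_div_of_le (by norm_num) (by linarith [Nat.cast_nonneg (α := ℝ) k])
      have a2 : (1 : ℝ) / (l + 3) ≤ 1 / 3 :=
        one_div_le_one_div_of_le (by norm_num) (by linarith [Nat.cast_nonneg (α := ℝ) l])
      linarith
    obtain ⟨G, ω, h3, h4⟩ := whp_inter hne (hpos k).le (hpos l).le hlt h1 h2
    have h5 : c k - c l = (X n G ω - c l) - (X n G ω - c k) := by ring
    rw [h5]
    refine (abs_sub _ _).trans ?_
    linarith
  have hcs : CauchySeq c := by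
    rw [Metric.cauchySeq_iff']
    intro ε hε
    obtain ⟨K, hK⟩ := exists_nat_gt (2 / ε)
    refine ⟨K, fun k hk => ?_⟩
    rw [Real.dist_eq]
    refine (hclose k K).trans_lt ?_
    have hK0 : (0 : ℝ) < (K : ℝ) + 3 := by positivity
    have a1 : (1 : ℝ) / (k + 3) ≤ 1 / (K + 3) :=
      one_div_le_one_div_of_le hK0 (by
        have : (K : ℝ) ≤ k := by exact_mod_cast hk
        linarith)
    have a2 : (1 : ℝ) / (K + 3) < ε / 2 := by
      rw [div_lt_iff₀ hK0]
      rw [div_lt_iff₀ hε] at hK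
      nlinarith
    linarith
  obtain ⟨c0, hc0⟩ := cauchySeq_tendsto_of_complete hcs
  have hlim : ∀ k : ℕ, |c k - c0| ≤ 1 / ((k : ℝ) + 3) := by
    intro k
    have h1 : Filter.Tendsto (fun l => |c k - c l|) Filter.atTop (nhds |c k - c0|) :=
      (tendsto_const_nhds.sub hc0).abs
    have h2 : Filter.Tendsto (fun l : ℕ => 1 / ((k : ℝ) + 3) + 1 / ((l : ℝ) + 3)) Filter.atTop
        (nhds (1 / ((k : ℝ) + 3) + 0)) := by
      refine tendsto_const_nhds.add ?_
      have h3 : Filter.Tendsto (fun l : ℕ => (l : ℝ) + 3) Filter.atTop Filter.atTop :=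
        Filter.tendsto_atTop_add_const_right _ _ tendsto_natCast_atTop_atTop
      simp only [one_div]
      exact h3.inv_tendsto_atTop
    rw [add_zero] at h2
    exact le_of_tendsto_of_tendsto' h1 h2 fun l => hclose k l
  refine ⟨c0, fun ε hε => ?_⟩
  obtain ⟨k, hk⟩ := exists_nat_gt (2 / ε)
  have hk0 : (0 : ℝ) < (k : ℝ) + 3 := by positivity
  have hkε : (1 : ℝ) / (k + 3) ≤ ε / 2 := by
    rw [div_le_iff₀ hk0]
    rw [div_lt_iff₀ hε] at hk
    nlinarith
  refine ⟨N k, fun n hn hne => whp_mono (hcN k n hn hne) (by linarith) fun G ω hG => ?_⟩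
  have h1 := hlim k
  have h2 : X n G ω - c0 = (X n G ω - c k) + (c k - c0) := by ring
  rw [h2]
  refine (abs_add_le _ _).trans ?_
  linarith

end Crest.Agent.R166.Env536
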