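import Crest.Agent.R166.GoeInvD_93
import Crest.Agent.R166.Spine_419

/-!
# R166 / GoeInv_93 (helper93)

Section 60.2: `invO : ImLimO → InvO`.
-/

set_option autoImplicit false

open MeasureTheory ProbabilityTheory Matrix
open scoped BigOperators
open Crest.ProbabilityR.RandomMatrix

namespace Crest.Agent.R166.GoeInv93

open Crest.Agent.R166 Crest.Agent.R166.GaussPi93 Crest.Agent.R166.GoeRot93
open Crest.Agent.R166.CayDet93 Crest.Agent.R166.Schur93 Crest.Agent.R166.MeasMat93

section relate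
variable {n m : ℕ}

lemma testArr_eq (hn : 0 < n) (H : Matrix (Fin n) (Fin n) ℝ) (x : ℝ) (G : Fin n → Fin m → ℝ) :
    testArr H (0 + x / n) G = arr ((n:ℝ) • H - x • (1 : Matrix (Fin n) (Fin n) ℝ)) G := by
  have hn0 : (n:ℝ) ≠ 0 := by exact_mod_cast hn.ne'
  have h1 : (n:ℝ) • H - x • (1 : Matrix (Fin n) (Fin n) ℝ) =
      (n:ℝ) • (H - (x / n) • (1 : Matrix (Fin n) (Fin n) ℝ)) := by
    rw [smul_sub, smul_smul]
    congr 2
    field_simp
  have h2 : ((n:ℝ) • (H - (x / n) • (1 : Matrix (Fin n) (Fin n) ℝ)))⁻¹ =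
      (n:ℝ)⁻¹ • (H - (x / n) • (1 : Matrix (Fin n) (Fin n) ℝ))⁻¹ := by
    by_cases hu : IsUnit (H - (x / n) • (1 : Matrix (Fin n) (Fin n) ℝ)).det
    · apply Matrix.inv_eq_right_inv
      rw [Matrix.smul_mul, Matrix.mul_smul, smul_smul, Matrix.mul_nonsing_inv _ hu,
        mul_inv_cancel₀ hn0, one_smul]
    · rw [Matrix.nonsing_inv_apply_not_isUnit _ hu, Matrix.nonsing_inv_apply_not_isUnit, smul_zero]
      rw [Matrix.det_smul]
      intro h3
      exact hu (isUnit_of_mul_isUnit_right h3)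
  rw [testArr, arr, h1, h2, zero_add, Matrix.mul_smul, Matrix.smul_mul, one_div]

/-- the centring constant -/
noncomputable def cc (K : ℝ) (g : GOEDisorder n) : ℝ := (mn (goeMatrix g) (zz 0 K n)).re

lemma uOf_eq (hn : 0 < n) (K x : ℝ) (g : GOEDisorder n) (G : Fin n → Fin m → ℝ) :
    uOf (goeMatrix g) 0 (1 / Real.pi) K x G =
      Cay (arr (Wx (n:ℝ) g x) G - cc K g • (1 : Matrix (Fin m) (Fin m) ℝ)) := by
  have hpi : Real.pi * (1 / Real.pi) = 1 := by
    field_simp
  rw [uOf, testArr_eq hn, hpi, div_one, one_smul]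
  rfl

lemma meas_cc (K : ℝ) : Measurable (cc (n := n) K) := by
  have h1 : MM fun g : GOEDisorder n => Res (goeMatrix g) (zz 0 K n) := by
    unfold Res
    refine MM.inv_complex ?_
    exact (MM.cx MM_goeMatrix).sub (MM.const _)
  have h2 : Measurable fun g : GOEDisorder n => (Res (goeMatrix g) (zz 0 K n)).trace := by
    simp only [Matrix.trace, Matrix.diag_apply]
    exact Finset.measurable_sum _ fun i _ => h1 i i
  unfold cc mn
  exact Complex.measurable_re.comp (h2.div_const _)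

/-- the integrand of `TestVal`, jointly in (shift, (disorder, directions)) -/
noncomputable def Fc (K : ℝ) (f : Matrix (Fin m) (Fin m) ℂ → ℝ)
    (q : ℝ × (GOEDisorder n × (Fin n → Fin m → ℝ))) : ℝ :=
  f (Cay (arr (Wx (n:ℝ) q.2.1 q.1) q.2.2 - cc K q.2.1 • (1 : Matrix (Fin m) (Fin m) ℝ)))

lemma meas_Fc (K : ℝ) {f : Matrix (Fin m) (Fin m) ℂ → ℝ} (hf : Continuous f) :
    Measurable (Fc (n := n) K f) := by
  unfold Fc
  refine MM.comp_continuous ?_ hf
  refine MM.cay ?_
  refine MM.sub (MM.arr ?_ ?_) ?_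
  · intro i j
    exact (MM_Wx (n := n) (n:ℝ) i j).comp
      (measurable_fst.prodMk (measurable_fst.comp measurable_snd))
  · intro i j
    exact (measurable_pi_apply j).comp ((measurable_pi_apply i).comp
      (measurable_snd.comp measurable_snd))
  · refine MM.smul ?_ (MM.const _)
    exact (meas_cc K).comp (measurable_fst.comp measurable_snd)

lemma sub_smul_one_transpose (C : Matrix (Fin m) (Fin m) ℝ) (hC : Cᵀ = C) (c : ℝ) :
    (C - c • (1 : Matrix (Fin m) (Fin m) ℝ))ᵀ = C - c • (1 : Matrix (Fin m) (Fin m) ℝ) := by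
  rw [Matrix.transpose_sub, hC, Matrix.transpose_smul, Matrix.transpose_one]

lemma Fc_bdd (K : ℝ) {f : Matrix (Fin m) (Fin m) ℂ → ℝ} {B : ℝ}
    (hB : ∀ U : Matrix (Fin m) (Fin m) ℂ, (∀ i j, ‖U i j‖ ≤ 1) → |f U| ≤ B)
    (q : ℝ × (GOEDisorder n × (Fin n → Fin m → ℝ))) : |Fc K f q| ≤ B := by
  unfold Fc
  exact hB _ fun i j => norm_Cay_le _ (sub_smul_one_transpose _
    (arr_transpose _ (Wx_transpose _ q.2.1 q.1) _) _) i j

/-- Fubini for bounded measurable integrands -/
lemma swap {α β : Type*} [MeasurableSpace α] [MeasurableSpace β] (P : Measure α)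
    (Q : Measure β) [IsProbabilityMeasure P] [IsProbabilityMeasure Q] {δ : ℝ} (hδ : 0 < δ)
    {F : ℝ × (α × β) → ℝ} (hF : Measurable F) {B : ℝ} (hB : ∀ q, |F q| ≤ B) :
    ∫ a, (δ⁻¹ * ∫ x in (0:ℝ)..δ, ∫ b, F (x, (a, b)) ∂Q) ∂P =
      δ⁻¹ * ∫ x in (0:ℝ)..δ, ∫ p, F (x, p) ∂(P.prod Q) := by
  rw [integral_const_mul]
  congr 1
  simp only [intervalIntegral.integral_of_le hδ.le]
  have hsm : StronglyMeasurable (Function.uncurry fun (a : α) (x : ℝ) =>
      ∫ b, F (x, (a, b)) ∂Q) := by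
    have h1 : StronglyMeasurable (fun r : (α × ℝ) × β => F (r.1.2, (r.1.1, r.2))) := by
      refine (hF.comp ?_).stronglyMeasurable
      exact (measurable_snd.comp measurable_fst).prodMk
        ((measurable_fst.comp measurable_fst).prodMk measurable_snd)
    exact h1.integral_prod_right'
  have hint : Integrable (Function.uncurry fun (a : α) (x : ℝ) =>
      ∫ b, F (x, (a, b)) ∂Q) (P.prod (volume.restrict (Set.Ioc 0 δ))) := by
    refine Integrable.of_bound hsm.aestronglyMeasurable B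
      (Filter.Eventually.of_forall fun r => ?_)
    simp only [Function.uncurry]
    have h2 := norm_integral_le_of_norm_le_const (μ := Q) (f := fun b => F (r.2, (r.1, b)))
      (C := B) (Filter.Eventually.of_forall fun b => by rw [Real.norm_eq_abs]; exact hB _)
    simpa using h2
  rw [integral_integral_swap hint]
  refine integral_congr_ae (Filter.Eventually.of_forall fun x => ?_)
  have hint2 : Integrable (fun p : α × β => F (x, p)) (P.prod Q) := by
    refine integrable_of_bdd (hF.comp (measurable_const.prodMk measurable_id)) (B := B) ?_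
    intro p; exact hB _
  exact (integral_prod _ hint2).symm

/-- `EO` of `TestVal` -/
theorem EO_TestVal (hn : 0 < n) {δ : ℝ} (hδ : 0 < δ) (K : ℝ) {f : Matrix (Fin m) (Fin m) ℂ → ℝ}
    (hf : Continuous f) :
    EO n (fun H => TestVal H 0 (1 / Real.pi) K δ m f) =
      δ⁻¹ * ∫ x in (0:ℝ)..δ, ∫ p, Fc K f (x, p) ∂((goeDisorderLaw n).prod (gm (Fin n) (Fin m))) := by
  obtain ⟨B, _, hB⟩ := exists_bound hf
  rw [← swap (goeDisorderLaw n) (gm (Fin n) (Fin m)) hδ (meas_Fc K hf) (Fc_bdd K hB)]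
  unfold EO TestVal
  refine integral_congr_ae (Filter.Eventually.of_forall fun g => ?_)
  simp only
  congr 1
  refine intervalIntegral.integral_congr fun x _ => ?_
  have hgm : gaussM n m = gm (Fin n) (Fin m) := rfl
  rw [hgm]
  refine integral_congr_ae (Filter.Eventually.of_forall fun G => ?_)
  simp only [Fc]
  rw [uOf_eq hn]

/-- removing the centring -/
theorem centre (hIm : ImLimO) {f : Matrix (Fin m) (Fin m) ℂ → ℝ} (hf : Continuous f) {ε : ℝ}
    (hε : 0 < ε) : ∃ K0 : ℝ, 0 < K0 ∧ ∀ K : ℝ, K0 ≤ K → ∃ N : ℕ, ∀ n : ℕ, N ≤ n → ∀ x : ℝ,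
      |∫ p, Fc K f (x, p) ∂((goeDisorderLaw n).prod (gm (Fin n) (Fin m))) - JJ (n:ℝ) n m x f|
        ≤ ε := by
  obtain ⟨B, hB0, hB⟩ := exists_bound hf
  obtain ⟨η, hη, hu⟩ := exists_unif hf (ε := ε / 2) (by positivity)
  set η1 : ℝ := min (η / (2 * (m * m) + 1) / 2) (ε / (4 * (B + 1))) with hη1
  have hη1p : 0 < η1 := by
    rw [hη1]
    refine lt_min ?_ ?_ <;> positivity
  obtain ⟨K0, hK0, hK⟩ := hIm η1 hη1p
  refine ⟨K0, hK0, fun K hKK => ?_⟩
  obtain ⟨N, hN⟩ := hK K hKK
  refine ⟨N, fun n hn x => ?_⟩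
  have hP := hN n hn
  set P := goeDisorderLaw n with hPdef
  set Q := P.prod (gm (Fin n) (Fin m)) with hQ
  set S : Set (GOEDisorder n × (Fin n → Fin m → ℝ)) := {p | η1 < |cc K p.1|} with hS
  have hSm : MeasurableSet S := by
    have h1 : Measurable fun p : GOEDisorder n × (Fin n → Fin m → ℝ) => |cc K p.1| := by
      have h0 : Measurable fun p : GOEDisorder n × (Fin n → Fin m → ℝ) => cc K p.1 :=
        (meas_cc (n := n) K).comp measurable_fst
      exact h0.abs
    exact measurableSet_lt measurable_const h1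
  have hSP : (Q S).toReal ≤ η1 := by
    have h1 : Q S ≤ ENNReal.ofReal η1 := by
      have h2 : S ⊆ Prod.fst ⁻¹' {g : GOEDisorder n |
          η1 < ‖mn (goeMatrix g) (zz 0 K n) - Complex.I‖} := by
        intro p hp
        simp only [hS, Set.mem_ofPred_eq] at hp
        simp only [Set.mem_preimage, Set.mem_ofPred_eq]
        refine hp.trans_le ?_
        have h3 : cc K p.1 = (mn (goeMatrix p.1) (zz 0 K n) - Complex.I).re := by
          rw [Complex.sub_re, Complex.I_re, sub_zero]; rfl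
        rw [h3]
        exact Complex.abs_re_le_norm _
      refine (measure_mono h2).trans ?_
      have h4 : Q (Prod.fst ⁻¹' {g : GOEDisorder n |
          η1 < ‖mn (goeMatrix g) (zz 0 K n) - Complex.I‖}) ≤ P {g : GOEDisorder n |
          η1 < ‖mn (goeMatrix g) (zz 0 K n) - Complex.I‖} := by
        have h5 : Prod.fst ⁻¹' {g : GOEDisorder n |
          η1 < ‖mn (goeMatrix g) (zz 0 K n) - Complex.I‖} = {g : GOEDisorder n |
          η1 < ‖mn (goeMatrix g) (zz 0 K n) - Complex.I‖} ×ˢ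
            (Set.univ : Set (Fin n → Fin m → ℝ)) := by
          ext p; simp
        rw [h5, hQ, Measure.prod_prod, measure_univ, mul_one]
      exact h4.trans hP
    have h6 := ENNReal.toReal_mono ENNReal.ofReal_ne_top h1
    rwa [ENNReal.toReal_ofReal hη1p.le] at h6
  have hpt : ∀ p : GOEDisorder n × (Fin n → Fin m → ℝ),
      ‖Fc K f (x, p) - Fq (n:ℝ) f (x, p)‖ ≤ ε / 2 + S.indicator (fun _ => 2 * B) p := by
    intro p
    rw [Real.norm_eq_abs]
    by_cases hp : p ∈ S
    · rw [Set.indicator_of_mem hp]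
      have h1 := Fc_bdd K hB (x, p)
      have h2 := Fq_bdd (n:ℝ) hB (x, p)
      have h3 := abs_sub (Fc K f (x, p)) (Fq (n:ℝ) f (x, p))
      linarith
    · rw [Set.indicator_of_notMem hp, add_zero]
      have hc : |cc K p.1| ≤ η1 := not_lt.mp hp
      unfold Fc Fq
      have hT := arr_transpose (Wx (n:ℝ) p.1 x) (Wx_transpose _ p.1 x) p.2
      refine hu _ _ (norm_Cay_le _ (sub_smul_one_transpose _ hT _)) (norm_Cay_le _ hT) ?_
      intro i j
      refine (norm_Cay_sub_le _ _ (sub_smul_one_transpose _ hT _) hT (η := η1) ?_ i j).trans_lt ?_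
      · intro i j
        have h4 : (arr (Wx (n:ℝ) p.1 x) p.2 - cc K p.1 • (1 : Matrix (Fin m) (Fin m) ℝ)) i j -
            arr (Wx (n:ℝ) p.1 x) p.2 i j = -(cc K p.1 * (1 : Matrix (Fin m) (Fin m) ℝ) i j) := by
          simp only [Matrix.sub_apply, Matrix.smul_apply, smul_eq_mul]; ring
        rw [h4, abs_neg, abs_mul]
        by_cases hij : i = j
        · subst hij; simpa using hc
        · rw [Matrix.one_apply_ne hij, abs_zero, mul_zero]; exact hη1p.le
      · have h5 : η1 ≤ η / (2 * (m * m) + 1) / 2 := min_le_left _ _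
        have h6 : (0:ℝ) < 2 * (m * m) + 1 := by positivity
        have h7 : (2 * ((m:ℝ) * m) + 1) * η1 ≤ η / 2 := by
          calc (2 * ((m:ℝ) * m) + 1) * η1 ≤ (2 * ((m:ℝ) * m) + 1) *
                (η / (2 * (m * m) + 1) / 2) := mul_le_mul_of_nonneg_left h5 h6.le
            _ = η / 2 := by field_simp
        nlinarith
  have hm1 : Measurable fun p : GOEDisorder n × (Fin n → Fin m → ℝ) => Fc K f (x, p) :=
    (meas_Fc K hf).comp (measurable_const.prodMk measurable_id)
  have hi1 := integrable_of_bdd (μ := Q) hm1 (fun p => Fc_bdd K hB (x, p))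
  have hi2 := integrable_of_bdd (μ := Q) (meas_x (n:ℝ) n hf x) (fun p => Fq_bdd (n:ℝ) hB (x, p))
  have hind : Integrable (S.indicator (fun _ => 2 * B)) Q :=
    (integrable_const (2 * B)).indicator hSm
  have h := norm_integral_le_of_norm_le ((integrable_const (ε / 2)).add hind)
    (Filter.Eventually.of_forall hpt)
  have hsum : ∫ p, (ε / 2 + S.indicator (fun _ => 2 * B) p) ∂Q =
      ε / 2 + 2 * B * (Q S).toReal := by
    have h1 : ∫ p, (ε / 2 + S.indicator (fun _ => 2 * B) p) ∂Q =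
        ∫ _, (ε / 2) ∂Q + ∫ p, S.indicator (fun _ => 2 * B) p ∂Q :=
      integral_add (integrable_const (ε / 2)) hind
    have h2 : ∫ p, S.indicator (fun _ => 2 * B) p ∂Q = 2 * B * (Q S).toReal := by
      rw [integral_indicator hSm, setIntegral_const, smul_eq_mul, mul_comm]
      rfl
    have h3 : ∫ _, (ε / 2) ∂Q = ε / 2 := by
      rw [integral_const]; simp
    rw [h1, h2, h3]
  have hBη : 2 * B * (Q S).toReal ≤ ε / 2 := by
    have h1 : η1 ≤ ε / (4 * (B + 1)) := min_le_right _ _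
    have h2 : (Q S).toReal ≤ ε / (4 * (B + 1)) := hSP.trans h1
    calc 2 * B * (Q S).toReal ≤ 2 * (B + 1) * (ε / (4 * (B + 1))) := by
          refine mul_le_mul (by linarith) h2 ENNReal.toReal_nonneg (by positivity)
      _ = ε / 2 := by field_simp; ring
  have hJJ : JJ (n:ℝ) n m x f = ∫ p, Fq (n:ℝ) f (x, p) ∂Q := rfl
  rw [hJJ, ← integral_sub hi1 hi2]
  rw [Real.norm_eq_abs] at h
  refine h.trans ?_
  refine le_trans (le_of_eq hsum) ?_
  linarith

end relate

/-- **Section 60.2**: asymptotic `SU(m)`-invariance of the GOE test arrays. -/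
theorem invO (hIm : ImLimO) : InvO := by
  intro m hm V hV hdet f hf δ hδ ε hε
  have hA := AInv_all (by omega : 2 ≤ m) hV hdet
  have hfV := cont_act V hf
  obtain ⟨K1, hK1, h1⟩ := centre hIm hfV (ε := ε / 3) (by positivity)
  obtain ⟨K2, hK2, h2⟩ := centre hIm hf (ε := ε / 3) (by positivity)
  obtain ⟨N3, h3⟩ := hA f hf δ (ε / 3) (by positivity)
  refine ⟨max K1 K2, lt_max_of_lt_left hK1, fun K hK => ?_⟩
  obtain ⟨N1, h1⟩ := h1 K ((le_max_left _ _).trans hK)
  obtain ⟨N2, h2⟩ := h2 K ((le_max_right _ _).trans hK)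
  refine ⟨max N1 (max N2 (N3 + 1)), fun n hn => ?_⟩
  have hn1 : N1 ≤ n := (le_max_left _ _).trans hn
  have hn2 : N2 ≤ n := ((le_max_left _ _).trans (le_max_right _ _)).trans hn
  have hn3 : N3 + 1 ≤ n := ((le_max_right _ _).trans (le_max_right _ _)).trans hn
  obtain ⟨k, rfl⟩ : ∃ k, n = k + 1 := ⟨n - 1, by omega⟩
  rw [EO_TestVal (by omega) hδ K hfV, EO_TestVal (by omega) hδ K hf]
  obtain ⟨B1, _, hB1⟩ := exists_bound hfV
  obtain ⟨B2, _, hB2⟩ := exists_bound hf
  have hint : ∀ {f' : Matrix (Fin m) (Fin m) ℂ → ℝ} (hf' : Continuous f') {B : ℝ}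
      (_ : ∀ U : Matrix (Fin m) (Fin m) ℂ, (∀ i j, ‖U i j‖ ≤ 1) → |f' U| ≤ B),
      IntervalIntegrable (fun x => ∫ p, Fc K f' (x, p)
        ∂((goeDisorderLaw (k + 1)).prod (gm (Fin (k + 1)) (Fin m)))) volume 0 δ := by
    intro f' hf' B hB
    rw [intervalIntegrable_iff_integrableOn_Ioc_of_le hδ.le]
    have hsm : StronglyMeasurable (fun x => ∫ p, Fc K f' (x, p)
        ∂((goeDisorderLaw (k + 1)).prod (gm (Fin (k + 1)) (Fin m)))) :=
      (meas_Fc K hf').stronglyMeasurable.integral_prod_right'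
    refine Integrable.of_bound hsm.aestronglyMeasurable B
      (Filter.Eventually.of_forall fun r => ?_)
    have h2 := norm_integral_le_of_norm_le_const
      (μ := ((goeDisorderLaw (k + 1)).prod (gm (Fin (k + 1)) (Fin m))))
      (f := fun b => Fc K f' (r, b))
      (C := B) (Filter.Eventually.of_forall fun b => by
        rw [Real.norm_eq_abs]; exact Fc_bdd K hB _)
    simpa using h2
  rw [← mul_sub, ← intervalIntegral.integral_sub (hint hfV hB1) (hint hf hB2), abs_mul,
    abs_of_pos (inv_pos.mpr hδ)]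
  have hbd := intervalIntegral.norm_integral_le_of_norm_le_const_ae (a := 0) (b := δ) (C := ε)
    (f := fun x => (∫ p, Fc K (fun U => f (V * U * Vᵀ)) (x, p)
        ∂((goeDisorderLaw (k + 1)).prod (gm (Fin (k + 1)) (Fin m)))) - ∫ p, Fc K f (x, p)
        ∂((goeDisorderLaw (k + 1)).prod (gm (Fin (k + 1)) (Fin m)))) (by
      filter_upwards [ae_good] with x hx hxI
      rw [Set.uIoc_of_le hδ.le] at hxI
      have hxd : |x| ≤ δ := by
        rw [abs_of_pos hxI.1]; exact hxI.2
      have b1 := h1 (k + 1) hn1 x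
      have b2 := h2 (k + 1) hn2 x
      have b3 := h3 k (by omega) x hx hxd
      have hcast : (((k + 1 : ℕ) : ℝ)) = (k:ℝ) + 1 := by push_cast; ring
      rw [hcast] at b1 b2
      rw [abs_sub_comm] at b2
      rw [Real.norm_eq_abs]
      have t1 := abs_sub_le (∫ p, Fc K (fun U => f (V * U * Vᵀ)) (x, p)
        ∂((goeDisorderLaw (k + 1)).prod (gm (Fin (k + 1)) (Fin m))))
        (JJ ((k:ℝ) + 1) (k + 1) m x (fun U => f (V * U * Vᵀ))) (∫ p, Fc K f (x, p)
        ∂((goeDisorderLaw (k + 1)).prod (gm (Fin (k + 1)) (Fin m))))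
      have t2 := abs_sub_le (JJ ((k:ℝ) + 1) (k + 1) m x (fun U => f (V * U * Vᵀ)))
        (JJ ((k:ℝ) + 1) (k + 1) m x f) (∫ p, Fc K f (x, p)
        ∂((goeDisorderLaw (k + 1)).prod (gm (Fin (k + 1)) (Fin m))))
      linarith)
  rw [Real.norm_eq_abs, sub_zero, abs_of_pos hδ] at hbd
  calc δ⁻¹ * _ ≤ δ⁻¹ * (ε * δ) := mul_le_mul_of_nonneg_left hbd (inv_pos.mpr hδ).le
    _ = ε := by field_simp

end Crest.Agent.R166.GoeInv93
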