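import Crest.Agent.R166.Hyp3_566
import Crest.Agent.R166.ThmA_383

/-!
Row 166, sections 31.1-31.4 (helper566): final assembly.
`StepL d` (one step inequality, concrete `gV`), `S2P d` (two bad inputs) and `ThmA d` give
`UniEsc d E (fun n p v => ∀ i, ¬ TL L p (v,i))` for some `L`.
-/

set_option autoImplicit false

open Finset

namespace Crest.Agent.R166.Clean566

open Crest.Agent.R166 Stab269 Sec269 SwP470

lemma TrV.mono {Γ : Type*} {Gr : Finset Γ} {V gV : Γ → ℝ} {C C' κ : ℝ} (h : TrV Gr V gV C κ)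
    (hC : C ≤ C') (hκ : 0 ≤ κ) : TrV Gr V gV C' κ := by
  intro F l hF
  have hl : 0 ≤ l := by
    have h0 := hF 0 1
    have h7 := abs_nonneg (F 0 - F 1)
    norm_num at h0
    linarith
  refine (h F l hF).trans ?_
  gcongr

/-- auxiliary energy bound -/
noncomputable def Aof (d : ℕ) (E : ℝ) : ℝ := (|E| + 2 * Real.sqrt ((d : ℝ) - 1)) / 2

lemma Aof_spec {d : ℕ} (hd : 3 ≤ d) {E : ℝ} (hE : E ^ 2 < 4 * ((d : ℝ) - 1)) :
    0 < Aof d E ∧ Aof d E ^ 2 < 4 * ((d : ℝ) - 1) ∧ |E| ≤ Aof d E := by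
  have hd' : (3 : ℝ) ≤ d := by exact_mod_cast hd
  have hsd : 0 < Real.sqrt ((d : ℝ) - 1) := Real.sqrt_pos.2 (by linarith)
  have hsd2 : Real.sqrt ((d : ℝ) - 1) ^ 2 = (d : ℝ) - 1 := Real.sq_sqrt (by linarith)
  have hElt : |E| < 2 * Real.sqrt ((d : ℝ) - 1) := by
    apply abs_lt_of_sq_lt_sq _ (by positivity)
    rw [mul_pow, hsd2]; linarith
  unfold Aof
  refine ⟨by positivity, ?_, by linarith⟩
  have h1 : (|E| + 2 * Real.sqrt ((d : ℝ) - 1)) / 2 < 2 * Real.sqrt ((d : ℝ) - 1) := by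
    linarith
  have h2 := pow_lt_pow_left₀ h1 (by positivity) (n := 2) (by norm_num)
  rw [mul_pow, hsd2] at h2
  linarith

theorem stepR_of_stepL {d : ℕ} [NeZero d] (hd : 3 ≤ d) {E : ℝ} (hE : E ^ 2 < 4 * ((d : ℝ) - 1))
    (h : Spec31.StepL d) : ∃ rs : ℝ, 0 < rs ∧ rs ≤ 1 ∧ StepR d E rs := by
  obtain ⟨hA, hA2, hEA⟩ := Aof_spec hd hE
  obtain ⟨rs, c, s0, hrs, hrs1, hc, hs0, L0, hL⟩ := h _ hA hA2
  set L : ℕ := max L0 1 with hLdef
  have hL1 : 1 ≤ L := le_max_right _ _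
  obtain ⟨C, hC, hn⟩ := hL L (le_max_left _ _)
  set C' : ℝ := max C (2056 * Fintype.card (BI d L)) with hC'
  have hCC : C ≤ C' := le_max_left _ _
  refine ⟨rs, hrs, hrs1, C', c, lt_of_lt_of_le hC hCC, hc, fun n hn0 => ?_⟩
  obtain ⟨err, he0, he, hstep⟩ := hn n hn0
  have hn' : (0 : ℝ) < n := by exact_mod_cast hn0
  refine ⟨err, he0, he.trans ?_, fun η hη hη1 => ?_⟩
  · gcongr
  have h1 := hstep E 0 η hEA (by simpa using hs0.le) hη hη1 0 (by simp)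
  refine ⟨_, _, _, _, ThmA383.Step.mono h1 hC.le hCC (by positivity) (fun p _ => he0 p)
    (fun p _ => le_rfl), ?_⟩
  exact (trV_gV (by omega) hn0 hL1 hrs hrs1 0 0 hη hη1).mono (le_max_right _ _) (by positivity)

open Classical in
/-- the concrete instance of `Hyp3` (general disorder) -/
theorem hyp3_of_S2P {d : ℕ} [NeZero d] (hd : 3 ≤ d) (h : Spec31.S2P d) {A rs r : ℝ} (hA : 0 < A)
    (hA2 : A ^ 2 < 4 * ((d : ℝ) - 1)) (hr : 0 < r) (hrs : 0 < rs) (hrs1 : rs ≤ 1) :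
    ∃ L : ℕ, ∃ hL : 1 ≤ L, ∃ C r1 s1 : ℝ, 0 < C ∧ 0 < r1 ∧ 0 < s1 ∧ ∃ N0 : ℕ, ∀ n : ℕ, N0 ≤ n →
      ∀ (E s η : ℝ) (ω : Fin n → ℝ), |E| ≤ A → |s| ≤ s1 → 0 < η → η ≤ 1 → (∀ v, |ω v| ≤ 1) →
        Hyp3 (fun (p : {p // p ∈ Ports n d}) h => SpecA.Dv rs p.1 s ω (ze E η) h)
          (fun p h (b : BI d L → HE n d) => swc hL p h b)
          (fun p h b => BVal L p.1 h b) (fun p h => TL L p.1 h) C r r1 (1 / (n * η)) := by
  obtain ⟨L0, hL0⟩ := h A hA hA2 r hr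
  set L : ℕ := max L0 1 with hLdef
  have hL : 1 ≤ L := le_max_right _ _
  obtain ⟨r1, ε, s1, hr1, hε, hs1, hS2⟩ := hL0 L (le_max_left _ _) hL
  set ρ : ℝ := min (r1 / 2) (min (1 / 32) (rs / 2)) with hρ
  have hρ0 : 0 < ρ := by rw [hρ]; positivity
  have hρ1 : ρ ≤ r1 / 2 := min_le_left _ _
  have hρ2 : ρ ≤ 1 / 32 := (min_le_right _ _).trans (min_le_left _ _)
  have hρ3 : ρ ≤ rs / 2 := (min_le_right _ _).trans (min_le_right _ _)
  set Ca : ℝ := 2056 * Fintype.card (BI d L) with hCa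
  set Cb : ℝ := 4 * (Fintype.card (BI d L) : ℝ) ^ 4 *
        (1 + (2 * (Fintype.card (SwInv356.BW d L) + 4 : ℝ) + 2 * 16) / ε ^ 2) ^ 2 with hCb
  have hCa0 : 0 ≤ Ca := by positivity
  have hCb0 : 0 ≤ Cb := by positivity
  refine ⟨L, hL, Ca + Cb + 1, ρ, min s1 1, by positivity, hρ0, by positivity,
    max (2 * SwInv356.Cinv d L) 1, fun n hn E s η ω hE hs hη hη1 hω => ?_⟩
  have hn0 : 0 < n := (le_max_right _ _).trans hn
  have hn1 : 2 * SwInv356.Cinv d L ≤ n := (le_max_left _ _).trans hn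
  have hR : Spec30.Rng A n E s η ω := ⟨hn0, hE, hs.trans (min_le_right _ _), hη, hη1, hω⟩
  have hκ : (0 : ℝ) ≤ 1 / (n * η) := by positivity
  refine ⟨fun F _ => ?_, fun G e he => ?_, fun G e m hv _ => hv.tl, fun G e m _ => ?_,
    fun G e _ => ?_⟩
  · convert trv_swc hL F
  · convert many_swc hn0 hn1 (mem_Ports.1 G.2) he
  · have h1 := stab_Vb (by omega : 2 ≤ d) hn0 hL hrs hrs1 s ω (E := E) hη hη1
      (mem_Ports.1 G.2) (e, m)
    have e1 : ∀ p : {p // p ∈ Ports n d}, VV (fun (p : {p // p ∈ Ports n d}) h =>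
        SpecA.Dv rs p.1 s ω (ze E η) h) p = nuAvg (Finset.univ : Finset (HE n d))
        (fun p h => DvA rs (mc d (ze E η)) (B0 p s ω (ze E η) h) ^ 2) p.1 := by
      intro p
      unfold VV av nuAvg
      rw [Finset.card_univ]
      rfl
    rw [e1, e1]
    refine h1.trans (mul_le_mul_of_nonneg_right ?_ hκ)
    linarith
  · have h1 := quad_of_S2 (L := L) hd (A := A) (rs := rs) hr hε hρ0 (by linarith)
      (by linarith) (by linarith) hS2 hR (hs.trans (min_le_left _ _)) G hL e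
    refine le_trans (le_of_eq ?_) (h1.trans ?_)
    · congr 1
    · apply mul_le_mul_of_nonneg_right _ (sq_nonneg _)
      linarith

theorem quadR_of_S2P {d : ℕ} [NeZero d] (hd : 3 ≤ d) {E : ℝ} (hE : E ^ 2 < 4 * ((d : ℝ) - 1))
    (h : Spec31.S2P d) {rs : ℝ} (hrs : 0 < rs) (hrs1 : rs ≤ 1) {r : ℝ} (hr : 0 < r) :
    ∃ L : ℕ, 1 ≤ L ∧ QuadR d E rs r (fun _ p h => TL L p h) := by
  obtain ⟨hA, hA2, hEA⟩ := Aof_spec hd hE
  obtain ⟨L, hL, C, r1, s1, hC, hr1, hs1, N0, hN⟩ := hyp3_of_S2P hd h hA hA2 hr hrs hrs1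
  refine ⟨L, hL, C, r1, hC, hr1, max N0 1, fun n hn _ η hη hη1 => ?_⟩
  have hn0 : 0 < n := (le_max_right _ _).trans hn
  have : Nonempty (HE n d) := ⟨(⟨0, hn0⟩, ⟨0, by omega⟩)⟩
  exact ⟨BI d L → HE n d, inferInstance, inferInstance, _, _,
    hN n ((le_max_left _ _).trans hn) E 0 η 0 hEA (by simpa using hs1.le) hη hη1 (by simp)⟩

/-- **(31.4), final form**: uniform integrability off the vertices all of whose half-edges have a
non-tree ball of radius `L`. -/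
theorem uniEscTL {d : ℕ} [NeZero d] (hd : 3 ≤ d) {E : ℝ} (hE : E ^ 2 < 4 * ((d : ℝ) - 1))
    (hS : Spec31.StepL d) (h2 : Spec31.S2P d) (hA : SpecA.ThmA d) :
    ∃ L : ℕ, 1 ≤ L ∧
      UniEsc d E (fun _ (p : Equiv.Perm _) v => ∀ i : Fin d, ¬ TL L p (v, i)) := by
  obtain ⟨rs, hrs, hrs1, hst⟩ := stepR_of_stepL hd hE hS
  obtain ⟨L, hL, hq⟩ := quadR_of_S2P hd hE h2 hrs hrs1 (r := min (rs / 2) (1 / 16))
    (by positivity)
  refine ⟨L, hL, uniEscH hd hE hrs hst hA hq fun n p v _ hv => ?_⟩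
  push Not at hv
  exact hv

end Crest.Agent.R166.Clean566
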