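import Crest.Agent.R166.TreeB_327
import Crest.Agent.R166.TreeDet_350
import Crest.Agent.R166.SwP2_470

/-!
Row 166, section 31.2 (helper263): non-fatality of two arbitrary inputs.

`treeB z L V Z` with all inputs within `ε` of `m` except an arbitrary symmetric block with
nonnegative imaginary part on two inputs `i, k`: all entries of the root block minus `m • 1` are
`≤ C ‖m‖ ^ (2 (L - 1)) + C_L (ε + σ)`.
-/

set_option autoImplicit false
set_option linter.unusedSectionVars false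
set_option linter.unusedVariables false

namespace Crest.Agent.R166.TreeE2263

open Matrix TreeT327 TreeL327 TreeB327 TreeDet350 Mob327

/-! ### constants and scalar steps -/

/-- the clean path parameter -/
noncomputable def cc (b : ℕ) (z m : ℂ) : ℂ := z + ((b : ℂ) - 1) * m

/-- growth of the errors per layer -/
noncomputable def Kc (b : ℕ) (y0 : ℝ) : ℝ := 1 + b / y0 + 8 * (b + 1) / y0 ^ 2

section scalar

variable {b : ℕ} {y0 : ℝ} {z m : ℂ}

lemma one_le_Kc (hy : 0 < y0) : 1 ≤ Kc b y0 := by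
  unfold Kc
  have h1 : 0 ≤ (b : ℝ) / y0 := by positivity
  have h2 : 0 ≤ 8 * ((b : ℝ) + 1) / y0 ^ 2 := by positivity
  linarith

lemma cc_mul (h : Adm b y0 z m) : m * (cc b z m + m) = -1 := by
  rw [← h.hm, cc]; ring

lemma cc_im (h : Adm b y0 z m) : y0 ≤ (cc b z m).im := by
  have h1 : (cc b z m).im = z.im + ((b : ℝ) - 1) * m.im := by
    rw [cc, Complex.add_im]
    have : (((b : ℂ) - 1) * m).im = ((b : ℝ) - 1) * m.im := by
      have e : ((b : ℂ) - 1) = (((b : ℝ) - 1 : ℝ) : ℂ) := by push_cast; ring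
      rw [e, Complex.im_ofReal_mul]
    rw [this]
  rw [h1]
  have h2 := h.b2
  have h3 := h.him
  have h4 := h.hz
  have h5 := h.im_pos
  nlinarith

lemma m_lt_one (h : Adm b y0 z m) : ‖m‖ < 1 := lt_of_le_of_lt h.norm_le (by norm_num)

lemma tau_ge (h : Adm b y0 z m) : m.im ^ 2 / 2 ≤ tau m := by
  unfold tau
  have h1 := h.normSq_le
  rw [← Adm.sq_norm] at h1
  have := sq_nonneg m.im
  nlinarith

/-- if `τ a ≤ q (2 Im m)` then `a ≤ (4/y0) q` -/
lemma tau1 (h : Adm b y0 z m) {a q : ℝ} (hq : 0 ≤ q) (ha : tau m * a ≤ q * (2 * m.im)) :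
    a ≤ 4 / y0 * q := by
  have h1 := tau_ge h
  have h2 := h.im_pos
  have h3 := h.him
  have hy := h.hy
  rcases le_or_gt a 0 with h4 | h4
  · have : 0 ≤ 4 / y0 * q := by positivity
    linarith
  · have h5 : m.im ^ 2 / 2 * a ≤ q * (2 * m.im) := (mul_le_mul_of_nonneg_right h1 h4.le).trans ha
    have h6 : m.im * a ≤ 4 * q := by
      have : m.im * (m.im * a) ≤ m.im * (4 * q) := by nlinarith
      exact le_of_mul_le_mul_left this h2
    have h7 : y0 * a ≤ 4 * q := (mul_le_mul_of_nonneg_right h3 h4.le).trans h6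
    rw [div_mul_eq_mul_div, le_div_iff₀ hy]
    linarith

lemma tau2 (h : Adm b y0 z m) {a q : ℝ} (hq : 0 ≤ q) (ha : tau m * a ≤ q * 2) :
    a ≤ 4 / y0 ^ 2 * q := by
  have h1 := tau_ge h
  have h2 := h.im_pos
  have h3 := h.him
  have hy := h.hy
  rcases le_or_gt a 0 with h4 | h4
  · have : 0 ≤ 4 / y0 ^ 2 * q := by positivity
    linarith
  · have h5 : m.im ^ 2 / 2 * a ≤ q * 2 := (mul_le_mul_of_nonneg_right h1 h4.le).trans ha
    have h6 : y0 ^ 2 ≤ m.im ^ 2 := by nlinarith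
    have h7 : y0 ^ 2 * a ≤ 4 * q := by
      have := mul_le_mul_of_nonneg_right h6 h4.le
      linarith
    rw [div_mul_eq_mul_div, le_div_iff₀ (by positivity)]
    linarith

/-- first bound of the scalar iterates -/
lemma iter1 (h : Adm b y0 z m) {x : ℂ} (hx : 0 ≤ x.im) {k : ℕ} (hk : 1 ≤ k) :
    ‖(T (cc b z m))^[k] x - m‖ ≤ 4 / y0 * ‖m‖ ^ (2 * k) :=
  tau1 h (by positivity) (T_iter_bound (cc_mul h) (m_lt_one h) h.im_pos hx hk).1

/-- second bound of the scalar iterates -/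
lemma iter2 (h : Adm b y0 z m) {x : ℂ} (hx : 0 ≤ x.im) (k : ℕ) :
    ‖(T (cc b z m))^[k] x - m‖ ≤ 4 / y0 ^ 2 * (‖m‖ ^ (2 * k) * ‖x - m‖) := by
  rcases Nat.eq_zero_or_pos k with rfl | hk
  · simp only [Function.iterate_zero, id_eq, mul_zero, pow_zero, one_mul]
    have h1 : 1 ≤ 4 / y0 ^ 2 := by
      rw [le_div_iff₀ (pow_pos h.hy 2)]
      have := h.y0_le
      have := h.hy
      nlinarith
    have := norm_nonneg (x - m)
    nlinarith
  · refine tau2 h (by positivity) ?_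
    have := (T_iter_bound (cc_mul h) (m_lt_one h) h.im_pos hx hk).2
    linarith

variable {β : Type*} [Fintype β] [DecidableEq β]

/-- all children good -/
lemma good_step (h : Adm b y0 z m) (hb : Fintype.card β = b) {X : β → ℂ} {V σ a0 : ℝ}
    (hV : |V| ≤ σ) (ha : a0 ≤ y0 / 8) (hX : ∀ a, ‖X a - m‖ + σ ≤ a0) :
    ‖-(z - V + ∑ a, X a)⁻¹ - m‖ + σ ≤ Kc b y0 * a0 := by
  have hy := h.hy
  have hb2 := h.b2
  have hσ : 0 ≤ σ := (abs_nonneg _).trans hV
  have hX' : ∀ a, ‖X a - m‖ ≤ a0 := fun a => by linarith [hX a]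
  have hne : Nonempty β := by
    rw [← Fintype.card_pos_iff, hb]
    have := h.hb
    omega
  obtain ⟨a1⟩ := hne
  have hσa : σ ≤ a0 := by linarith [hX a1, norm_nonneg (X a1 - m)]
  have ha0 : 0 ≤ a0 := hσ.trans hσa
  -- imaginary part
  have him : ∀ a, y0 / 2 ≤ (X a).im := by
    intro a
    have h1 := (Complex.abs_im_le_norm (X a - m)).trans (hX' a)
    rw [Complex.sub_im, abs_le] at h1
    linarith [h.him, h1.1]
  have hIm : y0 ≤ (z - V + ∑ a, X a).im := by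
    have h1 : (z - V + ∑ a, X a).im = z.im + ∑ a, (X a).im := by
      simp [Complex.im_sum]
    rw [h1]
    have h2 : ∑ a : β, y0 / 2 ≤ ∑ a, (X a).im := Finset.sum_le_sum fun a _ => him a
    rw [Finset.sum_const, Finset.card_univ, hb, nsmul_eq_mul] at h2
    nlinarith [h.hz]
  have e1 : -(z - V + ∑ a, X a)⁻¹ = T (z - V) (∑ a, X a) := rfl
  have e2 : m = T z (b * m) := by
    have h3 : z + b * m = -(m⁻¹) := by
      have hm0 := h.ne_zero
      have := h.hm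
      field_simp
      linear_combination this
    rw [T, h3, inv_neg, inv_inv, neg_neg]
  have hn1 : z - V + ∑ a, X a ≠ 0 := by
    intro h0; rw [h0, Complex.zero_im] at hIm; linarith
  have hn2 : z + b * m ≠ 0 := by
    intro h0
    have := h.hm
    rw [h0, mul_zero] at this
    exact absurd this (by norm_num)
  have e3 : T (z - V) (∑ a, X a) - m
      = (((z - V) - z) + ((∑ a, X a) - b * m)) * T (z - V) (∑ a, X a) * m := by
    have := T_sub_T hn1 hn2
    rw [← e2] at this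
    exact this
  rw [e1, e3, norm_mul, norm_mul]
  have hT : ‖T (z - V) (∑ a, X a)‖ ≤ y0⁻¹ := norm_T_le hy hIm
  have hm1 : ‖m‖ ≤ 1 := (m_lt_one h).le
  have hnum : ‖((z - V) - z) + ((∑ a, X a) - b * m)‖ ≤ σ + b * (a0 - σ) := by
    have e4 : ((z - V) - z) + ((∑ a, X a) - b * m) = -(V : ℂ) + ∑ a, (X a - m) := by
      rw [Finset.sum_sub_distrib, Finset.sum_const, Finset.card_univ, hb, nsmul_eq_mul]
      ring
    rw [e4]
    refine (norm_add_le _ _).trans (add_le_add ?_ ?_)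
    · rw [norm_neg, Complex.norm_real]; exact hV
    · refine (norm_sum_le _ _).trans ?_
      have : ∑ a : β, ‖X a - m‖ ≤ ∑ a : β, (a0 - σ) :=
        Finset.sum_le_sum fun a _ => by linarith [hX a]
      rwa [Finset.sum_const, Finset.card_univ, hb, nsmul_eq_mul] at this
  have hnum' : σ + b * (a0 - σ) ≤ b * a0 := by nlinarith
  have h5 : ‖((z - V) - z) + ((∑ a, X a) - b * m)‖ * ‖T (z - V) (∑ a, X a)‖ * ‖m‖
      ≤ (b * a0) * y0⁻¹ * 1 := by
    have hba : 0 ≤ (b : ℝ) * a0 := by positivity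
    exact mul_le_mul (mul_le_mul (hnum.trans hnum') hT (norm_nonneg _) hba) hm1 (norm_nonneg _)
      (by positivity)
  refine (add_le_add h5 hσa).trans ?_
  unfold Kc
  have h6 : 0 ≤ 8 * ((b : ℝ) + 1) / y0 ^ 2 * a0 := by positivity
  have e5 : (b : ℝ) * a0 * y0⁻¹ * 1 = b / y0 * a0 := by ring
  rw [e5]
  nlinarith

/-- one child excepted -/
lemma cpar_near (h : Adm b y0 z m) (hb : Fintype.card β = b) {X : β → ℂ} {V σ a0 : ℝ}
    (hV : |V| ≤ σ) (ha : a0 ≤ y0 / 8) (hσa : σ ≤ a0) (a1 : β)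
    (hX : ∀ a, a ≠ a1 → ‖X a - m‖ + σ ≤ a0) :
    ‖(z - V + ∑ a ∈ Finset.univ.erase a1, X a) - cc b z m‖ ≤ b * a0 ∧
      y0 / 2 ≤ (z - V + ∑ a ∈ Finset.univ.erase a1, X a).im := by
  have hy := h.hy
  have hb2 := h.b2
  have hσ : 0 ≤ σ := (abs_nonneg _).trans hV
  have ha0 : 0 ≤ a0 := hσ.trans hσa
  have hX' : ∀ a, a ≠ a1 → ‖X a - m‖ ≤ a0 := fun a h1 => by linarith [hX a h1]
  have hcard : (((Finset.univ : Finset β).erase a1).card : ℝ) = b - 1 := by
    rw [Finset.card_erase_of_mem (Finset.mem_univ _), Finset.card_univ, hb]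
    have := h.hb
    rw [Nat.cast_sub (by omega)]
    simp
  have hcardc : (((Finset.univ : Finset β).erase a1).card : ℂ) = b - 1 := by
    rw [Finset.card_erase_of_mem (Finset.mem_univ _), Finset.card_univ, hb]
    have := h.hb
    rw [Nat.cast_sub (by omega)]
    simp
  constructor
  · have e4 : (z - V + ∑ a ∈ Finset.univ.erase a1, X a) - cc b z m
        = -(V : ℂ) + ∑ a ∈ Finset.univ.erase a1, (X a - m) := by
      rw [Finset.sum_sub_distrib, Finset.sum_const, nsmul_eq_mul, hcardc, cc]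
      ring
    rw [e4]
    have h1 : ‖-(V : ℂ)‖ ≤ a0 := by rw [norm_neg, Complex.norm_real]; exact hV.trans hσa
    have h2 : ‖∑ a ∈ Finset.univ.erase a1, (X a - m)‖ ≤ (b - 1) * a0 := by
      refine (norm_sum_le _ _).trans ?_
      have : ∑ a ∈ Finset.univ.erase a1, ‖X a - m‖ ≤ ∑ a ∈ Finset.univ.erase a1, a0 :=
        Finset.sum_le_sum fun a ha => hX' a (Finset.ne_of_mem_erase ha)
      rwa [Finset.sum_const, nsmul_eq_mul, hcard] at this
    have := norm_add_le (-(V : ℂ)) (∑ a ∈ Finset.univ.erase a1, (X a - m))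
    linarith
  · have h1 : (z - V + ∑ a ∈ Finset.univ.erase a1, X a).im
        = z.im + ∑ a ∈ Finset.univ.erase a1, (X a).im := by
      simp [Complex.im_sum]
    rw [h1]
    have h2 : ∑ a ∈ Finset.univ.erase a1, y0 / 2 ≤ ∑ a ∈ Finset.univ.erase a1, (X a).im := by
      refine Finset.sum_le_sum fun a ha' => ?_
      have h3 := (Complex.abs_im_le_norm (X a - m)).trans (hX' a (Finset.ne_of_mem_erase ha'))
      rw [Complex.sub_im, abs_le] at h3
      linarith [h.him, h3.1]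
    rw [Finset.sum_const, nsmul_eq_mul, hcard] at h2
    nlinarith [h.hz]

/-- chain step with a reference value -/
lemma chain_step (h : Adm b y0 z m) {c x y : ℂ} {a0 : ℝ} (ha0 : 0 ≤ a0)
    (hc : ‖c - cc b z m‖ ≤ b * a0) (hci : y0 / 2 ≤ c.im) (hx : 0 ≤ x.im) (hy' : 0 ≤ y.im)
    (hxy : ‖x - y‖ ≤ a0) : ‖T c x - T (cc b z m) y‖ ≤ Kc b y0 * a0 := by
  have hy := h.hy
  have hci' := cc_im h
  have h1 : y0 / 2 ≤ (c + x).im := by rw [Complex.add_im]; linarith
  have h2 : y0 ≤ (cc b z m + y).im := by rw [Complex.add_im]; linarith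
  have hn1 : c + x ≠ 0 := by intro h0; rw [h0, Complex.zero_im] at h1; linarith
  have hn2 : cc b z m + y ≠ 0 := by intro h0; rw [h0, Complex.zero_im] at h2; linarith
  rw [T_sub_T hn1 hn2, norm_mul, norm_mul]
  have hT1 : ‖T c x‖ ≤ (y0 / 2)⁻¹ := norm_T_le (by positivity) h1
  have hT2 : ‖T (cc b z m) y‖ ≤ y0⁻¹ := norm_T_le hy h2
  have h3 : ‖(c - cc b z m) + (x - y)‖ ≤ (b + 1) * a0 := by
    refine (norm_add_le _ _).trans ?_
    linarith
  have h4 : ‖(c - cc b z m) + (x - y)‖ * ‖T c x‖ * ‖T (cc b z m) y‖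
      ≤ ((b + 1) * a0) * (y0 / 2)⁻¹ * y0⁻¹ :=
    mul_le_mul (mul_le_mul h3 hT1 (norm_nonneg _) (by positivity)) hT2 (norm_nonneg _)
      (by positivity)
  refine h4.trans ?_
  unfold Kc
  have e5 : ((b : ℝ) + 1) * a0 * (y0 / 2)⁻¹ * y0⁻¹ = 2 * (b + 1) / y0 ^ 2 * a0 := by
    field_simp
  rw [e5]
  have h6 : 0 ≤ (b : ℝ) / y0 * a0 := by positivity
  have h7 : 0 ≤ ((b : ℝ) + 1) / y0 ^ 2 * a0 := by positivity
  have e6 : 2 * ((b : ℝ) + 1) / y0 ^ 2 * a0 = 2 * (((b : ℝ) + 1) / y0 ^ 2 * a0) := by ring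
  have e7 : 8 * ((b : ℝ) + 1) / y0 ^ 2 * a0 = 8 * (((b : ℝ) + 1) / y0 ^ 2 * a0) := by ring
  rw [e6]
  have : (1 + (b : ℝ) / y0 + 8 * (b + 1) / y0 ^ 2) * a0
      = a0 + b / y0 * a0 + 8 * (((b : ℝ) + 1) / y0 ^ 2 * a0) := by ring
  rw [this]
  linarith

end scalar

/-! ### blocks -/

section block

variable {b : ℕ} {y0 : ℝ} {z m : ℂ}

/-- entries of minus the inverse of a matrix with `Im ≥ t` -/
lemma entry_le {κ : Type*} [Fintype κ] [DecidableEq κ] {N : Matrix κ κ ℂ} {t : ℝ} (ht : 0 < t)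
    (hu : IsUnit N.det)
    (hN : ∀ u : κ → ℂ, t * ∑ p, ‖u p‖ ^ 2 ≤ (star u ⬝ᵥ (N *ᵥ u)).im) (p q : κ) :
    ‖(-N⁻¹) p q‖ ≤ t⁻¹ := by
  set u : κ → ℂ := fun r => (-N⁻¹) r q with hudef
  have h1 : N *ᵥ u = -Pi.single q 1 := by
    have h2 : u = (-N⁻¹) *ᵥ Pi.single q 1 := by
      rw [mulVec_single_one]; rfl
    rw [h2, mulVec_mulVec, Matrix.mul_neg, mul_nonsing_inv _ hu, neg_mulVec, one_mulVec]
  have h3 := hN u
  rw [h1] at h3
  have h4 : (star u ⬝ᵥ (-Pi.single q (1 : ℂ))).im = (u q).im := by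
    rw [dotProduct_neg, dotProduct_single_one, Pi.star_apply, Complex.neg_im, Complex.star_def,
      Complex.conj_im, neg_neg]
  rw [h4] at h3
  have h5 : (u q).im ≤ ‖u q‖ := (le_abs_self _).trans (Complex.abs_im_le_norm _)
  have h6 : ∀ r, t * ‖u r‖ ^ 2 ≤ ‖u q‖ := by
    intro r
    have h7 : ‖u r‖ ^ 2 ≤ ∑ p, ‖u p‖ ^ 2 :=
      Finset.single_le_sum (f := fun p => ‖u p‖ ^ 2) (fun _ _ => by positivity)
        (Finset.mem_univ r)
    have := mul_le_mul_of_nonneg_left h7 ht.le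
    linarith
  have h8 : ‖u q‖ ≤ t⁻¹ := by
    have h9 := h6 q
    by_contra h10
    push Not at h10
    have h11 : 1 < t * ‖u q‖ := by
      have := mul_lt_mul_of_pos_left h10 ht
      rwa [mul_inv_cancel₀ ht.ne'] at this
    have h12 : 0 < ‖u q‖ := lt_trans (inv_pos.mpr ht) h10
    nlinarith
  have h13 := (h6 p).trans h8
  have h14 : ‖u p‖ ^ 2 ≤ t⁻¹ ^ 2 := by
    have h15 : t * ‖u p‖ ^ 2 ≤ t * (t⁻¹ ^ 2) := by
      have : t * (t⁻¹ ^ 2) = t⁻¹ := by field_simp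
      rw [this]; exact h13
    exact le_of_mul_le_mul_left h15 ht
  exact abs_le_of_sq_le_sq' h14 (by positivity) |>.2

/-- clean block iterates -/
noncomputable def Yit (c : ℂ) (A : Matrix (Fin 2) (Fin 2) ℂ) : ℕ → Matrix (Fin 2) (Fin 2) ℂ
  | 0 => A
  | j + 1 => -(Matrix.diagonal (fun _ => c) + Yit c A j)⁻¹

lemma Yit_NN {c : ℂ} (hc : 0 < c.im) {A : Matrix (Fin 2) (Fin 2) ℂ} (hA : NN A) :
    ∀ j, NN (Yit c A j)
  | 0 => hA
  | j + 1 => NN.neg_inv ((NN_diagonal fun _ => hc.le).add (Yit_NN hc hA j))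
      (diag_add_isUnit (Yit_NN hc hA j) fun _ => hc)

/-- the clean iterates are close to `m` -/
lemma Yit_near (h : Adm b y0 z m) {A : Matrix (Fin 2) (Fin 2) ℂ} (hA : NN A) {j : ℕ}
    (hj : 1 ≤ j) (a a' : Fin 2) :
    ‖Yit (cc b z m) A j a a' - (if a = a' then m else 0)‖ ≤ 4 / y0 * ‖m‖ ^ (2 * j) := by
  have hci : 0 < (cc b z m).im := lt_of_lt_of_le h.hy (cc_im h)
  let Y : ℕ → (EuclideanSpace ℂ (Fin 2) →ₗ[ℂ] EuclideanSpace ℂ (Fin 2)) := fun i =>
    Matrix.toEuclideanLin (Yit (cc b z m) A i)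
  have hYa : ∀ i (w : EuclideanSpace ℂ (Fin 2)),
      Y i w = WithLp.toLp 2 (Yit (cc b z m) A i *ᵥ w.ofLp) := fun i w => rfl
  have hY : ∀ i, i < j → ∀ w, Y (i + 1) (cc b z m • w + Y i w) = -w := by
    intro i _ w
    rw [hYa, hYa]
    have hu := diag_add_isUnit (Yit_NN hci hA i) (e := fun _ => cc b z m) fun _ => hci
    have e1 : (cc b z m • w + WithLp.toLp 2 (Yit (cc b z m) A i *ᵥ w.ofLp)).ofLp
        = (Matrix.diagonal (fun _ => cc b z m) + Yit (cc b z m) A i) *ᵥ w.ofLp := by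
      rw [add_mulVec]
      ext x
      simp
    rw [e1, mulVec_mulVec, Yit, Matrix.neg_mul, nonsing_inv_mul _ hu, neg_mulVec, one_mulVec]
    rfl
  have hA' : ∀ u : EuclideanSpace ℂ (Fin 2), 0 ≤ (inner ℂ u (Y 0 u)).im := by
    intro u
    rw [hYa, EuclideanSpace.inner_eq_star_dotProduct, dotProduct_comm]
    exact hA u.ofLp
  have key := iter_bound (cc_mul h) (m_lt_one h) h.im_pos Y hj hY hA'
    (EuclideanSpace.single a' (1 : ℂ))
  have hn1 : ‖EuclideanSpace.single a' (1 : ℂ)‖ = 1 := by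
    rw [EuclideanSpace.single, PiLp.norm_single, norm_one]
  rw [hn1, mul_one] at key
  have h1 := tau1 h (by positivity) key
  refine le_trans ?_ h1
  have h2 : (Y j (EuclideanSpace.single a' (1 : ℂ)) - m • EuclideanSpace.single a' (1 : ℂ)).ofLp a
      = Yit (cc b z m) A j a a' - (if a = a' then m else 0) := by
    rw [hYa]
    have : (EuclideanSpace.single a' (1 : ℂ)).ofLp = Pi.single a' 1 := rfl
    simp only [WithLp.ofLp_sub, WithLp.ofLp_smul, Pi.sub_apply, Pi.smul_apply, smul_eq_mul, this,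
      mulVec_single_one, Matrix.col_apply, Pi.single_apply]
    split_ifs <;> simp
  rw [← h2]
  exact PiLp.norm_apply_le _ a

/-- the perturbed block step -/
lemma block_step (h : Adm b y0 z m) {B Y B' : Matrix (Fin 2) (Fin 2) ℂ} {a0 : ℝ} (ha0 : 0 ≤ a0)
    (hB : NN B) (hY : NN Y) {c1 c2 : ℂ} (h1 : ‖c1 - cc b z m‖ ≤ b * a0) (h1i : y0 / 2 ≤ c1.im)
    (h2 : ‖c2 - cc b z m‖ ≤ b * a0) (h2i : y0 / 2 ≤ c2.im)
    (hBY : ∀ a a', ‖B a a' - Y a a'‖ ≤ a0)
    (hB' : (Matrix.diagonal ![c1, c2] + B) * B' = -1) (a a' : Fin 2) :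
    ‖B' a a' - (-(Matrix.diagonal (fun _ => cc b z m) + Y)⁻¹ : Matrix (Fin 2) (Fin 2) ℂ) a a'‖
      ≤ Kc b y0 * a0 := by
  have hy := h.hy
  have hci := cc_im h
  have hD : ∀ p, y0 / 2 ≤ ((![c1, c2] : Fin 2 → ℂ) p).im := by
    intro p; fin_cases p
    · exact h1i
    · exact h2i
  have hy2 : 0 < y0 / 2 := by positivity
  set P := Matrix.diagonal ![c1, c2] + B with hP
  set Q := Matrix.diagonal (fun _ : Fin 2 => cc b z m) + Y with hQ
  have hPu : IsUnit P.det := diag_add_isUnit hB fun p => lt_of_lt_of_le hy2 (hD p)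
  have hQu : IsUnit Q.det := diag_add_isUnit hY fun p => lt_of_lt_of_le hy hci
  have hB'' : B' = -P⁻¹ := by
    have := congrArg (fun X => P⁻¹ * X) hB'
    simp only [← Matrix.mul_assoc, nonsing_inv_mul _ hPu, Matrix.one_mul, Matrix.mul_neg,
      Matrix.mul_one] at this
    exact this
  have e1 : B' - (-Q⁻¹) = (-P⁻¹) * (P - Q) * (-Q⁻¹) := by
    have e0 : (-P⁻¹) * (P - Q) = -1 + P⁻¹ * Q := by
      rw [Matrix.mul_sub, Matrix.neg_mul, nonsing_inv_mul _ hPu, Matrix.neg_mul, sub_neg_eq_add]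
    rw [hB'', e0, Matrix.add_mul, Matrix.neg_mul, Matrix.one_mul, Matrix.mul_neg, Matrix.mul_assoc,
      mul_nonsing_inv _ hQu, Matrix.mul_one]
    abel
  have hPe : ∀ x y, ‖(-P⁻¹) x y‖ ≤ (y0 / 2)⁻¹ := fun x y =>
    entry_le hy2 hPu (fun u => form_ge hB hD u) x y
  have hQe : ∀ x y, ‖(-Q⁻¹) x y‖ ≤ y0⁻¹ := fun x y =>
    entry_le hy hQu (fun u => form_ge hY (fun _ => hci) u) x y
  have hPQ : ∀ x y, ‖(P - Q) x y‖ ≤ (b + 1) * a0 := by
    intro x y
    have hb : 0 ≤ (b : ℝ) * a0 := by positivity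
    rw [Matrix.sub_apply, hP, hQ, Matrix.add_apply, Matrix.add_apply, add_sub_add_comm]
    by_cases hxy : x = y
    · subst hxy
      rw [diagonal_apply_eq, diagonal_apply_eq]
      refine (norm_add_le _ _).trans ?_
      have h3 : ‖(![c1, c2] : Fin 2 → ℂ) x - cc b z m‖ ≤ b * a0 := by
        fin_cases x
        · exact h1
        · exact h2
      linarith [hBY x x]
    · rw [diagonal_apply_ne _ hxy, diagonal_apply_ne _ hxy, sub_zero, zero_add]
      linarith [hBY x y]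
  rw [← Matrix.sub_apply, e1, Matrix.mul_apply]
  simp only [Matrix.mul_apply, Fin.sum_univ_two]
  have hterm : ∀ x y, ‖(-P⁻¹) a x * (P - Q) x y * (-Q⁻¹) y a'‖
      ≤ (y0 / 2)⁻¹ * ((b + 1) * a0) * y0⁻¹ := by
    intro x y
    rw [norm_mul, norm_mul]
    exact mul_le_mul (mul_le_mul (hPe a x) (hPQ x y) (norm_nonneg _) (by positivity)) (hQe y a')
      (norm_nonneg _) (by positivity)
  have hsum : ‖((-P⁻¹) a 0 * (P - Q) 0 0 + (-P⁻¹) a 1 * (P - Q) 1 0) * (-Q⁻¹) 0 a' +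
      ((-P⁻¹) a 0 * (P - Q) 0 1 + (-P⁻¹) a 1 * (P - Q) 1 1) * (-Q⁻¹) 1 a'‖
      ≤ 4 * ((y0 / 2)⁻¹ * ((b + 1) * a0) * y0⁻¹) := by
    rw [add_mul, add_mul]
    refine (norm_add_le _ _).trans ?_
    have g1 := (norm_add_le ((-P⁻¹) a 0 * (P - Q) 0 0 * (-Q⁻¹) 0 a')
      ((-P⁻¹) a 1 * (P - Q) 1 0 * (-Q⁻¹) 0 a'))
    have g2 := (norm_add_le ((-P⁻¹) a 0 * (P - Q) 0 1 * (-Q⁻¹) 1 a')
      ((-P⁻¹) a 1 * (P - Q) 1 1 * (-Q⁻¹) 1 a'))
    linarith [hterm 0 0, hterm 1 0, hterm 0 1, hterm 1 1]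
  refine hsum.trans ?_
  unfold Kc
  have e5 : 4 * ((y0 / 2)⁻¹ * (((b : ℝ) + 1) * a0) * y0⁻¹) = 8 * (b + 1) / y0 ^ 2 * a0 := by
    field_simp
    ring
  rw [e5]
  have h6 : 0 ≤ (b : ℝ) / y0 * a0 := by positivity
  have : (1 + (b : ℝ) / y0 + 8 * (b + 1) / y0 ^ 2) * a0
      = a0 + b / y0 * a0 + 8 * ((b : ℝ) + 1) / y0 ^ 2 * a0 := by ring
  rw [this]
  linarith

end block

/-! ### the chain with one arbitrary input -/

section chain

variable {ρ β : Type} [Fintype ρ] [DecidableEq ρ] [Fintype β] [DecidableEq β]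
variable {b : ℕ} {y0 : ℝ} {z m : ℂ}

theorem diag_chain (h : Adm b y0 z m) (hz : 0 < z.im) (hb : Fintype.card β = b) {σ : ℝ}
    (hσ0 : 0 ≤ σ) : ∀ (l : ℕ) (V : Tr ρ β l → ℝ) (_ : ∀ x, |V x| ≤ σ) (X : Lay ρ β l → ℂ)
    (_ : ∀ p, 0 ≤ (X p).im) (i : Lay ρ β l) (a0 : ℝ) (_ : σ ≤ a0)
    (_ : Kc b y0 ^ l * a0 ≤ y0 / 8) (_ : ∀ p, p ≠ i → ‖X p - m‖ + σ ≤ a0) (y : ℂ)
    (_ : 0 ≤ y.im) (_ : ‖X i - y‖ ≤ a0),
    ∃ r0 : ρ, ∀ r r' : ρ, ‖treeB z l V (Matrix.diagonal X) r r' -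
      (if r = r' then (if r = r0 then (T (cc b z m))^[l] y else m) else 0)‖
        ≤ Kc b y0 ^ l * a0
  | 0, V, hV, X, hX, i, a0, hσ, ha, hg, y, hy, hxy => by
    refine ⟨i, fun r r' => ?_⟩
    have e1 : treeB z 0 V (Matrix.diagonal X) r r' = if r = r' then X r else 0 :=
      Matrix.diagonal_apply (n := ρ) (fun p : ρ => (X p : ℂ)) r r'
    rw [e1, pow_zero, one_mul]
    by_cases h1 : r = r'
    · rw [if_pos h1, if_pos h1]
      by_cases h2 : r = i
      · rw [if_pos h2, h2]; exact hxy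
      · rw [if_neg h2]
        have := hg r h2
        linarith
    · rw [if_neg h1, if_neg h1, sub_zero, norm_zero]
      linarith
  | l + 1, V, hV, X, hX, i, a0, hσ, ha, hg, y, hy, hxy => by
    have hK := one_le_Kc (b := b) h.hy
    have ha0 : 0 ≤ a0 := hσ0.trans hσ
    have hKl : 1 ≤ Kc b y0 ^ (l + 1) := one_le_pow₀ hK
    have ha8 : a0 ≤ y0 / 8 := by nlinarith
    set e : Lay ρ β l → ℂ := fun q => z - V (Sum.inr q) with he
    have hei : ∀ q, 0 < (e q).im := fun q => by simpa [he] using hz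
    have hstep : step (κ := Lay ρ β l) (β := β) e (Matrix.diagonal X)
        = Matrix.diagonal (fun p => -(e p + ∑ a, X (p, a))⁻¹) :=
      step_diagonal (κ := Lay ρ β l) (β := β) (e := e) (X := X) hX hei
    have e0 : treeB z (l + 1) V (Matrix.diagonal X) = treeB z l (fun x => V (Sum.inl x))
        (Matrix.diagonal (fun p => -(e p + ∑ a, X (p, a))⁻¹)) := by
      rw [← hstep]; rfl
    have hX' : ∀ p, 0 ≤ (-(e p + ∑ a, X (p, a))⁻¹ : ℂ).im := by
      intro p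
      refine T_im_nonneg (c := e p) (x := ∑ a, X (p, a)) ?_
      rw [Complex.add_im, Complex.im_sum]
      exact add_nonneg (hei p).le (Finset.sum_nonneg fun a _ => hX _)
    have hgood : ∀ p : Lay ρ β l, p ≠ i.1 →
        ‖-(e p + ∑ a, X (p, a))⁻¹ - m‖ + σ ≤ Kc b y0 * a0 := by
      intro p hp
      refine good_step h hb (hV _) ha8 fun a => hg _ ?_
      intro h1
      exact hp (congrArg Prod.fst (h1 : ((p, a) : Lay ρ β l × β) = i))
    have hcp := cpar_near h hb (X := fun a => X (i.1, a)) (hV (Sum.inr i.1)) ha8 hσ i.2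
      (fun a ha1 => hg _ (by
        intro h1
        exact ha1 (congrArg Prod.snd (h1 : ((i.1, a) : Lay ρ β l × β) = i))))
    have hch : ‖-(e i.1 + ∑ a, X (i.1, a))⁻¹ - T (cc b z m) y‖ ≤ Kc b y0 * a0 := by
      have h1 := chain_step h ha0 hcp.1 hcp.2 (hX i) hy hxy
      have e1 : e i.1 + ∑ a, X (i.1, a)
          = (z - V (Sum.inr i.1) + ∑ a ∈ Finset.univ.erase i.2, X (i.1, a)) + X i := by
        rw [← Finset.add_sum_erase _ (fun a => X (i.1, a)) (Finset.mem_univ i.2)]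
        have : X (i.1, i.2) = X i := rfl
        rw [this]
        simp only [he]
        ring
      rw [e1]
      exact h1
    have hσ' : σ ≤ Kc b y0 * a0 := by nlinarith
    have hy' : 0 ≤ (T (cc b z m) y).im := by
      refine T_im_nonneg ?_
      rw [Complex.add_im]
      linarith [cc_im h, h.hy]
    obtain ⟨r0, hr0⟩ := diag_chain h hz hb hσ0 l (fun x => V (Sum.inl x)) (fun x => hV _)
      (fun p => -(e p + ∑ a, X (p, a))⁻¹) hX' i.1 (Kc b y0 * a0) hσ'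
      (by rw [← mul_assoc, ← pow_succ]; exact ha) hgood (T (cc b z m) y) hy' hch
    refine ⟨r0, fun r r' => ?_⟩
    have h2 := hr0 r r'
    rw [e0, Function.iterate_succ_apply, pow_succ, mul_assoc]
    exact h2

/-- error bound of the clean part -/
noncomputable def C0 (y0 : ℝ) (k1 : ℕ) : ℝ := 64 / y0 ^ 4 + 4 / y0 * (1 / y0) ^ (2 * k1)

lemma m_pow_le (h : Adm b y0 z m) {k j : ℕ} (hj : j ≤ k) :
    1 ≤ (1 / y0) ^ (2 * k) * ‖m‖ ^ (2 * j) := by
  have hy := h.hy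
  have h1 : y0 ≤ ‖m‖ := h.y0_le_norm
  have h2 : y0 ≤ 1 := h.y0_le.trans (by norm_num)
  have h3 : y0 ^ (2 * k) ≤ ‖m‖ ^ (2 * j) :=
    (pow_le_pow_of_le_one hy.le h2 (by omega)).trans (pow_le_pow_left₀ hy.le h1 _)
  have h4 : (1 / y0) ^ (2 * k) * y0 ^ (2 * k) = 1 := by
    rw [← mul_pow, one_div, inv_mul_cancel₀ hy.ne', one_pow]
  calc (1 : ℝ) = (1 / y0) ^ (2 * k) * y0 ^ (2 * k) := h4.symm
    _ ≤ _ := mul_le_mul_of_nonneg_left h3 (by positivity)

/-- the sum of the entries of a block near `m • 1` -/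
lemma sum_block (B Y : Matrix (Fin 2) (Fin 2) ℂ) {q : ℝ} (hq : ∀ a a', ‖B a a' - Y a a'‖ ≤ q) :
    ‖(B 0 0 + B 0 1 + B 1 0 + B 1 1) - (Y 0 0 + Y 0 1 + Y 1 0 + Y 1 1)‖ ≤ 4 * q := by
  have e : (B 0 0 + B 0 1 + B 1 0 + B 1 1) - (Y 0 0 + Y 0 1 + Y 1 0 + Y 1 1)
      = (B 0 0 - Y 0 0) + (B 0 1 - Y 0 1) + (B 1 0 - Y 1 0) + (B 1 1 - Y 1 1) := by ring
  rw [e]
  have h1 := norm_add_le ((B 0 0 - Y 0 0) + (B 0 1 - Y 0 1) + (B 1 0 - Y 1 0)) (B 1 1 - Y 1 1)
  have h2 := norm_add_le ((B 0 0 - Y 0 0) + (B 0 1 - Y 0 1)) (B 1 0 - Y 1 0)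
  have h3 := norm_add_le (B 0 0 - Y 0 0) (B 0 1 - Y 0 1)
  linarith [hq 0 0, hq 0 1, hq 1 0, hq 1 1]

/-- imaginary part of the sum of the entries -/
lemma sum_block_im {B : Matrix (Fin 2) (Fin 2) ℂ} (hB : NN B) :
    0 ≤ (B 0 0 + B 0 1 + B 1 0 + B 1 1).im := by
  have h := hB 1
  have e : star (1 : Fin 2 → ℂ) ⬝ᵥ (B *ᵥ 1) = B 0 0 + B 0 1 + B 1 0 + B 1 1 := by
    simp [dotProduct, mulVec, Fin.sum_univ_two]
    ring
  rwa [e] at h

/-- merging step: the value at the common parent, compared with its clean reference -/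
lemma merge_step (h : Adm b y0 z m) (hb : Fintype.card β = b) {Xg : β → ℂ} {V σ a0 : ℝ}
    (hV : |V| ≤ σ) (ha : a0 ≤ y0 / 8) (hσa : σ ≤ a0) {a1 a2 : β} (ha12 : a1 ≠ a2)
    (hX : ∀ a, a ≠ a1 → a ≠ a2 → ‖Xg a - m‖ + σ ≤ a0) (hXi : ∀ a, 0 ≤ (Xg a).im)
    {S Sy : ℂ} (hS : ‖S - Sy‖ ≤ 4 * a0) {q : ℝ} (hSy : ‖Sy - 2 * m‖ ≤ q) (hq : q ≤ y0 / 2) :
    ∃ y : ℂ, 0 ≤ y.im ∧
      ‖-(z - V + (∑ a ∈ (Finset.univ.erase a1).erase a2, Xg a + S))⁻¹ - y‖ ≤ Kc b y0 * a0 ∧
      ‖y - m‖ ≤ q / y0 := by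
  have hy := h.hy
  have hb2 := h.b2
  have hσ : 0 ≤ σ := (abs_nonneg _).trans hV
  have ha0 : 0 ≤ a0 := hσ.trans hσa
  have hmi := h.him
  have hSy' : m.im * 2 - q ≤ Sy.im := by
    have h1 := (Complex.abs_im_le_norm (Sy - 2 * m)).trans hSy
    rw [Complex.sub_im, abs_le] at h1
    have : ((2 : ℂ) * m).im = 2 * m.im := by simp
    rw [this] at h1
    linarith [h1.1]
  have hS' : Sy.im - 4 * a0 ≤ S.im := by
    have h1 := (Complex.abs_im_le_norm (S - Sy)).trans hS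
    rw [Complex.sub_im, abs_le] at h1
    linarith [h1.1]
  have hcard0 : (((Finset.univ : Finset β).erase a1).erase a2).card = b - 2 := by
    rw [Finset.card_erase_of_mem (Finset.mem_erase.mpr ⟨ha12.symm, Finset.mem_univ _⟩),
      Finset.card_erase_of_mem (Finset.mem_univ _), Finset.card_univ, hb]
    omega
  have hcard : ((((Finset.univ : Finset β).erase a1).erase a2).card : ℝ) = b - 2 := by
    rw [hcard0, Nat.cast_sub h.hb]; simp
  have hcardc : ((((Finset.univ : Finset β).erase a1).erase a2).card : ℂ) = b - 2 := by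
    rw [hcard0, Nat.cast_sub h.hb]; simp
  set c : ℂ := z + ((b : ℂ) - 2) * m with hc
  have hcim : 0 ≤ c.im := by
    have : c.im = z.im + ((b : ℝ) - 2) * m.im := by
      rw [hc, Complex.add_im]
      have e : ((b : ℂ) - 2) = (((b : ℝ) - 2 : ℝ) : ℂ) := by push_cast; ring
      rw [e, Complex.im_ofReal_mul]
    rw [this]
    have := h.hz
    have := h.im_pos
    nlinarith
  have hI1 : y0 ≤ (c + Sy).im := by
    rw [Complex.add_im]; linarith
  have hsum : 0 ≤ (∑ a ∈ (Finset.univ.erase a1).erase a2, Xg a).im := by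
    rw [Complex.im_sum]
    exact Finset.sum_nonneg fun a _ => hXi a
  have e0 : z - V + (∑ a ∈ (Finset.univ.erase a1).erase a2, Xg a + S)
      = (z - V + ∑ a ∈ (Finset.univ.erase a1).erase a2, Xg a) + S := by ring
  have hI2 : y0 ≤ ((z - V + ∑ a ∈ (Finset.univ.erase a1).erase a2, Xg a) + S).im := by
    have : ((z - V + ∑ a ∈ (Finset.univ.erase a1).erase a2, Xg a) + S).im
        = z.im + (∑ a ∈ (Finset.univ.erase a1).erase a2, Xg a).im + S.im := by
      simp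
    rw [this]
    have := h.hz
    linarith
  have hn1 : (z - V + ∑ a ∈ (Finset.univ.erase a1).erase a2, Xg a) + S ≠ 0 := by
    intro h0; rw [h0, Complex.zero_im] at hI2; linarith
  have hn2 : c + Sy ≠ 0 := by intro h0; rw [h0, Complex.zero_im] at hI1; linarith
  have e3 : c + 2 * m = -(m⁻¹) := by
    have hm0 := h.ne_zero
    have := h.hm
    rw [hc]
    field_simp
    linear_combination this
  have hn3 : c + 2 * m ≠ 0 := by
    rw [e3]
    exact neg_ne_zero.mpr (inv_ne_zero h.ne_zero)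
  have e4 : m = T c (2 * m) := by
    rw [T, e3, inv_neg, inv_inv, neg_neg]
  have hT1 : ‖T (z - V + ∑ a ∈ (Finset.univ.erase a1).erase a2, Xg a) S‖ ≤ y0⁻¹ :=
    norm_T_le hy hI2
  have hT2 : ‖T c Sy‖ ≤ y0⁻¹ := norm_T_le hy hI1
  refine ⟨T c Sy, T_im_nonneg (hy.le.trans hI1), ?_, ?_⟩
  · rw [e0]
    have e5 : -((z - V + ∑ a ∈ (Finset.univ.erase a1).erase a2, Xg a) + S)⁻¹
        = T (z - V + ∑ a ∈ (Finset.univ.erase a1).erase a2, Xg a) S := rfl
    rw [e5, T_sub_T hn1 hn2, norm_mul, norm_mul]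
    have h1 : ‖(z - V + ∑ a ∈ (Finset.univ.erase a1).erase a2, Xg a) - c‖ ≤ (b - 1) * a0 := by
      have e6 : (z - V + ∑ a ∈ (Finset.univ.erase a1).erase a2, Xg a) - c
          = -(V : ℂ) + ∑ a ∈ (Finset.univ.erase a1).erase a2, (Xg a - m) := by
        rw [Finset.sum_sub_distrib, Finset.sum_const, nsmul_eq_mul, hcardc, hc]
        ring
      rw [e6]
      have h2 : ‖-(V : ℂ)‖ ≤ a0 := by rw [norm_neg, Complex.norm_real]; exact hV.trans hσa
      have h3 : ‖∑ a ∈ (Finset.univ.erase a1).erase a2, (Xg a - m)‖ ≤ (b - 2) * a0 := by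
        refine (norm_sum_le _ _).trans ?_
        have : ∑ a ∈ (Finset.univ.erase a1).erase a2, ‖Xg a - m‖
            ≤ ∑ a ∈ (Finset.univ.erase a1).erase a2, a0 := by
          refine Finset.sum_le_sum fun a ha => ?_
          have h4 := Finset.mem_erase.mp ha
          have h5 := Finset.mem_erase.mp h4.2
          linarith [hX a h5.1 h4.1]
        rwa [Finset.sum_const, nsmul_eq_mul, hcard] at this
      have := norm_add_le (-(V : ℂ)) (∑ a ∈ (Finset.univ.erase a1).erase a2, (Xg a - m))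
      linarith
    have h2 : ‖(z - V + ∑ a ∈ (Finset.univ.erase a1).erase a2, Xg a) - c + (S - Sy)‖
        ≤ (b + 3) * a0 := by
      refine (norm_add_le _ _).trans ?_
      linarith
    have h3 : ‖(z - V + ∑ a ∈ (Finset.univ.erase a1).erase a2, Xg a) - c + (S - Sy)‖ *
        ‖T (z - V + ∑ a ∈ (Finset.univ.erase a1).erase a2, Xg a) S‖ * ‖T c Sy‖
        ≤ ((b + 3) * a0) * y0⁻¹ * y0⁻¹ :=
      mul_le_mul (mul_le_mul h2 hT1 (norm_nonneg _) (by positivity)) hT2 (norm_nonneg _)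
        (by positivity)
    refine h3.trans ?_
    unfold Kc
    have e7 : ((b : ℝ) + 3) * a0 * y0⁻¹ * y0⁻¹ = (b + 3) * (a0 / y0 ^ 2) := by
      field_simp
    have e8 : (1 + (b : ℝ) / y0 + 8 * (b + 1) / y0 ^ 2) * a0
        = a0 + b / y0 * a0 + 8 * (b + 1) * (a0 / y0 ^ 2) := by ring
    rw [e7, e8]
    have h6 : 0 ≤ (b : ℝ) / y0 * a0 := by positivity
    have h7 : 0 ≤ a0 / y0 ^ 2 := by positivity
    nlinarith
  · have e9 : T c Sy - m = ((c - c) + (Sy - 2 * m)) * T c Sy * m := by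
      have := T_sub_T hn2 hn3
      rw [← e4] at this
      exact this
    rw [e9, sub_self, zero_add, norm_mul, norm_mul]
    have hq0 : 0 ≤ q := (norm_nonneg _).trans hSy
    have h3 : ‖Sy - 2 * m‖ * ‖T c Sy‖ * ‖m‖ ≤ q * y0⁻¹ * 1 :=
      mul_le_mul (mul_le_mul hSy hT2 (norm_nonneg _) hq0) (m_lt_one h).le (norm_nonneg _)
        (by positivity)
    rw [mul_one] at h3
    rwa [div_eq_mul_inv]

/-- collapsed entry at a common parent -/
lemma coll_merge {κ : Type*} [Fintype κ] [DecidableEq κ] {Z : Matrix (κ × β) (κ × β) ℂ}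
    {p : κ} {a1 a2 : β} (ha : a1 ≠ a2) (hZ : Str (p, a1) (p, a2) Z) :
    coll Z p p = ∑ a ∈ (Finset.univ.erase a1).erase a2, Z (p, a) (p, a) +
      (Z (p, a1) (p, a1) + Z (p, a1) (p, a2) + Z (p, a2) (p, a1) + Z (p, a2) (p, a2)) := by
  have hz0 : ∀ a a', a ≠ a' → ¬ (a = a1 ∧ a' = a2) → ¬ (a = a2 ∧ a' = a1) →
      Z (p, a) (p, a') = 0 := by
    intro a a' h1 h2 h3
    apply hZ
    · intro h; exact h1 (congrArg Prod.snd h)
    · rintro ⟨h4, h5⟩; exact h2 ⟨congrArg Prod.snd h4, congrArg Prod.snd h5⟩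
    · rintro ⟨h4, h5⟩; exact h3 ⟨congrArg Prod.snd h4, congrArg Prod.snd h5⟩
  have hin : ∀ a, (∑ a', Z (p, a) (p, a')) = Z (p, a) (p, a) +
      ((if a = a1 then Z (p, a1) (p, a2) else 0) + (if a = a2 then Z (p, a2) (p, a1) else 0)) := by
    intro a
    by_cases h1 : a = a1
    · subst h1
      rw [if_pos rfl, if_neg ha, add_zero]
      refine Finset.sum_eq_add a a2 ha ?_ (by simp) (by simp)
      intro c _ hc
      exact hz0 a c hc.1.symm (fun h => hc.2 h.2) (fun h => ha h.1)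
    · by_cases h2 : a = a2
      · subst h2
        rw [if_neg h1, if_pos rfl, zero_add]
        refine Finset.sum_eq_add a a1 h1 ?_ (by simp) (by simp)
        intro c _ hc
        exact hz0 a c hc.1.symm (fun h => h1 h.1) (fun h => hc.2 h.2)
      · rw [if_neg h1, if_neg h2, add_zero, add_zero]
        refine Finset.sum_eq_single a ?_ (by simp)
        intro c _ hc
        exact hz0 a c hc.symm (fun h => h1 h.1) (fun h => h2 h.1)
  have h1 : coll Z p p = ∑ a, ∑ a', Z (p, a) (p, a') := rfl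
  rw [h1]
  simp only [hin]
  rw [Finset.sum_add_distrib, Finset.sum_add_distrib, Finset.sum_ite_eq' Finset.univ a1,
    Finset.sum_ite_eq' Finset.univ a2, if_pos (Finset.mem_univ _), if_pos (Finset.mem_univ _),
    ← Finset.add_sum_erase _ _ (Finset.mem_univ a1),
    ← Finset.add_sum_erase _ _ (Finset.mem_erase.mpr ⟨ha.symm, Finset.mem_univ a2⟩)]
  ring

lemma four_le_C0 (h : Adm b y0 z m) (k1 : ℕ) : 4 / y0 ≤ C0 y0 k1 := by
  have hy := h.hy
  have h2 : y0 ≤ 1 := h.y0_le.trans (by norm_num)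
  have h3 : 1 ≤ (1 / y0) ^ (2 * k1) := one_le_pow₀ (by rw [le_div_iff₀ hy]; linarith)
  unfold C0
  have h4 : 0 ≤ 64 / y0 ^ 4 := by positivity
  have h5 : 4 / y0 * 1 ≤ 4 / y0 * (1 / y0) ^ (2 * k1) :=
    mul_le_mul_of_nonneg_left h3 (by positivity)
  linarith

lemma m_pow_anti (h : Adm b y0 z m) {i j : ℕ} (hij : i ≤ j) : ‖m‖ ^ (2 * j) ≤ ‖m‖ ^ (2 * i) :=
  pow_le_pow_of_le_one (norm_nonneg _) (m_lt_one h).le (by omega)

lemma m_pow_half (h : Adm b y0 z m) {i j : ℕ} (hij : i ≤ j) :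
    ‖m‖ ^ (2 * j) ≤ (1 / 2) ^ i := by
  refine (m_pow_anti h hij).trans ?_
  rw [pow_mul]
  have h1 := h.normSq_le
  rw [← Adm.sq_norm] at h1
  exact pow_le_pow_left₀ (by positivity) h1 _

/-- final estimate when the pair merges -/
lemma merged_final (h : Adm b y0 z m) {k1 : ℕ} {l j : ℕ} (hL : k1 + 1 ≤ j + (l + 1))
    {y : ℂ} (hy' : 0 ≤ y.im)
    (hcase : j < k1 ∨ ‖y - m‖ ≤ 16 / y0 * ‖m‖ ^ (2 * j) / y0) :
    ‖(T (cc b z m))^[l] y - m‖ ≤ C0 y0 k1 * ‖m‖ ^ (2 * (j + (l + 1) - 1)) := by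
  have hy := h.hy
  have e1 : j + (l + 1) - 1 = j + l := by omega
  rw [e1]
  have e2 : ‖m‖ ^ (2 * (j + l)) = ‖m‖ ^ (2 * j) * ‖m‖ ^ (2 * l) := by
    rw [← pow_add]; congr 1; ring
  have hp1 : 0 ≤ ‖m‖ ^ (2 * j) := by positivity
  have hp2 : 0 ≤ ‖m‖ ^ (2 * l) := by positivity
  rcases hcase with hj | hj
  · have hl : 1 ≤ l := by omega
    have h1 := iter1 h hy' hl
    refine h1.trans ?_
    have h2 := m_pow_le h (k := k1) (j := j) hj.le
    have h3 : ‖m‖ ^ (2 * l) ≤ (1 / y0) ^ (2 * k1) * ‖m‖ ^ (2 * j) * ‖m‖ ^ (2 * l) := by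
      have := mul_le_mul_of_nonneg_right h2 hp2
      rwa [one_mul] at this
    calc 4 / y0 * ‖m‖ ^ (2 * l)
        ≤ 4 / y0 * ((1 / y0) ^ (2 * k1) * ‖m‖ ^ (2 * j) * ‖m‖ ^ (2 * l)) :=
          mul_le_mul_of_nonneg_left h3 (by positivity)
      _ = (4 / y0 * (1 / y0) ^ (2 * k1)) * ‖m‖ ^ (2 * (j + l)) := by rw [e2]; ring
      _ ≤ C0 y0 k1 * ‖m‖ ^ (2 * (j + l)) := by
          refine mul_le_mul_of_nonneg_right ?_ (by positivity)
          unfold C0
          have h4 : 0 ≤ 64 / y0 ^ 4 := by positivity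
          linarith
  · have h1 := iter2 h hy' l
    refine h1.trans ?_
    calc 4 / y0 ^ 2 * (‖m‖ ^ (2 * l) * ‖y - m‖)
        ≤ 4 / y0 ^ 2 * (‖m‖ ^ (2 * l) * (16 / y0 * ‖m‖ ^ (2 * j) / y0)) :=
          mul_le_mul_of_nonneg_left (mul_le_mul_of_nonneg_left hj hp2) (by positivity)
      _ = 64 / y0 ^ 4 * ‖m‖ ^ (2 * (j + l)) := by
          rw [e2]; field_simp; ring
      _ ≤ C0 y0 k1 * ‖m‖ ^ (2 * (j + l)) := by
          refine mul_le_mul_of_nonneg_right ?_ (by positivity)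
          unfold C0
          have h4 : 0 ≤ 4 / y0 * (1 / y0) ^ (2 * k1) := by positivity
          linarith

/-- the base of the induction -/
lemma base_case {κ : Type*} [Fintype κ] [DecidableEq κ] (h : Adm b y0 z m) {k1 : ℕ}
    {A0 : Matrix (Fin 2) (Fin 2) ℂ} (hA0 : NN A0) (Z : Matrix κ κ ℂ) (i k : κ) (hik : i ≠ k)
    (hStr : Str i k Z) {a0 : ℝ} (ha0 : 0 ≤ a0) (hg : ∀ p, p ≠ i → p ≠ k → ‖Z p p - m‖ ≤ a0)
    {j : ℕ} (hj : 1 ≤ j) (hblk : ∀ a a', ‖blk Z i k a a' - Yit (cc b z m) A0 j a a'‖ ≤ a0)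
    (r r' : κ) :
    ‖Z r r' - (if r = r' then m else 0)‖ ≤ C0 y0 k1 * ‖m‖ ^ (2 * (j + 0 - 1)) + a0 := by
  have hy := h.hy
  have hnear : ∀ a a', ‖blk Z i k a a' - (if a = a' then m else 0)‖
      ≤ C0 y0 k1 * ‖m‖ ^ (2 * (j + 0 - 1)) + a0 := by
    intro a a'
    have h1 := Yit_near h hA0 hj a a'
    have h2 := hblk a a'
    have h3 := norm_add_le (blk Z i k a a' - Yit (cc b z m) A0 j a a')
      (Yit (cc b z m) A0 j a a' - (if a = a' then m else 0))
    rw [sub_add_sub_cancel] at h3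
    have h4 : 4 / y0 * ‖m‖ ^ (2 * j) ≤ C0 y0 k1 * ‖m‖ ^ (2 * (j + 0 - 1)) :=
      mul_le_mul (four_le_C0 h k1) (m_pow_anti h (by omega)) (by positivity)
        ((by positivity : (0:ℝ) ≤ 4 / y0).trans (four_le_C0 h k1))
    linarith
  have hC : 0 ≤ C0 y0 k1 * ‖m‖ ^ (2 * (j + 0 - 1)) :=
    mul_nonneg ((by positivity : (0:ℝ) ≤ 4 / y0).trans (four_le_C0 h k1)) (by positivity)
  by_cases hri : r = i ∧ r' = i
  · obtain ⟨rfl, rfl⟩ := hri
    have := hnear 0 0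
    simpa [blk] using this
  by_cases hrk : r = k ∧ r' = k
  · obtain ⟨rfl, rfl⟩ := hrk
    have := hnear 1 1
    simpa [blk] using this
  by_cases hrik : r = i ∧ r' = k
  · obtain ⟨rfl, rfl⟩ := hrik
    have := hnear 0 1
    rw [if_neg (show ¬ ((0 : Fin 2) = 1) by decide)] at this
    rw [if_neg hik]
    simpa [blk] using this
  by_cases hrki : r = k ∧ r' = i
  · obtain ⟨rfl, rfl⟩ := hrki
    have := hnear 1 0
    rw [if_neg (show ¬ ((1 : Fin 2) = 0) by decide)] at this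
    rw [if_neg (fun h => hik h.symm)]
    simpa [blk] using this
  by_cases hrr : r = r'
  · subst hrr
    rw [if_pos rfl]
    have := hg r (fun h => hri ⟨h, h⟩) (fun h => hrk ⟨h, h⟩)
    linarith
  · rw [if_neg hrr, hStr r r' hrr hrik hrki, sub_zero, norm_zero]
    linarith

theorem block_chain (h : Adm b y0 z m) (hz : 0 < z.im) (hb : Fintype.card β = b) {σ : ℝ}
    (hσ0 : 0 ≤ σ) {k1 : ℕ} (hk0 : 1 ≤ k1) (hk1 : 16 / y0 * (1 / 2) ^ k1 ≤ y0 / 2)
    {A0 : Matrix (Fin 2) (Fin 2) ℂ} (hA0 : NN A0) :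
    ∀ (l : ℕ) (V : Tr ρ β l → ℝ) (_ : ∀ x, |V x| ≤ σ) (Z : Matrix (Lay ρ β l) (Lay ρ β l) ℂ)
    (_ : Zᵀ = Z) (_ : NN Z) (i k : Lay ρ β l) (_ : i ≠ k) (_ : Str i k Z) (a0 : ℝ) (_ : σ ≤ a0)
    (_ : Kc b y0 ^ l * a0 ≤ y0 / 8) (_ : ∀ p, p ≠ i → p ≠ k → ‖Z p p - m‖ + σ ≤ a0) (j : ℕ)
    (_ : ∀ a a', ‖blk Z i k a a' - Yit (cc b z m) A0 j a a'‖ ≤ a0) (_ : k1 + 1 ≤ j + l)
    (r r' : ρ), ‖treeB z l V Z r r' - (if r = r' then m else 0)‖ ≤
      C0 y0 k1 * ‖m‖ ^ (2 * (j + l - 1)) + Kc b y0 ^ l * a0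
  | 0, V, hV, Z, hZs, hZN, i, k, hik, hStr, a0, hσ, ha, hg, j, hblk, hL, r, r' => by
    rw [pow_zero, one_mul]
    exact base_case (κ := ρ) h hA0 (k1 := k1) Z i k hik hStr (hσ0.trans hσ)
      (fun p g1 g2 => le_trans (by linarith) (hg p g1 g2)) (by omega) hblk r r'
  | l + 1, V, hV, Z, hZs, hZN, i, k, hik, hStr, a0, hσ, ha, hg, j, hblk, hL, r, r' => by
    have hy := h.hy
    have hK := one_le_Kc (b := b) hy
    have ha0 : 0 ≤ a0 := hσ0.trans hσ
    have hKl : 1 ≤ Kc b y0 ^ (l + 1) := one_le_pow₀ hK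
    have ha8 : a0 ≤ y0 / 8 := by nlinarith
    have hσ' : σ ≤ Kc b y0 * a0 := by nlinarith
    have ha' : Kc b y0 ^ l * (Kc b y0 * a0) ≤ y0 / 8 := by
      rw [← mul_assoc, ← pow_succ]; exact ha
    set e : Lay ρ β l → ℂ := fun q => z - V (Sum.inr q) with he
    have hei : ∀ q, 0 < (e q).im := fun q => by simpa [he] using hz
    have e0 : treeB z (l + 1) V Z = treeB z l (fun x => V (Sum.inl x))
        (step (κ := Lay ρ β l) (β := β) e Z) := rfl
    have hgoodp : ∀ p : Lay ρ β l, p ≠ i.1 → p ≠ k.1 →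
        ‖-(e p + ∑ a, Z (p, a) (p, a))⁻¹ - m‖ + σ ≤ Kc b y0 * a0 := by
      intro p hp1 hp2
      refine good_step h hb (X := fun a => Z (p, a) (p, a)) (hV _) ha8 fun a => hg _ ?_ ?_
      · intro h1
        exact hp1 (congrArg Prod.fst (h1 : ((p, a) : Lay ρ β l × β) = i))
      · intro h1
        exact hp2 (congrArg Prod.fst (h1 : ((p, a) : Lay ρ β l × β) = k))
    by_cases h1 : i.1 = k.1
    · -- merging
      have h2 : i.2 ≠ k.2 := by
        intro h3
        exact hik (Prod.ext h1 h3)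
      have hm := step_merge (κ := Lay ρ β l) (β := β) (i := i) (k := k) hZN hei hStr h1
      rw [e0, hm]
      have ekk : k = (i.1, k.2) := Prod.ext h1.symm rfl
      have hcm : coll (κ := Lay ρ β l) (β := β) Z i.1 i.1 =
          ∑ a ∈ (Finset.univ.erase i.2).erase k.2, Z (i.1, a) (i.1, a) +
            (Z i i + Z i k + Z k i + Z k k) := by
        have := coll_merge (κ := Lay ρ β l) (β := β) (Z := Z) (p := i.1) (a1 := i.2) (a2 := k.2) h2
          (by rw [← ekk]; exact hStr)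
        rw [← ekk] at this
        exact this
      have hX' : ∀ p : Lay ρ β l, 0 ≤ (-(e p + coll (κ := Lay ρ β l) (β := β) Z p p)⁻¹ : ℂ).im := by
        intro p
        refine T_im_nonneg (c := e p) (x := coll (κ := Lay ρ β l) (β := β) Z p p) ?_
        rw [Complex.add_im]
        exact add_nonneg (hei p).le ((NN.coll (κ := Lay ρ β l) (β := β) hZN).im_diag p)
      have hgood : ∀ p : Lay ρ β l, p ≠ i.1 →
          ‖-(e p + coll (κ := Lay ρ β l) (β := β) Z p p)⁻¹ - m‖ + σ ≤ Kc b y0 * a0 := by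
        intro p hp
        rw [coll_diag (κ := Lay ρ β l) (β := β) (i := i) (k := k) hStr (fun h3 => hp h3.1)]
        exact hgoodp p hp (fun h3 => hp (h3.trans h1.symm))
      -- the reference value
      have href : ∃ y : ℂ, 0 ≤ y.im ∧
          ‖-(e i.1 + coll (κ := Lay ρ β l) (β := β) Z i.1 i.1)⁻¹ - y‖ ≤ Kc b y0 * a0 ∧
          (j < k1 ∨ ‖y - m‖ ≤ 16 / y0 * ‖m‖ ^ (2 * j) / y0) := by
        by_cases hj : j < k1
        · exact ⟨_, hX' i.1, by rw [sub_self, norm_zero]; positivity, Or.inl hj⟩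
        · push Not at hj
          have hj1 : 1 ≤ j := hk0.trans hj
          have hS := sum_block (blk Z i k) (Yit (cc b z m) A0 j) hblk
          have hSy := sum_block (Yit (cc b z m) A0 j) (Matrix.of fun a a' : Fin 2 =>
            if a = a' then m else 0) (q := 4 / y0 * ‖m‖ ^ (2 * j))
            (fun a a' => by rw [Matrix.of_apply]; exact Yit_near h hA0 hj1 a a')
          have hq : 16 / y0 * ‖m‖ ^ (2 * j) ≤ y0 / 2 := by
            refine le_trans ?_ hk1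
            exact mul_le_mul_of_nonneg_left (m_pow_half h hj) (by positivity)
          have hSy' : ‖(Yit (cc b z m) A0 j 0 0 + Yit (cc b z m) A0 j 0 1 +
              Yit (cc b z m) A0 j 1 0 + Yit (cc b z m) A0 j 1 1) - 2 * m‖
              ≤ 16 / y0 * ‖m‖ ^ (2 * j) := by
            have e5 : (2 : ℂ) * m = (Matrix.of fun a a' : Fin 2 => if a = a' then m else 0) 0 0 +
                (Matrix.of fun a a' : Fin 2 => if a = a' then m else 0) 0 1 +
                (Matrix.of fun a a' : Fin 2 => if a = a' then m else 0) 1 0 +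
                (Matrix.of fun a a' : Fin 2 => if a = a' then m else 0) 1 1 := by
              simp [Matrix.of_apply]
              ring
            rw [e5]
            refine hSy.trans (le_of_eq ?_)
            ring
          have hS' : ‖(Z i i + Z i k + Z k i + Z k k) - (Yit (cc b z m) A0 j 0 0 +
              Yit (cc b z m) A0 j 0 1 + Yit (cc b z m) A0 j 1 0 + Yit (cc b z m) A0 j 1 1)‖
              ≤ 4 * a0 := by
            simpa [blk] using hS
          obtain ⟨y, hy1, hy2, hy3⟩ := merge_step h hb (Xg := fun a => Z (i.1, a) (i.1, a))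
            (hV (Sum.inr i.1)) ha8 hσ h2
            (fun a g1 g2 => hg _ (by
              intro g3
              exact g1 (congrArg Prod.snd (g3 : ((i.1, a) : Lay ρ β l × β) = i))) (by
              intro g3
              exact g2 (congrArg Prod.snd (g3 : ((i.1, a) : Lay ρ β l × β) = k))))
            (fun a => hZN.im_diag _) hS' hSy' hq
          refine ⟨y, hy1, ?_, Or.inr hy3⟩
          rw [hcm]
          exact hy2
      obtain ⟨y, hy1, hy2, hy3⟩ := href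
      obtain ⟨r0, hr0⟩ := diag_chain h hz hb hσ0 l (fun x => V (Sum.inl x)) (fun x => hV _)
        (fun p => -(e p + coll (κ := Lay ρ β l) (β := β) Z p p)⁻¹) hX' i.1 (Kc b y0 * a0) hσ' ha'
        hgood y hy1 hy2
      have hfin := merged_final h hL hy1 hy3
      have h3 := hr0 r r'
      rw [← mul_assoc, ← pow_succ] at h3
      by_cases hrr : r = r'
      · by_cases hr : r = r0
        · rw [if_pos hrr, if_pos hr] at h3
          rw [if_pos hrr]
          have h4 := norm_add_le (treeB z l (fun x => V (Sum.inl x)) (Matrix.diagonal fun p =>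
            -(e p + coll (κ := Lay ρ β l) (β := β) Z p p)⁻¹) r r' - (T (cc b z m))^[l] y)
            ((T (cc b z m))^[l] y - m)
          rw [sub_add_sub_cancel] at h4
          linarith
        · rw [if_pos hrr, if_neg hr] at h3
          rw [if_pos hrr]
          have : 0 ≤ C0 y0 k1 * ‖m‖ ^ (2 * (j + (l + 1) - 1)) := (norm_nonneg _).trans hfin
          linarith
      · rw [if_neg hrr] at h3 ⊢
        have : 0 ≤ C0 y0 k1 * ‖m‖ ^ (2 * (j + (l + 1) - 1)) := (norm_nonneg _).trans hfin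
        linarith
    · -- distinct parents
      obtain ⟨hs1, hs2, hs3⟩ := step_blk (κ := Lay ρ β l) (β := β) (i := i) (k := k) hZs hZN hei
        hStr h1
      have hci := cpar_near h hb (X := fun a => Z (i.1, a) (i.1, a)) (hV (Sum.inr i.1)) ha8 hσ i.2
        (fun a g1 => hg _ (by
          intro g3
          exact g1 (congrArg Prod.snd (g3 : ((i.1, a) : Lay ρ β l × β) = i))) (by
          intro g3
          have g4 := congrArg Prod.fst (g3 : ((i.1, a) : Lay ρ β l × β) = k)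
          exact h1 g4))
      have hck := cpar_near h hb (X := fun a => Z (k.1, a) (k.1, a)) (hV (Sum.inr k.1)) ha8 hσ k.2
        (fun a g1 => hg _ (by
          intro g3
          have g4 := congrArg Prod.fst (g3 : ((k.1, a) : Lay ρ β l × β) = i)
          exact h1 g4.symm) (by
          intro g3
          exact g1 (congrArg Prod.snd (g3 : ((k.1, a) : Lay ρ β l × β) = k))))
      have hBN : NN (blk Z i k) := by
        have e6 : blk Z i k = Z.submatrix ![i, k] ![i, k] := by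
          ext a a'
          fin_cases a <;> fin_cases a' <;> rfl
        rw [e6]
        refine hZN.submatrix ?_
        intro a a' haa
        fin_cases a <;> fin_cases a'
        · rfl
        · exact absurd haa hik
        · exact absurd haa.symm hik
        · rfl
      have hYN : NN (Yit (cc b z m) A0 j) := Yit_NN (lt_of_lt_of_le hy (cc_im h)) hA0 j
      have hblk' := block_step h ha0 hBN hYN hci.1 hci.2 hck.1 hck.2 hblk hs3
      have hind := block_chain h hz hb hσ0 hk0 hk1 hA0 l (fun x => V (Sum.inl x)) (fun x => hV _)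
        (step (κ := Lay ρ β l) (β := β) e Z) (step_symm (κ := Lay ρ β l) (β := β) hZs)
        (step_NN (κ := Lay ρ β l) (β := β) hZN hei) i.1 k.1 h1 hs1 (Kc b y0 * a0) hσ' ha'
        (fun p g1 g2 => by rw [hs2 p g1 g2]; exact hgoodp p g1 g2) (j + 1) hblk' (by omega) r r'
      rw [e0]
      have e7 : j + 1 + l - 1 = j + (l + 1) - 1 := by omega
      rw [e7, ← mul_assoc, ← pow_succ] at hind
      exact hind

lemma exists_k1 {y0 : ℝ} (hy : 0 < y0) :
    ∃ k1 : ℕ, 1 ≤ k1 ∧ 16 / y0 * (1 / 2) ^ k1 ≤ y0 / 2 := by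
  obtain ⟨n, hn⟩ := exists_pow_lt_of_lt_one (show (0 : ℝ) < y0 ^ 2 / 32 by positivity)
    (show (1 / 2 : ℝ) < 1 by norm_num)
  refine ⟨n + 1, by omega, ?_⟩
  have h1 : (1 / 2 : ℝ) ^ (n + 1) ≤ y0 ^ 2 / 32 := by
    rw [pow_succ]
    have : (0 : ℝ) < (1 / 2) ^ n := by positivity
    linarith
  have h2 : 16 / y0 * (1 / 2) ^ (n + 1) ≤ 16 / y0 * (y0 ^ 2 / 32) :=
    mul_le_mul_of_nonneg_left h1 (by positivity)
  refine h2.trans (le_of_eq ?_)
  field_simp
  norm_num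

/-- **(31.2)** two arbitrary inputs, general forest -/
theorem two_inputs (ρ β : Type) [Fintype ρ] [DecidableEq ρ] [Fintype β] [DecidableEq β]
    (hρ : 2 ≤ Fintype.card ρ) (b : ℕ) (hb : Fintype.card β = b) (y0 : ℝ) (hy0 : 0 < y0) :
    ∃ C : ℝ, 0 < C ∧ ∃ L0 : ℕ, ∀ L : ℕ, L0 ≤ L → ∃ CL r0 : ℝ, 0 < CL ∧ 0 < r0 ∧
    ∀ z m : ℂ, 0 < z.im → Adm b y0 z m → ∀ (V : Tr ρ β (L + 1) → ℝ) (sg : ℝ),
    (∀ x, |V x| ≤ sg) → 0 ≤ sg → sg ≤ r0 → ∀ (A : Finset (Lay ρ β (L + 1))), A.card ≤ 2 →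
    ∀ Xi : Matrix (Lay ρ β (L + 1)) (Lay ρ β (L + 1)) ℂ, Xiᵀ = Xi → NN Xi →
    (∀ j ∉ A, ∀ k, Xi j k = if k = j then Xi j j else 0) → (∀ j ∉ A, ‖Xi j j - m‖ ≤ r0) →
    ∀ r r' : ρ, ‖treeB z (L + 1) V Xi r r' - (if r = r' then m else 0)‖ ≤
      C * ‖m‖ ^ (2 * L) + CL * (∑ j ∈ Aᶜ, ‖Xi j j - m‖ + sg) := by
  obtain ⟨k1, hk0, hk1⟩ := exists_k1 hy0
  refine ⟨C0 y0 k1, by unfold C0; positivity, k1, fun L hL => ?_⟩
  have hK := one_le_Kc (b := b) hy0
  have hKp : 0 < Kc b y0 ^ (L + 1) := pow_pos (lt_of_lt_of_le one_pos hK) _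
  set N : ℕ := Fintype.card (Lay ρ β (L + 1)) with hN
  refine ⟨Kc b y0 ^ (L + 1), y0 / (8 * (N + 1) * Kc b y0 ^ (L + 1)), hKp, by positivity, ?_⟩
  intro z m hz h V sg hV hsg hsg' A hA Xi hXs hXN hdiag hgood r r'
  have hcardN : 2 ≤ N := by
    rw [hN, ← Fintype.card_congr (layE (ρ := ρ) (β := β) (L + 1)), Fintype.card_prod,
      Fintype.card_fun, Fintype.card_fin, hb]
    have h1 : 1 ≤ b ^ (L + 1) := Nat.one_le_pow _ _ (by have := h.hb; omega)
    nlinarith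
  obtain ⟨B, hAB, hB⟩ := Finset.exists_superset_card_eq hA hcardN
  obtain ⟨i, k, hik, rfl⟩ := Finset.card_eq_two.mp hB
  have hout : ∀ p, p ≠ i → p ≠ k → p ∉ A := by
    intro p h1 h2 h3
    have := hAB h3
    rw [Finset.mem_insert, Finset.mem_singleton] at this
    tauto
  have hsym : ∀ p q, Xi p q = Xi q p := by
    intro p q
    have := congrFun (congrFun hXs q) p
    simpa [Matrix.transpose_apply] using this
  have hStr : Str i k Xi := by
    intro p q hpq h1 h2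
    by_cases hp : p = i ∨ p = k
    · have hq1 : q ≠ i := by
        rintro rfl
        rcases hp with hp | hp
        · exact hpq hp
        · exact h2 ⟨hp, rfl⟩
      have hq2 : q ≠ k := by
        rintro rfl
        rcases hp with hp | hp
        · exact h1 ⟨hp, rfl⟩
        · exact hpq hp
      rw [hsym, hdiag q (hout q hq1 hq2), if_neg hpq]
    · push Not at hp
      rw [hdiag p (hout p hp.1 hp.2), if_neg (Ne.symm hpq)]
  set a0 : ℝ := ∑ j ∈ Aᶜ, ‖Xi j j - m‖ + sg with ha0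
  have hsum0 : 0 ≤ ∑ j ∈ Aᶜ, ‖Xi j j - m‖ := Finset.sum_nonneg fun _ _ => norm_nonneg _
  have hsga : sg ≤ a0 := by linarith
  set r0 : ℝ := y0 / (8 * (N + 1) * Kc b y0 ^ (L + 1)) with hr0
  have hr0p : 0 < r0 := by positivity
  have hsum : ∑ j ∈ Aᶜ, ‖Xi j j - m‖ ≤ N * r0 := by
    have h1 : ∑ j ∈ Aᶜ, ‖Xi j j - m‖ ≤ ∑ j ∈ Aᶜ, r0 :=
      Finset.sum_le_sum fun j hj => hgood j (by simpa using hj)
    rw [Finset.sum_const, nsmul_eq_mul] at h1
    refine h1.trans (mul_le_mul_of_nonneg_right ?_ hr0p.le)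
    exact_mod_cast Finset.card_le_univ _
  have hsmall : Kc b y0 ^ (L + 1) * a0 ≤ y0 / 8 := by
    have h1 : a0 ≤ (N + 1) * r0 := by rw [ha0]; linarith
    refine (mul_le_mul_of_nonneg_left h1 hKp.le).trans (le_of_eq ?_)
    rw [hr0]
    field_simp
  have hg : ∀ p, p ≠ i → p ≠ k → ‖Xi p p - m‖ + sg ≤ a0 := by
    intro p h1 h2
    have h3 : ‖Xi p p - m‖ ≤ ∑ j ∈ Aᶜ, ‖Xi j j - m‖ :=
      Finset.single_le_sum (f := fun j => ‖Xi j j - m‖) (fun _ _ => norm_nonneg _)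
        (Finset.mem_compl.mpr (hout p h1 h2))
    linarith
  have hBN : NN (blk Xi i k) := by
    have e6 : blk Xi i k = Xi.submatrix ![i, k] ![i, k] := by
      ext a a'
      fin_cases a <;> fin_cases a' <;> rfl
    rw [e6]
    refine hXN.submatrix ?_
    intro a a' haa
    fin_cases a <;> fin_cases a'
    · rfl
    · exact absurd haa hik
    · exact absurd haa.symm hik
    · rfl
  have key := block_chain h hz hb hsg hk0 hk1 hBN (L + 1) V hV Xi hXs hXN i k hik hStr a0 hsga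
    hsmall hg 0 (fun a a' => by
      have : Yit (cc b z m) (blk Xi i k) 0 = blk Xi i k := rfl
      rw [this, sub_self, norm_zero]
      exact hsg.trans hsga) (by omega) r r'
  have e1 : 0 + (L + 1) - 1 = L := by omega
  rw [e1] at key
  exact key

end chain

/-- a Siegel matrix has nonnegative imaginary part -/
lemma NN_of_siegel {ι : Type*} [Fintype ι] [DecidableEq ι] {Ξ : Matrix ι ι ℂ}
    (h : Res598.Siegel Ξ) : NN Ξ := by
  intro u
  rw [Res598.im_form h.symm]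
  exact Res598.qf_nonneg h.pos.posSemidef u

/-- (31.2) in the form used by the decoupling -/
def E2 (d : ℕ) [NeZero d] : Prop :=
  ∀ y0 : ℝ, 0 < y0 → ∃ C : ℝ, 0 < C ∧ ∃ L0 : ℕ, ∀ L : ℕ, L0 ≤ L →
    ∃ CL r0 : ℝ, 0 < CL ∧ 0 < r0 ∧ ∀ z m : ℂ, 0 < z.im → Adm (d - 1) y0 z m →
    ∀ (V : Tr Bool (SwP470.NZ d) (L + 1) → ℝ) (sg : ℝ), (∀ x, |V x| ≤ sg) → sg ≤ r0 →
    ∀ (A : Finset (Lay Bool (SwP470.NZ d) (L + 1))), A.card ≤ 2 →
    ∀ Xi : Matrix (Lay Bool (SwP470.NZ d) (L + 1)) (Lay Bool (SwP470.NZ d) (L + 1)) ℂ,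
    Res598.Siegel Xi → (∀ j ∉ A, ∀ k, Xi j k = if k = j then Xi j j else 0) →
    (∀ j ∉ A, ‖Xi j j - m‖ ≤ r0) →
    ∀ r r' : Bool, ‖Dec598.treeOut (Res789.Res (hTree V) z) (par L) Xi (root L r) (root L r') -
      (if r = r' then m else 0)‖ ≤ C * ‖m‖ ^ (2 * L) + CL * (∑ j ∈ Aᶜ, ‖Xi j j - m‖ + sg)

theorem e2 (d : ℕ) [NeZero d] : E2 d := by
  intro y0 hy0
  have hb : Fintype.card (SwP470.NZ d) = d - 1 := by
    have : Fintype.card {k : Fin d // k ≠ 0} = d - 1 := by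
      rw [Fintype.card_subtype_compl, Fintype.card_fin, Fintype.card_subtype_eq]
    exact this
  obtain ⟨C, hC, L0, hL0⟩ := two_inputs Bool (SwP470.NZ d) (by simp) (d - 1) hb y0 hy0
  refine ⟨C, hC, L0, fun L hL => ?_⟩
  obtain ⟨CL, r0, hCL, hr0, hmain⟩ := hL0 L hL
  refine ⟨CL, r0, hCL, hr0, ?_⟩
  intro z m hz h V sg hV hsg' A hA Xi hXi hdiag hgood r r'
  have hsg : 0 ≤ sg := (abs_nonneg _).trans (hV (root L true))
  have h1 := hmain z m hz h V sg hV hsg hsg' A hA Xi hXi.symm (NN_of_siegel hXi) hdiag hgood r r'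
  have h2 := congrFun (congrFun (tree_out hz L V hXi) r) r'
  rw [Matrix.submatrix_apply] at h2
  rw [h2]
  exact h1

end Crest.Agent.R166.TreeE2263
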