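import Crest.Agent.R166.Rev_811

/-!
Row 166, section 30.4 (b) (helper269): the mean equation (H2), abstract form.

`Ω` = half-edges, `e : ι → Ω` uniform choices; `D` = capped deviation, `y` = (bounded holomorphic)
coordinate, `f e` = cut-off observable at the centre after the move.  The deterministic shape (SM):
on the admissible event (`A = ∅`)
`‖f e - a ∑_{i ∈ I} y (e i)‖ ≤ C (∑ D_i² + ∑_{i≠j} D_i D_j + σ + ∑ √cp0 (e i) + ∑_{i≠j} √cp2 (e i) (e j))`
implies `‖E f - a |I| E y‖ ≤ C (2 N² V + σ + 2 N² √κ) + B (N (p+q) + N² q)`.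
-/

set_option autoImplicit false

open Finset

namespace Crest.Agent.R166.MeanEq269

open Crest.Agent.R166.Rev811

variable {ι Ω : Type*} [Fintype ι] [DecidableEq ι] [Fintype Ω]

/-- complex average over all choices -/
noncomputable def avC (f : (ι → Ω) → ℂ) : ℂ := (∑ e, f e) / (Fintype.card (ι → Ω) : ℂ)

lemma avC_re (f : (ι → Ω) → ℂ) : (avC f).re = av fun e => (f e).re := by
  unfold avC av
  have : ((Fintype.card (ι → Ω) : ℝ) : ℂ) = (Fintype.card (ι → Ω) : ℂ) := by push_cast; rfl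
  rw [← this, Complex.div_ofReal_re, Complex.re_sum]

lemma avC_im (f : (ι → Ω) → ℂ) : (avC f).im = av fun e => (f e).im := by
  unfold avC av
  have : ((Fintype.card (ι → Ω) : ℝ) : ℂ) = (Fintype.card (ι → Ω) : ℂ) := by push_cast; rfl
  rw [← this, Complex.div_ofReal_im, Complex.im_sum]

lemma avC_sub (f g : (ι → Ω) → ℂ) : avC f - avC g = avC fun e => f e - g e := by
  unfold avC; rw [Finset.sum_sub_distrib, sub_div]

lemma avC_add (f g : (ι → Ω) → ℂ) : avC (fun e => f e + g e) = avC f + avC g := by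
  unfold avC; rw [Finset.sum_add_distrib, add_div]

lemma avC_const_mul (c : ℂ) (f : (ι → Ω) → ℂ) : avC (fun e => c * f e) = c * avC f := by
  unfold avC; rw [← Finset.mul_sum, mul_div_assoc]

lemma avC_sum {κ : Type*} (s : Finset κ) (f : κ → (ι → Ω) → ℂ) :
    avC (fun e => ∑ k ∈ s, f k e) = ∑ k ∈ s, avC (f k) := by
  unfold avC; rw [Finset.sum_comm, Finset.sum_div]

lemma norm_avC_le (f : (ι → Ω) → ℂ) : ‖avC f‖ ≤ av fun e => ‖f e‖ := by
  unfold avC av
  rw [norm_div, Complex.norm_natCast]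
  exact div_le_div_of_nonneg_right (norm_sum_le _ _) (Nat.cast_nonneg _)

/-- complex average of a function of one coordinate -/
lemma avC_coord [Nonempty Ω] (i : ι) (g : Ω → ℂ) : avC (fun e : ι → Ω => g (e i)) = avc g := by
  apply Complex.ext
  · rw [avC_re, avc_re]
    exact av_coord i fun x => (g x).re
  · rw [avC_im, avc_im]
    exact av_coord i fun x => (g x).im

/-- Jensen/Cauchy-Schwarz for `av1` -/
lemma av1_sq_le [Nonempty Ω] (g : Ω → ℝ) : av1 g ^ 2 ≤ av1 fun x => g x ^ 2 := by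
  unfold av1
  have hO : (0 : ℝ) < Fintype.card Ω := by exact_mod_cast Fintype.card_pos
  have h := sq_sum_le_card_mul_sum_sq (s := (Finset.univ : Finset Ω)) (f := g)
  rw [Finset.card_univ] at h
  rw [div_pow, div_le_div_iff₀ (by positivity) hO]
  calc (∑ x, g x) ^ 2 * (Fintype.card Ω : ℝ)
      ≤ ((Fintype.card Ω : ℝ) * ∑ x, g x ^ 2) * (Fintype.card Ω : ℝ) :=
        mul_le_mul_of_nonneg_right h hO.le
    _ = (∑ x, g x ^ 2) * (Fintype.card Ω : ℝ) ^ 2 := by ring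

lemma av1_sqrt_le [Nonempty Ω] (g : Ω → ℝ) (hg : ∀ x, 0 ≤ g x) :
    av1 (fun x => Real.sqrt (g x)) ≤ Real.sqrt (av1 g) := by
  apply Real.le_sqrt_of_sq_le
  refine (av1_sq_le _).trans (le_of_eq ?_)
  congr 1
  ext x
  exact Real.sq_sqrt (hg x)

lemma av1_le_const [Nonempty Ω] {g : Ω → ℝ} {c : ℝ} (h : ∀ x, g x ≤ c) : av1 g ≤ c := by
  have hO : (0 : ℝ) < Fintype.card Ω := by exact_mod_cast Fintype.card_pos
  unfold av1
  rw [div_le_iff₀ hO]
  refine (Finset.sum_le_card_nsmul _ _ c fun x _ => h x).trans (le_of_eq ?_)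
  rw [nsmul_eq_mul, Finset.card_univ, mul_comm]

variable {Bad : Ω → Prop} {Cp : Finset ι → (ι → Ω) → Ω → Prop} {Pr : Ω → Ω → Prop}

/-- **(H2), abstract form.** -/
theorem mean_eq [Nonempty Ω] {m : ℕ} {p q : ℝ} (H : Hyp (ι := ι) Bad Cp Pr m p q)
    {D : Ω → ℝ} (hD : ∀ x, 0 ≤ D x) {V : ℝ} (hV : av1 (fun x => D x ^ 2) ≤ V)
    {cp0 : Ω → ℝ} (hcp0 : ∀ x, 0 ≤ cp0 x) {κ : ℝ} (hκ0 : av1 cp0 ≤ κ)
    {cp2 : Ω → Ω → ℝ} (hcp2 : ∀ x x', 0 ≤ cp2 x x') (hκ2 : ∀ x, ¬ Bad x → av1 (cp2 x) ≤ κ)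
    {y : Ω → ℂ} {f : (ι → Ω) → ℂ} {a : ℂ} (I : Finset ι) {B : ℝ}
    (hB : ∀ e, ‖f e - a * ∑ i ∈ I, y (e i)‖ ≤ B) {C σ : ℝ} (hC : 0 ≤ C) (hσ : 0 ≤ σ)
    (hSM : ∀ e, Adm Bad Cp Pr ∅ e → ‖f e - a * ∑ i ∈ I, y (e i)‖ ≤
      C * (∑ i, D (e i) ^ 2 + ∑ i, ∑ j ∈ Finset.univ.erase i, D (e i) * D (e j) + σ
        + ∑ i, Real.sqrt (cp0 (e i))
        + ∑ i, ∑ j ∈ Finset.univ.erase i, Real.sqrt (cp2 (e i) (e j)))) :
    ‖avC f - a * (I.card : ℂ) * avc y‖ ≤
      C * (Fintype.card ι * V + (Fintype.card ι : ℝ) ^ 2 * V + σ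
        + Fintype.card ι * Real.sqrt κ + (Fintype.card ι : ℝ) ^ 2 * Real.sqrt κ)
      + B * (Fintype.card ι * (p + q) + (Fintype.card ι : ℝ) ^ 2 * q) := by
  classical
  set N : ℝ := (Fintype.card ι : ℝ) with hN
  have hV0 : 0 ≤ V := (av1_nonneg fun x => sq_nonneg _).trans hV
  have hB0 : 0 ≤ B := (norm_nonneg _).trans (hB fun _ => Classical.arbitrary Ω)
  -- rewrite the left-hand side
  have e1 : avC (fun e : ι → Ω => a * ∑ i ∈ I, y (e i)) = a * (I.card : ℂ) * avc y := by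
    rw [avC_const_mul, avC_sum]
    have : ∀ i ∈ I, avC (fun e : ι → Ω => y (e i)) = avc y := fun i _ => avC_coord i y
    rw [Finset.sum_congr rfl this, Finset.sum_const, nsmul_eq_mul]
    ring
  rw [← e1, avC_sub]
  refine (norm_avC_le _).trans ?_
  -- pointwise bound
  set R : (ι → Ω) → ℝ := fun e => ∑ i, D (e i) ^ 2
      + ∑ i, ∑ j ∈ Finset.univ.erase i, D (e i) * D (e j) + σ
      + ∑ i, Real.sqrt (cp0 (e i))
      + ∑ i, ∑ j ∈ Finset.univ.erase i,
          (if Bad (e i) then 0 else Real.sqrt (cp2 (e i) (e j))) with hR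
  have hpt : ∀ e, ‖f e - a * ∑ i ∈ I, y (e i)‖
      ≤ C * R e + B * (if ¬ Adm Bad Cp Pr ∅ e then 1 else 0) := by
    intro e
    by_cases hA : Adm Bad Cp Pr ∅ e
    · rw [if_neg (not_not.2 hA), mul_zero, add_zero]
      refine (hSM e hA).trans (le_of_eq ?_)
      congr 1
      rw [hR]
      simp only
      congr 1
      refine Finset.sum_congr rfl fun i _ => Finset.sum_congr rfl fun j _ => ?_
      have hnb : ¬ Bad (e i) := fun hb => hA.1 i (by simp) (Or.inl hb)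
      rw [if_neg hnb]
    · rw [if_pos hA, mul_one]
      have hR0 : 0 ≤ R e := by
        rw [hR]
        have t1 : 0 ≤ ∑ i, D (e i) ^ 2 := Finset.sum_nonneg fun i _ => sq_nonneg _
        have t2 : 0 ≤ ∑ i, ∑ j ∈ Finset.univ.erase i, D (e i) * D (e j) :=
          Finset.sum_nonneg fun i _ => Finset.sum_nonneg fun j _ => mul_nonneg (hD _) (hD _)
        have t3 : 0 ≤ ∑ i, Real.sqrt (cp0 (e i)) :=
          Finset.sum_nonneg fun i _ => Real.sqrt_nonneg _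
        have t4 : 0 ≤ ∑ i, ∑ j ∈ Finset.univ.erase i,
          (if Bad (e i) then 0 else Real.sqrt (cp2 (e i) (e j))) :=
          Finset.sum_nonneg fun i _ => Finset.sum_nonneg fun j _ => by
            split_ifs
            · exact le_rfl
            · exact Real.sqrt_nonneg _
        simp only
        linarith
      have := hB e
      have h2 : 0 ≤ C * R e := mul_nonneg hC hR0
      linarith
  refine (av_mono hpt).trans ?_
  rw [av_add, av_const_mul, av_const_mul]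
  have hpr : av (fun e : ι → Ω => if ¬ Adm Bad Cp Pr ∅ e then (1 : ℝ) else 0)
      ≤ N * (p + q) + N ^ 2 * q := by
    refine le_trans (le_of_eq ?_) (pr_not_adm_zero H)
    unfold pr
    congr 1
    ext e
    by_cases h : Adm Bad Cp Pr ∅ e <;> simp [h]
  -- expectation of `R`
  have hcardN : ∀ i : ι, ((Finset.univ.erase i : Finset ι).card : ℝ) ≤ N := by
    intro i
    rw [hN]
    exact_mod_cast Finset.card_le_univ _
  have r1 : av (fun e : ι → Ω => ∑ i, D (e i) ^ 2) ≤ N * V := by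
    rw [av_sum, Finset.sum_congr rfl fun i _ => av_coord i (fun x => D x ^ 2), Finset.sum_const,
      nsmul_eq_mul, Finset.card_univ, ← hN]
    exact mul_le_mul_of_nonneg_left hV (Nat.cast_nonneg _)
  have hpairs : ∀ (g : ι → ι → (ι → Ω) → ℝ) (c : ℝ), 0 ≤ c →
      (∀ i j, i ≠ j → av (g i j) ≤ c) →
      av (fun e => ∑ i, ∑ j ∈ Finset.univ.erase i, g i j e) ≤ N ^ 2 * c := by
    intro g c hc hg
    rw [av_sum]
    have h1 : ∀ i : ι, av (fun e => ∑ j ∈ Finset.univ.erase i, g i j e) ≤ N * c := by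
      intro i
      rw [av_sum]
      refine (Finset.sum_le_card_nsmul _ _ c fun j hj =>
        hg i j (Finset.ne_of_mem_erase hj).symm).trans ?_
      rw [nsmul_eq_mul]
      exact mul_le_mul_of_nonneg_right (hcardN i) hc
    refine (Finset.sum_le_card_nsmul _ _ (N * c) fun i _ => h1 i).trans (le_of_eq ?_)
    rw [nsmul_eq_mul, Finset.card_univ, ← hN]
    ring
  have r2 : av (fun e : ι → Ω => ∑ i, ∑ j ∈ Finset.univ.erase i, D (e i) * D (e j))
      ≤ N ^ 2 * V := by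
    refine hpairs (fun i j e => D (e i) * D (e j)) V hV0 fun i j hij => ?_
    rw [av_coord_mul hij]
    calc av1 D * av1 D = av1 D ^ 2 := by ring
      _ ≤ av1 fun x => D x ^ 2 := av1_sq_le D
      _ ≤ V := hV
  have r3 : av (fun e : ι → Ω => ∑ i, Real.sqrt (cp0 (e i))) ≤ N * Real.sqrt κ := by
    rw [av_sum, Finset.sum_congr rfl fun i _ => av_coord i (fun x => Real.sqrt (cp0 x)),
      Finset.sum_const, nsmul_eq_mul, Finset.card_univ, ← hN]
    exact mul_le_mul_of_nonneg_left ((av1_sqrt_le cp0 hcp0).trans (Real.sqrt_le_sqrt hκ0))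
      (Nat.cast_nonneg _)
  have r4 : av (fun e : ι → Ω => ∑ i, ∑ j ∈ Finset.univ.erase i,
      (if Bad (e i) then 0 else Real.sqrt (cp2 (e i) (e j)))) ≤ N ^ 2 * Real.sqrt κ := by
    refine hpairs (fun i j e => if Bad (e i) then 0 else Real.sqrt (cp2 (e i) (e j)))
      (Real.sqrt κ) (Real.sqrt_nonneg _) fun i j hij => ?_
    have h1 := av_mul_le (Ω := Ω) j (fun _ : ι → Ω => (1 : ℝ))
      (fun e => if Bad (e i) then 0 else Real.sqrt (cp2 (e i) (e j))) (Real.sqrt κ)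
      (fun _ => zero_le_one) (fun _ _ => rfl) (by
        intro e
        have h2 : (fun x : Ω => (if Bad (Function.update e j x i) then (0 : ℝ) else
            Real.sqrt (cp2 (Function.update e j x i) (Function.update e j x j)))) =
            fun x => if Bad (e i) then 0 else Real.sqrt (cp2 (e i) x) := by
          ext x
          rw [Function.update_of_ne hij, Function.update_self]
        rw [h2]
        by_cases hb : Bad (e i)
        · simp only [hb, if_true]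
          rw [av1_zero]
          exact Real.sqrt_nonneg _
        · simp only [hb, if_false]
          exact (av1_sqrt_le _ (hcp2 _)).trans (Real.sqrt_le_sqrt (hκ2 _ hb)))
    simpa [av_const] using h1
  have hRav : av R ≤ N * V + N ^ 2 * V + σ + N * Real.sqrt κ + N ^ 2 * Real.sqrt κ := by
    have hRe : av R = av (fun e : ι → Ω => ∑ i, D (e i) ^ 2)
        + av (fun e : ι → Ω => ∑ i, ∑ j ∈ Finset.univ.erase i, D (e i) * D (e j)) + σ
        + av (fun e : ι → Ω => ∑ i, Real.sqrt (cp0 (e i)))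
        + av (fun e : ι → Ω => ∑ i, ∑ j ∈ Finset.univ.erase i,
          (if Bad (e i) then 0 else Real.sqrt (cp2 (e i) (e j)))) := by
      rw [hR, av_add, av_add, av_add, av_add, av_const]
    rw [hRe]
    linarith
  exact add_le_add (mul_le_mul_of_nonneg_left hRav hC) (mul_le_mul_of_nonneg_left hpr hB0)

/-- the same in the compact form `≤ C' (V + σ + √κ)`, with `p ≤ cp V`, `q ≤ cq κ`, `κ ≤ 1` -/
theorem mean_eq' [Nonempty Ω] {m : ℕ} {p q : ℝ} (H : Hyp (ι := ι) Bad Cp Pr m p q)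
    {D : Ω → ℝ} (hD : ∀ x, 0 ≤ D x) {V : ℝ} (hV : av1 (fun x => D x ^ 2) ≤ V)
    {cp0 : Ω → ℝ} (hcp0 : ∀ x, 0 ≤ cp0 x) {κ c0 cb cq : ℝ} (hκ : 0 ≤ κ) (hκ1 : κ ≤ 1)
    (hc0 : 0 ≤ c0) (hcb : p ≤ cb * V) (hcq : q ≤ cq * κ) (hcq0 : 0 ≤ cq) (hcb0 : 0 ≤ cb)
    (hκ0 : av1 cp0 ≤ c0 * κ)
    {cp2 : Ω → Ω → ℝ} (hcp2 : ∀ x x', 0 ≤ cp2 x x') (hκ2 : ∀ x, ¬ Bad x → av1 (cp2 x) ≤ c0 * κ)
    {y : Ω → ℂ} {f : (ι → Ω) → ℂ} {a : ℂ} (I : Finset ι) {B : ℝ}
    (hB : ∀ e, ‖f e - a * ∑ i ∈ I, y (e i)‖ ≤ B) {C σ : ℝ} (hC : 0 ≤ C) (hσ : 0 ≤ σ)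
    (hSM : ∀ e, Adm Bad Cp Pr ∅ e → ‖f e - a * ∑ i ∈ I, y (e i)‖ ≤
      C * (∑ i, D (e i) ^ 2 + ∑ i, ∑ j ∈ Finset.univ.erase i, D (e i) * D (e j) + σ
        + ∑ i, Real.sqrt (cp0 (e i))
        + ∑ i, ∑ j ∈ Finset.univ.erase i, Real.sqrt (cp2 (e i) (e j)))) :
    ‖avC f - a * (I.card : ℂ) * avc y‖ ≤
      (2 * (Fintype.card ι : ℝ) ^ 2 * (C * (1 + Real.sqrt c0) + B * (cb + cq)) + C)
        * (V + σ + Real.sqrt κ) := by
  have h := mean_eq H hD hV hcp0 hκ0 hcp2 hκ2 I hB hC hσ hSM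
  refine h.trans ?_
  set N : ℝ := (Fintype.card ι : ℝ) with hN
  have hV0 : 0 ≤ V := (av1_nonneg fun x => sq_nonneg _).trans hV
  have hB0 : 0 ≤ B := (norm_nonneg _).trans (hB fun _ => Classical.arbitrary Ω)
  have hsκ : Real.sqrt (c0 * κ) = Real.sqrt c0 * Real.sqrt κ := Real.sqrt_mul hc0 κ
  have hκs : κ ≤ Real.sqrt κ := by
    apply Real.le_sqrt_of_sq_le
    nlinarith
  have hs0 : 0 ≤ Real.sqrt c0 := Real.sqrt_nonneg _
  have hsk0 : 0 ≤ Real.sqrt κ := Real.sqrt_nonneg _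
  rw [hsκ]
  have hNN : N ≤ N ^ 2 := by
    rcases Nat.eq_zero_or_pos (Fintype.card ι) with h0 | h0
    · rw [hN, h0]; simp
    · have : 1 ≤ N := by rw [hN]; exact_mod_cast h0
      nlinarith
  have hN0 : 0 ≤ N := Nat.cast_nonneg _
  have hp : p + q ≤ cb * V + cq * Real.sqrt κ :=
    add_le_add hcb (hcq.trans (mul_le_mul_of_nonneg_left hκs hcq0))
  have hq : q ≤ cq * Real.sqrt κ := hcq.trans (mul_le_mul_of_nonneg_left hκs hcq0)
  have hx0 : 0 ≤ cb * V + cq * Real.sqrt κ := by positivity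
  have t1 : N * V ≤ N ^ 2 * V := mul_le_mul_of_nonneg_right hNN hV0
  have t2 : N * (Real.sqrt c0 * Real.sqrt κ) ≤ N ^ 2 * (Real.sqrt c0 * Real.sqrt κ) :=
    mul_le_mul_of_nonneg_right hNN (by positivity)
  have t3 : N * (p + q) ≤ N ^ 2 * (cb * V + cq * Real.sqrt κ) :=
    (mul_le_mul_of_nonneg_left hp hN0).trans (mul_le_mul_of_nonneg_right hNN hx0)
  have t4 : N ^ 2 * q ≤ N ^ 2 * (cb * V + cq * Real.sqrt κ) := by
    refine mul_le_mul_of_nonneg_left (hq.trans ?_) (sq_nonneg _)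
    have : 0 ≤ cb * V := mul_nonneg hcb0 hV0
    linarith
  have u1 : C * (N * V + N ^ 2 * V + σ + N * (Real.sqrt c0 * Real.sqrt κ)
      + N ^ 2 * (Real.sqrt c0 * Real.sqrt κ))
      ≤ C * (2 * N ^ 2 * (V + Real.sqrt c0 * Real.sqrt κ) + σ) := by
    refine mul_le_mul_of_nonneg_left ?_ hC
    nlinarith
  have u2 : B * (N * (p + q) + N ^ 2 * q) ≤ B * (2 * N ^ 2 * (cb * V + cq * Real.sqrt κ)) := by
    refine mul_le_mul_of_nonneg_left ?_ hB0
    nlinarith
  refine (add_le_add u1 u2).trans ?_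
  have hN2 : 0 ≤ 2 * N ^ 2 := by positivity
  have v1 : C * (2 * N ^ 2 * (V + Real.sqrt c0 * Real.sqrt κ))
      ≤ 2 * N ^ 2 * (C * (1 + Real.sqrt c0)) * (V + σ + Real.sqrt κ) := by
    have : V + Real.sqrt c0 * Real.sqrt κ ≤ (1 + Real.sqrt c0) * (V + σ + Real.sqrt κ) := by
      nlinarith [mul_nonneg hs0 hV0, mul_nonneg hs0 hσ, mul_nonneg hs0 hsk0]
    calc C * (2 * N ^ 2 * (V + Real.sqrt c0 * Real.sqrt κ))
        = (2 * N ^ 2 * C) * (V + Real.sqrt c0 * Real.sqrt κ) := by ring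
      _ ≤ (2 * N ^ 2 * C) * ((1 + Real.sqrt c0) * (V + σ + Real.sqrt κ)) :=
          mul_le_mul_of_nonneg_left this (by positivity)
      _ = _ := by ring
  have v2 : B * (2 * N ^ 2 * (cb * V + cq * Real.sqrt κ))
      ≤ 2 * N ^ 2 * (B * (cb + cq)) * (V + σ + Real.sqrt κ) := by
    have : cb * V + cq * Real.sqrt κ ≤ (cb + cq) * (V + σ + Real.sqrt κ) := by
      nlinarith [mul_nonneg hcb0 hσ, mul_nonneg hcb0 hsk0, mul_nonneg hcq0 hV0,
        mul_nonneg hcq0 hσ]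
    calc B * (2 * N ^ 2 * (cb * V + cq * Real.sqrt κ))
        = (2 * N ^ 2 * B) * (cb * V + cq * Real.sqrt κ) := by ring
      _ ≤ (2 * N ^ 2 * B) * ((cb + cq) * (V + σ + Real.sqrt κ)) :=
          mul_le_mul_of_nonneg_left this (by positivity)
      _ = _ := by ring
  have v3 : C * σ ≤ C * (V + σ + Real.sqrt κ) :=
    mul_le_mul_of_nonneg_left (by linarith) hC
  nlinarith

end Crest.Agent.R166.MeanEq269
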