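import Crest.Agent.R166.H4_269
import Crest.Agent.R166.MeanEq_269

/-!
Row 166, section 30.4 (helper269): averaging over the centre of the move; lazy (invalid) moves and
non-tree-like centres.

`gAvg_eq`, `gmub_eq`: the one-step conditional mean is the average over the centre `h0` of the
average over the choices `b : BI d L → HE n d`.
`glue_real`, `glue_complex`: bounds valid for every tree-like centre (with arbitrary values at the
invalid choices) imply bounds of the one-step mean, up to `#nonTL/(nd)` and the fraction of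
invalid choices.
-/

set_option autoImplicit false

open Finset

namespace Crest.Agent.R166.Glue269

open Crest.Agent.R166 Stab269 Sec269 SwP470 Rev811 MeanEq269

variable {n d : ℕ} [NeZero d] {L : ℕ}

open Classical in
/-- number of centres whose ball is not a tree -/
noncomputable def nonTL (L : ℕ) (p : Equiv.Perm (HE n d)) : ℕ :=
  (Finset.univ.filter fun h0 : HE n d => ¬ TL L p h0).card

/-- real one-step mean as an average over the centre -/
theorem gAvg_eq (F : Equiv.Perm (HE n d) → HE n d → ℝ) (p : Equiv.Perm (HE n d)) :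
    gAvg (Finset.univ : Finset (HE n d × (BI d L → HE n d))) Prod.fst (bsw L) F p
      = av1 (fun h0 : HE n d => av (fun b : BI d L → HE n d => F (bsw L p (h0, b)).1 h0)) := by
  unfold gAvg av1 av
  rw [Finset.card_univ, Fintype.card_prod, ← Finset.univ_product_univ, Finset.sum_product,
    ← Finset.sum_div, div_div]
  push_cast
  rw [mul_comm (Fintype.card (HE n d) : ℝ)]

theorem avCC_eq (F : Equiv.Perm (HE n d) → HE n d → ℂ) (p : Equiv.Perm (HE n d)) :
    (∑ mv : HE n d × (BI d L → HE n d), F (bsw L p mv).1 mv.1) /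
        ((Finset.univ : Finset (HE n d × (BI d L → HE n d))).card : ℂ)
      = avc (fun h0 : HE n d => avC (fun b : BI d L → HE n d => F (bsw L p (h0, b)).1 h0)) := by
  unfold avc avC
  rw [Finset.card_univ, Fintype.card_prod, ← Finset.univ_product_univ, Finset.sum_product,
    ← Finset.sum_div, div_div]
  push_cast
  rw [mul_comm (Fintype.card (HE n d) : ℂ)]

lemma av1_ite_le {Ω : Type*} [Fintype Ω] [Nonempty Ω] (P : Ω → Prop) [DecidablePred P]
    {f : Ω → ℝ} {X B : ℝ} (hX : 0 ≤ X) (hB : 0 ≤ B)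
    (h1 : ∀ x, ¬ P x → f x ≤ X) (h2 : ∀ x, P x → f x ≤ X + B) :
    av1 f ≤ X + B * (((Finset.univ.filter P).card : ℝ) / Fintype.card Ω) := by
  have hO : (0 : ℝ) < Fintype.card Ω := by exact_mod_cast Fintype.card_pos
  have h3 : ∀ x, f x ≤ X + B * (if P x then 1 else 0) := by
    intro x
    by_cases hx : P x
    · rw [if_pos hx, mul_one]; exact h2 x hx
    · rw [if_neg hx, mul_zero, add_zero]; exact h1 x hx
  refine (av1_mono h3).trans (le_of_eq ?_)
  rw [av1_add, av1_const_mul]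
  have h4 : av1 (fun _ : Ω => X) = X := by
    unfold av1
    rw [Finset.sum_const, Finset.card_univ, nsmul_eq_mul]
    field_simp
  have h5 : av1 (fun x : Ω => if P x then (1 : ℝ) else 0)
      = ((Finset.univ.filter P).card : ℝ) / Fintype.card Ω := by
    unfold av1
    congr 1
    rw [Finset.card_filter]
    push_cast
    rfl
  rw [h4, h5]

lemma av_ite_eq_pr {ι Ω : Type*} [Fintype ι] [DecidableEq ι] [Fintype Ω] (P : (ι → Ω) → Prop)
    [DecidablePred P] : av (fun e => if P e then (1 : ℝ) else 0) = pr P := by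
  unfold pr
  congr 1
  ext e
  by_cases h : P e <;> simp [h]

open Classical in
/-- **glue, real version** -/
theorem glue_real (hn : 0 < n) {F : Equiv.Perm (HE n d) → HE n d → ℝ}
    {p : Equiv.Perm (HE n d)} (hF1 : ∀ p' h, F p' h ≤ 1) (hF0 : ∀ p' h, 0 ≤ F p' h)
    {X cI : ℝ} (hX : 0 ≤ X) (hcI : 0 ≤ cI)
    (hinv : ∀ h0, TL L p h0 → pr (fun b : BI d L → HE n d => ¬ BVal L p h0 b) ≤ cI)
    (hgood : ∀ h0, TL L p h0 →
      av (fun b : BI d L → HE n d => if BVal L p h0 b then F (np p h0 b) h0 else 0) ≤ X) :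
    gAvg (Finset.univ : Finset (HE n d × (BI d L → HE n d))) Prod.fst (bsw L) F p
      ≤ X + cI + (nonTL L p : ℝ) / (n * d) := by
  have hne : Nonempty (HE n d) := ⟨(⟨0, hn⟩, ⟨0, Nat.pos_of_ne_zero (NeZero.ne d)⟩)⟩
  rw [gAvg_eq]
  have h1 : ∀ h0 : HE n d, ¬ ¬ TL L p h0 →
      av (fun b : BI d L → HE n d => F (bsw L p (h0, b)).1 h0) ≤ X + cI := by
    intro h0 hT
    rw [not_not] at hT
    have hpt : ∀ b : BI d L → HE n d, F (bsw L p (h0, b)).1 h0 ≤
        (if BVal L p h0 b then F (np p h0 b) h0 else 0)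
          + (if ¬ BVal L p h0 b then (1 : ℝ) else 0) := by
      intro b
      by_cases hb : BVal L p h0 b
      · rw [bsw_pos (m := (h0, b)) hb, if_pos hb, if_neg (not_not.2 hb), add_zero]
      · rw [if_neg hb, if_pos hb, zero_add]
        exact hF1 _ _
    refine (av_mono hpt).trans ?_
    rw [av_add, av_ite_eq_pr (fun b : BI d L → HE n d => ¬ BVal L p h0 b)]
    exact add_le_add (hgood h0 hT) (hinv h0 hT)
  have h2 : ∀ h0 : HE n d, ¬ TL L p h0 →
      av (fun b : BI d L → HE n d => F (bsw L p (h0, b)).1 h0) ≤ (X + cI) + 1 := by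
    intro h0 _
    have : av (fun b : BI d L → HE n d => F (bsw L p (h0, b)).1 h0) ≤ 1 := by
      refine (av_mono fun b => hF1 _ _).trans (le_of_eq ?_)
      exact av_const 1
    linarith
  have h3 := av1_ite_le (fun h0 : HE n d => ¬ TL L p h0) (add_nonneg hX hcI) zero_le_one h1 h2
  refine h3.trans (le_of_eq ?_)
  rw [one_mul]
  unfold nonTL
  rw [IsPort.card_HE]
  push_cast
  congr!

lemma norm_avc_sub_le {Ω : Type*} [Fintype Ω] [Nonempty Ω] (g : Ω → ℂ) (T : ℂ) :
    ‖avc g - T‖ ≤ av1 fun x => ‖g x - T‖ := by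
  have hO : (Fintype.card Ω : ℂ) ≠ 0 := by
    exact_mod_cast Fintype.card_pos.ne'
  have h1 : avc g - T = (∑ x, (g x - T)) / (Fintype.card Ω : ℂ) := by
    unfold avc
    rw [Finset.sum_sub_distrib, Finset.sum_const, Finset.card_univ, nsmul_eq_mul, sub_div]
    field_simp
  rw [h1, norm_div, Complex.norm_natCast]
  unfold av1
  exact div_le_div_of_nonneg_right (norm_sum_le _ _) (Nat.cast_nonneg _)

open Classical in
/-- **glue, complex version**: `G h0 b` arbitrary values at the invalid choices -/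
theorem glue_complex (hn : 0 < n) {F : Equiv.Perm (HE n d) → HE n d → ℂ}
    {p : Equiv.Perm (HE n d)} {B : ℝ} (hB : 0 ≤ B) (hF : ∀ p' h, ‖F p' h‖ ≤ B)
    {G : HE n d → (BI d L → HE n d) → ℂ} (hG : ∀ h0 b, ‖G h0 b‖ ≤ B) {T : ℂ} (hT : ‖T‖ ≤ B)
    {X cI : ℝ} (hX : 0 ≤ X) (hcI : 0 ≤ cI)
    (hinv : ∀ h0, TL L p h0 → pr (fun b : BI d L → HE n d => ¬ BVal L p h0 b) ≤ cI)
    (hgood : ∀ h0, TL L p h0 →
      ‖avC (fun b : BI d L → HE n d => if BVal L p h0 b then F (np p h0 b) h0 else G h0 b) - T‖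
        ≤ X) :
    ‖(∑ mv : HE n d × (BI d L → HE n d), F (bsw L p mv).1 mv.1) /
        ((Finset.univ : Finset (HE n d × (BI d L → HE n d))).card : ℂ) - T‖
      ≤ X + 2 * B * cI + 2 * B * ((nonTL L p : ℝ) / (n * d)) := by
  have hne : Nonempty (HE n d) := ⟨(⟨0, hn⟩, ⟨0, Nat.pos_of_ne_zero (NeZero.ne d)⟩)⟩
  rw [avCC_eq]
  refine (norm_avc_sub_le _ _).trans ?_
  have h1 : ∀ h0 : HE n d, ¬ ¬ TL L p h0 →
      ‖avC (fun b : BI d L → HE n d => F (bsw L p (h0, b)).1 h0) - T‖ ≤ X + 2 * B * cI := by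
    intro h0 hTL
    rw [not_not] at hTL
    have e1 : avC (fun b : BI d L → HE n d => F (bsw L p (h0, b)).1 h0) - T
        = (avC (fun b : BI d L → HE n d => F (bsw L p (h0, b)).1 h0)
            - avC (fun b : BI d L → HE n d => if BVal L p h0 b then F (np p h0 b) h0 else G h0 b))
          + (avC (fun b : BI d L → HE n d => if BVal L p h0 b then F (np p h0 b) h0 else G h0 b)
            - T) := by ring
    rw [e1]
    refine (norm_add_le _ _).trans ?_
    rw [avC_sub]
    have h2 : ‖avC (fun b : BI d L → HE n d => F (bsw L p (h0, b)).1 h0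
        - (if BVal L p h0 b then F (np p h0 b) h0 else G h0 b))‖ ≤ 2 * B * cI := by
      refine (norm_avC_le _).trans ?_
      have hpt : ∀ b : BI d L → HE n d, ‖F (bsw L p (h0, b)).1 h0
          - (if BVal L p h0 b then F (np p h0 b) h0 else G h0 b)‖
          ≤ 2 * B * (if ¬ BVal L p h0 b then (1 : ℝ) else 0) := by
        intro b
        by_cases hb : BVal L p h0 b
        · rw [bsw_pos (m := (h0, b)) hb, if_pos hb, if_neg (not_not.2 hb), mul_zero, sub_self,
            norm_zero]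
        · rw [if_neg hb, if_pos hb, mul_one]
          refine (norm_sub_le _ _).trans ?_
          have := hF (bsw L p (h0, b)).1 h0
          have := hG h0 b
          linarith
      refine (av_mono hpt).trans ?_
      rw [av_const_mul, av_ite_eq_pr (fun b : BI d L → HE n d => ¬ BVal L p h0 b)]
      exact mul_le_mul_of_nonneg_left (hinv h0 hTL) (by positivity)
    have h3 := hgood h0 hTL
    linarith
  have h2 : ∀ h0 : HE n d, ¬ TL L p h0 →
      ‖avC (fun b : BI d L → HE n d => F (bsw L p (h0, b)).1 h0) - T‖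
        ≤ (X + 2 * B * cI) + 2 * B := by
    intro h0 _
    have h4 : ‖avC (fun b : BI d L → HE n d => F (bsw L p (h0, b)).1 h0)‖ ≤ B := by
      refine (norm_avC_le _).trans ((av_mono fun b => hF _ _).trans (le_of_eq ?_))
      exact av_const B
    have h5 := norm_sub_le (avC (fun b : BI d L → HE n d => F (bsw L p (h0, b)).1 h0)) T
    have h6 : 0 ≤ 2 * B * cI := by positivity
    linarith
  have h3 := av1_ite_le (fun h0 : HE n d => ¬ TL L p h0) (by positivity : 0 ≤ X + 2 * B * cI)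
    (by positivity : 0 ≤ 2 * B) h1 h2
  refine h3.trans (le_of_eq ?_)
  unfold nonTL
  rw [IsPort.card_HE]
  push_cast
  congr!

open Classical in
/-- glue for `gV` of `H4` -/
theorem glue_gV (hn : 0 < n) {rs s : ℝ} (hrs : 0 ≤ rs) (hrs1 : rs ≤ 1) {ω : Fin n → ℝ} {z : ℂ}
    {p : Equiv.Perm (HE n d)}
    {X cI : ℝ} (hX : 0 ≤ X) (hcI : 0 ≤ cI)
    (hinv : ∀ h0, TL L p h0 → pr (fun b : BI d L → HE n d => ¬ BVal L p h0 b) ≤ cI)
    (hgood : ∀ h0, TL L p h0 →
      av (fun b : BI d L → HE n d => if BVal L p h0 b then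
        SpecA.Dv rs (np p h0 b) s ω z h0 ^ 2 else 0) ≤ X) :
    H4.gV L rs s ω z p ≤ X + cI + (nonTL L p : ℝ) / (n * d) := by
  refine glue_real (F := fun p' h => SpecA.Dv rs p' s ω z h ^ 2) hn ?_ ?_ hX hcI hinv hgood
  · intro p' h
    have h0 : 0 ≤ SpecA.Dv rs p' s ω z h := by rw [H4.Dv_eq]; exact DvA_nonneg hrs _ _
    have h1 : SpecA.Dv rs p' s ω z h ≤ 1 := by
      rw [H4.Dv_eq]; exact (DvA_le _ _ _).trans hrs1
    nlinarith
  · intro p' h
    positivity

open Classical in
/-- glue for `gm` of `H4` -/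
theorem glue_gm (hn : 0 < n) {rs s : ℝ} (hrs : 0 < rs) {ω : Fin n → ℝ} {z : ℂ}
    {p : Equiv.Perm (HE n d)} {B : ℝ} (hB : rs ≤ B)
    {G : HE n d → (BI d L → HE n d) → ℂ} (hG : ∀ h0 b, ‖G h0 b‖ ≤ B) {T : ℂ} (hT : ‖T‖ ≤ B)
    {X cI : ℝ} (hX : 0 ≤ X) (hcI : 0 ≤ cI)
    (hinv : ∀ h0, TL L p h0 → pr (fun b : BI d L → HE n d => ¬ BVal L p h0 b) ≤ cI)
    (hgood : ∀ h0, TL L p h0 →
      ‖avC (fun b : BI d L → HE n d => if BVal L p h0 b then
        muA (rs / 2) (mc d z) (B0 (np p h0 b) s ω z h0) else G h0 b) - T‖ ≤ X) :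
    ‖H4.gm L rs s ω z p - T‖ ≤ X + 2 * B * cI + 2 * B * ((nonTL L p : ℝ) / (n * d)) := by
  refine glue_complex (F := fun p' h => muA (rs / 2) (mc d z) (B0 p' s ω z h)) hn
    (hrs.le.trans hB) ?_ hG hT hX hcI hinv hgood
  intro p' h
  refine (muA_le (by positivity) _ _).trans ?_
  linarith

end Crest.Agent.R166.Glue269
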