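import Crest.Agent.R166.MeanEq_269

/-!
Row 166, section 30.4 (helper269): crude second moment of the output deviation.

If on the admissible event `Dt e ≤ C (∑ D_i + σ + ∑ √cp0 + ∑_{i≠j} √cp2)` then
`E Dt² ≤ C' (V + σ² + κ)`.
-/

set_option autoImplicit false

open Finset

namespace Crest.Agent.R166.MeanEq269

open Crest.Agent.R166.Rev811

variable {ι Ω : Type*} [Fintype ι] [DecidableEq ι] [Fintype Ω]
variable {Bad : Ω → Prop} {Cp : Finset ι → (ι → Ω) → Ω → Prop} {Pr : Ω → Ω → Prop}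

lemma sq_sum_univ_le (f : ι → ℝ) : (∑ i, f i) ^ 2 ≤ (Fintype.card ι : ℝ) * ∑ i, f i ^ 2 := by
  have := sq_sum_le_card_mul_sum_sq (s := (Finset.univ : Finset ι)) (f := f)
  rwa [Finset.card_univ] at this

lemma sq_sum_sum_le (f : ι → ι → ℝ) :
    (∑ i, ∑ j ∈ Finset.univ.erase i, f i j) ^ 2
      ≤ (Fintype.card ι : ℝ) ^ 2 * ∑ i, ∑ j ∈ Finset.univ.erase i, f i j ^ 2 := by
  refine (sq_sum_univ_le _).trans ?_
  rw [sq, mul_assoc]
  refine mul_le_mul_of_nonneg_left ?_ (Nat.cast_nonneg _)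
  rw [Finset.mul_sum]
  refine Finset.sum_le_sum fun i _ => ?_
  refine (sq_sum_le_card_mul_sum_sq (s := (Finset.univ.erase i : Finset ι))
    (f := fun j => f i j)).trans ?_
  refine mul_le_mul_of_nonneg_right ?_ (Finset.sum_nonneg fun j _ => sq_nonneg _)
  exact_mod_cast Finset.card_le_univ _

/-- **crude second moment** -/
theorem mean_sq [Nonempty Ω] {m : ℕ} {p q : ℝ} (H : Hyp (ι := ι) Bad Cp Pr m p q)
    {D : Ω → ℝ} {V : ℝ} (hV : av1 (fun x => D x ^ 2) ≤ V)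
    {cp0 : Ω → ℝ} (hcp0 : ∀ x, 0 ≤ cp0 x) {κ : ℝ} (hκ0 : av1 cp0 ≤ κ)
    {cp2 : Ω → Ω → ℝ} (hcp2 : ∀ x x', 0 ≤ cp2 x x') (hκ2 : ∀ x, ¬ Bad x → av1 (cp2 x) ≤ κ)
    {Dt : (ι → Ω) → ℝ} (hDt0 : ∀ e, 0 ≤ Dt e) (hDt1 : ∀ e, Dt e ≤ 1) {C σ : ℝ} (hC : 0 ≤ C)
    (hS : ∀ e, Adm Bad Cp Pr ∅ e → Dt e ≤
      C * (∑ i, D (e i) + σ + ∑ i, Real.sqrt (cp0 (e i))
        + ∑ i, ∑ j ∈ Finset.univ.erase i, Real.sqrt (cp2 (e i) (e j)))) :
    av (fun e => Dt e ^ 2) ≤
      4 * C ^ 2 * ((Fintype.card ι : ℝ) ^ 2 * V + σ ^ 2 + (Fintype.card ι : ℝ) ^ 2 * κ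
        + (Fintype.card ι : ℝ) ^ 4 * κ)
      + (Fintype.card ι * (p + q) + (Fintype.card ι : ℝ) ^ 2 * q) := by
  classical
  set N : ℝ := (Fintype.card ι : ℝ) with hN
  have hN0 : 0 ≤ N := Nat.cast_nonneg _
  have hV0 : 0 ≤ V := (av1_nonneg fun x => sq_nonneg _).trans hV
  have hκn : 0 ≤ κ := (av1_nonneg hcp0).trans hκ0
  set R : (ι → Ω) → ℝ := fun e => N * ∑ i, D (e i) ^ 2 + σ ^ 2 + N * ∑ i, cp0 (e i)
      + N ^ 2 * ∑ i, ∑ j ∈ Finset.univ.erase i, (if Bad (e i) then 0 else cp2 (e i) (e j)) with hR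
  have hR0 : ∀ e, 0 ≤ R e := by
    intro e
    rw [hR]
    have t1 : 0 ≤ ∑ i, D (e i) ^ 2 := Finset.sum_nonneg fun i _ => sq_nonneg _
    have t3 : 0 ≤ ∑ i, cp0 (e i) := Finset.sum_nonneg fun i _ => hcp0 _
    have t4 : 0 ≤ ∑ i, ∑ j ∈ Finset.univ.erase i, (if Bad (e i) then 0 else cp2 (e i) (e j)) :=
      Finset.sum_nonneg fun i _ => Finset.sum_nonneg fun j _ => by
        split_ifs
        · exact le_rfl
        · exact hcp2 _ _
    simp only
    positivity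
  have hpt : ∀ e, Dt e ^ 2 ≤ 4 * C ^ 2 * R e + (if ¬ Adm Bad Cp Pr ∅ e then 1 else 0) := by
    intro e
    by_cases hA : Adm Bad Cp Pr ∅ e
    · rw [if_neg (not_not.2 hA), add_zero]
      have h1 := hS e hA
      have h2 : Dt e ^ 2 ≤ (C * (∑ i, D (e i) + σ + ∑ i, Real.sqrt (cp0 (e i))
          + ∑ i, ∑ j ∈ Finset.univ.erase i, Real.sqrt (cp2 (e i) (e j)))) ^ 2 :=
        pow_le_pow_left₀ (hDt0 e) h1 2
      refine h2.trans ?_
      rw [mul_pow]
      have key : ∀ a b c d : ℝ, (a + b + c + d) ^ 2 ≤ 4 * (a ^ 2 + b ^ 2 + c ^ 2 + d ^ 2) := by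
        intro a b c d
        nlinarith [sq_nonneg (a - b), sq_nonneg (a - c), sq_nonneg (a - d), sq_nonneg (b - c),
          sq_nonneg (b - d), sq_nonneg (c - d)]
      have h3 := key (∑ i, D (e i)) σ (∑ i, Real.sqrt (cp0 (e i)))
        (∑ i, ∑ j ∈ Finset.univ.erase i, Real.sqrt (cp2 (e i) (e j)))
      have g1 := sq_sum_univ_le fun i => D (e i)
      have g2 := sq_sum_univ_le fun i => Real.sqrt (cp0 (e i))
      have g3 := sq_sum_sum_le fun i j => Real.sqrt (cp2 (e i) (e j))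
      have g2' : ∑ i, Real.sqrt (cp0 (e i)) ^ 2 = ∑ i, cp0 (e i) :=
        Finset.sum_congr rfl fun i _ => Real.sq_sqrt (hcp0 _)
      have g3' : ∑ i, ∑ j ∈ Finset.univ.erase i, Real.sqrt (cp2 (e i) (e j)) ^ 2
          = ∑ i, ∑ j ∈ Finset.univ.erase i, (if Bad (e i) then 0 else cp2 (e i) (e j)) := by
        refine Finset.sum_congr rfl fun i _ => Finset.sum_congr rfl fun j _ => ?_
        have hnb : ¬ Bad (e i) := fun hb => hA.1 i (by simp) (Or.inl hb)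
        rw [if_neg hnb, Real.sq_sqrt (hcp2 _ _)]
      rw [g2'] at g2
      rw [g3'] at g3
      have h4 : (∑ i, D (e i)) ^ 2 + σ ^ 2 + (∑ i, Real.sqrt (cp0 (e i))) ^ 2
          + (∑ i, ∑ j ∈ Finset.univ.erase i, Real.sqrt (cp2 (e i) (e j))) ^ 2 ≤ R e := by
        rw [hR]
        simp only
        linarith
      calc C ^ 2 * _ ≤ C ^ 2 * (4 * R e) :=
            mul_le_mul_of_nonneg_left (h3.trans (mul_le_mul_of_nonneg_left h4 (by norm_num)))
              (sq_nonneg _)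
        _ = 4 * C ^ 2 * R e := by ring
    · rw [if_pos hA]
      have h1 := hDt0 e
      have h2 := hDt1 e
      have h3 := hR0 e
      have h4 : 0 ≤ 4 * C ^ 2 * R e := by positivity
      nlinarith
  refine (av_mono hpt).trans ?_
  rw [av_add, av_const_mul]
  have hpr : av (fun e : ι → Ω => if ¬ Adm Bad Cp Pr ∅ e then (1 : ℝ) else 0)
      ≤ N * (p + q) + N ^ 2 * q := by
    refine le_trans (le_of_eq ?_) (pr_not_adm_zero H)
    unfold pr
    congr 1
    ext e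
    by_cases h : Adm Bad Cp Pr ∅ e <;> simp [h]
  have hcardN : ∀ i : ι, ((Finset.univ.erase i : Finset ι).card : ℝ) ≤ N := by
    intro i
    rw [hN]
    exact_mod_cast Finset.card_le_univ _
  have r1 : av (fun e : ι → Ω => ∑ i, D (e i) ^ 2) ≤ N * V := by
    rw [av_sum, Finset.sum_congr rfl fun i _ => av_coord i (fun x => D x ^ 2), Finset.sum_const,
      nsmul_eq_mul, Finset.card_univ, ← hN]
    exact mul_le_mul_of_nonneg_left hV hN0
  have r3 : av (fun e : ι → Ω => ∑ i, cp0 (e i)) ≤ N * κ := by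
    rw [av_sum, Finset.sum_congr rfl fun i _ => av_coord i (fun x => cp0 x),
      Finset.sum_const, nsmul_eq_mul, Finset.card_univ, ← hN]
    exact mul_le_mul_of_nonneg_left hκ0 hN0
  have r4 : av (fun e : ι → Ω => ∑ i, ∑ j ∈ Finset.univ.erase i,
      (if Bad (e i) then 0 else cp2 (e i) (e j))) ≤ N ^ 2 * κ := by
    have hg : ∀ i j : ι, i ≠ j →
        av (fun e : ι → Ω => if Bad (e i) then 0 else cp2 (e i) (e j)) ≤ κ := by
      intro i j hij
      have h1 := av_mul_le (Ω := Ω) j (fun _ : ι → Ω => (1 : ℝ))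
        (fun e => if Bad (e i) then 0 else cp2 (e i) (e j)) κ
        (fun _ => zero_le_one) (fun _ _ => rfl) (by
          intro e
          have h2 : (fun x : Ω => (if Bad (Function.update e j x i) then (0 : ℝ) else
              cp2 (Function.update e j x i) (Function.update e j x j))) =
              fun x => if Bad (e i) then 0 else cp2 (e i) x := by
            ext x
            rw [Function.update_of_ne hij, Function.update_self]
          rw [h2]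
          by_cases hb : Bad (e i)
          · simp only [hb, if_true]
            rw [av1_zero]
            exact hκn
          · simp only [hb, if_false]
            exact hκ2 _ hb)
      simpa [av_const] using h1
    rw [av_sum]
    have h1 : ∀ i : ι, av (fun e : ι → Ω => ∑ j ∈ Finset.univ.erase i,
        (if Bad (e i) then 0 else cp2 (e i) (e j))) ≤ N * κ := by
      intro i
      rw [av_sum]
      refine (Finset.sum_le_card_nsmul _ _ κ fun j hj =>
        hg i j (Finset.ne_of_mem_erase hj).symm).trans ?_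
      rw [nsmul_eq_mul]
      exact mul_le_mul_of_nonneg_right (hcardN i) hκn
    refine (Finset.sum_le_card_nsmul _ _ (N * κ) fun i _ => h1 i).trans (le_of_eq ?_)
    rw [nsmul_eq_mul, Finset.card_univ, ← hN]
    ring
  have hRav : av R ≤ N ^ 2 * V + σ ^ 2 + N ^ 2 * κ + N ^ 4 * κ := by
    have hRe : av R = N * av (fun e : ι → Ω => ∑ i, D (e i) ^ 2) + σ ^ 2
        + N * av (fun e : ι → Ω => ∑ i, cp0 (e i))
        + N ^ 2 * av (fun e : ι → Ω => ∑ i, ∑ j ∈ Finset.univ.erase i,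
          (if Bad (e i) then 0 else cp2 (e i) (e j))) := by
      rw [hR, av_add, av_add, av_add, av_const, av_const_mul, av_const_mul, av_const_mul]
    rw [hRe]
    have u1 := mul_le_mul_of_nonneg_left r1 hN0
    have u3 := mul_le_mul_of_nonneg_left r3 hN0
    have u4 := mul_le_mul_of_nonneg_left r4 (sq_nonneg N)
    nlinarith
  have hC2 : 0 ≤ 4 * C ^ 2 := by positivity
  exact add_le_add (mul_le_mul_of_nonneg_left hRav hC2) hpr

/-- compact form -/
theorem mean_sq' [Nonempty Ω] {m : ℕ} {p q : ℝ} (H : Hyp (ι := ι) Bad Cp Pr m p q)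
    {D : Ω → ℝ} {V : ℝ} (hV : av1 (fun x => D x ^ 2) ≤ V)
    {cp0 : Ω → ℝ} (hcp0 : ∀ x, 0 ≤ cp0 x) {κ c0 cb cq : ℝ} (hκ : 0 ≤ κ)
    (hc0 : 0 ≤ c0) (hcb : p ≤ cb * V) (hcq : q ≤ cq * κ) (hcq0 : 0 ≤ cq) (hcb0 : 0 ≤ cb)
    (hκ0 : av1 cp0 ≤ c0 * κ)
    {cp2 : Ω → Ω → ℝ} (hcp2 : ∀ x x', 0 ≤ cp2 x x') (hκ2 : ∀ x, ¬ Bad x → av1 (cp2 x) ≤ c0 * κ)
    {Dt : (ι → Ω) → ℝ} (hDt0 : ∀ e, 0 ≤ Dt e) (hDt1 : ∀ e, Dt e ≤ 1) {C σ : ℝ} (hC : 0 ≤ C)
    (hS : ∀ e, Adm Bad Cp Pr ∅ e → Dt e ≤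
      C * (∑ i, D (e i) + σ + ∑ i, Real.sqrt (cp0 (e i))
        + ∑ i, ∑ j ∈ Finset.univ.erase i, Real.sqrt (cp2 (e i) (e j)))) :
    av (fun e => Dt e ^ 2) ≤
      (8 * C ^ 2 * (1 + c0) + 2 * (cb + cq)) * (1 + (Fintype.card ι : ℝ) ^ 4)
        * (V + σ ^ 2 + κ) := by
  have h := mean_sq H hV hcp0 hκ0 hcp2 hκ2 hDt0 hDt1 hC hS
  refine h.trans ?_
  set N : ℝ := (Fintype.card ι : ℝ) with hN
  have hN0 : 0 ≤ N := Nat.cast_nonneg _
  have hV0 : 0 ≤ V := (av1_nonneg fun x => sq_nonneg _).trans hV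
  have hσ2 : 0 ≤ σ ^ 2 := sq_nonneg _
  have hN1 : N ≤ N ^ 4 := by
    rcases Nat.eq_zero_or_pos (Fintype.card ι) with h0 | h0
    · rw [hN, h0]; simp
    · have : 1 ≤ N := by rw [hN]; exact_mod_cast h0
      calc N = N ^ 1 := (pow_one N).symm
        _ ≤ N ^ 4 := pow_le_pow_right₀ this (by norm_num)
  have hN2 : N ^ 2 ≤ N ^ 4 := by
    rcases Nat.eq_zero_or_pos (Fintype.card ι) with h0 | h0
    · rw [hN, h0]; simp
    · have : 1 ≤ N := by rw [hN]; exact_mod_cast h0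
      exact pow_le_pow_right₀ this (by norm_num)
  set T := V + σ ^ 2 + κ with hT
  have hT0 : 0 ≤ T := by positivity
  have hN4 : 0 ≤ N ^ 4 := by positivity
  have a1 : N ^ 2 * V + σ ^ 2 + N ^ 2 * (c0 * κ) + N ^ 4 * (c0 * κ)
      ≤ 2 * (1 + c0) * (1 + N ^ 4) * T := by
    have b1 : N ^ 2 * V ≤ N ^ 4 * T :=
      mul_le_mul hN2 (by rw [hT]; linarith) hV0 hN4
    have b2 : σ ^ 2 ≤ T := by rw [hT]; linarith
    have b3 : N ^ 2 * (c0 * κ) ≤ N ^ 4 * (c0 * T) :=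
      mul_le_mul hN2 (mul_le_mul_of_nonneg_left (by rw [hT]; linarith) hc0) (by positivity) hN4
    have b4 : N ^ 4 * (c0 * κ) ≤ N ^ 4 * (c0 * T) :=
      mul_le_mul_of_nonneg_left (mul_le_mul_of_nonneg_left (by rw [hT]; linarith) hc0) hN4
    have b5 : 0 ≤ c0 * T := by positivity
    have b6 : 0 ≤ N ^ 4 * T := by positivity
    nlinarith
  have a2 : N * (p + q) + N ^ 2 * q ≤ 2 * (cb + cq) * (1 + N ^ 4) * T := by
    have hp : p ≤ cb * T := hcb.trans (mul_le_mul_of_nonneg_left (by rw [hT]; linarith) hcb0)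
    have hq : q ≤ cq * T := hcq.trans (mul_le_mul_of_nonneg_left (by rw [hT]; linarith) hcq0)
    have hcbT : 0 ≤ cb * T := by positivity
    have hcqT : 0 ≤ cq * T := by positivity
    have b1 : N * (p + q) ≤ N ^ 4 * (cb * T + cq * T) :=
      (mul_le_mul_of_nonneg_left (add_le_add hp hq) hN0).trans
        (mul_le_mul_of_nonneg_right hN1 (by positivity))
    have b2 : N ^ 2 * q ≤ N ^ 4 * (cq * T) :=
      (mul_le_mul_of_nonneg_left hq (sq_nonneg N)).trans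
        (mul_le_mul_of_nonneg_right hN2 hcqT)
    nlinarith [mul_nonneg hN4 hcbT, mul_nonneg hN4 hcqT]
  have hC2 : 0 ≤ 4 * C ^ 2 := by positivity
  refine (add_le_add (mul_le_mul_of_nonneg_left a1 hC2) a2).trans (le_of_eq ?_)
  ring

end Crest.Agent.R166.MeanEq269
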