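import Crest.Agent.R166.H2a_269
import Crest.Agent.R166.Glue_269
import Crest.Agent.R166.MeanSq_269
import Crest.Agent.R166.H1_811

/-!
# Row 166, section 30.4 (helper269): the one-step mean equation (H2)

`h2P`: `SMP d A rs ε C1` and `S0P d 1 A rs ε C0 CL0` imply `H2P d A rs C (H4.gm 1 rs ..)`.
-/

set_option autoImplicit false

open Finset

namespace Crest.Agent.R166.H2

open Crest.Agent.R166 Stab269 SwP470 Rev811 Shape395 TreeDet350 MeanEq269 Spec30 MuU395 Glue269 H2a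

variable {n d : ℕ} [NeZero d]

/-- bound of the imaginary parts at the good half-edges -/
def GoodM (d : ℕ) (A rs M : ℝ) : Prop :=
  ∀ (n : ℕ) (E s η : ℝ) (ω : Fin n → ℝ), Rng A n E s η ω → ∀ p : Equiv.Perm (HE n d), IsPort p →
    ∀ x : HE n d, ¬ BadP rs p s ω (ze E η) x →
      (Rr p s ω (ze E η) x.1 x.1).im + (Rr p s ω (ze E η) (p x).1 (p x).1).im ≤ M

omit [NeZero d] in
theorem goodM {A rs : ℝ} (hd : 3 ≤ d) (hA2 : A ^ 2 < 4 * ((d : ℝ) - 1)) (hrs : rs ≤ 1 / 16) :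
    GoodM d A rs 14 := by
  intro n E s η ω hR p hp x hx
  exact im_good hd hA2 hR.E hR.η0 hR.η1 hrs hp x hx

theorem sum_offDiag {ι : Type*} [Fintype ι] [DecidableEq ι] (f : ι → ι → ℝ) :
    ∑ jk ∈ (Finset.univ : Finset ι).offDiag, f jk.1 jk.2 =
      ∑ i, ∑ j ∈ Finset.univ.erase i, f i j := by
  rw [← Finset.sum_finset_product' (r := (Finset.univ : Finset ι).offDiag)
    (s := Finset.univ) (t := fun i => Finset.univ.erase i)]
  intro p
  simp [Finset.mem_offDiag, eq_comm]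

/-- number of leaves on one side -/
theorem card_Iside (σ : Bool) : (Iside (d := d) 1 σ).card = d - 1 := by
  classical
  have h1 : (Iside (d := d) 1 σ) = ({σ} : Finset Bool) ×ˢ (Finset.univ : Finset (Fin 1 → NZ d)) := by
    ext i
    simp only [Iside, Finset.mem_filter, Finset.mem_univ, true_and, Finset.mem_product,
      Finset.mem_singleton, and_true]
  rw [h1, Finset.card_product, Finset.card_singleton, Finset.card_univ]
  simp [Fintype.card_subtype_compl]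

omit [NeZero d] in
theorem pr_le_one {ι Ω : Type*} [Fintype ι] [DecidableEq ι] [Fintype Ω] [Nonempty Ω]
    (P : (ι → Ω) → Prop) : pr P ≤ 1 := by
  classical
  have h : pr P ≤ av (fun _ : ι → Ω => (1 : ℝ)) := by
    unfold pr
    refine av_mono fun e => ?_
    split_ifs <;> norm_num
  rwa [av_const] at h

theorem nonTL_eq (L : ℕ) (p : Equiv.Perm (HE n d)) :
    (nonTL L p : ℝ) / (n * d) = pr1 (fun h : HE n d => ¬ TL L p h) := by
  classical
  unfold nonTL pr1 av1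
  rw [Rev811.card_HE_real]
  congr 1
  rw [Finset.natCast_card_filter]
  refine Finset.sum_congr rfl fun b _ => ?_
  by_cases hb : TL L p b <;> simp [hb]

/-- crude bound of the output deviation on the admissible event, from `S0P` at depth `1` -/
theorem crude {A rs ε C0 CL0 y0 : ℝ} (hrs : 0 < rs) (hrs1 : rs ≤ 1) (hC0 : 0 ≤ C0)
    (hCL0 : 0 ≤ CL0) (hS0 : S0P d 1 A rs ε C0 CL0) {E s η : ℝ} {ω : Fin n → ℝ}
    (hR : Rng A n E s η ω) {p : Equiv.Perm (HE n d)} (hp : IsPort p) {h0 : HE n d}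
    (hadm : TreeDet350.Adm (d - 1) y0 (ze E η) (mc d (ze E η)))
    (b : BI d 1 → HE n d) (hv : BVal 1 p h0 b) (ha : AdmP 1 rs ε p s ω (ze E η) h0 ∅ b) :
    SpecA.Dv rs (np p h0 b) s ω (ze E η) h0 ≤
      (C0 * (2 * Cy y0 rs + 1) + CL0 * (Fintype.card (BI d 1) + 1)) *
        (∑ i, SpecA.Dv rs p s ω (ze E η) (b i) + |s| +
          ∑ i, Real.sqrt (cpl (Sv 1 p h0) (Rr p s ω (ze E η)) p (b i)) +
          ∑ i, ∑ j ∈ Finset.univ.erase i,
            Real.sqrt (cpl2 (Rr p s ω (ze E η)) p (b i) (b j))) := by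
  classical
  have hz : 0 < (ze E η).im := by simpa [ze] using hR.η0
  have hCy := Cy_pos hadm.hy hrs
  have h := hS0 n E s η ω hR p hp h0 b hv ha
  set D : HE n d → ℝ := fun x => SpecA.Dv rs p s ω (ze E η) x with hD
  have hD0 : ∀ x, 0 ≤ D x := fun x => by
    rw [hD]; simp only [dv_eq]; exact dv_nonneg hrs.le
  have hD1 : ∀ x, D x ≤ 1 := fun x => by
    rw [hD]; simp only [dv_eq]; exact dv_le.trans hrs1
  set m := mc d (ze E η) with hm
  have hm1 : ‖m‖ ^ 2 ≤ 1 := by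
    have := hadm.norm_le
    have := norm_nonneg m
    nlinarith
  have hy : ∀ x, ‖yP p s ω (ze E η) x‖ ≤ Cy y0 rs * D x := fun x =>
    uu_le_dv hadm hrs (im_B0_pos hp s ω hz x 0).le
  set SD : ℝ := ∑ i, D (b i) with hSD
  have hSD0 : 0 ≤ SD := Finset.sum_nonneg fun i _ => hD0 _
  have hside : ∀ σ, ‖m ^ (2 * 1) * ∑ i ∈ Iside 1 σ, yP p s ω (ze E η) (b i)‖ ≤
      Cy y0 rs * SD := by
    intro σ
    rw [norm_mul, norm_pow]
    have h1 : ‖∑ i ∈ Iside (d := d) 1 σ, yP p s ω (ze E η) (b i)‖ ≤ Cy y0 rs * SD := by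
      refine (norm_sum_le _ _).trans ?_
      rw [hSD, Finset.mul_sum]
      refine (Finset.sum_le_sum fun i _ => hy (b i)).trans ?_
      exact Finset.sum_le_sum_of_subset_of_nonneg (Finset.subset_univ _)
        (fun i _ _ => mul_nonneg hCy.le (hD0 _))
    calc ‖m‖ ^ (2 * 1) * ‖∑ i ∈ Iside (d := d) 1 σ, yP p s ω (ze E η) (b i)‖
        ≤ 1 * (Cy y0 rs * SD) := mul_le_mul (by simpa using hm1) h1 (norm_nonneg _) zero_le_one
      _ = _ := one_mul _
  have hsq : ∑ i, SpecA.Dv rs p s ω (ze E η) (b i) ^ 2 ≤ SD := by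
    rw [hSD]
    refine Finset.sum_le_sum fun i _ => ?_
    have h1 := hD0 (b i)
    have h2 := hD1 (b i)
    show D (b i) ^ 2 ≤ D (b i)
    nlinarith
  have hoff : (∑ jk ∈ (Finset.univ : Finset (BI d 1)).offDiag,
      SpecA.Dv rs p s ω (ze E η) (b jk.1) * SpecA.Dv rs p s ω (ze E η) (b jk.2)) ≤
      Fintype.card (BI d 1) * SD := by
    rw [sum_offDiag (fun i j => D (b i) * D (b j)), hSD, Finset.mul_sum]
    refine Finset.sum_le_sum fun i _ => ?_
    have h1 : ∑ j ∈ Finset.univ.erase i, D (b i) * D (b j) ≤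
        ∑ j ∈ (Finset.univ.erase i : Finset (BI d 1)), D (b i) := by
      refine Finset.sum_le_sum fun j _ => ?_
      calc D (b i) * D (b j) ≤ D (b i) * 1 := mul_le_mul_of_nonneg_left (hD1 _) (hD0 _)
        _ = D (b i) := mul_one _
    refine h1.trans ?_
    rw [Finset.sum_const, nsmul_eq_mul]
    exact mul_le_mul_of_nonneg_right (by exact_mod_cast Finset.card_le_univ _) (hD0 _)
  have hce : cEs 1 p s ω (ze E η) h0 ∅ b =
      (∑ i, Real.sqrt (cpl (Sv 1 p h0) (Rr p s ω (ze E η)) p (b i))) +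
        ∑ i, ∑ j ∈ Finset.univ.erase i,
          Real.sqrt (cpl2 (Rr p s ω (ze E η)) p (b i) (b j)) := by
    unfold cEs
    rw [GA_empty, Finset.compl_empty,
      sum_offDiag (fun i j => Real.sqrt (cpl2 (Rr p s ω (ze E η)) p (b i) (b j)))]
  set c1 : ℝ := ∑ i, Real.sqrt (cpl (Sv 1 p h0) (Rr p s ω (ze E η)) p (b i)) with hc1
  set c2 : ℝ := ∑ i, ∑ j ∈ Finset.univ.erase i,
    Real.sqrt (cpl2 (Rr p s ω (ze E η)) p (b i) (b j)) with hc2
  have hc10 : 0 ≤ c1 := Finset.sum_nonneg fun i _ => Real.sqrt_nonneg _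
  have hc20 : 0 ≤ c2 := Finset.sum_nonneg fun i _ => Finset.sum_nonneg fun j _ => Real.sqrt_nonneg _
  set N : ℝ := (Fintype.card (BI d 1) : ℝ) with hN
  have hN0 : 0 ≤ N := Nat.cast_nonneg _
  have hs0 := abs_nonneg s
  rw [hce] at h
  have t1 : C0 * (‖m ^ (2 * 1) * ∑ i ∈ Iside 1 false, yP p s ω (ze E η) (b i)‖ +
      ‖m ^ (2 * 1) * ∑ i ∈ Iside 1 true, yP p s ω (ze E η) (b i)‖) ≤
      C0 * (2 * Cy y0 rs * SD) :=
    mul_le_mul_of_nonneg_left (by linarith [hside false, hside true]) hC0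
  have t2 : C0 * ‖m‖ ^ (2 * 1) * (∑ i, SpecA.Dv rs p s ω (ze E η) (b i) ^ 2) ≤ C0 * SD := by
    have h1 : C0 * ‖m‖ ^ (2 * 1) ≤ C0 * 1 :=
      mul_le_mul_of_nonneg_left (by simpa using hm1) hC0
    calc C0 * ‖m‖ ^ (2 * 1) * (∑ i, SpecA.Dv rs p s ω (ze E η) (b i) ^ 2)
        ≤ C0 * 1 * SD :=
          mul_le_mul h1 hsq (Finset.sum_nonneg fun i _ => sq_nonneg _) (by linarith)
      _ = C0 * SD := by ring
  have t3 : CL0 * ((∑ jk ∈ (Finset.univ : Finset (BI d 1)).offDiag,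
      SpecA.Dv rs p s ω (ze E η) (b jk.1) * SpecA.Dv rs p s ω (ze E η) (b jk.2)) + |s| +
        (c1 + c2)) ≤ CL0 * (N * SD + |s| + (c1 + c2)) :=
    mul_le_mul_of_nonneg_left (by linarith) hCL0
  have hcc : 0 ≤ |s| + c1 + c2 := add_nonneg (add_nonneg hs0 hc10) hc20
  have t4 : 0 ≤ C0 * (2 * Cy y0 rs + 1) * (|s| + c1 + c2) :=
    mul_nonneg (mul_nonneg hC0 (by linarith)) hcc
  have t5 : 0 ≤ CL0 * N * (|s| + c1 + c2) := mul_nonneg (mul_nonneg hCL0 hN0) hcc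
  have t6 : 0 ≤ CL0 * SD := mul_nonneg hCL0 hSD0
  refine h.trans ((add_le_add (add_le_add t1 t2) t3).trans ?_)
  change _ ≤ (C0 * (2 * Cy y0 rs + 1) + CL0 * (N + 1)) * (SD + |s| + c1 + c2)
  have e : (C0 * (2 * Cy y0 rs + 1) + CL0 * (N + 1)) * (SD + |s| + c1 + c2) =
      C0 * (2 * Cy y0 rs * SD) + C0 * SD + CL0 * (N * SD + |s| + (c1 + c2)) +
        (C0 * (2 * Cy y0 rs + 1) * (|s| + c1 + c2) + CL0 * N * (|s| + c1 + c2) + CL0 * SD) := by
    ring
  rw [e]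
  exact le_add_of_nonneg_right (add_nonneg (add_nonneg t4 t5) t6)

/-- the coupling constant -/
noncomputable def cc (d : ℕ) (M : ℝ) : ℝ := 4 * ((d : ℝ) + 1) + 2 * M

omit [NeZero d] in
theorem cc_nonneg {M : ℝ} (hM : 0 ≤ M) : 0 ≤ cc d M := by unfold cc; positivity

/-- the hypotheses of the revealing lemma at depth `1` -/
theorem hyp_one {A rs ε M : ℝ} (hε : 0 < ε) (hM0 : 0 ≤ M) (hM : GoodM d A rs M)
    {E s η : ℝ} {ω : Fin n → ℝ} (hR : Rng A n E s η ω) {p : Equiv.Perm (HE n d)} (hp : IsPort p)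
    (h0 : HE n d) :
    Hyp (ι := BI d 1) (BadP rs p s ω (ze E η)) (CpW (Sv 1 p h0) (Rr p s ω (ze E η)) p ε)
      (PrW (Rr p s ω (ze E η)) p ε) 0 (pr1 (BadP rs p s ω (ze E η)))
      (cc d M / ε ^ 2 * (1 / (n * η))) := by
  have him : (ze E η).im = η := by simp [ze]
  have hz : 0 < (ze E η).im := by rw [him]; exact hR.η0
  have hn : (0 : ℝ) < n := by exact_mod_cast hR.n0
  have hη := hR.η0
  have hc := cc_nonneg (d := d) hM0
  have hcard : ((Sv 1 p h0).card : ℝ) ≤ 2 * ((d : ℝ) + 1) := by exact_mod_cast card_Sv p h0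
  refine hyp_ward (Hm_symm _ _ _) hz (Nat.pos_of_ne_zero (NeZero.ne d)) p (Sv 1 p h0) 0 hε _
    (fun x hx => hM n E s η ω hR p hp x hx) (by positivity) ?_ ?_
  · rw [him]
    have e : cc d M / ε ^ 2 * (1 / (n * η)) = cc d M / (n * η * ε ^ 2) := by
      field_simp
    rw [e]
    refine div_le_div_of_nonneg_right ?_ (by positivity)
    unfold cc
    push_cast
    linarith
  · rw [him]
    have e : cc d M / ε ^ 2 * (1 / (n * η)) = cc d M / (n * η * ε ^ 2) := by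
      field_simp
    rw [e]
    refine div_le_div_of_nonneg_right ?_ (by positivity)
    unfold cc
    have : (0 : ℝ) ≤ d := Nat.cast_nonneg _
    linarith

theorem cp0_le {M : ℝ} (hM0 : 0 ≤ M) {A : ℝ}
    {E s η : ℝ} {ω : Fin n → ℝ} (hR : Rng A n E s η ω) (p : Equiv.Perm (HE n d))
    (h0 : HE n d) : av1 (cpl (Sv 1 p h0) (Rr p s ω (ze E η)) p) ≤ cc d M * (1 / (n * η)) := by
  have him : (ze E η).im = η := by simp [ze]
  have hz : 0 < (ze E η).im := by rw [him]; exact hR.η0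
  have hn : (0 : ℝ) < n := by exact_mod_cast hR.n0
  have hη := hR.η0
  have hcard : ((Sv 1 p h0).card : ℝ) ≤ 2 * ((d : ℝ) + 1) := by exact_mod_cast card_Sv p h0
  rw [av1_cpl (Hm_symm _ _ _) hz (Nat.pos_of_ne_zero (NeZero.ne d)), him, mul_one_div]
  refine div_le_div_of_nonneg_right ?_ (by positivity)
  unfold cc
  linarith

theorem cp2_le {A rs M : ℝ} (hM : GoodM d A rs M)
    {E s η : ℝ} {ω : Fin n → ℝ} (hR : Rng A n E s η ω) {p : Equiv.Perm (HE n d)} (hp : IsPort p)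
    (x : HE n d) (hx : ¬ BadP rs p s ω (ze E η) x) :
    av1 (cpl2 (Rr p s ω (ze E η)) p x) ≤ cc d M * (1 / (n * η)) := by
  have him : (ze E η).im = η := by simp [ze]
  have hz : 0 < (ze E η).im := by rw [him]; exact hR.η0
  have hn : (0 : ℝ) < n := by exact_mod_cast hR.n0
  have hη := hR.η0
  rw [av1_cpl2 (Hm_symm _ _ _) hz (Nat.pos_of_ne_zero (NeZero.ne d)), him, mul_one_div]
  refine div_le_div_of_nonneg_right ?_ (by positivity)
  have h1 := hM n E s η ω hR p hp x hx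
  unfold cc
  have : (0 : ℝ) ≤ d := Nat.cast_nonneg _
  linarith

omit [NeZero d] in
theorem bad_le {A rs : ℝ} (hrs : 0 < rs) {E s η : ℝ} {ω : Fin n → ℝ} (_hR : Rng A n E s η ω)
    (p : Equiv.Perm (HE n d)) :
    pr1 (BadP rs p s ω (ze E η)) ≤ 1 / rs ^ 2 * SpecA.Vp rs p s ω (ze E η) := by
  have h := pr1_bad_le (fun x => SpecA.Dv rs p s ω (ze E η) x) hrs
  rw [Vp_av1, one_div_mul_eq_div]
  exact h

/-- the constants -/
noncomputable def K1 (d : ℕ) [NeZero d] (y0 rs ε M C1 : ℝ) : ℝ :=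
  2 * (Fintype.card (BI d 1) : ℝ) ^ 2 *
      (3 / 2 * C1 * (1 + Real.sqrt (cc d M)) + 3 * BB y0 * (1 / rs ^ 2 + cc d M / ε ^ 2)) +
    3 / 2 * C1

noncomputable def C3' (d : ℕ) [NeZero d] (y0 rs C0 CL0 : ℝ) : ℝ :=
  C0 * (2 * Cy y0 rs + 1) + CL0 * (Fintype.card (BI d 1) + 1)

noncomputable def K2 (d : ℕ) [NeZero d] (y0 rs ε M C0 CL0 : ℝ) : ℝ :=
  (8 * C3' d y0 rs C0 CL0 ^ 2 * (1 + cc d M) + 2 * (1 / rs ^ 2 + cc d M / ε ^ 2)) *
    (1 + (Fintype.card (BI d 1) : ℝ) ^ 4)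

theorem K1_nonneg {y0 rs ε M C1 : ℝ} (hy : 0 < y0) (hM : 0 ≤ M) (hC1 : 0 ≤ C1) :
    0 ≤ K1 d y0 rs ε M C1 := by
  have := BB_pos hy
  have := cc_nonneg (d := d) hM
  unfold K1
  positivity

theorem K2_nonneg {y0 rs ε M C0 CL0 : ℝ} (hM : 0 ≤ M) :
    0 ≤ K2 d y0 rs ε M C0 CL0 := by
  have := cc_nonneg (d := d) hM
  unfold K2
  positivity

section inner

variable {A rs ε M C0 CL0 C1 y0 : ℝ} {E s η : ℝ} {ω : Fin n → ℝ} {p : Equiv.Perm (HE n d)}
  {h0 : HE n d}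

omit [NeZero d] in
theorem norm_sq_m (hd : 3 ≤ d) {z m : ℂ} (h : TreeDet350.Adm (d - 1) y0 z m) :
    ‖((d : ℂ) - 1) * m ^ 2‖ ≤ 1 := by
  have h1 := h.b_normSq
  have e : ((d : ℂ) - 1) = ((d - 1 : ℕ) : ℂ) := by
    rw [Nat.cast_sub (by omega)]; simp
  rw [e, norm_mul, Complex.norm_natCast, norm_pow, ← Complex.normSq_eq_norm_sq]
  exact h1

open Classical in
/-- first half: the one-step mean of the `u`-coordinate -/
theorem inner1 (hd : 3 ≤ d) (hrs : 0 < rs) (hε : 0 < ε) (hM0 : 0 ≤ M) (hM : GoodM d A rs M)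
    (hC1 : 0 ≤ C1) (hSM : SMP d A rs ε C1) (hR : Rng A n E s η ω) (hp : IsPort p)
    (hadm : TreeDet350.Adm (d - 1) y0 (ze E η) (mc d (ze E η))) (hκ1 : 1 / (n * η) ≤ 1) :
    ‖avC (fun b : BI d 1 → HE n d => if BVal 1 p h0 b then
        (1 - mc d (ze E η) ^ 2) * yP (np p h0 b) s ω (ze E η) h0 else
        (1 - mc d (ze E η) ^ 2) * mc d (ze E η) ^ 2 *
          ∑ i ∈ Iside 1 false, yP p s ω (ze E η) (b i)) -
      (1 - mc d (ze E η) ^ 2) * mc d (ze E η) ^ 2 * ((d : ℂ) - 1) *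
        avc (yP p s ω (ze E η))‖ ≤
      K1 d y0 rs ε M C1 *
        (SpecA.Vp rs p s ω (ze E η) + |s| + Real.sqrt (1 / (n * η))) := by
  have hη := hR.η0
  have hn : (0 : ℝ) < n := by exact_mod_cast hR.n0
  have hne : Nonempty (HE n d) := ⟨(⟨0, hR.n0⟩, ⟨0, Nat.pos_of_ne_zero (NeZero.ne d)⟩)⟩
  have hz : 0 < (ze E η).im := by simpa [ze] using hR.η0
  have hc := cc_nonneg (d := d) hM0
  have hBB := BB_pos hadm.hy
  set m := mc d (ze E η) with hm
  have hy : ∀ (p' : Equiv.Perm (HE n d)), IsPort p' → ∀ x, ‖yP p' s ω (ze E η) x‖ ≤ BB y0 :=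
    fun p' hp' x => hadm.norm_uu_le (im_B0_pos hp' s ω hz x 0).le
  have ha := hadm.norm_a_le
  have hdm := norm_sq_m hd hadm
  have hcardI : ((Iside (d := d) 1 false).card : ℂ) = (d : ℂ) - 1 := by
    rw [card_Iside, Nat.cast_sub (by omega)]; simp
  have hcardI' : ((Iside (d := d) 1 false).card : ℝ) = (d : ℝ) - 1 := by
    rw [card_Iside, Nat.cast_sub (by omega)]; simp
  have hm2 : ‖m‖ ^ 2 * ((d : ℝ) - 1) ≤ 1 := by
    have h1 : ‖((d : ℂ) - 1) * m ^ 2‖ = ‖m‖ ^ 2 * ((d : ℝ) - 1) := by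
      rw [← hcardI, norm_mul, Complex.norm_natCast, norm_pow, hcardI', mul_comm]
    rw [h1] at hdm
    exact hdm
  -- bound of the linear term
  have hlin : ∀ b : BI d 1 → HE n d,
      ‖(1 - m ^ 2) * m ^ 2 * ∑ i ∈ Iside 1 false, yP p s ω (ze E η) (b i)‖ ≤ 3 / 2 * BB y0 := by
    intro b
    rw [norm_mul, norm_mul, norm_pow]
    have h1 : ‖∑ i ∈ Iside (d := d) 1 false, yP p s ω (ze E η) (b i)‖ ≤
        ((d : ℝ) - 1) * BB y0 := by
      refine (norm_sum_le _ _).trans ?_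
      refine (Finset.sum_le_card_nsmul _ _ (BB y0) fun i _ => hy p hp _).trans ?_
      rw [nsmul_eq_mul, hcardI']
    calc ‖1 - m ^ 2‖ * ‖m‖ ^ 2 * ‖∑ i ∈ Iside (d := d) 1 false, yP p s ω (ze E η) (b i)‖
        ≤ 3 / 2 * ‖m‖ ^ 2 * (((d : ℝ) - 1) * BB y0) := by
          refine mul_le_mul (mul_le_mul_of_nonneg_right ha (sq_nonneg _)) h1 (norm_nonneg _)
            (by positivity)
      _ = 3 / 2 * (‖m‖ ^ 2 * ((d : ℝ) - 1)) * BB y0 := by ring
      _ ≤ 3 / 2 * 1 * BB y0 := by gcongr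
      _ = 3 / 2 * BB y0 := by ring
  have key := mean_eq' (ι := BI d 1) (hyp_one hε hM0 hM hR hp h0)
    (D := fun x => SpecA.Dv rs p s ω (ze E η) x) (V := SpecA.Vp rs p s ω (ze E η))
    (fun x => by simp only [dv_eq]; exact dv_nonneg hrs.le)
    (le_of_eq (Vp_av1 rs p s ω (ze E η)).symm)
    (cp0 := cpl (Sv 1 p h0) (Rr p s ω (ze E η)) p) (fun x => cpl_nonneg _ _ _ _)
    (κ := 1 / (n * η)) (c0 := cc d M) (cb := 1 / rs ^ 2) (cq := cc d M / ε ^ 2)
    (by positivity) hκ1 hc (bad_le hrs hR p) le_rfl (by positivity) (by positivity)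
    (cp0_le hM0 hR p h0)
    (cp2 := cpl2 (Rr p s ω (ze E η)) p) (fun x x' => cpl2_nonneg _ _ _ _)
    (fun x hx => cp2_le hM hR hp x hx)
    (y := yP p s ω (ze E η))
    (f := fun b : BI d 1 → HE n d => if BVal 1 p h0 b then
        (1 - m ^ 2) * yP (np p h0 b) s ω (ze E η) h0 else
        (1 - m ^ 2) * m ^ 2 * ∑ i ∈ Iside 1 false, yP p s ω (ze E η) (b i))
    (a := (1 - m ^ 2) * m ^ 2) (Iside 1 false) (B := 3 * BB y0)
    (by
      intro b
      by_cases hv : BVal 1 p h0 b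
      · simp only [hv, if_true]
        have h1 : ‖(1 - m ^ 2) * yP (np p h0 b) s ω (ze E η) h0‖ ≤ 3 / 2 * BB y0 := by
          rw [norm_mul]
          exact mul_le_mul ha (hy _ (hv.isPort le_rfl hp) _) (norm_nonneg _) (by norm_num)
        refine (norm_sub_le _ _).trans ?_
        linarith [hlin b]
      · simp only [hv, if_false, sub_self, norm_zero]
        positivity)
    (C := 3 / 2 * C1) (σ := |s|) (by positivity) (abs_nonneg s)
    (by
      intro b hb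
      by_cases hv : BVal 1 p h0 b
      · simp only [hv, if_true]
        have h1 := hSM n E s η ω hR p hp h0 b hv hb
        rw [mul_assoc (1 - m ^ 2), ← mul_sub, norm_mul, mul_assoc (3 / 2 : ℝ)]
        exact mul_le_mul ha h1 (norm_nonneg _) (by norm_num)
      · simp only [hv, if_false, sub_self, norm_zero]
        have hD0 : ∀ x, 0 ≤ SpecA.Dv rs p s ω (ze E η) x := fun x => by
          simp only [dv_eq]; exact dv_nonneg hrs.le
        have t1 : 0 ≤ ∑ i, SpecA.Dv rs p s ω (ze E η) (b i) ^ 2 :=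
          Finset.sum_nonneg fun i _ => sq_nonneg _
        have t2 : 0 ≤ ∑ i, ∑ j ∈ Finset.univ.erase i,
            SpecA.Dv rs p s ω (ze E η) (b i) * SpecA.Dv rs p s ω (ze E η) (b j) :=
          Finset.sum_nonneg fun i _ => Finset.sum_nonneg fun j _ => mul_nonneg (hD0 _) (hD0 _)
        have t3 : 0 ≤ ∑ i, Real.sqrt (cpl (Sv 1 p h0) (Rr p s ω (ze E η)) p (b i)) :=
          Finset.sum_nonneg fun i _ => Real.sqrt_nonneg _
        have t4 : 0 ≤ ∑ i, ∑ j ∈ Finset.univ.erase i,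
            Real.sqrt (cpl2 (Rr p s ω (ze E η)) p (b i) (b j)) :=
          Finset.sum_nonneg fun i _ => Finset.sum_nonneg fun j _ => Real.sqrt_nonneg _
        refine mul_nonneg (mul_nonneg (by norm_num) hC1) ?_
        exact add_nonneg (add_nonneg (add_nonneg (add_nonneg t1 t2) (abs_nonneg s)) t3) t4)
  rw [hcardI] at key
  exact key

open Classical in
/-- second half: the crude second moment of the output deviation at depth `1` -/
theorem inner2 (hrs : 0 < rs) (hrs1 : rs ≤ 1) (hε : 0 < ε) (hM0 : 0 ≤ M) (hM : GoodM d A rs M)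
    (hC0 : 0 ≤ C0) (hCL0 : 0 ≤ CL0) (hS0 : S0P d 1 A rs ε C0 CL0) (hR : Rng A n E s η ω)
    (hp : IsPort p) (hadm : TreeDet350.Adm (d - 1) y0 (ze E η) (mc d (ze E η))) :
    av (fun b : BI d 1 → HE n d => (if BVal 1 p h0 b then
        SpecA.Dv rs (np p h0 b) s ω (ze E η) h0 else 0) ^ 2) ≤
      K2 d y0 rs ε M C0 CL0 *
        (SpecA.Vp rs p s ω (ze E η) + |s| ^ 2 + 1 / (n * η)) := by
  have hη := hR.η0
  have hn : (0 : ℝ) < n := by exact_mod_cast hR.n0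
  have hne : Nonempty (HE n d) := ⟨(⟨0, hR.n0⟩, ⟨0, Nat.pos_of_ne_zero (NeZero.ne d)⟩)⟩
  have hc := cc_nonneg (d := d) hM0
  have hCy := Cy_pos hadm.hy hrs
  have hC3 : 0 ≤ C3' d y0 rs C0 CL0 := by unfold C3'; positivity
  exact mean_sq' (ι := BI d 1) (hyp_one hε hM0 hM hR hp h0)
    (D := fun x => SpecA.Dv rs p s ω (ze E η) x) (V := SpecA.Vp rs p s ω (ze E η))
    (le_of_eq (Vp_av1 rs p s ω (ze E η)).symm)
    (cp0 := cpl (Sv 1 p h0) (Rr p s ω (ze E η)) p) (fun x => cpl_nonneg _ _ _ _)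
    (κ := 1 / (n * η)) (c0 := cc d M) (cb := 1 / rs ^ 2) (cq := cc d M / ε ^ 2)
    (by positivity) hc (bad_le hrs hR p) le_rfl (by positivity) (by positivity)
    (cp0_le hM0 hR p h0)
    (cp2 := cpl2 (Rr p s ω (ze E η)) p) (fun x x' => cpl2_nonneg _ _ _ _)
    (fun x hx => cp2_le hM hR hp x hx)
    (Dt := fun b : BI d 1 → HE n d => if BVal 1 p h0 b then
        SpecA.Dv rs (np p h0 b) s ω (ze E η) h0 else 0)
    (by
      intro b
      by_cases hv : BVal 1 p h0 b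
      · simp only [hv, if_true, dv_eq]; exact dv_nonneg hrs.le
      · simp only [hv, if_false]; exact le_rfl)
    (by
      intro b
      by_cases hv : BVal 1 p h0 b
      · simp only [hv, if_true, dv_eq]; exact dv_le.trans hrs1
      · simp only [hv, if_false]; exact zero_le_one)
    (C := C3' d y0 rs C0 CL0) (σ := |s|) hC3
    (by
      intro b hb
      have hD0 : ∀ x, 0 ≤ SpecA.Dv rs p s ω (ze E η) x := fun x => by
        simp only [dv_eq]; exact dv_nonneg hrs.le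
      by_cases hv : BVal 1 p h0 b
      · simp only [hv, if_true]
        exact crude hrs hrs1 hC0 hCL0 hS0 hR hp hadm b hv hb
      · simp only [hv, if_false]
        have t1 : 0 ≤ ∑ i, SpecA.Dv rs p s ω (ze E η) (b i) :=
          Finset.sum_nonneg fun i _ => hD0 _
        have t3 : 0 ≤ ∑ i, Real.sqrt (cpl (Sv 1 p h0) (Rr p s ω (ze E η)) p (b i)) :=
          Finset.sum_nonneg fun i _ => Real.sqrt_nonneg _
        have t4 : 0 ≤ ∑ i, ∑ j ∈ Finset.univ.erase i,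
            Real.sqrt (cpl2 (Rr p s ω (ze E η)) p (b i) (b j)) :=
          Finset.sum_nonneg fun i _ => Finset.sum_nonneg fun j _ => Real.sqrt_nonneg _
        exact mul_nonneg hC3 (add_nonneg (add_nonneg (add_nonneg t1 (abs_nonneg s)) t3) t4))

/-- the constant of `inner3` -/
noncomputable def K3c (d : ℕ) [NeZero d] (y0 rs ε M C0 CL0 C1 : ℝ) : ℝ :=
  K1 d y0 rs ε M C1 + CM y0 rs * K2 d y0 rs ε M C0 CL0 + CM y0 rs

theorem K3c_nonneg (hy : 0 < y0) (hrs : 0 < rs) (hM : 0 ≤ M) (hC1 : 0 ≤ C1) :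
    0 ≤ K3c d y0 rs ε M C0 CL0 C1 := by
  have h1 := K1_nonneg (d := d) (rs := rs) (ε := ε) hy hM hC1
  have h2 := K2_nonneg (d := d) (y0 := y0) (rs := rs) (ε := ε) (C0 := C0) (CL0 := CL0) hM
  have h3 := CM_nonneg hy hrs
  unfold K3c
  positivity

open Classical in
theorem inner3 (hd : 3 ≤ d) (hrs : 0 < rs) (hrs1 : rs ≤ 1) (hε : 0 < ε) (hM0 : 0 ≤ M)
    (hM : GoodM d A rs M)
    (hC0 : 0 ≤ C0) (hCL0 : 0 ≤ CL0) (hS0 : S0P d 1 A rs ε C0 CL0)
    (hC1 : 0 ≤ C1) (hSM : SMP d A rs ε C1) (hR : Rng A n E s η ω) (hp : IsPort p)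
    (hadm : TreeDet350.Adm (d - 1) y0 (ze E η) (mc d (ze E η))) (hκ1 : 1 / (n * η) ≤ 1) :
    ‖avC (fun b : BI d 1 → HE n d => if BVal 1 p h0 b then
        muA (rs / 2) (mc d (ze E η)) (B0 (np p h0 b) s ω (ze E η) h0) else
        (1 - mc d (ze E η) ^ 2) * mc d (ze E η) ^ 2 *
          ∑ i ∈ Iside 1 false, yP p s ω (ze E η) (b i)) -
      (((d : ℂ) - 1) * mc d (ze E η) ^ 2) * SpecA.mup rs p s ω (ze E η)‖ ≤
      K3c d y0 rs ε M C0 CL0 C1 *
        (SpecA.Vp rs p s ω (ze E η) + |s| + Real.sqrt (1 / (n * η))) := by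
  have hη := hR.η0
  have hn : (0 : ℝ) < n := by exact_mod_cast hR.n0
  have hne : Nonempty (HE n d) := ⟨(⟨0, hR.n0⟩, ⟨0, Nat.pos_of_ne_zero (NeZero.ne d)⟩)⟩
  have hz : 0 < (ze E η).im := by simpa [ze] using hR.η0
  have hCM := CM_nonneg hadm.hy hrs
  have hdm := norm_sq_m hd hadm
  have i1 := inner1 (h0 := h0) hd hrs hε hM0 hM hC1 hSM hR hp hadm hκ1
  have i2 := inner2 (h0 := h0) (y0 := y0) hrs hrs1 hε hM0 hM hC0 hCL0 hS0 hR hp hadm
  have i3 := mup_sub hadm hz hrs hp s ω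
  set m := mc d (ze E η) with hm
  set V := SpecA.Vp rs p s ω (ze E η) with hV
  set κ : ℝ := 1 / (n * η) with hκ
  have hκ0 : 0 ≤ κ := by rw [hκ]; positivity
  have hV0 : 0 ≤ V := by
    rw [hV, Vp_av1]; exact av1_nonneg fun x => sq_nonneg _
  set T0 := avc (yP p s ω (ze E η)) with hT0
  set f : (BI d 1 → HE n d) → ℂ := fun b => if BVal 1 p h0 b then
        (1 - m ^ 2) * yP (np p h0 b) s ω (ze E η) h0 else
        (1 - m ^ 2) * m ^ 2 * ∑ i ∈ Iside 1 false, yP p s ω (ze E η) (b i) with hf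
  set g : (BI d 1 → HE n d) → ℂ := fun b => if BVal 1 p h0 b then
        muA (rs / 2) m (B0 (np p h0 b) s ω (ze E η) h0) else
        (1 - m ^ 2) * m ^ 2 * ∑ i ∈ Iside 1 false, yP p s ω (ze E η) (b i) with hg
  have hfg : ‖avC g - avC f‖ ≤ CM y0 rs * (K2 d y0 rs ε M C0 CL0 * (V + |s| ^ 2 + κ)) := by
    rw [avC_sub]
    refine (norm_avC_le _).trans ?_
    refine le_trans ?_ (mul_le_mul_of_nonneg_left i2 hCM)
    rw [← av_const_mul]
    refine av_mono fun b => ?_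
    simp only [hf, hg]
    by_cases hv : BVal 1 p h0 b
    · simp only [hv, if_true]
      exact muA_sub hadm hrs (im_B0_pos (hv.isPort le_rfl hp) s ω hz h0 0).le
    · simp only [hv, if_false, sub_self, norm_zero]
      positivity
  have hT : ‖(1 - m ^ 2) * m ^ 2 * ((d : ℂ) - 1) * T0 -
      (((d : ℂ) - 1) * m ^ 2) * SpecA.mup rs p s ω (ze E η)‖ ≤ CM y0 rs * V := by
    have e : (1 - m ^ 2) * m ^ 2 * ((d : ℂ) - 1) * T0 -
        (((d : ℂ) - 1) * m ^ 2) * SpecA.mup rs p s ω (ze E η) =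
        -((((d : ℂ) - 1) * m ^ 2) * (SpecA.mup rs p s ω (ze E η) - (1 - m ^ 2) * T0)) := by
      ring
    rw [e, norm_neg, norm_mul]
    calc _ ≤ 1 * (CM y0 rs * V) := mul_le_mul hdm i3 (norm_nonneg _) zero_le_one
      _ = _ := one_mul _
  have hs2 : |s| ^ 2 ≤ |s| := by
    have := hR.s
    have := abs_nonneg s
    nlinarith
  have hκs : κ ≤ Real.sqrt κ := by
    apply Real.le_sqrt_of_sq_le
    nlinarith
  have hK2 := K2_nonneg (d := d) (y0 := y0) (rs := rs) (ε := ε) (C0 := C0) (CL0 := CL0) hM0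
  have hsq : 0 ≤ Real.sqrt κ := Real.sqrt_nonneg _
  have hs0 := abs_nonneg s
  have b1 : CM y0 rs * (K2 d y0 rs ε M C0 CL0 * (V + |s| ^ 2 + κ)) ≤
      CM y0 rs * K2 d y0 rs ε M C0 CL0 * (V + |s| + Real.sqrt κ) := by
    rw [← mul_assoc]
    exact mul_le_mul_of_nonneg_left (by linarith) (mul_nonneg hCM hK2)
  have b2 : CM y0 rs * V ≤ CM y0 rs * (V + |s| + Real.sqrt κ) :=
    mul_le_mul_of_nonneg_left (by linarith) hCM
  have tri : ‖avC g - (((d : ℂ) - 1) * m ^ 2) * SpecA.mup rs p s ω (ze E η)‖ ≤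
      ‖avC g - avC f‖ + ‖avC f - (1 - m ^ 2) * m ^ 2 * ((d : ℂ) - 1) * T0‖ +
        ‖(1 - m ^ 2) * m ^ 2 * ((d : ℂ) - 1) * T0 -
          (((d : ℂ) - 1) * m ^ 2) * SpecA.mup rs p s ω (ze E η)‖ := by
    have e : avC g - (((d : ℂ) - 1) * m ^ 2) * SpecA.mup rs p s ω (ze E η) =
        (avC g - avC f) + (avC f - (1 - m ^ 2) * m ^ 2 * ((d : ℂ) - 1) * T0) +
          ((1 - m ^ 2) * m ^ 2 * ((d : ℂ) - 1) * T0 -
            (((d : ℂ) - 1) * m ^ 2) * SpecA.mup rs p s ω (ze E η)) := by ring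
    rw [e]
    exact norm_add₃_le
  refine tri.trans ?_
  unfold K3c
  rw [add_mul, add_mul]
  linarith

end inner

omit [NeZero d] in
theorem book1 {K B Ci V s q κ' S τ : ℝ} (hK0 : 0 ≤ K) (hB0 : 0 ≤ B) (hCi0 : 0 ≤ Ci)
    (hV0 : 0 ≤ V) (hs0 : 0 ≤ s) (hS0 : 0 ≤ S) (h1 : q ≤ S) (h2 : κ' ≤ Ci * S) (hτs : τ ≤ S) :
    K * (V + s + q) + 2 * B * κ' + 2 * B * τ ≤
      (K + 2 * B * Ci + 2 * B + 6 * B) * (V + s + S) := by
  have t1 : K * (V + s + q) ≤ K * (V + s + S) :=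
    mul_le_mul_of_nonneg_left (by linarith) hK0
  have t2 : 2 * B * κ' ≤ 2 * B * (Ci * S) :=
    mul_le_mul_of_nonneg_left h2 (by positivity)
  have t3 : 2 * B * τ ≤ 2 * B * S := mul_le_mul_of_nonneg_left hτs (by positivity)
  have t4 : 0 ≤ (2 * B * Ci + 2 * B) * (V + s) := by positivity
  have t5 : 0 ≤ 6 * B * (V + s + S) := by positivity
  have e : (K + 2 * B * Ci + 2 * B + 6 * B) * (V + s + S) =
      K * (V + s + S) + 2 * B * (Ci * S) + 2 * B * S + (2 * B * Ci + 2 * B) * (V + s) +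
        6 * B * (V + s + S) := by ring
  rw [e]
  linarith

omit [NeZero d] in
theorem book2 {K B Ci V s S τ : ℝ} (hK0 : 0 ≤ K) (hB0 : 0 ≤ B) (hCi0 : 0 ≤ Ci)
    (hV0 : 0 ≤ V) (hs0 : 0 ≤ s) (hS1 : 1 ≤ S) (hτ1 : τ ≤ 1) :
    2 * B + 2 * B * 1 + 2 * B * τ ≤
      (K + 2 * B * Ci + 2 * B + 6 * B) * (V + s + S) := by
  have t0 : 2 * B * τ ≤ 2 * B * 1 := mul_le_mul_of_nonneg_left hτ1 (by positivity)
  have t1 : 6 * B * 1 ≤ 6 * B * S := mul_le_mul_of_nonneg_left hS1 (by positivity)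
  have hS0 : 0 ≤ S := by linarith
  have t2 : 0 ≤ (K + 2 * B * Ci + 2 * B) * (V + s + S) := by positivity
  have t3 : 0 ≤ 6 * B * (V + s) := by positivity
  have e : (K + 2 * B * Ci + 2 * B + 6 * B) * (V + s + S) =
      (K + 2 * B * Ci + 2 * B) * (V + s + S) + 6 * B * (V + s) + 6 * B * S := by ring
  rw [e]
  linarith

/-- **(H2)** -/
theorem h2P {A rs ε M C0 CL0 C1 : ℝ} (hd : 3 ≤ d) (hA2 : A ^ 2 < 4 * ((d : ℝ) - 1))
    (hrs : 0 < rs) (hrs1 : rs ≤ 1) (hε : 0 < ε) (hM0 : 0 ≤ M) (hM : GoodM d A rs M)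
    (hC0 : 0 ≤ C0) (hCL0 : 0 ≤ CL0) (hS0 : S0P d 1 A rs ε C0 CL0)
    (hC1 : 0 ≤ C1) (hSM : SMP d A rs ε C1) :
    ∃ C : ℝ, 0 < C ∧ H2P d A rs C (fun _ s ω z p => H4.gm 1 rs s ω z p) := by
  classical
  set y0 := y00 d A with hy0
  have hy : 0 < y0 := y00_pos (by omega) hA2
  have hBB := BB_pos hy
  set K := K3c d y0 rs ε M C0 CL0 C1 with hK
  have hK0 : 0 ≤ K := K3c_nonneg hy hrs hM0 hC1
  set B : ℝ := 1 + 3 / 2 * BB y0 with hB
  have hB1 : 1 ≤ B := by rw [hB]; linarith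
  have hB0 : 0 ≤ B := by linarith
  set Ci : ℝ := (SwInv356.Cinv d 1 : ℝ) with hCi
  have hCi0 : 0 ≤ Ci := Nat.cast_nonneg _
  refine ⟨K + 2 * B * Ci + 2 * B + 6 * B, by positivity, ?_⟩
  intro n E s η ω hR p hp
  have hη := hR.η0
  have hn : (0 : ℝ) < n := by exact_mod_cast hR.n0
  have hne : Nonempty (HE n d) := ⟨(⟨0, hR.n0⟩, ⟨0, Nat.pos_of_ne_zero (NeZero.ne d)⟩)⟩
  have hz : 0 < (ze E η).im := by simpa [ze] using hR.η0
  have hadm : TreeDet350.Adm (d - 1) y0 (ze E η) (mc d (ze E η)) :=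
    adm_of hd hA2 hR.E hη hR.η1
  have hdm := norm_sq_m hd hadm
  set m := mc d (ze E η) with hm
  set V := SpecA.Vp rs p s ω (ze E η) with hV
  have hV0 : 0 ≤ V := by
    rw [hV, Vp_av1]; exact av1_nonneg fun x => sq_nonneg _
  set κ : ℝ := 1 / (n * η) with hκ
  have hκ0 : 0 ≤ κ := by rw [hκ]; positivity
  set τ : ℝ := pr1 (fun h : HE n d => ¬ TL 1 p h) with hτ
  have hτ0 : 0 ≤ τ := pr1_nonneg _
  have hτ1 : τ ≤ 1 := by
    have : pr1 (fun h : HE n d => ¬ TL 1 p h) ≤ av1 (fun _ : HE n d => (1 : ℝ)) := by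
      unfold pr1
      apply av1_mono; intro x; split_ifs <;> norm_num
    exact this.trans (av1_le_const fun _ => le_rfl)
  set T : ℂ := (((d : ℂ) - 1) * m ^ 2) * SpecA.mup rs p s ω (ze E η) with hT
  have hmup : ‖SpecA.mup rs p s ω (ze E η)‖ ≤ rs := by
    rw [mup_avc]
    refine (norm_avc_le' _).trans (av1_le_const fun x => ?_)
    refine (muA_le (half_pos hrs) _ _).trans (le_of_eq (by ring))
  have hTB : ‖T‖ ≤ B := by
    rw [hT, norm_mul]
    calc _ ≤ 1 * rs := mul_le_mul hdm hmup (norm_nonneg _) zero_le_one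
      _ ≤ B := by linarith
  have hcardI' : ((Iside (d := d) 1 false).card : ℝ) = (d : ℝ) - 1 := by
    rw [card_Iside, Nat.cast_sub (by omega)]; simp
  have hm2 : ‖m‖ ^ 2 * ((d : ℝ) - 1) ≤ 1 := by
    have h1 : ‖((d : ℂ) - 1) * m ^ 2‖ = ‖m‖ ^ 2 * ((d : ℝ) - 1) := by
      have hc : ((Iside (d := d) 1 false).card : ℂ) = (d : ℂ) - 1 := by
        rw [card_Iside, Nat.cast_sub (by omega)]; simp
      rw [← hc, norm_mul, Complex.norm_natCast, norm_pow, hcardI', mul_comm]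
    rw [h1] at hdm
    exact hdm
  set G : HE n d → (BI d 1 → HE n d) → ℂ := fun _ b =>
    (1 - m ^ 2) * m ^ 2 * ∑ i ∈ Iside 1 false, yP p s ω (ze E η) (b i) with hG
  have hGB : ∀ h0 b, ‖G h0 b‖ ≤ B := by
    intro h0 b
    simp only [hG]
    rw [norm_mul, norm_mul, norm_pow]
    have h1 : ‖∑ i ∈ Iside (d := d) 1 false, yP p s ω (ze E η) (b i)‖ ≤
        ((d : ℝ) - 1) * BB y0 := by
      refine (norm_sum_le _ _).trans ?_
      refine (Finset.sum_le_card_nsmul _ _ (BB y0) fun i _ =>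
        hadm.norm_uu_le (im_B0_pos hp s ω hz (b i) 0).le).trans ?_
      rw [nsmul_eq_mul, hcardI']
    calc ‖1 - m ^ 2‖ * ‖m‖ ^ 2 * ‖∑ i ∈ Iside (d := d) 1 false, yP p s ω (ze E η) (b i)‖
        ≤ 3 / 2 * ‖m‖ ^ 2 * (((d : ℝ) - 1) * BB y0) := by
          refine mul_le_mul (mul_le_mul_of_nonneg_right hadm.norm_a_le (sq_nonneg _)) h1
            (norm_nonneg _) (by positivity)
      _ = 3 / 2 * (‖m‖ ^ 2 * ((d : ℝ) - 1)) * BB y0 := by ring
      _ ≤ 3 / 2 * 1 * BB y0 := by gcongr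
      _ ≤ B := by rw [hB]; linarith
  have hs0 := abs_nonneg s
  have hsq0 : 0 ≤ Real.sqrt (κ + τ) := Real.sqrt_nonneg _
  have hτs : τ ≤ Real.sqrt (κ + τ) := by
    apply Real.le_sqrt_of_sq_le
    nlinarith
  by_cases hκ1 : κ ≤ 1
  · have hX : 0 ≤ K * (V + |s| + Real.sqrt κ) := by positivity
    have h := glue_gm (L := 1) (B := B) (X := K * (V + |s| + Real.sqrt κ)) (cI := Ci / n)
      hR.n0 hrs (by linarith : rs ≤ B) hGB hTB hX (by positivity)
      (fun h0 htl => pr_inv_le hR.n0 hp htl)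
      (fun h0 _ => inner3 hd hrs hrs1 hε hM0 hM hC0 hCL0 hS0 hC1 hSM hR hp hadm hκ1)
    rw [nonTL_eq] at h
    refine h.trans ?_
    have hκs : κ ≤ Real.sqrt (κ + τ) := by
      apply Real.le_sqrt_of_sq_le
      nlinarith
    have h1 : Real.sqrt κ ≤ Real.sqrt (κ + τ) := Real.sqrt_le_sqrt (by linarith)
    have h2 : Ci / n ≤ Ci * Real.sqrt (κ + τ) := by
      have h3 : 1 / (n : ℝ) ≤ κ := by
        rw [hκ]
        apply one_div_le_one_div_of_le (by positivity)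
        nlinarith [hR.η1]
      calc Ci / n = Ci * (1 / n) := by ring
        _ ≤ Ci * Real.sqrt (κ + τ) := mul_le_mul_of_nonneg_left (h3.trans hκs) hCi0
    exact book1 hK0 hB0 hCi0 hV0 hs0 hsq0 h1 h2 hτs
  · push Not at hκ1
    have hX : 0 ≤ 2 * B := by positivity
    have h := glue_gm (L := 1) (B := B) (X := 2 * B) (cI := 1)
      hR.n0 hrs (by linarith : rs ≤ B) hGB hTB hX zero_le_one
      (fun h0 htl => pr_le_one _)
      (fun h0 _ => by
        refine (norm_sub_le _ _).trans ?_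
        have h1 : ‖avC (fun b : BI d 1 → HE n d => if BVal 1 p h0 b then
            muA (rs / 2) (mc d (ze E η)) (B0 (np p h0 b) s ω (ze E η) h0) else G h0 b)‖ ≤ B := by
          refine (norm_avC_le _).trans ?_
          have h2 : av (fun b : BI d 1 → HE n d => ‖(if BVal 1 p h0 b then
              muA (rs / 2) (mc d (ze E η)) (B0 (np p h0 b) s ω (ze E η) h0) else G h0 b)‖) ≤
              av (fun _ : BI d 1 → HE n d => B) := by
            refine av_mono fun b => ?_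
            split_ifs
            · refine (muA_le (half_pos hrs) _ _).trans ?_
              linarith
            · exact hGB h0 b
          rwa [av_const] at h2
        linarith)
    rw [nonTL_eq] at h
    refine h.trans ?_
    have h1 : 1 ≤ Real.sqrt (κ + τ) := by
      rw [Real.one_le_sqrt]
      linarith
    exact book2 hK0 hB0 hCi0 hV0 hs0 h1 hτ1

end Crest.Agent.R166.H2
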