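import Crest.Agent.R166.Dec4_598

/-!
# Row 166, section 30.3: final forms of the decoupling theorem (helper598)
-/

set_option autoImplicit false
set_option linter.unusedSectionVars false

open Matrix

namespace Crest.Agent.R166.Dec598

open Crest.Agent.R166.Res598

section forms

variable {T B A J ι : Type*} [Fintype T] [DecidableEq T] [Fintype B] [DecidableEq B]
  [Fintype A] [DecidableEq A] [Fintype J] [DecidableEq J] [Fintype ι] [DecidableEq ι]

lemma siegel_entry_pos {Z : Matrix ι ι ℂ} (hZ : Siegel Z) (i : ι) : 0 < (Z i i).im := by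
  have := hZ.pos.diag_pos (i := i)
  simpa using this

lemma siegel_entry_symm {Z : Matrix ι ι ℂ} (hZ : Siegel Z) (i j : ι) : Z i j = Z j i := by
  have := congrFun (congrFun hZ.symm j) i
  simpa using this

/-- **form 1** (no arbitrary input): the tree sees a diagonal leaf matrix, quadratically close to
the cavity values. -/
theorem form_good [IsEmpty A] (σ : A ⊕ J ≃ ι) {RT : Matrix T T ℂ} (hR : Siegel RT) (t : ι → T)
    {Sg : Matrix B B ℂ} (hSg : Siegel Sg) {C : J → Matrix (Fin 2) (Fin 2) ℂ}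
    (hC : ∀ j, Siegel (C j)) (aJ : J → B) {uA : A → B} (huA : Function.Injective uA)
    {h0 : ℝ} (hh0 : 0 < h0) (hX : ∀ j, h0 ≤ (C j 0 0).im) (hW : ∀ j, h0 ≤ (C j 1 1).im)
    (ho : ∀ j, ‖C j 0 1‖ ≤ h0 / 2) {δ κ : ℝ}
    (hδ : (∑ j, ∑ k, if j = k then 0 else 2 * (‖C j 0 1‖ * ‖C k 0 1‖) / h0 ^ 2) ≤ δ)
    (hδ2 : δ ≤ 1 / 2) (hκ : 0 ≤ κ) {M : Matrix T T ℂ}
    (hN : Near κ (treeOut RT (t ∘ σ) (leafXi Sg C aJ uA)) M) :
    ∃ xh : ι → ℂ, (∀ j : J, ‖xh (σ (Sum.inr j)) - C j 0 0‖ ≤ ‖C j 0 1‖ ^ 2 / h0) ∧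
      (∀ i, h0 / 2 ≤ (xh i).im) ∧
      Near (2 * δ + κ * (1 + 2 * δ)) (treeOut RT t (diagonal xh)) M := by
  set Ξ := leafXi Sg C aJ uA with hΞ
  have hΞs : Siegel Ξ := siegel_leafXi hSg hC aJ huA
  set xh0 : A ⊕ J → ℂ := fun i => Ξ i i with hxh0
  -- bounds
  have hsq : Real.sqrt h0 * Real.sqrt h0 = h0 := Real.mul_self_sqrt hh0.le
  have hs0 : 0 < Real.sqrt h0 := Real.sqrt_pos.2 hh0
  have hwk : ∀ k : J, ‖C k 0 1‖ / Real.sqrt (C k 1 1).im ≤ ‖C k 0 1‖ / Real.sqrt h0 := fun k =>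
    div_le_div_of_nonneg_left (norm_nonneg _) hs0 (Real.sqrt_le_sqrt (hW k))
  have hent : ∀ j k : J, ‖Ξ (Sum.inr j) (Sum.inr k) - (if j = k then C j 0 0 else 0)‖ ≤
      ‖C j 0 1‖ * ‖C k 0 1‖ / h0 := by
    intro j k
    refine le_trans (leafXi_entry hSg hC aJ uA j k) ?_
    refine le_trans (mul_le_mul (hwk j) (hwk k)
      (div_nonneg (norm_nonneg _) (Real.sqrt_nonneg _))
      (div_nonneg (norm_nonneg _) (Real.sqrt_nonneg _))) (le_of_eq ?_)
    rw [div_mul_div_comm, hsq]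
  have hdiag : ∀ j : J, ‖xh0 (Sum.inr j) - C j 0 0‖ ≤ ‖C j 0 1‖ ^ 2 / h0 := by
    intro j
    have := hent j j
    rw [if_pos rfl] at this
    rw [sq]
    exact this
  have him : ∀ j : J, h0 / 2 ≤ (xh0 (Sum.inr j)).im := by
    intro j
    have h1 := hdiag j
    have h2 : ‖C j 0 1‖ ^ 2 / h0 ≤ h0 / 4 := by
      rw [div_le_iff₀ hh0]
      have h3 := ho j
      nlinarith [norm_nonneg (C j 0 1)]
    have h4 : |(xh0 (Sum.inr j) - C j 0 0).im| ≤ h0 / 4 :=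
      le_trans (Complex.abs_im_le_norm _) (le_trans h1 h2)
    rw [Complex.sub_im] at h4
    have := (abs_le.1 h4).1
    have := hX j
    linarith
  have him' : ∀ i : A ⊕ J, h0 / 2 ≤ (xh0 i).im := by
    rintro (a | j)
    · exact isEmptyElim a
    · exact him j
  have hpos : ∀ i : A ⊕ J, 0 < (xh0 i).im := fun i => lt_of_lt_of_le (by linarith) (him' i)
  have hsum0 : 0 ≤ ∑ j, ∑ k, if j = k then 0 else 2 * (‖C j 0 1‖ * ‖C k 0 1‖) / h0 ^ 2 := by
    apply Finset.sum_nonneg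
    intro j _
    apply Finset.sum_nonneg
    intro k _
    split_ifs
    · exact le_refl _
    · positivity
  have hδ0 : 0 ≤ δ := le_trans hsum0 hδ
  -- Near the diagonal
  set b : A ⊕ J → A ⊕ J → ℝ := fun i k => match i, k with
    | Sum.inr j, Sum.inr k => 2 * (‖C j 0 1‖ * ‖C k 0 1‖) / h0 ^ 2
    | _, _ => 0 with hb
  have hnd := near_diagonal hΞs.symm (b := b) hpos (by
    rintro (a | j) (a' | k) hik
    · exact isEmptyElim a
    · exact isEmptyElim a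
    · exact isEmptyElim a'
    · have hjk : j ≠ k := fun h => hik (by rw [h])
      have h1 := hent j k
      rw [if_neg hjk, sub_zero] at h1
      refine le_trans h1 ?_
      have h2 : h0 / 2 ≤ Real.sqrt (xh0 (Sum.inr j)).im * Real.sqrt (xh0 (Sum.inr k)).im := by
        rw [← Real.sqrt_mul (hpos _).le]
        apply Real.le_sqrt_of_sq_le
        have h3 := him j
        have h4 := him k
        nlinarith
      have h5 : ‖C j 0 1‖ * ‖C k 0 1‖ / h0 =
          2 * (‖C j 0 1‖ * ‖C k 0 1‖) / h0 ^ 2 * (h0 / 2) := by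
        field_simp
      rw [h5]
      exact mul_le_mul_of_nonneg_left h2 (by positivity)) (by
    rintro (a | j) (a' | k)
    · exact le_refl _
    · exact le_refl _
    · exact le_refl _
    · simp only [hb]; positivity)
  have hsum : (∑ i, ∑ k, if i = k then 0 else b i k) ≤ δ := by
    refine le_trans (le_of_eq ?_) hδ
    rw [Fintype.sum_sum_type, Fintype.sum_empty, zero_add]
    refine Finset.sum_congr rfl fun j _ => ?_
    rw [Fintype.sum_sum_type, Fintype.sum_empty, zero_add]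
    refine Finset.sum_congr rfl fun k _ => ?_
    by_cases h : j = k
    · simp [h]
    · rw [if_neg (fun h' => h (Sum.inr_injective h')), if_neg h]
  have hnd' := hnd.mono hsum
  have hds : Siegel (diagonal xh0) := siegel_diagonal hpos
  have h1 := near_treeOut hδ0 (by linarith) hR (t ∘ σ) hds hnd'
  have h2 : δ / (1 - δ) ≤ 2 * δ := by
    rw [div_le_iff₀ (by linarith)]
    nlinarith
  have h3 := h1.mono h2
  have h4 := near_trans (by linarith) hκ (siegel_treeOut hR _ hds) h3 hN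
  refine ⟨xh0 ∘ σ.symm, fun j => ?_, fun i => him' _, ?_⟩
  · simpa using hdiag j
  · have h5 : (diagonal (xh0 ∘ σ.symm)).submatrix σ σ = diagonal xh0 := by
      rw [submatrix_diagonal _ _ σ.injective]
      congr 1
      ext i
      simp
    have h6 : Siegel (diagonal (xh0 ∘ σ.symm)) := siegel_diagonal fun i => hpos _
    rw [← treeOut_reindex σ hR t h6, h5]
    exact h4

/-- **form 2** (arbitrary inputs on `A`) -/
theorem form_gen (σ : A ⊕ J ≃ ι) {RT : Matrix T T ℂ} (hR : Siegel RT) (t : ι → T)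
    {Sg : Matrix B B ℂ} (hSg : Siegel Sg) {C : J → Matrix (Fin 2) (Fin 2) ℂ}
    (hC : ∀ j, Siegel (C j)) (aJ : J → B) {uA : A → B} (huA : Function.Injective uA)
    {ρ κ : ℝ} (hρ0 : 0 ≤ ρ) (hρ : ρ ≤ 1 / 4)
    (ho : ∀ j, ‖C j 0 1‖ ≤ ρ * (Real.sqrt (C j 0 0).im * Real.sqrt (C j 1 1).im))
    (hκ : 0 ≤ κ) {M : Matrix T T ℂ}
    (hN : Near κ (treeOut RT (t ∘ σ) (leafXi Sg C aJ uA)) M) :
    ∃ Ξ : Matrix ι ι ℂ, Siegel Ξ ∧
      (∀ (j : J) (k : ι), Ξ (σ (Sum.inr j)) k = if k = σ (Sum.inr j) then C j 0 0 else 0) ∧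
      Near (4 * ρ + κ * (1 + 4 * ρ)) (treeOut RT t Ξ) M := by
  obtain ⟨XA, hXA, hnear⟩ := leafXi_near hSg hC hρ0 (by linarith) ho aJ huA
  have hd : Siegel (diagonal fun j => C j 0 0) := siegel_diagonal fun j => siegel_entry_pos (hC j) 0
  set Ξ0 : Matrix (A ⊕ J) (A ⊕ J) ℂ := fromBlocks XA 0 0 (diagonal fun j => C j 0 0) with hΞ0
  have hΞ0s : Siegel Ξ0 := siegel_fromBlocks hXA hd
  have h1 : ρ / (1 - ρ) ≤ 2 * ρ := by
    rw [div_le_iff₀ (by linarith)]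
    nlinarith
  have h2 := near_treeOut (by linarith : 0 ≤ 2 * ρ) (by linarith) hR (t ∘ σ) hΞ0s (hnear.mono h1)
  have h3 : 2 * ρ / (1 - 2 * ρ) ≤ 4 * ρ := by
    rw [div_le_iff₀ (by linarith)]
    nlinarith
  have h4 := near_trans (by linarith) hκ (siegel_treeOut hR _ hΞ0s) (h2.mono h3) hN
  have hs : (Ξ0.submatrix σ.symm σ.symm).submatrix σ σ = Ξ0 := by
    ext i k; simp
  have hΞs : Siegel (Ξ0.submatrix σ.symm σ.symm) := hΞ0s.sub σ.symm.injective
  refine ⟨Ξ0.submatrix σ.symm σ.symm, hΞs, fun j k => ?_, ?_⟩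
  · rw [Matrix.submatrix_apply, Equiv.symm_apply_apply]
    obtain ⟨k', rfl⟩ := σ.surjective k
    rw [Equiv.symm_apply_apply]
    rcases k' with a | k
    · rw [hΞ0, fromBlocks_apply₂₁, if_neg]
      · rfl
      · intro h
        have := σ.injective h
        simp at this
    · rw [hΞ0, fromBlocks_apply₂₂, diagonal_apply]
      by_cases h : j = k
      · subst h; simp
      · rw [if_neg h, if_neg]
        intro h'
        exact h (Sum.inr_injective (σ.injective h')).symm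
  · rw [← treeOut_reindex σ hR t hΞs, hs]
    exact h4

end forms

section vertex

variable {V T ι : Type*} [Fintype V] [DecidableEq V] [Fintype T] [DecidableEq T]
  [Fintype ι] [DecidableEq ι]
  {H : Matrix V V ℝ} {φ : T → V} {a : ι → V} {e : ι → Fin 2 → V} {t : ι → T}

lemma div_one_sub_le {k : ℝ} (h0 : 0 ≤ k) (h : k ≤ 1 / 2) : k / (1 - k) ≤ 2 * k := by
  rw [div_le_iff₀ (by linarith)]
  nlinarith

lemma kap_nonneg (A : Finset ι) {c : ℝ} (hc : 0 < c) (R : Matrix V V ℂ) (φ : T → V) (a : ι → V)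
    (e : ι → Fin 2 → V) : 0 ≤ kap A c R φ a e := by
  unfold kap cT
  have : 0 ≤ ∑ j : {i // ¬ i ∈ A}, ∑ k : {i // ¬ i ∈ A}, (if j = k then 0 else
      Real.sqrt (cP (R.submatrix (Phi A φ a e) (Phi A φ a e)) j k)) :=
    Finset.sum_nonneg fun j _ => Finset.sum_nonneg fun k _ => by
      split_ifs
      · exact le_refl _
      · exact Real.sqrt_nonneg _
  positivity

lemma siegel_block (h : Sites H φ a e t) {z : ℂ} (hz : 0 < z.im) (i : ι) :
    Siegel ((Res789.Res H z).submatrix (e i) (e i)) := by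
  apply (siegel_Res h.symm hz).sub
  intro k l hkl
  have := h.inj (a₁ := Sum.inr (Sum.inr (k, i))) (a₂ := Sum.inr (Sum.inr (l, i)))
    (by simpa using hkl)
  exact (Prod.mk.inj (Sum.inr_injective (Sum.inr_injective this))).1

lemma siegel_hT (h : Sites H φ a e t) {W0 : Matrix T T ℝ} (hW : W0ᵀ = W0) {z : ℂ}
    (hz : 0 < z.im) : Siegel (Res789.Res (hT H φ W0) z) := by
  apply siegel_Res _ hz
  rw [hT, Matrix.transpose_add, Matrix.transpose_submatrix, h.symm, hW]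

/-- **(30.3), all inputs good.** -/
theorem dec_good (h : Sites H φ a e t) {W0 : Matrix T T ℝ} (hW : W0ᵀ = W0) {z : ℂ}
    (hz : 0 < z.im) {c h0 : ℝ} (hc : 0 < c) (hh0 : 0 < h0)
    (hB : ∀ j, ∀ y : Fin 2 → ℂ, c * ∑ i, ‖y i‖ ^ 2 ≤
      qf (imM ((Res789.Res H z).submatrix (e j) (e j))) y)
    (hX : ∀ j, h0 ≤ (B0 ((Res789.Res H z).submatrix (e j) (e j)) 0 0).im)
    (hXw : ∀ j, h0 ≤ (B0 ((Res789.Res H z).submatrix (e j) (e j)) 1 1).im)
    (ho : ∀ j, ‖B0 ((Res789.Res H z).submatrix (e j) (e j)) 0 1‖ ≤ h0 / 2) {δ κ : ℝ}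
    (hδ : (∑ j, ∑ k, if j = k then 0 else
      2 * (‖B0 ((Res789.Res H z).submatrix (e j) (e j)) 0 1‖ *
        ‖B0 ((Res789.Res H z).submatrix (e k) (e k)) 0 1‖) / h0 ^ 2) ≤ δ)
    (hδ2 : δ ≤ 1 / 2) (hκ : kap ∅ c (Res789.Res H z) φ a e ≤ κ) (hκ2 : κ ≤ 1 / 2) :
    ∃ xh : ι → ℂ, (∀ i, ‖xh i - B0 ((Res789.Res H z).submatrix (e i) (e i)) 0 0‖ ≤
        ‖B0 ((Res789.Res H z).submatrix (e i) (e i)) 0 1‖ ^ 2 / h0) ∧
      (∀ i, h0 / 2 ≤ (xh i).im) ∧
      Near (2 * δ + 4 * κ) (treeOut (Res789.Res (hT H φ W0) z) t (diagonal xh))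
        ((Res789.Res (H + PT φ a e t W0) z).submatrix φ φ) := by
  have hk0 := kap_nonneg ∅ hc (Res789.Res H z) φ a e
  obtain ⟨Sg, hSg, hN⟩ := dec_vertex ∅ h hW hz hc (fun j _ => hB j) (by linarith)
  have hN' := hN.mono (le_trans (div_one_sub_le hk0 (by linarith))
    (by linarith : 2 * kap ∅ c (Res789.Res H z) φ a e ≤ 2 * κ))
  have hE : IsEmpty {i // i ∈ (∅ : Finset ι)} := ⟨fun i => absurd i.2 (Finset.notMem_empty _)⟩
  have hδ0 : 0 ≤ δ := le_trans (Finset.sum_nonneg fun j _ => Finset.sum_nonneg fun k _ => by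
    split_ifs
    · exact le_refl _
    · positivity) hδ
  have hδ' : (∑ j : {i // ¬ i ∈ (∅ : Finset ι)}, ∑ k : {i // ¬ i ∈ (∅ : Finset ι)},
      if j = k then 0 else
      2 * (‖B0 ((Res789.Res H z).submatrix (e j.1) (e j.1)) 0 1‖ *
        ‖B0 ((Res789.Res H z).submatrix (e k.1) (e k.1)) 0 1‖) / h0 ^ 2) ≤ δ := by
    refine le_trans (le_of_eq ?_) hδ
    set F : ι → ι → ℝ := fun j k => if j = k then 0 else
      2 * (‖B0 ((Res789.Res H z).submatrix (e j) (e j)) 0 1‖ *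
        ‖B0 ((Res789.Res H z).submatrix (e k) (e k)) 0 1‖) / h0 ^ 2 with hF
    have hE2 : ∀ f : ι → ℝ, ∑ j : {i // ¬ i ∈ (∅ : Finset ι)}, f j.1 = ∑ j, f j := by
      intro f
      exact Fintype.sum_equiv (Equiv.subtypeUnivEquiv (fun i => Finset.notMem_empty i)) _ _
        (fun _ => rfl)
    calc _ = ∑ j : {i // ¬ i ∈ (∅ : Finset ι)}, ∑ k : {i // ¬ i ∈ (∅ : Finset ι)}, F j.1 k.1 := by
          refine Finset.sum_congr rfl fun j _ => Finset.sum_congr rfl fun k _ => ?_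
          simp only [hF, Subtype.ext_iff]
      _ = ∑ j : {i // ¬ i ∈ (∅ : Finset ι)}, ∑ k, F j.1 k :=
          Finset.sum_congr rfl fun j _ => hE2 _
      _ = _ := hE2 fun j => ∑ k, F j k
  obtain ⟨xh, h1, h2, h3⟩ := form_good (Equiv.sumCompl (fun i => i ∈ (∅ : Finset ι)))
    (siegel_hT h hW hz) t hSg
    (fun j : {i // ¬ i ∈ (∅ : Finset ι)} => siegel_B0 (siegel_block h hz j.1)) (aJ ∅)
    (uA_injective ∅) hh0 (fun j => hX j.1) (fun j => hXw j.1) (fun j => ho j.1) hδ' hδ2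
    (by linarith : 0 ≤ 2 * κ) hN'
  refine ⟨xh, fun i => ?_, h2, h3.mono ?_⟩
  · exact h1 ⟨i, Finset.notMem_empty i⟩
  · nlinarith

/-- **(30.3), arbitrary inputs on `A`.** -/
theorem dec_gen (A : Finset ι) (h : Sites H φ a e t) {W0 : Matrix T T ℝ} (hW : W0ᵀ = W0) {z : ℂ}
    (hz : 0 < z.im) {c : ℝ} (hc : 0 < c)
    (hB : ∀ j, j ∉ A → ∀ y : Fin 2 → ℂ, c * ∑ i, ‖y i‖ ^ 2 ≤
      qf (imM ((Res789.Res H z).submatrix (e j) (e j))) y)
    {ρ κ : ℝ} (hρ0 : 0 ≤ ρ) (hρ : ρ ≤ 1 / 4)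
    (ho : ∀ j, j ∉ A → ‖B0 ((Res789.Res H z).submatrix (e j) (e j)) 0 1‖ ≤
      ρ * (Real.sqrt (B0 ((Res789.Res H z).submatrix (e j) (e j)) 0 0).im *
        Real.sqrt (B0 ((Res789.Res H z).submatrix (e j) (e j)) 1 1).im))
    (hκ : kap A c (Res789.Res H z) φ a e ≤ κ) (hκ2 : κ ≤ 1 / 2) :
    ∃ Ξ : Matrix ι ι ℂ, Siegel Ξ ∧
      (∀ j, j ∉ A → ∀ k, Ξ j k =
        if k = j then B0 ((Res789.Res H z).submatrix (e j) (e j)) 0 0 else 0) ∧
      Near (4 * ρ + 4 * κ) (treeOut (Res789.Res (hT H φ W0) z) t Ξ)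
        ((Res789.Res (H + PT φ a e t W0) z).submatrix φ φ) := by
  have hk0 := kap_nonneg A hc (Res789.Res H z) φ a e
  obtain ⟨Sg, hSg, hN⟩ := dec_vertex A h hW hz hc hB (by linarith)
  have hN' := hN.mono (le_trans (div_one_sub_le hk0 (by linarith))
    (by linarith : 2 * kap A c (Res789.Res H z) φ a e ≤ 2 * κ))
  obtain ⟨Ξ, h1, h2, h3⟩ := form_gen (Equiv.sumCompl (fun i => i ∈ A))
    (siegel_hT h hW hz) t hSg
    (fun j : {i // ¬ i ∈ A} => siegel_B0 (siegel_block h hz j.1)) (aJ A)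
    (uA_injective A) hρ0 hρ (fun j => ho j.1 j.2) (by linarith : 0 ≤ 2 * κ) hN'
  refine ⟨Ξ, h1, fun j hj k => ?_, h3.mono ?_⟩
  · exact h2 ⟨j, hj⟩ k
  · nlinarith

end vertex

end Crest.Agent.R166.Dec598
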