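import Crest.Agent.R166.Dec_598

/-!
Row 166, sections 30.x: the finite rooted forest (helper327).

* `Lay ρ β l`  : words of length `l` (letters in `β`, last letter appended) below the roots `ρ`
* `Tr ρ β L`   : the vertices of depth `< L`
* `rtL, wordL` / `rtT, wordT` : root and word of a layer point / of a vertex
* `adjT L`     : adjacency matrix of the forest (`adjT_apply` gives the entries)
* `hTree V`    : `diagonal V + adjT`
* `root`, `par`: the embeddings of the roots / the parent map of the last layer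
* `layE L : ρ × (Fin L → β) ≃ Lay ρ β L` with `wordL (layE L (r, f)) = List.ofFn f`
-/

set_option autoImplicit false

namespace Crest.Agent.R166.TreeT327

open Matrix

/-- words of length `l` below the roots `ρ` (last letter appended) -/
def Lay (ρ β : Type) : ℕ → Type
  | 0 => ρ
  | l + 1 => Lay ρ β l × β

/-- vertices of depth `< L` -/
def Tr (ρ β : Type) : ℕ → Type
  | 0 => Empty
  | L + 1 => Tr ρ β L ⊕ Lay ρ β L

section inst

variable (ρ β : Type)

instance instFintypeLay [Fintype ρ] [Fintype β] : ∀ l, Fintype (Lay ρ β l)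
  | 0 => inferInstanceAs (Fintype ρ)
  | l + 1 => by
    haveI := instFintypeLay l
    exact inferInstanceAs (Fintype (Lay ρ β l × β))

instance instDecEqLay [DecidableEq ρ] [DecidableEq β] : ∀ l, DecidableEq (Lay ρ β l)
  | 0 => inferInstanceAs (DecidableEq ρ)
  | l + 1 => by
    haveI := instDecEqLay l
    exact inferInstanceAs (DecidableEq (Lay ρ β l × β))

instance instFintypeTr [Fintype ρ] [Fintype β] : ∀ L, Fintype (Tr ρ β L)
  | 0 => inferInstanceAs (Fintype Empty)
  | L + 1 => by
    haveI := instFintypeTr L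
    exact inferInstanceAs (Fintype (Tr ρ β L ⊕ Lay ρ β L))

instance instDecEqTr [DecidableEq ρ] [DecidableEq β] : ∀ L, DecidableEq (Tr ρ β L)
  | 0 => inferInstanceAs (DecidableEq Empty)
  | L + 1 => by
    haveI := instDecEqTr L
    exact inferInstanceAs (DecidableEq (Tr ρ β L ⊕ Lay ρ β L))

end inst

variable {ρ β : Type}

/-- the root of a word -/
def rtL : ∀ {l : ℕ}, Lay ρ β l → ρ
  | 0, x => x
  | _ + 1, x => rtL x.1

/-- the letters of a word -/
def wordL : ∀ {l : ℕ}, Lay ρ β l → List β
  | 0, _ => []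
  | _ + 1, x => wordL x.1 ++ [x.2]

/-- the root above a vertex -/
def rtT : ∀ {L : ℕ}, Tr ρ β L → ρ
  | 0, x => x.elim
  | _ + 1, Sum.inl x => rtT x
  | _ + 1, Sum.inr x => rtL x

/-- the word of a vertex -/
def wordT : ∀ {L : ℕ}, Tr ρ β L → List β
  | 0, x => x.elim
  | _ + 1, Sum.inl x => wordT x
  | _ + 1, Sum.inr x => wordL x

@[simp] lemma wordL_length : ∀ {l : ℕ} (x : Lay ρ β l), (wordL x).length = l
  | 0, _ => rfl
  | l + 1, x => by
    show (wordL x.1 ++ [x.2]).length = l + 1
    rw [List.length_append, wordL_length x.1]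
    rfl

lemma wordT_length : ∀ {L : ℕ} (x : Tr ρ β L), (wordT x).length < L
  | 0, x => x.elim
  | L + 1, Sum.inl x => (wordT_length x).trans (Nat.lt_succ_self L)
  | L + 1, Sum.inr x => by
    show (wordL x).length < L + 1
    rw [wordL_length]
    exact Nat.lt_succ_self L

lemma layExt : ∀ {l : ℕ} {x y : Lay ρ β l}, rtL x = rtL y → wordL x = wordL y → x = y
  | 0, _, _, h, _ => h
  | l + 1, x, y, h, h' => by
    have h'' : wordL x.1 ++ [x.2] = wordL y.1 ++ [y.2] := h'
    have h1 := List.append_inj' h'' rfl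
    have h2 : x.1 = y.1 := layExt h h1.1
    have h3 : x.2 = y.2 := by simpa using h1.2
    exact Prod.ext h2 h3

lemma trExt : ∀ {L : ℕ} {x y : Tr ρ β L}, rtT x = rtT y → wordT x = wordT y → x = y
  | 0, x, _, _, _ => x.elim
  | _ + 1, Sum.inl _, Sum.inl _, h, h' => congrArg Sum.inl (trExt h h')
  | L + 1, Sum.inl x, Sum.inr y, _, h' => by
    have h1 := wordT_length x
    have h2 : (wordT x).length = (wordL y).length := congrArg List.length h'
    rw [wordL_length] at h2
    omega
  | L + 1, Sum.inr x, Sum.inl y, _, h' => by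
    have h1 := wordT_length y
    have h2 : (wordL x).length = (wordT y).length := congrArg List.length h'
    rw [wordL_length] at h2
    omega
  | _ + 1, Sum.inr _, Sum.inr _, h, h' => congrArg Sum.inr (layExt h h')

/-- every word of length `< L` is a vertex -/
lemma exists_tr (r : ρ) : ∀ {L : ℕ} (w : List β), w.length < L →
    ∃ x : Tr ρ β L, rtT x = r ∧ wordT x = w := by
  have hlay : ∀ (w : List β), ∃ x : Lay ρ β w.length, rtL x = r ∧ wordL x = w := by
    intro w
    induction w using List.reverseRecOn with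
    | nil => exact ⟨r, rfl, rfl⟩
    | append_singleton w a ih =>
      obtain ⟨x, h1, h2⟩ := ih
      have hl : (w ++ [a]).length = w.length + 1 := by simp
      rw [hl]
      refine ⟨(x, a), h1, ?_⟩
      show wordL x ++ [a] = w ++ [a]
      rw [h2]
  intro L
  induction L with
  | zero => intro w hw; omega
  | succ L ih =>
    intro w hw
    by_cases h : w.length < L
    · obtain ⟨x, h1, h2⟩ := ih w h
      exact ⟨Sum.inl x, h1, h2⟩
    · have hL : w.length = L := by omega
      subst hL
      obtain ⟨x, h1, h2⟩ := hlay w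
      exact ⟨Sum.inr x, h1, h2⟩

/-- adjacency between the vertices of depth `< L` and the layer `L` -/
def adjTL [DecidableEq ρ] [DecidableEq β] : ∀ L : ℕ, Matrix (Tr ρ β L) (Lay ρ β L) ℝ
  | 0 => fun x _ => x.elim
  | _ + 1 => fun x q => match x with
    | Sum.inl _ => 0
    | Sum.inr p => if p = q.1 then 1 else 0

/-- adjacency matrix of the forest of depth `< L` -/
def adjT [DecidableEq ρ] [DecidableEq β] : ∀ L : ℕ, Matrix (Tr ρ β L) (Tr ρ β L) ℝ
  | 0 => fun x _ => x.elim
  | L + 1 => fromBlocks (adjT L) (adjTL L) (adjTL L)ᵀ 0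

/-- `Ch x y`: `y` is a child of `x` -/
def Ch {L : ℕ} (x y : Tr ρ β L) : Prop := rtT x = rtT y ∧ ∃ a, wordT y = wordT x ++ [a]

lemma adjTL_apply [DecidableEq ρ] [DecidableEq β] : ∀ {L : ℕ} (x : Tr ρ β L) (q : Lay ρ β L),
    (adjTL L x q = 1 ∧ rtT x = rtL q ∧ ∃ a, wordL q = wordT x ++ [a]) ∨
    (adjTL L x q = 0 ∧ ¬ (rtT x = rtL q ∧ ∃ a, wordL q = wordT x ++ [a]))
  | 0, x, _ => x.elim
  | L + 1, Sum.inl x, q => by
    right
    refine ⟨rfl, ?_⟩
    rintro ⟨-, a, h⟩
    have h1 := wordT_length x
    have h2 : (wordL q).length = (wordT x ++ [a]).length := congrArg List.length h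
    rw [wordL_length, List.length_append] at h2
    simp at h2
    omega
  | L + 1, Sum.inr p, q => by
    by_cases h : p = q.1
    · left
      refine ⟨if_pos h, ?_, ?_⟩
      · show rtL p = rtL q.1
        rw [h]
      · refine ⟨q.2, ?_⟩
        show wordL q.1 ++ [q.2] = wordL p ++ [q.2]
        rw [h]
    · right
      refine ⟨if_neg h, ?_⟩
      rintro ⟨h1, a, h2⟩
      have h3 : wordL q.1 ++ [q.2] = wordL p ++ [a] := h2
      exact h (layExt h1 (List.append_inj' h3 rfl).1.symm)

open Classical in
/-- the entries of the adjacency matrix -/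
theorem adjT_apply [DecidableEq ρ] [DecidableEq β] : ∀ {L : ℕ} (x y : Tr ρ β L),
    adjT L x y = if Ch x y ∨ Ch y x then 1 else 0
  | 0, x, _ => x.elim
  | L + 1, Sum.inl x, Sum.inl y => adjT_apply x y
  | L + 1, Sum.inl x, Sum.inr q => by
    show adjTL L x q = _
    have hn : ¬ Ch (L := L + 1) (Sum.inr q : Tr ρ β L ⊕ Lay ρ β L) (Sum.inl x) := by
      rintro ⟨-, a, h⟩
      have h1 := wordT_length x
      have h2 : (wordT x).length = (wordL q ++ [a]).length := congrArg List.length h
      rw [List.length_append, wordL_length] at h2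
      omega
    rcases adjTL_apply x q with ⟨h1, h2⟩ | ⟨h1, h2⟩
    · rw [h1]
      exact (if_pos (Or.inl h2)).symm
    · rw [h1]
      refine (if_neg ?_).symm
      rintro (h | h)
      · exact h2 h
      · exact hn h
  | L + 1, Sum.inr q, Sum.inl x => by
    show adjTL L x q = _
    have hn : ¬ Ch (L := L + 1) (Sum.inr q : Tr ρ β L ⊕ Lay ρ β L) (Sum.inl x) := by
      rintro ⟨-, a, h⟩
      have h1 := wordT_length x
      have h2 : (wordT x).length = (wordL q ++ [a]).length := congrArg List.length h
      rw [List.length_append, wordL_length] at h2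
      omega
    rcases adjTL_apply x q with ⟨h1, h2⟩ | ⟨h1, h2⟩
    · rw [h1]
      exact (if_pos (Or.inr h2)).symm
    · rw [h1]
      refine (if_neg ?_).symm
      rintro (h | h)
      · exact hn h
      · exact h2 h
  | L + 1, Sum.inr p, Sum.inr q => by
    show (0 : ℝ) = _
    rw [if_neg]
    rintro (⟨-, a, h⟩ | ⟨-, a, h⟩)
    · have h2 : (wordL q).length = (wordL p ++ [a]).length := congrArg List.length h
      rw [List.length_append, wordL_length, wordL_length] at h2
      simp at h2
    · have h2 : (wordL p).length = (wordL q ++ [a]).length := congrArg List.length h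
      rw [List.length_append, wordL_length, wordL_length] at h2
      simp at h2

lemma adjT_symm [DecidableEq ρ] [DecidableEq β] : ∀ L : ℕ, (adjT L : Matrix (Tr ρ β L) _ ℝ)ᵀ = adjT L
  | 0 => by ext x; exact x.elim
  | L + 1 => by
    show (fromBlocks (adjT L) (adjTL L) (adjTL L)ᵀ 0)ᵀ = fromBlocks (adjT L) (adjTL L) (adjTL L)ᵀ 0
    rw [fromBlocks_transpose, adjT_symm L, transpose_transpose, transpose_zero]

/-- the Hamiltonian of the forest of depth `< L` with potential `V` -/
def hTree [DecidableEq ρ] [DecidableEq β] {L : ℕ} (V : Tr ρ β L → ℝ) :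
    Matrix (Tr ρ β L) (Tr ρ β L) ℝ := Matrix.diagonal V + adjT L

lemma hTree_symm [DecidableEq ρ] [DecidableEq β] {L : ℕ} (V : Tr ρ β L → ℝ) :
    (hTree V)ᵀ = hTree V := by
  rw [hTree, transpose_add, diagonal_transpose, adjT_symm]

/-- the roots as vertices -/
def root : ∀ (L : ℕ), ρ → Tr ρ β (L + 1)
  | 0, r => (Sum.inr r : Tr ρ β 0 ⊕ Lay ρ β 0)
  | L + 1, r => (Sum.inl (root L r) : Tr ρ β (L + 1) ⊕ Lay ρ β (L + 1))

lemma rtT_root : ∀ (L : ℕ) (r : ρ), rtT (root (β := β) L r) = r
  | 0, _ => rfl
  | L + 1, r => rtT_root L r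

lemma wordT_root : ∀ (L : ℕ) (r : ρ), wordT (root (β := β) L r) = []
  | 0, _ => rfl
  | L + 1, r => wordT_root L r

/-- the parent of a leaf of depth `L + 1` -/
def par (L : ℕ) (q : Lay ρ β (L + 1)) : Tr ρ β (L + 1) := (Sum.inr q.1 : Tr ρ β L ⊕ Lay ρ β L)

lemma rtT_par (L : ℕ) (q : Lay ρ β (L + 1)) : rtT (par L q) = rtL q := rfl

lemma wordT_par (L : ℕ) (q : Lay ρ β (L + 1)) : wordL q = wordT (par L q) ++ [q.2] := rfl

/-- words as functions -/
def layE : ∀ (L : ℕ), ρ × (Fin L → β) ≃ Lay ρ β L
  | 0 => { toFun := fun x => x.1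
           invFun := fun r => ((r : ρ), Fin.elim0)
           left_inv := fun x => Prod.ext rfl (funext fun i => i.elim0)
           right_inv := fun _ => rfl }
  | L + 1 =>
    { toFun := fun x => (layE L (x.1, fun i => x.2 i.castSucc), x.2 (Fin.last L))
      invFun := fun q => (((layE L).symm q.1).1, Fin.snoc (α := fun _ => β) ((layE L).symm q.1).2 q.2)
      left_inv := fun x => by
        refine Prod.ext ?_ ?_
        · simp
        · simp only [Equiv.symm_apply_apply]
          exact Fin.snoc_init_self (α := fun _ => β) x.2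
      right_inv := fun q => by
        refine Prod.ext ?_ ?_
        · simp
        · simp }

lemma rtL_layE : ∀ (L : ℕ) (x : ρ × (Fin L → β)), rtL (layE L x) = x.1
  | 0, _ => rfl
  | L + 1, x => rtL_layE L (x.1, fun i => x.2 i.castSucc)

lemma wordL_layE : ∀ (L : ℕ) (x : ρ × (Fin L → β)), wordL (layE L x) = List.ofFn x.2
  | 0, x => by
    show ([] : List β) = List.ofFn x.2
    simp
  | L + 1, x => by
    show wordL (layE L (x.1, fun i => x.2 i.castSucc)) ++ [x.2 (Fin.last L)] = List.ofFn x.2
    rw [wordL_layE L, List.ofFn_succ']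
    simp

end Crest.Agent.R166.TreeT327
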