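import Crest.Agent.R166.DecP3_789
import Crest.Agent.R166.TreeT_327

/-!
# R166, section 30.3, port side, part 4 (helper789)

The tree of 327 with roots `Bool` and letters `NZ d` (nonzero ports):
* `phi p h0 L : Tr Bool (NZ d) L → Fin n`, injective with range the ball of depth `< L`;
* `leafT L i = par L (layE (L+1) i)`, parent of the boundary index `i : BI d (L+1)`;
* `hT_eq` : the tree Hamiltonian is `hTree (fun x => s * ω (phi x))`;
* `dat_tree` : the resampling move as a `Dat` with these types.
-/

set_option autoImplicit false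
set_option linter.unusedSectionVars false

open Matrix Finset

namespace Crest.Agent.R166.DecP789

open Crest.Agent.R166 Crest.Agent.R166.Stab269
open Crest.Agent.R166.Dec598 (edgeM lift)
open Crest.Agent.R166.SwP470 (BVal bv TL BI NZ NZw wd rt tau ab np)
open Crest.Agent.R166.TreeT327

variable {n d : ℕ} [NeZero d]

/-- the ball vertex of a tree vertex -/
def phi (p : Equiv.Perm (HE n d)) (h0 : HE n d) (L : ℕ) (x : Tr Bool (NZ d) L) : Fin n :=
  bv p h0 (rtT x) ((wordT x).map Subtype.val)

/-- the parent of a boundary index -/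
def leafT (L : ℕ) (i : BI d (L + 1)) : Tr Bool (NZ d) (L + 1) := par L (layE (L + 1) i)

lemma NZw_map (w : List (NZ d)) : NZw (w.map Subtype.val) := by
  intro k hk
  obtain ⟨a, _, rfl⟩ := List.mem_map.1 hk
  exact a.2

lemma exists_map {w : List (Fin d)} (hw : NZw w) :
    ∃ v : List (NZ d), v.map Subtype.val = w := by
  induction w with
  | nil => exact ⟨[], rfl⟩
  | cons a w ih =>
    obtain ⟨v, hv⟩ := ih (fun k hk => hw k (List.mem_cons_of_mem _ hk))
    exact ⟨⟨a, hw a List.mem_cons_self⟩ :: v, by simp [hv]⟩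

lemma map_inj {v w : List (NZ d)} (h : v.map Subtype.val = w.map Subtype.val) : v = w :=
  List.map_injective_iff.2 Subtype.val_injective h

variable {p : Equiv.Perm (HE n d)} {h0 : HE n d} {L : ℕ}

theorem phi_injective (htl : TL L p h0) : Function.Injective (phi p h0 L) := by
  intro x y h
  have hx := wordT_length x
  have hy := wordT_length y
  have := htl _ _ _ _ (NZw_map _) (NZw_map _) (by simpa using hx.le) (by simpa using hy.le) h
  exact trExt this.1 (map_inj this.2)

theorem phi_range (x : Fin n) : x ∈ Set.range (phi p h0 L) ↔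
    ∃ s w, NZw w ∧ w.length < L ∧ bv p h0 s w = x := by
  constructor
  · rintro ⟨y, rfl⟩
    exact ⟨rtT y, _, NZw_map _, by simpa using wordT_length y, rfl⟩
  · rintro ⟨s, w, hw, hl, rfl⟩
    obtain ⟨v, rfl⟩ := exists_map hw
    obtain ⟨y, h1, h2⟩ := exists_tr s v (L := L) (by simpa using hl)
    exact ⟨y, by rw [phi, h1, h2]⟩

/-- the word of a boundary index -/
lemma wd_eq (i : BI d (L + 1)) :
    wd i.2 = (wordT (leafT L i)).map Subtype.val ++ [(i.2 (Fin.last L)).1] := by
  have h1 := wordL_layE (L + 1) i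
  have h2 := wordT_par L (layE (L + 1) i)
  have h3 : (layE (L + 1) i).2 = i.2 (Fin.last L) := rfl
  rw [h2, h3] at h1
  have h4 : wd i.2 = (List.ofFn i.2).map Subtype.val := by
    unfold wd
    rw [List.map_ofFn]
    rfl
  rw [h4, ← h1, List.map_append]
  rfl

lemma rtT_leafT (i : BI d (L + 1)) : rtT (leafT L i) = i.1 := rtL_layE (L + 1) i

theorem phi_leafT (i : BI d (L + 1)) : phi p h0 (L + 1) (leafT L i) = (tau p h0 i).1 := by
  unfold phi tau
  rw [wd_eq, SwP470.desc_fst_snoc, rtT_leafT]

/-- **the resampling move with 327's tree types** -/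
theorem dat_tree (hp : IsPort p) {b : BI d (L + 1) → HE n d} (h : BVal (L + 1) p h0 b) :
    Dat p (np p h0 b) (phi p h0 (L + 1)) (leafT L) (tau p h0) b :=
  dat_np (Nat.succ_le_succ (Nat.zero_le L)) hp h (phi_injective h.tl)
    (fun x => phi_range x) (fun i => phi_leafT i)

/-! ## the tree Hamiltonian -/

/-- neighbours of a ball vertex -/
theorem adj_bv (hp : IsPort p) (s : Bool) (w : List (Fin d)) (v : Fin n) :
    (graphOf p).Adj (bv p h0 s w) v ↔
      (∃ k, k ≠ 0 ∧ v = bv p h0 s (w ++ [k])) ∨
        v = (desc p (rt p h0 s) w).1 := by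
  rw [hp.adj_iff]
  set g := p (desc p (rt p h0 s) w) with hg
  have hbv : bv p h0 s w = g.1 := rfl
  constructor
  · rintro ⟨i, hi⟩
    have hk : ((bv p h0 s w, i) : HE n d) = rot (i - g.2) g := by
      refine Prod.ext hbv ?_
      simp [rot]
    rw [hk] at hi
    by_cases hk0 : i - g.2 = 0
    · right
      rw [hk0, rot_zero, hg, hp.inv] at hi
      exact hi.symm
    · left
      refine ⟨i - g.2, hk0, ?_⟩
      unfold bv
      rw [SwP470.desc_snoc]
      exact hi.symm
  · rintro (⟨k, _, rfl⟩ | rfl)
    · refine ⟨g.2 + k, ?_⟩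
      have : ((bv p h0 s w, g.2 + k) : HE n d) = rot k g := Prod.ext hbv rfl
      rw [this]
      unfold bv
      rw [SwP470.desc_snoc]
    · refine ⟨g.2, ?_⟩
      have : ((bv p h0 s w, g.2) : HE n d) = g := Prod.ext hbv rfl
      rw [this, hg, hp.inv]

/-- adjacency inside the ball -/
theorem adj_phi (hp : IsPort p) (htl : TL L p h0) (x y : Tr Bool (NZ d) L) :
    (graphOf p).Adj (phi p h0 L x) (phi p h0 L y) ↔
      (Ch x y ∨ Ch y x) ∨ (wordT x = [] ∧ wordT y = [] ∧ rtT x ≠ rtT y) := by
  have hx := wordT_length x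
  have hy := wordT_length y
  unfold phi
  rw [adj_bv hp]
  constructor
  · rintro (⟨k, hk, he⟩ | he)
    · -- `y` is a child of `x`
      left; left
      have hNZ : NZw ((wordT x).map Subtype.val ++ [k]) := by
        intro a ha
        rw [List.mem_append] at ha
        rcases ha with ha | ha
        · exact NZw_map _ a ha
        · rw [List.mem_singleton] at ha
          rw [ha]; exact hk
      have := htl _ _ _ _ (NZw_map _) hNZ (by simpa using hy.le) (by simp; omega) he
      refine ⟨this.1.symm, ⟨k, hk⟩, map_inj ?_⟩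
      rw [this.2, List.map_append]
      rfl
    · -- parent or other root
      rcases List.eq_nil_or_concat (wordT x) with hnil | ⟨w', a, hw⟩
      · right
        rw [hnil, List.map_nil, SwP470.desc_fst_nil hp] at he
        have := htl _ _ _ _ (NZw_map _) (by simp [NZw]) (by simpa using hy.le) (by simp) he
        refine ⟨hnil, ?_, ?_⟩
        · apply map_inj
          rw [this.2]; rfl
        · rw [this.1]
          cases rtT x <;> simp
      · left; right
        rw [List.concat_eq_append] at hw
        have hl : (wordT x).length = w'.length + 1 := by rw [hw]; simp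
        rw [hw, List.map_append, List.map_singleton, SwP470.desc_fst_snoc] at he
        have := htl _ _ _ _ (NZw_map _) (NZw_map _) (by simpa using hy.le)
          (by simp; omega) he
        exact ⟨this.1, a, by rw [hw, map_inj this.2]⟩
  · rintro ((⟨h1, a, h2⟩ | ⟨h1, a, h2⟩) | ⟨h1, h2, h3⟩)
    · left
      exact ⟨a.1, a.2, by rw [h1, h2, List.map_append]; rfl⟩
    · right
      rw [h2, List.map_append, List.map_singleton, SwP470.desc_fst_snoc, h1]
    · right
      rw [h1, h2, List.map_nil, SwP470.desc_fst_nil hp]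
      have : rtT y = !rtT x := by
        cases hx' : rtT x <;> cases hy' : rtT y <;> simp_all
      rw [this]

lemma root_iff (r : Bool) (x : Tr Bool (NZ d) (L + 1)) :
    x = root L r ↔ wordT x = [] ∧ rtT x = r := by
  constructor
  · rintro rfl
    exact ⟨wordT_root L r, rtT_root L r⟩
  · rintro ⟨h1, h2⟩
    exact trExt (by rw [rtT_root, h2]) (by rw [wordT_root, h1])

/-- **the tree Hamiltonian** -/
theorem hT_eq (hp : IsPort p) (htl : TL (L + 1) p h0) (s : ℝ) (ω : Fin n → ℝ) :
    hT p (phi p h0 (L + 1)) s ω (UR (root L false) (root L true)) =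
      hTree (fun x => s * ω (phi p h0 (L + 1) x)) := by
  classical
  ext x y
  unfold hT hTree UR
  rw [Matrix.add_apply, Matrix.submatrix_apply, Hm_apply, Matrix.add_apply, Matrix.neg_apply,
    Dec598.edgeM_apply, adjT_apply, Matrix.diagonal_apply]
  simp only [Finset.univ_unique, Finset.sum_singleton]
  have hnroot : (x = root L false ∧ y = root L true) ∨ (x = root L true ∧ y = root L false) ↔
      (wordT x = [] ∧ wordT y = [] ∧ rtT x ≠ rtT y) := by
    rw [root_iff, root_iff, root_iff, root_iff]
    constructor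
    · rintro (⟨⟨h1, h2⟩, ⟨h3, h4⟩⟩ | ⟨⟨h1, h2⟩, ⟨h3, h4⟩⟩)
      · exact ⟨h1, h3, by rw [h2, h4]; simp⟩
      · exact ⟨h1, h3, by rw [h2, h4]; simp⟩
    · rintro ⟨h1, h3, h5⟩
      cases hx : rtT x <;> cases hy : rtT y
      · exact absurd (hx.trans hy.symm) h5
      · exact Or.inl ⟨⟨h1, rfl⟩, ⟨h3, rfl⟩⟩
      · exact Or.inr ⟨⟨h1, rfl⟩, ⟨h3, rfl⟩⟩
      · exact absurd (hx.trans hy.symm) h5
  have hexcl : (x = root L false ∧ y = root L true) → ¬ (x = root L true ∧ y = root L false) := by
    rintro ⟨h1, h2⟩ ⟨h3, _⟩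
    have := (root_iff (L := L) false x).1 h1
    have h4 := (root_iff (L := L) true x).1 h3
    rw [this.2] at h4
    exact absurd h4.2 (by simp)
  have hsum : ((if x = root L false ∧ y = root L true then (1 : ℝ) else 0) +
      (if x = root L true ∧ y = root L false then 1 else 0)) =
      if wordT x = [] ∧ wordT y = [] ∧ rtT x ≠ rtT y then 1 else 0 := by
    by_cases h1 : x = root L false ∧ y = root L true
    · rw [if_pos h1, if_neg (hexcl h1), if_pos (hnroot.1 (Or.inl h1)), add_zero]
    · by_cases h2 : x = root L true ∧ y = root L false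
      · rw [if_neg h1, if_pos h2, if_pos (hnroot.1 (Or.inr h2)), zero_add]
      · rw [if_neg h1, if_neg h2, if_neg (fun h => (hnroot.2 h).elim h1 h2), zero_add]
  rw [hsum]
  have hadj := adj_phi hp htl x y
  have hinj : (phi p h0 (L + 1) x = phi p h0 (L + 1) y) ↔ x = y := (phi_injective htl).eq_iff
  have hdis : (Ch x y ∨ Ch y x) → ¬ (wordT x = [] ∧ wordT y = [] ∧ rtT x ≠ rtT y) := by
    rintro (⟨h1, _⟩ | ⟨h1, _⟩) ⟨_, _, h3⟩
    · exact h3 h1
    · exact h3 h1.symm
  by_cases hxy : x = y
  · subst hxy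
    rw [if_pos rfl, if_pos rfl]
    have h1 : ¬ (graphOf p).Adj (phi p h0 (L + 1) x) (phi p h0 (L + 1) x) :=
      (graphOf p).loopless.irrefl _
    have h2 : ¬ (wordT x = [] ∧ wordT x = [] ∧ rtT x ≠ rtT x) := fun h => h.2.2 rfl
    have h3 : ¬ (Ch x x ∨ Ch x x) := fun h => h1 (hadj.2 (Or.inl h))
    rw [if_neg h1, if_neg h2, if_neg h3]
    ring
  · have hxy' : phi p h0 (L + 1) x ≠ phi p h0 (L + 1) y := fun h => hxy (hinj.1 h)
    rw [if_neg hxy', if_neg hxy]
    by_cases hc : Ch x y ∨ Ch y x
    · rw [if_pos (hadj.2 (Or.inl hc)), if_neg (hdis hc), if_pos hc]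
      ring
    · by_cases hr : wordT x = [] ∧ wordT y = [] ∧ rtT x ≠ rtT y
      · rw [if_pos (hadj.2 (Or.inr hr)), if_pos hr, if_neg hc]
        ring
      · rw [if_neg (fun h => (hadj.1 h).elim hc hr), if_neg hr, if_neg hc]
        ring

/-- the roots -/
lemma phi_root_false (hp : IsPort p) : phi p h0 (L + 1) (root L false) = h0.1 := by
  unfold phi
  rw [rtT_root, wordT_root]
  simp [bv, rt, hp.inv]

lemma phi_root_true : phi p h0 (L + 1) (root L true) = (p h0).1 := by
  unfold phi
  rw [rtT_root, wordT_root]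
  simp [bv, rt]

/-- the root half-edge is not touched by the move -/
lemma np_root (hp : IsPort p) {b : BI d (L + 1) → HE n d} (h : BVal (L + 1) p h0 b) :
    np p h0 b h0 = p h0 := by
  have := h.np_interior (Nat.succ_le_succ (Nat.zero_le L)) hp true (w := []) (by simp [NZw])
    (by simp)
  simpa [rt] using this

/-! ## final form -/

set_option synthInstance.maxSize 4000
set_option synthInstance.maxHeartbeats 400000
set_option maxHeartbeats 1000000

open Crest.Agent.R166.Dec598 (treeOut leafXi)

/-- the potential on the tree -/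
def Vt (p : Equiv.Perm (HE n d)) (h0 : HE n d) (L : ℕ) (s : ℝ) (ω : Fin n → ℝ) :
    Tr Bool (NZ d) L → ℝ := fun x => s * ω (phi p h0 L x)

/-- the vertices of the tree and its outer boundary -/
noncomputable def S0t (p : Equiv.Perm (HE n d)) (h0 : HE n d) (L : ℕ) : Finset (Fin n) :=
  S0 p (phi p h0 (L + 1)) (tau p h0 : BI d (L + 1) → HE n d)

/-- the leaf matrix of the decoupled system -/
noncomputable def XiP (p : Equiv.Perm (HE n d)) (h0 : HE n d) (L : ℕ) (b : BI d (L + 1) → HE n d)
    (A : Finset (BI d (L + 1))) (s : ℝ) (ω : Fin n → ℝ) (z : ℂ) :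
    Matrix (At A ⊕ Jt A) (At A ⊕ Jt A) ℂ :=
  leafXi (SgB p (phi p h0 (L + 1)) (leafT L) (tau p h0) b A s ω
    (UR (root L false) (root L true)) z) (fun j : Jt A => B0 p s ω z (b j.1)) (aJ A) (uA A)

/-- **30.3, final form**: decoupling for the ball-boundary resampling of a port-numbered graph,
with the tree of 327 and the couplings of 811. -/
theorem dec_tree (hp : IsPort p) {b : BI d (L + 1) → HE n d} (h : BVal (L + 1) p h0 b)
    (A : Finset (BI d (L + 1))) (s : ℝ) (ω : Fin n → ℝ) {z : ℂ} (hz : 0 < z.im) {c : ℝ}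
    (hc : 0 < c)
    (hB : ∀ j, j ∉ A → ∀ y : Fin 2 → ℂ,
      c * ∑ i, ‖y i‖ ^ 2 ≤ Res598.qf (Res598.imM (BE p s ω z (b j))) y)
    (hlt : cE (S0t p h0 L) (Res789.Res (Hm (graphOf p) s ω) z) p b A c < 1) :
    Res598.Near (cE (S0t p h0 L) (Res789.Res (Hm (graphOf p) s ω) z) p b A c /
        (1 - cE (S0t p h0 L) (Res789.Res (Hm (graphOf p) s ω) z) p b A c))
      ((treeOut (Res789.Res (hTree (Vt p h0 (L + 1) s ω)) z) (tt (leafT L) A)
        (XiP p h0 L b A s ω z)).submatrix
          ![root L false, root L true] ![root L false, root L true])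
      (B0 (np p h0 b) s ω z h0) := by
  have hD := dat_tree hp h
  have key := dec_port hD A s ω (UR_symm (root L false) (root L true)) hz hc hB hlt
  have hS : Res598.Siegel (treeOut (Res789.Res (hTree (Vt p h0 (L + 1) s ω)) z)
      (tt (leafT L) A) (XiP p h0 L b A s ω z)) :=
    Dec598.siegel_treeOut (Res789.Res_sieg (hTree_symm _) hz).siegel _
      (Dec598.siegel_leafXi (siegel_SgB hD A s ω (UR_symm _ _) hz)
        (fun j => by
          rw [← B0_bridge hp s ω hz]
          exact Dec598.siegel_B0 (sieg_BE hp s ω hz _).siegel) (aJ A) (uA_injective A))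
  have h1 : hT p (phi p h0 (L + 1)) s ω (UR (root L false) (root L true)) =
      hTree (Vt p h0 (L + 1) s ω) := hT_eq hp h.tl s ω
  rw [h1] at key
  have key2 := key.sub ![root L false, root L true] hS
  rw [root_corner (h.isPort (Nat.succ_le_succ (Nat.zero_le L)) hp) s ω hz
    (phi_root_false hp) (by rw [np_root hp h]; exact phi_root_true)] at key2
  exact key2

end Crest.Agent.R166.DecP789
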