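import Crest.Agent.R166.TreeDet_350
import Crest.Agent.R166.Mob2_598
import Crest.Agent.R166.Defs_419

/-!
# Row 166, section 30.4 (helper395): deterministic shapes (S0), (S1), (SM)

`dv rs m B = min rs (bnorm (B - m I))`, `uu m x = (x - m)/(1 - m x)` (350).
Inputs: the tree estimate `TreeEst` (327/350) and the decoupling `Near` (598).
Outputs: `shape0`, `shape1`, `shapeM` in the form consumed by 811 and 269.
-/

set_option autoImplicit false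

open Matrix Finset

namespace Crest.Agent.R166.Shape395

open Crest.Agent.R166 Crest.Agent.R166.Res598 Crest.Agent.R166.TreeDet350

/-- truncated deviation of a block from `m I` -/
noncomputable def dv (rs : ℝ) (m : ℂ) (B : Matrix (Fin 2) (Fin 2) ℂ) : ℝ :=
  min rs (bnorm (B - m • (1 : Matrix (Fin 2) (Fin 2) ℂ)))

theorem entry_le_bnorm (B : Matrix (Fin 2) (Fin 2) ℂ) (i j : Fin 2) : ‖B i j‖ ≤ bnorm B := by
  unfold bnorm
  fin_cases i <;> fin_cases j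
  · exact (le_max_left _ _).trans (le_max_left _ _)
  · exact (le_max_right _ _).trans (le_max_left _ _)
  · exact (le_max_left _ _).trans (le_max_right _ _)
  · exact (le_max_right _ _).trans (le_max_right _ _)

theorem bnorm_le {B : Matrix (Fin 2) (Fin 2) ℂ} {c : ℝ} (h : ∀ i j, ‖B i j‖ ≤ c) : bnorm B ≤ c := by
  unfold bnorm
  exact max_le (max_le (h 0 0) (h 0 1)) (max_le (h 1 0) (h 1 1))

theorem bnorm_nonneg (B : Matrix (Fin 2) (Fin 2) ℂ) : 0 ≤ bnorm B :=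
  (norm_nonneg _).trans (entry_le_bnorm B 0 0)

section dvsec

variable {rs : ℝ} {m : ℂ} {B : Matrix (Fin 2) (Fin 2) ℂ}

theorem dv_nonneg (hrs : 0 ≤ rs) : 0 ≤ dv rs m B := le_min hrs (bnorm_nonneg _)

theorem dv_le : dv rs m B ≤ rs := min_le_left _ _

theorem dv_le_bnorm : dv rs m B ≤ bnorm (B - m • (1 : Matrix (Fin 2) (Fin 2) ℂ)) :=
  min_le_right _ _

theorem bnorm_of_lt (h : dv rs m B < rs) :
    bnorm (B - m • (1 : Matrix (Fin 2) (Fin 2) ℂ)) = dv rs m B := by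
  unfold dv at h ⊢
  rw [min_lt_iff] at h
  rcases h with h | h
  · exact absurd h (lt_irrefl _)
  · exact (min_eq_right h.le).symm

theorem sub_smul_entry (i : Fin 2) :
    (B - m • (1 : Matrix (Fin 2) (Fin 2) ℂ)) i i = B i i - m := by
  simp

theorem sub_smul_entry' {i j : Fin 2} (h : i ≠ j) :
    (B - m • (1 : Matrix (Fin 2) (Fin 2) ℂ)) i j = B i j := by
  simp [h]

theorem diag_le_dv (h : dv rs m B < rs) (i : Fin 2) : ‖B i i - m‖ ≤ dv rs m B := by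
  rw [← bnorm_of_lt h, ← sub_smul_entry (B := B) (m := m) i]
  exact entry_le_bnorm _ _ _

theorem off_le_dv (h : dv rs m B < rs) {i j : Fin 2} (hij : i ≠ j) : ‖B i j‖ ≤ dv rs m B := by
  rw [← bnorm_of_lt h, ← sub_smul_entry' (B := B) (m := m) hij]
  exact entry_le_bnorm _ _ _

end dvsec

section uusec

variable {b : ℕ} {y0 : ℝ} {z m : ℂ}

theorem den_ge'' (h : Adm b y0 z m) {x : ℂ} (hx : 0 ≤ x.im) : y0 ^ 2 ≤ ‖1 - m * x‖ := by
  rw [one_sub_mul]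
  exact h.den_ge' (h.disp_im hx)

theorem uu_le_disp (h : Adm b y0 z m) {x : ℂ} (hx : 0 ≤ x.im) :
    ‖uu m x‖ ≤ ‖x - m‖ / y0 ^ 2 := by
  unfold uu
  rw [norm_div]
  exact div_le_div_of_nonneg_left (norm_nonneg _) (pow_pos h.hy 2) (den_ge'' h hx)

theorem uu_sub_le (h : Adm b y0 z m) {x y : ℂ} (hx : 0 ≤ x.im) (hy : 0 ≤ y.im) :
    ‖uu m x - uu m y‖ ≤ 3 / 2 / y0 ^ 4 * ‖x - y‖ := by
  rw [h.uu_sub hx hy, norm_div, norm_mul, norm_mul]
  have h1 := den_ge'' h hx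
  have h2 := den_ge'' h hy
  have hy2 : 0 < y0 ^ 2 := pow_pos h.hy 2
  have h3 : y0 ^ 4 ≤ ‖1 - m * x‖ * ‖1 - m * y‖ := by
    calc y0 ^ 4 = y0 ^ 2 * y0 ^ 2 := by ring
      _ ≤ _ := mul_le_mul h1 h2 hy2.le (norm_nonneg _)
  have h4 : 0 < y0 ^ 4 := pow_pos h.hy 4
  rw [div_mul_eq_mul_div, div_le_div_iff₀ (lt_of_lt_of_le h4 h3) h4]
  have h5 := h.norm_a_le
  calc ‖1 - m ^ 2‖ * ‖x - y‖ * y0 ^ 4 ≤ 3 / 2 * ‖x - y‖ * y0 ^ 4 := by
        exact mul_le_mul_of_nonneg_right (mul_le_mul_of_nonneg_right h5 (norm_nonneg _)) h4.le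
    _ ≤ _ := mul_le_mul_of_nonneg_left h3 (by positivity)

/-- the constant in `|u(X)| ≤ Cy D` -/
noncomputable def Cy (y0 rs : ℝ) : ℝ := 1 / y0 ^ 2 + BB y0 / rs

theorem Cy_pos {rs : ℝ} (hy : 0 < y0) (hrs : 0 < rs) : 0 < Cy y0 rs := by
  unfold Cy
  have := BB_pos hy
  positivity

theorem uu_le_dv (h : Adm b y0 z m) {rs : ℝ} (hrs : 0 < rs) {B : Matrix (Fin 2) (Fin 2) ℂ}
    {i : Fin 2} (hB : 0 ≤ (B i i).im) : ‖uu m (B i i)‖ ≤ Cy y0 rs * dv rs m B := by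
  have hy := h.hy
  have hBB := BB_pos hy
  unfold Cy
  rw [add_mul]
  by_cases hd : dv rs m B < rs
  · have h1 := uu_le_disp h hB
    have h2 := diag_le_dv hd i
    have h3 : ‖B i i - m‖ / y0 ^ 2 ≤ 1 / y0 ^ 2 * dv rs m B := by
      rw [one_div_mul_eq_div]
      exact div_le_div_of_nonneg_right h2 (by positivity)
    have h4 : 0 ≤ BB y0 / rs * dv rs m B := mul_nonneg (by positivity) (dv_nonneg hrs.le)
    linarith
  · have h1 : dv rs m B = rs := le_antisymm dv_le (not_lt.1 hd)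
    rw [h1, div_mul_cancel₀ _ hrs.ne']
    have h2 := h.norm_uu_le hB
    have h3 : 0 ≤ 1 / y0 ^ 2 * rs := by positivity
    linarith

end uusec

/-! ### output of a decoupled tree -/

theorem qf_single {ι : Type*} [Fintype ι] [DecidableEq ι] (Y : Matrix ι ι ℝ) (i : ι) :
    qf Y (Pi.single i 1) = Y i i := by
  have h1 : vre (Pi.single i (1 : ℂ)) = Pi.single i (1 : ℝ) := by
    ext j
    unfold vre
    by_cases h : j = i
    · subst h; simp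
    · simp [h]
  have h2 : vim (Pi.single i (1 : ℂ)) = 0 := by
    ext j
    unfold vim
    by_cases h : j = i
    · subst h; simp
    · simp [h]
  unfold qf
  rw [h1, h2]
  simp

theorem near_entry {ι : Type*} [Fintype ι] [DecidableEq ι] {ε : ℝ} {Z Z' : Matrix ι ι ℂ}
    (h : Near ε Z Z') (i j : ι) :
    ‖Z' i j - Z i j‖ ≤ ε * Real.sqrt (Z i i).im * Real.sqrt (Z j j).im := by
  have h1 := h.2 (Pi.single i 1) (Pi.single j 1)
  have h2 : (Pi.single i (1 : ℂ)) ⬝ᵥ ((Z' - Z) *ᵥ Pi.single j 1) = Z' i j - Z i j := by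
    simp
  rw [h2] at h1
  refine h1.trans (le_of_eq ?_)
  unfold nq
  rw [qf_single, qf_single]
  rfl

section out

variable {b : ℕ} {y0 : ℝ} {z m : ℂ}

/-- (`T = diag(F1,F2)` close to `Bt`) the deviation of the output block -/
theorem dv_out (h : Adm b y0 z m) {rs : ℝ} (hrs1 : rs ≤ 1) {F : Fin 2 → ℂ}
    (hF : ∀ i, 0 < (F i).im) {ε : ℝ} (hε : 0 ≤ ε) {Bt : Matrix (Fin 2) (Fin 2) ℂ}
    (hN : Near ε (Matrix.diagonal F) Bt) :
    dv rs m Bt ≤ 4 * (‖uu m (F 0)‖ + ‖uu m (F 1)‖) + 2 * ε := by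
  have h0 := norm_nonneg (uu m (F 0))
  have h1 := norm_nonneg (uu m (F 1))
  have hle : ∀ i, ‖uu m (F i)‖ ≤ ‖uu m (F 0)‖ + ‖uu m (F 1)‖ := by
    intro i
    fin_cases i
    · show ‖uu m (F 0)‖ ≤ _
      linarith
    · show ‖uu m (F 1)‖ ≤ _
      linarith
  by_cases hsm : ∀ i, ‖uu m (F i)‖ ≤ 1 / 4
  · have hd : ∀ i, ‖F i - m‖ ≤ 2 * ‖uu m (F i)‖ := fun i =>
      h.disp_le (hF i).le (hsm i) le_rfl
    have hmn := h.norm_le
    have him : ∀ i, (F i).im ≤ 5 / 4 := by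
      intro i
      have e1 : ‖F i‖ ≤ ‖F i - m‖ + ‖m‖ := by
        have := norm_add_le (F i - m) m
        rwa [sub_add_cancel] at this
      have e2 := Complex.im_le_norm (F i)
      have e3 := hd i
      have e4 := hsm i
      linarith
    have hent : ∀ i j, ‖Bt i j - Matrix.diagonal F i j‖ ≤ 2 * ε := by
      intro i j
      have e1 := near_entry hN i j
      rw [Matrix.diagonal_apply_eq, Matrix.diagonal_apply_eq] at e1
      have e2 : Real.sqrt (F i).im ≤ 5 / 4 := by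
        rw [Real.sqrt_le_left (by norm_num)]
        have := him i
        linarith
      have e3 : Real.sqrt (F j).im ≤ 5 / 4 := by
        rw [Real.sqrt_le_left (by norm_num)]
        have := him j
        linarith
      have e4 : Real.sqrt (F i).im * Real.sqrt (F j).im ≤ 5 / 4 * (5 / 4) :=
        mul_le_mul e2 e3 (Real.sqrt_nonneg _) (by norm_num)
      calc ‖Bt i j - Matrix.diagonal F i j‖
          ≤ ε * (Real.sqrt (F i).im * Real.sqrt (F j).im) := by rw [← mul_assoc]; exact e1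
        _ ≤ ε * (5 / 4 * (5 / 4)) := mul_le_mul_of_nonneg_left e4 hε
        _ ≤ 2 * ε := by nlinarith
    refine dv_le_bnorm.trans (bnorm_le fun i j => ?_)
    by_cases hij : i = j
    · subst hij
      rw [sub_smul_entry]
      have e1 := hent i i
      rw [Matrix.diagonal_apply_eq] at e1
      have e2 := hd i
      have e3 := hle i
      have e4 : ‖Bt i i - m‖ ≤ ‖Bt i i - F i‖ + ‖F i - m‖ := by
        have := norm_add_le (Bt i i - F i) (F i - m)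
        rwa [sub_add_sub_cancel] at this
      linarith
    · rw [sub_smul_entry' hij]
      have e1 := hent i j
      rw [Matrix.diagonal_apply_ne _ hij, sub_zero] at e1
      linarith
  · push Not at hsm
    obtain ⟨i, hi⟩ := hsm
    have e1 := hle i
    have e2 : dv rs m Bt ≤ 1 := dv_le.trans hrs1
    linarith

/-- the `u`-coordinate of the corner of a matrix close to `diag F` -/
theorem uu_out (h : Adm b y0 z m) {F : Fin 2 → ℂ}
    (hF : ∀ i, 0 < (F i).im) {ε : ℝ} {Bt : Matrix (Fin 2) (Fin 2) ℂ}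
    (hBt : 0 < (Bt 0 0).im) (hN : Near ε (Matrix.diagonal F) Bt) :
    ‖uu m (Bt 0 0) - uu m (F 0)‖ ≤ 3 / y0 * ε := by
  refine (h.uu_lip hBt (hF 0)).trans ?_
  have hy := h.hy
  refine mul_le_mul_of_nonneg_left ?_ (by positivity)
  unfold rho
  have e1 := near_entry hN 0 0
  rw [Matrix.diagonal_apply_eq, mul_assoc, Real.mul_self_sqrt (hF 0).le] at e1
  have e2 : (F 0).im ≤ ‖Bt 0 0 - (starRingEnd ℂ) (F 0)‖ := by
    refine le_trans ?_ (Complex.abs_im_le_norm _)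
    rw [Complex.sub_im, Complex.conj_im]
    refine le_trans ?_ (le_abs_self _)
    linarith
  have e3 := hF 0
  have hε : 0 ≤ ε := by
    by_contra hneg
    push Not at hneg
    have : ε * (F 0).im < 0 := mul_neg_of_neg_of_pos hneg e3
    have := norm_nonneg (Bt 0 0 - F 0)
    linarith
  rw [div_le_iff₀ (lt_of_lt_of_le e3 e2)]
  exact e1.trans (mul_le_mul_of_nonneg_left e2 hε)

end out

/-! ### the shapes -/

section shapes

variable {b : ℕ} {y0 : ℝ} {z m : ℂ} {ι : Type*} [Fintype ι] [DecidableEq ι]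

/-- the tree estimate in the `u`-coordinate for one side (leaves `I0`) -/
structure TreeEst (m al : ℂ) (CL s : ℝ) (I0 : Finset ι) (F : (ι → ℂ) → ℂ) : Prop where
  im : ∀ x : ι → ℂ, (∀ i, 0 < (x i).im) → 0 < (F x).im
  est : ∀ x : ι → ℂ, (∀ i, 0 < (x i).im) →
    ‖uu m (F x) - al * ∑ i ∈ I0, uu m (x i)‖ ≤
      CL * ((∑ p ∈ (univ : Finset ι).offDiag, ‖uu m (x p.1)‖ * ‖uu m (x p.2)‖) + |s|)

/-- `C2` : `|u(x̂) - u(X)| ≤ C2 D²` -/
noncomputable def C2 (y0 Cx : ℝ) : ℝ := 3 / 2 / y0 ^ 4 * Cx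

/-- `C3` : `|u(x̂)| ≤ C3 D` -/
noncomputable def C3 (y0 rs Cx : ℝ) : ℝ := Cy y0 rs + C2 y0 Cx

/-- one side of the tree, all inputs good -/
theorem side0 (h : Adm b y0 z m) {rs : ℝ} (hrs : 0 < rs) (hrs1 : rs ≤ 1) {al : ℂ} {be CL s Cx : ℝ}
    (hal : ‖al‖ ≤ be) (hCx : 0 ≤ Cx) (hCL : 0 ≤ CL)
    {I0 : Finset ι} {F : (ι → ℂ) → ℂ} (hT : TreeEst m al CL s I0 F)
    {Bb : ι → Matrix (Fin 2) (Fin 2) ℂ} (hB : ∀ i, 0 < (Bb i 0 0).im)
    (hg : ∀ i, dv rs m (Bb i) < rs) {xh : ι → ℂ} (hxi : ∀ i, 0 < (xh i).im)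
    (hx : ∀ i, ‖xh i - Bb i 0 0‖ ≤ Cx * ‖Bb i 0 1‖ ^ 2) :
    ‖uu m (F xh) - al * ∑ i ∈ I0, uu m (Bb i 0 0)‖ ≤ be * C2 y0 Cx * (∑ i, dv rs m (Bb i) ^ 2) +
      CL * (C3 y0 rs Cx ^ 2 *
        (∑ p ∈ (univ : Finset ι).offDiag, dv rs m (Bb p.1) * dv rs m (Bb p.2)) + |s|) := by
  have hy := h.hy
  have hbe : 0 ≤ be := (norm_nonneg _).trans hal
  have hC2 : 0 ≤ C2 y0 Cx := by unfold C2; positivity
  have hCy := (Cy_pos hy hrs).le
  have hd0 : ∀ i, 0 ≤ dv rs m (Bb i) := fun i => dv_nonneg hrs.le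
  have hdiff : ∀ i, ‖uu m (xh i) - uu m (Bb i 0 0)‖ ≤ C2 y0 Cx * dv rs m (Bb i) ^ 2 := by
    intro i
    refine (uu_sub_le h (hxi i).le (hB i).le).trans ?_
    unfold C2
    rw [mul_assoc]
    refine mul_le_mul_of_nonneg_left ((hx i).trans ?_) (by positivity)
    refine mul_le_mul_of_nonneg_left ?_ hCx
    exact pow_le_pow_left₀ (norm_nonneg _) (off_le_dv (hg i) (by decide)) 2
  have hu : ∀ i, ‖uu m (xh i)‖ ≤ C3 y0 rs Cx * dv rs m (Bb i) := by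
    intro i
    have e1 : ‖uu m (xh i)‖ ≤ ‖uu m (xh i) - uu m (Bb i 0 0)‖ + ‖uu m (Bb i 0 0)‖ := by
      have := norm_add_le (uu m (xh i) - uu m (Bb i 0 0)) (uu m (Bb i 0 0))
      rwa [sub_add_cancel] at this
    have e2 := uu_le_dv h hrs (B := Bb i) (i := 0) (hB i).le
    have e3 : C2 y0 Cx * dv rs m (Bb i) ^ 2 ≤ C2 y0 Cx * dv rs m (Bb i) := by
      refine mul_le_mul_of_nonneg_left ?_ hC2
      have e4 : dv rs m (Bb i) ≤ 1 := dv_le.trans hrs1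
      nlinarith [hd0 i]
    unfold C3
    rw [add_mul]
    linarith [hdiff i]
  have hC3 : 0 ≤ C3 y0 rs Cx := by unfold C3; linarith
  have h1 := hT.est xh hxi
  have h2 : ‖al * ∑ i ∈ I0, uu m (xh i) - al * ∑ i ∈ I0, uu m (Bb i 0 0)‖ ≤
      be * C2 y0 Cx * ∑ i, dv rs m (Bb i) ^ 2 := by
    rw [← mul_sub, ← Finset.sum_sub_distrib, norm_mul, mul_assoc]
    refine mul_le_mul hal ?_ (norm_nonneg _) hbe
    refine (norm_sum_le _ _).trans ?_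
    rw [Finset.mul_sum]
    refine (Finset.sum_le_sum fun i _ => hdiff i).trans ?_
    exact Finset.sum_le_sum_of_subset_of_nonneg (Finset.subset_univ _)
      (fun i _ _ => mul_nonneg hC2 (sq_nonneg _))
  have h3 : (∑ p ∈ (univ : Finset ι).offDiag, ‖uu m (xh p.1)‖ * ‖uu m (xh p.2)‖) ≤
      C3 y0 rs Cx ^ 2 * ∑ p ∈ (univ : Finset ι).offDiag, dv rs m (Bb p.1) * dv rs m (Bb p.2) := by
    rw [Finset.mul_sum]
    refine Finset.sum_le_sum fun p _ => ?_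
    calc ‖uu m (xh p.1)‖ * ‖uu m (xh p.2)‖
        ≤ (C3 y0 rs Cx * dv rs m (Bb p.1)) * (C3 y0 rs Cx * dv rs m (Bb p.2)) :=
          mul_le_mul (hu _) (hu _) (norm_nonneg _) (mul_nonneg hC3 (hd0 _))
      _ = _ := by ring
  have h4 : ‖uu m (F xh) - al * ∑ i ∈ I0, uu m (Bb i 0 0)‖ ≤
      ‖uu m (F xh) - al * ∑ i ∈ I0, uu m (xh i)‖ +
        ‖al * ∑ i ∈ I0, uu m (xh i) - al * ∑ i ∈ I0, uu m (Bb i 0 0)‖ := by
    have := norm_add_le (uu m (F xh) - al * ∑ i ∈ I0, uu m (xh i))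
      (al * ∑ i ∈ I0, uu m (xh i) - al * ∑ i ∈ I0, uu m (Bb i 0 0))
    rwa [sub_add_sub_cancel] at this
  have h5 : CL * ((∑ p ∈ (univ : Finset ι).offDiag, ‖uu m (xh p.1)‖ * ‖uu m (xh p.2)‖) + |s|) ≤
      CL * (C3 y0 rs Cx ^ 2 *
        (∑ p ∈ (univ : Finset ι).offDiag, dv rs m (Bb p.1) * dv rs m (Bb p.2)) + |s|) :=
    mul_le_mul_of_nonneg_left (by linarith) hCL
  linarith

/-- **(S0)** -/
theorem shape0 (h : Adm b y0 z m) {rs : ℝ} (hrs : 0 < rs) (hrs1 : rs ≤ 1) {al : ℂ}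
    {be CL s Cx CN cE ε : ℝ} (hal : ‖al‖ ≤ be) (hCx : 0 ≤ Cx) (hCL : 0 ≤ CL) (hCN : 0 ≤ CN)
    (hcE : 0 ≤ cE)
    {Iv Iw : Finset ι} {Fv Fw : (ι → ℂ) → ℂ} (hv : TreeEst m al CL s Iv Fv)
    (hw : TreeEst m al CL s Iw Fw)
    {Bb : ι → Matrix (Fin 2) (Fin 2) ℂ} (hB : ∀ i, 0 < (Bb i 0 0).im)
    (hg : ∀ i, dv rs m (Bb i) < rs) {xh : ι → ℂ} (hxi : ∀ i, 0 < (xh i).im)
    (hx : ∀ i, ‖xh i - Bb i 0 0‖ ≤ Cx * ‖Bb i 0 1‖ ^ 2)
    {Bt : Matrix (Fin 2) (Fin 2) ℂ} (hε0 : 0 ≤ ε)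
    (hε : ε ≤ CN * (cE + ∑ p ∈ (univ : Finset ι).offDiag, ‖Bb p.1 0 1‖ * ‖Bb p.2 0 1‖))
    (hN : Near ε (Matrix.diagonal ![Fv xh, Fw xh]) Bt) :
    dv rs m Bt ≤
      (4 + 8 * C2 y0 Cx) * (‖al * ∑ i ∈ Iv, uu m (Bb i 0 0)‖ + ‖al * ∑ i ∈ Iw, uu m (Bb i 0 0)‖) +
      (4 + 8 * C2 y0 Cx) * be * (∑ i, dv rs m (Bb i) ^ 2) +
      (8 * CL * (C3 y0 rs Cx ^ 2 + 1) + 2 * CN) *
        ((∑ p ∈ (univ : Finset ι).offDiag, dv rs m (Bb p.1) * dv rs m (Bb p.2)) + |s| + cE) := by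
  have hy := h.hy
  have hbe : 0 ≤ be := (norm_nonneg _).trans hal
  have hC2 : 0 ≤ C2 y0 Cx := by unfold C2; positivity
  have hd0 : ∀ i, 0 ≤ dv rs m (Bb i) := fun i => dv_nonneg hrs.le
  have hF : ∀ i, 0 < ((![Fv xh, Fw xh] : Fin 2 → ℂ) i).im := by
    intro i
    fin_cases i
    · exact hv.im xh hxi
    · exact hw.im xh hxi
  have h1 := dv_out h hrs1 hF hε0 hN
  have h2 := side0 h hrs hrs1 hal hCx hCL hv hB hg hxi hx
  have h3 := side0 h hrs hrs1 hal hCx hCL hw hB hg hxi hx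
  set P := ∑ p ∈ (univ : Finset ι).offDiag, dv rs m (Bb p.1) * dv rs m (Bb p.2) with hP
  set Q := ∑ i, dv rs m (Bb i) ^ 2 with hQ
  have hP0 : 0 ≤ P := Finset.sum_nonneg fun p _ => mul_nonneg (hd0 _) (hd0 _)
  have hQ0 : 0 ≤ Q := Finset.sum_nonneg fun p _ => sq_nonneg _
  have h4 : (∑ p ∈ (univ : Finset ι).offDiag, ‖Bb p.1 0 1‖ * ‖Bb p.2 0 1‖) ≤ P := by
    refine Finset.sum_le_sum fun p _ => ?_
    exact mul_le_mul (off_le_dv (hg _) (by decide)) (off_le_dv (hg _) (by decide))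
      (norm_nonneg _) (hd0 _)
  have h5 : ε ≤ CN * (cE + P) := hε.trans (mul_le_mul_of_nonneg_left (by linarith) hCN)
  simp only [Matrix.cons_val_zero, Matrix.cons_val_one] at h1
  set a := ‖al * ∑ i ∈ Iv, uu m (Bb i 0 0)‖ with ha
  set c := ‖al * ∑ i ∈ Iw, uu m (Bb i 0 0)‖ with hc
  have h6 : ‖uu m (Fv xh)‖ ≤ a + (be * C2 y0 Cx * Q + CL * (C3 y0 rs Cx ^ 2 * P + |s|)) := by
    have := norm_add_le (uu m (Fv xh) - al * ∑ i ∈ Iv, uu m (Bb i 0 0))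
      (al * ∑ i ∈ Iv, uu m (Bb i 0 0))
    rw [sub_add_cancel] at this
    linarith
  have h7 : ‖uu m (Fw xh)‖ ≤ c + (be * C2 y0 Cx * Q + CL * (C3 y0 rs Cx ^ 2 * P + |s|)) := by
    have := norm_add_le (uu m (Fw xh) - al * ∑ i ∈ Iw, uu m (Bb i 0 0))
      (al * ∑ i ∈ Iw, uu m (Bb i 0 0))
    rw [sub_add_cancel] at this
    linarith
  have ha0 : 0 ≤ a := norm_nonneg _
  have hc0 : 0 ≤ c := norm_nonneg _
  have hs0 : 0 ≤ |s| := abs_nonneg s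
  have h8 : dv rs m Bt ≤ 4 * (a + c) + 8 * (be * C2 y0 Cx * Q) +
      8 * (CL * (C3 y0 rs Cx ^ 2 * P + |s|)) + 2 * (CN * (cE + P)) := by linarith
  have h9 : 0 ≤ 8 * C2 y0 Cx * (a + c) := by positivity
  have h10 : 0 ≤ 4 * be * Q := by positivity
  have h11 : 0 ≤ CL * (C3 y0 rs Cx ^ 2 * |s| + C3 y0 rs Cx ^ 2 * cE + P + cE) := by positivity
  have h12 : 0 ≤ CN * |s| := by positivity
  nlinarith [h8, h9, h10, h11, h12]

/-- **(SM)** -/
theorem shapeM (h : Adm b y0 z m) {rs : ℝ} (hrs : 0 < rs) (hrs1 : rs ≤ 1) {al : ℂ}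
    {be CL s Cx CN cE ε : ℝ} (hal : ‖al‖ ≤ be) (hCx : 0 ≤ Cx) (hCL : 0 ≤ CL) (hCN : 0 ≤ CN)
    (hcE : 0 ≤ cE)
    {Iv Iw : Finset ι} {Fv Fw : (ι → ℂ) → ℂ} (hv : TreeEst m al CL s Iv Fv)
    (hw : TreeEst m al CL s Iw Fw)
    {Bb : ι → Matrix (Fin 2) (Fin 2) ℂ} (hB : ∀ i, 0 < (Bb i 0 0).im)
    (hg : ∀ i, dv rs m (Bb i) < rs) {xh : ι → ℂ} (hxi : ∀ i, 0 < (xh i).im)
    (hx : ∀ i, ‖xh i - Bb i 0 0‖ ≤ Cx * ‖Bb i 0 1‖ ^ 2)
    {Bt : Matrix (Fin 2) (Fin 2) ℂ} (hBt : 0 < (Bt 0 0).im)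
    (hε : ε ≤ CN * (cE + ∑ p ∈ (univ : Finset ι).offDiag, ‖Bb p.1 0 1‖ * ‖Bb p.2 0 1‖))
    (hN : Near ε (Matrix.diagonal ![Fv xh, Fw xh]) Bt) :
    ‖uu m (Bt 0 0) - al * ∑ i ∈ Iv, uu m (Bb i 0 0)‖ ≤
      be * C2 y0 Cx * (∑ i, dv rs m (Bb i) ^ 2) +
      (CL * (C3 y0 rs Cx ^ 2 + 1) + 3 / y0 * CN) *
        ((∑ p ∈ (univ : Finset ι).offDiag, dv rs m (Bb p.1) * dv rs m (Bb p.2)) + |s| + cE) := by
  have hy := h.hy
  have hd0 : ∀ i, 0 ≤ dv rs m (Bb i) := fun i => dv_nonneg hrs.le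
  have hF : ∀ i, 0 < ((![Fv xh, Fw xh] : Fin 2 → ℂ) i).im := by
    intro i
    fin_cases i
    · exact hv.im xh hxi
    · exact hw.im xh hxi
  have h1 := uu_out h hF hBt hN
  simp only [Matrix.cons_val_zero] at h1
  have h2 := side0 h hrs hrs1 hal hCx hCL hv hB hg hxi hx
  set P := ∑ p ∈ (univ : Finset ι).offDiag, dv rs m (Bb p.1) * dv rs m (Bb p.2) with hP
  set Q := ∑ i, dv rs m (Bb i) ^ 2 with hQ
  have hP0 : 0 ≤ P := Finset.sum_nonneg fun p _ => mul_nonneg (hd0 _) (hd0 _)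
  have h4 : (∑ p ∈ (univ : Finset ι).offDiag, ‖Bb p.1 0 1‖ * ‖Bb p.2 0 1‖) ≤ P := by
    refine Finset.sum_le_sum fun p _ => ?_
    exact mul_le_mul (off_le_dv (hg _) (by decide)) (off_le_dv (hg _) (by decide))
      (norm_nonneg _) (hd0 _)
  have h5 : ε ≤ CN * (cE + P) := hε.trans (mul_le_mul_of_nonneg_left (by linarith) hCN)
  have h6 : 3 / y0 * ε ≤ 3 / y0 * (CN * (cE + P)) :=
    mul_le_mul_of_nonneg_left h5 (by positivity)
  have h7 : ‖uu m (Bt 0 0) - al * ∑ i ∈ Iv, uu m (Bb i 0 0)‖ ≤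
      ‖uu m (Bt 0 0) - uu m (Fv xh)‖ + ‖uu m (Fv xh) - al * ∑ i ∈ Iv, uu m (Bb i 0 0)‖ := by
    have := norm_add_le (uu m (Bt 0 0) - uu m (Fv xh))
      (uu m (Fv xh) - al * ∑ i ∈ Iv, uu m (Bb i 0 0))
    rwa [sub_add_sub_cancel] at this
  have hs0 : 0 ≤ |s| := abs_nonneg s
  have h11 : 0 ≤ CL * (C3 y0 rs Cx ^ 2 * |s| + C3 y0 rs Cx ^ 2 * cE + P + cE) := by positivity
  have h12 : 0 ≤ 3 / y0 * CN * |s| := by positivity
  nlinarith [h1, h2, h6, h7, h11, h12]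

/-- one side of the tree, the input `j0` arbitrary -/
theorem side1 (h : Adm b y0 z m) {rs : ℝ} (hrs : 0 < rs) {al : ℂ} {be CL s : ℝ}
    (hal : ‖al‖ ≤ be) (hbe1 : be ≤ 1) (hCL : 0 ≤ CL)
    {I0 : Finset ι} {F : (ι → ℂ) → ℂ} (hT : TreeEst m al CL s I0 F)
    {Bb : ι → Matrix (Fin 2) (Fin 2) ℂ} (hB : ∀ i, 0 < (Bb i 0 0).im)
    (j0 : ι) {x : ι → ℂ} (hxi : ∀ i, 0 < (x i).im) (hx : ∀ i, i ≠ j0 → x i = Bb i 0 0) :
    ‖uu m (F x)‖ ≤ be * BB y0 +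
      (Cy y0 rs + CL * (2 * Fintype.card ι * (BB y0 * Cy y0 rs))) *
        (∑ j ∈ ({j0} : Finset ι)ᶜ, dv rs m (Bb j)) + CL * |s| := by
  have hy := h.hy
  have hbe : 0 ≤ be := (norm_nonneg _).trans hal
  have hBB := (BB_pos hy).le
  have hCy := (Cy_pos hy hrs).le
  have hd0 : ∀ i, 0 ≤ dv rs m (Bb i) := fun i => dv_nonneg hrs.le
  have huB : ∀ i, ‖uu m (x i)‖ ≤ BB y0 := fun i => h.norm_uu_le (hxi i).le
  have hu : ∀ i, i ≠ j0 → ‖uu m (x i)‖ ≤ Cy y0 rs * dv rs m (Bb i) := by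
    intro i hi
    rw [hx i hi]
    exact uu_le_dv h hrs (hB i).le
  set S := ∑ j ∈ ({j0} : Finset ι)ᶜ, dv rs m (Bb j) with hS
  have hS0 : 0 ≤ S := Finset.sum_nonneg fun _ _ => hd0 _
  have h1 := hT.est x hxi
  -- the linear term
  have h2 : ‖al * ∑ i ∈ I0, uu m (x i)‖ ≤ be * BB y0 + Cy y0 rs * S := by
    rw [norm_mul]
    have e1 : ‖∑ i ∈ I0, uu m (x i)‖ ≤ BB y0 + Cy y0 rs * S := by
      refine (norm_sum_le _ _).trans ?_
      have e2 : (∑ i ∈ I0, ‖uu m (x i)‖) ≤ ∑ i, ‖uu m (x i)‖ :=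
        Finset.sum_le_sum_of_subset_of_nonneg (Finset.subset_univ _) fun _ _ _ => norm_nonneg _
      have e3 : ∑ i, ‖uu m (x i)‖ = ‖uu m (x j0)‖ + ∑ i ∈ ({j0} : Finset ι)ᶜ, ‖uu m (x i)‖ := by
        rw [← Finset.sum_add_sum_compl ({j0} : Finset ι), Finset.sum_singleton]
      have e4 : (∑ i ∈ ({j0} : Finset ι)ᶜ, ‖uu m (x i)‖) ≤ Cy y0 rs * S := by
        rw [hS, Finset.mul_sum]
        refine Finset.sum_le_sum fun i hi => hu i ?_
        simpa using hi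
      linarith [huB j0]
    calc ‖al‖ * ‖∑ i ∈ I0, uu m (x i)‖ ≤ be * (BB y0 + Cy y0 rs * S) :=
          mul_le_mul hal e1 (norm_nonneg _) hbe
      _ = be * BB y0 + be * (Cy y0 rs * S) := by ring
      _ ≤ be * BB y0 + 1 * (Cy y0 rs * S) := by
          have : 0 ≤ Cy y0 rs * S := mul_nonneg hCy hS0
          nlinarith
      _ = _ := by ring
  -- the quadratic term
  set D' : ι → ℝ := fun j => if j = j0 then 0 else dv rs m (Bb j) with hD'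
  have hD'0 : ∀ j, 0 ≤ D' j := fun j => by
    rw [hD']
    dsimp only
    split_ifs
    · exact le_rfl
    · exact hd0 _
  have hsumD' : ∑ j, D' j = S := by
    rw [hS, ← Finset.sum_add_sum_compl ({j0} : Finset ι) D', Finset.sum_singleton]
    have e1 : D' j0 = 0 := by simp [hD']
    rw [e1, zero_add]
    refine Finset.sum_congr rfl fun i hi => ?_
    have : i ≠ j0 := by simpa using hi
    simp [hD', this]
  have h3 : (∑ p ∈ (univ : Finset ι).offDiag, ‖uu m (x p.1)‖ * ‖uu m (x p.2)‖) ≤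
      2 * Fintype.card ι * (BB y0 * Cy y0 rs) * S := by
    have e1 : ∀ p ∈ (univ : Finset ι).offDiag, ‖uu m (x p.1)‖ * ‖uu m (x p.2)‖ ≤
        BB y0 * Cy y0 rs * (D' p.1 + D' p.2) := by
      rintro ⟨j, k⟩ hjk
      have hne : j ≠ k := (Finset.mem_offDiag.1 hjk).2.2
      dsimp only
      by_cases hj : j = j0
      · have hk : k ≠ j0 := fun hk => hne (hj.trans hk.symm)
        have e2 : D' k = dv rs m (Bb k) := by simp [hD', hk]
        calc ‖uu m (x j)‖ * ‖uu m (x k)‖ ≤ BB y0 * (Cy y0 rs * dv rs m (Bb k)) :=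
              mul_le_mul (huB j) (hu k hk) (norm_nonneg _) hBB
          _ = BB y0 * Cy y0 rs * D' k := by rw [e2]; ring
          _ ≤ BB y0 * Cy y0 rs * (D' j + D' k) :=
              mul_le_mul_of_nonneg_left (by linarith [hD'0 j]) (mul_nonneg hBB hCy)
      · have e2 : D' j = dv rs m (Bb j) := by simp [hD', hj]
        calc ‖uu m (x j)‖ * ‖uu m (x k)‖ ≤ (Cy y0 rs * dv rs m (Bb j)) * BB y0 :=
              mul_le_mul (hu j hj) (huB k) (norm_nonneg _) (mul_nonneg hCy (hd0 _))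
          _ = BB y0 * Cy y0 rs * D' j := by rw [e2]; ring
          _ ≤ BB y0 * Cy y0 rs * (D' j + D' k) :=
              mul_le_mul_of_nonneg_left (by linarith [hD'0 k]) (mul_nonneg hBB hCy)
    have e0 : (∑ p ∈ (univ : Finset ι).offDiag, ‖uu m (x p.1)‖ * ‖uu m (x p.2)‖) ≤
        ∑ p : ι × ι, BB y0 * Cy y0 rs * (D' p.1 + D' p.2) := by
      refine (Finset.sum_le_sum e1).trans ?_
      exact Finset.sum_le_sum_of_subset_of_nonneg (Finset.subset_univ _) fun p _ _ =>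
        mul_nonneg (mul_nonneg hBB hCy) (add_nonneg (hD'0 _) (hD'0 _))
    refine e0.trans (le_of_eq ?_)
    rw [← Finset.mul_sum, Fintype.sum_prod_type]
    simp only [Finset.sum_add_distrib, Finset.sum_const, Finset.card_univ, nsmul_eq_mul]
    rw [← Finset.mul_sum, hsumD']
    ring
  have h4 : ‖uu m (F x)‖ ≤ ‖uu m (F x) - al * ∑ i ∈ I0, uu m (x i)‖ +
      ‖al * ∑ i ∈ I0, uu m (x i)‖ := by
    have := norm_add_le (uu m (F x) - al * ∑ i ∈ I0, uu m (x i)) (al * ∑ i ∈ I0, uu m (x i))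
    rwa [sub_add_cancel] at this
  have h5 := mul_le_mul_of_nonneg_left h3 hCL
  nlinarith [h1, h2, h4, h5]

/-- **(S1)** -/
theorem shape1 (h : Adm b y0 z m) {rs : ℝ} (hrs : 0 < rs) (hrs1 : rs ≤ 1) {al : ℂ}
    {be CL s CN cE ε : ℝ} (hal : ‖al‖ ≤ be) (hbe1 : be ≤ 1) (hCL : 0 ≤ CL) (hCN : 0 ≤ CN)
    (hcE : 0 ≤ cE)
    {Iv Iw : Finset ι} {Fv Fw : (ι → ℂ) → ℂ} (hv : TreeEst m al CL s Iv Fv)
    (hw : TreeEst m al CL s Iw Fw)
    {Bb : ι → Matrix (Fin 2) (Fin 2) ℂ} (hB : ∀ i, 0 < (Bb i 0 0).im) (j0 : ι)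
    (hg : ∀ i, i ≠ j0 → dv rs m (Bb i) < rs) {x : ι → ℂ} (hxi : ∀ i, 0 < (x i).im)
    (hx : ∀ i, i ≠ j0 → x i = Bb i 0 0)
    {Bt : Matrix (Fin 2) (Fin 2) ℂ} (hε0 : 0 ≤ ε)
    (hε : ε ≤ CN * (cE + ∑ j ∈ ({j0} : Finset ι)ᶜ, ‖Bb j 0 1‖))
    (hN : Near ε (Matrix.diagonal ![Fv x, Fw x]) Bt) :
    dv rs m Bt ≤ 8 * BB y0 * be +
      (8 * (Cy y0 rs + CL * (2 * Fintype.card ι * (BB y0 * Cy y0 rs))) + 8 * CL + 2 * CN) *
        ((∑ j ∈ ({j0} : Finset ι)ᶜ, dv rs m (Bb j)) + |s| + cE) := by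
  have hy := h.hy
  have hbe : 0 ≤ be := (norm_nonneg _).trans hal
  have hBB := (BB_pos hy).le
  have hCy := (Cy_pos hy hrs).le
  have hd0 : ∀ i, 0 ≤ dv rs m (Bb i) := fun i => dv_nonneg hrs.le
  have hF : ∀ i, 0 < ((![Fv x, Fw x] : Fin 2 → ℂ) i).im := by
    intro i
    fin_cases i
    · exact hv.im x hxi
    · exact hw.im x hxi
  have h1 := dv_out h hrs1 hF hε0 hN
  simp only [Matrix.cons_val_zero, Matrix.cons_val_one] at h1
  have h2 := side1 h hrs hal hbe1 hCL hv hB j0 hxi hx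
  have h3 := side1 h hrs hal hbe1 hCL hw hB j0 hxi hx
  set S := ∑ j ∈ ({j0} : Finset ι)ᶜ, dv rs m (Bb j) with hS
  have hS0 : 0 ≤ S := Finset.sum_nonneg fun _ _ => hd0 _
  have h4 : (∑ j ∈ ({j0} : Finset ι)ᶜ, ‖Bb j 0 1‖) ≤ S := by
    refine Finset.sum_le_sum fun j hj => off_le_dv (hg j ?_) (by decide)
    simpa using hj
  have h5 : ε ≤ CN * (cE + S) := hε.trans (mul_le_mul_of_nonneg_left (by linarith) hCN)
  set K := Cy y0 rs + CL * (2 * Fintype.card ι * (BB y0 * Cy y0 rs)) with hK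
  have hK0 : 0 ≤ K := by rw [hK]; positivity
  have hs0 : 0 ≤ |s| := abs_nonneg s
  have h6 : dv rs m Bt ≤ 4 * (2 * (be * BB y0 + K * S + CL * |s|)) + 2 * (CN * (cE + S)) := by
    linarith
  have h7 : 0 ≤ K * (|s| + cE) := by positivity
  have h8 : 0 ≤ CL * (S + cE) := by positivity
  have h9 : 0 ≤ CN * |s| := by positivity
  nlinarith [h6, h7, h8, h9]

end shapes

end Crest.Agent.R166.Shape395
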