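import Crest.Agent.R166.GoodE_789
import Crest.Agent.R166.TreeF_598

/-!
# R166, section 30.4 (helper789): the shape (S1) on port numbered graphs

`s1P_of` : `S1P d (L+1) A rs ε (8 BB y00) CL` from the scalar tree estimate `TEst`.
-/

set_option autoImplicit false
set_option linter.unusedSectionVars false

open Matrix Finset

namespace Crest.Agent.R166.ShapeP1789

open Crest.Agent.R166 Crest.Agent.R166.Stab269
open Crest.Agent.R166.SwP470 (BVal bv TL BI NZ NZw wd rt tau ab np)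
open Crest.Agent.R166.TreeT327 Crest.Agent.R166.DecP789 Crest.Agent.R166.Spec30
open Crest.Agent.R166.GoodE789 Crest.Agent.R166.TreeF598 Crest.Agent.R166.Shape395
open Crest.Agent.R166.TreeDet350 (BB uu)
open Crest.Agent.R166.MuU395 (y00 y00_pos adm_of)

variable {n d : ℕ} [NeZero d]

/-- the scalar tree estimate at depth `L`, uniformly in the energy and the potential -/
def TEst (d : ℕ) [NeZero d] (L : ℕ) (A CLt : ℝ) : Prop :=
  ∀ E s η : ℝ, |E| ≤ A → |s| ≤ 1 → 0 < η → η ≤ 1 → ∀ V : Tr Bool (NZ d) L → ℝ,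
    (∀ x, |V x| ≤ |s|) → ∀ r : Bool,
      TreeEst (mc d (ze E η)) (mc d (ze E η) ^ (2 * L)) CLt s (Iside L r)
        (fun x : BI d L → ℂ => treeF (ze E η) L V (x ∘ (layE L).symm) r)

lemma Vt_le {p : Equiv.Perm (HE n d)} {h0 : HE n d} {L : ℕ} {s : ℝ} {ω : Fin n → ℝ}
    (hω : ∀ v, |ω v| ≤ 1) (x : Tr Bool (NZ d) L) : |Vt p h0 L s ω x| ≤ |s| := by
  unfold Vt
  rw [abs_mul]
  exact mul_le_of_le_one_right (abs_nonneg _) (hω _)

lemma im_B0P {p : Equiv.Perm (HE n d)} (hp : IsPort p) (s : ℝ) (ω : Fin n → ℝ) {z : ℂ}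
    (hz : 0 < z.im) (h : HE n d) (i : Fin 2) : 0 < (B0 p s ω z h i i).im :=
  MuU395.im_B0_pos hp s ω hz h i

/-- the constants `CN`, `CL` -/
noncomputable def CN1 (y : ℝ) : ℝ := 8 / y + 4 * CEc (y / 8)

lemma CN1_pos {y : ℝ} (hy : 0 < y) : 0 < CN1 y := by
  unfold CN1
  have := CEc_pos (by positivity : 0 < y / 8)
  positivity

/-- the constant of (S1) -/
noncomputable def CL1 (d : ℕ) [NeZero d] (L : ℕ) (y rs CLt : ℝ) : ℝ :=
  8 * (Cy y rs + CLt * (2 * Fintype.card (BI d L) * (BB y * Cy y rs))) + 8 * CLt + 2 * CN1 y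

set_option synthInstance.maxSize 4000
set_option synthInstance.maxHeartbeats 400000
set_option maxHeartbeats 1000000

/-- **one arbitrary leaf** -/
theorem one_leaf {L : ℕ} {A rs E s η : ℝ} {ω : Fin n → ℝ} (hd : 3 ≤ d)
    (hA : A ^ 2 < 4 * ((d : ℝ) - 1)) (hrs : RsOK d A rs) (hR : Rng A n E s η ω)
    {p : Equiv.Perm (HE n d)} (hp : IsPort p) {h0 : HE n d} {b : BI d (L + 1) → HE n d}
    (hb : BVal (L + 1) p h0 b) (i : BI d (L + 1))
    (hg : ∀ j, j ≠ i → SpecA.Dv rs p s ω (ze E η) (b j) < rs)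
    (hκ2 : cE (S0t p h0 L) (Res789.Res (Hm (graphOf p) s ω) (ze E η)) p b {i} (y00 d A / 8) ≤
      1 / 2) :
    ∃ x : BI d (L + 1) → ℂ, (∀ j, 0 < (x j).im) ∧
      (∀ j, j ≠ i → x j = B0 p s ω (ze E η) (b j) 0 0) ∧
      ∃ ε : ℝ, 0 ≤ ε ∧ ε ≤ CN1 (y00 d A) * (cEs (L + 1) p s ω (ze E η) h0 {i} b +
          ∑ j ∈ ({i} : Finset (BI d (L + 1)))ᶜ, ‖B0 p s ω (ze E η) (b j) 0 1‖) ∧
        Res598.Near ε
          (Matrix.diagonal
            ![treeF (ze E η) (L + 1) (Vt p h0 (L + 1) s ω) (x ∘ (layE (L + 1)).symm) false,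
              treeF (ze E η) (L + 1) (Vt p h0 (L + 1) s ω) (x ∘ (layE (L + 1)).symm) true])
          (B0 (np p h0 b) s ω (ze E η) h0) := by
  have hzi : (ze E η).im = η := by simp [ze]
  have hz : 0 < (ze E η).im := by rw [hzi]; exact hR.η0
  have hy0 := y00_pos (by omega : 2 ≤ d) hA
  set y := y00 d A with hy
  have hc : 0 < y / 8 := by positivity
  set κ := cE (S0t p h0 L) (Res789.Res (Hm (graphOf p) s ω) (ze E η)) p b {i} (y / 8) with hκ
  have hκ0 : 0 ≤ κ := cE_nonneg _ _ _ _ _ hc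
  set S00 := ∑ j ∈ ({i} : Finset (BI d (L + 1)))ᶜ, ‖B0 p s ω (ze E η) (b j) 0 1‖ with hS
  have hS00 : 0 ≤ S00 := Finset.sum_nonneg fun _ _ => norm_nonneg _
  set ρ := min (1 / 4) (2 / y * S00) with hρ
  have hρ0 : 0 ≤ ρ := le_min (by norm_num) (by positivity)
  have hgj : ∀ j, j ∉ ({i} : Finset (BI d (L + 1))) → j ≠ i := fun j hj h => hj (by simp [h])
  have ho : ∀ j, j ∉ ({i} : Finset (BI d (L + 1))) → ‖B0 p s ω (ze E η) (b j) 0 1‖ ≤
      ρ * (Real.sqrt (B0 p s ω (ze E η) (b j) 0 0).im *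
        Real.sqrt (B0 p s ω (ze E η) (b j) 1 1).im) := by
    intro j hj
    have g := hg j (hgj j hj)
    have h1 := im_ge (p := p) (s := s) (ω := ω) hd hA hrs hR.E hR.η0 hR.η1 g 0
    have h2 := im_ge (p := p) (s := s) (ω := ω) hd hA hrs hR.E hR.η0 hR.η1 g 1
    rw [← hy] at h1 h2
    have h3 : y / 2 ≤ Real.sqrt (B0 p s ω (ze E η) (b j) 0 0).im *
        Real.sqrt (B0 p s ω (ze E η) (b j) 1 1).im := by
      calc y / 2 = Real.sqrt (y / 2) * Real.sqrt (y / 2) :=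
            (Real.mul_self_sqrt (by positivity)).symm
        _ ≤ _ := mul_le_mul (Real.sqrt_le_sqrt h1) (Real.sqrt_le_sqrt h2) (Real.sqrt_nonneg _)
            (Real.sqrt_nonneg _)
    have h4 : ‖B0 p s ω (ze E η) (b j) 0 1‖ ≤ S00 :=
      Finset.single_le_sum (f := fun j => ‖B0 p s ω (ze E η) (b j) 0 1‖)
        (fun _ _ => norm_nonneg _) (Finset.mem_compl.2 hj)
    have h5 : ‖B0 p s ω (ze E η) (b j) 0 1‖ ≤ y / 8 := by
      have h6 := off_le (p := p) (s := s) (ω := ω) g (i := 0) (j := 1) (by decide)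
      have h7 := hrs.le
      rw [← hy] at h7
      linarith
    have h6 : ‖B0 p s ω (ze E η) (b j) 0 1‖ ≤ ρ * (y / 2) := by
      rw [hρ, min_mul_of_nonneg _ _ (by positivity : 0 ≤ y / 2)]
      refine le_min (by linarith) ?_
      have : 2 / y * S00 * (y / 2) = S00 := by field_simp
      rw [this]
      exact h4
    exact h6.trans (mul_le_mul_of_nonneg_left h3 hρ0)
  obtain ⟨Ξ, g1, g2, g3⟩ := gen hp hb {i} s ω hz hc
    (fun j hj => qf_ge hd hA hrs hp hR.E hR.η0 hR.η1 (hg j (hgj j hj))) (le_refl κ) hκ2 hρ0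
    (min_le_left _ _) ho
  have hdiag : Ξ = Matrix.diagonal (fun j => Ξ j j) := by
    ext j k
    by_cases hjk : j = k
    · subst hjk; rw [Matrix.diagonal_apply_eq]
    · rw [Matrix.diagonal_apply_ne _ hjk]
      by_cases hj : j = i
      · have hk : k ∉ ({i} : Finset (BI d (L + 1))) := by
          rw [Finset.mem_singleton]
          exact fun h => hjk (hj.trans h.symm)
        rw [Dec598.siegel_entry_symm g1 j k, g2 k hk j, if_neg hjk]
      · rw [g2 j (by rw [Finset.mem_singleton]; exact hj) k, if_neg (fun h => hjk h.symm)]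
  have hxp : ∀ j, 0 < (Ξ j j).im := fun j => Dec598.siegel_entry_pos g1 j
  refine ⟨fun j => Ξ j j, hxp, fun j hj => ?_, 4 * ρ + 4 * κ, by positivity, ?_, ?_⟩
  · exact (g2 j (by rw [Finset.mem_singleton]; exact hj) j).trans (if_pos rfl)
  · have h1 : κ ≤ CEc (y / 8) * cEs (L + 1) p s ω (ze E η) h0 {i} b :=
      cE_le hc p h0 L b {i} s ω (ze E η)
    have h2 : ρ ≤ 2 / y * S00 := min_le_right _ _
    have h3 := cEs_nonneg (L + 1) p s ω (ze E η) h0 {i} b
    have h4 := CEc_pos hc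
    unfold CN1
    have h5 : 0 ≤ 8 / y * cEs (L + 1) p s ω (ze E η) h0 {i} b := by positivity
    have h6 : 0 ≤ 4 * CEc (y / 8) * S00 := by positivity
    have h7 : 4 * (2 / y * S00) = 8 / y * S00 := by ring
    nlinarith
  · have h1 := g3
    rw [hdiag, treeOut_leafT hz L _ hxp] at h1
    exact h1

/-- **(S1) on port numbered graphs** -/
theorem s1P_of {L : ℕ} {A rs CLt : ℝ} (ε : ℝ) (hd : 3 ≤ d) (hA : A ^ 2 < 4 * ((d : ℝ) - 1))
    (hrs : RsOK d A rs) (hCL : 0 ≤ CLt) (hT : TEst d (L + 1) A CLt) :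
    S1P d (L + 1) A rs ε (8 * BB (y00 d A)) (CL1 d (L + 1) (y00 d A) rs CLt) := by
  intro n E s η ω hR p hp h0 b hb i hadm
  have hzi : (ze E η).im = η := by simp [ze]
  have hz : 0 < (ze E η).im := by rw [hzi]; exact hR.η0
  have hy0 := y00_pos (by omega : 2 ≤ d) hA
  have hAdm := adm_of hd hA hR.E hR.η0 hR.η1
  have hBB := TreeDet350.BB_pos hy0
  have hCy := Cy_pos hy0 hrs.pos
  have hCN := CN1_pos hy0
  have hg : ∀ j, j ≠ i → SpecA.Dv rs p s ω (ze E η) (b j) < rs := fun j hj =>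
    good_of_adm hadm (by rw [Finset.mem_singleton]; exact hj)
  have hc : 0 < y00 d A / 8 := by positivity
  have hcEs := cEs_nonneg (L + 1) p s ω (ze E η) h0 {i} b
  have hDv0 : ∀ h, 0 ≤ SpecA.Dv rs p s ω (ze E η) h := fun h =>
    dv_nonneg (m := mc d (ze E η)) (B := B0 p s ω (ze E η) h) hrs.pos.le
  by_cases hκ : cE (S0t p h0 L) (Res789.Res (Hm (graphOf p) s ω) (ze E η)) p b {i}
      (y00 d A / 8) ≤ 1 / 2
  · obtain ⟨x, hx1, hx2, e, he0, he1, hN⟩ := one_leaf hd hA hrs hR hp hb i hg hκ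
    have hV : ∀ x : Tr Bool (NZ d) (L + 1), |Vt p h0 (L + 1) s ω x| ≤ |s| := Vt_le hR.ω
    have hv := hT E s η hR.E hR.s hR.η0 hR.η1 _ hV false
    have hw := hT E s η hR.E hR.s hR.η0 hR.η1 _ hV true
    have hm1 : ‖mc d (ze E η)‖ ≤ 1 := hAdm.norm_le.trans (by norm_num)
    have key := shape1 hAdm hrs.pos (hrs.le_one hd hA)
      (be := ‖mc d (ze E η)‖ ^ (2 * (L + 1))) (CN := CN1 (y00 d A))
      (cE := cEs (L + 1) p s ω (ze E η) h0 {i} b)
      (le_of_eq (norm_pow _ _)) (pow_le_one₀ (norm_nonneg _) hm1) hCL hCN.le hcEs hv hw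
      (Bb := fun j => B0 p s ω (ze E η) (b j)) (fun j => im_B0P hp s ω hz (b j) 0) i
      (fun j hj => hg j hj) hx1 hx2 he0 he1 hN
    exact key
  · push Not at hκ
    have h1 : cE (S0t p h0 L) (Res789.Res (Hm (graphOf p) s ω) (ze E η)) p b {i} (y00 d A / 8) ≤
        CEc (y00 d A / 8) * cEs (L + 1) p s ω (ze E η) h0 {i} b :=
      cE_le hc p h0 L b {i} s ω (ze E η)
    have h2 : SpecA.Dv rs (np p h0 b) s ω (ze E η) h0 ≤ 1 :=
      (dv_le (m := mc d (ze E η)) (B := B0 (np p h0 b) s ω (ze E η) h0)).trans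
        (hrs.le_one hd hA)
    have h3 : 0 ≤ 8 * BB (y00 d A) * ‖mc d (ze E η)‖ ^ (2 * (L + 1)) := by positivity
    have h4 : 0 ≤ ∑ j ∈ ({i} : Finset (BI d (L + 1)))ᶜ, SpecA.Dv rs p s ω (ze E η) (b j) :=
      Finset.sum_nonneg fun _ _ => hDv0 _
    have h5 : 8 * CEc (y00 d A / 8) ≤ CL1 d (L + 1) (y00 d A) rs CLt := by
      unfold CL1 CN1
      have h6 : 0 ≤ 8 * (Cy (y00 d A) rs + CLt * (2 * Fintype.card (BI d (L + 1)) *
          (BB (y00 d A) * Cy (y00 d A) rs))) + 8 * CLt := by positivity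
      have h7 : 0 ≤ 8 / y00 d A := by positivity
      linarith
    have h6 : 0 < CEc (y00 d A / 8) := CEc_pos hc
    have h7 : 0 ≤ CL1 d (L + 1) (y00 d A) rs CLt := by linarith
    have h8 : 8 * CEc (y00 d A / 8) * cEs (L + 1) p s ω (ze E η) h0 {i} b ≤
        CL1 d (L + 1) (y00 d A) rs CLt * cEs (L + 1) p s ω (ze E η) h0 {i} b :=
      mul_le_mul_of_nonneg_right h5 hcEs
    have h9 : 0 ≤ CL1 d (L + 1) (y00 d A) rs CLt *
        ((∑ j ∈ ({i} : Finset (BI d (L + 1)))ᶜ, SpecA.Dv rs p s ω (ze E η) (b j)) + |s|) :=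
      mul_nonneg h7 (add_nonneg h4 (abs_nonneg _))
    have h10 : 0 ≤ 8 * CEc (y00 d A / 8) * cEs (L + 1) p s ω (ze E η) h0 {i} b := by positivity
    rw [mul_add (CL1 d (L + 1) (y00 d A) rs CLt)]
    linarith

end Crest.Agent.R166.ShapeP1789
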