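import Crest.Agent.R166.ObsVM_269

/-!
Row 166, sections 30.4-30.6 (helper269): the observables with `bnorm` (decision 598 #3970).

* `DvA rs m A = min rs (bnorm (A - m • 1))`
* `chiB r m A = max 0 (min 1 (2 - bnorm (A - m • 1) / r))`, `muA r m A = (A 0 0 - m) * chiB r m A`
* `Vb`, `gVb`, `mub`, `gmub` and the second moment estimates `sm_Vb`, `sm_mub`.
-/

set_option autoImplicit false

open Matrix Finset

namespace Crest.Agent.R166.Stab269

open Crest.Agent.R166 Crest.Agent.R166.Sec269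

attribute [local instance] Matrix.linftyOpNormedRing Matrix.linftyOpNormedAlgebra

theorem entry_le_bnorm (A : Matrix (Fin 2) (Fin 2) ℂ) (i j : Fin 2) : ‖A i j‖ ≤ bnorm A := by
  unfold bnorm
  fin_cases i <;> fin_cases j
  · exact (le_max_left _ _).trans (le_max_left _ _)
  · exact (le_max_right _ _).trans (le_max_left _ _)
  · exact (le_max_left _ _).trans (le_max_right _ _)
  · exact (le_max_right _ _).trans (le_max_right _ _)

theorem bnorm_le_iff {A : Matrix (Fin 2) (Fin 2) ℂ} {c : ℝ} :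
    bnorm A ≤ c ↔ ∀ i j, ‖A i j‖ ≤ c := by
  constructor
  · intro h i j
    exact (entry_le_bnorm A i j).trans h
  · intro h
    exact max_le (max_le (h 0 0) (h 0 1)) (max_le (h 1 0) (h 1 1))

theorem bnorm_nonneg (A : Matrix (Fin 2) (Fin 2) ℂ) : 0 ≤ bnorm A :=
  (norm_nonneg _).trans (entry_le_bnorm A 0 0)

theorem bnorm_le_norm (A : Matrix (Fin 2) (Fin 2) ℂ) : bnorm A ≤ ‖A‖ :=
  bnorm_le_iff.2 fun i j => entry_le_norm A i j

theorem norm_le_two_bnorm (A : Matrix (Fin 2) (Fin 2) ℂ) : ‖A‖ ≤ 2 * bnorm A :=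
  norm_le_of_entries fun i j => entry_le_bnorm A i j

theorem bnorm_add_le (A B : Matrix (Fin 2) (Fin 2) ℂ) : bnorm (A + B) ≤ bnorm A + bnorm B :=
  bnorm_le_iff.2 fun i j => (norm_add_le _ _).trans
    (add_le_add (entry_le_bnorm A i j) (entry_le_bnorm B i j))

theorem bnorm_neg (A : Matrix (Fin 2) (Fin 2) ℂ) : bnorm (-A) = bnorm A := by
  unfold bnorm
  simp

theorem bnorm_sub_comm (A B : Matrix (Fin 2) (Fin 2) ℂ) : bnorm (A - B) = bnorm (B - A) := by
  rw [← bnorm_neg, neg_sub]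

theorem bnorm_lip (m : ℂ) (A A' : Matrix (Fin 2) (Fin 2) ℂ) :
    |bnorm (A' - m • 1) - bnorm (A - m • 1)| ≤ bnorm (A' - A) := by
  rw [abs_sub_le_iff]
  constructor
  · have h := bnorm_add_le (A' - A) (A - m • 1)
    rw [sub_add_sub_cancel] at h
    linarith
  · have h := bnorm_add_le (A - A') (A' - m • 1)
    rw [sub_add_sub_cancel, bnorm_sub_comm A A'] at h
    linarith

/-- `D` with cap `rs` -/
noncomputable def DvA (rs : ℝ) (m : ℂ) (A : Matrix (Fin 2) (Fin 2) ℂ) : ℝ :=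
  min rs (bnorm (A - m • 1))

theorem DvA_nonneg {rs : ℝ} (hrs : 0 ≤ rs) (m : ℂ) (A : Matrix (Fin 2) (Fin 2) ℂ) :
    0 ≤ DvA rs m A := le_min hrs (bnorm_nonneg _)

theorem DvA_le (rs : ℝ) (m : ℂ) (A : Matrix (Fin 2) (Fin 2) ℂ) : DvA rs m A ≤ rs :=
  min_le_left _ _

theorem DvA_le_bnorm (rs : ℝ) (m : ℂ) (A : Matrix (Fin 2) (Fin 2) ℂ) :
    DvA rs m A ≤ bnorm (A - m • 1) := min_le_right _ _

theorem DvA_lip (rs : ℝ) (m : ℂ) (A A' : Matrix (Fin 2) (Fin 2) ℂ) :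
    |DvA rs m A' - DvA rs m A| ≤ bnorm (A' - A) := by
  have h1 := abs_min_sub_min_le_max rs (bnorm (A' - m • 1)) rs (bnorm (A - m • 1))
  refine h1.trans (max_le ?_ (bnorm_lip m A A'))
  rw [sub_self, abs_zero]
  exact bnorm_nonneg _

theorem bnorm_large {m : ℂ} {A : Matrix (Fin 2) (Fin 2) ℂ} {t : ℝ} (h : 2 * t + ‖m‖ < ‖A‖) :
    t < bnorm (A - m • 1) := by
  have h1 := norm_sub_norm_le A (sc m)
  rw [norm_sc] at h1
  have h2 := norm_le_two_bnorm (A - sc m)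
  unfold sc at h1 h2
  linarith

/-- the observable `D²` with cap `rs ≤ 1` -/
theorem obsDv_isObs {rs : ℝ} (hrs : 0 < rs) (hrs1 : rs ≤ 1) (m : ℂ) :
    Obs (fun A => DvA rs m A ^ 2) 2 (2 * rs + ‖m‖) where
  bdd A := by
    have h0 := DvA_nonneg hrs.le m A
    have h1 := DvA_le rs m A
    rw [abs_of_nonneg (by positivity)]
    nlinarith
  lip A A' := by
    have h0 := DvA_nonneg hrs.le m A
    have h1 := DvA_le rs m A
    have h0' := DvA_nonneg hrs.le m A'
    have h1' := DvA_le rs m A'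
    have h2 := (DvA_lip rs m A A').trans (bnorm_le_norm _)
    have h3 : DvA rs m A' ^ 2 - DvA rs m A ^ 2
        = (DvA rs m A' - DvA rs m A) * (DvA rs m A' + DvA rs m A) := by ring
    rw [h3, abs_mul, abs_of_nonneg (by linarith : (0 : ℝ) ≤ DvA rs m A' + DvA rs m A)]
    have h4 := abs_nonneg (DvA rs m A' - DvA rs m A)
    nlinarith
  const A A' hA hA' := by
    have key : ∀ B : Matrix (Fin 2) (Fin 2) ℂ, 2 * rs + ‖m‖ < ‖B‖ → DvA rs m B = rs := by
      intro B hB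
      unfold DvA
      exact min_eq_left (bnorm_large hB).le
    rw [key A hA, key A' hA']
  Λ0 := by norm_num
  β0 := by positivity

/-- cutoff -/
noncomputable def chiB (r : ℝ) (m : ℂ) (A : Matrix (Fin 2) (Fin 2) ℂ) : ℝ :=
  max 0 (min 1 (2 - bnorm (A - m • 1) / r))

theorem chiB_nonneg (r : ℝ) (m : ℂ) (A : Matrix (Fin 2) (Fin 2) ℂ) : 0 ≤ chiB r m A :=
  le_max_left _ _

theorem chiB_le_one (r : ℝ) (m : ℂ) (A : Matrix (Fin 2) (Fin 2) ℂ) : chiB r m A ≤ 1 :=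
  max_le zero_le_one (min_le_left _ _)

theorem chiB_eq_one {r : ℝ} (hr : 0 < r) {m : ℂ} {A : Matrix (Fin 2) (Fin 2) ℂ}
    (h : bnorm (A - m • 1) ≤ r) : chiB r m A = 1 := by
  have : (1 : ℝ) ≤ 2 - bnorm (A - m • 1) / r := by
    have := (div_le_one hr).2 h
    linarith
  unfold chiB
  rw [min_eq_left this]
  exact max_eq_right zero_le_one

theorem chiB_eq_zero {r : ℝ} (hr : 0 < r) {m : ℂ} {A : Matrix (Fin 2) (Fin 2) ℂ}
    (h : 2 * r ≤ bnorm (A - m • 1)) : chiB r m A = 0 := by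
  have h1 : 2 - bnorm (A - m • 1) / r ≤ 0 := by
    have := (le_div_iff₀ hr).2 h
    linarith
  unfold chiB
  exact max_eq_left ((min_le_right _ _).trans h1)

theorem chiB_lip {r : ℝ} (hr : 0 < r) (m : ℂ) (A A' : Matrix (Fin 2) (Fin 2) ℂ) :
    |chiB r m A' - chiB r m A| ≤ r⁻¹ * bnorm (A' - A) := by
  have h2 := bnorm_lip m A A'
  have h3 : |(2 - bnorm (A' - m • 1) / r) - (2 - bnorm (A - m • 1) / r)|
      ≤ r⁻¹ * bnorm (A' - A) := by
    have : (2 - bnorm (A' - m • 1) / r) - (2 - bnorm (A - m • 1) / r)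
        = -(r⁻¹ * (bnorm (A' - m • 1) - bnorm (A - m • 1))) := by
      field_simp
      ring
    rw [this, abs_neg, abs_mul, abs_of_pos (inv_pos.2 hr)]
    exact mul_le_mul_of_nonneg_left h2 (inv_pos.2 hr).le
  have h0 : 0 ≤ r⁻¹ * bnorm (A' - A) := mul_nonneg (inv_pos.2 hr).le (bnorm_nonneg _)
  have h4 := abs_min_sub_min_le_max 1 (2 - bnorm (A' - m • 1) / r) 1
    (2 - bnorm (A - m • 1) / r)
  have h5 := abs_max_sub_max_le_max 0 (min 1 (2 - bnorm (A' - m • 1) / r)) 0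
    (min 1 (2 - bnorm (A - m • 1) / r))
  rw [sub_self, abs_zero] at h4 h5
  exact h5.trans (max_le h0 (h4.trans (max_le h0 h3)))

/-- the complex observable `(A₀₀ - m) χ(A)` -/
noncomputable def muA (r : ℝ) (m : ℂ) (A : Matrix (Fin 2) (Fin 2) ℂ) : ℂ :=
  (A 0 0 - m) * (chiB r m A : ℂ)

theorem entry_sub_le_bnorm (m : ℂ) (A : Matrix (Fin 2) (Fin 2) ℂ) :
    ‖A 0 0 - m‖ ≤ bnorm (A - m • 1) := by
  have := entry_le_bnorm (A - m • 1) 0 0
  simpa using this

theorem muA_le {r : ℝ} (hr : 0 < r) (m : ℂ) (A : Matrix (Fin 2) (Fin 2) ℂ) :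
    ‖muA r m A‖ ≤ 2 * r := by
  unfold muA
  rw [norm_mul, Complex.norm_real, Real.norm_of_nonneg (chiB_nonneg _ _ _)]
  by_cases h : bnorm (A - m • 1) ≤ 2 * r
  · calc ‖A 0 0 - m‖ * chiB r m A ≤ (2 * r) * 1 :=
          mul_le_mul ((entry_sub_le_bnorm m A).trans h) (chiB_le_one _ _ _) (chiB_nonneg _ _ _)
            (by positivity)
      _ = 2 * r := mul_one _
  · rw [chiB_eq_zero hr (not_le.1 h).le, mul_zero]
    positivity

theorem muA_le_bnorm (r : ℝ) (m : ℂ) (A : Matrix (Fin 2) (Fin 2) ℂ) :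
    ‖muA r m A‖ ≤ bnorm (A - m • 1) := by
  unfold muA
  rw [norm_mul, Complex.norm_real, Real.norm_of_nonneg (chiB_nonneg _ _ _)]
  calc ‖A 0 0 - m‖ * chiB r m A ≤ bnorm (A - m • 1) * 1 :=
        mul_le_mul (entry_sub_le_bnorm m A) (chiB_le_one _ _ _) (chiB_nonneg _ _ _)
          (bnorm_nonneg _)
    _ = bnorm (A - m • 1) := mul_one _

theorem muA_lip {r : ℝ} (hr : 0 < r) (m : ℂ) (A A' : Matrix (Fin 2) (Fin 2) ℂ) :
    ‖muA r m A' - muA r m A‖ ≤ 3 * bnorm (A' - A) := by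
  have key : ∀ B B' : Matrix (Fin 2) (Fin 2) ℂ, bnorm (B - m • 1) ≤ bnorm (B' - m • 1) →
      ‖muA r m B' - muA r m B‖ ≤ 3 * bnorm (B' - B) := by
    intro B B' hBB
    have hn : 0 ≤ bnorm (B' - B) := bnorm_nonneg _
    by_cases h : bnorm (B - m • 1) ≤ 2 * r
    · have e : muA r m B' - muA r m B
          = (B' 0 0 - B 0 0) * (chiB r m B' : ℂ)
            + (B 0 0 - m) * ((chiB r m B' - chiB r m B : ℝ) : ℂ) := by
        unfold muA
        push_cast
        ring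
      rw [e]
      refine (norm_add_le _ _).trans ?_
      rw [norm_mul, norm_mul, Complex.norm_real, Complex.norm_real,
        Real.norm_of_nonneg (chiB_nonneg _ _ _), Real.norm_eq_abs]
      have h1 : ‖B' 0 0 - B 0 0‖ ≤ bnorm (B' - B) := by
        have := entry_le_bnorm (B' - B) 0 0
        simpa using this
      have h2 : ‖B' 0 0 - B 0 0‖ * chiB r m B' ≤ bnorm (B' - B) * 1 :=
        mul_le_mul h1 (chiB_le_one _ _ _) (chiB_nonneg _ _ _) hn
      have h3 : ‖B 0 0 - m‖ * |chiB r m B' - chiB r m B| ≤ (2 * r) * (r⁻¹ * bnorm (B' - B)) :=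
        mul_le_mul ((entry_sub_le_bnorm m B).trans h) (chiB_lip hr m B B') (abs_nonneg _)
          (by positivity)
      have h4 : (2 * r) * (r⁻¹ * bnorm (B' - B)) = 2 * bnorm (B' - B) := by
        field_simp
      linarith
    · have h1 := chiB_eq_zero hr (m := m) (A := B) (not_le.1 h).le
      have h2 := chiB_eq_zero hr (m := m) (A := B') ((not_le.1 h).le.trans hBB)
      unfold muA
      rw [h1, h2]
      simp only [Complex.ofReal_zero, mul_zero, sub_self, norm_zero]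
      positivity
  rcases le_total (bnorm (A - m • 1)) (bnorm (A' - m • 1)) with h | h
  · exact key A A' h
  · have := key A' A h
    rwa [norm_sub_rev, bnorm_sub_comm A A'] at this

theorem muA_const {r : ℝ} (hr : 0 < r) (m : ℂ) {A : Matrix (Fin 2) (Fin 2) ℂ}
    (h : 4 * r + ‖m‖ < ‖A‖) : muA r m A = 0 := by
  have h1 : 2 * r < bnorm (A - m • 1) := bnorm_large (by linarith)
  unfold muA
  rw [chiB_eq_zero hr h1.le]
  simp

theorem muRe_isObs {r : ℝ} (hr : 0 < r) (hr2 : r ≤ 1 / 2) (m : ℂ) :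
    Obs (fun A => (muA r m A).re) 3 (4 * r + ‖m‖) where
  bdd A := (Complex.abs_re_le_norm _).trans ((muA_le hr m A).trans (by linarith))
  lip A A' := by
    rw [← Complex.sub_re]
    refine (Complex.abs_re_le_norm _).trans ((muA_lip hr m A A').trans ?_)
    exact mul_le_mul_of_nonneg_left (bnorm_le_norm _) (by norm_num)
  const A A' hA hA' := by rw [muA_const hr m hA, muA_const hr m hA']
  Λ0 := by norm_num
  β0 := by positivity

theorem muIm_isObs {r : ℝ} (hr : 0 < r) (hr2 : r ≤ 1 / 2) (m : ℂ) :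
    Obs (fun A => (muA r m A).im) 3 (4 * r + ‖m‖) where
  bdd A := (Complex.abs_im_le_norm _).trans ((muA_le hr m A).trans (by linarith))
  lip A A' := by
    rw [← Complex.sub_im]
    refine (Complex.abs_im_le_norm _).trans ((muA_lip hr m A A').trans ?_)
    exact mul_le_mul_of_nonneg_left (bnorm_le_norm _) (by norm_num)
  const A A' hA hA' := by rw [muA_const hr m hA, muA_const hr m hA']
  Λ0 := by norm_num
  β0 := by positivity

section Second

variable {n d : ℕ} {M : Type*}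

/-- average of a complex observable over the half-edges -/
noncomputable def hAvg (f : HE n d → ℂ) : ℂ := (∑ h : HE n d, f h) / (n * d : ℂ)

/-- `V` -/
noncomputable def Vb (rs s : ℝ) (ω : Fin n → ℝ) (z m : ℂ) (p : Equiv.Perm (HE n d)) : ℝ :=
  nuAvg Finset.univ (fun p h => DvA rs m (B0 p s ω z h) ^ 2) p

/-- `E[D̃² | G]` -/
noncomputable def gVb (Mv : Finset M) (ctr : M → HE n d)
    (sw : Equiv.Perm (HE n d) → M → Equiv.Perm (HE n d) × M) (rs s : ℝ) (ω : Fin n → ℝ) (z m : ℂ)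
    (p : Equiv.Perm (HE n d)) : ℝ :=
  gAvg Mv ctr sw (fun p h => DvA rs m (B0 p s ω z h) ^ 2) p

/-- `μ`: truncated mean -/
noncomputable def mub (r s : ℝ) (ω : Fin n → ℝ) (z m : ℂ) (p : Equiv.Perm (HE n d)) : ℂ :=
  (∑ h : HE n d, muA r m (B0 p s ω z h)) / (n * d : ℂ)

/-- `E[(X̃ - m) χ̃ | G]` -/
noncomputable def gmub (Mv : Finset M) (ctr : M → HE n d)
    (sw : Equiv.Perm (HE n d) → M → Equiv.Perm (HE n d) × M) (r s : ℝ) (ω : Fin n → ℝ) (z m : ℂ)
    (p : Equiv.Perm (HE n d)) : ℂ :=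
  (∑ mv ∈ Mv, muA r m (B0 (sw p mv).1 s ω z (ctr mv))) / (Mv.card : ℂ)

theorem Vb_nonneg (rs s : ℝ) (ω : Fin n → ℝ) (z m : ℂ) (p : Equiv.Perm (HE n d)) :
    0 ≤ Vb rs s ω z m p := by
  unfold Vb nuAvg
  positivity

theorem Vb_eq (rs s : ℝ) (ω : Fin n → ℝ) (z m : ℂ) (p : Equiv.Perm (HE n d)) :
    Vb rs s ω z m p = (∑ h : HE n d, DvA rs m (B0 p s ω z h) ^ 2) / (n * d : ℝ) := by
  unfold Vb nuAvg
  rw [Finset.card_univ, IsPort.card_HE]
  push_cast
  rfl

theorem sm_Vb {Mv : Finset M} {ctr : M → HE n d} {q : ℕ}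
    {sw : Equiv.Perm (HE n d) → M → Equiv.Perm (HE n d) × M}
    (hsys : MoveSystem (Ports n d) Mv (Finset.univ : Finset (HE n d)) ctr q sw)
    (hM : Mv.Nonempty) {cL : ℝ} (hcL : ∀ p ∈ Ports n d, ∀ m ∈ Mv,
      ((Ch p (sw p m).1).card : ℝ) ≤ cL) {δ₁ : ℝ}
    (hcomm : ∃ Bad : Equiv.Perm (HE n d) → Finset (M × M),
      (∀ p ∈ Ports n d, ((Bad p).card : ℝ) ≤ δ₁ * (Mv.card : ℝ) ^ 2) ∧
      (∀ p ∈ Ports n d, ∀ m ∈ Mv, ∀ m' ∈ Mv, (m, m') ∉ Bad p →
        (sw (sw p m).1 m').1 = (sw (sw p m').1 m).1))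
    (s : ℝ) (ω : Fin n → ℝ) {z : ℂ} (hz : 0 < z.im) {rs : ℝ} (hrs : 0 < rs) (hrs1 : rs ≤ 1)
    (m : ℂ) :
    ∑ p ∈ Ports n d, (Vb rs s ω z m p - gVb Mv ctr sw rs s ω z m p) ^ 2
      ≤ (2 * (32 * (3 + ‖m‖) ^ 2 * cL / (n * z.im) + 2 * cL / (n * d)) + 2 * δ₁)
        * ((Ports n d).card : ℝ) := by
  have h1 := second_moment_obs hsys hM hcL hcomm s ω hz (obsDv_isObs hrs hrs1 m)
  refine h1.trans ?_
  by_cases hne : (Ports n d).Nonempty
  · obtain ⟨p, hp⟩ := hne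
    have hc0 : 0 ≤ cL := by
      obtain ⟨m0, hm0⟩ := hM
      exact (Nat.cast_nonneg _).trans (hcL p hp m0 hm0)
    have hb : (1 + (2 * rs + ‖m‖)) ^ 2 ≤ (3 + ‖m‖) ^ 2 := by
      have h0 := norm_nonneg m
      have : 1 + (2 * rs + ‖m‖) ≤ 3 + ‖m‖ := by linarith
      exact pow_le_pow_left₀ (by positivity) this 2
    have hcoef : 8 * (1 + (2 * rs + ‖m‖)) ^ 2 * (2 + 2) * cL / (n * z.im)
        ≤ 32 * (3 + ‖m‖) ^ 2 * cL / (n * z.im) := by
      refine div_le_div_of_nonneg_right ?_ (by positivity)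
      refine mul_le_mul_of_nonneg_right ?_ hc0
      linarith
    refine mul_le_mul_of_nonneg_right ?_ (Nat.cast_nonneg _)
    linarith
  · rw [Finset.not_nonempty_iff_eq_empty] at hne
    rw [hne]
    simp

theorem sm_mub {Mv : Finset M} {ctr : M → HE n d} {q : ℕ}
    {sw : Equiv.Perm (HE n d) → M → Equiv.Perm (HE n d) × M}
    (hsys : MoveSystem (Ports n d) Mv (Finset.univ : Finset (HE n d)) ctr q sw)
    (hM : Mv.Nonempty) {cL : ℝ} (hcL : ∀ p ∈ Ports n d, ∀ m ∈ Mv,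
      ((Ch p (sw p m).1).card : ℝ) ≤ cL) {δ₁ : ℝ}
    (hcomm : ∃ Bad : Equiv.Perm (HE n d) → Finset (M × M),
      (∀ p ∈ Ports n d, ((Bad p).card : ℝ) ≤ δ₁ * (Mv.card : ℝ) ^ 2) ∧
      (∀ p ∈ Ports n d, ∀ m ∈ Mv, ∀ m' ∈ Mv, (m, m') ∉ Bad p →
        (sw (sw p m).1 m').1 = (sw (sw p m').1 m).1))
    (s : ℝ) (ω : Fin n → ℝ) {z : ℂ} (hz : 0 < z.im) {r : ℝ} (hr : 0 < r) (hr2 : r ≤ 1 / 2)
    (m : ℂ) :
    ∑ p ∈ Ports n d, ‖mub r s ω z m p - gmub Mv ctr sw r s ω z m p‖ ^ 2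
      ≤ (4 * (40 * (3 + ‖m‖) ^ 2 * cL / (n * z.im) + 2 * cL / (n * d)) + 4 * δ₁)
        * ((Ports n d).card : ℝ) := by
  classical
  have h1 := second_moment_obs hsys hM hcL hcomm s ω hz (muRe_isObs hr hr2 m)
  have h2 := second_moment_obs hsys hM hcL hcomm s ω hz (muIm_isObs hr hr2 m)
  have hcard : (((Finset.univ : Finset (HE n d)).card : ℝ)) = n * d := by
    rw [Finset.card_univ, IsPort.card_HE]
    push_cast
    ring
  have e : ∀ p, ‖mub r s ω z m p - gmub Mv ctr sw r s ω z m p‖ ^ 2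
      = (nuAvg Finset.univ (fun p h => (muA r m (B0 p s ω z h)).re) p
        - gAvg Mv ctr sw (fun p h => (muA r m (B0 p s ω z h)).re) p) ^ 2
      + (nuAvg Finset.univ (fun p h => (muA r m (B0 p s ω z h)).im) p
        - gAvg Mv ctr sw (fun p h => (muA r m (B0 p s ω z h)).im) p) ^ 2 := by
    intro p
    have c1 : ((n : ℂ) * (d : ℂ)) = (((n : ℝ) * (d : ℝ) : ℝ) : ℂ) := by push_cast; ring
    have c2 : ((Mv.card : ℕ) : ℂ) = (((Mv.card : ℕ) : ℝ) : ℂ) := by push_cast; ring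
    have hre : (mub r s ω z m p - gmub Mv ctr sw r s ω z m p).re
        = nuAvg Finset.univ (fun p h => (muA r m (B0 p s ω z h)).re) p
        - gAvg Mv ctr sw (fun p h => (muA r m (B0 p s ω z h)).re) p := by
      unfold mub gmub nuAvg gAvg
      rw [Complex.sub_re, c1, c2, Complex.div_ofReal_re, Complex.div_ofReal_re, Complex.re_sum,
        Complex.re_sum, hcard]
    have him : (mub r s ω z m p - gmub Mv ctr sw r s ω z m p).im
        = nuAvg Finset.univ (fun p h => (muA r m (B0 p s ω z h)).im) p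
        - gAvg Mv ctr sw (fun p h => (muA r m (B0 p s ω z h)).im) p := by
      unfold mub gmub nuAvg gAvg
      rw [Complex.sub_im, c1, c2, Complex.div_ofReal_im, Complex.div_ofReal_im, Complex.im_sum,
        Complex.im_sum, hcard]
    rw [← hre, ← him, Complex.sq_norm, Complex.normSq_apply]
    ring
  rw [Finset.sum_congr rfl (fun p _ => e p), Finset.sum_add_distrib]
  by_cases hne : (Ports n d).Nonempty
  · obtain ⟨p, hp⟩ := hne
    have hc0 : 0 ≤ cL := by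
      obtain ⟨m0, hm0⟩ := hM
      exact (Nat.cast_nonneg _).trans (hcL p hp m0 hm0)
    have hb : (1 + (4 * r + ‖m‖)) ^ 2 ≤ (3 + ‖m‖) ^ 2 := by
      have h0 := norm_nonneg m
      have : 1 + (4 * r + ‖m‖) ≤ 3 + ‖m‖ := by linarith
      exact pow_le_pow_left₀ (by positivity) this 2
    have hcoef : 8 * (1 + (4 * r + ‖m‖)) ^ 2 * (3 + 2) * cL / (n * z.im)
        ≤ 40 * (3 + ‖m‖) ^ 2 * cL / (n * z.im) := by
      refine div_le_div_of_nonneg_right ?_ (by positivity)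
      refine mul_le_mul_of_nonneg_right ?_ hc0
      linarith
    have hP : (0 : ℝ) ≤ ((Ports n d).card : ℝ) := Nat.cast_nonneg _
    have h3 := mul_le_mul_of_nonneg_right hcoef hP
    refine (add_le_add h1 h2).trans ?_
    nlinarith
  · rw [Finset.not_nonempty_iff_eq_empty] at hne
    rw [hne]
    simp

end Second

end Crest.Agent.R166.Stab269
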