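import Crest.Agent.R166.SpecA_598
import Crest.Agent.R166.ObsB_269
import Crest.Agent.R166.SwP2_470
import Crest.Agent.R166.Root_355

/-!
Row 166, (H4) (helper269): the second moment hypotheses `sm1`, `sm2` of `Multi383.Step` for the
objects of `SpecA`, for the depth `L` resampling of helper470, from the commutation hypothesis and
the bound on the number of changed half-edges.
-/

set_option autoImplicit false

open Finset

namespace Crest.Agent.R166.H4

open Crest.Agent.R166 Stab269 Sec269 SwP470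

variable {n d : ℕ}

theorem Dv_eq (rs : ℝ) (p : Equiv.Perm (HE n d)) (s : ℝ) (ω : Fin n → ℝ) (z : ℂ) (h : HE n d) :
    SpecA.Dv rs p s ω z h = DvA rs (mc d z) (B0 p s ω z h) := rfl

theorem Vp_eq (rs s : ℝ) (ω : Fin n → ℝ) (z : ℂ) (p : Equiv.Perm (HE n d)) :
    SpecA.Vp rs p s ω z = Vb rs s ω z (mc d z) p := by
  rw [Vb_eq, SpecA.Vp]
  push_cast
  rfl

theorem mup_eq (rs s : ℝ) (ω : Fin n → ℝ) (z : ℂ) (p : Equiv.Perm (HE n d)) :
    SpecA.mup rs p s ω z = mub (rs / 2) s ω z (mc d z) p := by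
  unfold SpecA.mup mub muA chiB SpecA.chiA SpecA.dev
  push_cast
  congr 1
  refine Finset.sum_congr rfl fun h _ => ?_
  congr 2
  have : 2 * bnorm (B0 p s ω z h - mc d z • 1) / rs = bnorm (B0 p s ω z h - mc d z • 1) / (rs / 2) := by
    rcases eq_or_ne rs 0 with h0 | h0
    · subst h0; simp
    · field_simp
  rw [this]

/-- one-step conditional mean of `D²` for the depth `L` resampling -/
noncomputable def gV (L : ℕ) [NeZero d] (rs s : ℝ) (ω : Fin n → ℝ) (z : ℂ)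
    (p : Equiv.Perm (HE n d)) : ℝ :=
  gVb (Finset.univ : Finset (HE n d × (BI d L → HE n d))) Prod.fst (bsw L) rs s ω z (mc d z) p

/-- one-step conditional mean of the cut-off observable for the depth `L` resampling -/
noncomputable def gm (L : ℕ) [NeZero d] (rs s : ℝ) (ω : Fin n → ℝ) (z : ℂ)
    (p : Equiv.Perm (HE n d)) : ℂ :=
  gmub (Finset.univ : Finset (HE n d × (BI d L → HE n d))) Prod.fst (bsw L) (rs / 2) s ω z
    (mc d z) p

/-- the two combinatorial inputs from section 20 -/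
structure Comm (n d L : ℕ) [NeZero d] (cL cD : ℝ) : Prop where
  ch : ∀ p ∈ Ports n d, ∀ m : HE n d × (BI d L → HE n d),
    ((Ch p (bsw L p m).1).card : ℝ) ≤ cL
  comm : ∃ Bad : Equiv.Perm (HE n d) →
      Finset ((HE n d × (BI d L → HE n d)) × (HE n d × (BI d L → HE n d))),
      (∀ p ∈ Ports n d, ((Bad p).card : ℝ) ≤ cD / n *
        ((Finset.univ : Finset (HE n d × (BI d L → HE n d))).card : ℝ) ^ 2) ∧
      (∀ p ∈ Ports n d, ∀ m m', (m, m') ∉ Bad p →
        (bsw L (bsw L p m).1 m').1 = (bsw L (bsw L p m').1 m).1)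

theorem univ_nonempty (L : ℕ) [NeZero d] (hn : 0 < n) :
    (Finset.univ : Finset (HE n d × (BI d L → HE n d))).Nonempty := by
  have : Nonempty (HE n d) := ⟨(⟨0, hn⟩, ⟨0, Nat.pos_of_ne_zero (NeZero.ne d)⟩)⟩
  exact Finset.univ_nonempty

theorem coef_le {n d : ℕ} (hn : 0 < n) (hd : 1 ≤ d) {η cL cD a : ℝ} (hη : 0 < η) (hη1 : η ≤ 1)
    (hcL : 0 ≤ cL) (hcD : 0 ≤ cD) {m : ℂ} (hm : ‖m‖ ≤ 1) (ha : 0 ≤ a) {b e : ℝ} (hb : 0 ≤ b)
    (he : 0 ≤ e) :
    (b * (a * (3 + ‖m‖) ^ 2 * cL / (n * η) + 2 * cL / (n * d)) + e * (cD / n))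
      ≤ (b * (16 * a * cL + 2 * cL) + e * cD) * (1 / (n * η)) := by
  have hn' : (0 : ℝ) < n := by exact_mod_cast hn
  have hd' : (1 : ℝ) ≤ d := by exact_mod_cast hd
  have h0 := norm_nonneg m
  have h1 : (3 + ‖m‖) ^ 2 ≤ 16 := by nlinarith
  have h2 : a * (3 + ‖m‖) ^ 2 * cL / (n * η) ≤ 16 * a * cL * (1 / (n * η)) := by
    rw [mul_one_div]
    refine div_le_div_of_nonneg_right ?_ (by positivity)
    have := mul_le_mul_of_nonneg_left h1 (mul_nonneg ha hcL)
    nlinarith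
  have h3 : 1 / (n : ℝ) ≤ 1 / (n * η) := by
    refine one_div_le_one_div_of_le (by positivity) ?_
    nlinarith
  have h4 : 2 * cL / (n * d) ≤ 2 * cL * (1 / (n * η)) := by
    have : 2 * cL / (n * d) ≤ 2 * cL * (1 / n) := by
      rw [mul_one_div]
      refine div_le_div_of_nonneg_left (by positivity) hn' ?_
      nlinarith
    exact this.trans (mul_le_mul_of_nonneg_left h3 (by positivity))
  have h5 : cD / n ≤ cD * (1 / (n * η)) := by
    rw [div_eq_mul_one_div]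
    exact mul_le_mul_of_nonneg_left h3 hcD
  have h6 := mul_le_mul_of_nonneg_left (add_le_add h2 h4) hb
  have h7 := mul_le_mul_of_nonneg_left h5 he
  refine (add_le_add h6 h7).trans (le_of_eq ?_)
  ring

/-- **sm1** -/
theorem sm1 {L : ℕ} [NeZero d] (hd : 2 ≤ d) (hL : 1 ≤ L) (hn : 0 < n) {cL cD : ℝ} (hcL : 0 ≤ cL)
    (hcD : 0 ≤ cD)
    (hC : Comm n d L cL cD) (s : ℝ) (ω : Fin n → ℝ) {E η : ℝ} (hη : 0 < η) (hη1 : η ≤ 1)
    {rs : ℝ} (hrs : 0 < rs) (hrs1 : rs ≤ 1) :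
    ∑ p ∈ Ports n d, (SpecA.Vp rs p s ω (ze E η) - gV L rs s ω (ze E η) p) ^ 2
      ≤ (1028 * cL + 2 * cD) * (1 / (n * η)) * ((Ports n d).card : ℝ) := by
  have hz : (ze E η).im = η := by simp [ze]
  have hz0 : 0 < (ze E η).im := by rw [hz]; exact hη
  obtain ⟨Bad, hBad, hgood⟩ := hC.comm
  have hroot := Root355.mc_isRoot hd hz0
  have hm : ‖mc d (ze E η)‖ ≤ 1 := by
    refine hroot.norm_le_one ?_ hz0.le
    have : (2 : ℝ) ≤ d := by exact_mod_cast hd
    linarith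
  have h := sm_Vb (moveSystem n d L hL) (univ_nonempty L hn) (cL := cL)
    (fun p hp m _ => hC.ch p hp m) (δ₁ := cD / n)
    ⟨Bad, hBad, fun p hp m _ m' _ hmm => hgood p hp m m' hmm⟩ s ω hz0 hrs hrs1 (mc d (ze E η))
  have e1 : ∑ p ∈ Ports n d, (SpecA.Vp rs p s ω (ze E η) - gV L rs s ω (ze E η) p) ^ 2
      = ∑ p ∈ Ports n d, (Vb rs s ω (ze E η) (mc d (ze E η)) p
        - gVb (Finset.univ : Finset (HE n d × (BI d L → HE n d))) Prod.fst (bsw L) rs s ω
          (ze E η) (mc d (ze E η)) p) ^ 2 := by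
    refine Finset.sum_congr rfl fun p _ => ?_
    rw [Vp_eq]
    rfl
  rw [e1]
  refine h.trans (mul_le_mul_of_nonneg_right ?_ (Nat.cast_nonneg _))
  rw [hz]
  have h1 := coef_le (n := n) (d := d) hn (by omega) hη hη1 hcL hcD hm
    (a := 32) (b := 2) (e := 2) (by norm_num) (by norm_num) (by norm_num)
  refine h1.trans (le_of_eq ?_)
  ring

/-- **sm2** -/
theorem sm2 {L : ℕ} [NeZero d] (hd : 2 ≤ d) (hL : 1 ≤ L) (hn : 0 < n) {cL cD : ℝ} (hcL : 0 ≤ cL)
    (hcD : 0 ≤ cD)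
    (hC : Comm n d L cL cD) (s : ℝ) (ω : Fin n → ℝ) {E η : ℝ} (hη : 0 < η) (hη1 : η ≤ 1)
    {rs : ℝ} (hrs : 0 < rs) (hrs1 : rs ≤ 1) :
    ∑ p ∈ Ports n d, ‖SpecA.mup rs p s ω (ze E η) - gm L rs s ω (ze E η) p‖ ^ 2
      ≤ (2568 * cL + 4 * cD) * (1 / (n * η)) * ((Ports n d).card : ℝ) := by
  have hz : (ze E η).im = η := by simp [ze]
  have hz0 : 0 < (ze E η).im := by rw [hz]; exact hη
  obtain ⟨Bad, hBad, hgood⟩ := hC.comm
  have hroot := Root355.mc_isRoot hd hz0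
  have hm : ‖mc d (ze E η)‖ ≤ 1 := by
    refine hroot.norm_le_one ?_ hz0.le
    have : (2 : ℝ) ≤ d := by exact_mod_cast hd
    linarith
  have h := sm_mub (moveSystem n d L hL) (univ_nonempty L hn) (cL := cL)
    (fun p hp m _ => hC.ch p hp m) (δ₁ := cD / n)
    ⟨Bad, hBad, fun p hp m _ m' _ hmm => hgood p hp m m' hmm⟩ s ω hz0 (r := rs / 2)
    (by positivity) (by linarith) (mc d (ze E η))
  have e1 : ∑ p ∈ Ports n d, ‖SpecA.mup rs p s ω (ze E η) - gm L rs s ω (ze E η) p‖ ^ 2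
      = ∑ p ∈ Ports n d, ‖mub (rs / 2) s ω (ze E η) (mc d (ze E η)) p
        - gmub (Finset.univ : Finset (HE n d × (BI d L → HE n d))) Prod.fst (bsw L) (rs / 2) s ω
          (ze E η) (mc d (ze E η)) p‖ ^ 2 := by
    refine Finset.sum_congr rfl fun p _ => ?_
    rw [mup_eq]
    rfl
  rw [e1]
  refine h.trans (mul_le_mul_of_nonneg_right ?_ (Nat.cast_nonneg _))
  rw [hz]
  have h1 := coef_le (n := n) (d := d) hn (by omega) hη hη1 hcL hcD hm
    (a := 40) (b := 4) (e := 4) (by norm_num) (by norm_num) (by norm_num)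
  refine h1.trans (le_of_eq ?_)
  ring

end Crest.Agent.R166.H4
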