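import Crest.Agent.R166.SwComm_356

/-!
# Row 166, section 20: most choices of the ball-boundary resampling are valid (helper356)

For a simple pairing `p`, `1 ≤ L` (not needed), a tree-like half-edge `h0`:
`#{b : BI d L → HE n d | ¬ BVal L p h0 b} ≤ (Cinv d L / n) * #(BI d L → HE n d)`.
-/

set_option autoImplicit false
set_option linter.unusedSectionVars false

open Finset

namespace Crest.Agent.R166.SwInv356

open Crest.Agent.R166 Crest.Agent.R166.SwP470

/-! ### counting functions -/

section count

variable {ι α : Type*} [Fintype ι] [DecidableEq ι] [Fintype α] [DecidableEq α]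

/-- one coordinate constrained -/
lemma card_coord (i : ι) (P : α → Prop) [DecidablePred P] :
    (univ.filter fun b : ι → α => P (b i)).card * Fintype.card α =
      (univ.filter fun x : α => P x).card * Fintype.card (ι → α) := by
  have hsub : (univ.filter fun b : ι → α => P (b i)) =
      Fintype.piFinset fun k : ι => if k = i then (univ.filter fun x : α => P x) else univ := by
    ext b
    simp only [Finset.mem_filter, Finset.mem_univ, true_and, Fintype.mem_piFinset]
    constructor
    · intro h k
      by_cases hk : k = i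
      · rw [if_pos hk, hk]
        exact Finset.mem_filter.2 ⟨Finset.mem_univ _, h⟩
      · rw [if_neg hk]; exact Finset.mem_univ _
    · intro h
      have := h i
      rw [if_pos rfl] at this
      exact (Finset.mem_filter.1 this).2
  rw [hsub, Fintype.card_piFinset, Fintype.card_fun,
    ← Finset.mul_prod_erase univ _ (Finset.mem_univ i), if_pos rfl,
    Finset.prod_congr rfl (g := fun _ => Fintype.card α) (fun k hk => by
      rw [if_neg (Finset.ne_of_mem_erase hk), Finset.card_univ]),
    Finset.prod_const, Finset.card_erase_of_mem (Finset.mem_univ i), Finset.card_univ, mul_assoc,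
    ← pow_succ]
  have hpos : 0 < Fintype.card ι := Fintype.card_pos_iff.2 ⟨i⟩
  rw [Nat.sub_add_cancel hpos]

/-- two coordinates constrained -/
lemma card_coord2 {i j : ι} (hij : i ≠ j) (Q : α → α → Prop) [∀ x, DecidablePred (Q x)] (c : ℕ)
    (hQ : ∀ x, (univ.filter fun y : α => Q x y).card ≤ c) :
    (univ.filter fun b : ι → α => Q (b i) (b j)).card * Fintype.card α ≤
      c * Fintype.card (ι → α) := by
  -- sum over all functions of the number of admissible new values of the coordinate `j`
  have h1 : (univ.filter fun b : ι → α => Q (b i) (b j)).card * Fintype.card α =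
      (univ.filter fun x : (ι → α) × α => Q (x.1 i) x.2).card := by
    rw [← Finset.card_univ (α := α), ← Finset.card_product]
    refine Finset.card_bij' (fun x _ => (Function.update x.1 j x.2, x.1 j))
      (fun x _ => (Function.update x.1 j x.2, x.1 j)) ?_ ?_ ?_ ?_
    · rintro ⟨b, y⟩ hb
      simp only [Finset.mem_product, Finset.mem_filter, Finset.mem_univ, true_and, and_true] at hb
      simp only [Finset.mem_filter, Finset.mem_univ, true_and]
      rw [Function.update_of_ne hij]
      exact hb
    · rintro ⟨b, y⟩ hb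
      simp only [Finset.mem_filter, Finset.mem_univ, true_and] at hb
      simp only [Finset.mem_product, Finset.mem_filter, Finset.mem_univ, true_and, and_true]
      rw [Function.update_of_ne hij, Function.update_self]
      exact hb
    · rintro ⟨b, y⟩ _
      simp
    · rintro ⟨b, y⟩ _
      simp
  rw [h1]
  have h2 : (univ.filter fun x : (ι → α) × α => Q (x.1 i) x.2) ⊆
      (univ : Finset (ι → α)).biUnion fun b => ((univ : Finset α).filter fun y =>
        Q (b i) y).image fun y => (b, y) := by
    rintro ⟨b, y⟩ hx
    simp only [Finset.mem_filter, Finset.mem_univ, true_and] at hx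
    simp only [Finset.mem_biUnion, Finset.mem_univ, Finset.mem_image, Finset.mem_filter,
      true_and]
    exact ⟨b, y, hx, rfl⟩
  refine (Finset.card_le_card h2).trans (Finset.card_biUnion_le.trans ?_)
  refine (Finset.sum_le_card_nsmul _ _ c ?_).trans (le_of_eq ?_)
  · intro b _
    exact Finset.card_image_le.trans (hQ _)
  · rw [Finset.card_univ, smul_eq_mul, mul_comm]

end count

variable {n d : ℕ} [NeZero d] {L : ℕ} {p : Equiv.Perm (HE n d)} {h0 : HE n d}

lemma card_fst_eq (v : Fin n) : (univ.filter fun x : HE n d => x.1 = v).card ≤ d := by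
  have : (univ.filter fun x : HE n d => x.1 = v) ⊆ univ.image fun i : Fin d => (v, i) := by
    rintro ⟨a, b⟩ h
    simp only [Finset.mem_filter, Finset.mem_univ, true_and] at h
    exact Finset.mem_image.2 ⟨b, Finset.mem_univ _, by rw [← h]⟩
  exact (Finset.card_le_card this).trans (Finset.card_image_le.trans (by simp))

lemma card_p_fst_eq (p : Equiv.Perm (HE n d)) (v : Fin n) :
    (univ.filter fun x : HE n d => (p x).1 = v).card ≤ d := by
  refine le_trans ?_ (card_fst_eq v)
  apply Finset.card_le_card_of_injOn (fun x => p x)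
  · intro x hx; simpa using hx
  · exact p.injective.injOn

open Classical in
lemma card_adj_fst (p : Equiv.Perm (HE n d)) (v : Fin n) :
    (univ.filter fun x : HE n d => Adj (α := HE n d) Prod.fst p v x.1).card ≤ d * d := by
  have : (univ.filter fun x : HE n d => Adj (α := HE n d) Prod.fst p v x.1) ⊆
      (univ : Finset (Fin d × Fin d)).image fun ij => ((p (v, ij.1)).1, ij.2) := by
    rintro ⟨a, b⟩ h
    simp only [Finset.mem_filter, Finset.mem_univ, true_and] at h
    obtain ⟨⟨v', i⟩, h1, h2⟩ := h
    simp only at h1 h2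
    subst h1
    exact Finset.mem_image.2 ⟨(i, b), Finset.mem_univ _, by rw [← h2]⟩
  exact (Finset.card_le_card this).trans (Finset.card_image_le.trans (by simp))

open Classical in
lemma card_adj_p_fst (p : Equiv.Perm (HE n d)) (v : Fin n) :
    (univ.filter fun x : HE n d => Adj (α := HE n d) Prod.fst p v (p x).1).card ≤ d * d := by
  refine le_trans ?_ (card_adj_fst p v)
  apply Finset.card_le_card_of_injOn (fun x => p x)
  · intro x hx; simpa using hx
  · exact p.injective.injOn

/-- index set of the ball vertices -/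
abbrev BW (d : ℕ) [NeZero d] (L : ℕ) : Type := Σ l : Fin (L + 1), Bool × (Fin l → NZ d)

/-- ball vertex -/
def bvi (p : Equiv.Perm (HE n d)) (h0 : HE n d) (j : BW d L) : Fin n := bv p h0 j.2.1 (wd j.2.2)

lemma exists_bvi (s : Bool) {w : List (Fin d)} (hw : NZw w) (hl : w.length ≤ L) :
    ∃ j : BW d L, bvi p h0 j = bv p h0 s w := by
  obtain ⟨f, hf⟩ := exists_wd hw rfl
  refine ⟨⟨⟨w.length, by omega⟩, (s, f)⟩, ?_⟩
  show bv p h0 s (wd f) = _
  rw [hf]

/-- the constant -/
def Cinv (d L : ℕ) [NeZero d] : ℕ :=
  2 * (Fintype.card (BW d L) * Fintype.card (BI d L)) + 3 * Fintype.card (BI d L) ^ 2 +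
    2 * (d * Fintype.card (BI d L))

open Classical in
/-- number of invalid choices -/
theorem card_inv_mul_le (hp : IsPort p) (htl : TL L p h0) :
    (univ.filter fun b : BI d L → HE n d => ¬ BVal L p h0 b).card * (n * d) ≤
      (d * Cinv d L) * Fintype.card (BI d L → HE n d) := by
  have hHE : Fintype.card (HE n d) = n * d := by simp [HE]
  set F : ℕ := Fintype.card (BI d L → HE n d) with hF
  -- the seven families
  let S1 : BW d L × BI d L → Finset (BI d L → HE n d) := fun ji =>
    univ.filter fun b => (b ji.2).1 = bvi p h0 ji.1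
  let S2 : BW d L × BI d L → Finset (BI d L → HE n d) := fun ji =>
    univ.filter fun b => (p (b ji.2)).1 = bvi p h0 ji.1
  let S3 : BI d L × BI d L → Finset (BI d L → HE n d) := fun ij =>
    if ij.1 = ij.2 then ∅ else univ.filter fun b => (b ij.2).1 = (b ij.1).1
  let S4 : BI d L × BI d L → Finset (BI d L → HE n d) := fun ij =>
    if ij.1 = ij.2 then ∅ else univ.filter fun b => (p (b ij.2)).1 = (p (b ij.1)).1
  let S5 : BI d L × BI d L → Finset (BI d L → HE n d) := fun ij =>
    if ij.1 = ij.2 then ∅ else univ.filter fun b => (p (b ij.2)).1 = (b ij.1).1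
  let S6 : BI d L → Finset (BI d L → HE n d) := fun i =>
    univ.filter fun b => Adj (α := HE n d) Prod.fst p (tau p h0 i).1 (b i).1
  let S7 : BI d L → Finset (BI d L → HE n d) := fun i =>
    univ.filter fun b => Adj (α := HE n d) Prod.fst p (ab p h0 i).1 (p (b i)).1
  have hsub : (univ.filter fun b : BI d L → HE n d => ¬ BVal L p h0 b) ⊆
      ((((((univ.biUnion S1) ∪ (univ.biUnion S2)) ∪ (univ.biUnion S3)) ∪ (univ.biUnion S4)) ∪
        (univ.biUnion S5)) ∪ (univ.biUnion S6)) ∪ (univ.biUnion S7) := by
    intro b hb
    simp only [Finset.mem_filter, Finset.mem_univ, true_and] at hb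
    by_contra hcon
    simp only [Finset.mem_union, not_or] at hcon
    obtain ⟨⟨⟨⟨⟨⟨c1, c2⟩, c3⟩, c4⟩, c5⟩, c6⟩, c7⟩ := hcon
    apply hb
    refine ⟨htl, ?_, ?_, ?_, ?_, ?_, ?_, ?_⟩
    · intro s w i hw hl he
      obtain ⟨j, hj⟩ := exists_bvi (p := p) (h0 := h0) s hw hl
      exact c1 (Finset.mem_biUnion.2 ⟨(j, i), Finset.mem_univ _,
        Finset.mem_filter.2 ⟨Finset.mem_univ _, by rw [hj, he]⟩⟩)
    · intro s w i hw hl he
      obtain ⟨j, hj⟩ := exists_bvi (p := p) (h0 := h0) s hw hl
      exact c2 (Finset.mem_biUnion.2 ⟨(j, i), Finset.mem_univ _,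
        Finset.mem_filter.2 ⟨Finset.mem_univ _, by rw [hj, he]⟩⟩)
    · intro i j hij
      by_contra hne
      refine c3 (Finset.mem_biUnion.2 ⟨(i, j), Finset.mem_univ _, ?_⟩)
      simp only [S3]
      rw [if_neg hne]
      exact Finset.mem_filter.2 ⟨Finset.mem_univ _, hij.symm⟩
    · intro i j hij
      by_contra hne
      refine c4 (Finset.mem_biUnion.2 ⟨(i, j), Finset.mem_univ _, ?_⟩)
      simp only [S4]
      rw [if_neg hne]
      exact Finset.mem_filter.2 ⟨Finset.mem_univ _, hij.symm⟩
    · intro i j hij
      by_cases hne : i = j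
      · subst hne
        exact hp.noloop (b i) hij.symm
      refine c5 (Finset.mem_biUnion.2 ⟨(i, j), Finset.mem_univ _, ?_⟩)
      simp only [S5]
      rw [if_neg hne]
      exact Finset.mem_filter.2 ⟨Finset.mem_univ _, hij.symm⟩
    · intro i hi
      exact c6 (Finset.mem_biUnion.2 ⟨i, Finset.mem_univ _,
        Finset.mem_filter.2 ⟨Finset.mem_univ _, hi⟩⟩)
    · intro i hi
      exact c7 (Finset.mem_biUnion.2 ⟨i, Finset.mem_univ _,
        Finset.mem_filter.2 ⟨Finset.mem_univ _, hi⟩⟩)
  have hb : ∀ {κ : Type} [Fintype κ] [DecidableEq κ] (S : κ → Finset (BI d L → HE n d)) (c : ℕ),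
      (∀ k, (S k).card * (n * d) ≤ c * F) →
      (univ.biUnion S).card * (n * d) ≤ (Fintype.card κ * c) * F := by
    intro κ _ _ S c hS
    calc (univ.biUnion S).card * (n * d) ≤ (∑ k, (S k).card) * (n * d) :=
          Nat.mul_le_mul_right _ Finset.card_biUnion_le
      _ = ∑ k, (S k).card * (n * d) := Finset.sum_mul _ _ _
      _ ≤ ∑ _k : κ, c * F := Finset.sum_le_sum fun k _ => hS k
      _ = (Fintype.card κ * c) * F := by
          rw [Finset.sum_const, Finset.card_univ, smul_eq_mul, mul_assoc]
  have h1 := hb S1 d (fun ji => by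
    have := card_coord (α := HE n d) ji.2 (fun x => x.1 = bvi p h0 ji.1)
    rw [hHE] at this
    simp only [S1]
    rw [this]
    exact Nat.mul_le_mul_right _ (card_fst_eq _))
  have h2 := hb S2 d (fun ji => by
    have := card_coord (α := HE n d) ji.2 (fun x => (p x).1 = bvi p h0 ji.1)
    rw [hHE] at this
    simp only [S2]
    rw [this]
    exact Nat.mul_le_mul_right _ (card_p_fst_eq p _))
  have h3 := hb S3 d (fun ij => by
    simp only [S3]
    by_cases hne : ij.1 = ij.2
    · rw [if_pos hne]; simp
    · rw [if_neg hne]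
      have := card_coord2 (α := HE n d) hne (fun x y => y.1 = x.1) d (fun x => card_fst_eq _)
      rwa [hHE] at this)
  have h4 := hb S4 d (fun ij => by
    simp only [S4]
    by_cases hne : ij.1 = ij.2
    · rw [if_pos hne]; simp
    · rw [if_neg hne]
      have := card_coord2 (α := HE n d) hne (fun x y => (p y).1 = (p x).1) d
        (fun x => card_p_fst_eq p _)
      rwa [hHE] at this)
  have h5 := hb S5 d (fun ij => by
    simp only [S5]
    by_cases hne : ij.1 = ij.2
    · rw [if_pos hne]; simp
    · rw [if_neg hne]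
      have := card_coord2 (α := HE n d) hne (fun x y => (p y).1 = x.1) d
        (fun x => card_p_fst_eq p _)
      rwa [hHE] at this)
  have h6 := hb S6 (d * d) (fun i => by
    have := card_coord (α := HE n d) i (fun x => Adj (α := HE n d) Prod.fst p (tau p h0 i).1 x.1)
    rw [hHE] at this
    simp only [S6]
    rw [this]
    exact Nat.mul_le_mul_right _ (card_adj_fst p _))
  have h7 := hb S7 (d * d) (fun i => by
    have := card_coord (α := HE n d) i
      (fun x => Adj (α := HE n d) Prod.fst p (ab p h0 i).1 (p x).1)
    rw [hHE] at this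
    simp only [S7]
    rw [this]
    exact Nat.mul_le_mul_right _ (card_adj_p_fst p _))
  rw [Fintype.card_prod] at h1 h2 h3 h4 h5
  have hu : ((((((univ.biUnion S1) ∪ (univ.biUnion S2)) ∪ (univ.biUnion S3)) ∪
        (univ.biUnion S4)) ∪ (univ.biUnion S5)) ∪ (univ.biUnion S6) ∪ (univ.biUnion S7)).card ≤
      (univ.biUnion S1).card + (univ.biUnion S2).card + (univ.biUnion S3).card +
      (univ.biUnion S4).card + (univ.biUnion S5).card + (univ.biUnion S6).card +
      (univ.biUnion S7).card := by
    refine (Finset.card_union_le _ _).trans (Nat.add_le_add_right ?_ _)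
    refine (Finset.card_union_le _ _).trans (Nat.add_le_add_right ?_ _)
    refine (Finset.card_union_le _ _).trans (Nat.add_le_add_right ?_ _)
    refine (Finset.card_union_le _ _).trans (Nat.add_le_add_right ?_ _)
    refine (Finset.card_union_le _ _).trans (Nat.add_le_add_right ?_ _)
    exact Finset.card_union_le _ _
  calc (univ.filter fun b : BI d L → HE n d => ¬ BVal L p h0 b).card * (n * d)
      ≤ ((univ.biUnion S1).card + (univ.biUnion S2).card + (univ.biUnion S3).card +
      (univ.biUnion S4).card + (univ.biUnion S5).card + (univ.biUnion S6).card +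
      (univ.biUnion S7).card) * (n * d) :=
        Nat.mul_le_mul_right _ ((Finset.card_le_card hsub).trans hu)
    _ = (univ.biUnion S1).card * (n * d) + (univ.biUnion S2).card * (n * d) +
      (univ.biUnion S3).card * (n * d) + (univ.biUnion S4).card * (n * d) +
      (univ.biUnion S5).card * (n * d) + (univ.biUnion S6).card * (n * d) +
      (univ.biUnion S7).card * (n * d) := by ring
    _ ≤ _ := by
        refine (Nat.add_le_add (Nat.add_le_add (Nat.add_le_add (Nat.add_le_add (Nat.add_le_add
          (Nat.add_le_add h1 h2) h3) h4) h5) h6) h7).trans (le_of_eq ?_)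
        unfold Cinv
        ring

open Classical in
/-- **most choices are valid** -/
theorem card_inv_le (hn : 0 < n) (hp : IsPort p) (htl : TL L p h0) :
    ((univ.filter fun b : BI d L → HE n d => ¬ BVal L p h0 b).card : ℝ) ≤
      ((Cinv d L : ℝ) / n) * Fintype.card (BI d L → HE n d) := by
  have h := card_inv_mul_le hp htl
  have hd : (0 : ℝ) < d := by exact_mod_cast Nat.pos_of_ne_zero (NeZero.ne d)
  have hn' : (0 : ℝ) < n := by exact_mod_cast hn
  have h' : ((univ.filter fun b : BI d L → HE n d => ¬ BVal L p h0 b).card : ℝ) * (n * d) ≤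
      (d * Cinv d L) * Fintype.card (BI d L → HE n d) := by exact_mod_cast h
  rw [div_mul_eq_mul_div, le_div_iff₀ hn']
  nlinarith [h', hd, mul_pos hn' hd]

end Crest.Agent.R166.SwInv356
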