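import Crest.Agent.R166.SwP2_470

/-!
# Row 166, section 20 / 30.6: most double moves commute (helper356)

`hcomm`: for every simple pairing `p` the fraction of pairs of moves `(m, m')` which do not commute
is at most `D² / n`, `D` = number of vertices in the dependence set of a move.
-/

set_option autoImplicit false
set_option linter.unusedSectionVars false

open Finset

namespace Crest.Agent.R166.SwComm356

open Crest.Agent.R166 Crest.Agent.R166.SwP470

variable {n d : ℕ} [NeZero d]

/-- index set of the vertices on which a move depends -/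
abbrev J (d : ℕ) [NeZero d] (L : ℕ) : Type :=
  (Σ l : Fin (L + 1), Bool × (Fin l → NZ d)) ⊕ (BI d L ⊕ BI d L)

/-- the moves -/
abbrev Mv (n d : ℕ) [NeZero d] (L : ℕ) : Type := HE n d × (BI d L → HE n d)

/-- half-edges at the vertices on which the move `m` depends -/
def G (L : ℕ) (p : Equiv.Perm (HE n d)) (m : Mv n d L) : J d L → HE n d
  | Sum.inl ⟨_, (s, f)⟩ => p (desc p (rt p m.1 s) (wd f))
  | Sum.inr (Sum.inl i) => m.2 i
  | Sum.inr (Sum.inr i) => p (m.2 i)

variable {L : ℕ} {p q : Equiv.Perm (HE n d)} {m m' : Mv n d L}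

/-- `x` is at a vertex of the dependence set -/
def At (L : ℕ) (p : Equiv.Perm (HE n d)) (m : Mv n d L) (x : HE n d) : Prop :=
  ∃ j, (G L p m j).1 = x.1

lemma at_bv (s : Bool) {w : List (Fin d)} (hw : NZw w) (hl : w.length ≤ L) (x : HE n d)
    (hx : x.1 = bv p m.1 s w) : At L p m x := by
  obtain ⟨f, hf⟩ := exists_wd hw rfl
  refine ⟨Sum.inl ⟨⟨w.length, by omega⟩, (s, f)⟩, ?_⟩
  rw [hx, bv]
  show (p (desc p (rt p m.1 s) (wd f))).1 = _
  rw [hf]

lemma at_desc (hp : IsPort p) (s : Bool) {w : List (Fin d)} (hw : NZw w) (hl : w.length ≤ L)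
    (x : HE n d) (hx : x.1 = (desc p (rt p m.1 s) w).1) : At L p m x := by
  obtain ⟨s', w', h1, h2, h3⟩ := desc_fst (p := p) (h0 := m.1) hp s w hw
  exact at_bv s' h1 (by omega) x (hx.trans h3)

lemma at_b (i : BI d L) (x : HE n d) (hx : x.1 = (m.2 i).1) : At L p m x :=
  ⟨Sum.inr (Sum.inl i), hx.symm⟩

lemma at_pb (i : BI d L) (x : HE n d) (hx : x.1 = (p (m.2 i)).1) : At L p m x :=
  ⟨Sum.inr (Sum.inr i), hx.symm⟩

section agree

variable (hp : IsPort p) (hq : ∀ x, At L p m x → q x = p x)
include hp hq

lemma rt_agree (s : Bool) : rt q m.1 s = rt p m.1 s := by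
  cases s
  · simp only [rt, Bool.false_eq_true, if_false]
    apply hq
    refine at_desc (w := []) hp true (by simp [NZw]) (by simp) _ ?_
    simp [rt]
  · rfl

lemma desc_agree (s : Bool) {w : List (Fin d)} (hw : NZw w) (hl : w.length ≤ L) :
    desc q (rt q m.1 s) w = desc p (rt p m.1 s) w := by
  induction w using List.reverseRecOn with
  | nil => simpa using rt_agree hp hq s
  | append_singleton w k ih =>
    have hl' : w.length ≤ L := by simp at hl; omega
    rw [desc_snoc, desc_snoc, ih hw.append.1 hl', hq _ (at_desc hp s hw.append.1 hl' _ rfl)]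

lemma pdesc_agree (s : Bool) {w : List (Fin d)} (hw : NZw w) (hl : w.length ≤ L) :
    q (desc q (rt q m.1 s) w) = p (desc p (rt p m.1 s) w) := by
  rw [desc_agree hp hq s hw hl, hq _ (at_desc hp s hw hl _ rfl)]

lemma bv_agree (s : Bool) {w : List (Fin d)} (hw : NZw w) (hl : w.length ≤ L) :
    bv q m.1 s w = bv p m.1 s w := by
  unfold bv; rw [pdesc_agree hp hq s hw hl]

lemma pb_agree (i : BI d L) : q (m.2 i) = p (m.2 i) := hq _ (at_b i _ rfl)

lemma tau_agree (i : BI d L) : tau q m.1 i = tau p m.1 i :=
  desc_agree hp hq _ (wd_NZw i.2) (wd_length i.2).le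

lemma ab_agree (i : BI d L) : ab q m.1 i = ab p m.1 i :=
  pdesc_agree hp hq _ (wd_NZw i.2) (wd_length i.2).le

lemma bval_agree : BVal L q m.1 m.2 ↔ BVal L p m.1 m.2 := by
  have hA1 : ∀ i : BI d L, Adj (α := HE n d) Prod.fst q (tau q m.1 i).1 (m.2 i).1 ↔
      Adj (α := HE n d) Prod.fst p (tau p m.1 i).1 (m.2 i).1 := by
    intro i
    rw [tau_agree hp hq i]
    constructor
    · rintro ⟨x, h1, h2⟩
      refine ⟨x, h1, ?_⟩
      rwa [hq x (at_desc hp _ (wd_NZw i.2) (wd_length i.2).le x h1)] at h2
    · rintro ⟨x, h1, h2⟩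
      refine ⟨x, h1, ?_⟩
      rwa [hq x (at_desc hp _ (wd_NZw i.2) (wd_length i.2).le x h1)]
  have hA2 : ∀ i : BI d L, Adj (α := HE n d) Prod.fst q (ab q m.1 i).1 (q (m.2 i)).1 ↔
      Adj (α := HE n d) Prod.fst p (ab p m.1 i).1 (p (m.2 i)).1 := by
    intro i
    rw [ab_agree hp hq i, pb_agree hp hq i]
    have h3 : ∀ x : HE n d, x.1 = (ab p m.1 i).1 → q x = p x := fun x hx =>
      hq x (at_bv i.1 (wd_NZw i.2) (wd_length i.2).le x (hx.trans (ab_fst i)))
    constructor
    · rintro ⟨x, h1, h2⟩
      refine ⟨x, h1, ?_⟩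
      rwa [h3 x h1] at h2
    · rintro ⟨x, h1, h2⟩
      refine ⟨x, h1, ?_⟩
      rwa [h3 x h1]
  constructor
  · intro h
    refine ⟨?_, ?_, ?_, h.uu, ?_, ?_, ?_, ?_⟩
    · intro s s' w w' hw hw' hl hl' he
      rw [← bv_agree hp hq s hw hl, ← bv_agree hp hq s' hw' hl'] at he
      exact h.tl s s' w w' hw hw' hl hl' he
    · intro s w i hw hl
      rw [← bv_agree hp hq s hw hl]; exact h.bu s w i hw hl
    · intro s w i hw hl
      rw [← bv_agree hp hq s hw hl, ← pb_agree hp hq i]; exact h.bw s w i hw hl
    · intro i j hij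
      rw [← pb_agree hp hq i, ← pb_agree hp hq j] at hij; exact h.ww i j hij
    · intro i j
      rw [← pb_agree hp hq j]; exact h.uw i j
    · intro i; rw [← hA1 i]; exact h.ntu i
    · intro i; rw [← hA2 i]; exact h.naw i
  · intro h
    refine ⟨?_, ?_, ?_, h.uu, ?_, ?_, ?_, ?_⟩
    · intro s s' w w' hw hw' hl hl' he
      rw [bv_agree hp hq s hw hl, bv_agree hp hq s' hw' hl'] at he
      exact h.tl s s' w w' hw hw' hl hl' he
    · intro s w i hw hl
      rw [bv_agree hp hq s hw hl]; exact h.bu s w i hw hl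
    · intro s w i hw hl
      rw [bv_agree hp hq s hw hl, pb_agree hp hq i]; exact h.bw s w i hw hl
    · intro i j hij
      rw [pb_agree hp hq i, pb_agree hp hq j] at hij; exact h.ww i j hij
    · intro i j
      rw [pb_agree hp hq j]; exact h.uw i j
    · intro i; rw [hA1 i]; exact h.ntu i
    · intro i; rw [hA2 i]; exact h.naw i

end agree

/-- half-edges moved by `msw` are in the dependence set -/
lemma msw_eq_of_not_at {x : HE n d} (hx : ¬ At L p m x) : msw (ab p m.1) m.2 x = x := by
  apply msw_o
  · intro i hi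
    apply hx
    refine at_bv i.1 (wd_NZw i.2) (wd_length i.2).le x ?_
    rw [← hi, ab_fst]
  · intro i hi
    exact hx (at_b i x (by rw [hi]))

/-- a move does not change `p` outside of its dependence set -/
lemma bsw_eq_of_not_at (hp : IsPort p) {x : HE n d} (hx : ¬ At L p m x) :
    (bsw L p m).1 x = p x := by
  by_cases h : BVal L p m.1 m.2
  · rw [bsw_pos h]
    show cj (ab p m.1) m.2 p x = p x
    apply Out.cj (isSP_of_isPort hp)
    refine ⟨?_, ?_, ?_, ?_⟩
    · intro i hi
      exact hx (at_bv i.1 (wd_NZw i.2) (wd_length i.2).le x (by rw [← hi, ab_fst]))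
    · intro i hi
      exact hx (at_b i x (by rw [hi]))
    · intro i hi
      refine hx (at_desc hp i.1 (wd_NZw i.2) (wd_length i.2).le x ?_)
      rw [← hi]
      show (p (p (desc p (rt p m.1 i.1) (wd i.2)))).1 = _
      rw [hp.inv]
    · intro i hi
      exact hx (at_pb i x (by rw [hi]))
  · rw [bsw_neg h]

/-- moves with disjoint dependence sets commute -/
theorem bsw_comm (hp : IsPort p)
    (hdis : ∀ j j', (G L p m j).1 ≠ (G L p m' j').1) :
    (bsw L (bsw L p m).1 m').1 = (bsw L (bsw L p m').1 m).1 := by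
  have hna : ∀ x, At L p m x → ¬ At L p m' x := by
    rintro x ⟨j, hj⟩ ⟨j', hj'⟩
    exact hdis j j' (hj.trans hj'.symm)
  have h1 : ∀ x, At L p m' x → (bsw L p m).1 x = p x := fun x hx =>
    bsw_eq_of_not_at hp (fun h => hna x h hx)
  have h2 : ∀ x, At L p m x → (bsw L p m').1 x = p x := fun x hx =>
    bsw_eq_of_not_at hp (hna x hx)
  have e1 := bval_agree hp h1
  have e2 := bval_agree hp h2
  have a1 : ab (bsw L p m).1 m'.1 = (ab p m'.1 : BI d L → HE n d) := funext (ab_agree hp h1)
  have a2 : ab (bsw L p m').1 m.1 = (ab p m.1 : BI d L → HE n d) := funext (ab_agree hp h2)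
  by_cases c1 : BVal L p m.1 m.2 <;> by_cases c2 : BVal L p m'.1 m'.2
  · rw [bsw_pos (e1.2 c2), bsw_pos (e2.2 c1)]
    show cj (ab (bsw L p m).1 m'.1) m'.2 (bsw L p m).1 =
      cj (ab (bsw L p m').1 m.1) m.2 (bsw L p m').1
    rw [a1, a2, bsw_pos c1, bsw_pos c2]
    show cj (ab p m'.1) m'.2 (cj (ab p m.1) m.2 p) = cj (ab p m.1) m.2 (cj (ab p m'.1) m'.2 p)
    have hc : Commute (msw (ab p m.1) m.2) (msw (ab p m'.1) m'.2) := by
      apply Equiv.Perm.Disjoint.commute
      intro x
      by_cases hx : At L p m x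
      · right; exact msw_eq_of_not_at (hna x hx)
      · left; exact msw_eq_of_not_at hx
    unfold cj
    rw [← mul_assoc, ← mul_assoc, ← mul_assoc, ← mul_assoc, hc.eq]
    simp only [mul_assoc]
    rw [hc.eq]
  · rw [bsw_neg (fun h => c2 (e1.1 h)), bsw_neg c2]
  · rw [bsw_neg (fun h => c1 (e2.1 h)), bsw_neg c1]
  · rw [bsw_neg (fun h => c2 (e1.1 h)), bsw_neg (fun h => c1 (e2.1 h)), bsw_neg c1, bsw_neg c2]

/-! ### counting -/

lemma card_Mv (n d L : ℕ) [NeZero d] :
    Fintype.card (Mv n d L) = (n * d) * (n * d) ^ Fintype.card (BI d L) := by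
  rw [Fintype.card_prod, Fintype.card_fun]
  simp [HE]

lemma rt_injective (s : Bool) : Function.Injective (fun h => rt p h s) := by
  cases s
  · intro x y h
    simpa [rt] using h
  · intro x y h
    simpa [rt] using h

/-- every vertex is hit by at most `|M|/n` moves, for every index `j` -/
lemma card_fiber_le (p : Equiv.Perm (HE n d)) (j : J d L) (v : Fin n) :
    (univ.filter fun m : Mv n d L => (G L p m j).1 = v).card ≤
      d * (n * d) ^ Fintype.card (BI d L) := by
  classical
  have hv : (univ.filter fun x : HE n d => x.1 = v).card = d := by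
    have : (univ.filter fun x : HE n d => x.1 = v) = univ.map ⟨fun i : Fin d => (v, i),
        fun _ _ h => (Prod.mk.inj h).2⟩ := by
      ext ⟨a, b⟩
      simp only [Finset.mem_filter, Finset.mem_univ, true_and, Finset.mem_map]
      constructor
      · intro h; exact ⟨b, by rw [← h]; rfl⟩
      · rintro ⟨i, hi⟩; exact (congrArg Prod.fst hi).symm
    rw [this, Finset.card_map, Finset.card_univ, Fintype.card_fin]
  have hHE : Fintype.card (HE n d) = n * d := by simp [HE]
  rcases j with ⟨l, s, f⟩ | i | i
  · -- depends on the first coordinate injectively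
    have hinj : Function.Injective (fun h : HE n d => p (desc p (rt p h s) (wd f))) := fun x y h =>
      rt_injective s (desc_injective p (wd f) (p.injective h))
    have hsub : (univ.filter fun m : Mv n d L =>
        (G L p m (Sum.inl ⟨l, s, f⟩)).1 = v) ⊆
        (univ.filter fun h : HE n d => (p (desc p (rt p h s) (wd f))).1 = v) ×ˢ
          (univ : Finset (BI d L → HE n d)) := by
      rintro ⟨x, b⟩ hm
      simp only [Finset.mem_filter, Finset.mem_univ, true_and] at hm
      simp only [Finset.mem_product, Finset.mem_filter, Finset.mem_univ, true_and, and_true]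
      exact hm
    refine (Finset.card_le_card hsub).trans ?_
    rw [Finset.card_product, Finset.card_univ, Fintype.card_fun, hHE]
    apply Nat.mul_le_mul_right
    refine le_trans ?_ hv.le
    apply Finset.card_le_card_of_injOn (fun h : HE n d => p (desc p (rt p h s) (wd f)))
    · intro x hx
      simpa using hx
    · exact hinj.injOn
  · have key : (univ.filter fun m : Mv n d L => (G L p m (Sum.inr (Sum.inl i))).1 = v).card =
        (n * d) * (d * (n * d) ^ (Fintype.card (BI d L) - 1)) := by
      have hsub : (univ.filter fun m : Mv n d L => (G L p m (Sum.inr (Sum.inl i))).1 = v) =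
          (univ : Finset (HE n d)) ×ˢ (Fintype.piFinset fun k : BI d L =>
            if k = i then (univ.filter fun x : HE n d => x.1 = v) else univ) := by
        ext ⟨x, b⟩
        simp only [Finset.mem_filter, Finset.mem_univ, true_and, Finset.mem_product,
          Fintype.mem_piFinset]
        constructor
        · intro h k
          by_cases hk : k = i
          · rw [if_pos hk, hk]
            exact Finset.mem_filter.2 ⟨Finset.mem_univ _, h⟩
          · rw [if_neg hk]; exact Finset.mem_univ _
        · intro h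
          have := h i
          rw [if_pos rfl] at this
          exact (Finset.mem_filter.1 this).2
      rw [hsub, Finset.card_product, Finset.card_univ, hHE, Fintype.card_piFinset]
      congr 1
      rw [← Finset.mul_prod_erase univ _ (Finset.mem_univ i), if_pos rfl, hv]
      congr 1
      rw [Finset.prod_congr rfl (g := fun _ => n * d) (fun k hk => by
        rw [if_neg (Finset.ne_of_mem_erase hk), Finset.card_univ, hHE]),
        Finset.prod_const, Finset.card_erase_of_mem (Finset.mem_univ i), Finset.card_univ]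
    rw [key]
    have hpos : 0 < Fintype.card (BI d L) := Fintype.card_pos_iff.2 ⟨i⟩
    obtain ⟨c, hc⟩ : ∃ c, Fintype.card (BI d L) = c + 1 := ⟨_, (Nat.succ_pred_eq_of_pos hpos).symm⟩
    rw [hc, Nat.add_sub_cancel, pow_succ]
    apply le_of_eq; ring
  · have key : (univ.filter fun m : Mv n d L => (G L p m (Sum.inr (Sum.inr i))).1 = v).card ≤
        (n * d) * (d * (n * d) ^ (Fintype.card (BI d L) - 1)) := by
      have hpv : (univ.filter fun x : HE n d => (p x).1 = v).card ≤ d := by
        refine le_trans ?_ hv.le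
        apply Finset.card_le_card_of_injOn (fun x => p x)
        · intro x hx; simpa using hx
        · exact p.injective.injOn
      have hsub : (univ.filter fun m : Mv n d L => (G L p m (Sum.inr (Sum.inr i))).1 = v) ⊆
          (univ : Finset (HE n d)) ×ˢ (Fintype.piFinset fun k : BI d L =>
            if k = i then (univ.filter fun x : HE n d => (p x).1 = v) else univ) := by
        rintro ⟨x, b⟩
        simp only [Finset.mem_filter, Finset.mem_univ, true_and, Finset.mem_product,
          Fintype.mem_piFinset]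
        intro h k
        by_cases hk : k = i
        · rw [if_pos hk, hk]
          exact Finset.mem_filter.2 ⟨Finset.mem_univ _, h⟩
        · rw [if_neg hk]; exact Finset.mem_univ _
      refine (Finset.card_le_card hsub).trans ?_
      rw [Finset.card_product, Finset.card_univ, hHE, Fintype.card_piFinset]
      apply Nat.mul_le_mul_left
      rw [← Finset.mul_prod_erase univ _ (Finset.mem_univ i), if_pos rfl]
      apply Nat.mul_le_mul hpv
      rw [Finset.prod_congr rfl (g := fun _ => n * d) (fun k hk => by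
        rw [if_neg (Finset.ne_of_mem_erase hk), Finset.card_univ, hHE]),
        Finset.prod_const, Finset.card_erase_of_mem (Finset.mem_univ i), Finset.card_univ]
    refine key.trans ?_
    have hpos : 0 < Fintype.card (BI d L) := Fintype.card_pos_iff.2 ⟨i⟩
    obtain ⟨c, hc⟩ : ∃ c, Fintype.card (BI d L) = c + 1 := ⟨_, (Nat.succ_pred_eq_of_pos hpos).symm⟩
    rw [hc, Nat.add_sub_cancel, pow_succ]
    apply le_of_eq; ring

open Classical in
/-- the bad pairs of moves -/
noncomputable def BadP (L : ℕ) (p : Equiv.Perm (HE n d)) : Finset (Mv n d L × Mv n d L) :=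
  univ.filter fun x => ∃ j j', (G L p x.1 j).1 = (G L p x.2 j').1

lemma card_BadP_le (L : ℕ) (p : Equiv.Perm (HE n d)) :
    (BadP L p).card ≤ Fintype.card (J d L) ^ 2 *
      (Fintype.card (Mv n d L) * (d * (n * d) ^ Fintype.card (BI d L))) := by
  classical
  have hsub : BadP L p ⊆ (univ : Finset (J d L × J d L)).biUnion fun jj =>
      (univ : Finset (Mv n d L × Mv n d L)).filter fun x =>
        (G L p x.2 jj.2).1 = (G L p x.1 jj.1).1 := by
    intro x hx
    simp only [BadP, Finset.mem_filter, Finset.mem_univ, true_and] at hx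
    obtain ⟨j, j', h⟩ := hx
    simp only [Finset.mem_biUnion, Finset.mem_univ, Finset.mem_filter, true_and]
    exact ⟨(j, j'), h.symm⟩
  refine (Finset.card_le_card hsub).trans (Finset.card_biUnion_le.trans ?_)
  refine (Finset.sum_le_card_nsmul _ _ (Fintype.card (Mv n d L) *
    (d * (n * d) ^ Fintype.card (BI d L))) ?_).trans (le_of_eq ?_)
  · rintro ⟨j, j'⟩ _
    simp only
    have h1 : (univ : Finset (Mv n d L × Mv n d L)).filter (fun x =>
        (G L p x.2 j').1 = (G L p x.1 j).1) ⊆
        (univ : Finset (Mv n d L)).biUnion fun a =>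
          ((univ : Finset (Mv n d L)).filter fun b => (G L p b j').1 = (G L p a j).1).image
            fun b => (a, b) := by
      rintro ⟨a, b⟩ hx
      simp only [Finset.mem_filter, Finset.mem_univ, true_and] at hx
      simp only [Finset.mem_biUnion, Finset.mem_univ, Finset.mem_image, Finset.mem_filter,
        true_and]
      exact ⟨a, b, hx, rfl⟩
    refine (Finset.card_le_card h1).trans (Finset.card_biUnion_le.trans ?_)
    refine (Finset.sum_le_card_nsmul _ _ (d * (n * d) ^ Fintype.card (BI d L)) ?_).trans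
      (le_of_eq ?_)
    · intro a _
      exact Finset.card_image_le.trans (card_fiber_le p j' _)
    · rw [Finset.card_univ, smul_eq_mul]
  · rw [Finset.card_univ, Fintype.card_prod, smul_eq_mul, sq]

/-- **hcomm** of `Sec269.second_moment` for the ball-boundary resampling, `δ₁ = |J|²/n`. -/
theorem hcomm (n d L : ℕ) [NeZero d] (hn : 0 < n) :
    ∃ Bad : Equiv.Perm (HE n d) → Finset (Mv n d L × Mv n d L),
      (∀ p ∈ Ports n d, ((Bad p).card : ℝ) ≤ ((Fintype.card (J d L) : ℝ) ^ 2 / n) *
        ((Finset.univ : Finset (Mv n d L)).card : ℝ) ^ 2) ∧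
      (∀ p ∈ Ports n d, ∀ m ∈ (Finset.univ : Finset (Mv n d L)),
        ∀ m' ∈ (Finset.univ : Finset (Mv n d L)), (m, m') ∉ Bad p →
        (bsw L (bsw L p m).1 m').1 = (bsw L (bsw L p m').1 m).1) := by
  classical
  refine ⟨fun p => BadP L p, ?_, ?_⟩
  · intro p _
    have h := card_BadP_le L p
    have h' : ((BadP L p).card : ℝ) ≤ (Fintype.card (J d L) : ℝ) ^ 2 *
      ((Fintype.card (Mv n d L) : ℝ) * ((d : ℝ) * ((n : ℝ) * d) ^ Fintype.card (BI d L))) := by
      exact_mod_cast h
    refine h'.trans (le_of_eq ?_)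
    rw [Finset.card_univ]
    have hM : (Fintype.card (Mv n d L) : ℝ) = ((n : ℝ) * d) * ((n : ℝ) * d) ^
        Fintype.card (BI d L) := by
      exact_mod_cast card_Mv n d L
    have hn' : (n : ℝ) ≠ 0 := by exact_mod_cast hn.ne'
    have : (d : ℝ) * ((n : ℝ) * d) ^ Fintype.card (BI d L) = (Fintype.card (Mv n d L) : ℝ) / n := by
      rw [hM]; field_simp
    rw [this]; ring
  · intro p hp m _ m' _ hm
    rw [mem_Ports] at hp
    apply bsw_comm hp
    intro j j' h
    apply hm
    simp only [BadP, Finset.mem_filter, Finset.mem_univ, true_and]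
    exact ⟨j, j', h⟩

end Crest.Agent.R166.SwComm356
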