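import Crest.Agent.R166.SwP3_470
import Crest.Agent.R166.SwComm_356
import Crest.Agent.R166.H4_269

/-!
# Row 166: the structure `H4.Comm` for the ball-boundary moves (helper470)
-/

set_option autoImplicit false

namespace Crest.Agent.R166.SwP470

/-- the hypotheses `sm1`, `sm2` of `H4_269`, with `cL = 4 N`, `cD = |J|²` -/
theorem comm (n d L : ℕ) [NeZero d] (hn : 0 < n) :
    H4.Comm n d L (4 * (Fintype.card (BI d L) : ℝ))
      ((Fintype.card (SwComm356.J d L) : ℝ) ^ 2) where
  ch := fun p hp m => by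
    have := card_Ch_bsw (mem_Ports.1 hp) m
    exact_mod_cast this
  comm := by
    obtain ⟨Bad, h1, h2⟩ := SwComm356.hcomm n d L hn
    exact ⟨Bad, h1, fun p hp m m' hm => h2 p hp m (Finset.mem_univ _) m' (Finset.mem_univ _) hm⟩

end Crest.Agent.R166.SwP470
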