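import Crest.Agent.R166.H1P_395
import Crest.Agent.R166.Comm_470
import Crest.Agent.R166.TreeTL_798

/-!
# Row 166, section 30.4 (helper395): assembly of `SpecA.StepA d` (`3 ≤ d`)

`StepIn d` = the remaining analytic inputs `S0P`, `S1P` (all depths, `C` independent of the depth)
and `H2P`; `stepL_of` : the one-step structure with the concrete `gV = H4.gV L`, `gm = H4.gm 1`
for all large `L`; `stepA_of : StepIn d → SpecA.StepA d`.
-/

set_option autoImplicit false

open Finset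

namespace Crest.Agent.R166.StepA395

open Crest.Agent.R166 Stab269 Rev811 Spec30 SwP470 MuU395 H1P395

variable {d : ℕ} [NeZero d]

/-- the analytic inputs -/
def StepIn (d : ℕ) [NeZero d] : Prop :=
  ∀ A : ℝ, 0 < A → A ^ 2 < 4 * ((d : ℝ) - 1) →
    ∃ rs C Cm : ℝ, 0 < rs ∧ rs ≤ 1 / 14 ∧ 0 ≤ C ∧ 0 ≤ Cm ∧
      (∀ L : ℕ, 1 ≤ L → ∃ ε CL : ℝ, 0 < ε ∧ 0 ≤ CL ∧ S0P d L A rs ε C CL ∧
        S1P d L A rs ε C CL) ∧
      H2P d A rs Cm (fun _ s ω z p => H4.gm 1 rs s ω z p)

/-- fraction of the centres whose depth `L` ball is not a tree -/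
noncomputable def errL (L : ℕ) {n : ℕ} (p : Equiv.Perm (HE n d)) : ℝ :=
  pr1 (fun h : HE n d => ¬ TL L p h)

/-- the one-step structure with the concrete one-step means, for all large depths -/
def StepC (d : ℕ) [NeZero d] : Prop :=
  ∀ A : ℝ, 0 < A → A ^ 2 < 4 * ((d : ℝ) - 1) →
    ∃ rs c : ℝ, 0 < rs ∧ rs ≤ 1 ∧ 0 < c ∧ ∃ L0 : ℕ, 1 ≤ L0 ∧ ∀ L : ℕ, L0 ≤ L → ∃ C : ℝ, 0 < C ∧
      ∀ n : ℕ, 0 < n → (∀ p : Equiv.Perm (HE n d), 0 ≤ errL L p) ∧
        ∑ p ∈ Ports n d, errL L p ≤ C / n * (Ports n d).card ∧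
        ∀ E s η : ℝ, |E| ≤ A → |s| ≤ 1 → 0 < η → η ≤ 1 →
          ∀ ω : Fin n → ℝ, (∀ v, |ω v| ≤ 1) →
            Multi383.Step (Ports n d) (fun p => SpecA.Vp rs p s ω (ze E η))
              (fun p => H4.gV L rs s ω (ze E η) p)
              (fun p => SpecA.mup rs p s ω (ze E η)) (fun p => H4.gm 1 rs s ω (ze E η) p)
              (fun p => errL L p)
              (((d : ℂ) - 1) * mc d (ze E η) ^ 2) C c (1 / 4) (1 / (n * η)) s

theorem errL_sum (hd : 3 ≤ d) (L : ℕ) {n : ℕ} (hn : 0 < n) :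
    ∑ p ∈ Ports n d, errL L p ≤ (Tree798.CT d L : ℝ) / n * (Ports n d).card := by
  classical
  have h := Tree798.sum_card_not_TL_le (n := n) (d := d) (by omega) L
  have hd' : (3 : ℝ) ≤ d := by exact_mod_cast hd
  have hn' : (0 : ℝ) < n := by exact_mod_cast hn
  have e : ∀ p : Equiv.Perm (HE n d), errL L p =
      ((Finset.univ.filter fun h : HE n d => ¬ TL L p h).card : ℝ) / (n * d) := by
    intro p
    unfold errL
    rw [pr1_eq_card, IsPort.card_HE]
    push_cast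
    congr!
  rw [Finset.sum_congr rfl fun p _ => e p, ← Finset.sum_div, div_le_iff₀ (by positivity)]
  refine h.trans ?_
  have h2 : (Tree798.CT d L : ℝ) / n * (Ports n d).card * (n * d) =
      (Tree798.CT d L * (Ports n d).card) * d := by
    field_simp
  rw [h2]
  have h3 : (0 : ℝ) ≤ Tree798.CT d L * (Ports n d).card := by
    refine le_trans ?_ h
    exact Finset.sum_nonneg fun _ _ => Nat.cast_nonneg _
  nlinarith

theorem stepC_of (hd : 3 ≤ d) (hin : StepIn d) : StepC d := by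
  classical
  intro A hA0 hA
  obtain ⟨rs, C0, Cm, hrs, hrs1, hC0, hCm, hS, hH2⟩ := hin A hA0 hA
  obtain ⟨L0, hL0, hH1⟩ := h1P_all hd hA hrs hrs1 hC0 hS
  have hd' : (3 : ℝ) ≤ d := by exact_mod_cast hd
  set c : ℝ := 2 * Real.sqrt ((d : ℝ) - 1) *
    ((1 - A ^ 2 / (4 * ((d : ℝ) - 1))) / ((d : ℝ) - 1 + 1)) with hc
  have hA1 : A ^ 2 / (4 * ((d : ℝ) - 1)) < 1 := by
    rw [div_lt_one (by linarith)]
    exact hA
  have hc0 : 0 < c := by
    rw [hc]
    have h1 : 0 < Real.sqrt ((d : ℝ) - 1) := Real.sqrt_pos.2 (by linarith)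
    have h2 : 0 < 1 - A ^ 2 / (4 * ((d : ℝ) - 1)) := by linarith
    have h3 : 0 < (d : ℝ) - 1 + 1 := by linarith
    positivity
  refine ⟨rs, c, hrs, by linarith, hc0, L0, hL0, fun L hL => ?_⟩
  have hL1 : 1 ≤ L := hL0.trans hL
  obtain ⟨C1, hC1, hone⟩ := hH1 L hL
  set cL : ℝ := 4 * (Fintype.card (BI d L) : ℝ) with hcL
  set cD : ℝ := (Fintype.card (SwComm356.J d L) : ℝ) ^ 2 with hcD
  set cL1 : ℝ := 4 * (Fintype.card (BI d 1) : ℝ) with hcL1
  set cD1 : ℝ := (Fintype.card (SwComm356.J d 1) : ℝ) ^ 2 with hcD1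
  have p1 : 0 ≤ cL := by positivity
  have p2 : 0 ≤ cD := by positivity
  have p3 : 0 ≤ cL1 := by positivity
  have p4 : 0 ≤ cD1 := by positivity
  set CTL : ℝ := |(Tree798.CT d L : ℝ)| with hCTL
  have p5 : 0 ≤ CTL := abs_nonneg _
  set C : ℝ := C1 + Cm + (1028 * cL + 2 * cD) + (2568 * cL1 + 4 * cD1) + CTL + 1 with hC
  refine ⟨C, by positivity, fun n hn => ⟨fun p => pr1_nonneg _, ?_, ?_⟩⟩
  · have hn' : (0 : ℝ) < n := by exact_mod_cast hn
    refine (errL_sum hd L hn).trans ?_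
    refine mul_le_mul_of_nonneg_right ?_ (Nat.cast_nonneg _)
    refine div_le_div_of_nonneg_right ?_ hn'.le
    have : (Tree798.CT d L : ℝ) ≤ CTL := le_abs_self _
    rw [hC]
    linarith
  · intro E s η hE hs hη hη1 ω hω
    have hn' : (0 : ℝ) < n := by exact_mod_cast hn
    have hR : Rng A n E s η ω := ⟨hn, hE, hs, hη, hη1, hω⟩
    have hκ : 0 ≤ 1 / ((n : ℝ) * η) := by positivity
    have hcard : (0 : ℝ) ≤ ((Ports n d).card : ℝ) := Nat.cast_nonneg _
    have her : ∀ p : Equiv.Perm (HE n d), 0 ≤ errL L p := fun p => pr1_nonneg _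
    have hV : ∀ p : Equiv.Perm (HE n d), 0 ≤ SpecA.Vp rs p s ω (ze E η) := by
      intro p
      rw [Vp_av1]
      exact av1_nonneg fun _ => sq_nonneg _
    constructor
    · intro p _
      exact hV p
    · intro p hp
      have h := hone n E s η ω hR p (mem_Ports.1 hp)
      refine h.trans ?_
      have h1 : 0 ≤ ‖SpecA.mup rs p s ω (ze E η)‖ ^ 2 + SpecA.Vp rs p s ω (ze E η) ^ 2 +
          (1 / (n * η) + errL L p) + s ^ 2 := by
        have := her p
        positivity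
      have h2 : C1 ≤ C := by rw [hC]; linarith
      have h3 := mul_le_mul_of_nonneg_right h2 h1
      have h4 : errL L p = pr1 (fun h : HE n d => ¬ TL L p h) := rfl
      rw [h4] at h3 ⊢
      linarith
    · intro p hp
      have h := hH2 n E s η ω hR p (mem_Ports.1 hp)
      refine h.trans ?_
      have h4 : pr1 (fun h : HE n d => ¬ TL 1 p h) ≤ errL L p :=
        pr1_mono fun h hh hT => hh (Tree798.TL_mono hL1 hT)
      have h5 : Real.sqrt (1 / (n * η) + pr1 (fun h : HE n d => ¬ TL 1 p h)) ≤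
          Real.sqrt (1 / (n * η) + errL L p) := Real.sqrt_le_sqrt (by linarith)
      have h6 : Cm ≤ C := by rw [hC]; linarith
      refine mul_le_mul h6 ?_ ?_ (by positivity)
      · linarith
      · have := hV p
        positivity
    · refine le_trans ?_ (ScaleV355.mc_nonres (by omega) (C0 := 1) ?_ hη hη1)
      · rw [hc]
        have hE2 : E ^ 2 ≤ A ^ 2 := by
          rw [← sq_abs E]
          exact pow_le_pow_left₀ (abs_nonneg _) hE 2
        have h7 : E ^ 2 / (4 * ((d : ℝ) - 1)) ≤ A ^ 2 / (4 * ((d : ℝ) - 1)) :=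
          div_le_div_of_nonneg_right hE2 (by linarith)
        refine mul_le_mul_of_nonneg_left ?_ (by positivity)
        refine div_le_div_of_nonneg_right ?_ (by linarith)
        linarith
      · have hE2 : E ^ 2 ≤ A ^ 2 := by
          rw [← sq_abs E]
          exact pow_le_pow_left₀ (abs_nonneg _) hE 2
        linarith
    · refine (H4.sm1 (by omega) hL1 hn p1 p2 (SwP470.comm n d L hn) s ω hη hη1 hrs
        (by linarith)).trans ?_
      refine mul_le_mul_of_nonneg_right (mul_le_mul_of_nonneg_right ?_ hκ) hcard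
      rw [hC]
      linarith
    · refine (H4.sm2 (by omega) le_rfl hn p3 p4 (SwP470.comm n d 1 hn) s ω hη hη1 hrs
        (by linarith)).trans ?_
      refine mul_le_mul_of_nonneg_right (mul_le_mul_of_nonneg_right ?_ hκ) hcard
      rw [hC]
      linarith

theorem stepA_of (hd : 3 ≤ d) (hin : StepIn d) : SpecA.StepA d := by
  intro A hA0 hA
  obtain ⟨rs, c, hrs, _, hc, L0, _, h⟩ := stepC_of hd hin A hA0 hA
  obtain ⟨C, hC, hn⟩ := h L0 le_rfl
  refine ⟨rs, C, c, 1, hrs, hC, hc, one_pos, fun n hn0 => ?_⟩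
  obtain ⟨h1, h2, h3⟩ := hn n hn0
  exact ⟨fun p => errL L0 p, h1, h2, fun E s η hE hs hη hη1 ω hω =>
    ⟨_, _, h3 E s η hE hs hη hη1 ω hω⟩⟩

end Crest.Agent.R166.StepA395
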