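import Crest.Agent.R166.TreeB_327
import Crest.Agent.R166.TreeDet_350

/-!
Row 166, section 30.1/30.2: the recursion with diagonal inputs in the coordinate `uu` (helper327).

`U_bound`: `|u(F_r) - m^{2L} Σ_{rt i = r} u(X_i)| ≤ C_L (Σ_{i ≠ j} |u(X_i)| |u(X_j)| + σ)` for ALL inputs
in the closed upper half plane.
-/

set_option autoImplicit false
set_option linter.unusedSectionVars false
set_option linter.unusedVariables false

namespace Crest.Agent.R166.TreeU327

open Matrix Finset Crest.Agent.R166.TreeT327 Crest.Agent.R166.TreeL327 Crest.Agent.R166.TreeB327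
  Crest.Agent.R166.TreeDet350

/-! ### sums over pairs of distinct indices -/

section off

variable {ι κ β : Type*} [Fintype ι] [Fintype κ] [Fintype β]

/-- sum over ordered pairs of distinct indices -/
def OFF (f : ι → ℝ) : ℝ := (∑ i, f i) ^ 2 - ∑ i, f i ^ 2

lemma OFF_eq [DecidableEq ι] (f : ι → ℝ) :
    OFF f = ∑ p ∈ (Finset.univ : Finset ι).offDiag, f p.1 * f p.2 := by
  have h1 : (∑ i, f i) ^ 2 = ∑ p ∈ (Finset.univ : Finset ι) ×ˢ Finset.univ, f p.1 * f p.2 := by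
    rw [pow_two, Finset.sum_mul_sum, Finset.sum_product]
  have h2 : ∑ i, f i ^ 2 = ∑ p ∈ (Finset.univ : Finset ι).diag, f p.1 * f p.2 := by
    rw [Finset.sum_diag]
    exact Finset.sum_congr rfl fun i _ => pow_two _
  rw [OFF, h1, h2, ← Finset.diag_union_offDiag, Finset.sum_union (Finset.disjoint_diag_offDiag _)]
  ring

lemma OFF_nonneg {f : ι → ℝ} (hf : ∀ i, 0 ≤ f i) : 0 ≤ OFF f := by
  classical
  rw [OFF_eq]
  exact Finset.sum_nonneg fun p _ => mul_nonneg (hf _) (hf _)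

lemma OFF_comp (e : κ ≃ ι) (f : ι → ℝ) : OFF (fun j => f (e j)) = OFF f := by
  rw [OFF, OFF, e.sum_comp (fun i => f i), e.sum_comp (fun i => f i ^ 2)]

lemma OFF_prod (f : κ × β → ℝ) :
    OFF f = OFF (fun p => ∑ a, f (p, a)) + ∑ p, OFF (fun a => f (p, a)) := by
  simp only [OFF, Fintype.sum_prod_type, Finset.sum_sub_distrib]
  ring

/-- comparison of pair sums -/
lemma OFF_le {f g : ι → ℝ} {c : ℝ} (hg : ∀ i, 0 ≤ g i) {A : ℝ}
    (h : ∀ i j, i ≠ j → f i * f j ≤ A * (g i * g j) + c) (hc : 0 ≤ c) :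
    OFF f ≤ A * OFF g + (Fintype.card ι : ℝ) ^ 2 * c := by
  classical
  rw [OFF_eq, OFF_eq, Finset.mul_sum]
  have h1 : ∑ p ∈ (Finset.univ : Finset ι).offDiag, f p.1 * f p.2 ≤
      ∑ p ∈ (Finset.univ : Finset ι).offDiag, (A * (g p.1 * g p.2) + c) := by
    refine Finset.sum_le_sum fun p hp => h _ _ ?_
    exact (Finset.mem_offDiag.mp hp).2.2
  refine h1.trans ?_
  rw [Finset.sum_add_distrib, Finset.sum_const, nsmul_eq_mul]
  have h2 : (((Finset.univ : Finset ι).offDiag.card : ℕ) : ℝ) ≤ (Fintype.card ι : ℝ) ^ 2 := by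
    rw [Finset.offDiag_card]
    have : (Finset.univ : Finset ι).card * (Finset.univ : Finset ι).card -
        (Finset.univ : Finset ι).card ≤ Fintype.card ι ^ 2 := by
      rw [Finset.card_univ, pow_two]; exact Nat.sub_le _ _
    exact_mod_cast this
  have h3 := mul_le_mul_of_nonneg_right h2 hc
  linarith

end off

/-! ### one step -/

section onestep

variable {b : ℕ} {y0 : ℝ} {z m : ℂ} {β : Type*} [Fintype β]

lemma norm_sq_le_one (h : Adm b y0 z m) : ‖m‖ ^ 2 ≤ 1 := by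
  have h1 := h.norm_le
  have h2 := norm_nonneg m
  nlinarith

lemma cav_reindex (hβ : Fintype.card β = b) (z : ℂ) (t : ℝ) (x : β → ℂ) :
    cav z t (fun j : Fin b => x ((Fintype.equivFinOfCardEq hβ).symm j)) =
      -(z - t + ∑ a, x a)⁻¹ := by
  rw [cav, (Fintype.equivFinOfCardEq hβ).symm.sum_comp (fun a => x a), neg_div, one_div]

theorem one_step (h : Adm b y0 z m) (hβ : Fintype.card β = b) (t : ℝ) (x : β → ℂ)
    (hx : ∀ a, 0 ≤ (x a).im) (hS : z - t + ∑ a, x a ≠ 0) :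
    ‖uu m (-(z - t + ∑ a, x a)⁻¹) - m ^ 2 * ∑ a, uu m (x a)‖ ≤
      K3 y0 * OFF (fun a => ‖uu m (x a)‖) + K4 y0 * |t| := by
  set e := (Fintype.equivFinOfCardEq hβ).symm with he
  have hS' : z - t + ∑ j, x (e j) ≠ 0 := by rwa [e.sum_comp (fun a => x a)]
  have h1 := h.uu_cav_sub t (fun j => x (e j)) (fun j => hx _) hS'
  rw [cav_reindex hβ, e.sum_comp (fun a => uu m (x a))] at h1
  have h2 : off (fun j : Fin b => ‖uu m (x (e j))‖) = OFF (fun a => ‖uu m (x a)‖) := by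
    exact (OFF_eq (fun j : Fin b => ‖uu m (x (e j))‖)).symm.trans
      (OFF_comp e (fun a => ‖uu m (x a)‖))
  rw [h2] at h1
  refine h1.trans ?_
  have h3 : 0 ≤ K3 y0 * OFF (fun a => ‖uu m (x a)‖) + K4 y0 * |t| := by
    have := K3_pos h.hy
    have h4 : 0 ≤ OFF (fun a => ‖uu m (x a)‖) := OFF_nonneg fun _ => norm_nonneg _
    have h5 : 0 < K4 y0 := by
      unfold K4; have := K2_pos h.hy; have := h.hy; positivity
    positivity
  have h6 := norm_sq_le_one h
  nlinarith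

/-- exact formula for one step, general index type -/
theorem uu_step (h : Adm b y0 z m) (hβ : Fintype.card β = b) (t : ℝ) (x : β → ℂ)
    (hx : ∀ a, 0 ≤ (x a).im) (hS : z - t + ∑ a, x a ≠ 0) :
    uu m (-(z - t + ∑ a, x a)⁻¹) = m ^ 2 * ut m (∑ a, (x a - m) - t) := by
  set e := (Fintype.equivFinOfCardEq hβ).symm with he
  have hS' : z - t + ∑ j, x (e j) ≠ 0 := by rwa [e.sum_comp (fun a => x a)]
  have h1 := h.uu_cav t (fun j => x (e j)) (fun j => hx _) hS'
  rw [cav_reindex hβ, e.sum_comp (fun a => x a - m)] at h1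
  exact h1

lemma im_D_ge (h : Adm b y0 z m) (hβ : Fintype.card β = b) (t : ℝ) (x : β → ℂ)
    (hx : ∀ a, 0 ≤ (x a).im) : -(b * m.im) ≤ (∑ a, (x a - m) - (t : ℂ)).im := by
  set e := (Fintype.equivFinOfCardEq hβ).symm with he
  have h1 := h.im_D_ge t (fun j => x (e j)) (fun j => hx _)
  rwa [e.sum_comp (fun a => x a - m)] at h1

lemma den_pos {z : ℂ} (hz : 0 < z.im) (t : ℝ) (x : β → ℂ) (hx : ∀ a, 0 ≤ (x a).im) :
    0 < (z - t + ∑ a, x a).im := by
  have : 0 ≤ ∑ a, (x a).im := Finset.sum_nonneg fun a _ => hx a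
  simp only [Complex.add_im, Complex.sub_im, Complex.ofReal_im, Complex.im_sum]
  linarith

lemma ne_zero_of_im {s : ℂ} (h : 0 < s.im) : s ≠ 0 := by
  rintro rfl; simp at h

lemma neg_inv_im_pos {s : ℂ} (h : 0 < s.im) : 0 < (-s⁻¹).im := by
  rw [Complex.neg_im, Complex.inv_im]
  have : 0 < Complex.normSq s := Complex.normSq_pos.mpr (ne_zero_of_im h)
  rw [neg_div, neg_neg]
  positivity

/-- crude bound for `u` from the displacement -/
lemma norm_ut_le' (h : Adm b y0 z m) {D : ℂ} (hD : -(b * m.im) ≤ D.im) :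
    ‖ut m D‖ ≤ ‖D‖ / y0 ^ 2 := by
  unfold ut
  rw [norm_div]
  exact div_le_div_of_nonneg_left (norm_nonneg _) (pow_pos h.hy 2) (h.den_ge' hD)

lemma norm_uu_le' (h : Adm b y0 z m) {x : ℂ} (hx : 0 ≤ x.im) :
    ‖uu m x‖ ≤ ‖x - m‖ / y0 ^ 2 := by
  rw [uu_eq_ut]
  exact norm_ut_le' h (h.disp_im hx)

/-- `min(1, |x - m|) ≤ 3 |u(x)|` -/
lemma min_le_uu (h : Adm b y0 z m) {x : ℂ} (hx : 0 ≤ x.im) :
    min 1 ‖x - m‖ ≤ 3 * ‖uu m x‖ := by
  rw [uu_eq_ut]
  unfold ut
  have hne := h.den_ne (h.disp_im hx)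
  have hp : 0 < ‖1 - m ^ 2 - m * (x - m)‖ := norm_pos_iff.mpr hne
  have h1 : ‖1 - m ^ 2 - m * (x - m)‖ ≤ 3 / 2 + ‖x - m‖ := by
    refine (norm_sub_le _ _).trans (add_le_add h.norm_a_le ?_)
    rw [norm_mul]
    have := h.norm_le
    have := norm_nonneg (x - m)
    nlinarith
  rw [norm_div, ← mul_div_assoc, le_div_iff₀ hp]
  have h2 := norm_nonneg (x - m)
  have h3 : 0 ≤ min 1 ‖x - m‖ := le_min zero_le_one h2
  refine (mul_le_mul_of_nonneg_left h1 h3).trans ?_
  rcases le_total 1 ‖x - m‖ with h4 | h4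
  · rw [min_eq_left h4]; linarith
  · rw [min_eq_right h4]; nlinarith

end onestep

/-! ### the scalar recursion -/

section scalar

variable {ρ β : Type} [Fintype ρ] [DecidableEq ρ] [Fintype β] [DecidableEq β]

/-- the iterated scalar recursion -/
noncomputable def sF (z : ℂ) : ∀ (L : ℕ) (_ : Tr ρ β L → ℝ) (_ : Lay ρ β L → ℂ), ρ → ℂ
  | 0, _, X => X
  | L + 1, V, X => sF z L (fun x => V (Sum.inl x))
      (fun q => -(z - V (Sum.inr q) + ∑ a, X (q, a))⁻¹)

theorem treeB_diagonal {z : ℂ} (hz : 0 < z.im) : ∀ (L : ℕ) (V : Tr ρ β L → ℝ)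
    (X : Lay ρ β L → ℂ), (∀ x, 0 ≤ (X x).im) →
    treeB z L V (Matrix.diagonal X) = Matrix.diagonal (sF z L V X)
  | 0, V, X, _ => rfl
  | L + 1, V, X, hX => by
    rw [treeB_succ]
    have h1 := step_diagonal (κ := Lay ρ β L) (β := β) (e := fun q => z - V (Sum.inr q))
      (X := X) hX (fun q => by simpa using hz)
    have h2 : step (κ := Lay ρ β L) (β := β) (fun q => z - V (Sum.inr q)) (Matrix.diagonal X) =
        Matrix.diagonal (fun q : Lay ρ β L => -(z - V (Sum.inr q) + ∑ a, X (q, a))⁻¹) := h1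
    refine (congrArg _ h2).trans ?_
    rw [treeB_diagonal hz L]
    · rfl
    · intro q
      exact (neg_inv_im_pos (den_pos hz _ _ fun a => hX _)).le

theorem sF_im {z : ℂ} (hz : 0 < z.im) : ∀ (L : ℕ) (V : Tr ρ β L → ℝ)
    (X : Lay ρ β L → ℂ), (∀ x, 0 ≤ (X x).im) → ∀ r, 0 ≤ (sF z L V X r).im
  | 0, V, X, hX, r => hX r
  | L + 1, V, X, hX, r =>
    sF_im hz L _ _ (fun q => (neg_inv_im_pos (den_pos hz _ _ fun a => hX _)).le) r

/-- sum over the leaves below the root `r` -/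
noncomputable def below {L : ℕ} (f : Lay ρ β L → ℂ) (r : ρ) : ℂ :=
  ∑ i, if rtL i = r then f i else 0

lemma sum_pick (f : ρ → ℂ) (r : ρ) : (∑ i, if i = r then f i else 0) = f r := by
  simp

lemma below_zero (f : Lay ρ β 0 → ℂ) (r : ρ) : below (L := 0) f r = f r :=
  sum_pick (ρ := ρ) f r

lemma below_succ {L : ℕ} (f : Lay ρ β (L + 1) → ℂ) (r : ρ) :
    below f r = below (fun q : Lay ρ β L => ∑ a, f (q, a)) r := by
  refine (Fintype.sum_prod_type (α₁ := Lay ρ β L) (α₂ := β)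
    (f := fun i => if rtL (l := L + 1) i = r then f i else 0)).trans ?_
  refine Finset.sum_congr rfl fun q _ => ?_
  show (∑ a, if rtL q = r then f (q, a) else 0) = if rtL q = r then ∑ a, f (q, a) else 0
  split_ifs
  · rfl
  · simp

lemma below_sub_mul {L : ℕ} (f g : Lay ρ β L → ℂ) (c : ℂ) (r : ρ) :
    ‖below f r - c * below g r‖ ≤ ∑ i, ‖f i - c * g i‖ := by
  rw [below, below, Finset.mul_sum, ← Finset.sum_sub_distrib]
  refine (norm_sum_le _ _).trans (Finset.sum_le_sum fun i _ => ?_)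
  split_ifs
  · exact le_rfl
  · simp

/-- **all inputs**: quadratic error in the coordinate `uu` -/
theorem U_bound (b : ℕ) (y0 : ℝ) (hy0 : 0 < y0) (hβ : Fintype.card β = b) : ∀ L : ℕ,
    ∃ C : ℝ, 0 ≤ C ∧ ∀ z m : ℂ, Adm b y0 z m → 0 < z.im → ∀ (σ : ℝ), 0 ≤ σ →
      ∀ V : Tr ρ β L → ℝ, (∀ x, |V x| ≤ σ) → ∀ X : Lay ρ β L → ℂ, (∀ x, 0 ≤ (X x).im) → ∀ r,
      ‖uu m (sF z L V X r) - m ^ (2 * L) * below (fun i => uu m (X i)) r‖ ≤
        C * (OFF (fun i => ‖uu m (X i)‖) + σ) := by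
  intro L
  induction L with
  | zero =>
    refine ⟨0, le_rfl, ?_⟩
    intro z m h hz σ hσ V hV X hX r
    rw [below_zero]
    simp [sF]
  | succ L ih =>
    obtain ⟨C, hC, ih⟩ := ih
    have hK3 := K3_pos hy0
    have hK2 := K2_pos hy0
    have hBB := BB_pos hy0
    have hK4 : 0 < K4 y0 := by unfold K4; positivity
    set N : ℝ := (Fintype.card (Lay ρ β L) : ℝ) with hN
    set A : ℝ := 1 + K3 y0 * (b * BB y0) with hA
    have hA1 : 1 ≤ A := by
      rw [hA]
      have : 0 ≤ K3 y0 * (b * BB y0) := by positivity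
      linarith
    set M : ℝ := A * (b * BB y0) * K4 y0 + K4 y0 * BB y0 with hM
    have hM0 : 0 ≤ M := by positivity
    refine ⟨C * A ^ 2 + C * (N ^ 2 * M + 1) + K3 y0 + N * K4 y0, by positivity, ?_⟩
    intro z m h hz σ hσ V hV X hX r
    set X' : Lay ρ β L → ℂ := fun q => -(z - V (Sum.inr q) + ∑ a, X (q, a))⁻¹ with hX'
    have hS : ∀ q : Lay ρ β L, 0 < (z - V (Sum.inr q) + ∑ a, X (q, a)).im := fun q =>
      den_pos hz _ _ fun a => hX _
    have hX'im : ∀ q, 0 ≤ (X' q).im := fun q => (neg_inv_im_pos (hS q)).le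
    set S : Lay ρ β L → ℝ := fun q => ∑ a, ‖uu m (X (q, a))‖ with hSdef
    have hS0 : ∀ q, 0 ≤ S q := fun q => Finset.sum_nonneg fun a _ => norm_nonneg _
    have hSB : ∀ q, S q ≤ b * BB y0 := by
      intro q
      have : S q ≤ ∑ a : β, BB y0 := Finset.sum_le_sum fun a _ => h.norm_uu_le (hX _)
      refine this.trans (le_of_eq ?_)
      rw [Finset.sum_const, Finset.card_univ, hβ, nsmul_eq_mul]
    set O : Lay ρ β L → ℝ := fun q => OFF (fun a => ‖uu m (X (q, a))‖) with hO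
    have hO0 : ∀ q, 0 ≤ O q := fun q => OFF_nonneg fun _ => norm_nonneg _
    have hOS : ∀ q, O q ≤ (b * BB y0) * S q := by
      intro q
      have h1 : O q ≤ S q ^ 2 := by
        rw [hO]
        simp only [OFF]
        have : 0 ≤ ∑ a, ‖uu m (X (q, a))‖ ^ 2 := Finset.sum_nonneg fun a _ => by positivity
        linarith
      have h2 := mul_le_mul_of_nonneg_right (hSB q) (hS0 q)
      linarith [pow_two (S q)]
    have hV' : ∀ q : Lay ρ β L, |V (Sum.inr q)| ≤ σ := fun q => hV _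
    have herr : ∀ q, ‖uu m (X' q) - m ^ 2 * ∑ a, uu m (X (q, a))‖ ≤ K3 y0 * O q + K4 y0 * σ := by
      intro q
      refine (one_step h hβ _ _ (fun a => hX _) (ne_zero_of_im (hS q))).trans ?_
      have := mul_le_mul_of_nonneg_left (hV' q) hK4.le
      show _ + _ ≤ K3 y0 * OFF (fun a => ‖uu m (X (q, a))‖) + _
      linarith
    have hu' : ∀ q, ‖uu m (X' q)‖ ≤ A * S q + K4 y0 * σ := by
      intro q
      have h1 := norm_add_le (uu m (X' q) - m ^ 2 * ∑ a, uu m (X (q, a)))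
        (m ^ 2 * ∑ a, uu m (X (q, a)))
      rw [sub_add_cancel] at h1
      have h2 : ‖m ^ 2 * ∑ a, uu m (X (q, a))‖ ≤ S q := by
        rw [norm_mul, norm_pow]
        have h3 := norm_sq_le_one h
        have h4 : ‖∑ a, uu m (X (q, a))‖ ≤ S q := norm_sum_le _ _
        have h5 := hS0 q
        nlinarith [norm_nonneg (∑ a, uu m (X (q, a)))]
      have h3 := herr q
      have h4 := mul_le_mul_of_nonneg_left (hOS q) hK3.le
      rw [hA]
      linarith
    have huB : ∀ q, ‖uu m (X' q)‖ ≤ BB y0 := fun q => h.norm_uu_le (hX'im q)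
    have hOFF : OFF (fun q => ‖uu m (X' q)‖) ≤ A ^ 2 * OFF S + N ^ 2 * (M * σ) := by
      refine OFF_le hS0 ?_ (by positivity)
      intro q q' _
      have h1 := hu' q
      have h2 := hu' q'
      have h3 := huB q'
      have h4 := norm_nonneg (uu m (X' q'))
      have h5 := hS0 q
      have h6 := hS0 q'
      have h7 := hSB q
      calc ‖uu m (X' q)‖ * ‖uu m (X' q')‖ ≤ (A * S q + K4 y0 * σ) * ‖uu m (X' q')‖ :=
            mul_le_mul_of_nonneg_right h1 h4
        _ = A * S q * ‖uu m (X' q')‖ + K4 y0 * σ * ‖uu m (X' q')‖ := by ring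
        _ ≤ A * S q * (A * S q' + K4 y0 * σ) + K4 y0 * σ * BB y0 :=
            add_le_add (mul_le_mul_of_nonneg_left h2 (by positivity))
              (mul_le_mul_of_nonneg_left h3 (by positivity))
        _ = A ^ 2 * (S q * S q') + (A * K4 y0 * σ * S q + K4 y0 * σ * BB y0) := by ring
        _ ≤ A ^ 2 * (S q * S q') + (A * K4 y0 * σ * (b * BB y0) + K4 y0 * σ * BB y0) := by
            have := mul_le_mul_of_nonneg_left h7 (show 0 ≤ A * K4 y0 * σ by positivity)
            linarith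
        _ = A ^ 2 * (S q * S q') + M * σ := by rw [hM]; ring
    have hmain := ih z m h hz σ hσ (fun x => V (Sum.inl x)) (fun x => hV _) X' hX'im r
    have hsplit : OFF (fun i : Lay ρ β (L + 1) => ‖uu m (X i)‖) = OFF S + ∑ q, O q :=
      OFF_prod (κ := Lay ρ β L) (β := β) (fun i => ‖uu m (X i)‖)
    have hbel : ‖below (fun i => uu m (X' i)) r -
        m ^ 2 * below (fun q : Lay ρ β L => ∑ a, uu m (X (q, a))) r‖ ≤
        K3 y0 * ∑ q, O q + N * (K4 y0 * σ) := by
      refine (below_sub_mul _ _ _ _).trans ((Finset.sum_le_sum fun q _ => herr q).trans ?_)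
      rw [Finset.sum_add_distrib, ← Finset.mul_sum, Finset.sum_const, Finset.card_univ,
        nsmul_eq_mul]
    have hOS0 : 0 ≤ OFF S := OFF_nonneg hS0
    have hO00 : 0 ≤ ∑ q, O q := Finset.sum_nonneg fun q _ => hO0 q
    have hpow : ‖m ^ (2 * L)‖ ≤ 1 := by
      rw [norm_pow, pow_mul]
      exact pow_le_one₀ (by positivity) (norm_sq_le_one h)
    rw [below_succ, hsplit]
    show ‖uu m (sF z L (fun x => V (Sum.inl x)) X' r) - _‖ ≤ _
    have e1 : uu m (sF z L (fun x => V (Sum.inl x)) X' r) -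
        m ^ (2 * (L + 1)) * below (fun q : Lay ρ β L => ∑ a, uu m (X (q, a))) r =
        (uu m (sF z L (fun x => V (Sum.inl x)) X' r) -
          m ^ (2 * L) * below (fun i => uu m (X' i)) r) +
        m ^ (2 * L) * (below (fun i => uu m (X' i)) r -
          m ^ 2 * below (fun q : Lay ρ β L => ∑ a, uu m (X (q, a))) r) := by ring
    rw [e1]
    refine (norm_add_le _ _).trans ?_
    rw [norm_mul]
    have h1 : ‖m ^ (2 * L)‖ * ‖below (fun i => uu m (X' i)) r -
        m ^ 2 * below (fun q : Lay ρ β L => ∑ a, uu m (X (q, a))) r‖ ≤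
        1 * (K3 y0 * ∑ q, O q + N * (K4 y0 * σ)) :=
      mul_le_mul hpow hbel (norm_nonneg _) zero_le_one
    have h2 : C * (OFF (fun i => ‖uu m (X' i)‖) + σ) ≤
        C * (A ^ 2 * OFF S + N ^ 2 * (M * σ) + σ) :=
      mul_le_mul_of_nonneg_left (by linarith) hC
    have hN0 : 0 ≤ N := Nat.cast_nonneg _
    have t1 : 0 ≤ C * A ^ 2 * (∑ q, O q) := by positivity
    have t2 : 0 ≤ C * A ^ 2 * σ := by positivity
    have t3 : 0 ≤ C * (N ^ 2 * M + 1) * (OFF S + ∑ q, O q) := by positivity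
    have t4 : 0 ≤ K3 y0 * (OFF S + σ) := by positivity
    have t5 : 0 ≤ N * K4 y0 * (OFF S + ∑ q, O q) := by positivity
    nlinarith

end scalar

end Crest.Agent.R166.TreeU327
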