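import Crest.Agent.R166.ShapeP1_789
import Crest.Agent.R166.TreeU_327

/-!
# R166, section 30.4 (helper789): the scalar tree estimate `TEst` from 327's `U_bound`
-/

set_option autoImplicit false
set_option linter.unusedSectionVars false

open Matrix Finset

namespace Crest.Agent.R166.TEst789

open Crest.Agent.R166
open Crest.Agent.R166.SwP470 (BI NZ)
open Crest.Agent.R166.TreeT327 Crest.Agent.R166.Spec30
open Crest.Agent.R166.TreeF598 Crest.Agent.R166.Shape395 Crest.Agent.R166.ShapeP1789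
open Crest.Agent.R166.TreeDet350 (uu Adm)
open Crest.Agent.R166.MuU395 (y00 y00_pos adm_of)

section

variable {ρ β : Type} [Fintype ρ] [DecidableEq ρ] [Fintype β] [DecidableEq β]

theorem sF_eq (z : ℂ) : ∀ (L : ℕ) (V : Tr ρ β L → ℝ) (X : Lay ρ β L → ℂ),
    TreeU327.sF z L V X = treeF z L V X
  | 0, _, _ => rfl
  | L + 1, V, X => by
    rw [treeF_succ]
    exact sF_eq z L _ _

end

variable {d : ℕ} [NeZero d]

lemma card_NZ' : Fintype.card (NZ d) = d - 1 := by
  have h : Fintype.card (NZ d) = Fintype.card {k : Fin d // k ≠ 0} := Fintype.card_congr (Equiv.refl _)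
  rw [h, Fintype.card_subtype_compl]
  simp

lemma below_eq (L : ℕ) (f : BI d L → ℂ) (r : Bool) :
    TreeU327.below (ρ := Bool) (β := NZ d) (L := L) (fun q => f ((layE L).symm q)) r =
      ∑ i ∈ Iside L r, f i := by
  unfold TreeU327.below Iside
  rw [← Equiv.sum_comp (layE (ρ := Bool) (β := NZ d) L), Finset.sum_filter]
  refine Finset.sum_congr rfl fun i _ => ?_
  dsimp only
  rw [rtL_layE, Equiv.symm_apply_apply]

lemma OFF_eq' (L : ℕ) (f : BI d L → ℝ) :
    TreeU327.OFF (fun q : Lay Bool (NZ d) L => f ((layE L).symm q)) =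
      ∑ p ∈ (univ : Finset (BI d L)).offDiag, f p.1 * f p.2 := by
  rw [← TreeU327.OFF_eq]
  unfold TreeU327.OFF
  rw [← Equiv.sum_comp (layE (ρ := Bool) (β := NZ d) L),
    ← Equiv.sum_comp (layE (ρ := Bool) (β := NZ d) L) (fun q => f ((layE L).symm q) ^ 2)]
  simp only [Equiv.symm_apply_apply]

/-- **the scalar tree estimate at every depth** -/
theorem tEst (hd : 3 ≤ d) {A : ℝ} (hA : A ^ 2 < 4 * ((d : ℝ) - 1)) (L : ℕ) :
    ∃ CLt : ℝ, 0 ≤ CLt ∧ TEst d L A CLt := by
  obtain ⟨C, hC, h⟩ := TreeU327.U_bound (ρ := Bool) (β := NZ d) (d - 1) (y00 d A)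
    (y00_pos (by omega) hA) card_NZ' L
  refine ⟨C, hC, ?_⟩
  intro E s η hE hs hη hη1 V hV r
  have hzi : (ze E η).im = η := by simp [ze]
  have hz : 0 < (ze E η).im := by rw [hzi]; exact hη
  have hAdm := adm_of hd hA hE hη hη1
  refine ⟨fun x hx => treeF_im_pos hz L V (fun q => hx _) r, fun x hx => ?_⟩
  have key := h (ze E η) (mc d (ze E η)) hAdm hz |s| (abs_nonneg s) V hV
    (x ∘ (layE L).symm) (fun q => (hx _).le) r
  rw [sF_eq] at key
  have e1 := below_eq L (fun i => uu (mc d (ze E η)) (x i)) r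
  have e2 := OFF_eq' L (fun i => ‖uu (mc d (ze E η)) (x i)‖)
  simp only [Function.comp_apply] at key
  rw [e1, e2] at key
  exact key

end Crest.Agent.R166.TEst789
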