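import Crest.Agent.R166.ShapeP_598
import Crest.Agent.R166.ShapeP1_789
import Crest.Agent.R166.TEst_789
import Crest.Agent.R166.H2_269
import Crest.Agent.R166.StepA_395
import Crest.Agent.R166.Spec31_501
import Crest.Agent.R166.ThmA_383

/-!
# Row 166, section 30.4 (helper395): final instantiation of `StepIn`, `StepA`, `StepL`, `ThmA`
(`3 ≤ d`, clean case).
-/

set_option autoImplicit false

open Finset

namespace Crest.Agent.R166.StepFin395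

open Crest.Agent.R166 Stab269 Rev811 Spec30 SwP470 MuU395 H1P395 StepA395 Shape395

variable {d : ℕ} [NeZero d]

/-- tree estimates, all depths -/
def TAll (d : ℕ) [NeZero d] : Prop :=
  ∀ A : ℝ, A ^ 2 < 4 * ((d : ℝ) - 1) → ∀ L : ℕ, ∃ CLt : ℝ, 0 ≤ CLt ∧ ShapeP1789.TEst d L A CLt

/-- the H2 input -/
def H2All (d : ℕ) [NeZero d] : Prop :=
  ∀ A rs ε C1 C0 CL0 : ℝ, A ^ 2 < 4 * ((d : ℝ) - 1) → 0 < rs → rs ≤ 1 / 16 → 0 < ε → 0 ≤ C1 →
    0 ≤ C0 → 0 ≤ CL0 → SMP d A rs ε C1 → S0P d 1 A rs ε C0 CL0 →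
      ∃ Cm : ℝ, 0 ≤ Cm ∧ H2P d A rs Cm (fun _ s ω z p => H4.gm 1 rs s ω z p)

theorem S0P_mono {L : ℕ} {A rs ε C C' CL CL' : ℝ} (hrs : 0 ≤ rs) (hC : C ≤ C') (hCL : CL ≤ CL')
    (h : S0P d L A rs ε C CL) : S0P d L A rs ε C' CL' := by
  intro n E s η ω hR p hp h0 b hb hA
  refine (h n E s η ω hR p hp h0 b hb hA).trans ?_
  have hD : ∀ x : HE n d, 0 ≤ SpecA.Dv rs p s ω (ze E η) x := fun x => by
    rw [dv_eq]; exact dv_nonneg hrs
  have h1 : 0 ≤ ‖mc d (ze E η) ^ (2 * L) * ∑ i ∈ Iside L false, yP p s ω (ze E η) (b i)‖ +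
          ‖mc d (ze E η) ^ (2 * L) * ∑ i ∈ Iside L true, yP p s ω (ze E η) (b i)‖ := by
    positivity
  have h2 : 0 ≤ ‖mc d (ze E η)‖ ^ (2 * L) * (∑ i, SpecA.Dv rs p s ω (ze E η) (b i) ^ 2) := by
    positivity
  have h3 : 0 ≤ (∑ jk ∈ (Finset.univ : Finset (BI d L)).offDiag,
            SpecA.Dv rs p s ω (ze E η) (b jk.1) * SpecA.Dv rs p s ω (ze E η) (b jk.2)) + |s| +
          cEs L p s ω (ze E η) h0 ∅ b := by
    have := ShapeP598.cEs_nonneg L p s ω (ze E η) h0 ∅ b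
    have h4 : 0 ≤ ∑ jk ∈ (Finset.univ : Finset (BI d L)).offDiag,
            SpecA.Dv rs p s ω (ze E η) (b jk.1) * SpecA.Dv rs p s ω (ze E η) (b jk.2) :=
      Finset.sum_nonneg fun _ _ => mul_nonneg (hD _) (hD _)
    have := abs_nonneg s
    linarith
  have k1 := mul_le_mul_of_nonneg_right hC h1
  have k2 := mul_le_mul_of_nonneg_right hC h2
  have k3 := mul_le_mul_of_nonneg_right hCL h3
  rw [mul_assoc C, mul_assoc C']
  linarith

theorem S1P_mono {L : ℕ} {A rs ε C C' CL CL' : ℝ} (hrs : 0 ≤ rs) (hC : C ≤ C') (hCL : CL ≤ CL')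
    (h : S1P d L A rs ε C CL) : S1P d L A rs ε C' CL' := by
  intro n E s η ω hR p hp h0 b hb i hA
  refine (h n E s η ω hR p hp h0 b hb i hA).trans ?_
  have hD : ∀ x : HE n d, 0 ≤ SpecA.Dv rs p s ω (ze E η) x := fun x => by
    rw [dv_eq]; exact dv_nonneg hrs
  have h1 : 0 ≤ ‖mc d (ze E η)‖ ^ (2 * L) := by positivity
  have h3 : 0 ≤ (∑ j ∈ ({i} : Finset (BI d L))ᶜ, SpecA.Dv rs p s ω (ze E η) (b j)) + |s| +
          cEs L p s ω (ze E η) h0 {i} b := by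
    have := ShapeP598.cEs_nonneg L p s ω (ze E η) h0 {i} b
    have h4 : 0 ≤ ∑ j ∈ ({i} : Finset (BI d L))ᶜ, SpecA.Dv rs p s ω (ze E η) (b j) :=
      Finset.sum_nonneg fun _ _ => hD _
    have := abs_nonneg s
    linarith
  have k1 := mul_le_mul_of_nonneg_right hC h1
  have k3 := mul_le_mul_of_nonneg_right hCL h3
  linarith

theorem goodC {A rs : ℝ} (hd : 3 ≤ d) (hA : A ^ 2 < 4 * ((d : ℝ) - 1)) (hrs : GoodE789.RsOK d A rs) :
    ShapeP598.GoodC d A rs (y00 d A / 8) := by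
  intro n E s η ω hR p hp x hx y
  exact GoodE789.qf_ge hd hA hrs hp hR.E hR.η0 hR.η1 (not_le.1 hx) y

/-- **the analytic inputs** from the tree estimates and (H2) -/
theorem stepIn_of (hd : 3 ≤ d) (hT : TAll d) (hH : H2All d) : StepIn d := by
  intro A hA0 hA
  set y0 := y00 d A with hy0
  have hy : 0 < y0 := y00_pos (by omega) hA
  have hy1 : y0 ≤ 1 := GoodE789.y00_le_one hd hA
  set rs : ℝ := y0 / 800 with hrs
  have hrs0 : 0 < rs := by rw [hrs]; positivity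
  have hR : GoodE789.RsOK d A rs := GoodE789.rsOK_self hd hA
  have hG := goodC hd hA hR
  have hC2 : 0 ≤ C2 y0 (1 / (y0 / 2)) := by unfold C2; positivity
  have hBB := TreeDet350.BB_pos hy
  have hc : 0 < y0 / 8 := by positivity
  have hrs1 : rs ≤ 1 := by rw [hrs]; linarith
  have hrs8 : rs ≤ y0 / 8 := by rw [hrs]; linarith
  obtain ⟨CLt1, h1a, h1b⟩ := hT A hA 1
  obtain ⟨C1, hC1, hSM⟩ := ShapeP598.sMP hd hA hrs0 hrs1 hrs8 hc hG h1a h1b 1
  have hS01 := ShapeP598.s0P hd hA hrs0 hrs1 hrs8 hc hG (L := 0) h1a h1b 1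
  have hCN := ShapeP598.CN_pos (c := y0 / 8) hy hc
  have hCL0 : 0 ≤ 8 * CLt1 * (C3 y0 rs (1 / (y0 / 2)) ^ 2 + 1) + 2 * ShapeP598.CN y0 (y0 / 8) := by
    positivity
  obtain ⟨Cm, hCm, hH2⟩ := hH A rs 1 C1 _ _ hA hrs0 (by rw [hrs]; linarith) one_pos hC1
    (by positivity) hCL0 hSM hS01
  refine ⟨rs, max (4 + 8 * C2 y0 (1 / (y0 / 2))) (8 * TreeDet350.BB y0), Cm, hrs0,
    by rw [hrs]; linarith, le_trans (by positivity) (le_max_left _ _), hCm, ?_, hH2⟩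
  intro L hL
  obtain ⟨L', rfl⟩ : ∃ L', L = L' + 1 := ⟨L - 1, by omega⟩
  obtain ⟨CLt, ha, hb⟩ := hT A hA (L' + 1)
  have hS0 := ShapeP598.s0P hd hA hrs0 hrs1 hrs8 hc hG (L := L') ha hb 1
  have hS1 := ShapeP1789.s1P_of (L := L') 1 hd hA hR ha hb
  refine ⟨1, max (8 * CLt * (C3 y0 rs (1 / (y0 / 2)) ^ 2 + 1) + 2 * ShapeP598.CN y0 (y0 / 8))
    (ShapeP1789.CL1 d (L' + 1) y0 rs CLt), one_pos, le_trans (by positivity) (le_max_left _ _),
    S0P_mono hrs0.le (le_max_left _ _) (le_max_left _ _) hS0,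
    S1P_mono hrs0.le (le_max_right _ _) (le_max_right _ _) hS1⟩

/-- 501's form of the one-step structure -/
theorem stepL_of (h : StepC d) : Spec31.StepL d := by
  intro A hA0 hA
  obtain ⟨rs, c, h1, h2, h3, L0, _, h4⟩ := h A hA0 hA
  refine ⟨rs, c, 1, h1, h2, h3, one_pos, L0, fun L hL => ?_⟩
  obtain ⟨C, hC, hn⟩ := h4 L hL
  refine ⟨C, hC, fun n hn0 => ?_⟩
  obtain ⟨k1, k2, k3⟩ := hn n hn0
  exact ⟨fun p => errL L p, k1, k2, k3⟩

theorem tAll (hd : 3 ≤ d) : TAll d := fun _ hA => TEst789.tEst hd hA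

theorem h2All (hd : 3 ≤ d) : H2All d := by
  intro A rs ε C1 C0 CL0 hA hrs hrs1 hε hC1 hC0 hCL0 hSM hS0
  obtain ⟨C, hC, h⟩ := H2.h2P hd hA hrs (hrs1.trans (by norm_num)) hε (by norm_num : (0 : ℝ) ≤ 14)
    (H2.goodM hd hA hrs1) hC0 hCL0 hS0 hC1 hSM
  exact ⟨C, hC.le, h⟩

theorem stepIn (hd : 3 ≤ d) : StepIn d := stepIn_of hd (tAll hd) (h2All hd)

/-- the concrete one-step structure, all large depths -/
theorem stepC (hd : 3 ≤ d) : StepC d := stepC_of hd (stepIn hd)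

/-- 501's `StepL` -/
theorem stepL (hd : 3 ≤ d) : Spec31.StepL d := stepL_of (stepC hd)

/-- **(30.4)**: `StepA` -/
theorem stepA (hd : 3 ≤ d) : SpecA.StepA d := stepA_of hd (stepIn hd)

/-- **Theorem A** (clean case and `|s| ≤ 1`), `3 ≤ d` -/
theorem thmA (hd : 3 ≤ d) : SpecA.ThmA d := ThmA383.thmA_of_step d (stepA hd)

end Crest.Agent.R166.StepFin395
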