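import Crest.Agent.R166.Master_423
import Crest.Agent.R166.GoeInv_93
import Crest.Agent.R166.EnvDet_536
import Crest.Agent.R166.CleanOut4_501
import Crest.Agent.R166.StepFin_395
import Crest.Agent.R166.Quad_566
import Crest.Agent.R166.S2PFin_811

/-!
Row 166, audit (helper811): landed theorems applied to the Props of `Master_423`:
`InvO`, `StmtEnv`, `Stmt31`.
-/

set_option autoImplicit false

namespace Crest.Agent.R166.Audit811

open Crest.ProbabilityR.RandomMatrix Crest.Agent.R166

theorem invO : InvO := GoeInv93.invO Goe583.imLimO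

theorem stmtEnv : Master423.StmtEnv := fun d s E hd _ => Env536.envDet d (by omega) s E

/-- the outputs at `s = 0` -/
theorem stmt31 : Master423.Stmt31 := by
  intro d E hd hE
  haveI : NeZero d := ⟨by omega⟩
  have hA : SpecA.ThmA d := StepFin395.thmA hd
  obtain ⟨L, _, hL⟩ := Clean566.uniEscTL hd hE (StepFin395.stepL hd) (S2P811.s2p hd) hA
  have hU : Out501.UIp d E := by
    refine Out501.uip_of_uniEsc (L := L + 1) ?_ hL
    intro n p hp v he
    exact Out501.excTL_EL (by omega) L hp ⟨⟨0, by omega⟩, he _⟩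
  obtain ⟨h1, h2, h3, h4, h5, h6⟩ := Out501.clean_outputs hd hE
    (BlkLaw355.out_blkLaw0 hd hA hE) hU
  exact ⟨h1, h2, h3, h5, h4, h6⟩

end Crest.Agent.R166.Audit811
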