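import Mathlib

/-!
# Row 166, unitary groups: Takagi for symmetric unitaries, KAK, and generation of `SU(n)`

* `exists_orthogonal_diag` : simultaneous orthogonal diagonalisation of two commuting real
  symmetric matrices.
* `takagi` : every symmetric unitary is `O δ Oᵀ`, `O` real orthogonal, `δ` diagonal unimodular.
* `kak`    : every unitary is `O₁ δ O₂`.
* `gen`    : a subgroup of `U(n)` containing all real orthogonal matrices and one `κ` which is not
  a scalar times a real orthogonal matrix contains every unitary of determinant one.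
-/

set_option autoImplicit false

noncomputable section

namespace Crest.Agent.R166.Gen85

open Matrix

variable {n : Type*} [Fintype n] [DecidableEq n]

/-- complexification of a real matrix. -/
def toC {m k : Type*} (A : Matrix m k ℝ) : Matrix m k ℂ := A.map Complex.ofReal

omit [Fintype n] [DecidableEq n] in
@[simp] lemma toC_apply {m k : Type*} (A : Matrix m k ℝ) (i : m) (j : k) :
    toC A i j = (A i j : ℂ) := rfl

omit [DecidableEq n] in
lemma toC_mul {m k : Type*} (A : Matrix m n ℝ) (B : Matrix n k ℝ) :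
    toC (A * B) = toC A * toC B := by
  ext i j; simp [Matrix.mul_apply, toC]

@[simp] lemma toC_one : toC (1 : Matrix n n ℝ) = 1 := by
  ext i j; by_cases h : i = j <;> simp [toC, Matrix.one_apply, h]

omit [Fintype n] [DecidableEq n] in
lemma toC_transpose {m k : Type*} (A : Matrix m k ℝ) : toC Aᵀ = (toC A)ᵀ := rfl

omit [Fintype n] [DecidableEq n] in
lemma toC_conjTranspose {m k : Type*} (A : Matrix m k ℝ) : (toC A)ᴴ = toC Aᵀ := by
  ext i j; simp [toC]

lemma toC_mem {O : Matrix n n ℝ} (hO : O ∈ orthogonalGroup n ℝ) : toC O ∈ unitaryGroup n ℂ := by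
  rw [mem_unitaryGroup_iff, star_eq_conjTranspose, toC_conjTranspose, ← toC_mul]
  have := (mem_orthogonalGroup_iff n ℝ).mp hO
  rw [this, toC_one]

/-- Simultaneous orthogonal diagonalisation. -/
theorem exists_orthogonal_diag (A B : Matrix n n ℝ) (hA : A.IsHermitian) (hB : B.IsHermitian)
    (hAB : A * B = B * A) :
    ∃ O ∈ orthogonalGroup n ℝ, ∃ α β : n → ℝ,
      A * O = O * diagonal α ∧ B * O = O * diagonal β := by
  classical
  set TA : EuclideanSpace ℝ n →ₗ[ℝ] EuclideanSpace ℝ n := Matrix.toEuclideanLin A with hTA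
  set TB : EuclideanSpace ℝ n →ₗ[ℝ] EuclideanSpace ℝ n := Matrix.toEuclideanLin B with hTB
  have hsA : TA.IsSymmetric := Matrix.isSymmetric_toEuclideanLin_iff.mpr hA
  have hsB : TB.IsSymmetric := Matrix.isSymmetric_toEuclideanLin_iff.mpr hB
  have hc : Commute TA TB := by
    refine LinearMap.ext fun x => ?_
    simp only [Module.End.mul_apply, hTA, hTB, Matrix.toLpLin_apply, Matrix.mulVec_mulVec, hAB]
  have hint := LinearMap.IsSymmetric.directSum_isInternal_of_commute hsA hsB hc
  have horth := LinearMap.IsSymmetric.orthogonalFamily_eigenspace_inf_eigenspace hsA hsB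
  set V : ℝ × ℝ → Submodule ℝ (EuclideanSpace ℝ n) := fun i =>
    (Module.End.eigenspace TA i.2 ⊓ Module.End.eigenspace TB i.1) with hV
  have hint' := DirectSum.isInternal_ne_bot_iff.mpr hint
  have hfin : Finite {i // V i ≠ ⊥} :=
    (WellFoundedGT.finite_ne_bot_of_iSupIndep hint.submodule_iSupIndep).to_subtype
  have := Fintype.ofFinite {i // V i ≠ ⊥}
  have hn : Module.finrank ℝ (EuclideanSpace ℝ n) = Fintype.card n := by simp
  have horth' : OrthogonalFamily ℝ (fun i : {i // V i ≠ ⊥} => V i.1)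
      fun i => (V i.1).subtypeₗᵢ := horth.comp Subtype.val_injective
  set b := (hint'.subordinateOrthonormalBasis hn horth').reindex (Fintype.equivFin n).symm with hb
  have hmem : ∀ j : n, b j ∈ V (hint'.subordinateOrthonormalBasisIndex hn
      ((Fintype.equivFin n) j) horth').1 := by
    intro j
    rw [hb, OrthonormalBasis.reindex_apply]
    exact hint'.subordinateOrthonormalBasis_subordinate hn _ horth'
  set p : n → ℝ × ℝ := fun j => (hint'.subordinateOrthonormalBasisIndex hn
      ((Fintype.equivFin n) j) horth').1 with hp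
  refine ⟨Matrix.of fun i j => b j i, ?_, fun j => (p j).2, fun j => (p j).1, ?_, ?_⟩
  · rw [mem_orthogonalGroup_iff']
    ext i j
    have h1 := orthonormal_iff_ite.mp b.orthonormal i j
    rw [Matrix.mul_apply, Matrix.one_apply, ← h1, PiLp.inner_apply]
    refine Finset.sum_congr rfl fun k _ => ?_
    simp [mul_comm]
  · ext i j
    have h1 := (Submodule.mem_inf.mp (hmem j)).1
    rw [Module.End.mem_eigenspace_iff] at h1
    have h2 := congrArg (fun v => v i) h1
    simp only [hTA] at h2
    rw [Matrix.mul_diagonal]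
    simp [Matrix.toLpLin_apply, Matrix.mulVec, dotProduct] at h2
    simp [Matrix.mul_apply, h2, mul_comm]
    exact Or.inl rfl
  · ext i j
    have h1 := (Submodule.mem_inf.mp (hmem j)).2
    rw [Module.End.mem_eigenspace_iff] at h1
    have h2 := congrArg (fun v => v i) h1
    simp only [hTB] at h2
    rw [Matrix.mul_diagonal]
    simp [Matrix.toLpLin_apply, Matrix.mulVec, dotProduct] at h2
    simp [Matrix.mul_apply, h2, mul_comm]
    exact Or.inl rfl

/-! ### Takagi for symmetric unitaries, KAK -/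

omit [Fintype n] in
lemma toC_diagonal (α : n → ℝ) : toC (diagonal α) = diagonal (fun i => (α i : ℂ)) := by
  ext i j
  by_cases h : i = j
  · subst h; simp
  · simp [h]

lemma norm_diag_of_unitary {δ : n → ℂ} (h : diagonal δ ∈ unitaryGroup n ℂ) (i : n) :
    ‖δ i‖ = 1 := by
  rw [mem_unitaryGroup_iff, star_eq_conjTranspose, diagonal_conjTranspose,
    diagonal_mul_diagonal] at h
  have h1 := congrFun (congrFun h i) i
  simp only [diagonal_apply_eq, one_apply_eq, Pi.star_apply, RCLike.star_def] at h1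
  rw [Complex.mul_conj, Complex.normSq_eq_norm_sq] at h1
  have h2 : ‖δ i‖ ^ 2 = 1 := by exact_mod_cast h1
  nlinarith [norm_nonneg (δ i)]

lemma diag_unitary {δ : n → ℂ} (h : ∀ i, ‖δ i‖ = 1) : diagonal δ ∈ unitaryGroup n ℂ := by
  rw [mem_unitaryGroup_iff, star_eq_conjTranspose, diagonal_conjTranspose,
    diagonal_mul_diagonal, ← diagonal_one]
  congr 1
  ext i
  simp only [Pi.star_apply, RCLike.star_def]
  rw [Complex.mul_conj, Complex.normSq_eq_norm_sq, h i]
  simp

lemma orth_mul {O : Matrix n n ℝ} (hO : O ∈ orthogonalGroup n ℝ) : O * Oᵀ = 1 :=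
  (mem_orthogonalGroup_iff n ℝ).mp hO

lemma orth_mul' {O : Matrix n n ℝ} (hO : O ∈ orthogonalGroup n ℝ) : Oᵀ * O = 1 :=
  (mem_orthogonalGroup_iff' n ℝ).mp hO

lemma orth_transpose {O : Matrix n n ℝ} (hO : O ∈ orthogonalGroup n ℝ) :
    Oᵀ ∈ orthogonalGroup n ℝ := by
  rw [mem_orthogonalGroup_iff]
  simpa using orth_mul' hO

lemma toC_orth {O : Matrix n n ℝ} (hO : O ∈ orthogonalGroup n ℝ) : toC O * (toC O)ᵀ = 1 := by
  rw [← toC_transpose, ← toC_mul, orth_mul hO, toC_one]

lemma toC_orth' {O : Matrix n n ℝ} (hO : O ∈ orthogonalGroup n ℝ) : (toC O)ᵀ * toC O = 1 := by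
  rw [← toC_transpose, ← toC_mul, orth_mul' hO, toC_one]

/-- **Takagi** factorisation of a symmetric unitary. -/
theorem takagi {U : Matrix n n ℂ} (hU : U ∈ unitaryGroup n ℂ) (hs : Uᵀ = U) :
    ∃ O ∈ orthogonalGroup n ℝ, ∃ δ : n → ℂ, (∀ i, ‖δ i‖ = 1) ∧
      U = toC O * diagonal δ * (toC O)ᵀ := by
  set A : Matrix n n ℝ := U.map Complex.re with hA
  set B : Matrix n n ℝ := U.map Complex.im with hB
  have hsij : ∀ i j, U j i = U i j := fun i j => by
    conv_rhs => rw [← hs]
    rfl
  have hAs : A.IsHermitian := by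
    ext i j; simp [hA, hsij]
  have hBs : B.IsHermitian := by
    ext i j; simp [hB, hsij]
  have hUU := mem_unitaryGroup_iff.mp hU
  have hAB : A * B = B * A := by
    ext i j
    have h1 := congrFun (congrFun hUU i) j
    rw [Matrix.mul_apply] at h1
    have h2 := congrArg Complex.im h1
    have h3 : ((1 : Matrix n n ℂ) i j).im = 0 := by
      rw [Matrix.one_apply]; split_ifs <;> simp
    rw [h3, Complex.im_sum] at h2
    rw [Matrix.mul_apply, Matrix.mul_apply]
    have h4 : ∀ k, (U i k * (star U) k j).im = B i k * A k j - A i k * B k j := by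
      intro k
      simp [star_eq_conjTranspose, hA, hB, hsij k j]
      ring
    simp_rw [h4, Finset.sum_sub_distrib] at h2
    linarith
  obtain ⟨O, hO, α, β, h1, h2⟩ := exists_orthogonal_diag A B hAs hBs hAB
  have hUd : U = toC O * diagonal (fun i => (α i : ℂ) + (β i : ℂ) * Complex.I) * (toC O)ᵀ := by
    have e1 : U = toC A + Complex.I • toC B := by
      ext i j
      simp [hA, hB, mul_comm, Complex.re_add_im]
      rw [mul_comm, Complex.re_add_im]
    have e2 : A = O * diagonal α * Oᵀ := by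
      rw [← h1, Matrix.mul_assoc, orth_mul hO, Matrix.mul_one]
    have e3 : B = O * diagonal β * Oᵀ := by
      rw [← h2, Matrix.mul_assoc, orth_mul hO, Matrix.mul_one]
    have e4 : diagonal (fun i => (α i : ℂ) + (β i : ℂ) * Complex.I) =
        toC (diagonal α) + Complex.I • toC (diagonal β) := by
      rw [toC_diagonal, toC_diagonal, ← diagonal_smul, diagonal_add]
      congr 1
      ext i
      simp [mul_comm]
    rw [e4, e1, e2, e3]
    simp only [toC_mul, toC_transpose, Matrix.mul_add, Matrix.add_mul, Matrix.mul_smul,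
      Matrix.smul_mul]
  refine ⟨O, hO, _, fun i => ?_, hUd⟩
  have h5 : diagonal (fun i => (α i : ℂ) + (β i : ℂ) * Complex.I) = (toC O)ᵀ * U * toC O := by
    rw [hUd]
    calc diagonal (fun i => (α i : ℂ) + (β i : ℂ) * Complex.I)
        = 1 * diagonal (fun i => (α i : ℂ) + (β i : ℂ) * Complex.I) * 1 := by simp
      _ = _ := by
        rw [← toC_orth' hO]; simp only [Matrix.mul_assoc]
  have h6 : diagonal (fun i => (α i : ℂ) + (β i : ℂ) * Complex.I) ∈ unitaryGroup n ℂ := by
    rw [h5]
    exact mul_mem (mul_mem (by rw [← toC_transpose]; exact toC_mem (orth_transpose hO)) hU)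
      (toC_mem hO)
  exact norm_diag_of_unitary h6 i

/-- **KAK**. -/
theorem kak {V : Matrix n n ℂ} (hV : V ∈ unitaryGroup n ℂ) :
    ∃ O₁ ∈ orthogonalGroup n ℝ, ∃ O₂ ∈ orthogonalGroup n ℝ, ∃ ε : n → ℂ, (∀ i, ‖ε i‖ = 1) ∧
      V = toC O₁ * diagonal ε * toC O₂ := by
  have hVt : Vᵀ ∈ unitaryGroup n ℂ := by
    have ht : (Vᵀ)ᴴ = (Vᴴ)ᵀ := by ext i j; simp
    rw [mem_unitaryGroup_iff, star_eq_conjTranspose, ht]
    have h := mem_unitaryGroup_iff'.mp hV
    rw [star_eq_conjTranspose] at h
    rw [← Matrix.transpose_mul, h, Matrix.transpose_one]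
  obtain ⟨O, hO, δ, hδ, hW⟩ := takagi (mul_mem hV hVt) (by simp)
  have hsq : ∀ i, ∃ e : ℂ, e ^ 2 = δ i := fun i => IsAlgClosed.exists_pow_nat_eq (δ i) (by norm_num)
  choose e he using hsq
  have hen : ∀ i, ‖e i‖ = 1 := fun i => by
    have h1 : ‖e i‖ ^ 2 = 1 := by rw [← norm_pow, he i, hδ i]
    nlinarith [norm_nonneg (e i)]
  have hee : ∀ i, (star (e i)) * e i = 1 := fun i => by
    rw [mul_comm, RCLike.star_def, Complex.mul_conj, Complex.normSq_eq_norm_sq, hen i]; simp
  set K : Matrix n n ℂ := diagonal (fun i => star (e i)) * (toC O)ᵀ * V with hK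
  have hKu : K ∈ unitaryGroup n ℂ := by
    refine mul_mem (mul_mem (diag_unitary fun i => by rw [norm_star]; exact hen i) ?_) hV
    rw [← toC_transpose]; exact toC_mem (orth_transpose hO)
  have hKK : K * Kᵀ = 1 := by
    have e1 : K * Kᵀ = diagonal (fun i => star (e i)) * (toC O)ᵀ * (V * Vᵀ) * toC O *
        diagonal (fun i => star (e i)) := by
      rw [hK]; simp only [Matrix.transpose_mul, Matrix.transpose_transpose, diagonal_transpose,
        Matrix.mul_assoc]
    rw [e1, hW]
    calc _ = diagonal (fun i => star (e i)) * ((toC O)ᵀ * toC O) * diagonal δ *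
          ((toC O)ᵀ * toC O) * diagonal (fun i => star (e i)) := by
            simp only [Matrix.mul_assoc]
      _ = 1 := by
        rw [toC_orth' hO, Matrix.mul_one, Matrix.mul_one, diagonal_mul_diagonal,
          diagonal_mul_diagonal, ← diagonal_one]
        congr 1
        ext i
        rw [← he i]
        have := hee i
        calc star (e i) * e i ^ 2 * star (e i) = (star (e i) * e i) * (star (e i) * e i) := by ring
          _ = 1 := by rw [this, one_mul]
  have hKr : ∀ i j, (K i j).im = 0 := by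
    have h1 : Kᴴ = Kᵀ := by
      have h2 := mem_unitaryGroup_iff'.mp hKu
      rw [star_eq_conjTranspose] at h2
      calc Kᴴ = Kᴴ * (K * Kᵀ) := by rw [hKK, Matrix.mul_one]
        _ = Kᵀ := by rw [← Matrix.mul_assoc, h2, Matrix.one_mul]
    intro i j
    have h3 := congrFun (congrFun h1 j) i
    simp only [conjTranspose_apply, transpose_apply, RCLike.star_def] at h3
    exact Complex.conj_eq_iff_im.mp h3
  set K' : Matrix n n ℝ := K.map Complex.re with hK'
  have hKK' : toC K' = K := by
    ext i j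
    apply Complex.ext <;> simp [hK', hKr]
  refine ⟨O, hO, K', ?_, e, hen, ?_⟩
  · rw [mem_orthogonalGroup_iff]
    have h4 : toC (K' * K'ᵀ) = toC 1 := by
      rw [toC_mul, toC_transpose, hKK', hKK, toC_one]
    ext i j
    have h5 := congrFun (congrFun h4 i) j
    rw [toC_apply, toC_apply] at h5
    exact_mod_cast h5
  · rw [hKK', hK]
    calc V = (toC O * (toC O)ᵀ) * V := by rw [toC_orth hO, Matrix.one_mul]
      _ = toC O * (diagonal e * diagonal (fun i => star (e i))) * (toC O)ᵀ * V := by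
        rw [diagonal_mul_diagonal]
        have : (fun i => e i * star (e i)) = fun _ => (1 : ℂ) := by
          ext i; rw [mul_comm]; exact hee i
        rw [this, diagonal_one, Matrix.mul_one]
      _ = _ := by simp only [Matrix.mul_assoc]

/-! ### Two-dimensional blocks -/

/-- the two coordinate columns `a, b`. -/
def PP (a b : n) : Matrix n (Fin 2) ℂ := fun i k => if i = ![a, b] k then 1 else 0

lemma PP_orth {a b : n} (hab : a ≠ b) : (PP a b)ᵀ * PP a b = 1 := by
  ext k l
  rw [Matrix.mul_apply]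
  simp only [transpose_apply, PP]
  have h1 : ∀ c : n, (∑ j, (if j = c then (1 : ℂ) else 0) * if j = c then 1 else 0) = 1 := by
    intro c
    rw [Finset.sum_eq_single c]
    · simp
    · intro j _ hj; simp [hj]
    · simp
  have h2 : ∀ c d : n, c ≠ d →
      (∑ j, (if j = c then (1 : ℂ) else 0) * if j = d then 1 else 0) = 0 := by
    intro c d hcd
    refine Finset.sum_eq_zero fun j _ => ?_
    by_cases hj : j = c
    · subst hj; simp [hcd]
    · simp [hj]
  rw [Matrix.one_apply]
  fin_cases k <;> fin_cases l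
  · rw [if_pos rfl]; exact h1 a
  · rw [if_neg (by decide)]; exact h2 a b hab
  · rw [if_neg (by decide)]; exact h2 b a hab.symm
  · rw [if_pos rfl]; exact h1 b

/-- the matrix acting by `M` on the plane `a, b` and trivially elsewhere. -/
def E2 (a b : n) (M : Matrix (Fin 2) (Fin 2) ℂ) : Matrix n n ℂ :=
  1 + PP a b * (M - 1) * (PP a b)ᵀ

lemma E2_mul {a b : n} (hab : a ≠ b) (M M' : Matrix (Fin 2) (Fin 2) ℂ) :
    E2 a b M * E2 a b M' = E2 a b (M * M') := by
  unfold E2
  have h := PP_orth hab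
  have h1 : PP a b * (M - 1) * (PP a b)ᵀ * (PP a b * (M' - 1) * (PP a b)ᵀ) =
      PP a b * ((M - 1) * (M' - 1)) * (PP a b)ᵀ := by
    calc _ = PP a b * (M - 1) * ((PP a b)ᵀ * PP a b) * (M' - 1) * (PP a b)ᵀ := by
          simp only [Matrix.mul_assoc]
      _ = _ := by rw [h]; simp only [Matrix.mul_assoc, Matrix.one_mul]
  rw [Matrix.add_mul, Matrix.one_mul, Matrix.mul_add, Matrix.mul_one, h1]
  have h2 : M * M' - 1 = (M - 1) + (M' - 1) + (M - 1) * (M' - 1) := by
    noncomm_ring
  rw [h2, Matrix.mul_add, Matrix.mul_add, Matrix.add_mul, Matrix.add_mul]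
  abel

lemma E2_one (a b : n) : E2 a b 1 = 1 := by unfold E2; simp

lemma E2_star (a b : n) (M : Matrix (Fin 2) (Fin 2) ℂ) : (E2 a b M)ᴴ = E2 a b Mᴴ := by
  have h : (PP a b)ᴴ = (PP a b)ᵀ := by
    ext k i; simp [PP]
  have h' : ((PP a b)ᵀ)ᴴ = PP a b := by
    ext k i; simp [PP]
  unfold E2
  rw [conjTranspose_add, conjTranspose_mul, conjTranspose_mul, h, h', conjTranspose_sub,
    conjTranspose_one, conjTranspose_one, Matrix.mul_assoc]

lemma E2_diag {a b : n} (hab : a ≠ b) (x y : ℂ) :
    E2 a b (diagonal ![x, y]) = diagonal (fun i => if i = a then x else if i = b then y else 1) := by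
  unfold E2
  ext i j
  rw [Matrix.add_apply, Matrix.mul_apply, Fin.sum_univ_two]
  simp only [Matrix.mul_apply, Fin.sum_univ_two, transpose_apply, PP, Matrix.sub_apply]
  by_cases hia : i = a
  · subst hia
    by_cases hij : i = j
    · subst hij; simp [hab]
    · have : ¬ j = i := fun h => hij h.symm
      simp [hij, this, hab]
  · by_cases hib : i = b
    · subst hib
      by_cases hij : i = j
      · subst hij; simp [hia]
      · have : ¬ j = i := fun h => hij h.symm
        simp [hij, this, hia]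
    · by_cases hij : i = j
      · subst hij; simp [hia, hib]
      · simp [hia, hib, hij]

/-- rotation by `t`. -/
def Rot (t : ℝ) : Matrix (Fin 2) (Fin 2) ℝ := !![Real.cos t, -Real.sin t; Real.sin t, Real.cos t]

lemma Rot_orth (t : ℝ) : Rot t * (Rot t)ᵀ = 1 := by
  have h := Real.sin_sq_add_cos_sq t
  ext i j
  fin_cases i <;> fin_cases j <;> simp [Rot, Matrix.mul_apply, Fin.sum_univ_two] <;> nlinarith

/-- the real plane block. -/
lemma E2_real {a b : n} (hab : a ≠ b) (R : Matrix (Fin 2) (Fin 2) ℝ) (hR : R * Rᵀ = 1) :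
    ∃ O ∈ orthogonalGroup n ℝ, toC O = E2 a b (toC R) := by
  set P : Matrix n (Fin 2) ℝ := fun i k => if i = ![a, b] k then 1 else 0 with hP
  have hPC : toC P = PP a b := by
    ext i k
    rw [toC_apply]
    simp only [hP, PP]
    split_ifs <;> simp
  refine ⟨1 + P * (R - 1) * Pᵀ, ?_, ?_⟩
  · rw [mem_orthogonalGroup_iff]
    have hE : toC ((1 + P * (R - 1) * Pᵀ) * (1 + P * (R - 1) * Pᵀ)ᵀ) = toC 1 := by
      have h1 : toC (1 + P * (R - 1) * Pᵀ) = E2 a b (toC R) := by
        unfold E2
        rw [← hPC, ← toC_transpose, ← toC_one (n := Fin 2)]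
        have : toC R - toC 1 = toC (R - 1) := by
          ext i j; rw [Matrix.sub_apply, toC_apply, toC_apply, toC_apply, Matrix.sub_apply]
          push_cast; rfl
        rw [this, ← toC_mul, ← toC_mul]
        ext i j
        by_cases h : i = j
        · subst h; simp
        · simp [h]
      have h2 : (E2 a b (toC R))ᵀ = E2 a b (toC R)ᵀ := by
        have h3 : (E2 a b (toC R))ᴴ = E2 a b (toC R)ᴴ := E2_star a b _
        rw [toC_conjTranspose, ← toC_transpose] at *
        rw [← h1, toC_conjTranspose, toC_transpose] at h3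
        rw [← h1, h3]
      rw [toC_mul, toC_transpose, h1, h2, E2_mul hab, ← toC_transpose, ← toC_mul, hR, toC_one,
        toC_one, E2_one]
    ext i j
    have h5 := congrFun (congrFun hE i) j
    rw [toC_apply, toC_apply] at h5
    exact_mod_cast h5
  · unfold E2
    rw [← hPC, ← toC_transpose, ← toC_one (n := Fin 2)]
    have : toC R - toC 1 = toC (R - 1) := by
      ext i j; rw [Matrix.sub_apply, toC_apply, toC_apply, toC_apply, Matrix.sub_apply]
      push_cast; rfl
    rw [this, ← toC_mul, ← toC_mul]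
    ext i j
    by_cases h : i = j
    · subst h; simp
    · simp [h]

/-- conjugation of a plane block by a diagonal matrix. -/
lemma diag_E2 {a b : n} (ε : n → ℂ) (hε : ∀ i, ‖ε i‖ = 1) (M : Matrix (Fin 2) (Fin 2) ℂ) :
    diagonal ε * E2 a b M * diagonal (fun i => star (ε i)) =
      E2 a b (diagonal ![ε a, ε b] * M * diagonal ![star (ε a), star (ε b)]) := by
  have hee : ∀ i, ε i * star (ε i) = 1 := fun i => by
    rw [RCLike.star_def, Complex.mul_conj, Complex.normSq_eq_norm_sq, hε i]; simp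
  have h1 : diagonal ε * PP a b = PP a b * diagonal ![ε a, ε b] := by
    ext i k
    rw [diagonal_mul, mul_diagonal]
    simp only [PP]
    fin_cases k
    · by_cases h : i = a <;> simp [h]
    · by_cases h : i = b <;> simp [h]
  have h2 : (PP a b)ᵀ * diagonal (fun i => star (ε i)) =
      diagonal ![star (ε a), star (ε b)] * (PP a b)ᵀ := by
    ext k i
    rw [diagonal_mul, mul_diagonal]
    simp only [PP, transpose_apply]
    fin_cases k
    · by_cases h : i = a <;> simp [h]
    · by_cases h : i = b <;> simp [h]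
  have h3 : diagonal ![ε a, ε b] * diagonal ![star (ε a), star (ε b)] = 1 := by
    rw [diagonal_mul_diagonal, ← diagonal_one]
    congr 1
    ext k
    fin_cases k
    · exact hee a
    · exact hee b
  unfold E2
  rw [Matrix.mul_add, Matrix.mul_one, Matrix.add_mul, diagonal_mul_diagonal]
  have h4 : (fun i => ε i * star (ε i)) = fun _ => (1 : ℂ) := by ext i; exact hee i
  rw [h4, diagonal_one]
  congr 1
  calc diagonal ε * (PP a b * (M - 1) * (PP a b)ᵀ) * diagonal (fun i => star (ε i))
      = (diagonal ε * PP a b) * (M - 1) * ((PP a b)ᵀ * diagonal (fun i => star (ε i))) := by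
        simp only [Matrix.mul_assoc]
    _ = PP a b * (diagonal ![ε a, ε b] * (M - 1) * diagonal ![star (ε a), star (ε b)]) *
          (PP a b)ᵀ := by
        rw [h1, h2]; simp only [Matrix.mul_assoc]
    _ = _ := by
        rw [Matrix.mul_sub, Matrix.mul_one, Matrix.sub_mul, h3]

lemma two_alg (cp sp cq sq cf sf ct x c s cθ sθ : ℝ)
    (a1 : cp * cq - sp * sq = cθ) (a2 : sp * cq + cp * sq = sθ) (a3 : cp * cq + sp * sq = 0)
    (a4 : sp * cq - cp * sq = -1) (hc1 : cf * cθ = ct) (hs1 : cf * sθ = c * x)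
    (hsx : s * x = sf) :
    (!![(cp : ℂ), -(sp : ℂ); (sp : ℂ), (cp : ℂ)] *
      !![(cf : ℂ) + sf * Complex.I, 0; 0, (cf : ℂ) - sf * Complex.I] *
      !![(cq : ℂ), -(sq : ℂ); (sq : ℂ), (cq : ℂ)] : Matrix (Fin 2) (Fin 2) ℂ) =
      !![(ct : ℂ), -((c : ℂ) + s * Complex.I) * x;
        ((c : ℂ) - s * Complex.I) * x, (ct : ℂ)] := by
  have b1 : (cp : ℂ) * cq - sp * sq = cθ := by exact_mod_cast a1
  have b2 : (sp : ℂ) * cq + cp * sq = sθ := by exact_mod_cast a2
  have b3 : (cp : ℂ) * cq + sp * sq = 0 := by exact_mod_cast a3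
  have b4 : (sp : ℂ) * cq - cp * sq = -1 := by exact_mod_cast a4
  have b5 : (cf : ℂ) * cθ = ct := by exact_mod_cast hc1
  have b6 : (cf : ℂ) * sθ = c * x := by exact_mod_cast hs1
  have b7 : (s : ℂ) * x = sf := by exact_mod_cast hsx
  rw [Matrix.mul_fin_two, Matrix.mul_fin_two]
  congr 1
  ext i j
  fin_cases i <;> fin_cases j <;> simp only [Fin.zero_eta, Fin.mk_one, Fin.isValue,
    Matrix.of_apply, Matrix.cons_val_zero, Matrix.cons_val_one, Matrix.cons_val_fin_one,
    Matrix.cons_val', Matrix.empty_val']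
  · linear_combination (cf : ℂ) * b1 + Complex.I * sf * b3 + b5
  · linear_combination -(cf : ℂ) * b2 + Complex.I * sf * b4 - b6 + Complex.I * b7
  · linear_combination (cf : ℂ) * b2 + Complex.I * sf * b4 + b6 + Complex.I * b7
  · linear_combination (cf : ℂ) * b1 - Complex.I * sf * b3 + b5

/-- the key `2 × 2` identity. -/
lemma two_by_two {c s φ : ℝ} (hcs : c ^ 2 + s ^ 2 = 1) (hs : s ≠ 0) (hφ : |Real.sin φ| ≤ |s|)
    (hφ' : 0 < Real.cos φ) :
    ∃ t p q : ℝ,
      toC (Rot p) * diagonal ![Complex.exp (φ * Complex.I), Complex.exp (-(φ * Complex.I))] *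
        toC (Rot q) =
      !![(Real.cos t : ℂ), -((c : ℂ) + s * Complex.I) * Real.sin t;
        ((c : ℂ) - s * Complex.I) * Real.sin t, (Real.cos t : ℂ)] := by
  set x := Real.sin φ / s with hx
  have hx1 : x ^ 2 ≤ 1 := by
    rw [hx, div_pow, div_le_one (by positivity)]
    exact sq_le_sq.mpr hφ
  have hxb : |x| ≤ 1 := by
    rw [← sq_le_one_iff_abs_le_one]; exact hx1
  set t := Real.arcsin x with ht
  have hsint : Real.sin t = x := Real.sin_arcsin (abs_le.mp hxb).1 (abs_le.mp hxb).2
  have hcost : Real.cos t ^ 2 = 1 - x ^ 2 := by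
    rw [← hsint]; linarith [Real.sin_sq_add_cos_sq t]
  have hsx : s * x = Real.sin φ := by rw [hx]; field_simp
  have hsc := Real.sin_sq_add_cos_sq φ
  -- the angle θ
  set z : ℂ := ⟨Real.cos t / Real.cos φ, c * x / Real.cos φ⟩ with hz
  have hzn : ‖z‖ = 1 := by
    have h1 : ‖z‖ ^ 2 = 1 := by
      rw [← Complex.normSq_eq_norm_sq, Complex.normSq_apply]
      simp only [hz]
      have h2 : Real.cos φ ≠ 0 := hφ'.ne'
      field_simp
      have h3 : (s * x) ^ 2 = Real.sin φ ^ 2 := by rw [hsx]
      nlinarith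
    nlinarith [norm_nonneg z]
  set θ := Complex.arg z with hθ
  have hz0 : z ≠ 0 := by
    intro h; rw [h] at hzn; simp at hzn
  have hcθ : Real.cos θ = Real.cos t / Real.cos φ := by
    rw [hθ, Complex.cos_arg hz0, hzn]; simp [hz]
  have hsθ : Real.sin θ = c * x / Real.cos φ := by
    rw [hθ, Complex.sin_arg, hzn]; simp [hz]
  have hc1 : Real.cos φ * Real.cos θ = Real.cos t := by rw [hcθ]; field_simp
  have hs1 : Real.cos φ * Real.sin θ = c * x := by rw [hsθ]; field_simp
  refine ⟨t, (θ - Real.pi / 2) / 2, (θ + Real.pi / 2) / 2, ?_⟩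
  set p := (θ - Real.pi / 2) / 2 with hp
  set q := (θ + Real.pi / 2) / 2 with hq
  have hpq : p + q = θ := by rw [hp, hq]; ring
  have hpq' : p - q = -(Real.pi / 2) := by rw [hp, hq]; ring
  have a1 : Real.cos p * Real.cos q - Real.sin p * Real.sin q = Real.cos θ := by
    rw [← Real.cos_add, hpq]
  have a2 : Real.sin p * Real.cos q + Real.cos p * Real.sin q = Real.sin θ := by
    rw [← Real.sin_add, hpq]
  have a3 : Real.cos p * Real.cos q + Real.sin p * Real.sin q = 0 := by
    rw [← Real.cos_sub, hpq']; simp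
  have a4 : Real.sin p * Real.cos q - Real.cos p * Real.sin q = -1 := by
    rw [← Real.sin_sub, hpq']; simp
  have hexp : Complex.exp (φ * Complex.I) = (Real.cos φ : ℂ) + Real.sin φ * Complex.I := by
    rw [Complex.exp_mul_I, Complex.ofReal_cos, Complex.ofReal_sin]
  have hexp' : Complex.exp (-(φ * Complex.I)) = (Real.cos φ : ℂ) - Real.sin φ * Complex.I := by
    rw [← neg_mul, Complex.exp_mul_I, Complex.cos_neg, Complex.sin_neg, Complex.ofReal_cos,
      Complex.ofReal_sin]
    ring
  have hR : ∀ r : ℝ, toC (Rot r) = !![(Real.cos r : ℂ), -(Real.sin r : ℂ);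
      (Real.sin r : ℂ), (Real.cos r : ℂ)] := by
    intro r
    ext i j
    fin_cases i <;> fin_cases j <;> simp [Rot, toC]
  have hD : (diagonal ![Complex.exp (φ * Complex.I), Complex.exp (-(φ * Complex.I))] :
      Matrix (Fin 2) (Fin 2) ℂ) =
      !![(Real.cos φ : ℂ) + Real.sin φ * Complex.I, 0;
        0, (Real.cos φ : ℂ) - Real.sin φ * Complex.I] := by
    rw [hexp, hexp']
    ext i j
    fin_cases i <;> fin_cases j <;> simp
  rw [hR, hR, hD, two_alg _ _ _ _ _ _ _ _ _ _ _ _ a1 a2 a3 a4 hc1 hs1 hsx, hsint]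

/-! ### The generation theorem -/

/-- membership of a matrix in a subgroup of the unitary group. -/
def MemG (G : Subgroup (unitaryGroup n ℂ)) (M : Matrix n n ℂ) : Prop :=
  ∃ h : M ∈ unitaryGroup n ℂ, (⟨M, h⟩ : unitaryGroup n ℂ) ∈ G

lemma MemG.mul {G : Subgroup (unitaryGroup n ℂ)} {M M' : Matrix n n ℂ} (h : MemG G M)
    (h' : MemG G M') : MemG G (M * M') := by
  obtain ⟨h1, h2⟩ := h
  obtain ⟨h3, h4⟩ := h'
  exact ⟨mul_mem h1 h3, G.mul_mem h2 h4⟩

lemma MemG.one {G : Subgroup (unitaryGroup n ℂ)} : MemG G (1 : Matrix n n ℂ) :=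
  ⟨one_mem _, G.one_mem⟩

lemma MemG.star {G : Subgroup (unitaryGroup n ℂ)} {M : Matrix n n ℂ} (h : MemG G M) :
    MemG G Mᴴ := by
  obtain ⟨h1, h2⟩ := h
  have h3 := G.inv_mem h2
  have h4 : Mᴴ ∈ unitaryGroup n ℂ := by
    have := Unitary.star_mem h1
    rwa [star_eq_conjTranspose] at this
  exact ⟨h4, h3⟩

lemma MemG.pow {G : Subgroup (unitaryGroup n ℂ)} {M : Matrix n n ℂ} (h : MemG G M) (k : ℕ) :
    MemG G (M ^ k) := by
  induction k with
  | zero => rw [pow_zero]; exact MemG.one
  | succ k ih => rw [pow_succ]; exact ih.mul h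

/-- the diagonal matrix with `exp (iθ)` at `a` and `exp (-iθ)` at `b`. -/
def ph (a b : n) (θ : ℝ) : n → ℂ := fun i =>
  if i = a then Complex.exp (θ * Complex.I) else if i = b then Complex.exp (-(θ * Complex.I)) else 1

lemma ph_add {a b : n} (θ θ' : ℝ) : ph a b θ * ph a b θ' = ph a b (θ + θ') := by
  ext i
  simp only [Pi.mul_apply, ph]
  split_ifs
  · rw [← Complex.exp_add]; push_cast; ring_nf
  · rw [← Complex.exp_add]; push_cast; ring_nf
  · simp

lemma ph_nat {a b : n} (θ : ℝ) (k : ℕ) : diagonal (ph a b θ) ^ k = diagonal (ph a b (k * θ)) := by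
  induction k with
  | zero =>
    rw [pow_zero, Nat.cast_zero, zero_mul, ← diagonal_one]
    congr 1
    ext i; simp [ph]
  | succ k ih =>
    rw [pow_succ, ih, diagonal_mul_diagonal']
    congr 1
    have h := ph_add (a := a) (b := b) (k * θ) θ
    have h2 : (k : ℝ) * θ + θ = ((k + 1 : ℕ) : ℝ) * θ := by push_cast; ring
    rw [h2] at h
    exact h

lemma E2_ph {a b : n} (hab : a ≠ b) (θ : ℝ) :
    E2 a b (diagonal ![Complex.exp (θ * Complex.I), Complex.exp (-(θ * Complex.I))]) =
      diagonal (ph a b θ) := by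
  rw [E2_diag hab]; rfl

/-- one pair with non-proportional squares gives all phases of this pair. -/
lemma phase_mem {G : Subgroup (unitaryGroup n ℂ)}
    (hO : ∀ O ∈ orthogonalGroup n ℝ, MemG G (toC O)) {ε : n → ℂ} (hε : ∀ i, ‖ε i‖ = 1)
    (hεG : MemG G (diagonal ε)) {a b : n} (hab : a ≠ b) (hne : ε a ^ 2 ≠ ε b ^ 2) (θ : ℝ) :
    MemG G (diagonal (ph a b θ)) := by
  -- the ratio
  set u : ℂ := ε a * star (ε b) with hu
  have hbb : ε b * star (ε b) = 1 := by
    rw [RCLike.star_def, Complex.mul_conj, Complex.normSq_eq_norm_sq, hε b]; simp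
  have haa : ε a * star (ε a) = 1 := by
    rw [RCLike.star_def, Complex.mul_conj, Complex.normSq_eq_norm_sq, hε a]; simp
  have hun : ‖u‖ = 1 := by rw [hu, norm_mul, norm_star, hε a, hε b, one_mul]
  have hcs : u.re ^ 2 + u.im ^ 2 = 1 := by
    have := Complex.normSq_eq_norm_sq u
    rw [Complex.normSq_apply, hun] at this
    nlinarith
  have hs : u.im ≠ 0 := by
    intro h0
    have h1 : u.re ^ 2 = 1 := by rw [h0] at hcs; linarith
    have h2 : u ^ 2 = 1 := by
      have : u = (u.re : ℂ) := by apply Complex.ext <;> simp [h0]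
      rw [this]; exact_mod_cast h1
    apply hne
    have h3 : ε a = u * ε b := by
      rw [hu, mul_assoc, mul_comm (star (ε b)), hbb, mul_one]
    rw [h3, mul_pow, h2, one_mul]
  -- choose k large
  obtain ⟨k, hk⟩ := exists_nat_gt (|θ| / min |u.im| 1)
  have hm : 0 < min |u.im| 1 := lt_min (abs_pos.mpr hs) one_pos
  have hk0 : (0 : ℝ) < k := lt_of_le_of_lt (by positivity) hk
  set φ := θ / k with hφ
  have hφ1 : |φ| < min |u.im| 1 := by
    rw [hφ, abs_div, Nat.abs_cast, div_lt_iff₀ hk0]
    rwa [div_lt_iff₀ hm, mul_comm] at hk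
  have hcos : 0 < Real.cos φ := by
    apply Real.cos_pos_of_mem_Ioo
    have h1 : |φ| < 1 := lt_of_lt_of_le hφ1 (min_le_right _ _)
    have h2 := Real.pi_gt_three
    constructor <;> nlinarith [abs_lt.mp h1]
  have hsin : |Real.sin φ| ≤ |u.im| :=
    (Real.abs_sin_le_abs.trans hφ1.le).trans (min_le_left _ _)
  obtain ⟨t, p, q, htpq⟩ := two_by_two hcs hs hsin hcos
  -- the conjugated rotation
  have hconj : (diagonal ![ε a, ε b] * toC (Rot t) * diagonal ![star (ε a), star (ε b)] :
      Matrix (Fin 2) (Fin 2) ℂ) =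
      !![(Real.cos t : ℂ), -((u.re : ℂ) + u.im * Complex.I) * Real.sin t;
        ((u.re : ℂ) - u.im * Complex.I) * Real.sin t, (Real.cos t : ℂ)] := by
    have hu1 : (u.re : ℂ) + u.im * Complex.I = ε a * star (ε b) := by
      rw [Complex.re_add_im]
    have hu2 : (u.re : ℂ) - u.im * Complex.I = ε b * star (ε a) := by
      have : (u.re : ℂ) - u.im * Complex.I = star u := by
        apply Complex.ext <;> simp
      rw [this, hu, star_mul, star_star]
    rw [hu1, hu2]
    ext i j
    fin_cases i <;> fin_cases j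
    all_goals
      simp only [Fin.zero_eta, Fin.mk_one, Fin.isValue, mul_diagonal, diagonal_mul, toC_apply, Rot,
        Matrix.of_apply, Matrix.cons_val_zero, Matrix.cons_val_one, Matrix.cons_val_fin_one,
        Matrix.cons_val', Matrix.empty_val']
    · linear_combination (Real.cos t : ℂ) * haa
    · push_cast; ring
    · ring
    · linear_combination (Real.cos t : ℂ) * hbb
  have hrot : ∀ r : ℝ, MemG G (E2 a b (toC (Rot r))) := fun r => by
    obtain ⟨O, h1, h2⟩ := E2_real hab (Rot r) (Rot_orth r)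
    rw [← h2]; exact hO O h1
  have hstar : diagonal (fun i => star (ε i)) = (diagonal ε)ᴴ := by
    rw [diagonal_conjTranspose]; rfl
  have h1 : MemG G (E2 a b (toC (Rot p) *
      diagonal ![Complex.exp (φ * Complex.I), Complex.exp (-(φ * Complex.I))] * toC (Rot q))) := by
    rw [htpq, ← hconj, ← diag_E2 ε hε, hstar]
    exact (hεG.mul (hrot t)).mul hεG.star
  have hRinv : ∀ r : ℝ, toC (Rot (-r)) * toC (Rot r) = 1 := by
    intro r
    rw [← toC_mul]
    have : Rot (-r) * Rot r = 1 := by
      have h := Real.sin_sq_add_cos_sq r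
      ext i j
      fin_cases i <;> fin_cases j <;> simp [Rot, Matrix.mul_apply, Fin.sum_univ_two] <;> nlinarith
    rw [this, toC_one]
  have h2 : MemG G (diagonal (ph a b φ)) := by
    have h3 := ((hrot (-p)).mul h1).mul (hrot (-q))
    rw [E2_mul hab, E2_mul hab] at h3
    have h4 : toC (Rot (-p)) * (toC (Rot p) *
        diagonal ![Complex.exp (φ * Complex.I), Complex.exp (-(φ * Complex.I))] * toC (Rot q)) *
        toC (Rot (-q)) =
        diagonal ![Complex.exp (φ * Complex.I), Complex.exp (-(φ * Complex.I))] := by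
      have h5 : toC (Rot q) * toC (Rot (-q)) = 1 := by
        have := hRinv (-q); rwa [neg_neg] at this
      calc _ = (toC (Rot (-p)) * toC (Rot p)) *
            diagonal ![Complex.exp (φ * Complex.I), Complex.exp (-(φ * Complex.I))] *
            (toC (Rot q) * toC (Rot (-q))) := by simp only [Matrix.mul_assoc]
        _ = _ := by rw [hRinv, h5, Matrix.one_mul, Matrix.mul_one]
    rw [h4, E2_ph hab] at h3
    exact h3
  have h6 := h2.pow k
  rw [ph_nat] at h6
  have h7 : (k : ℝ) * φ = θ := by rw [hφ]; field_simp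
  rwa [h7] at h6

/-- permutation matrices. -/
def Pm (σ : Equiv.Perm n) : Matrix n n ℝ := fun i j => if i = σ j then 1 else 0

lemma Pm_orth (σ : Equiv.Perm n) : Pm σ ∈ orthogonalGroup n ℝ := by
  rw [mem_orthogonalGroup_iff']
  ext i j
  rw [Matrix.mul_apply]
  simp only [transpose_apply, Pm, Matrix.one_apply]
  rw [Finset.sum_eq_single (σ i)]
  · by_cases h : i = j
    · subst h; simp
    · have : σ i ≠ σ j := fun h' => h (σ.injective h')
      simp [h, this]
  · intro k _ hk; simp [hk]
  · simp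

lemma Pm_diag (σ : Equiv.Perm n) (ε : n → ℂ) :
    toC (Pm σ) * diagonal ε * (toC (Pm σ))ᵀ = diagonal (fun i => ε (σ.symm i)) := by
  ext i j
  rw [Matrix.mul_apply]
  simp only [mul_diagonal, transpose_apply, toC_apply, Pm]
  rw [Finset.sum_eq_single (σ.symm i)]
  · by_cases h : i = j
    · subst h; simp
    · have : ¬ j = i := fun h' => h h'.symm
      simp [h, this]
  · intro k _ hk
    have : ¬ i = σ k := fun h => hk (by rw [h]; simp)
    simp [this]
  · simp

lemma exists_perm {a b c d : n} (hab : a ≠ b) (hcd : c ≠ d) :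
    ∃ σ : Equiv.Perm n, σ a = c ∧ σ b = d := by
  set b1 := Equiv.swap a c b with hb1
  have h1 : b1 ≠ c := by
    rw [hb1]
    intro h
    have : Equiv.swap a c b = Equiv.swap a c a := by rw [h, Equiv.swap_apply_left]
    exact hab (Equiv.injective _ this).symm
  refine ⟨Equiv.swap b1 d * Equiv.swap a c, ?_, ?_⟩
  · rw [Equiv.Perm.mul_apply, Equiv.swap_apply_left, Equiv.swap_apply_of_ne_of_ne h1.symm hcd]
  · rw [Equiv.Perm.mul_apply, ← hb1, Equiv.swap_apply_left]

lemma phase_all {G : Subgroup (unitaryGroup n ℂ)}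
    (hO : ∀ O ∈ orthogonalGroup n ℝ, MemG G (toC O)) {a b : n} (hab : a ≠ b)
    (h : ∀ θ : ℝ, MemG G (diagonal (ph a b θ))) {c d : n} (hcd : c ≠ d) (θ : ℝ) :
    MemG G (diagonal (ph c d θ)) := by
  obtain ⟨σ, h1, h2⟩ := exists_perm hab hcd
  have h3 := ((hO _ (Pm_orth σ)).mul (h θ)).mul (hO _ (orth_transpose (Pm_orth σ)))
  rw [toC_transpose, Pm_diag] at h3
  have h4 : (fun i => ph a b θ (σ.symm i)) = ph c d θ := by
    ext i
    simp only [ph, Equiv.symm_apply_eq, h1, h2]
  rwa [h4] at h3

lemma exists_angle {z : ℂ} (hz : ‖z‖ = 1) : ∃ θ : ℝ, z = Complex.exp (θ * Complex.I) :=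
  ⟨Complex.arg z, by
    have := Complex.norm_mul_exp_arg_mul_I z
    rw [hz, Complex.ofReal_one, one_mul] at this
    exact this.symm⟩

/-- all diagonal unitaries of determinant one. -/
lemma diag_mem {G : Subgroup (unitaryGroup n ℂ)}
    (h : ∀ (c d : n), c ≠ d → ∀ θ : ℝ, MemG G (diagonal (ph c d θ))) {ε : n → ℂ}
    (hε : ∀ i, ‖ε i‖ = 1) (hprod : ∏ i, ε i = 1) : MemG G (diagonal ε) := by
  rcases isEmpty_or_nonempty n with hn | ⟨⟨i0⟩⟩
  · have : (diagonal ε : Matrix n n ℂ) = 1 := by ext i; exact (IsEmpty.false i).elim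
    rw [this]; exact MemG.one
  have hang := fun i => exists_angle (hε i)
  choose θ hθ using hang
  have h1 : ε = ∏ j ∈ Finset.univ.erase i0, ph j i0 (θ j) := by
    ext i
    rw [Finset.prod_apply]
    by_cases hi : i = i0
    · subst hi
      have h2 : ∀ j ∈ Finset.univ.erase i, ph j i (θ j) i = (ε j)⁻¹ := by
        intro j hj
        have hji : i ≠ j := (Finset.ne_of_mem_erase hj).symm
        simp only [ph, if_neg hji, if_true]
        rw [hθ j, Complex.exp_neg]
      rw [Finset.prod_congr rfl h2, Finset.prod_inv_distrib]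
      have h3 := Finset.mul_prod_erase Finset.univ ε (Finset.mem_univ i)
      rw [hprod] at h3
      exact eq_inv_of_mul_eq_one_left h3
    · rw [Finset.prod_eq_single i]
      · simp only [ph, if_true]; exact hθ i
      · intro j hj hji
        have : i ≠ j := fun h => hji h.symm
        simp [ph, this, hi]
      · intro h'; exact absurd (Finset.mem_erase.mpr ⟨hi, Finset.mem_univ i⟩) h'
  rw [h1]
  refine Finset.prod_induction _ (fun f : n → ℂ => MemG G (diagonal f)) ?_ ?_ ?_
  · intro f g hf hg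
    have := hf.mul hg
    rwa [diagonal_mul_diagonal'] at this
  · have : (diagonal (1 : n → ℂ) : Matrix n n ℂ) = 1 := diagonal_one
    rw [this]; exact MemG.one
  · intro j hj
    exact h j i0 (Finset.ne_of_mem_erase hj) (θ j)

lemma orth_det {O : Matrix n n ℝ} (hO : O ∈ orthogonalGroup n ℝ) : O.det = 1 ∨ O.det = -1 := by
  have h := congrArg Matrix.det (orth_mul hO)
  rw [det_mul, det_transpose, det_one] at h
  exact mul_self_eq_one_iff.mp h

lemma toC_det (O : Matrix n n ℝ) : (toC O).det = (O.det : ℂ) := by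
  exact (Complex.ofRealHom.map_det O).symm

/-- **Generation theorem**. -/
theorem gen {G : Subgroup (unitaryGroup n ℂ)}
    (hO : ∀ O ∈ orthogonalGroup n ℝ, MemG G (toC O)) {κ : Matrix n n ℂ} (hκ : MemG G κ)
    (hκ' : ¬ ∃ (c : ℂ) (O : Matrix n n ℝ), O ∈ orthogonalGroup n ℝ ∧ κ = c • toC O)
    {V : Matrix n n ℂ} (hV : V ∈ unitaryGroup n ℂ) (hdet : V.det = 1) : MemG G V := by
  -- the phases
  have hph : ∀ (c d : n), c ≠ d → ∀ θ : ℝ, MemG G (diagonal (ph c d θ)) := by
    obtain ⟨O₁, hO₁, O₂, hO₂, ε, hε, hκe⟩ := kak hκ.1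
    have hεG : MemG G (diagonal ε) := by
      have h1 := ((hO _ (orth_transpose hO₁)).mul hκ).mul (hO _ (orth_transpose hO₂))
      have h2 : toC O₁ᵀ * κ * toC O₂ᵀ = diagonal ε := by
        rw [hκe, toC_transpose, toC_transpose]
        calc _ = ((toC O₁)ᵀ * toC O₁) * diagonal ε * (toC O₂ * (toC O₂)ᵀ) := by
              simp only [Matrix.mul_assoc]
          _ = _ := by rw [toC_orth' hO₁, toC_orth hO₂, Matrix.one_mul, Matrix.mul_one]
      rwa [h2] at h1
    have hex : ∃ a b : n, a ≠ b ∧ ε a ^ 2 ≠ ε b ^ 2 := by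
      by_contra hcon
      push Not at hcon
      apply hκ'
      rcases isEmpty_or_nonempty n with hn | ⟨⟨i0⟩⟩
      · refine ⟨1, 1, one_mem _, ?_⟩
        ext i; exact (IsEmpty.false i).elim
      have hsq : ∀ i, ε i = ε i0 ∨ ε i = -ε i0 := by
        intro i
        apply sq_eq_sq_iff_eq_or_eq_neg.mp
        by_cases hi : i = i0
        · rw [hi]
        · exact hcon i i0 hi
      have hs : ∃ σ : n → ℝ, (∀ i, σ i * σ i = 1) ∧ ∀ i, ε i = ε i0 * σ i := by
        refine ⟨fun i => if ε i = ε i0 then 1 else -1, fun i => ?_, fun i => ?_⟩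
        · by_cases h : ε i = ε i0 <;> simp [h]
        · by_cases h : ε i = ε i0
          · simp [h]
          · rcases hsq i with h' | h'
            · exact absurd h' h
            · simp only [if_neg h]; rw [h']; simp
      obtain ⟨σ, hσ, hσε⟩ := hs
      refine ⟨ε i0, O₁ * diagonal σ * O₂, ?_, ?_⟩
      · refine mul_mem (mul_mem hO₁ ?_) hO₂
        rw [mem_orthogonalGroup_iff, diagonal_transpose, diagonal_mul_diagonal, ← diagonal_one]
        congr 1
        ext i; exact hσ i
      · rw [hκe, toC_mul, toC_mul, toC_diagonal, ← Matrix.smul_mul, ← Matrix.mul_smul,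
          ← diagonal_smul]
        congr 3
        ext i
        simp [hσε i]
    obtain ⟨a, b, hab, hne⟩ := hex
    intro c d hcd θ
    exact phase_all hO hab (phase_mem hO hε hεG hab hne) hcd θ
  -- decompose V
  obtain ⟨O₁, hO₁, O₂, hO₂, ε, hε, hVe⟩ := kak hV
  rcases isEmpty_or_nonempty n with hn | ⟨⟨i0⟩⟩
  · have : V = 1 := by ext i; exact (IsEmpty.false i).elim
    rw [this]; exact MemG.one
  have hd : (O₁.det : ℂ) * (∏ i, ε i) * (O₂.det : ℂ) = 1 := by
    rw [← hdet, hVe, det_mul, det_mul, det_diagonal, toC_det, toC_det]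
  -- the sign
  have hsgn : ∃ s : ℝ, s * s = 1 ∧ (∏ i, ε i) * (s : ℂ) = 1 := by
    refine ⟨O₁.det * O₂.det, ?_, ?_⟩
    · rcases orth_det hO₁ with h1 | h1 <;> rcases orth_det hO₂ with h2 | h2 <;>
        rw [h1, h2] <;> norm_num
    · rw [← hd]; push_cast; ring
  obtain ⟨s, hs, hsp⟩ := hsgn
  set σ : n → ℝ := fun i => if i = i0 then s else 1 with hσ
  have hσ1 : ∀ i, σ i * σ i = 1 := fun i => by
    simp only [hσ]; split_ifs
    · exact hs
    · norm_num
  have hσprod : ∏ i, (σ i : ℂ) = s := by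
    rw [Finset.prod_eq_single i0]
    · simp [hσ]
    · intro j _ hj; simp [hσ, hj]
    · simp
  have hσn : ∀ i, ‖(σ i : ℂ)‖ = 1 := fun i => by
    rw [Complex.norm_real, Real.norm_eq_abs]
    have := hσ1 i
    rcases mul_self_eq_one_iff.mp this with h | h <;> rw [h] <;> norm_num
  have hσO : diagonal σ ∈ orthogonalGroup n ℝ := by
    rw [mem_orthogonalGroup_iff, diagonal_transpose, diagonal_mul_diagonal, ← diagonal_one]
    congr 1
    ext i; exact hσ1 i
  have h1 : MemG G (diagonal (fun i => ε i * (σ i : ℂ))) := by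
    refine diag_mem hph (fun i => by rw [norm_mul, hε i, hσn i, one_mul]) ?_
    rw [Finset.prod_mul_distrib, hσprod, hsp]
  have h2 : V = toC O₁ * diagonal (fun i => ε i * (σ i : ℂ)) * toC (diagonal σ * O₂) := by
    rw [hVe, toC_mul, toC_diagonal]
    have h3 : (diagonal ε : Matrix n n ℂ) =
        diagonal (fun i => ε i * (σ i : ℂ)) * diagonal (fun i => (σ i : ℂ)) := by
      rw [diagonal_mul_diagonal]
      congr 1
      ext i
      have : ((σ i * σ i : ℝ) : ℂ) = 1 := by rw [hσ1 i]; simp
      push_cast at this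
      rw [mul_assoc, this, mul_one]
    rw [h3]
    simp only [Matrix.mul_assoc]
  rw [h2]
  exact ((hO _ hO₁).mul h1).mul (hO _ (mul_mem hσO hO₂))

/-! ### Stabilisers of measures -/

/-- the action `U ↦ V U Vᵀ`. -/
def act (V U : Matrix n n ℂ) : Matrix n n ℂ := V * U * Vᵀ

lemma act_mul (V W U : Matrix n n ℂ) : act (V * W) U = act V (act W U) := by
  unfold act; rw [Matrix.transpose_mul]; simp only [Matrix.mul_assoc]

lemma act_one (U : Matrix n n ℂ) : act 1 U = U := by unfold act; simp

lemma continuous_act (V : Matrix n n ℂ) : Continuous (act V) := by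
  unfold act; fun_prop

section Meas

variable [MeasurableSpace (Matrix n n ℂ)] [BorelSpace (Matrix n n ℂ)]

/-- the stabiliser of a measure on `n × n` matrices under `U ↦ V U Vᵀ`. -/
def stab (P : MeasureTheory.Measure (Matrix n n ℂ)) : Subgroup (unitaryGroup n ℂ) where
  carrier := {V | P.map (act V.1) = P}
  mul_mem' := by
    intro V W hV hW
    simp only [Set.mem_ofPred_eq] at *
    have h : act (V * W : unitaryGroup n ℂ).1 = act V.1 ∘ act W.1 := by
      funext U; exact act_mul V.1 W.1 U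
    rw [h, ← MeasureTheory.Measure.map_map (continuous_act _).measurable
      (continuous_act _).measurable, hW, hV]
  one_mem' := by
    simp only [Set.mem_ofPred_eq]
    have : act (1 : unitaryGroup n ℂ).1 = id := by funext U; exact act_one U
    rw [this, MeasureTheory.Measure.map_id]
  inv_mem' := by
    intro V hV
    simp only [Set.mem_ofPred_eq] at *
    have h : act (V⁻¹ : unitaryGroup n ℂ).1 ∘ act V.1 = id := by
      funext U
      simp only [Function.comp_apply, id]
      rw [← act_mul]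
      have : (V⁻¹ : unitaryGroup n ℂ).1 * V.1 = 1 := by
        have := congrArg Subtype.val (inv_mul_cancel V)
        simpa using this
      rw [this, act_one]
    calc P.map (act (V⁻¹ : unitaryGroup n ℂ).1) =
        (P.map (act V.1)).map (act (V⁻¹ : unitaryGroup n ℂ).1) := by rw [hV]
      _ = P := by
        rw [MeasureTheory.Measure.map_map (continuous_act _).measurable
          (continuous_act _).measurable, h, MeasureTheory.Measure.map_id]

/-- A measure invariant under all real orthogonal matrices and one `κ` which is not a scalar times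
a real orthogonal matrix is invariant under `SU(n)`. -/
theorem map_act_eq {P : MeasureTheory.Measure (Matrix n n ℂ)}
    (hO : ∀ O ∈ orthogonalGroup n ℝ, P.map (act (toC O)) = P) {κ : Matrix n n ℂ}
    (hκu : κ ∈ unitaryGroup n ℂ) (hκ : P.map (act κ) = P)
    (hκ' : ¬ ∃ (c : ℂ) (O : Matrix n n ℝ), O ∈ orthogonalGroup n ℝ ∧ κ = c • toC O)
    {V : Matrix n n ℂ} (hV : V ∈ unitaryGroup n ℂ) (hdet : V.det = 1) :
    P.map (act V) = P := by
  obtain ⟨_, h⟩ := gen (G := stab P) (fun O hO' => ⟨toC_mem hO', hO O hO'⟩)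
    (κ := κ) ⟨hκu, hκ⟩ hκ' hV hdet
  exact h

end Meas

/-- functional form. -/
theorem integral_act_eq {E : (Matrix n n ℂ → ℝ) → ℝ} {𝓕 : Set (Matrix n n ℂ → ℝ)}
    (h𝓕 : ∀ V ∈ unitaryGroup n ℂ, ∀ f ∈ 𝓕, (fun U => f (act V U)) ∈ 𝓕)
    (hO : ∀ O ∈ orthogonalGroup n ℝ, ∀ f ∈ 𝓕, E (fun U => f (act (toC O) U)) = E f)
    {κ : Matrix n n ℂ} (hκu : κ ∈ unitaryGroup n ℂ)
    (hκ : ∀ f ∈ 𝓕, E (fun U => f (act κ U)) = E f)
    (hκ' : ¬ ∃ (c : ℂ) (O : Matrix n n ℝ), O ∈ orthogonalGroup n ℝ ∧ κ = c • toC O)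
    {V : Matrix n n ℂ} (hV : V ∈ unitaryGroup n ℂ) (hdet : V.det = 1) :
    ∀ f ∈ 𝓕, E (fun U => f (act V U)) = E f := by
  set G : Subgroup (unitaryGroup n ℂ) :=
    { carrier := {V | ∀ f ∈ 𝓕, E (fun U => f (act V.1 U)) = E f}
      mul_mem' := by
        intro V W hV hW f hf
        have h1 := hW _ (h𝓕 V.1 V.2 f hf)
        simp only [← act_mul] at h1
        exact h1.trans (hV f hf)
      one_mem' := by
        intro f _
        have : (fun U => f (act (1 : unitaryGroup n ℂ).1 U)) = f := by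
          funext U
          exact congrArg f (act_one U)
        rw [this]
      inv_mem' := by
        intro V hV f hf
        have h1 := hV _ (h𝓕 (V⁻¹ : unitaryGroup n ℂ).1 (V⁻¹ : unitaryGroup n ℂ).2 f hf)
        simp only [← act_mul] at h1
        have h2 : (V⁻¹ : unitaryGroup n ℂ).1 * V.1 = 1 := by
          have := congrArg Subtype.val (inv_mul_cancel V)
          simpa using this
        rw [h2] at h1
        simp only [act_one] at h1
        exact h1.symm } with hG
  obtain ⟨_, h⟩ := gen (G := G) (fun O hO' => ⟨toC_mem hO', hO O hO'⟩)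
    (κ := κ) ⟨hκu, hκ⟩ hκ' hV hdet
  exact h

end Crest.Agent.R166.Gen85
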