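import Mathlib
import Crest.Agent.R166.Defs_419
import Crest.Agent.R166.Gauss_286

/-!
# Row 166 (helper341): Stone-Weierstrass / characteristic function module for section 50

From finitely many characteristic-function hypotheses (the conclusion of Theorem B) to the
comparison of averages of continuous functions, uniformly over a compact parameter space.
-/

set_option autoImplicit false
set_option linter.unusedSectionVars false

noncomputable section

open MeasureTheory ProbabilityTheory Topology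

namespace Crest.Agent.R166.SW341

abbrev M2 := Matrix (Fin 2) (Fin 2) ℂ

/-! ### Part 1: approximation of a continuous function by trigonometric sums -/

section Approx

variable {P : Type*} [MetricSpace P] [CompactSpace P] {ι : Type*} [Fintype ι]
  {B : Type*} [TopologicalSpace B] [T2Space B] [CompactSpace B]

/-- generators of the algebra: `c(φ) χ(b) ∏ u_i ^ n_i` where `χ` runs over a submonoid -/
def gens (S : Submonoid C(B, ℝ)) : Submonoid C(P × B × (ι → Circle), ℂ) where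
  carrier := {f | ∃ (c : C(P, ℂ)) (χ : C(B, ℝ)) (n : ι → ℤ), χ ∈ S ∧
    ∀ x, f x = c x.1 * (χ x.2.1 : ℂ) * ((∏ i, (x.2.2 i) ^ (n i) : Circle) : ℂ)}
  one_mem' := ⟨1, 1, 0, S.one_mem, fun x => by simp⟩
  mul_mem' := by
    rintro f g ⟨c, χ, n, hχ, hf⟩ ⟨c', χ', n', hχ', hg⟩
    refine ⟨c * c', χ * χ', n + n', S.mul_mem hχ hχ', fun x => ?_⟩
    simp only [ContinuousMap.mul_apply, hf, hg, Complex.ofReal_mul, Pi.add_apply, zpow_add,
      Finset.prod_mul_distrib, Circle.coe_mul]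
    ring

/-- the star subalgebra generated by `gens S` -/
def alg (S : Submonoid C(B, ℝ)) : StarSubalgebra ℂ C(P × B × (ι → Circle), ℂ) where
  toSubalgebra := Algebra.adjoin ℂ (gens (P := P) (ι := ι) S : Set C(P × B × (ι → Circle), ℂ))
  star_mem' := by
    change Algebra.adjoin ℂ (gens (P := P) (ι := ι) S : Set C(P × B × (ι → Circle), ℂ)) ≤
      star (Algebra.adjoin ℂ (gens (P := P) (ι := ι) S : Set C(P × B × (ι → Circle), ℂ)))
    refine Algebra.adjoin_le ?_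
    rintro f ⟨c, χ, n, hχ, hf⟩
    refine Algebra.subset_adjoin ⟨star c, χ, -n, hχ, fun x => ?_⟩
    simp only [ContinuousMap.star_apply, hf, star_mul', Complex.star_def, Complex.conj_ofReal,
      Pi.neg_apply, zpow_neg, Finset.prod_inv_distrib, Circle.coe_inv_eq_conj]

lemma alg_coe (S : Submonoid C(B, ℝ)) :
    Subalgebra.toSubmodule (alg (P := P) (ι := ι) S).toSubalgebra =
      Submodule.span ℂ (gens (P := P) (ι := ι) S : Set C(P × B × (ι → Circle), ℂ)) := by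
  change Subalgebra.toSubmodule (Algebra.adjoin ℂ
    (gens (P := P) (ι := ι) S : Set C(P × B × (ι → Circle), ℂ))) = _
  rw [Algebra.adjoin_eq_span, Submonoid.closure_eq]

theorem approx_gen (S : Submonoid C(B, ℝ)) (hsep : ∀ b b' : B, b ≠ b' → ∃ χ ∈ S, χ b ≠ χ b')
    (f : C(P × B × (ι → Circle), ℂ)) {ε : ℝ} (hε : 0 < ε) :
    ∃ (N : ℕ) (c : Fin N → C(P, ℂ)) (χ : Fin N → C(B, ℝ)) (n : Fin N → ι → ℤ),
      (∀ j, χ j ∈ S) ∧ ∀ x, ‖f x - ∑ j, c j x.1 * (χ j x.2.1 : ℂ) *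
        ((∏ i, (x.2.2 i) ^ (n j i) : Circle) : ℂ)‖ ≤ ε := by
  classical
  have hS : (alg (P := P) (ι := ι) S).topologicalClosure = ⊤ := by
    refine ContinuousMap.starSubalgebra_topologicalClosure_eq_top_of_separatesPoints _ ?_
    rintro ⟨φ, b, u⟩ ⟨φ', b', u'⟩ hne
    by_cases h1 : φ = φ'
    · by_cases h2 : b = b'
      · have h3 : u ≠ u' := by
          rintro rfl; exact hne (by rw [h1, h2])
        obtain ⟨i, hi⟩ := Function.ne_iff.1 h3
        have hcont : Continuous fun x : P × B × (ι → Circle) => ((x.2.2 i : Circle) : ℂ) := by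
          fun_prop
        refine ⟨_, ⟨⟨_, hcont⟩, Algebra.subset_adjoin ⟨1, 1, Pi.single i 1, S.one_mem,
          fun x => ?_⟩, rfl⟩, ?_⟩
        · simp only [ContinuousMap.coe_mk, ContinuousMap.one_apply, Complex.ofReal_one, one_mul]
          congr 1
          rw [Finset.prod_eq_single i]
          · rw [Pi.single_eq_same, zpow_one]
          · intro j _ hj; simp [Pi.single_eq_of_ne hj]
          · simp
        · exact fun h => hi (Circle.ext h)
      · obtain ⟨χ, hχ, hχb⟩ := hsep b b' h2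
        have hcont : Continuous fun x : P × B × (ι → Circle) => ((χ x.2.1 : ℝ) : ℂ) := by
          fun_prop
        refine ⟨_, ⟨⟨_, hcont⟩, Algebra.subset_adjoin ⟨1, χ, 0, hχ, fun x => ?_⟩, rfl⟩, ?_⟩
        · simp
        · simpa using hχb
    · have hcont : Continuous fun x : P × B × (ι → Circle) => ((dist x.1 φ : ℝ) : ℂ) := by
        fun_prop
      refine ⟨_, ⟨⟨_, hcont⟩, Algebra.subset_adjoin ⟨⟨fun y => ((dist y φ : ℝ) : ℂ),
        by fun_prop⟩, 1, 0, S.one_mem, fun x => ?_⟩, rfl⟩, ?_⟩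
      · simp
      · simp only [ContinuousMap.coe_mk, dist_self, Complex.ofReal_zero, ne_eq]
        intro h
        have : dist φ' φ = 0 := by exact_mod_cast h.symm
        exact h1 (dist_eq_zero.1 this).symm
  have hf : f ∈ (alg (P := P) (ι := ι) S).topologicalClosure := by rw [hS]; trivial
  have hf' : f ∈ closure ((alg (P := P) (ι := ι) S : Set C(P × B × (ι → Circle), ℂ))) := hf
  obtain ⟨g, hg, hfg⟩ := Metric.mem_closure_iff.1 hf' ε hε
  have hg' : g ∈ Submodule.span ℂ (gens (P := P) (ι := ι) S : Set C(P × B × (ι → Circle), ℂ)) := by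
    rw [← alg_coe]; exact hg
  obtain ⟨N, a, G, hG⟩ := Submodule.mem_span_set'.1 hg'
  choose c χ n hχ hGx using fun j => (G j).2
  refine ⟨N, fun j => a j • c j, χ, n, hχ, fun x => ?_⟩
  have : ∑ j, (a j • c j) x.1 * (χ j x.2.1 : ℂ) * ((∏ i, (x.2.2 i) ^ (n j i) : Circle) : ℂ) =
      g x := by
    rw [← hG]
    simp only [ContinuousMap.coe_sum, Finset.sum_apply, ContinuousMap.smul_apply, smul_eq_mul,
      hGx, mul_assoc]
  rw [this]
  have h2 : dist (f x) (g x) ≤ dist f g := ContinuousMap.dist_apply_le_dist x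
  rw [dist_eq_norm] at h2
  exact h2.trans hfg.le

end Approx

/-! ### Part 2: approximation on a box, functions of two blocks -/

section Box

variable {P : Type*} [MetricSpace P] [CompactSpace P] {ι : Type*} [Fintype ι]

/-- the approximating trigonometric sums -/
def trigSum {N : ℕ} (χ0 : C(M2, ℝ)) (c : Fin N → C(P, ℂ)) (χ1 χ2 : Fin N → C(M2, ℝ))
    (τ : Fin N → ι → ℝ) (φ : P) (b : M2 × M2) (x : ι → ℝ) : ℂ :=
  ∑ j, c j φ * ((χ0 b.1 * χ1 j b.1 : ℝ) : ℂ) * ((χ0 b.2 * χ2 j b.2 : ℝ) : ℂ) *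
    Complex.exp (Complex.I * ((∑ i, τ j i * x i : ℝ) : ℂ))

/-- restriction of products of functions of the two blocks -/
def prodSub (K : Set M2) : Submonoid C(K × K, ℝ) where
  carrier := {χ | ∃ χ1 χ2 : C(M2, ℝ), ∀ b, χ b = χ1 b.1.1 * χ2 b.2.1}
  one_mem' := ⟨1, 1, fun b => by simp⟩
  mul_mem' := by
    rintro f g ⟨a, b, h⟩ ⟨a', b', h'⟩
    exact ⟨a * a', b * b', fun x => by simp only [ContinuousMap.mul_apply, h, h']; ring⟩

lemma prodSub_sep (K : Set M2) (b b' : K × K) (h : b ≠ b') :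
    ∃ χ ∈ prodSub K, χ b ≠ χ b' := by
  have key : ∀ x y : M2, x ≠ y → ∃ χ : C(M2, ℝ), χ x ≠ χ y := by
    intro x y hxy
    have : ∃ i j, x i j ≠ y i j := by
      by_contra hcon
      push Not at hcon
      exact hxy (Matrix.ext hcon)
    obtain ⟨i, j, hij⟩ := this
    by_cases hre : (x i j).re = (y i j).re
    · refine ⟨⟨fun M => (M i j).im, by fun_prop⟩, ?_⟩
      intro him
      exact hij (Complex.ext hre him)
    · exact ⟨⟨fun M => (M i j).re, by fun_prop⟩, hre⟩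
  by_cases h1 : b.1 = b'.1
  · have h2 : b.2 ≠ b'.2 := fun h2 => h (Prod.ext h1 h2)
    obtain ⟨χ, hχ⟩ := key b.2.1 b'.2.1 (fun h => h2 (Subtype.ext h))
    exact ⟨⟨fun x => χ x.2.1, by fun_prop⟩, ⟨1, χ, fun x => by simp⟩, hχ⟩
  · obtain ⟨χ, hχ⟩ := key b.1.1 b'.1.1 (fun h => h1 (Subtype.ext h))
    exact ⟨⟨fun x => χ x.1.1, by fun_prop⟩, ⟨χ, 1, fun x => by simp⟩, hχ⟩

lemma circle_prod_exp (θ : ι → ℝ) (n : ι → ℤ) :
    ((∏ i, (Circle.exp (θ i)) ^ (n i) : Circle) : ℂ) =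
      Complex.exp (Complex.I * ((∑ i, (n i : ℝ) * θ i : ℝ) : ℂ)) := by
  classical
  have h : ∀ s : Finset ι, ((∏ i ∈ s, (Circle.exp (θ i)) ^ (n i) : Circle) : ℂ) =
      Complex.exp (Complex.I * ((∑ i ∈ s, (n i : ℝ) * θ i : ℝ) : ℂ)) := by
    intro s
    induction s using Finset.induction_on with
    | empty => simp
    | insert a s ha ih =>
      rw [Finset.prod_insert ha, Finset.sum_insert ha, Circle.coe_mul, ih, Circle.coe_zpow,
        Circle.coe_exp, ← Complex.exp_int_mul, ← Complex.exp_add]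
      congr 1
      push_cast
      ring
  exact h Finset.univ

theorem approx_box (F : P → M2 × M2 → (ι → ℝ) → ℝ)
    (hF : Continuous fun y : P × (M2 × M2) × (ι → ℝ) => F y.1 y.2.1 y.2.2)
    {CF : ℝ} (hCF : ∀ φ b x, |F φ b x| ≤ CF) (χ0 : C(M2, ℝ)) (hχc : HasCompactSupport χ0)
    (h0 : ∀ b, 0 ≤ χ0 b) (h1 : ∀ b, χ0 b ≤ 1)
    (hsupp : ∀ φ b x, F φ b x ≠ 0 → χ0 b.1 = 1 ∧ χ0 b.2 = 1)
    {R : ℝ} (hR : 0 < R) {ε : ℝ} (hε : 0 < ε) :
    ∃ (N : ℕ) (c : Fin N → C(P, ℂ)) (χ1 χ2 : Fin N → C(M2, ℝ)) (τ : Fin N → ι → ℝ),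
      (∀ φ b x, (∀ i, |x i| ≤ R) → ‖(F φ b x : ℂ) - trigSum χ0 c χ1 χ2 τ φ b x‖ ≤ ε) ∧
      (∀ φ b x, ‖trigSum χ0 c χ1 χ2 τ φ b x‖ ≤ CF + ε) := by
  classical
  set K : Set M2 := tsupport χ0 with hK
  have : CompactSpace K := isCompact_iff_compactSpace.1 hχc
  have hcont : Continuous fun y : P × (K × K) × (ι → Circle) =>
      ((F y.1 (y.2.1.1.1, y.2.1.2.1) (fun i => (2 * R / Real.pi) *
        Real.arcsin (((y.2.2 i : Circle) : ℂ).im)) : ℝ) : ℂ) := by
    refine Complex.continuous_ofReal.comp (hF.comp (Continuous.prodMk (by fun_prop)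
      (Continuous.prodMk (by fun_prop) ?_)))
    refine continuous_pi fun i => continuous_const.mul (Real.continuous_arcsin.comp ?_)
    fun_prop
  obtain ⟨N, c, χ, n, hχ, hap⟩ := approx_gen (P := P) (ι := ι) (prodSub K)
    (prodSub_sep K) ⟨_, hcont⟩ hε
  choose χ1 χ2 hχ12 using hχ
  have hpi := Real.pi_pos
  refine ⟨N, c, χ1, χ2, fun j i => (n j i : ℝ) * (Real.pi / (2 * R)), ?_⟩
  -- the main identity
  have key : ∀ φ (b : M2 × M2) (x : ι → ℝ) (hb1 : b.1 ∈ K) (hb2 : b.2 ∈ K),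
      trigSum χ0 c χ1 χ2 (fun j i => (n j i : ℝ) * (Real.pi / (2 * R))) φ b x =
      ((χ0 b.1 * χ0 b.2 : ℝ) : ℂ) * ∑ j, c j φ * (χ j (⟨b.1, hb1⟩, ⟨b.2, hb2⟩) : ℂ) *
        ((∏ i, (Circle.exp (Real.pi * x i / (2 * R))) ^ (n j i) : Circle) : ℂ) := by
    intro φ b x hb1 hb2
    unfold trigSum
    rw [Finset.mul_sum]
    refine Finset.sum_congr rfl fun j _ => ?_
    rw [circle_prod_exp, hχ12]
    have : (∑ i, (n j i : ℝ) * (Real.pi / (2 * R)) * x i) =
        ∑ i, (n j i : ℝ) * (Real.pi * x i / (2 * R)) :=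
      Finset.sum_congr rfl fun i _ => by ring
    rw [this]
    push_cast
    ring
  have hzero : ∀ φ (b : M2 × M2) (x : ι → ℝ), (b.1 ∉ K ∨ b.2 ∉ K) →
      trigSum χ0 c χ1 χ2 (fun j i => (n j i : ℝ) * (Real.pi / (2 * R))) φ b x = 0 := by
    intro φ b x hb
    unfold trigSum
    refine Finset.sum_eq_zero fun j _ => ?_
    rcases hb with hb | hb
    · have : χ0 b.1 = 0 := image_eq_zero_of_notMem_tsupport hb
      simp [this]
    · have : χ0 b.2 = 0 := image_eq_zero_of_notMem_tsupport hb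
      simp [this]
  have hFz : ∀ φ (b : M2 × M2) (x : ι → ℝ), (b.1 ∉ K ∨ b.2 ∉ K) → F φ b x = 0 := by
    intro φ b x hb
    by_contra hne
    obtain ⟨e1, e2⟩ := hsupp φ b x hne
    rcases hb with hb | hb
    · have : χ0 b.1 = 0 := image_eq_zero_of_notMem_tsupport hb
      linarith
    · have : χ0 b.2 = 0 := image_eq_zero_of_notMem_tsupport hb
      linarith
  have hle1 : ∀ b : M2 × M2, χ0 b.1 * χ0 b.2 ≤ 1 := fun b =>
    mul_le_one₀ (h1 _) (h0 _) (h1 _)
  have hge0 : ∀ b : M2 × M2, 0 ≤ χ0 b.1 * χ0 b.2 := fun b => mul_nonneg (h0 _) (h0 _)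
  have hCF0 : ∀ (φ : P) (b : M2 × M2) (x : ι → ℝ), 0 ≤ CF := fun φ b x =>
    (abs_nonneg _).trans (hCF φ b x)
  constructor
  · intro φ b x hx
    by_cases hb : b.1 ∈ K ∧ b.2 ∈ K
    · obtain ⟨hb1, hb2⟩ := hb
      have h3 := hap (φ, (⟨b.1, hb1⟩, ⟨b.2, hb2⟩), fun i => Circle.exp (Real.pi * x i / (2 * R)))
      simp only [ContinuousMap.coe_mk] at h3
      have harc : (fun i => 2 * R / Real.pi * Real.arcsin
          ((Circle.exp (Real.pi * x i / (2 * R)) : ℂ)).im) = x := by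
        funext i
        have hxi := abs_le.1 (hx i)
        have him : ((Circle.exp (Real.pi * x i / (2 * R)) : ℂ)).im =
            Real.sin (Real.pi * x i / (2 * R)) := by
          rw [Circle.coe_exp, Complex.exp_ofReal_mul_I_im]
        rw [him, Real.arcsin_sin]
        · field_simp
        · rw [le_div_iff₀ (by positivity)]; nlinarith
        · rw [div_le_iff₀ (by positivity)]; nlinarith
      rw [harc] at h3
      rw [key φ b x hb1 hb2]
      have hF1 : (F φ b x : ℂ) = ((χ0 b.1 * χ0 b.2 : ℝ) : ℂ) * (F φ b x : ℂ) := by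
        by_cases hne : F φ b x = 0
        · rw [hne]; simp
        · obtain ⟨e1, e2⟩ := hsupp φ b x hne
          rw [e1, e2]; simp
      rw [hF1, ← mul_sub, norm_mul, Complex.norm_real, Real.norm_eq_abs, abs_of_nonneg (hge0 b)]
      calc χ0 b.1 * χ0 b.2 * _ ≤ 1 * ε :=
            mul_le_mul (hle1 b) h3 (norm_nonneg _) zero_le_one
        _ = ε := one_mul _
    · have hb' : b.1 ∉ K ∨ b.2 ∉ K := by tauto
      rw [hzero φ b x hb', hFz φ b x hb']
      simpa using hε.le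
  · intro φ b x
    by_cases hb : b.1 ∈ K ∧ b.2 ∈ K
    · obtain ⟨hb1, hb2⟩ := hb
      have h3 := hap (φ, (⟨b.1, hb1⟩, ⟨b.2, hb2⟩), fun i => Circle.exp (Real.pi * x i / (2 * R)))
      simp only [ContinuousMap.coe_mk] at h3
      rw [key φ b x hb1 hb2]
      rw [norm_mul, Complex.norm_real, Real.norm_eq_abs, abs_of_nonneg (hge0 b)]
      set S : ℂ := ∑ j, c j φ * (χ j (⟨b.1, hb1⟩, ⟨b.2, hb2⟩) : ℂ) *
        ((∏ i, (Circle.exp (Real.pi * x i / (2 * R))) ^ (n j i) : Circle) : ℂ) with hS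
      have h4 : ‖S‖ ≤ CF + ε := by
        have h5 := norm_sub_norm_le S (F φ (b.1, b.2) (fun i => (2 * R / Real.pi) *
          Real.arcsin (((Circle.exp (Real.pi * x i / (2 * R)) : Circle) : ℂ).im)) : ℂ)
        rw [norm_sub_rev] at h5
        have h6 := hCF φ (b.1, b.2) (fun i => (2 * R / Real.pi) *
          Real.arcsin (((Circle.exp (Real.pi * x i / (2 * R)) : Circle) : ℂ).im))
        rw [Complex.norm_real, Real.norm_eq_abs] at h5
        linarith
      have h7 : 0 ≤ CF + ε := by have := hCF0 φ b x; linarith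
      calc χ0 b.1 * χ0 b.2 * ‖S‖ ≤ 1 * (CF + ε) :=
            mul_le_mul (hle1 b) h4 (norm_nonneg _) zero_le_one
        _ = CF + ε := one_mul _
    · have hb' : b.1 ∉ K ∨ b.2 ∉ K := by tauto
      rw [hzero φ b x hb', norm_zero]
      have := hCF0 φ b x
      linarith

end Box

/-! ### Part 3: Gaussian marks -/

section Gaussian

open Crest.Agent.R166.Gauss286 Matrix WithLp
open scoped RealInnerProductSpace

/-- characteristic function of the Gaussian marks -/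
lemma cf_vec (A : Matrix (Fin 2) (Fin 2) ℝ) (t : Fin 2 → ℝ) :
    ∫ x, Complex.exp (Complex.I * ((∑ a, t a * (A *ᵥ x) a : ℝ) : ℂ)) ∂(gv (Fin 2)) =
      ((Real.exp (-(1 / 2) * ∑ a, ∑ c, t a * (A * Aᵀ) a c * t c) : ℝ) : ℂ) := by
  have hm : Measurable fun x : Fin 2 → ℝ => toLp 2 (A *ᵥ x) :=
    (WithLp.measurable_toLp 2 _).comp (measurable_mulVec A)
  have h := charFun_gv_map A (toLp 2 t)
  rw [charFun_apply, integral_map hm.aemeasurable (by fun_prop)] at h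
  have e1 : ∀ x : Fin 2 → ℝ, Complex.exp (Complex.I * ((∑ a, t a * (A *ᵥ x) a : ℝ) : ℂ)) =
      Complex.exp ((⟪toLp 2 (A *ᵥ x), toLp 2 t⟫ : ℝ) * Complex.I) := by
    intro x
    rw [mul_comm Complex.I]
    congr 3
  simp only [e1]
  rw [h, Complex.ofReal_exp]
  congr 1
  push_cast
  simp only [dotProduct, Matrix.mulVec, Fin.sum_univ_two]
  push_cast
  ring

lemma cf_mark {k : ℕ} (A : Matrix (Fin 2) (Fin 2) ℝ) (t : Fin k → Fin 2 → ℝ) :
    ∫ g, Complex.exp (Complex.I * ((∑ i, ∑ a, t i a * (A *ᵥ (g i)) a : ℝ) : ℂ))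
      ∂(gm (Fin k) (Fin 2)) =
      ((Real.exp (-(1 / 2) * ∑ i, ∑ a, ∑ c, t i a * (A * Aᵀ) a c * t i c) : ℝ) : ℂ) := by
  have e1 : ∀ g : Fin k → Fin 2 → ℝ,
      Complex.exp (Complex.I * ((∑ i, ∑ a, t i a * (A *ᵥ (g i)) a : ℝ) : ℂ)) =
      ∏ i, Complex.exp (Complex.I * ((∑ a, t i a * (A *ᵥ (g i)) a : ℝ) : ℂ)) := by
    intro g
    rw [← Complex.exp_sum]
    congr 1
    push_cast
    rw [Finset.mul_sum]
  simp only [e1]
  rw [integral_fintype_prod_eq_prod (𝕜 := ℂ) (μ := fun _ => gv (Fin 2))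
    (fun i (x : Fin 2 → ℝ) => Complex.exp (Complex.I * ((∑ a, t i a * (A *ᵥ x) a : ℝ) : ℂ)))]
  simp only [cf_vec]
  rw [← Complex.ofReal_prod, ← Real.exp_sum, Finset.mul_sum]


lemma integral_sq_gm {k : ℕ} (i : Fin k) (a : Fin 2) :
    Integrable (fun g : Fin k → Fin 2 → ℝ => (g i a) ^ 2) (gm (Fin k) (Fin 2)) ∧
    ∫ g, (g i a) ^ 2 ∂(gm (Fin k) (Fin 2)) = 1 := by
  have hmap : (gm (Fin k) (Fin 2)).map (fun g => g i a) = gaussianReal 0 1 := by
    have h1 : (gm (Fin k) (Fin 2)).map (fun g => g i) = gv (Fin 2) :=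
      (measurePreserving_eval (fun _ : Fin k => gv (Fin 2)) i).map_eq
    have h2 : (gv (Fin 2)).map (fun x => x a) = gaussianReal 0 1 :=
      (measurePreserving_eval (fun _ : Fin 2 => gaussianReal 0 1) a).map_eq
    have h3 : (fun g : Fin k → Fin 2 → ℝ => g i a) = (fun x : Fin 2 → ℝ => x a) ∘ (fun g => g i) :=
      rfl
    rw [h3, ← Measure.map_map (measurable_pi_apply a) (measurable_pi_apply i), h1, h2]
  have hint : Integrable (fun x : ℝ => x ^ 2) (gaussianReal 0 1) := by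
    have := (memLp_id_gaussianReal (μ := 0) (v := 1) 2).integrable_sq
    simpa using this
  have hval : ∫ x : ℝ, x ^ 2 ∂(gaussianReal 0 1) = 1 := by
    have h1 := variance_id_gaussianReal (μ := 0) (v := 1)
    rw [variance_eq_integral (by fun_prop)] at h1
    simpa using h1
  constructor
  · have : Integrable ((fun x : ℝ => x ^ 2) ∘ fun g : Fin k → Fin 2 → ℝ => g i a)
        (gm (Fin k) (Fin 2)) := by
      rw [← integrable_map_measure (by rw [hmap]; exact hint.aestronglyMeasurable)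
        (measurable_entry i a).aemeasurable, hmap]
      exact hint
    exact this
  · have := integral_map (μ := gm (Fin k) (Fin 2)) (φ := fun g : Fin k → Fin 2 → ℝ => g i a)
      (measurable_entry i a).aemeasurable (f := fun x : ℝ => x ^ 2) (by fun_prop)
    rw [← this, hmap, hval]

/-- squared size of the marks -/
def nsq {k : ℕ} (x : Fin k → Fin 2 → ℝ) : ℝ := ∑ i, ∑ a, (x i a) ^ 2

lemma nsq_nonneg {k : ℕ} (x : Fin k → Fin 2 → ℝ) : 0 ≤ nsq x :=
  Finset.sum_nonneg fun _ _ => Finset.sum_nonneg fun _ _ => sq_nonneg _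

lemma continuous_nsq {k : ℕ} : Continuous (nsq (k := k)) := by
  unfold nsq; fun_prop

lemma nsq_mulVec_le {k : ℕ} (A : Matrix (Fin 2) (Fin 2) ℝ) (g : Fin k → Fin 2 → ℝ) :
    nsq (fun i => A *ᵥ g i) ≤ (A * Aᵀ).trace * nsq g := by
  unfold nsq
  rw [Finset.mul_sum]
  refine Finset.sum_le_sum fun i _ => ?_
  simp only [Matrix.mulVec, dotProduct, Fin.sum_univ_two, Matrix.trace, Matrix.diag_apply,
    Matrix.mul_apply, Matrix.transpose_apply]
  nlinarith [sq_nonneg (A 0 0 * g i 1 - A 0 1 * g i 0), sq_nonneg (A 1 0 * g i 1 - A 1 1 * g i 0)]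

lemma integrable_nsq {k : ℕ} : Integrable (nsq (k := k)) (gm (Fin k) (Fin 2)) :=
  integrable_finsetSum _ fun i _ => integrable_finsetSum _ fun a _ => (integral_sq_gm i a).1

lemma integral_nsq {k : ℕ} : ∫ g, nsq g ∂(gm (Fin k) (Fin 2)) = 2 * k := by
  unfold nsq
  rw [integral_finsetSum _ fun i _ => integrable_finsetSum _ fun a _ => (integral_sq_gm i a).1]
  have : ∀ i : Fin k, ∫ g : Fin k → Fin 2 → ℝ, ∑ a, (g i a) ^ 2 ∂(gm (Fin k) (Fin 2)) = 2 := by
    intro i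
    rw [integral_finsetSum _ fun a _ => (integral_sq_gm i a).1]
    simp only [(integral_sq_gm i _).2]
    norm_num
  simp only [this]
  simp [mul_comm]

/-- the joint Gaussian law of the marks of the two edges -/
abbrev gm2 (k : ℕ) : Measure ((Fin k → Fin 2 → ℝ) × (Fin k → Fin 2 → ℝ)) :=
  (gm (Fin k) (Fin 2)).prod (gm (Fin k) (Fin 2))

lemma integral_nsq_two {k : ℕ} (A1 A2 : Matrix (Fin 2) (Fin 2) ℝ) {V : ℝ}
    (h1 : (A1 * A1ᵀ).trace ≤ V) (h2 : (A2 * A2ᵀ).trace ≤ V) :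
    Integrable (fun g : (Fin k → Fin 2 → ℝ) × (Fin k → Fin 2 → ℝ) =>
      nsq (fun i => A1 *ᵥ g.1 i) + nsq (fun i => A2 *ᵥ g.2 i)) (gm2 k) ∧
    ∫ g, (nsq (fun i => A1 *ᵥ g.1 i) + nsq (fun i => A2 *ᵥ g.2 i)) ∂(gm2 k) ≤ 4 * k * V := by
  have i1 : Integrable (fun g : (Fin k → Fin 2 → ℝ) × (Fin k → Fin 2 → ℝ) => nsq g.1) (gm2 k) :=
    integrable_nsq.comp_fst _
  have i2 : Integrable (fun g : (Fin k → Fin 2 → ℝ) × (Fin k → Fin 2 → ℝ) => nsq g.2) (gm2 k) :=
    integrable_nsq.comp_snd _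
  have v1 : ∫ g : (Fin k → Fin 2 → ℝ) × (Fin k → Fin 2 → ℝ), nsq g.1 ∂(gm2 k) = 2 * k := by
    rw [integral_fun_fst (fun x => nsq x)]
    simp [integral_nsq]
  have v2 : ∫ g : (Fin k → Fin 2 → ℝ) × (Fin k → Fin 2 → ℝ), nsq g.2 ∂(gm2 k) = 2 * k := by
    rw [integral_fun_snd (fun x => nsq x)]
    simp [integral_nsq]
  have hle : ∀ g : (Fin k → Fin 2 → ℝ) × (Fin k → Fin 2 → ℝ),
      nsq (fun i => A1 *ᵥ g.1 i) + nsq (fun i => A2 *ᵥ g.2 i) ≤ V * nsq g.1 + V * nsq g.2 := by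
    intro g
    have a1 := nsq_mulVec_le A1 g.1
    have a2 := nsq_mulVec_le A2 g.2
    have b1 := mul_le_mul_of_nonneg_right h1 (nsq_nonneg g.1)
    have b2 := mul_le_mul_of_nonneg_right h2 (nsq_nonneg g.2)
    linarith
  have hmaj : Integrable (fun g : (Fin k → Fin 2 → ℝ) × (Fin k → Fin 2 → ℝ) =>
      V * nsq g.1 + V * nsq g.2) (gm2 k) := (i1.const_mul V).add (i2.const_mul V)
  have hcont : Continuous (fun g : (Fin k → Fin 2 → ℝ) × (Fin k → Fin 2 → ℝ) =>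
      nsq (fun i => A1 *ᵥ g.1 i) + nsq (fun i => A2 *ᵥ g.2 i)) := by
    unfold nsq Matrix.mulVec dotProduct
    fun_prop
  have hI : Integrable (fun g : (Fin k → Fin 2 → ℝ) × (Fin k → Fin 2 → ℝ) =>
      nsq (fun i => A1 *ᵥ g.1 i) + nsq (fun i => A2 *ᵥ g.2 i)) (gm2 k) := by
    refine hmaj.mono' hcont.aestronglyMeasurable (Filter.Eventually.of_forall fun g => ?_)
    rw [Real.norm_eq_abs, abs_of_nonneg (add_nonneg (nsq_nonneg _) (nsq_nonneg _))]
    exact hle g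
  refine ⟨hI, ?_⟩
  calc _ ≤ ∫ g, (V * nsq g.1 + V * nsq g.2) ∂(gm2 k) := integral_mono hI hmaj hle
    _ = 4 * k * V := by
      rw [integral_add (i1.const_mul V) (i2.const_mul V), integral_const_mul, integral_const_mul,
        v1, v2]
      ring

end Gaussian

/-! ### Part 4: the comparison theorem -/

section Main

open Crest.Agent.R166.Gauss286 Matrix

/-- marks of one edge -/
abbrev XK (k : ℕ) := Fin k → Fin 2 → ℝ

/-- packing of the marks -/
def pk {k : ℕ} (y : XK k × XK k) : (Fin k × Fin 2) ⊕ (Fin k × Fin 2) → ℝ :=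
  Sum.elim (fun p => y.1 p.1 p.2) (fun p => y.2 p.1 p.2)

/-- unpacking of the marks -/
def unpk {k : ℕ} (x : (Fin k × Fin 2) ⊕ (Fin k × Fin 2) → ℝ) : XK k × XK k :=
  (fun i a => x (Sum.inl (i, a)), fun i a => x (Sum.inr (i, a)))

lemma unpk_pk {k : ℕ} (y : XK k × XK k) : unpk (pk y) = y := rfl

lemma continuous_unpk {k : ℕ} : Continuous (unpk (k := k)) := by
  unfold unpk; fun_prop

/-- one-edge exponential -/
def ex {k : ℕ} (t : XK k) (x : XK k) : ℂ :=
  Complex.exp (Complex.I * ((∑ i, ∑ a, t i a * x i a : ℝ) : ℂ))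

lemma norm_ex {k : ℕ} (t x : XK k) : ‖ex t x‖ = 1 := by
  unfold ex
  rw [mul_comm, Complex.norm_exp_ofReal_mul_I]

lemma continuous_ex {k : ℕ} (t : XK k) : Continuous (ex t) := by
  unfold ex; fun_prop

lemma exp_pk {k : ℕ} (τ : (Fin k × Fin 2) ⊕ (Fin k × Fin 2) → ℝ) (y : XK k × XK k) :
    Complex.exp (Complex.I * ((∑ i, τ i * pk y i : ℝ) : ℂ)) =
      ex (fun i a => τ (Sum.inl (i, a))) y.1 * ex (fun i a => τ (Sum.inr (i, a))) y.2 := by
  unfold ex
  rw [← Complex.exp_add]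
  congr 1
  rw [← mul_add, ← Complex.ofReal_add]
  congr 2
  rw [Fintype.sum_sum_type, Fintype.sum_prod_type, Fintype.sum_prod_type]
  rfl

/-- Gaussian characteristic function of the marks of an edge with covariance `S` -/
def ga {k : ℕ} (t : XK k) (S : Matrix (Fin 2) (Fin 2) ℝ) : ℝ :=
  Real.exp (-(1 / 2) * ∑ i, ∑ a, ∑ c, t i a * S a c * t i c)

lemma ga_le_one {k : ℕ} (t : XK k) (A : Matrix (Fin 2) (Fin 2) ℝ) : ga t (A * Aᵀ) ≤ 1 := by
  unfold ga
  rw [Real.exp_le_one_iff]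
  have : 0 ≤ ∑ i, ∑ a, ∑ c, t i a * (A * Aᵀ) a c * t i c := by
    refine Finset.sum_nonneg fun i _ => ?_
    simp only [Fin.sum_univ_two, Matrix.mul_apply, Matrix.transpose_apply]
    nlinarith [sq_nonneg (t i 0 * A 0 0 + t i 1 * A 1 0), sq_nonneg (t i 0 * A 0 1 + t i 1 * A 1 1)]
  linarith

lemma integral_ex {k : ℕ} (t : XK k) (A : Matrix (Fin 2) (Fin 2) ℝ) :
    ∫ g, ex t (fun i => A *ᵥ g i) ∂(gm (Fin k) (Fin 2)) = (ga t (A * Aᵀ) : ℂ) :=
  cf_mark A t

lemma integral_ex_mul {k : ℕ} (t1 t2 : XK k) (A1 A2 : Matrix (Fin 2) (Fin 2) ℝ) :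
    ∫ g, ex t1 (fun i => A1 *ᵥ g.1 i) * ex t2 (fun i => A2 *ᵥ g.2 i) ∂(gm2 k) =
      (ga t1 (A1 * A1ᵀ) : ℂ) * (ga t2 (A2 * A2ᵀ) : ℂ) := by
  rw [integral_prod_mul (fun x : XK k => ex t1 (fun i => A1 *ᵥ x i))
    (fun x : XK k => ex t2 (fun i => A2 *ᵥ x i)), integral_ex, integral_ex]

lemma continuous_map_mulVec {k : ℕ} (A1 A2 : Matrix (Fin 2) (Fin 2) ℝ) :
    Continuous fun g : XK k × XK k => ((fun i => A1 *ᵥ g.1 i, fun i => A2 *ᵥ g.2 i) :
      XK k × XK k) := by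
  unfold Matrix.mulVec dotProduct
  fun_prop

/-- average of a bounded function -/
lemma norm_avg_le {α : Type*} (s : Finset α) (hs : s.Nonempty) (f : α → ℂ) {B : ℝ}
    (h : ∀ p ∈ s, ‖f p‖ ≤ B) : ‖(∑ p ∈ s, f p) / (s.card : ℂ)‖ ≤ B := by
  have hc : (0 : ℝ) < s.card := by exact_mod_cast hs.card_pos
  rw [norm_div, Complex.norm_natCast, div_le_iff₀ hc]
  calc ‖∑ p ∈ s, f p‖ ≤ ∑ p ∈ s, ‖f p‖ := norm_sum_le _ _
    _ ≤ ∑ _p ∈ s, B := Finset.sum_le_sum h
    _ = B * s.card := by rw [Finset.sum_const, nsmul_eq_mul, mul_comm]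

/-- double average -/
lemma norm_avg2_le {α : Type*} (s : Finset α) (hs : s.Nonempty) (f : α → α → ℂ) (n : α → ℝ)
    {B D C : ℝ} (hD : 0 ≤ D) (h : ∀ p ∈ s, ∀ p' ∈ s, ‖f p p'‖ ≤ B + D * (n p + n p'))
    (hn : ∑ p ∈ s, n p ≤ C * s.card) :
    ‖(∑ p ∈ s, ∑ p' ∈ s, f p p') / (s.card : ℂ) ^ 2‖ ≤ B + 2 * D * C := by
  have hc : (0 : ℝ) < s.card := by exact_mod_cast hs.card_pos
  rw [norm_div, norm_pow, Complex.norm_natCast, div_le_iff₀ (by positivity)]
  calc ‖∑ p ∈ s, ∑ p' ∈ s, f p p'‖ ≤ ∑ p ∈ s, ‖∑ p' ∈ s, f p p'‖ := norm_sum_le _ _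
    _ ≤ ∑ p ∈ s, ∑ p' ∈ s, ‖f p p'‖ := Finset.sum_le_sum fun p _ => norm_sum_le _ _
    _ ≤ ∑ p ∈ s, ∑ p' ∈ s, (B + D * (n p + n p')) :=
        Finset.sum_le_sum fun p hp => Finset.sum_le_sum fun p' hp' => h p hp p' hp'
    _ = B * (s.card : ℝ) ^ 2 + 2 * D * ((∑ p ∈ s, n p) * s.card) := by
        simp only [Finset.sum_add_distrib, ← Finset.mul_sum, Finset.sum_const, nsmul_eq_mul]
        ring
    _ ≤ (B + 2 * D * C) * (s.card : ℝ) ^ 2 := by
        have : 2 * D * ((∑ p ∈ s, n p) * s.card) ≤ 2 * D * ((C * s.card) * s.card) := by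
          gcongr
        nlinarith

/-- product of averages -/
lemma norm_prod_sub_le {U1 U2 V1 V2 : ℂ} {B e : ℝ} (h1 : ‖U1 - V1‖ ≤ e) (h2 : ‖U2 - V2‖ ≤ e)
    (hU : ‖U2‖ ≤ B) (hV : ‖V1‖ ≤ B) : ‖U1 * U2 - V1 * V2‖ ≤ 2 * B * e := by
  have hB : 0 ≤ B := (norm_nonneg _).trans hU
  have he : 0 ≤ e := (norm_nonneg _).trans h1
  have : U1 * U2 - V1 * V2 = (U1 - V1) * U2 + V1 * (U2 - V2) := by ring
  rw [this]
  calc _ ≤ ‖U1 - V1‖ * ‖U2‖ + ‖V1‖ * ‖U2 - V2‖ := by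
        refine (norm_add_le _ _).trans ?_
        rw [norm_mul, norm_mul]
    _ ≤ e * B + B * e := by gcongr
    _ = 2 * B * e := by ring

/-- the family of test pairs -/
lemma exists_bound_compact {K : Set M2} (hK : IsCompact K) (f : M2 → ℝ) (hf : Continuous f) :
    ∃ B : ℝ, 0 ≤ B ∧ ∀ b ∈ K, |f b| ≤ B := by
  obtain ⟨B, hB⟩ := hK.exists_bound_of_continuousOn hf.continuousOn
  exact ⟨max B 0, le_max_right _ _, fun b hb => (hB b hb).trans (le_max_left _ _)⟩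

/-- **Comparison theorem** for section 50: finitely many characteristic-function hypotheses (in
the exact form of the conclusion of Theorem B) imply the comparison of the double averages,
uniformly in the parameter `φ`. -/
theorem sw2 {P : Type*} [MetricSpace P] [CompactSpace P] {k : ℕ} {ρ : ℝ}
    (F : P → M2 × M2 → XK k × XK k → ℝ)
    (hF : Continuous fun y : P × (M2 × M2) × (XK k × XK k) => F y.1 y.2.1 y.2.2)
    {CF : ℝ} (hCF : ∀ φ b x, |F φ b x| ≤ CF) {Kb : Set M2} (hKb : IsCompact Kb)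
    (hsupp : ∀ φ b x, F φ b x ≠ 0 → b.1 ∈ Kb ∧ b.2 ∈ Kb) (C : ℝ) {ε' : ℝ} (hε' : 0 < ε') :
    ∃ (N : ℕ) (τ : Fin N → XK k) (χ : Fin N → M2 → ℝ) (ε : ℝ), 0 < ε ∧
      (∀ j, Continuous (χ j) ∧ HasCompactSupport (χ j)) ∧
      ∀ {α : Type} (s : Finset α) (b : α → M2) (q : α → XK k)
        (A : α → Matrix (Fin 2) (Fin 2) ℝ), s.Nonempty →
        (∀ p ∈ s, A p * (A p)ᵀ = Matrix.of fun a c => (b p a c).im / (Real.pi * ρ)) →
        (∑ p ∈ s, ∑ i, ∑ a, (q p i a) ^ 2 ≤ C * s.card) →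
        (∀ j, ‖(∑ p ∈ s, (χ j (b p) : ℂ) * (Complex.exp (Complex.I *
            ((∑ i, (τ j i 0 * q p i 0 + τ j i 1 * q p i 1) : ℝ) : ℂ)) -
            ((Real.exp (-(1 / 2) * ∑ i, ∑ a, ∑ c, τ j i a *
              ((b p a c).im / (Real.pi * ρ)) * τ j i c) : ℝ) : ℂ))) / (s.card : ℂ)‖ ≤ ε) →
        ∀ φ, |(∑ p1 ∈ s, ∑ p2 ∈ s, (F φ (b p1, b p2) (q p1, q p2) -
          ∫ g, F φ (b p1, b p2) (fun i => A p1 *ᵥ g.1 i, fun i => A p2 *ᵥ g.2 i) ∂(gm2 k))) /
            (s.card : ℝ) ^ 2| ≤ ε' := by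
  classical
  -- constants
  obtain ⟨χ0f, hχ0one, -, hχ0c, hχ01⟩ : ∃ f : C(M2, ℝ), Set.EqOn f 1 Kb ∧ Set.EqOn f 0 ∅ ∧
      HasCompactSupport f ∧ ∀ x, f x ∈ Set.Icc (0 : ℝ) 1 := by
    have : LocallyCompactSpace M2 := inferInstanceAs (LocallyCompactSpace (Fin 2 → Fin 2 → ℂ))
    exact exists_continuous_one_zero_of_isCompact hKb isClosed_empty (Set.disjoint_empty _)
  set K' : Set M2 := tsupport χ0f with hK'
  have hK'c : IsCompact K' := hχ0c
  set CF' : ℝ := max CF 0 with hCF'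
  have hCF2 : ∀ φ b x, |F φ b x| ≤ CF' := fun φ b x => (hCF φ b x).trans (le_max_left _ _)
  have hCF0 : 0 ≤ CF' := le_max_right _ _
  obtain ⟨V, hV0, hV⟩ := exists_bound_compact hK'c
    (fun b => (b 0 0).im / (Real.pi * ρ) + (b 1 1).im / (Real.pi * ρ)) (by fun_prop)
  set C' : ℝ := max C 0 with hC'
  have hC0 : 0 ≤ C' := le_max_right _ _
  set ε1 : ℝ := ε' / 8 with hε1
  have hε1p : 0 < ε1 := by positivity
  set W : ℝ := 2 * CF' + ε1 with hW
  have hWp : 0 < W := by positivity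
  -- the radius
  obtain ⟨R, hR1, hR2⟩ : ∃ R : ℝ, 0 < R ∧ W / R ^ 2 * (2 * C' + 4 * k * V) ≤ ε1 := by
    have hpos : 0 ≤ 2 * C' + 4 * k * V := by positivity
    refine ⟨Real.sqrt (W * (2 * C' + 4 * k * V) / ε1 + 1), Real.sqrt_pos.2 (by positivity), ?_⟩
    rw [Real.sq_sqrt (by positivity), div_mul_eq_mul_div, div_le_iff₀ (by positivity)]
    have : ε1 * (W * (2 * C' + 4 * k * V) / ε1 + 1) = W * (2 * C' + 4 * k * V) + ε1 := by
      field_simp
    linarith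
  have hDW : 0 ≤ W / R ^ 2 := by positivity
  -- approximation
  obtain ⟨N, c, χ1, χ2, τ, happ, hbd⟩ := approx_box (P := P) (ι := (Fin k × Fin 2) ⊕ (Fin k × Fin 2))
    (fun φ b x => F φ b (unpk x)) (by
      exact hF.comp (Continuous.prodMk continuous_fst (Continuous.prodMk (by fun_prop)
        (continuous_unpk.comp (by fun_prop))))) (CF := CF') (fun φ b x => hCF2 _ _ _) χ0f hχ0c
    (fun b => (hχ01 b).1) (fun b => (hχ01 b).2) (fun φ b x hne => by
      obtain ⟨h1, h2⟩ := hsupp φ b _ hne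
      exact ⟨hχ0one h1, hχ0one h2⟩) hR1 hε1p
  -- bounds on the coefficients
  have hcbd : ∀ j, ∃ B : ℝ, 0 ≤ B ∧ ∀ φ, ‖c j φ‖ ≤ B := by
    intro j
    obtain ⟨B, hB⟩ := (isCompact_univ (X := P)).exists_bound_of_continuousOn
      (c j).continuous.continuousOn
    exact ⟨max B 0, le_max_right _ _, fun φ => (hB φ (Set.mem_univ _)).trans (le_max_left _ _)⟩
  choose Bc hBc0 hBc using hcbd
  -- the cut-offs
  set X1 : Fin N → M2 → ℝ := fun j b => χ0f b * χ1 j b with hX1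
  set X2 : Fin N → M2 → ℝ := fun j b => χ0f b * χ2 j b with hX2
  have hX1c : ∀ j, Continuous (X1 j) := fun j => by simp only [hX1]; fun_prop
  have hX2c : ∀ j, Continuous (X2 j) := fun j => by simp only [hX2]; fun_prop
  have hX1s : ∀ j, HasCompactSupport (X1 j) := fun j => hχ0c.mul_right
  have hX2s : ∀ j, HasCompactSupport (X2 j) := fun j => hχ0c.mul_right
  have hXb : ∀ f : M2 → ℝ, Continuous f → HasCompactSupport f → ∃ B : ℝ, 0 ≤ B ∧ ∀ b, |f b| ≤ B := by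
    intro f hf hs
    obtain ⟨B, hB⟩ := hs.exists_bound_of_continuous hf
    exact ⟨max B 0, le_max_right _ _, fun b => (hB b).trans (le_max_left _ _)⟩
  choose B1 hB10 hB1 using fun j => hXb (X1 j) (hX1c j) (hX1s j)
  choose B2 hB20 hB2 using fun j => hXb (X2 j) (hX2c j) (hX2s j)
  set T : ℝ := ∑ j, Bc j * (2 * (B1 j + B2 j)) with hT
  have hT0 : 0 ≤ T := Finset.sum_nonneg fun j _ => by
    have := hBc0 j; have := hB10 j; have := hB20 j; positivity
  set ε : ℝ := ε1 / (T + 1) with hε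
  have hεp : 0 < ε := by positivity
  have hTε : T * ε ≤ ε1 := by
    rw [hε, mul_div_assoc', div_le_iff₀ (by positivity)]
    nlinarith
  -- left and right frequencies
  set t1 : Fin N → XK k := fun j i a => τ j (Sum.inl (i, a)) with ht1
  set t2 : Fin N → XK k := fun j i a => τ j (Sum.inr (i, a)) with ht2
  refine ⟨N + N, Fin.append t1 t2, Fin.append X1 X2, ε, hεp, ?_, ?_⟩
  · intro j
    refine Fin.addCases (fun j => ?_) (fun j => ?_) j
    · rw [Fin.append_left]; exact ⟨hX1c j, hX1s j⟩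
    · rw [Fin.append_right]; exact ⟨hX2c j, hX2s j⟩
  intro α s b q A hs hA hq hyp φ
  have hc : (0 : ℝ) < s.card := by exact_mod_cast hs.card_pos
  have hcC : (s.card : ℂ) ≠ 0 := by exact_mod_cast hs.card_pos.ne'
  -- the hypotheses on the two families
  have conv : ∀ (t : XK k) (X : M2 → ℝ),
      ‖(∑ p ∈ s, (X (b p) : ℂ) * (Complex.exp (Complex.I *
            ((∑ i, (t i 0 * q p i 0 + t i 1 * q p i 1) : ℝ) : ℂ)) -
            ((Real.exp (-(1 / 2) * ∑ i, ∑ a, ∑ c, t i a *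
              ((b p a c).im / (Real.pi * ρ)) * t i c) : ℝ) : ℂ))) / (s.card : ℂ)‖ ≤ ε →
      ‖(∑ p ∈ s, (X (b p) : ℂ) * ex t (q p)) / (s.card : ℂ) -
        (∑ p ∈ s, (X (b p) : ℂ) * (ga t (A p * (A p)ᵀ) : ℂ)) / (s.card : ℂ)‖ ≤ ε := by
    intro t X h
    rw [← sub_div, ← Finset.sum_sub_distrib]
    convert h using 4 with p hp
    rw [← mul_sub]
    congr 2
    · unfold ex
      simp only [Fin.sum_univ_two]
    · unfold ga
      rw [hA p hp]
      simp only [Matrix.of_apply]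
  have hy1 : ∀ j, ‖(∑ p ∈ s, (X1 j (b p) : ℂ) * ex (t1 j) (q p)) / (s.card : ℂ) -
        (∑ p ∈ s, (X1 j (b p) : ℂ) * (ga (t1 j) (A p * (A p)ᵀ) : ℂ)) / (s.card : ℂ)‖ ≤ ε := by
    intro j
    have h := hyp (Fin.castAdd N j)
    simp only [Fin.append_left] at h
    exact conv _ _ h
  have hy2 : ∀ j, ‖(∑ p ∈ s, (X2 j (b p) : ℂ) * ex (t2 j) (q p)) / (s.card : ℂ) -
        (∑ p ∈ s, (X2 j (b p) : ℂ) * (ga (t2 j) (A p * (A p)ᵀ) : ℂ)) / (s.card : ℂ)‖ ≤ ε := by
    intro j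
    have h := hyp (Fin.natAdd N j)
    simp only [Fin.append_right] at h
    exact conv _ _ h
  have hV1 : ∀ j, ‖(∑ p ∈ s, (X1 j (b p) : ℂ) * (ga (t1 j) (A p * (A p)ᵀ) : ℂ)) /
      (s.card : ℂ)‖ ≤ B1 j + B2 j := by
    intro j
    refine norm_avg_le s hs _ fun p _ => ?_
    rw [norm_mul, Complex.norm_real, Complex.norm_real, Real.norm_eq_abs, Real.norm_eq_abs,
      abs_of_pos (show 0 < ga (t1 j) (A p * (A p)ᵀ) from Real.exp_pos _)]
    have h1 := hB1 j (b p)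
    have h2 := ga_le_one (t1 j) (A p)
    have h3 : 0 < ga (t1 j) (A p * (A p)ᵀ) := Real.exp_pos _
    have h4 := hB20 j
    nlinarith [abs_nonneg (X1 j (b p))]
  have hU2 : ∀ j, ‖(∑ p ∈ s, (X2 j (b p) : ℂ) * ex (t2 j) (q p)) / (s.card : ℂ)‖ ≤
      B1 j + B2 j := by
    intro j
    refine norm_avg_le s hs _ fun p _ => ?_
    rw [norm_mul, Complex.norm_real, Real.norm_eq_abs, norm_ex, mul_one]
    have h1 := hB2 j (b p)
    have h4 := hB10 j
    linarith
  -- pointwise bound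
  have hpt : ∀ φ bb (y : XK k × XK k), ‖(F φ bb y : ℂ) - trigSum χ0f c χ1 χ2 τ φ bb (pk y)‖ ≤
      ε1 + W / R ^ 2 * (nsq y.1 + nsq y.2) := by
    intro φ bb y
    have hn : 0 ≤ nsq y.1 + nsq y.2 := add_nonneg (nsq_nonneg _) (nsq_nonneg _)
    by_cases hall : ∀ i, |pk y i| ≤ R
    · have h := happ φ bb (pk y) hall
      rw [unpk_pk] at h
      have : 0 ≤ W / R ^ 2 * (nsq y.1 + nsq y.2) := mul_nonneg hDW hn
      linarith
    · push Not at hall
      obtain ⟨i, hi⟩ := hall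
      have hge : (pk y i) ^ 2 ≤ nsq y.1 + nsq y.2 := by
        rcases i with ⟨i, a⟩ | ⟨i, a⟩
        · have h1 : (y.1 i a) ^ 2 ≤ nsq y.1 := by
            unfold nsq
            refine (Finset.single_le_sum (f := fun a => (y.1 i a) ^ 2)
              (fun a _ => sq_nonneg _) (Finset.mem_univ a)).trans ?_
            exact Finset.single_le_sum (f := fun i => ∑ a, (y.1 i a) ^ 2)
              (fun i _ => Finset.sum_nonneg fun _ _ => sq_nonneg _) (Finset.mem_univ i)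
          have h2 := nsq_nonneg y.2
          show (y.1 i a) ^ 2 ≤ _
          linarith
        · have h1 : (y.2 i a) ^ 2 ≤ nsq y.2 := by
            unfold nsq
            refine (Finset.single_le_sum (f := fun a => (y.2 i a) ^ 2)
              (fun a _ => sq_nonneg _) (Finset.mem_univ a)).trans ?_
            exact Finset.single_le_sum (f := fun i => ∑ a, (y.2 i a) ^ 2)
              (fun i _ => Finset.sum_nonneg fun _ _ => sq_nonneg _) (Finset.mem_univ i)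
          have h2 := nsq_nonneg y.1
          show (y.2 i a) ^ 2 ≤ _
          linarith
      have hRsq : R ^ 2 ≤ nsq y.1 + nsq y.2 := by
        have h1 : R ^ 2 ≤ |pk y i| ^ 2 := by gcongr
        rw [sq_abs] at h1
        linarith
      have hWle : W ≤ W / R ^ 2 * (nsq y.1 + nsq y.2) := by
        calc W = W / R ^ 2 * R ^ 2 := by field_simp
          _ ≤ _ := by gcongr
      calc _ ≤ ‖(F φ bb y : ℂ)‖ + ‖trigSum χ0f c χ1 χ2 τ φ bb (pk y)‖ := norm_sub_le _ _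
        _ ≤ CF' + (CF' + ε1) := by
            refine add_le_add ?_ (hbd _ _ _)
            rw [Complex.norm_real]; exact hCF2 _ _ _
        _ = W := by rw [hW]; ring
        _ ≤ _ := by linarith
  have hz : ∀ φ (bb : M2 × M2) (y : XK k × XK k), (bb.1 ∉ K' ∨ bb.2 ∉ K') →
      (F φ bb y : ℂ) = 0 ∧ trigSum χ0f c χ1 χ2 τ φ bb (pk y) = 0 := by
    intro φ bb y hb
    constructor
    · have : F φ bb y = 0 := by
        by_contra hne
        obtain ⟨e1, e2⟩ := hsupp φ bb y hne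
        have e1' : χ0f bb.1 = 1 := hχ0one e1
        have e2' : χ0f bb.2 = 1 := hχ0one e2
        rcases hb with hb | hb
        · have : χ0f bb.1 = 0 := image_eq_zero_of_notMem_tsupport hb
          linarith
        · have : χ0f bb.2 = 0 := image_eq_zero_of_notMem_tsupport hb
          linarith
      rw [this]; simp
    · unfold trigSum
      refine Finset.sum_eq_zero fun j _ => ?_
      rcases hb with hb | hb
      · have : χ0f bb.1 = 0 := image_eq_zero_of_notMem_tsupport hb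
        simp [this]
      · have : χ0f bb.2 = 0 := image_eq_zero_of_notMem_tsupport hb
        simp [this]
  -- the trigonometric sum factorises
  have htr : ∀ φ (bb : M2 × M2) (y : XK k × XK k), trigSum χ0f c χ1 χ2 τ φ bb (pk y) =
      ∑ j, c j φ * ((X1 j bb.1 : ℝ) : ℂ) * ((X2 j bb.2 : ℝ) : ℂ) *
        (ex (t1 j) y.1 * ex (t2 j) y.2) := by
    intro φ bb y
    unfold trigSum
    refine Finset.sum_congr rfl fun j _ => ?_
    rw [exp_pk]
  -- integrability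
  have hFcont : ∀ φ (bb : M2 × M2), Continuous fun y : XK k × XK k => F φ bb y := by
    intro φ bb
    exact hF.comp (Continuous.prodMk continuous_const (Continuous.prodMk continuous_const
      continuous_id))
  have hTcont : ∀ φ (bb : M2 × M2), Continuous fun y : XK k × XK k =>
      trigSum χ0f c χ1 χ2 τ φ bb (pk y) := by
    intro φ bb
    simp only [htr]
    refine continuous_finsetSum _ fun j _ => ?_
    exact continuous_const.mul (((continuous_ex _).comp continuous_fst).mul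
      ((continuous_ex _).comp continuous_snd))
  have hFint : ∀ φ (bb : M2 × M2) (A1 A2 : Matrix (Fin 2) (Fin 2) ℝ), Integrable
      (fun g : XK k × XK k => (F φ bb (fun i => A1 *ᵥ g.1 i, fun i => A2 *ᵥ g.2 i) : ℂ))
      (gm2 k) := by
    intro φ bb A1 A2
    refine Integrable.of_bound (Continuous.aestronglyMeasurable
      (Complex.continuous_ofReal.comp ((hFcont φ bb).comp (continuous_map_mulVec A1 A2)))) CF'
      (Filter.Eventually.of_forall fun g => ?_)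
    rw [Complex.norm_real]; exact hCF2 _ _ _
  have hTint : ∀ φ (bb : M2 × M2) (A1 A2 : Matrix (Fin 2) (Fin 2) ℝ), Integrable
      (fun g : XK k × XK k => trigSum χ0f c χ1 χ2 τ φ bb
        (pk (fun i => A1 *ᵥ g.1 i, fun i => A2 *ᵥ g.2 i))) (gm2 k) := by
    intro φ bb A1 A2
    exact Integrable.of_bound (Continuous.aestronglyMeasurable
      ((hTcont φ bb).comp (continuous_map_mulVec A1 A2))) (CF' + ε1)
      (Filter.Eventually.of_forall fun g => hbd _ _ _)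
  -- Gaussian integral of the trigonometric sum
  have hTg : ∀ φ (bb : M2 × M2) (A1 A2 : Matrix (Fin 2) (Fin 2) ℝ),
      ∫ g, trigSum χ0f c χ1 χ2 τ φ bb (pk (fun i => A1 *ᵥ g.1 i, fun i => A2 *ᵥ g.2 i)) ∂(gm2 k) =
      ∑ j, c j φ * ((X1 j bb.1 : ℝ) : ℂ) * ((X2 j bb.2 : ℝ) : ℂ) *
        ((ga (t1 j) (A1 * A1ᵀ) : ℂ) * (ga (t2 j) (A2 * A2ᵀ) : ℂ)) := by
    intro φ bb A1 A2
    simp only [htr]
    rw [integral_finsetSum]
    · refine Finset.sum_congr rfl fun j _ => ?_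
      rw [integral_const_mul, integral_ex_mul]
    · intro j _
      refine Integrable.const_mul ?_ _
      refine Integrable.of_bound (Continuous.aestronglyMeasurable
        (((continuous_ex (t1 j)).comp (continuous_fst.comp (continuous_map_mulVec A1 A2))).mul
          ((continuous_ex (t2 j)).comp (continuous_snd.comp (continuous_map_mulVec A1 A2))))) 1
        (Filter.Eventually.of_forall fun g => ?_)
      rw [norm_mul, norm_ex, norm_ex, mul_one]
  -- first part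
  have P1 : ‖(∑ p1 ∈ s, ∑ p2 ∈ s, ((F φ (b p1, b p2) (q p1, q p2) : ℂ) -
      trigSum χ0f c χ1 χ2 τ φ (b p1, b p2) (pk (q p1, q p2)))) / (s.card : ℂ) ^ 2‖ ≤
      ε1 + 2 * (W / R ^ 2) * C' := by
    refine norm_avg2_le s hs _ (fun p => nsq (q p)) hDW (fun p _ p' _ => hpt _ _ _) ?_
    refine hq.trans ?_
    gcongr
    exact le_max_left _ _
  -- second part
  have P2 : ‖(∑ p1 ∈ s, ∑ p2 ∈ s, (trigSum χ0f c χ1 χ2 τ φ (b p1, b p2) (pk (q p1, q p2)) -
      ∑ j, c j φ * ((X1 j (b p1) : ℝ) : ℂ) * ((X2 j (b p2) : ℝ) : ℂ) *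
        ((ga (t1 j) (A p1 * (A p1)ᵀ) : ℂ) * (ga (t2 j) (A p2 * (A p2)ᵀ) : ℂ)))) /
        (s.card : ℂ) ^ 2‖ ≤ ε1 := by
    have e1 : (∑ p1 ∈ s, ∑ p2 ∈ s, (trigSum χ0f c χ1 χ2 τ φ (b p1, b p2) (pk (q p1, q p2)) -
      ∑ j, c j φ * ((X1 j (b p1) : ℝ) : ℂ) * ((X2 j (b p2) : ℝ) : ℂ) *
        ((ga (t1 j) (A p1 * (A p1)ᵀ) : ℂ) * (ga (t2 j) (A p2 * (A p2)ᵀ) : ℂ)))) /
        (s.card : ℂ) ^ 2 =
        ∑ j, c j φ * (((∑ p ∈ s, (X1 j (b p) : ℂ) * ex (t1 j) (q p)) / (s.card : ℂ)) *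
          ((∑ p ∈ s, (X2 j (b p) : ℂ) * ex (t2 j) (q p)) / (s.card : ℂ)) -
          ((∑ p ∈ s, (X1 j (b p) : ℂ) * (ga (t1 j) (A p * (A p)ᵀ) : ℂ)) / (s.card : ℂ)) *
          ((∑ p ∈ s, (X2 j (b p) : ℂ) * (ga (t2 j) (A p * (A p)ᵀ) : ℂ)) / (s.card : ℂ))) := by
      have e2 : ∀ j, c j φ * (((∑ p ∈ s, (X1 j (b p) : ℂ) * ex (t1 j) (q p)) / (s.card : ℂ)) *
          ((∑ p ∈ s, (X2 j (b p) : ℂ) * ex (t2 j) (q p)) / (s.card : ℂ)) -
          ((∑ p ∈ s, (X1 j (b p) : ℂ) * (ga (t1 j) (A p * (A p)ᵀ) : ℂ)) / (s.card : ℂ)) *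
          ((∑ p ∈ s, (X2 j (b p) : ℂ) * (ga (t2 j) (A p * (A p)ᵀ) : ℂ)) / (s.card : ℂ))) =
          (∑ p1 ∈ s, ∑ p2 ∈ s, (c j φ * ((X1 j (b p1) : ℝ) : ℂ) * ((X2 j (b p2) : ℝ) : ℂ) *
            (ex (t1 j) (q p1) * ex (t2 j) (q p2)) -
            c j φ * ((X1 j (b p1) : ℝ) : ℂ) * ((X2 j (b p2) : ℝ) : ℂ) *
            ((ga (t1 j) (A p1 * (A p1)ᵀ) : ℂ) * (ga (t2 j) (A p2 * (A p2)ᵀ) : ℂ)))) /
            (s.card : ℂ) ^ 2 := by
        intro j
        rw [div_mul_div_comm, div_mul_div_comm, ← sub_div, mul_div_assoc', Finset.sum_mul_sum,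
          Finset.sum_mul_sum, ← Finset.sum_sub_distrib, Finset.mul_sum, sq]
        congr 1
        refine Finset.sum_congr rfl fun p1 _ => ?_
        rw [← Finset.sum_sub_distrib, Finset.mul_sum]
        refine Finset.sum_congr rfl fun p2 _ => ?_
        ring
      simp only [e2]
      rw [← Finset.sum_div]
      congr 1
      symm
      rw [Finset.sum_comm]
      refine Finset.sum_congr rfl fun p1 _ => ?_
      rw [Finset.sum_comm]
      refine Finset.sum_congr rfl fun p2 _ => ?_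
      rw [htr, ← Finset.sum_sub_distrib]
    rw [e1]
    refine (norm_sum_le _ _).trans ?_
    calc _ ≤ ∑ j, Bc j * (2 * (B1 j + B2 j)) * ε := by
          refine Finset.sum_le_sum fun j _ => ?_
          rw [norm_mul, mul_assoc (Bc j)]
          refine mul_le_mul (hBc j φ) ?_ (norm_nonneg _) (hBc0 j)
          exact norm_prod_sub_le (hy1 j) (hy2 j) (hU2 j) (hV1 j)
      _ = T * ε := by rw [hT, Finset.sum_mul]
      _ ≤ ε1 := hTε
  -- third part
  have P3 : ‖(∑ p1 ∈ s, ∑ p2 ∈ s, ((∑ j, c j φ * ((X1 j (b p1) : ℝ) : ℂ) *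
      ((X2 j (b p2) : ℝ) : ℂ) *
        ((ga (t1 j) (A p1 * (A p1)ᵀ) : ℂ) * (ga (t2 j) (A p2 * (A p2)ᵀ) : ℂ))) -
      ((∫ g, F φ (b p1, b p2) (fun i => A p1 *ᵥ g.1 i, fun i => A p2 *ᵥ g.2 i) ∂(gm2 k) : ℝ) :
        ℂ))) / (s.card : ℂ) ^ 2‖ ≤ (ε1 + W / R ^ 2 * (4 * k * V)) + 2 * 0 * 0 := by
    refine norm_avg2_le s hs _ (fun _ => 0) le_rfl (fun p hp p' hp' => ?_) (by simp)
    have hTgp := hTg φ (b p, b p') (A p) (A p')
    dsimp only at hTgp
    rw [zero_mul, add_zero, ← hTgp, ← integral_complex_ofReal,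
      ← integral_sub (hTint _ _ _ _) (hFint _ _ _ _)]
    have hRHS : 0 ≤ ε1 + W / R ^ 2 * (4 * k * V) := by positivity
    by_cases hbK : b p ∈ K' ∧ b p' ∈ K'
    · have htrace : ∀ p0 ∈ s, b p0 ∈ K' → (A p0 * (A p0)ᵀ).trace ≤ V := by
        intro p0 hp0 hb0
        rw [hA p0 hp0, Matrix.trace_fin_two]
        exact (le_abs_self _).trans (hV _ hb0)
      obtain ⟨hi, hle⟩ := integral_nsq_two (k := k) (A p) (A p') (htrace p hp hbK.1)
        (htrace p' hp' hbK.2)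
      refine (norm_integral_le_of_norm_le (g := fun g : XK k × XK k => ε1 + W / R ^ 2 *
        (nsq (fun i => A p *ᵥ g.1 i) + nsq (fun i => A p' *ᵥ g.2 i))) ?_
        (Filter.Eventually.of_forall fun g => ?_)).trans ?_
      · exact (integrable_const _).add (hi.const_mul _)
      · rw [norm_sub_rev]
        exact hpt φ (b p, b p') (fun i => A p *ᵥ g.1 i, fun i => A p' *ᵥ g.2 i)
      · rw [integral_add (integrable_const _) (hi.const_mul _), integral_const_mul,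
          integral_const, probReal_univ, one_smul]
        gcongr
    · have hb' : b p ∉ K' ∨ b p' ∉ K' := by tauto
      have : ∀ g : XK k × XK k, trigSum χ0f c χ1 χ2 τ φ (b p, b p')
          (pk (fun i => A p *ᵥ g.1 i, fun i => A p' *ᵥ g.2 i)) -
          (F φ (b p, b p') (fun i => A p *ᵥ g.1 i, fun i => A p' *ᵥ g.2 i) : ℂ) = 0 := by
        intro g
        obtain ⟨h1, h2⟩ := hz φ (b p, b p') (fun i => A p *ᵥ g.1 i, fun i => A p' *ᵥ g.2 i) hb'
        rw [h1, h2, sub_zero]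
      simp only [this, integral_zero, norm_zero]
      exact hRHS
  -- conclusion
  rw [← Real.norm_eq_abs, ← Complex.norm_real]
  have hsplit : (((∑ p1 ∈ s, ∑ p2 ∈ s, (F φ (b p1, b p2) (q p1, q p2) -
          ∫ g, F φ (b p1, b p2) (fun i => A p1 *ᵥ g.1 i, fun i => A p2 *ᵥ g.2 i) ∂(gm2 k))) /
            (s.card : ℝ) ^ 2 : ℝ) : ℂ) =
      (∑ p1 ∈ s, ∑ p2 ∈ s, ((F φ (b p1, b p2) (q p1, q p2) : ℂ) -
      trigSum χ0f c χ1 χ2 τ φ (b p1, b p2) (pk (q p1, q p2)))) / (s.card : ℂ) ^ 2 +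
      (∑ p1 ∈ s, ∑ p2 ∈ s, (trigSum χ0f c χ1 χ2 τ φ (b p1, b p2) (pk (q p1, q p2)) -
      ∑ j, c j φ * ((X1 j (b p1) : ℝ) : ℂ) * ((X2 j (b p2) : ℝ) : ℂ) *
        ((ga (t1 j) (A p1 * (A p1)ᵀ) : ℂ) * (ga (t2 j) (A p2 * (A p2)ᵀ) : ℂ)))) /
        (s.card : ℂ) ^ 2 +
      (∑ p1 ∈ s, ∑ p2 ∈ s, ((∑ j, c j φ * ((X1 j (b p1) : ℝ) : ℂ) *
      ((X2 j (b p2) : ℝ) : ℂ) *
        ((ga (t1 j) (A p1 * (A p1)ᵀ) : ℂ) * (ga (t2 j) (A p2 * (A p2)ᵀ) : ℂ))) -
      ((∫ g, F φ (b p1, b p2) (fun i => A p1 *ᵥ g.1 i, fun i => A p2 *ᵥ g.2 i) ∂(gm2 k) : ℝ) :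
        ℂ))) / (s.card : ℂ) ^ 2 := by
    rw [← add_div, ← add_div, ← Finset.sum_add_distrib, ← Finset.sum_add_distrib]
    push_cast
    congr 1
    refine Finset.sum_congr rfl fun p1 _ => ?_
    rw [← Finset.sum_add_distrib, ← Finset.sum_add_distrib]
    refine Finset.sum_congr rfl fun p2 _ => ?_
    ring
  rw [hsplit]
  refine (norm_add₃_le).trans ?_
  have e8 : ε' = 8 * ε1 := by rw [hε1]; ring
  have : W / R ^ 2 * (2 * C' + 4 * k * V) = 2 * (W / R ^ 2) * C' + W / R ^ 2 * (4 * k * V) := by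
    ring
  linarith

open scoped MatrixOrder in
/-- a real positive semidefinite matrix is of the form `A Aᵀ` -/
lemma exists_mul_transpose (S : Matrix (Fin 2) (Fin 2) ℝ) (hS : S.PosSemidef) :
    ∃ A : Matrix (Fin 2) (Fin 2) ℝ, A * Aᵀ = S := by
  obtain ⟨B, hB⟩ := CStarAlgebra.nonneg_iff_eq_star_mul_self.mp hS.nonneg
  refine ⟨Bᵀ, ?_⟩
  rw [hB, Matrix.transpose_transpose, Matrix.star_eq_conjTranspose,
    Matrix.conjTranspose_eq_transpose_of_trivial]

end Main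

end Crest.Agent.R166.SW341
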