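import Crest.Agent.R166.InvG2_348
import Crest.Agent.R166.Gen_85
import Crest.Agent.R166.SpArr_286
import Crest.Agent.R166.SW_341

/-!
Row 166, section 50 (helper348): the group argument and `InvG`.
-/

set_option autoImplicit false
set_option linter.unusedSectionVars false

namespace Crest.Agent.R166.InvG348

open Matrix Complex Topology MeasureTheory Crest.ProbabilityR.RandomMatrix
open Crest.Agent.R166.InvB348 Crest.Agent.R166.InvC348 Crest.Agent.R166.InvD348
open Crest.Agent.R166.InvP348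
open Crest.Agent.R166.Inv988 (M2 Idx KeyCmp idxEquiv imPart)
open Crest.Agent.R166.Gen85 (toC)

/-- asymptotic invariance of the test array under `V` -/
def AsI (d : ℕ) (s E ρ : ℝ) (m : ℕ) (V : Matrix (Fin m) (Fin m) ℂ) : Prop :=
  ∀ f : Matrix (Fin m) (Fin m) ℂ → ℝ, Continuous f →
    ∀ δ : ℝ, 0 < δ → ∀ ε : ℝ, 0 < ε → ∃ K0 : ℝ, 0 < K0 ∧ ∀ K : ℝ, K0 ≤ K → ∃ N : ℕ,
    ∀ n : ℕ, N ≤ n → (regularGraphs n d).Nonempty →
      |EG n d s (fun H => TestVal H E ρ K δ m fun U => f (V * U * V.transpose)) -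
        EG n d s (fun H => TestVal H E ρ K δ m f)| ≤ ε

section grp

variable {d m : ℕ} {s E ρ : ℝ}

lemma continuous_conj (V : Matrix (Fin m) (Fin m) ℂ) :
    Continuous fun U : Matrix (Fin m) (Fin m) ℂ => V * U * V.transpose :=
  (continuous_const.matrix_mul continuous_id).matrix_mul continuous_const

lemma AsI.mul {V W : Matrix (Fin m) (Fin m) ℂ} (hV : AsI d s E ρ m V) (hW : AsI d s E ρ m W) :
    AsI d s E ρ m (V * W) := by
  intro f hf δ hδ ε hε
  obtain ⟨K1, hK1, h1⟩ := hV f hf δ hδ (ε / 2) (by positivity)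
  obtain ⟨K2, hK2, h2⟩ := hW (fun U => f (V * U * V.transpose)) (hf.comp (continuous_conj V)) δ hδ
    (ε / 2) (by positivity)
  refine ⟨max K1 K2, by positivity, fun K hK => ?_⟩
  obtain ⟨N1, hN1⟩ := h1 K ((le_max_left _ _).trans hK)
  obtain ⟨N2, hN2⟩ := h2 K ((le_max_right _ _).trans hK)
  refine ⟨max N1 N2, fun n hn hne => ?_⟩
  have e1 := hN1 n (by omega) hne
  have e2 := hN2 n (by omega) hne
  have e3 : ∀ U : Matrix (Fin m) (Fin m) ℂ, V * W * U * (V * W).transpose =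
      V * (W * U * W.transpose) * V.transpose := by
    intro U
    rw [Matrix.transpose_mul]
    simp only [Matrix.mul_assoc]
  simp only [e3]
  refine (abs_sub_le _ _ _).trans ((add_le_add e2 e1).trans ?_)
  linarith

lemma AsI.one : AsI d s E ρ m 1 := by
  intro f hf δ hδ ε hε
  refine ⟨1, one_pos, fun K _ => ⟨0, fun n _ _ => ?_⟩⟩
  simp only [Matrix.transpose_one, Matrix.one_mul, Matrix.mul_one, sub_self, abs_zero]
  exact hε.le

lemma AsI.inv {V W : Matrix (Fin m) (Fin m) ℂ} (hV : AsI d s E ρ m V) (h : W * V = 1) :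
    AsI d s E ρ m W := by
  intro f hf δ hδ ε hε
  obtain ⟨K1, hK1, h1⟩ := hV (fun U => f (W * U * W.transpose)) (hf.comp (continuous_conj W)) δ hδ
    ε hε
  refine ⟨K1, hK1, fun K hK => ?_⟩
  obtain ⟨N1, hN1⟩ := h1 K hK
  refine ⟨N1, fun n hn hne => ?_⟩
  have e1 := hN1 n hn hne
  have e3 : ∀ U : Matrix (Fin m) (Fin m) ℂ, W * (V * U * V.transpose) * W.transpose = U := by
    intro U
    calc W * (V * U * V.transpose) * W.transpose = (W * V) * U * (W * V).transpose := by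
          rw [Matrix.transpose_mul]
          simp only [Matrix.mul_assoc]
      _ = U := by rw [h, Matrix.transpose_one, Matrix.one_mul, Matrix.mul_one]
  simp only [e3] at e1
  rw [abs_sub_comm]
  exact e1

/-- the subgroup of asymptotic stabilisers -/
def asGrp (d : ℕ) (s E ρ : ℝ) (m : ℕ) : Subgroup (unitaryGroup (Fin m) ℂ) where
  carrier := {V | AsI d s E ρ m V.1}
  mul_mem' := fun hV hW => hV.mul hW
  one_mem' := AsI.one
  inv_mem' := by
    intro V hV
    refine AsI.inv (V := V.1) hV ?_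
    have := congrArg Subtype.val (inv_mul_cancel V)
    exact this

lemma AsI_orth {O : Matrix (Fin m) (Fin m) ℝ} (hO : O ∈ orthogonalGroup (Fin m) ℝ) :
    AsI d s E ρ m (toC O) := by
  intro f hf δ hδ ε hε
  refine ⟨1, one_pos, fun K _ => ⟨0, fun n _ _ => ?_⟩⟩
  have h1 : ∀ H : Matrix (Fin n) (Fin n) ℝ,
      TestVal H E ρ K δ m (fun U => f (toC O * U * (toC O).transpose)) =
        TestVal H E ρ K δ m f := fun H => SpArr286.TestVal_orth E ρ K δ hO f
  simp only [h1, sub_self, abs_zero]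
  exact hε.le

end grp

/-- factorisation of the imaginary part -/
lemma exists_frame {Z : M2} (hZ : Res789.Sieg Z) :
    ∃ T : Matrix (Fin 2) (Fin 2) ℝ, T * Tᵀ = imPart Z ∧ IsUnit T.det := by
  have hp : (imPart Z).PosDef := hZ.posDef
  obtain ⟨T, hT⟩ := SW341.exists_mul_transpose _ hp.posSemidef
  refine ⟨T, hT, ?_⟩
  have h1 : IsUnit (imPart Z).det := isUnit_iff_ne_zero.2 hp.det_pos.ne'
  rw [← hT, Matrix.det_mul] at h1
  exact isUnit_of_mul_isUnit_left h1

/-- transport of the switching unitary to `Fin (4 + k)` -/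
noncomputable def kf (k : ℕ) (κ : Matrix (Idx k) (Idx k) ℂ) :
    Matrix (Fin (4 + k)) (Fin (4 + k)) ℂ := κ.submatrix (idxEquiv k).symm (idxEquiv k).symm

lemma kf_conj (k : ℕ) (κ : Matrix (Idx k) (Idx k) ℂ) (U : Matrix (Fin (4 + k)) (Fin (4 + k)) ℂ) :
    kf k κ * U * (kf k κ)ᵀ =
      (κ * U.submatrix (idxEquiv k) (idxEquiv k) * κᵀ).submatrix (idxEquiv k).symm
        (idxEquiv k).symm := by
  unfold kf
  have h1 : U = (U.submatrix (idxEquiv k) (idxEquiv k)).submatrix (idxEquiv k).symm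
      (idxEquiv k).symm := by
    ext i j; simp
  conv_lhs => rw [h1]
  rw [Matrix.transpose_submatrix, Matrix.submatrix_mul_equiv, Matrix.submatrix_mul_equiv]

/-- **(C)** asymptotic invariance, graph side -/
theorem invG {d : ℕ} (hd : 0 < d) {s E ρ : ℝ} (hρ : 0 < ρ) (hEnv : EnvDet d s E)
    (hLoc : LocLim d s E) (hND : NonDeg d s E) (hKey : KeyCmp d s E ρ) : InvG d s E ρ := by
  by_cases hne : ∀ N : ℕ, ∃ n : ℕ, N ≤ n ∧ (regularGraphs n d).Nonempty
  swap
  · push Not at hne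
    obtain ⟨N, hN⟩ := hne
    intro m _ V _ _ f _ δ _ ε _
    exact ⟨1, one_pos, fun K _ => ⟨N, fun n hn h => absurd (hN n hn) h.ne_empty⟩⟩
  obtain ⟨x1, x2, h1, h2, hsup⟩ := exists_support hd hEnv hLoc hND (offB hd s E) hne
  obtain ⟨Ta, hTa, ua⟩ := exists_frame (sieg_Ze2 h1 h2)
  obtain ⟨Tc, hTc, uc⟩ := exists_frame (sieg_Ze2 h1 h1)
  obtain ⟨Td, hTd, ud⟩ := exists_frame (sieg_Ze2 h2 h2)
  have F1 : Frame x1 x2 x1 x2 ρ Ta Ta := ⟨h1, h2, h1, h2, hρ, ua, ua, hTa, hTa⟩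
  have F2 : Frame x1 x1 x2 x2 ρ Tc Td := ⟨h1, h1, h2, h2, hρ, uc, ud, hTc, hTd⟩
  intro m hm V hV hdet
  obtain ⟨k, rfl⟩ : ∃ k, m = 4 + k := ⟨m - 4, by omega⟩
  set κ := kk k x1 x2 ρ Ta Tc Td with hκ
  have hκm : κ ∈ unitaryGroup (Idx k) ℂ := kk_mem F1 F2
  have hkf : kf k κ ∈ unitaryGroup (Fin (4 + k)) ℂ := by
    rw [mem_unitaryGroup_iff] at hκm ⊢
    unfold kf
    have e1 : star (κ.submatrix (idxEquiv k).symm (idxEquiv k).symm) =
        (star κ).submatrix (idxEquiv k).symm (idxEquiv k).symm := by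
      rw [star_eq_conjTranspose, star_eq_conjTranspose, conjTranspose_submatrix]
    rw [e1, Matrix.submatrix_mul_equiv, hκm, Matrix.submatrix_one_equiv]
  have hAs : AsI d s E ρ (4 + k) (kf k κ) := by
    intro f hf δ hδ ε hε
    have hf' : Continuous fun X : Matrix (Idx k) (Idx k) ℂ =>
        f (X.submatrix (idxEquiv k).symm (idxEquiv k).symm) :=
      hf.comp (continuous_id.matrix_submatrix _ _)
    obtain ⟨K0, hK0, hK⟩ := kk_inv hd hEnv hKey hsup F1 F2 k hf' hδ hε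
    refine ⟨K0, hK0, fun K hKK => ?_⟩
    obtain ⟨N, hN⟩ := hK K hKK
    refine ⟨N, fun n hn hnn => ?_⟩
    have e := hN n hn hnn
    have e1 : ∀ U : Matrix (Fin (4 + k)) (Fin (4 + k)) ℂ,
        (U.submatrix (idxEquiv k) (idxEquiv k)).submatrix (idxEquiv k).symm
          (idxEquiv k).symm = U := by
      intro U
      ext i j; simp
    simp only [e1, ← hκ, ← kf_conj] at e
    exact e
  have hnot : ¬ ∃ (c : ℂ) (O : Matrix (Fin (4 + k)) (Fin (4 + k)) ℝ),
      O ∈ orthogonalGroup (Fin (4 + k)) ℝ ∧ kf k κ = c • toC O := by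
    rintro ⟨c, O, hO, hc⟩
    apply kk_not_orth (m := k) F1 F2
    refine ⟨c, O.submatrix (idxEquiv k) (idxEquiv k), ?_, ?_⟩
    · rw [mem_orthogonalGroup_iff] at hO ⊢
      rw [Matrix.transpose_submatrix, Matrix.submatrix_mul_equiv, hO, Matrix.submatrix_one_equiv]
    · have e1 : κ = (kf k κ).submatrix (idxEquiv k) (idxEquiv k) := by
        unfold kf
        ext i j; simp
      rw [← hκ, e1, hc]
      rfl
  obtain ⟨_, hmem⟩ := Gen85.gen (G := asGrp d s E ρ (4 + k))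
    (fun O hO => ⟨Gen85.toC_mem hO, AsI_orth hO⟩) (κ := kf k κ) ⟨hkf, hAs⟩ hnot hV hdet
  exact hmem

end Crest.Agent.R166.InvG348
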