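import Crest.Agent.R166.InvK3_988

/-!
Row 166, section 50 (helper988): the key comparison.
-/

set_option autoImplicit false
set_option linter.unusedSectionVars false
set_option linter.unusedSimpArgs false

namespace Crest.Agent.R166.Inv988

open MeasureTheory ProbabilityTheory Matrix Crest.ProbabilityR.RandomMatrix Crest.Agent.R166
open Crest.Agent.R166.Gauss286
open Crest.Agent.R166.SW341 (XK gm2 sw2)
open Crest.Agent.R166.DosB420

lemma le_of_mul_bound {W x t e : ℝ} (he : 0 < e) (hx : 0 < x)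
    (h : W * t / e ≤ x) : W * (t / x) ≤ e := by
  rw [div_le_iff₀ he] at h
  rw [← mul_div_assoc, div_le_iff₀ hx]
  linarith

/-- the deterministic part of the key comparison -/
theorem key_det {n m d : ℕ} {H : Matrix (Fin n) (Fin n) ℝ} (hH : H.IsHermitian)
    {G : SimpleGraph (Fin n)} (hG : G ∈ regularGraphs n d) (hn : 0 < n) (hd : 0 < d)
    {E ρ K η δ Y θ τ ε ε1 ε2 ε3 εL L L' r r0 B : ℝ} (hε : 0 < ε) (hρ : 0 < ρ) (hK : 1 ≤ K)
    (hδ : 0 < δ)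
    (hKδ : 2 * δ ≤ K ^ 2) (hτ : 0 < τ) (hθ : 0 < θ) (_hη : 0 < η) (hY0 : 0 < Y)
    (hY : (mn H (zz E K n)).im ≤ Y)
    {Za Zb : M2} (hZa : Zaᵀ = Za) (hZb : Zbᵀ = Zb) {Ta Tb : Matrix (Fin 2) (Fin 2) ℝ}
    (hTa : Ta * Taᵀ = imPart Za) (hTb : Tb * Tbᵀ = imPart Zb) (ha : IsUnit Ta.det)
    (hb : IsUnit Tb.det) {f : Matrix (Idx m) (Idx m) ℂ → ℝ} (hf : Continuous f)
    (hB0 : 0 ≤ B) (hB : ∀ C : Matrix (Idx m) (Idx m) ℝ, Cᵀ = C → |f (CayG C)| ≤ B)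
    (hL : 0 ≤ L) (hfL : ∀ M M' : Matrix (Idx m) (Idx m) ℝ, Mᵀ = M → M'ᵀ = M' →
      |f (CayG ((Tref Ta Tb ρ)⁻¹ * M * ((Tref Ta Tb ρ)⁻¹)ᵀ)) -
        f (CayG ((Tref Ta Tb ρ)⁻¹ * M' * ((Tref Ta Tb ρ)⁻¹)ᵀ))| ≤
        ε1 + L * ∑ a, ∑ b, min 1 |M a b - M' a b|)
    (hL' : 0 ≤ L') (hfL' : ∀ M M' : Matrix (Idx m) (Idx m) ℝ, Mᵀ = M → M'ᵀ = M' →
      |f (CayG (((Real.sqrt (Real.pi * ρ))⁻¹ • (1 : Matrix (Idx m) (Idx m) ℝ)) * M *
        ((Real.sqrt (Real.pi * ρ))⁻¹ • (1 : Matrix (Idx m) (Idx m) ℝ))ᵀ)) -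
        f (CayG (((Real.sqrt (Real.pi * ρ))⁻¹ • (1 : Matrix (Idx m) (Idx m) ℝ)) * M' *
          ((Real.sqrt (Real.pi * ρ))⁻¹ • (1 : Matrix (Idx m) (Idx m) ℝ))ᵀ))| ≤
        ε1 + L' * ∑ a, ∑ b, min 1 |M a b - M' a b|)
    (hr : ∀ C W : Matrix (Idx m) (Idx m) ℝ, Cᵀ = C →
      (open scoped Matrix.Norms.L2Operator in ‖cx W - 1‖ ≤ r) →
      |f (CayG (W * C * Wᵀ)) - f (CayG C)| ≤ ε1) (hr0 : 0 ≤ r0)
    (hr0r : 16 * (l1 Ta⁻¹ ^ 2 + l1 Tb⁻¹ ^ 2) * r0 ≤ r)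
    {χ : M2 → M2 → ℝ} (hχ01 : ∀ b1 b2, 0 ≤ χ b1 b2 ∧ χ b1 b2 ≤ 1)
    (hχs : ∀ b1 b2, χ b1 b2 ≠ 0 → bnorm (b1 - Za) ≤ r0 ∧ bnorm (b2 - Zb) ≤ r0)
    {A : Fin n × Fin n → Matrix (Fin 2) (Fin 2) ℝ}
    (hA : ∀ p, A p * (A p)ᵀ = Matrix.of fun a c => (blk H E η p a c).im / (Real.pi * ρ))
    (hsw : SWprop hH E K η (1 / τ + 1) ε3 G f ((Tref Ta Tb ρ)⁻¹) χ A)
    (hLL : eAvg G (fun u v => min 1
        (bnorm (Blk (Res H (zz E K n)) u v - Blk (Res H (ze E η)) u v))) ≤ εL)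
    (b1 : 3 * ε1 + L * ((Fintype.card (Idx m) : ℝ) ^ 2 * r0) ≤ ε)
    (b2 : (L + L') * ((Fintype.card (Idx m) : ℝ) ^ 2 *
        (2 * (1 + δ) / K * Y + (θ + 3 * (Y / K) / θ))) ≤ ε2 / 4)
    (b3 : L * ((Fintype.card (Idx m) : ℝ) ^ 2 * εL) ≤ ε2 / 4) (b4 : ε3 ≤ ε2 / 4)
    (b5 : δ⁻¹ * (Y * (K ^ 3 + K) * (4 * B * τ)) ≤ ε2 / 4) :
    |PV G H E ρ K δ η Za Zb Ta Tb χ f - cAvg G H E η χ * TestVal H E ρ K δ (4 + m)
        (fun U => f (U.submatrix (idxEquiv m) (idxEquiv m)))| ≤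
      ε * cAvg G H E η χ + ε2 := by
  have hpos := card_darts_pos hG hn hd
  set c := cAvg G H E η χ with hc
  have hc0 : 0 ≤ c := by
    rw [hc]; unfold cAvg
    rw [← eAvg2_const (G := G) hpos 0]; exact eAvg2_mono fun p1 p2 => (hχ01 _ _).1
  set N2 : ℝ := (Fintype.card (Idx m) : ℝ) ^ 2 with hN2
  have hN20 : 0 ≤ N2 := sq_nonneg _
  set e : ℝ := (3 * ε1 + L * (N2 * r0)) * c +
      ((L + L') * (N2 * (2 * (1 + δ) / K * Y + (θ + 3 * (Y / K) / θ))) +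
      L * (N2 * eAvg G (fun u v => min 1
        (bnorm (Blk (Res H (zz E K n)) u v - Blk (Res H (ze E η)) u v)))) + ε3) with he
  have hpt : ∀ x, 0 ≤ x → x ≤ δ → (∀ i, hl hH E i ≠ x) →
      (∀ i, |hl hH E i| ≤ K ^ 2 → τ ≤ |hl hH E i - x|) →
      |eAvg2 G (fun p1 p2 => χ (blk H E η p1) (blk H E η p2) *
        ∫ g, f (Uref H E ρ K x Za Zb Ta Tb p1 p2 g) ∂(gaussM n m)) -
      c * ∫ g, f ((uOf H E ρ K x g).submatrix (idxEquiv m) (idxEquiv m))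
        ∂(gaussM n (4 + m))| ≤ e := fun x hx0 hx1 hx hxτ =>
    pointwise hH hG hn hd hρ hK hδ hKδ hx0 hx1 hx hτ hxτ hθ hY hZa hZb hTa hTb ha hb hf hL hfL
      hL' hfL' hr hr0 hr0r hχ01 hχs hA hsw
  have hbd : e ≤ ε * c + 3 * (ε2 / 4) := by
    have h1 : (3 * ε1 + L * (N2 * r0)) * c ≤ ε * c := mul_le_mul_of_nonneg_right b1 hc0
    have h2 : L * (N2 * eAvg G (fun u v => min 1
        (bnorm (Blk (Res H (zz E K n)) u v - Blk (Res H (ze E η)) u v)))) ≤ ε2 / 4 := by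
      refine le_trans ?_ b3
      gcongr
    rw [he]
    linarith
  have hex : ∃ e' : ℝ, 0 ≤ e' ∧ e ≤ e' ∧ e' ≤ max 0 e := ⟨max 0 e, le_max_left _ _,
    le_max_right _ _, le_rfl⟩
  have h1 := xint (m := m) hH hG hn hd (E := E) (K := K) (η := η) hρ hδ hZa hZb Ta Tb hf hB0 hB
    hχ01 (e := max 0 e) (τ := τ) (le_max_left _ _) hτ
    (fun x hx0 hx1 hx hxτ => (hpt x hx0 hx1 hx hxτ).trans (le_max_right _ _))
  have hcard := near_card hH hn hK hY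
  have h2 : δ⁻¹ * ((Finset.univ.filter fun i => |hl hH E i| ≤ K ^ 2).card * (4 * B * τ)) ≤
      ε2 / 4 := by
    refine le_trans ?_ b5
    gcongr
  have hε2 : 0 ≤ ε2 := by
    have : 0 ≤ δ⁻¹ * (Y * (K ^ 3 + K) * (4 * B * τ)) := by
      have : 0 < K := by linarith
      positivity
    linarith
  have h3 : max 0 e ≤ ε * c + 3 * (ε2 / 4) := max_le (by positivity) hbd
  linarith

set_option maxHeartbeats 4000000 in
theorem keyCmp {d : ℕ} {s E ρ : ℝ} (hd : 0 < d) (hρ : 0 < ρ) (hTB : ThmB d s E ρ)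
    (hIm : ImLim d s E ρ) (hLoc : LocLim d s E) : KeyCmp d s E ρ := by
  classical
  intro m Za Zb Ta Tb hZa hZb hTa hTb ha hb f hf δ hδ ε hε
  obtain ⟨B, hB0, hB⟩ := exists_bound hf
  have hε1 : 0 < ε / 4 := by positivity
  obtain ⟨L, hL, hfL⟩ := trunc_det hf ((Tref (m := m) Ta Tb ρ)⁻¹) hε1
  obtain ⟨L', hL', hfL'⟩ := trunc_det hf
    ((Real.sqrt (Real.pi * ρ))⁻¹ • (1 : Matrix (Idx m) (Idx m) ℝ)) hε1
  obtain ⟨r, hr, -, hfr⟩ := congr_close hf hε1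
  set N2 : ℝ := (Fintype.card (Idx m) : ℝ) ^ 2 with hN2
  have hN20 : 0 ≤ N2 := sq_nonneg _
  -- the radius `r0`
  obtain ⟨r0, hr0, hr01, hr02⟩ : ∃ r0 : ℝ, 0 < r0 ∧ L * (N2 * r0) ≤ ε / 4 ∧
      16 * (l1 Ta⁻¹ ^ 2 + l1 Tb⁻¹ ^ 2) * r0 ≤ r := by
    set X : ℝ := 16 * (l1 Ta⁻¹ ^ 2 + l1 Tb⁻¹ ^ 2) with hX
    have hX0 : 0 ≤ X := by positivity
    refine ⟨min (ε / (4 * (L * N2 + 1))) (r / (X + 1)), by positivity, ?_, ?_⟩
    · have h1 : min (ε / (4 * (L * N2 + 1))) (r / (X + 1)) ≤ ε / (4 * (L * N2 + 1)) :=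
        min_le_left _ _
      have h2 : 0 ≤ L * N2 := by positivity
      calc L * (N2 * min (ε / (4 * (L * N2 + 1))) (r / (X + 1))) =
            (L * N2) * min (ε / (4 * (L * N2 + 1))) (r / (X + 1)) := by ring
        _ ≤ (L * N2) * (ε / (4 * (L * N2 + 1))) := mul_le_mul_of_nonneg_left h1 h2
        _ ≤ ε / 4 := by
            rw [← mul_div_assoc, div_le_div_iff₀ (by positivity) (by norm_num)]
            nlinarith
    · have h1 : min (ε / (4 * (L * N2 + 1))) (r / (X + 1)) ≤ r / (X + 1) := min_le_right _ _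
      calc X * min (ε / (4 * (L * N2 + 1))) (r / (X + 1)) ≤ X * (r / (X + 1)) :=
            mul_le_mul_of_nonneg_left h1 hX0
        _ ≤ r := by
            rw [← mul_div_assoc, div_le_iff₀ (by positivity)]
            nlinarith
  refine ⟨r0, hr0, ?_⟩
  intro χ hχc hχ01 hχs ε2 hε2
  set Y : ℝ := Real.pi * ρ + 1 with hY
  have hπ : 0 < Real.pi * ρ := by positivity
  have hY0 : 0 < Y := by positivity
  set W : ℝ := (L + L') * N2 with hW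
  have hW0 : 0 ≤ W := by positivity
  obtain ⟨θ, hθ, hθ1⟩ : ∃ θ : ℝ, 0 < θ ∧ W * θ ≤ ε2 / 12 := by
    refine ⟨ε2 / (12 * (W + 1)), by positivity, ?_⟩
    rw [← mul_div_assoc, div_le_div_iff₀ (by positivity) (by norm_num)]
    nlinarith
  obtain ⟨εL, hεL, hεL1, hεL2⟩ : ∃ εL : ℝ, 0 < εL ∧ L * (N2 * εL) ≤ ε2 / 4 ∧ εL ≤ ε2 / 4 := by
    have h2 : 0 ≤ L * N2 := by positivity
    refine ⟨min (ε2 / (4 * (L * N2 + 1))) (ε2 / 4), by positivity, ?_, min_le_right _ _⟩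
    have h1 : min (ε2 / (4 * (L * N2 + 1))) (ε2 / 4) ≤ ε2 / (4 * (L * N2 + 1)) := min_le_left _ _
    calc L * (N2 * min (ε2 / (4 * (L * N2 + 1))) (ε2 / 4)) =
          (L * N2) * min (ε2 / (4 * (L * N2 + 1))) (ε2 / 4) := by ring
      _ ≤ (L * N2) * (ε2 / (4 * (L * N2 + 1))) := mul_le_mul_of_nonneg_left h1 h2
      _ ≤ ε2 / 4 := by
          rw [← mul_div_assoc, div_le_div_iff₀ (by positivity) (by norm_num)]
          nlinarith
  obtain ⟨K1, hK1, hIm'⟩ := hIm (min 1 (ε2 / 4)) (by positivity)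
  obtain ⟨η1, hη1, K2, hK2, hLoc'⟩ := hLoc εL hεL
  have hK3 : ∃ K3 : ℝ, ∀ K : ℝ, K3 ≤ K → 1 ≤ K → W * (2 * (1 + δ) / K * Y) ≤ ε2 / 12 ∧
      W * (3 * (Y / K) / θ) ≤ ε2 / 12 := by
    refine ⟨max (W * (2 * (1 + δ) * Y) / (ε2 / 12)) (W * (3 * Y / θ) / (ε2 / 12)),
      fun K hK hK1 => ⟨?_, ?_⟩⟩
    · have hKp : 0 < K := by linarith
      have h1 := le_of_mul_bound (by positivity : 0 < ε2 / 12) hKp
        ((le_max_left _ _).trans hK)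
      have h2 : W * (2 * (1 + δ) / K * Y) = W * (2 * (1 + δ) * Y / K) := by ring
      rw [h2]
      exact h1
    · have hKp : 0 < K := by linarith
      have h1 := le_of_mul_bound (by positivity : 0 < ε2 / 12) hKp
        ((le_max_right _ _).trans hK)
      have h2 : W * (3 * (Y / K) / θ) = W * (3 * Y / θ / K) := by ring
      rw [h2]
      exact h1
  obtain ⟨K3, hK3⟩ := hK3
  refine ⟨max (max K1 K2) (max (max 1 (2 * δ)) K3), by
    exact lt_of_lt_of_le hK1 ((le_max_left _ _).trans (le_max_left _ _)), ?_⟩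
  intro K hK
  have hKK1 : K1 ≤ K := ((le_max_left _ _).trans (le_max_left _ _)).trans hK
  have hKK2 : K2 ≤ K := ((le_max_right _ _).trans (le_max_left _ _)).trans hK
  have hK1' : 1 ≤ K := ((le_max_left _ _).trans ((le_max_left _ _).trans (le_max_right _ _))).trans hK
  have hKδ' : 2 * δ ≤ K :=
    ((le_max_right _ _).trans ((le_max_left _ _).trans (le_max_right _ _))).trans hK
  have hKK3 : K3 ≤ K := ((le_max_right _ _).trans (le_max_right _ _)).trans hK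
  have hKδ : 2 * δ ≤ K ^ 2 := by nlinarith
  obtain ⟨hb21, hb22⟩ := hK3 K hKK3 hK1'
  have hK0 : 0 < K := by linarith
  set κ : ℝ := Y * (K ^ 3 + K) with hκ
  have hκ0 : 0 < κ := by positivity
  set kmax : ℕ := ⌊κ⌋₊ with hkmax
  obtain ⟨τ, hτ, hτ1⟩ : ∃ τ : ℝ, 0 < τ ∧ δ⁻¹ * (κ * (4 * B * τ)) ≤ ε2 / 4 := by
    refine ⟨ε2 * δ / (16 * (κ + 1) * (B + 1)), by positivity, ?_⟩
    have h1 : δ⁻¹ * (κ * (4 * B * (ε2 * δ / (16 * (κ + 1) * (B + 1))))) =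
        (κ * B * ε2) / (4 * (κ + 1) * (B + 1)) := by
      field_simp
      ring
    rw [h1, div_le_div_iff₀ (by positivity) (by norm_num)]
    nlinarith [mul_nonneg hκ0.le hB0, mul_nonneg (mul_nonneg hκ0.le hB0) hε2.le,
      mul_nonneg hκ0.le hε2.le, mul_nonneg hB0 hε2.le]
  set Φ : ℝ := 1 / τ + 1 with hΦ
  have hε3 : 0 < ε2 / 4 := by positivity
  have hTs := fun k : ℕ => exists_TB hf ((Tref (m := m) Ta Tb ρ)⁻¹) hχc hχ01 hχs ρ Φ hε3 k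
  choose T hT using hTs
  -- the finite index set
  set ι := Σ k : Fin (kmax + 1), Fin (T k).N with hι
  obtain ⟨M, hM, hM0⟩ : ∃ M : ℝ, ((Finset.univ : Finset ι).card : ℝ) = M ∧ 0 ≤ M :=
    ⟨_, rfl, Nat.cast_nonneg _⟩
  have hεM : 0 < ε2 / (4 * (M + 1)) := div_pos hε2 (by linarith)
  have hεp : ∀ p : ι, 0 < min (T p.1).ε (ε2 / (4 * (M + 1))) := fun p =>
    lt_min (T p.1).hε hεM
  have hB1 := fun p : ι => hTB (p.1 : ℕ) (K ^ 2) ((T p.1).τ p.2) ((T p.1).χ p.2)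
    ((T p.1).hχ p.2).1 ((T p.1).hχ p.2).2 _ (hεp p)
  choose ηp hηp hB2 using hB1
  obtain ⟨η2, hη2, hη2'⟩ := exists_pos_le ηp hηp
  refine ⟨min η1 η2, by positivity, ?_⟩
  intro η hη hηle
  have hηη1 : η ≤ η1 := hηle.trans (min_le_left _ _)
  have hηη2 : ∀ p, η ≤ ηp p := fun p => (hηle.trans (min_le_right _ _)).trans (hη2' p)
  have hB3 := fun p : ι => hB2 p η hη (hηη2 p)
  choose Np hNp using hB3
  obtain ⟨N1, hN1⟩ := hIm' K hKK1
  obtain ⟨N3, hN3⟩ := hLoc' η hη hηη1 K hKK2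
  refine ⟨max (max N1 N3) (max 1 (Finset.univ.sup Np)), ?_⟩
  intro n hn hne
  have hnN1 : N1 ≤ n := ((le_max_left _ _).trans (le_max_left _ _)).trans hn
  have hnN3 : N3 ≤ n := ((le_max_right _ _).trans (le_max_left _ _)).trans hn
  have hn1 : 1 ≤ n := ((le_max_left _ _).trans (le_max_right _ _)).trans hn
  have hnp : ∀ p, Np p ≤ n := fun p =>
    (Finset.le_sup (f := Np) (Finset.mem_univ p)).trans
      (((le_max_right _ _).trans (le_max_right _ _)).trans hn)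
  have hn0 : 0 < n := hn1
  -- the events
  have hE1 := hN1 n hnN1 hne
  have hE2 := hN3 n hnN3 hne
  have hE3 : Whp n d (ε2 / 4) fun G ω => ∀ p ∈ (Finset.univ : Finset ι),
      TBev (T p.1) p.2 (Hm G s ω) G E (K ^ 2) η ρ (T p.1).ε := by
    have h1 : ∀ p ∈ (Finset.univ : Finset ι), Whp n d (ε2 / (4 * (M + 1))) fun G ω =>
        TBev (T p.1) p.2 (Hm G s ω) G E (K ^ 2) η ρ (T p.1).ε := by
      intro p _
      refine whp_mono (min_le_right _ _) (hNp p n (hnp p) hne) ?_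
      intro G ω h F hF
      exact (h F hF).trans (min_le_left _ _)
    have h2 := whp_finset (Finset.univ : Finset ι) hεM.le h1
    refine whp_mono ?_ h2 fun G ω h => h
    rw [hM, ← mul_div_assoc, div_le_div_iff₀ (by linarith) (by norm_num)]
    nlinarith
  have hE12 := whp_and (by positivity) hεL.le hE1 hE2
  have hE123 := whp_and (by positivity) (by positivity) hE12 hE3
  have hfin := whp_of_base (by positivity) hE123 (Q := fun G ω =>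
    |PV G (Hm G s ω) E ρ K δ η Za Zb Ta Tb χ f -
        cAvg G (Hm G s ω) E η χ * TestVal (Hm G s ω) E ρ K δ (4 + m)
          (fun U => f (U.submatrix (idxEquiv m) (idxEquiv m)))| ≤
        ε * cAvg G (Hm G s ω) E η χ + ε2) ?_
  · refine whp_mono ?_ hfin fun G ω h => h
    have : min 1 (ε2 / 4) ≤ ε2 / 4 := min_le_right _ _
    linarith
  intro G ω hG _ hev
  obtain ⟨⟨h1, h2⟩, h3⟩ := hev
  have hH := Hm_herm G s ω
  have hYim : (mn (Hm G s ω) (zz E K n)).im ≤ Y := by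
    have h4 := (abs_le.1 (h1.trans (min_le_left _ _))).2
    rw [hY]; linarith
  obtain ⟨A, hA⟩ := exists_A hH hn0 (E := E) hη hρ
  have hcard := near_card hH hn0 hK1' hYim
  have hk : (Finset.univ.filter fun i => |hl hH E i| ≤ K ^ 2).card < kmax + 1 := by
    rw [Nat.lt_succ_iff, hkmax]
    exact Nat.le_floor hcard
  have hsw : SWprop hH E K η Φ (ε2 / 4) G f ((Tref Ta Tb ρ)⁻¹) χ A := by
    intro σ hσ hσn φ
    exact hT _ hH hG hn0 hd E K η A hA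
      (fun j => h3 ⟨⟨_, hk⟩, j⟩ (Finset.mem_univ _)) σ hσ hσn φ
  refine key_det hH hG hn0 hd hε hρ hK1' hδ hKδ hτ hθ hη hY0 hYim hZa hZb hTa hTb ha hb hf hB0 hB
    hL hfL hL' hfL' hfr hr0.le hr02 hχ01 hχs hA hsw h2 ?_ ?_ hεL1 le_rfl hτ1
  · linarith
  · have e1 : (L + L') * (N2 * (2 * (1 + δ) / K * Y + (θ + 3 * (Y / K) / θ))) =
        W * (2 * (1 + δ) / K * Y) + W * θ + W * (3 * (Y / K) / θ) := by rw [hW]; ring
    rw [e1]
    linarith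

end Crest.Agent.R166.Inv988
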