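import Crest.Agent.R166.Master_423
import Crest.Agent.R166.InvK_988
import Crest.Agent.R166.InvG3_348

/-! Row 166, audit of section 50 (helper356): `Stmt50` of the master file. -/

set_option autoImplicit false

namespace Crest.Agent.R166.AuditC356

open Crest.ProbabilityR.RandomMatrix Crest.Agent.R166

theorem stmt50 : Master423.Stmt50 := by
  intro d s E ρ hd hρ hEnv hIm hLoc hNd hTB
  exact InvG348.invG (by omega) hρ hEnv hLoc hNd
    (Inv988.keyCmp (by omega) hρ hTB hIm hLoc)

end Crest.Agent.R166.AuditC356
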