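import Mathlib
/-!
Row 166, section 70 (M1), abstract half (helper390).

* `exists_measure`: a positive functional on `ℝ[X]` (positive on `[-R,R]`) is a probability measure
  on `[-R,R]`.
-/
set_option autoImplicit false

namespace Crest.Agent.R166.MomFun390

open MeasureTheory Polynomial Set

noncomputable section

/-! ### A1: positive functionals on polynomials -/

theorem exists_measure {R : ℝ} (hR : 0 < R) (L : ℝ[X] →ₗ[ℝ] ℝ) (h1 : L 1 = 1)
    (hpos : ∀ p : ℝ[X], (∀ x ∈ Icc (-R) R, 0 ≤ p.eval x) → 0 ≤ L p) :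
    ∃ ν : Measure ℝ, IsProbabilityMeasure ν ∧ ν (Icc (-R) R)ᶜ = 0 ∧
      ∀ p : ℝ[X], ∫ x, p.eval x ∂ν = L p := by
  classical
  set K : Set ℝ := Icc (-R) R with hK
  have hKc : IsCompact K := isCompact_Icc
  haveI : CompactSpace K := isCompact_iff_compactSpace.mp hKc
  let T : ℝ[X] →ₗ[ℝ] C(K, ℝ) := (toContinuousMapOnAlgHom K).toLinearMap
  have hT : ∀ (p : ℝ[X]) (x : K), T p x = p.eval (x : ℝ) := fun p x => by
    simp [T]
  have hker : LinearMap.ker T ≤ LinearMap.ker L := by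
    intro p hp
    rw [LinearMap.mem_ker] at hp ⊢
    have h0 : ∀ x ∈ K, p.eval x = 0 := fun x hx => by
      have := hT p ⟨x, hx⟩
      rw [hp] at this
      simpa using this.symm
    apply le_antisymm
    · have := hpos (-p) (fun x hx => by simp [h0 x hx])
      simpa using this
    · exact hpos p (fun x hx => by simp [h0 x hx])
  let F : LinearMap.range T →ₗ[ℝ] ℝ :=
    ((LinearMap.ker T).liftQ L hker) ∘ₗ T.quotKerEquivRange.symm.toLinearMap
  have hF : ∀ (p : ℝ[X]) (h : T p ∈ LinearMap.range T), F ⟨T p, h⟩ = L p := by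
    intro p h
    simp only [F, LinearMap.comp_apply, LinearEquiv.coe_coe]
    rw [LinearMap.quotKerEquivRange_symm_apply_image]
    simp
  let f : C(K, ℝ) →ₗ.[ℝ] ℝ := ⟨LinearMap.range T, F⟩
  obtain ⟨g, hg, hgp⟩ := riesz_extension (PointedCone.positive ℝ C(K, ℝ)) f
    (by
      rintro ⟨x, ⟨p, rfl⟩⟩ hx
      have hx' : (0 : C(K, ℝ)) ≤ T p := by simpa using hx
      have : f ⟨T p, ⟨p, rfl⟩⟩ = L p := hF p _
      rw [this]
      refine hpos p (fun y hy => ?_)
      have h8 : (0 : ℝ) ≤ T p ⟨y, hy⟩ := hx' ⟨y, hy⟩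
      rwa [hT] at h8)
    (by
      intro y
      refine ⟨⟨T (C ‖y‖), ⟨_, rfl⟩⟩, ?_⟩
      rw [PointedCone.mem_positive]
      intro x
      have h2 : -‖y‖ ≤ y x := (abs_le.mp (by
        simpa using y.norm_coe_le_norm x)).1
      have h3 := hT (C ‖y‖) x
      show (0 : ℝ) ≤ T (C ‖y‖) x + y x
      rw [h3, eval_C]
      linarith)
  have hgT : ∀ p, g (T p) = L p := fun p => by
    have := hg ⟨T p, ⟨p, rfl⟩⟩
    simp only at this
    rw [this]
    exact hF p _
  have hgpos : ∀ x : C(K, ℝ), 0 ≤ x → 0 ≤ g x := fun x hx => hgp x (by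
    simpa using hx)
  let Λ : CompactlySupportedContinuousMap K ℝ →ₚ[ℝ] ℝ :=
  { toFun h := g h.toContinuousMap
    map_add' u v := by
      rw [← map_add]; rfl
    map_smul' c u := by
      simp only [RingHom.id_apply]
      rw [← map_smul]; rfl
    monotone' u v huv := by
      have h4 : (0 : C(K, ℝ)) ≤ v.toContinuousMap - u.toContinuousMap := by
        intro x
        have := huv x
        exact sub_nonneg.mpr this
      have := hgpos _ h4
      rw [map_sub] at this
      simpa using this }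
  let μ : Measure K := RealRMK.rieszMeasure Λ
  have hμ : ∀ h : C(K, ℝ), ∫ x, h x ∂μ = g h := fun h => by
    have := RealRMK.integral_rieszMeasure Λ ⟨h, HasCompactSupport.of_compactSpace _⟩
    exact this
  haveI : IsFiniteMeasure μ := by
    show IsFiniteMeasure (RealRMK.rieszMeasure Λ)
    infer_instance
  have hμ1 : IsProbabilityMeasure μ := by
    have h5 := hμ (T 1)
    rw [hgT, h1] at h5
    have h6 : (fun x : K => T 1 x) = fun _ => (1 : ℝ) := by
      funext x
      rw [hT]; simp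
    rw [h6] at h5
    simp only [integral_const, smul_eq_mul, mul_one] at h5
    constructor
    have h7 := h5
    rw [Measure.real, ENNReal.toReal_eq_one_iff] at h7
    exact h7
  refine ⟨μ.map Subtype.val, ?_, ?_, ?_⟩
  · exact Measure.isProbabilityMeasure_map (by fun_prop)
  · rw [Measure.map_apply (by fun_prop) hKc.measurableSet.compl]
    simp
  · intro p
    rw [integral_map (φ := Subtype.val) (by fun_prop)
      (p.continuous.aestronglyMeasurable)]
    rw [← hgT p, ← hμ (T p)]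
    refine integral_congr_ae (Filter.Eventually.of_forall fun x => ?_)
    simp only [hT]

/-! ### A2: spectral data of a real symmetric matrix -/

open Matrix in
theorem spec {I : Type*} [Fintype I] [DecidableEq I] (A : Matrix I I ℝ) (hA : A.IsSymm) {R : ℝ}
    (hrow : ∀ i, ∑ j, |A i j| ≤ R) :
    ∃ (lam : I → ℝ) (V : Matrix I I ℝ), (∀ r l, ∑ i, V r i * V l i = if r = l then 1 else 0) ∧
      (∀ i k, ∑ j, A k j * V j i = lam i * V k i) ∧ ∀ i, |lam i| ≤ R := by
  have hH : A.IsHermitian := by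
    rw [Matrix.IsHermitian, Matrix.conjTranspose_eq_transpose_of_trivial]
    exact hA
  refine ⟨hH.eigenvalues, (hH.eigenvectorUnitary : Matrix I I ℝ), ?_, ?_, ?_⟩
  · intro r l
    have h := congrFun (congrFun (Unitary.coe_mul_star_self hH.eigenvectorUnitary) r) l
    rw [Matrix.mul_apply] at h
    simp only [Matrix.star_apply, star_trivial, Matrix.one_apply] at h
    exact h
  · intro i k
    have h := congrFun (hH.mulVec_eigenvectorBasis i) k
    simp only [Matrix.mulVec, dotProduct, Pi.smul_apply, smul_eq_mul] at h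
    simpa only [Matrix.IsHermitian.eigenvectorUnitary_apply] using h
  · intro i
    have hv : Module.End.HasEigenvalue (Matrix.toLin' A) (hH.eigenvalues i) := by
      apply Module.End.hasEigenvalue_of_hasEigenvector (x := ⇑(hH.eigenvectorBasis i))
      rw [Module.End.hasEigenvector_iff, Module.End.mem_eigenspace_iff]
      refine ⟨?_, ?_⟩
      · rw [Matrix.toLin'_apply]
        exact hH.mulVec_eigenvectorBasis i
      · intro h0
        have := hH.eigenvectorBasis.orthonormal.ne_zero i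
        apply this
        ext j
        exact congrFun h0 j
    obtain ⟨k, hk⟩ := eigenvalue_mem_ball hv
    rw [Metric.mem_closedBall, Real.dist_eq] at hk
    have h2 := hrow k
    rw [← Finset.add_sum_erase _ _ (Finset.mem_univ k)] at h2
    simp only [Real.norm_eq_abs] at hk
    calc |hH.eigenvalues i| = |A k k + (hH.eigenvalues i - A k k)| := by ring_nf
      _ ≤ |A k k| + |hH.eigenvalues i - A k k| := abs_add_le _ _
      _ ≤ R := by linarith

section data

variable {I : Type*} [Fintype I] [DecidableEq I] {A : Matrix I I ℝ} {lam : I → ℝ}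
  {V : Matrix I I ℝ}

theorem pow_apply (h1 : ∀ r l, ∑ i, V r i * V l i = if r = l then 1 else 0)
    (h2 : ∀ i k, ∑ j, A k j * V j i = lam i * V k i) (r l : I) (n : ℕ) :
    (A ^ n) r l = ∑ i, lam i ^ n * V r i * V l i := by
  induction n generalizing r with
  | zero => simp [h1, Matrix.one_apply]
  | succ n ih =>
    rw [pow_succ', Matrix.mul_apply]
    simp_rw [ih, Finset.mul_sum]
    rw [Finset.sum_comm]
    refine Finset.sum_congr rfl fun i _ => ?_
    calc ∑ x, A r x * (lam i ^ n * V x i * V l i)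
        = (lam i ^ n * V l i) * ∑ x, A r x * V x i := by
          rw [Finset.mul_sum]; exact Finset.sum_congr rfl fun x _ => by ring
      _ = _ := by rw [h2]; ring

theorem aeval_apply (h1 : ∀ r l, ∑ i, V r i * V l i = if r = l then 1 else 0)
    (h2 : ∀ i k, ∑ j, A k j * V j i = lam i * V k i) (r l : I) (p : ℝ[X]) :
    (aeval A p) r l = ∑ i, p.eval (lam i) * V r i * V l i := by
  rw [aeval_eq_sum_range, Matrix.sum_apply]
  simp_rw [eval_eq_sum_range, Finset.sum_mul]
  rw [Finset.sum_comm]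
  refine Finset.sum_congr rfl fun n _ => ?_
  rw [Matrix.smul_apply, pow_apply h1 h2, smul_eq_mul, Finset.mul_sum]
  exact Finset.sum_congr rfl fun i _ => by ring

theorem resolvent_apply (hA : A.IsSymm) (h1 : ∀ r l, ∑ i, V r i * V l i = if r = l then 1 else 0)
    (h2 : ∀ i k, ∑ j, A k j * V j i = lam i * V k i) {z : ℂ} (hz : z.im ≠ 0) {r : I}
    {φ : I → ℂ} (hφ : ∀ i, ∑ j, (A i j : ℂ) * φ j - z * φ i = if i = r then 1 else 0) :
    φ r = ∑ i, (V r i : ℂ) ^ 2 * ((lam i : ℂ) - z)⁻¹ := by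
  have hne : ∀ i, (lam i : ℂ) - z ≠ 0 := fun i h => hz (by
    have := congrArg Complex.im h
    simpa using this)
  have hc : ∀ i, ∑ j, (V j i : ℂ) * φ j = (V r i : ℂ) * ((lam i : ℂ) - z)⁻¹ := by
    intro i
    rw [eq_mul_inv_iff_mul_eq₀ (hne i)]
    have e1 : ∑ k, (V k i : ℂ) * (∑ j, (A k j : ℂ) * φ j - z * φ k) = (V r i : ℂ) := by
      simp_rw [hφ]
      simp
    rw [← e1]
    simp_rw [mul_sub]
    rw [Finset.sum_sub_distrib]
    have e2 : ∑ k, (V k i : ℂ) * ∑ j, (A k j : ℂ) * φ j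
        = ∑ j, ((lam i : ℂ) * (V j i : ℂ)) * φ j := by
      simp_rw [Finset.mul_sum]
      rw [Finset.sum_comm]
      refine Finset.sum_congr rfl fun j _ => ?_
      have e3 := h2 i j
      have e4 : ((∑ k, A j k * V k i : ℝ) : ℂ) = ((lam i * V j i : ℝ) : ℂ) := by rw [e3]
      push_cast at e4
      rw [← e4, Finset.sum_mul]
      refine Finset.sum_congr rfl fun k _ => ?_
      rw [hA.apply k j]
      ring
    rw [e2, Finset.sum_mul, Finset.sum_mul, ← Finset.sum_sub_distrib,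
      ← Finset.sum_sub_distrib]
    refine Finset.sum_congr rfl fun j _ => ?_
    ring
  have e5 : φ r = ∑ j, (∑ i, (V r i : ℂ) * (V j i : ℂ)) * φ j := by
    have : ∀ j, ∑ i, (V r i : ℂ) * (V j i : ℂ) = if r = j then 1 else 0 := fun j => by
      have := h1 r j
      have h6 : ((∑ i, V r i * V j i : ℝ) : ℂ) = ((if r = j then 1 else 0 : ℝ) : ℂ) := by rw [this]
      push_cast at h6
      rw [h6]
      split_ifs <;> simp
    simp_rw [this]
    simp
  rw [e5]
  simp_rw [Finset.sum_mul]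
  rw [Finset.sum_comm]
  refine Finset.sum_congr rfl fun i _ => ?_
  have := hc i
  calc ∑ x, (V r i : ℂ) * (V x i : ℂ) * φ x = (V r i : ℂ) * ∑ x, (V x i : ℂ) * φ x := by
        rw [Finset.mul_sum]; exact Finset.sum_congr rfl fun x _ => by ring
    _ = _ := by rw [this]; ring

end data

theorem aeval_nonneg {I : Type*} [Fintype I] [DecidableEq I] (A : Matrix I I ℝ) (hA : A.IsSymm)
    {R : ℝ} (hrow : ∀ i, ∑ j, |A i j| ≤ R) (r : I) (p : ℝ[X])
    (hp : ∀ x ∈ Icc (-R) R, 0 ≤ p.eval x) : 0 ≤ (aeval A p) r r := by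
  obtain ⟨lam, V, h1, h2, h3⟩ := spec A hA hrow
  rw [aeval_apply h1 h2]
  refine Finset.sum_nonneg fun i _ => ?_
  rw [mul_assoc]
  exact mul_nonneg (hp _ (abs_le.mp (h3 i))) (mul_self_nonneg _)

theorem aeval_abs_le {I : Type*} [Fintype I] [DecidableEq I] (A : Matrix I I ℝ) (hA : A.IsSymm)
    {R : ℝ} (hrow : ∀ i, ∑ j, |A i j| ≤ R) (r : I) (p : ℝ[X]) {M : ℝ}
    (hp : ∀ x ∈ Icc (-R) R, |p.eval x| ≤ M) : |(aeval A p) r r| ≤ M := by
  obtain ⟨lam, V, h1, h2, h3⟩ := spec A hA hrow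
  rw [aeval_apply h1 h2]
  have h4 : ∑ i, V r i * V r i = 1 := by rw [h1]; simp
  calc |∑ i, p.eval (lam i) * V r i * V r i| ≤ ∑ i, |p.eval (lam i) * V r i * V r i| :=
        Finset.abs_sum_le_sum_abs _ _
    _ ≤ ∑ i, M * (V r i * V r i) := by
        refine Finset.sum_le_sum fun i _ => ?_
        rw [mul_assoc, abs_mul, abs_of_nonneg (mul_self_nonneg (V r i))]
        exact mul_le_mul_of_nonneg_right (hp _ (abs_le.mp (h3 i))) (mul_self_nonneg _)
    _ = M := by rw [← Finset.mul_sum, h4, mul_one]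

/-! ### A3: resolvent entries are approximated by polynomials -/

theorem resolvent_sub_le {I : Type*} [Fintype I] [DecidableEq I] (A : Matrix I I ℝ)
    (hA : A.IsSymm) {R : ℝ} (hrow : ∀ i, ∑ j, |A i j| ≤ R) {z : ℂ} (hz : z.im ≠ 0) {r : I}
    {φ : I → ℂ} (hφ : ∀ i, ∑ j, (A i j : ℂ) * φ j - z * φ i = if i = r then 1 else 0)
    {p q : ℝ[X]} {ε : ℝ}
    (hpq : ∀ x ∈ Icc (-R) R, ‖((x : ℂ) - z)⁻¹ - ((p.eval x : ℝ) + (q.eval x : ℝ) * Complex.I)‖ ≤ ε) :
    ‖φ r - (((aeval A p) r r : ℝ) + ((aeval A q) r r : ℝ) * Complex.I)‖ ≤ ε := by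
  obtain ⟨lam, V, h1, h2, h3⟩ := spec A hA hrow
  have h4 : ∑ i, V r i * V r i = 1 := by rw [h1]; simp
  rw [resolvent_apply hA h1 h2 hz hφ, aeval_apply h1 h2, aeval_apply h1 h2]
  push_cast
  rw [Finset.sum_mul, ← Finset.sum_add_distrib, ← Finset.sum_sub_distrib]
  calc ‖∑ i, ((V r i : ℂ) ^ 2 * ((lam i : ℂ) - z)⁻¹ - (((p.eval (lam i) : ℝ) : ℂ) * V r i * V r i +
          ((q.eval (lam i) : ℝ) : ℂ) * V r i * V r i * Complex.I))‖
      ≤ ∑ i, ‖((V r i : ℂ) ^ 2 * ((lam i : ℂ) - z)⁻¹ - (((p.eval (lam i) : ℝ) : ℂ) * V r i * V r i +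
          ((q.eval (lam i) : ℝ) : ℂ) * V r i * V r i * Complex.I))‖ := norm_sum_le _ _
    _ ≤ ∑ i, ε * (V r i * V r i) := by
        refine Finset.sum_le_sum fun i _ => ?_
        have e : ((V r i : ℂ) ^ 2 * ((lam i : ℂ) - z)⁻¹ - (((p.eval (lam i) : ℝ) : ℂ) * V r i * V r i +
          ((q.eval (lam i) : ℝ) : ℂ) * V r i * V r i * Complex.I))
          = ((V r i * V r i : ℝ) : ℂ) * (((lam i : ℂ) - z)⁻¹ -
            ((p.eval (lam i) : ℝ) + (q.eval (lam i) : ℝ) * Complex.I)) := by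
          push_cast; ring
        rw [e, norm_mul, Complex.norm_real, Real.norm_eq_abs,
          abs_of_nonneg (mul_self_nonneg (V r i)), mul_comm]
        exact mul_le_mul_of_nonneg_right (hpq _ (abs_le.mp (h3 i))) (mul_self_nonneg _)
    _ = ε := by rw [← Finset.mul_sum, h4, mul_one]

theorem exists_poly (R : ℝ) {z : ℂ} (hz : z.im ≠ 0) {ε : ℝ} (hε : 0 < ε) :
    ∃ p q : ℝ[X], ∀ x ∈ Icc (-R) R,
      ‖((x : ℂ) - z)⁻¹ - ((p.eval x : ℝ) + (q.eval x : ℝ) * Complex.I)‖ ≤ ε := by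
  have hne : ∀ x : ℝ, (x : ℂ) - z ≠ 0 := fun x h => hz (by
    have := congrArg Complex.im h
    simpa using this)
  have hc : Continuous fun x : ℝ => ((x : ℂ) - z)⁻¹ :=
    Continuous.inv₀ (by fun_prop) hne
  obtain ⟨p, hp⟩ := exists_polynomial_near_of_continuousOn (-R) R
    (fun x => (((x : ℂ) - z)⁻¹).re) (Complex.continuous_re.comp hc).continuousOn (ε / 2)
    (by positivity)
  obtain ⟨q, hq⟩ := exists_polynomial_near_of_continuousOn (-R) R
    (fun x => (((x : ℂ) - z)⁻¹).im) (Complex.continuous_im.comp hc).continuousOn (ε / 2)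
    (by positivity)
  refine ⟨p, q, fun x hx => ?_⟩
  have h5 := hp x hx
  have h6 := hq x hx
  set w := ((x : ℂ) - z)⁻¹
  calc ‖w - ((p.eval x : ℝ) + (q.eval x : ℝ) * Complex.I)‖
      ≤ |(w - ((p.eval x : ℝ) + (q.eval x : ℝ) * Complex.I)).re| +
        |(w - ((p.eval x : ℝ) + (q.eval x : ℝ) * Complex.I)).im| :=
        Complex.norm_le_abs_re_add_abs_im _
    _ = |p.eval x - w.re| + |q.eval x - w.im| := by
        rw [abs_sub_comm (p.eval x), abs_sub_comm (q.eval x)]
        simp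
    _ ≤ ε := by linarith

/-! ### A4: glue -/

section glue

open Filter Topology

variable {Ω : Type*} [MeasurableSpace Ω] (P : Measure Ω) [IsProbabilityMeasure P]

theorem measurable_pow {I : Type*} [Fintype I] [DecidableEq I] {A : Ω → Matrix I I ℝ}
    (hA : ∀ i j, Measurable fun ω => A ω i j) (k : ℕ) (i j : I) :
    Measurable fun ω => (A ω ^ k) i j := by
  induction k generalizing i with
  | zero => simp only [pow_zero]; exact measurable_const
  | succ k ih =>
    simp_rw [pow_succ', Matrix.mul_apply]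
    exact Finset.measurable_sum _ fun l _ => (hA i l).mul (ih l)

theorem aeval_sum {I : Type*} [Fintype I] [DecidableEq I] (A : Matrix I I ℝ) (r : I) (p : ℝ[X]) :
    (aeval A p) r r = ∑ k ∈ Finset.range (p.natDegree + 1), p.coeff k * (A ^ k) r r := by
  rw [aeval_eq_sum_range, Matrix.sum_apply]
  rfl

/-- the functional of a sequence of moments -/
def LL (mom : ℕ → ℝ) : ℝ[X] →ₗ[ℝ] ℝ :=
  Polynomial.lsum fun k => LinearMap.toSpanSingleton ℝ ℝ (mom k)

theorem LL_apply (mom : ℕ → ℝ) (p : ℝ[X]) :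
    LL mom p = ∑ k ∈ Finset.range (p.natDegree + 1), p.coeff k * mom k := by
  rw [LL, Polynomial.lsum_apply, Polynomial.sum_over_range]
  · rfl
  · intro n; simp

theorem integrable_pow {I : Type*} [Fintype I] [DecidableEq I] {A : Ω → Matrix I I ℝ} {R : ℝ}
    (hsymm : ∀ ω, (A ω).IsSymm) (hrow : ∀ᵐ ω ∂P, ∀ i, ∑ j, |A ω i j| ≤ R)
    (hA : ∀ i j, Measurable fun ω => A ω i j) (k : ℕ) (r : I) :
    Integrable (fun ω => (A ω ^ k) r r) P := by
  refine Integrable.of_bound (measurable_pow hA k r r).aestronglyMeasurable (R ^ k) ?_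
  filter_upwards [hrow] with ω hω
  have h := aeval_abs_le (A ω) (hsymm ω) hω r (X ^ k) (M := R ^ k) (fun x hx => by
    rw [eval_pow, eval_X, abs_pow]
    exact pow_le_pow_left₀ (abs_nonneg _) (abs_le.mpr hx) k)
  simpa using h

theorem integral_aeval {I : Type*} [Fintype I] [DecidableEq I] {A : Ω → Matrix I I ℝ} {R : ℝ}
    (hsymm : ∀ ω, (A ω).IsSymm) (hrow : ∀ᵐ ω ∂P, ∀ i, ∑ j, |A ω i j| ≤ R)
    (hA : ∀ i j, Measurable fun ω => A ω i j) (r : I) {mom : ℕ → ℝ} {N : ℕ}
    (hmom : ∀ k, k ≤ N → ∫ ω, ((A ω) ^ k) r r ∂P = mom k) (p : ℝ[X]) (hp : p.natDegree ≤ N) :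
    ∫ ω, (aeval (A ω) p) r r ∂P = LL mom p := by
  simp_rw [aeval_sum, LL_apply]
  rw [integral_finsetSum]
  · refine Finset.sum_congr rfl fun k hk => ?_
    rw [integral_const_mul, hmom k]
    have := Finset.mem_range.mp hk
    omega
  · intro k _
    exact (integrable_pow P hsymm hrow hA k r).const_mul _

theorem integrable_aeval {I : Type*} [Fintype I] [DecidableEq I] {A : Ω → Matrix I I ℝ} {R : ℝ}
    (hsymm : ∀ ω, (A ω).IsSymm) (hrow : ∀ᵐ ω ∂P, ∀ i, ∑ j, |A ω i j| ≤ R)
    (hA : ∀ i j, Measurable fun ω => A ω i j) (r : I) (p : ℝ[X]) :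
    Integrable (fun ω => (aeval (A ω) p) r r) P := by
  simp_rw [aeval_sum]
  exact integrable_finsetSum _ fun k _ => (integrable_pow P hsymm hrow hA k r).const_mul _

theorem exists_dos {I : ℕ → Type*} [∀ N, Fintype (I N)] [∀ N, DecidableEq (I N)]
    {R : ℝ} (hR : 0 < R) (mom : ℕ → ℝ) (A : ∀ N, Ω → Matrix (I N) (I N) ℝ) (r : ∀ N, I N)
    (hsymm : ∀ N ω, (A N ω).IsSymm) (hrow : ∀ N, ∀ᵐ ω ∂P, ∀ i, ∑ j, |A N ω i j| ≤ R)
    (hmeas : ∀ N i j, Measurable fun ω => A N ω i j)
    (hmom : ∀ N k, k ≤ N → ∫ ω, ((A N ω) ^ k) (r N) (r N) ∂P = mom k) :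
    ∃ ν : Measure ℝ, IsProbabilityMeasure ν ∧ ν (Icc (-R) R)ᶜ = 0 ∧
      (∀ k : ℕ, ∫ x, x ^ k ∂ν = mom k) ∧
      ∀ z : ℂ, z.im ≠ 0 → ∀ φ : ∀ N, Ω → I N → ℂ,
        (∀ N, AEStronglyMeasurable (fun ω => φ N ω (r N)) P) →
        (∀ N, ∀ᵐ ω ∂P, ∀ i, ∑ j, (A N ω i j : ℂ) * φ N ω j - z * φ N ω i =
          if i = r N then 1 else 0) →
        Tendsto (fun N => ∫ ω, φ N ω (r N) ∂P) atTop (𝓝 (∫ x : ℝ, ((x : ℂ) - z)⁻¹ ∂ν)) := by
  have hL1 : LL mom 1 = 1 := by
    rw [LL_apply]
    have h0 := hmom 0 0 le_rfl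
    simp only [pow_zero, Matrix.one_apply_eq, integral_const, probReal_univ, smul_eq_mul,
      mul_one] at h0
    simp [← h0]
  have hLpos : ∀ p : ℝ[X], (∀ x ∈ Icc (-R) R, 0 ≤ p.eval x) → 0 ≤ LL mom p := by
    intro p hp
    rw [← integral_aeval P (hsymm p.natDegree) (hrow p.natDegree) (hmeas p.natDegree)
      (r p.natDegree) (hmom p.natDegree) p le_rfl]
    refine integral_nonneg_of_ae ?_
    filter_upwards [hrow p.natDegree] with ω hω
    exact aeval_nonneg _ (hsymm _ ω) hω _ p hp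
  obtain ⟨ν, hν1, hν2, hν3⟩ := exists_measure hR (LL mom) hL1 hLpos
  refine ⟨ν, hν1, hν2, fun k => ?_, fun z hz φ hφm hφ => ?_⟩
  · have h := hν3 (X ^ k)
    simp only [eval_pow, eval_X] at h
    rw [h, LL_apply]
    simp [Polynomial.coeff_X_pow]
  · rw [Metric.tendsto_atTop]
    intro ε hε
    obtain ⟨p, q, hpq⟩ := exists_poly R hz (ε := ε / 3) (by positivity)
    refine ⟨max p.natDegree q.natDegree, fun N hN => ?_⟩
    have hNp : p.natDegree ≤ N := le_trans (le_max_left _ _) hN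
    have hNq : q.natDegree ≤ N := le_trans (le_max_right _ _) hN
    set W : ℂ := (LL mom p : ℝ) + (LL mom q : ℝ) * Complex.I with hW
    -- the measure side
    have hν_ae : ∀ᵐ x ∂ν, x ∈ Icc (-R) R := by
      rw [ae_iff]
      exact hν2
    have hne : ∀ x : ℝ, (x : ℂ) - z ≠ 0 := fun x h => hz (by
      have := congrArg Complex.im h
      simpa using this)
    have hc : Continuous fun x : ℝ => ((x : ℂ) - z)⁻¹ :=
      Continuous.inv₀ (by fun_prop) hne
    have hint : ∀ f : ℝ → ℂ, Continuous f → Integrable f ν := by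
      intro f hf
      obtain ⟨M, hM⟩ := isCompact_Icc.exists_bound_of_continuousOn (s := Icc (-R) R) hf.continuousOn
      exact Integrable.of_bound hf.aestronglyMeasurable M (by
        filter_upwards [hν_ae] with x hx using hM x hx)
    have hpc : Continuous fun x : ℝ => ((p.eval x : ℝ) : ℂ) + (q.eval x : ℝ) * Complex.I := by
      have := p.continuous
      have := q.continuous
      fun_prop
    have hA : ‖∫ x : ℝ, ((x : ℂ) - z)⁻¹ ∂ν - W‖ ≤ ε / 3 := by
      have h1 : W = ∫ x : ℝ, (((p.eval x : ℝ) : ℂ) + (q.eval x : ℝ) * Complex.I) ∂ν := by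
        rw [integral_add (hint _ (by have := p.continuous; fun_prop))
          (hint _ (by have := q.continuous; fun_prop)), integral_mul_const, integral_complex_ofReal,
          integral_complex_ofReal, hν3, hν3]
      rw [h1, ← integral_sub (hint _ hc) (hint _ hpc)]
      refine (norm_integral_le_of_norm_le_const (C := ε / 3) ?_).trans ?_
      · filter_upwards [hν_ae] with x hx using hpq x hx
      · simp
    -- the matrix side
    set g : Ω → ℂ := fun ω => ((aeval (A N ω) p) (r N) (r N) : ℝ) +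
      ((aeval (A N ω) q) (r N) (r N) : ℝ) * Complex.I with hg
    have hip := integrable_aeval P (hsymm N) (hrow N) (hmeas N) (r N) p
    have hiq := integrable_aeval P (hsymm N) (hrow N) (hmeas N) (r N) q
    have hgi : Integrable g P := hip.ofReal.add (hiq.ofReal.mul_const _)
    have hclose : ∀ᵐ ω ∂P, ‖φ N ω (r N) - g ω‖ ≤ ε / 3 := by
      filter_upwards [hrow N, hφ N] with ω h1 h2
      exact resolvent_sub_le (A N ω) (hsymm N ω) h1 hz h2 hpq
    have hdi : Integrable (fun ω => φ N ω (r N) - g ω) P :=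
      Integrable.of_bound ((hφm N).sub hgi.aestronglyMeasurable) (ε / 3) hclose
    have hφi : Integrable (fun ω => φ N ω (r N)) P := by
      have := hdi.add hgi
      refine this.congr (Eventually.of_forall fun ω => ?_)
      simp
    have hB : ‖∫ ω, φ N ω (r N) ∂P - W‖ ≤ ε / 3 := by
      have h1 : W = ∫ ω, g ω ∂P := by
        rw [hg, integral_add hip.ofReal (hiq.ofReal.mul_const _), integral_mul_const,
          integral_complex_ofReal, integral_complex_ofReal,
          integral_aeval P (hsymm N) (hrow N) (hmeas N) (r N) (hmom N) p hNp,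
          integral_aeval P (hsymm N) (hrow N) (hmeas N) (r N) (hmom N) q hNq]
      rw [h1, ← integral_sub hφi hgi]
      refine (norm_integral_le_of_norm_le_const (C := ε / 3) hclose).trans ?_
      simp
    rw [dist_eq_norm]
    calc ‖∫ ω, φ N ω (r N) ∂P - ∫ x : ℝ, ((x : ℂ) - z)⁻¹ ∂ν‖
        = ‖(∫ ω, φ N ω (r N) ∂P - W) - (∫ x : ℝ, ((x : ℂ) - z)⁻¹ ∂ν - W)‖ := by
          congr 1; ring
      _ ≤ ‖∫ ω, φ N ω (r N) ∂P - W‖ + ‖∫ x : ℝ, ((x : ℂ) - z)⁻¹ ∂ν - W‖ := norm_sub_le _ _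
      _ < ε := by linarith

end glue

end

end Crest.Agent.R166.MomFun390
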