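import Crest.Agent.R166.Ball4_356
import Crest.Agent.R166.MomFun_390

/-!
# Row 166, section 70 (M1): the density-of-states measure of the tree operator (helper356)

`exists_treeDOS`: for every `b` and `s ≥ 0` there is a measure `ν` with `IsTreeDOS (b + 1) s ν` and
`∫ (x - z)⁻¹ dν = Gav b s z` for all `z` in the upper half plane (abstract part: helper390).
-/

set_option autoImplicit false

open Finset MeasureTheory Filter Topology

namespace Crest.Agent.R166.DosM1356

open Crest.ProbabilityR.RandomMatrix Crest.Agent.R166.Env536 Crest.Agent.R166.TreeDefs350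
  Crest.Agent.R166.TreeWalk356 Crest.Agent.R166.Ball356

/-- **(M1)** existence of the density-of-states measure and its Stieltjes transform -/
theorem exists_treeDOS (b : ℕ) (s : ℝ) (hs : 0 ≤ s) :
    ∃ ν : Measure ℝ, IsTreeDOS (b + 1) s ν ∧
      ∀ z : ℂ, 0 < z.im → ∫ x : ℝ, ((x : ℂ) - z)⁻¹ ∂ν = Gav b s z := by
  have hR : (0 : ℝ) < ((b + 1 : ℕ) : ℝ) + s := by positivity
  obtain ⟨ν, h1, h2, h3, h4⟩ := MomFun390.exists_dos (P := PN (b + 1))
    (I := fun N => V (b + 1) (N + 1)) hR (treeMoment (b + 1) s)
    (fun N Ω => HN s (N + 1) Ω) (fun N => rN (N + 1))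
    (fun N Ω => by
      have := HN_symm s (N + 1) Ω
      rw [Matrix.IsHermitian, Matrix.conjTranspose_eq_transpose_of_trivial] at this
      exact this)
    (fun N => by
      filter_upwards [ae_cube (d := b + 1)] with Ω hΩ x
      exact HN_row s hs (N + 1) Ω hΩ x)
    (fun N i j => by
      unfold HN
      refine measurable_const.add ?_
      by_cases h : i = j
      · simp only [h, if_true]
        exact measurable_const.mul (measurable_pi_apply _)
      · simp only [h, if_false]
        exact measurable_const)
    (fun N k hk => by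
      simp only [HN_pow_root s _ (Nat.le_succ_of_le hk)]
      exact integral_Tl_pow s k)
  refine ⟨ν, ⟨h1, h2, h3⟩, ?_⟩
  intro z hz
  have h5 := h4 z hz.ne' (fun N Ω y => fv s z N Ω y.1)
    (fun N => (measurable_GN s z N).aestronglyMeasurable)
    (fun N => ae_of_all _ fun Ω x => by
      classical
      have h6 := congrFun (HN_green s hz N Ω) x
      rw [Matrix.sub_mulVec, Matrix.smul_mulVec, Matrix.one_mulVec] at h6
      simp only [Pi.sub_apply, Pi.smul_apply, smul_eq_mul, Matrix.mulVec, dotProduct,
        Matrix.map_apply] at h6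
      rw [h6, Pi.single_apply])
  exact tendsto_nhds_unique h5 (tendsto_integral_GN s hz)

end Crest.Agent.R166.DosM1356
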