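import Crest.Agent.R166.Master_423
import Crest.Agent.R166.DosM1_356

/-! Row 166: `StmtM1` of the master file (helper356). -/

set_option autoImplicit false

namespace Crest.Agent.R166.Audit356

open MeasureTheory Crest.ProbabilityR.RandomMatrix Crest.Agent.R166

theorem stmtM1 : Master423.StmtM1 := by
  intro d s hd hs
  obtain ⟨b, rfl⟩ : ∃ b, d = b + 1 := ⟨d - 1, by omega⟩
  exact DosM1356.exists_treeDOS b s hs

end Crest.Agent.R166.Audit356
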