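import Crest.Agent.R166.Root_355

/-!
# R166 (helper797): the clean block `Bclean`, the root `mc` near the real axis

Complements `Root_355`.  Everything is for `3 ≤ d` (`b = d - 1 ≥ 2`).
-/

set_option autoImplicit false

namespace Crest.Agent.R166.McClean797

open Complex Matrix Filter Topology Crest.Agent.R166 Crest.Agent.R166.Root355
  Crest.ProbabilityR.RandomMatrix

/-! ### the norm `bnorm` -/

lemma bnorm_le_iff {B : Matrix (Fin 2) (Fin 2) ℂ} {r : ℝ} :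
    bnorm B ≤ r ↔ ∀ i j, ‖B i j‖ ≤ r := by
  unfold bnorm
  constructor
  · intro h i j
    have h1 := max_le_iff.mp h
    have h2 := max_le_iff.mp h1.1
    have h3 := max_le_iff.mp h1.2
    fin_cases i <;> fin_cases j
    · exact h2.1
    · exact h2.2
    · exact h3.1
    · exact h3.2
  · intro h
    exact max_le (max_le (h 0 0) (h 0 1)) (max_le (h 1 0) (h 1 1))

lemma norm_le_bnorm (B : Matrix (Fin 2) (Fin 2) ℂ) (i j : Fin 2) : ‖B i j‖ ≤ bnorm B :=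
  bnorm_le_iff.mp le_rfl i j

lemma bnorm_nonneg (B : Matrix (Fin 2) (Fin 2) ℂ) : 0 ≤ bnorm B :=
  (norm_nonneg _).trans (norm_le_bnorm B 0 0)

lemma bnorm_mul_le (A B : Matrix (Fin 2) (Fin 2) ℂ) : bnorm (A * B) ≤ 2 * bnorm A * bnorm B := by
  rw [bnorm_le_iff]
  intro i j
  rw [Matrix.mul_apply, Fin.sum_univ_two]
  have hA := bnorm_nonneg A
  calc ‖A i 0 * B 0 j + A i 1 * B 1 j‖ ≤ ‖A i 0 * B 0 j‖ + ‖A i 1 * B 1 j‖ := norm_add_le _ _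
    _ = ‖A i 0‖ * ‖B 0 j‖ + ‖A i 1‖ * ‖B 1 j‖ := by rw [norm_mul, norm_mul]
    _ ≤ bnorm A * bnorm B + bnorm A * bnorm B := by
        gcongr <;> exact norm_le_bnorm _ _ _
    _ = _ := by ring

lemma bnorm_add_le (A B : Matrix (Fin 2) (Fin 2) ℂ) : bnorm (A + B) ≤ bnorm A + bnorm B := by
  rw [bnorm_le_iff]
  intro i j
  exact (norm_add_le _ _).trans (add_le_add (norm_le_bnorm _ _ _) (norm_le_bnorm _ _ _))

/-! ### roots with `b ≥ 2` -/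

section Root

variable {b : ℝ} {z m z' m' : ℂ}

lemma norm_sq_le (h : IsRoot b z m) (hb : 2 ≤ b) (hz : 0 ≤ z.im) : ‖m‖ ^ 2 ≤ 1 / b := by
  have h1 := h.b_normSq_le hz
  rw [Complex.normSq_eq_norm_sq] at h1
  rw [le_div_iff₀ (by linarith)]
  linarith

lemma norm_le_inv_sqrt (h : IsRoot b z m) (hb : 2 ≤ b) (hz : 0 ≤ z.im) :
    ‖m‖ ≤ 1 / Real.sqrt b := by
  have h1 := norm_sq_le h hb hz
  have hs : 0 < Real.sqrt b := Real.sqrt_pos.mpr (by linarith)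
  have h2 : ‖m‖ ^ 2 ≤ (1 / Real.sqrt b) ^ 2 := by
    rw [div_pow, Real.sq_sqrt (by linarith), one_pow]; exact h1
  exact le_of_sq_le_sq h2 (by positivity)
where
  le_of_sq_le_sq {x y : ℝ} (h : x ^ 2 ≤ y ^ 2) (hy : 0 ≤ y) : x ≤ y := abs_le_of_sq_le_sq' h hy |>.2

lemma norm_sq_le_half (h : IsRoot b z m) (hb : 2 ≤ b) (hz : 0 ≤ z.im) : ‖m‖ ^ 2 ≤ 1 / 2 := by
  refine (norm_sq_le h hb hz).trans ?_
  gcongr

lemma norm_le_34 (h : IsRoot b z m) (hb : 2 ≤ b) (hz : 0 ≤ z.im) : ‖m‖ ≤ 3 / 4 := by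
  have h1 := norm_sq_le_half h hb hz
  nlinarith [norm_nonneg m]

lemma half_le_norm (h : IsRoot b z m) (hb : 2 ≤ b) (hz : 0 ≤ z.im) : 1 / 2 ≤ ‖1 - m ^ 2‖ := by
  have h1 := norm_sq_le_half h hb hz
  have h2 : ‖(1 : ℂ)‖ - ‖m ^ 2‖ ≤ ‖1 - m ^ 2‖ := norm_sub_norm_le _ _
  rw [norm_pow, norm_one] at h2
  linarith

lemma one_sub_sq_ne_zero (h : IsRoot b z m) (hb : 2 ≤ b) (hz : 0 ≤ z.im) : 1 - m ^ 2 ≠ 0 := by
  intro h0
  have := half_le_norm h hb hz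
  rw [h0, norm_zero] at this
  linarith

lemma sq_ne_one (h : IsRoot b z m) (hb : 2 ≤ b) (hz : 0 ≤ z.im) : m ^ 2 ≠ 1 :=
  h.sq_ne_one (by linarith) hz

lemma one_sub_ne_zero (h : IsRoot b z m) (hb : 2 ≤ b) (hz : 0 ≤ z.im) : 1 - m ≠ 0 := by
  intro h0
  exact one_sub_sq_ne_zero h hb hz (by linear_combination (1 + m) * h0)

lemma one_add_ne_zero (h : IsRoot b z m) (hb : 2 ≤ b) (hz : 0 ≤ z.im) : 1 + m ≠ 0 := by
  intro h0
  exact one_sub_sq_ne_zero h hb hz (by linear_combination (1 - m) * h0)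

lemma norm_one_sub_sq_le (h : IsRoot b z m) (hb : 2 ≤ b) (hz : 0 ≤ z.im) : ‖1 - m ^ 2‖ ≤ 2 := by
  have h1 := norm_sq_le_half h hb hz
  have h2 : ‖1 - m ^ 2‖ ≤ ‖(1 : ℂ)‖ + ‖m ^ 2‖ := norm_sub_le _ _
  rw [norm_pow, norm_one] at h2
  linarith

/-- `Im (m / (1 - m)) = Im m / |1 - m|²` -/
lemma im_div_one_sub (h1 : 1 - m ≠ 0) : (m / (1 - m)).im = m.im / ‖1 - m‖ ^ 2 := by
  have hn : Complex.normSq (1 - m) ≠ 0 := by
    simpa [Complex.normSq_eq_zero] using h1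
  rw [← Complex.normSq_eq_norm_sq, Complex.div_im]
  simp only [Complex.sub_re, Complex.one_re, Complex.sub_im, Complex.one_im]
  field_simp
  ring

/-- `Im (m / (1 + m)) = Im m / |1 + m|²` -/
lemma im_div_one_add (h1 : 1 + m ≠ 0) : (m / (1 + m)).im = m.im / ‖1 + m‖ ^ 2 := by
  have hn : Complex.normSq (1 + m) ≠ 0 := by
    simpa [Complex.normSq_eq_zero] using h1
  rw [← Complex.normSq_eq_norm_sq, Complex.div_im]
  simp only [Complex.add_re, Complex.one_re, Complex.add_im, Complex.one_im]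
  field_simp
  ring

lemma im_div_one_sub_ge (h : IsRoot b z m) (hb : 2 ≤ b) (hz : 0 ≤ z.im) :
    m.im / 4 ≤ (m / (1 - m)).im := by
  have h1 := one_sub_ne_zero h hb hz
  rw [im_div_one_sub h1]
  have h2 : ‖1 - m‖ ≤ 2 := by
    have := norm_sub_le (1 : ℂ) m
    have h3 := norm_le_34 h hb hz
    rw [norm_one] at this
    linarith
  have h3 : 0 < ‖1 - m‖ := norm_pos_iff.mpr h1
  have h4 : ‖1 - m‖ ^ 2 ≤ 4 := by nlinarith
  have := h.im_pos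
  gcongr

lemma im_div_one_add_ge (h : IsRoot b z m) (hb : 2 ≤ b) (hz : 0 ≤ z.im) :
    m.im / 4 ≤ (m / (1 + m)).im := by
  have h1 := one_add_ne_zero h hb hz
  rw [im_div_one_add h1]
  have h2 : ‖1 + m‖ ≤ 2 := by
    have := norm_add_le (1 : ℂ) m
    have h3 := norm_le_34 h hb hz
    rw [norm_one] at this
    linarith
  have h3 : 0 < ‖1 + m‖ := norm_pos_iff.mpr h1
  have h4 : ‖1 + m‖ ^ 2 ≤ 4 := by nlinarith
  have := h.im_pos
  gcongr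

lemma im_div_one_sub_le (h : IsRoot b z m) (hb : 2 ≤ b) (hz : 0 ≤ z.im) :
    (m / (1 - m)).im ≤ 16 * m.im := by
  have h1 := one_sub_ne_zero h hb hz
  rw [im_div_one_sub h1]
  have h2 : 1 / 4 ≤ ‖1 - m‖ := by
    have := norm_sub_norm_le (1 : ℂ) m
    have h3 := norm_le_34 h hb hz
    rw [norm_one] at this
    linarith
  have h4 : (1 / 4 : ℝ) ^ 2 ≤ ‖1 - m‖ ^ 2 := by gcongr
  rw [div_le_iff₀ (by nlinarith)]
  nlinarith [h.im_pos]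

lemma im_div_one_add_le (h : IsRoot b z m) (hb : 2 ≤ b) (hz : 0 ≤ z.im) :
    (m / (1 + m)).im ≤ 16 * m.im := by
  have h1 := one_add_ne_zero h hb hz
  rw [im_div_one_add h1]
  have h2 : 1 / 4 ≤ ‖1 + m‖ := by
    have := norm_sub_norm_le (1 : ℂ) (-m)
    have h3 := norm_le_34 h hb hz
    rw [norm_one, norm_neg, sub_neg_eq_add] at this
    linarith
  have h4 : (1 / 4 : ℝ) ^ 2 ≤ ‖1 + m‖ ^ 2 := by gcongr
  rw [div_le_iff₀ (by nlinarith)]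
  nlinarith [h.im_pos]

/-- the two combinations of the entries of the clean block -/
lemma diag_add_off (h : IsRoot b z m) (hb : 2 ≤ b) (hz : 0 ≤ z.im) :
    m / (1 - m ^ 2) + -m ^ 2 / (1 - m ^ 2) = m / (1 + m) := by
  have h1 := one_sub_sq_ne_zero h hb hz
  have h2 := one_add_ne_zero h hb hz
  field_simp
  ring

lemma diag_sub_off (h : IsRoot b z m) (hb : 2 ≤ b) (hz : 0 ≤ z.im) :
    m / (1 - m ^ 2) - -m ^ 2 / (1 - m ^ 2) = m / (1 - m) := by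
  have h1 := one_sub_sq_ne_zero h hb hz
  have h2 := one_sub_ne_zero h hb hz
  field_simp
  ring

/-- Lipschitz with the sharp constant at a real energy: `|m - m0| ≤ η / (b Im m0)` -/
lemma root_sub_le (h : IsRoot b z m) (h' : IsRoot b z' m') (hb : 1 ≤ b) (hz : 0 ≤ z.im)
    (hz' : 0 ≤ z'.im) : ‖m - m'‖ ≤ ‖z - z'‖ / (b * m'.im) := by
  have hy := h.im_pos
  have hy' := h'.im_pos
  have e1 : (m - m') * (z' + (b : ℂ) * m + (b : ℂ) * m') = -(m * (z - z')) := by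
    linear_combination h.eq - h'.eq
  have h1 : b * m'.im ≤ ‖z' + (b : ℂ) * m + (b : ℂ) * m'‖ := by
    have h2 := Complex.im_le_norm (z' + (b : ℂ) * m + (b : ℂ) * m')
    simp at h2
    have h5 : 0 ≤ b * m.im := mul_nonneg (by linarith) h.im_pos.le
    linarith
  have hpos : 0 < b * m'.im := by positivity
  have h2 : ‖m - m'‖ * (b * m'.im) ≤ ‖z - z'‖ := by
    calc ‖m - m'‖ * (b * m'.im) ≤ ‖m - m'‖ * ‖z' + (b : ℂ) * m + (b : ℂ) * m'‖ := by gcongr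
      _ = ‖m‖ * ‖z - z'‖ := by rw [← norm_mul, e1, norm_neg, norm_mul]
      _ ≤ 1 * ‖z - z'‖ := by
          gcongr
          exact h.norm_le_one hb hz
      _ = _ := one_mul _
  rw [le_div_iff₀ hpos]
  exact h2

lemma diag_sub_le (h : IsRoot b z m) (h' : IsRoot b z' m') (hb : 2 ≤ b) (hz : 0 ≤ z.im)
    (hz' : 0 ≤ z'.im) : ‖m / (1 - m ^ 2) - m' / (1 - m' ^ 2)‖ ≤ 8 * ‖m - m'‖ := by
  have h1 := one_sub_sq_ne_zero h hb hz
  have h1' := one_sub_sq_ne_zero h' hb hz'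
  have e : m / (1 - m ^ 2) - m' / (1 - m' ^ 2) =
      (m - m') * (1 + m * m') / ((1 - m ^ 2) * (1 - m' ^ 2)) := by
    field_simp; ring
  rw [e, norm_div, norm_mul, norm_mul, div_le_iff₀ (by positivity)]
  have h2 := half_le_norm h hb hz
  have h2' := half_le_norm h' hb hz'
  have h3 : (1 / 2 : ℝ) * (1 / 2) ≤ ‖1 - m ^ 2‖ * ‖1 - m' ^ 2‖ := by gcongr
  have h4 : ‖1 + m * m'‖ ≤ 2 := by
    have h5 := norm_add_le (1 : ℂ) (m * m')
    have h6 := norm_le_34 h hb hz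
    have h7 := norm_le_34 h' hb hz'
    rw [norm_one, norm_mul] at h5
    have h8 : ‖m‖ * ‖m'‖ ≤ 3 / 4 * (3 / 4) := by gcongr
    linarith
  have h5 := norm_nonneg (m - m')
  calc ‖m - m'‖ * ‖1 + m * m'‖ ≤ ‖m - m'‖ * 2 := by gcongr
    _ = 8 * ‖m - m'‖ * (1 / 2 * (1 / 2)) := by ring
    _ ≤ _ := by gcongr

lemma off_sub_le (h : IsRoot b z m) (h' : IsRoot b z' m') (hb : 2 ≤ b) (hz : 0 ≤ z.im)
    (hz' : 0 ≤ z'.im) : ‖-m ^ 2 / (1 - m ^ 2) - -m' ^ 2 / (1 - m' ^ 2)‖ ≤ 8 * ‖m - m'‖ := by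
  have h1 := one_sub_sq_ne_zero h hb hz
  have h1' := one_sub_sq_ne_zero h' hb hz'
  have e : -m ^ 2 / (1 - m ^ 2) - -m' ^ 2 / (1 - m' ^ 2) =
      (m - m') * (-(m + m')) / ((1 - m ^ 2) * (1 - m' ^ 2)) := by
    field_simp; ring
  rw [e, norm_div, norm_mul, norm_mul, div_le_iff₀ (by positivity)]
  have h2 := half_le_norm h hb hz
  have h2' := half_le_norm h' hb hz'
  have h3 : (1 / 2 : ℝ) * (1 / 2) ≤ ‖1 - m ^ 2‖ * ‖1 - m' ^ 2‖ := by gcongr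
  have h4 : ‖-(m + m')‖ ≤ 2 := by
    rw [norm_neg]
    have h5 := norm_add_le m m'
    have h6 := norm_le_34 h hb hz
    have h7 := norm_le_34 h' hb hz'
    linarith
  have h5 := norm_nonneg (m - m')
  calc ‖m - m'‖ * ‖-(m + m')‖ ≤ ‖m - m'‖ * 2 := by gcongr
    _ = 8 * ‖m - m'‖ * (1 / 2 * (1 / 2)) := by ring
    _ ≤ _ := by gcongr

end Root

/-! ### the domain of `mc` -/

/-- upper half plane together with the real bulk -/
def Dom (d : ℕ) (z : ℂ) : Prop := 0 < z.im ∨ (z.im = 0 ∧ z.re ^ 2 < 4 * ((d : ℝ) - 1))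

lemma Dom.im_nonneg {d : ℕ} {z : ℂ} (h : Dom d z) : 0 ≤ z.im := by
  rcases h with h | h
  · exact h.le
  · exact h.1.ge

lemma dom_real {d : ℕ} {E : ℝ} (hE : E ^ 2 < 4 * ((d : ℝ) - 1)) : Dom d (E : ℂ) :=
  Or.inr ⟨by simp, by simpa using hE⟩

lemma dom_of_im {d : ℕ} {z : ℂ} (hz : 0 < z.im) : Dom d z := Or.inl hz

@[simp] lemma ze_re (E η : ℝ) : (ze E η).re = E := by simp [ze]

@[simp] lemma ze_im (E η : ℝ) : (ze E η).im = η := by simp [ze]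

@[simp] lemma ze_zero (E : ℝ) : ze E 0 = (E : ℂ) := by simp [ze]

lemma norm_ze_sub (E : ℝ) {η : ℝ} (hη : 0 ≤ η) : ‖ze E η - (E : ℂ)‖ = η := by
  have : ze E η - (E : ℂ) = Complex.I * (η : ℂ) := by unfold ze; ring
  rw [this, norm_mul, Complex.norm_I, one_mul, Complex.norm_real, Real.norm_of_nonneg hη]

lemma dom_ze {d : ℕ} {E η : ℝ} (hE : E ^ 2 < 4 * ((d : ℝ) - 1)) (hη : 0 ≤ η) :
    Dom d (ze E η) := by
  rcases hη.eq_or_lt with h | h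
  · right; subst h; exact ⟨by simp, by simpa using hE⟩
  · left; simpa using h

lemma two_le {d : ℕ} (hd : 3 ≤ d) : (2 : ℝ) ≤ (d : ℝ) - 1 := by
  have : (3 : ℝ) ≤ d := by exact_mod_cast hd
  linarith

/-- (P1) -/
theorem mc_root {d : ℕ} (hd : 3 ≤ d) {z : ℂ} (hz : Dom d z) :
    IsRoot ((d : ℝ) - 1) z (mc d z) := by
  rcases hz with h | ⟨h1, h2⟩
  · exact mc_isRoot (by omega) h
  · have e : z = ((z.re : ℝ) : ℂ) := by
      apply Complex.ext <;> simp [h1]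
    rw [e]
    exact mc_isRoot_real (by omega) h2

theorem mc_im_pos {d : ℕ} (hd : 3 ≤ d) {z : ℂ} (hz : Dom d z) : 0 < (mc d z).im :=
  (mc_root hd hz).im_pos

theorem mc_eq {d : ℕ} (hd : 3 ≤ d) {z : ℂ} (hz : Dom d z) :
    mc d z * (z + ((d : ℂ) - 1) * mc d z) = -1 := by
  have := (mc_root hd hz).eq
  rwa [d_sub_one] at this

theorem mc_ne_zero {d : ℕ} (hd : 3 ≤ d) {z : ℂ} (hz : Dom d z) : mc d z ≠ 0 :=
  (mc_root hd hz).ne_zero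

/-- uniqueness -/
theorem mc_unique {d : ℕ} (hd : 3 ≤ d) {z m : ℂ} (hz : Dom d z) (h1 : 0 < m.im)
    (h2 : m * (z + ((d : ℂ) - 1) * m) = -1) : m = mc d z :=
  IsRoot.unique (b := (d : ℝ) - 1) ⟨h1, by rw [d_sub_one]; exact h2⟩ (mc_root hd hz)
    (by linarith [two_le hd]) hz.im_nonneg

/-- `b |m|² ≤ 1` -/
theorem b_norm_sq_le {d : ℕ} (hd : 3 ≤ d) {z : ℂ} (hz : Dom d z) :
    ((d : ℝ) - 1) * ‖mc d z‖ ^ 2 ≤ 1 := by
  have := (mc_root hd hz).b_normSq_le hz.im_nonneg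
  rwa [Complex.normSq_eq_norm_sq] at this

/-- `b |m|² = 1` at real energies of the bulk -/
theorem b_norm_sq_eq {d : ℕ} (hd : 3 ≤ d) {E : ℝ} (hE : E ^ 2 < 4 * ((d : ℝ) - 1)) :
    ((d : ℝ) - 1) * ‖mc d (E : ℂ)‖ ^ 2 = 1 := by
  have h := mc_root hd (dom_real hE)
  have h1 := h.im_eq
  have h2 := h.im_pos
  rw [Complex.normSq_eq_norm_sq, Complex.ofReal_im, zero_add] at h1
  have h3 : (mc d (E : ℂ)).im * (((d : ℝ) - 1) * ‖mc d (E : ℂ)‖ ^ 2) = (mc d (E : ℂ)).im * 1 := by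
    linarith
  exact mul_left_cancel₀ h2.ne' h3

theorem mc_norm_le {d : ℕ} (hd : 3 ≤ d) {z : ℂ} (hz : Dom d z) :
    ‖mc d z‖ ≤ 1 / Real.sqrt ((d : ℝ) - 1) :=
  norm_le_inv_sqrt (mc_root hd hz) (two_le hd) hz.im_nonneg

theorem mc_norm_le_34 {d : ℕ} (hd : 3 ≤ d) {z : ℂ} (hz : Dom d z) : ‖mc d z‖ ≤ 3 / 4 :=
  norm_le_34 (mc_root hd hz) (two_le hd) hz.im_nonneg

theorem mc_norm_sq_le_half {d : ℕ} (hd : 3 ≤ d) {z : ℂ} (hz : Dom d z) : ‖mc d z‖ ^ 2 ≤ 1 / 2 :=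
  norm_sq_le_half (mc_root hd hz) (two_le hd) hz.im_nonneg

theorem one_sub_mc_sq_ne_zero {d : ℕ} (hd : 3 ≤ d) {z : ℂ} (hz : Dom d z) :
    1 - mc d z ^ 2 ≠ 0 :=
  one_sub_sq_ne_zero (mc_root hd hz) (two_le hd) hz.im_nonneg

theorem half_le_norm_one_sub {d : ℕ} (hd : 3 ≤ d) {z : ℂ} (hz : Dom d z) :
    1 / 2 ≤ ‖1 - mc d z ^ 2‖ :=
  half_le_norm (mc_root hd hz) (two_le hd) hz.im_nonneg

/-! ### (P2), (M3): continuity and bounds on compacts -/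

theorem mc_sub_le {d : ℕ} (hd : 3 ≤ d) {z z' : ℂ} (hz : Dom d z) (hz' : Dom d z') :
    ‖mc d z - mc d z'‖ ≤ ‖z - z'‖ / (((d : ℝ) - 1) * (mc d z').im) :=
  root_sub_le (mc_root hd hz) (mc_root hd hz') (by linarith [two_le hd]) hz.im_nonneg
    hz'.im_nonneg

/-- (P2) -/
theorem mc_ze_sub_le {d : ℕ} (hd : 3 ≤ d) {E : ℝ} (hE : E ^ 2 < 4 * ((d : ℝ) - 1)) {η : ℝ}
    (hη : 0 ≤ η) :
    ‖mc d (ze E η) - mc d (E : ℂ)‖ ≤ η / (((d : ℝ) - 1) * (mc d (E : ℂ)).im) := by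
  have := mc_sub_le hd (dom_ze hE hη) (dom_real hE)
  rwa [norm_ze_sub E hη] at this

/-- `mc` is continuous on the upper half plane together with the real bulk -/
theorem continuousOn_mc {d : ℕ} (hd : 3 ≤ d) : ContinuousOn (mc d) {z | Dom d z} := by
  intro z' hz'
  have hpos : 0 < ((d : ℝ) - 1) * (mc d z').im := by
    have := two_le hd
    have := mc_im_pos hd hz'
    positivity
  rw [ContinuousWithinAt, tendsto_iff_norm_sub_tendsto_zero]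
  have h1 : Tendsto (fun z : ℂ => ‖z - z'‖ / (((d : ℝ) - 1) * (mc d z').im))
      (𝓝[{z | Dom d z}] z') (𝓝 0) := by
    have h2 : Tendsto (fun z : ℂ => ‖z - z'‖ / (((d : ℝ) - 1) * (mc d z').im)) (𝓝 z')
        (𝓝 (‖z' - z'‖ / (((d : ℝ) - 1) * (mc d z').im))) :=
      (((continuous_id.sub continuous_const).norm).div_const _).tendsto z'
    rw [sub_self, norm_zero, zero_div] at h2
    exact h2.mono_left nhdsWithin_le_nhds
  refine squeeze_zero' (Eventually.of_forall fun z => norm_nonneg _) ?_ h1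
  filter_upwards [self_mem_nhdsWithin] with z hz
  exact mc_sub_le hd hz hz'

/-- (P2) -/
theorem tendsto_mc {d : ℕ} (hd : 3 ≤ d) {E : ℝ} (hE : E ^ 2 < 4 * ((d : ℝ) - 1)) :
    Tendsto (fun η : ℝ => mc d (ze E η)) (𝓝[>] 0) (𝓝 (mc d (E : ℂ))) := by
  have hpos : 0 < ((d : ℝ) - 1) * (mc d (E : ℂ)).im := by
    have := two_le hd
    have := mc_im_pos hd (dom_real hE)
    positivity
  rw [tendsto_iff_norm_sub_tendsto_zero]
  have h1 : Tendsto (fun η : ℝ => η / (((d : ℝ) - 1) * (mc d (E : ℂ)).im)) (𝓝[>] 0) (𝓝 0) := by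
    have h2 : Tendsto (fun η : ℝ => η / (((d : ℝ) - 1) * (mc d (E : ℂ)).im)) (𝓝 0)
        (𝓝 (0 / (((d : ℝ) - 1) * (mc d (E : ℂ)).im))) :=
      (continuous_id.div_const _).tendsto 0
    rw [zero_div] at h2
    exact h2.mono_left nhdsWithin_le_nhds
  refine squeeze_zero' (Eventually.of_forall fun z => norm_nonneg _) ?_ h1
  filter_upwards [self_mem_nhdsWithin] with η hη
  exact mc_ze_sub_le hd hE (le_of_lt hη)

/-- lower bound constant for `Im mc` on `|E| ≤ A`, `0 ≤ η ≤ 1` -/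
noncomputable def cIm (d : ℕ) (A : ℝ) : ℝ := (1 - A ^ 2 / (4 * ((d : ℝ) - 1))) / d

lemma cIm_pos {d : ℕ} (hd : 3 ≤ d) {A : ℝ} (hA : A ^ 2 < 4 * ((d : ℝ) - 1)) : 0 < cIm d A := by
  unfold cIm
  have h2 := two_le hd
  have h3 : (0 : ℝ) < d := by linarith
  have h4 : A ^ 2 / (4 * ((d : ℝ) - 1)) < 1 := by
    rw [div_lt_one (by linarith)]; exact hA
  apply div_pos _ h3
  linarith

/-- (M3) `Im mc ≥ c(d,A)` for `|Re z| ≤ A`, `0 ≤ Im z ≤ 1` -/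
theorem cIm_le {d : ℕ} (hd : 3 ≤ d) {A : ℝ} (hA : A ^ 2 < 4 * ((d : ℝ) - 1)) {z : ℂ}
    (h1 : |z.re| ≤ A) (h0 : 0 ≤ z.im) (h2 : z.im ≤ 1) : cIm d A ≤ (mc d z).im := by
  have hb := two_le hd
  have hd0 : (0 : ℝ) < d := by linarith
  have hre : z.re ^ 2 ≤ A ^ 2 := by
    rw [← sq_abs z.re]; gcongr
  have hz : Dom d z := by
    rcases h0.eq_or_lt with h | h
    · exact Or.inr ⟨h.symm, lt_of_le_of_lt hre hA⟩
    · exact Or.inl h
  refine le_trans ?_ ((mc_root hd hz).im_ge (by linarith) h0)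
  unfold cIm
  have h3 : 0 ≤ 1 - A ^ 2 / (4 * ((d : ℝ) - 1)) := by
    have : A ^ 2 / (4 * ((d : ℝ) - 1)) < 1 := by
      rw [div_lt_one (by linarith)]; exact hA
    linarith
  have h4 : 1 - A ^ 2 / (4 * ((d : ℝ) - 1)) ≤ 1 - z.re ^ 2 / (4 * ((d : ℝ) - 1)) := by
    have : z.re ^ 2 / (4 * ((d : ℝ) - 1)) ≤ A ^ 2 / (4 * ((d : ℝ) - 1)) := by gcongr
    linarith
  have h5 : (d : ℝ) - 1 + z.im ≤ d := by linarith
  have h6 : 0 < (d : ℝ) - 1 + z.im := by linarith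
  calc (1 - A ^ 2 / (4 * ((d : ℝ) - 1))) / d
      ≤ (1 - A ^ 2 / (4 * ((d : ℝ) - 1))) / ((d : ℝ) - 1 + z.im) := by gcongr
    _ ≤ _ := by gcongr

/-- (M3) at the energies `ze E η`, `0 ≤ η ≤ 1`. -/
theorem cIm_le_ze {d : ℕ} (hd : 3 ≤ d) {E : ℝ} (hE : E ^ 2 < 4 * ((d : ℝ) - 1)) {η : ℝ}
    (h0 : 0 ≤ η) (h1 : η ≤ 1) : cIm d |E| ≤ (mc d (ze E η)).im :=
  cIm_le hd (by rwa [sq_abs]) (by simp) (by simpa using h0) (by simpa using h1)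

theorem cIm_le_real {d : ℕ} (hd : 3 ≤ d) {E : ℝ} (hE : E ^ 2 < 4 * ((d : ℝ) - 1)) :
    cIm d |E| ≤ (mc d (E : ℂ)).im :=
  cIm_le hd (by rwa [sq_abs]) (by simp) (by simp) (by simp)

/-- (M3) quantitative continuity on compacts -/
theorem mc_sub_le_compact {d : ℕ} (hd : 3 ≤ d) {A : ℝ} (hA : A ^ 2 < 4 * ((d : ℝ) - 1)) {z z' : ℂ}
    (hz : Dom d z) (h1 : |z'.re| ≤ A) (h0 : 0 ≤ z'.im) (h2 : z'.im ≤ 1) :
    ‖mc d z - mc d z'‖ ≤ ‖z - z'‖ / (((d : ℝ) - 1) * cIm d A) := by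
  have hb := two_le hd
  have hre : z'.re ^ 2 ≤ A ^ 2 := by
    rw [← sq_abs z'.re]; gcongr
  have hz' : Dom d z' := by
    rcases h0.eq_or_lt with h | h
    · exact Or.inr ⟨h.symm, lt_of_le_of_lt hre hA⟩
    · exact Or.inl h
  refine (mc_sub_le hd hz hz').trans ?_
  have h3 := cIm_le hd hA h1 h0 h2
  have h4 := cIm_pos hd hA
  gcongr

/-- non-resonance on compacts -/
theorem nonres_compact {d : ℕ} (hd : 3 ≤ d) {A : ℝ} (hA : A ^ 2 < 4 * ((d : ℝ) - 1)) {z : ℂ}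
    (h1 : |z.re| ≤ A) (h0 : 0 ≤ z.im) (h2 : z.im ≤ 1) :
    2 * Real.sqrt ((d : ℝ) - 1) * cIm d A ≤ ‖1 - ((d : ℂ) - 1) * mc d z ^ 2‖ := by
  have hb := two_le hd
  have hre : z.re ^ 2 ≤ A ^ 2 := by
    rw [← sq_abs z.re]; gcongr
  have hz : Dom d z := by
    rcases h0.eq_or_lt with h | h
    · exact Or.inr ⟨h.symm, lt_of_le_of_lt hre hA⟩
    · exact Or.inl h
  have h3 := (mc_root hd hz).nonres (by linarith) h0
  rw [d_sub_one] at h3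
  refine le_trans ?_ h3
  have h4 := cIm_le hd hA h1 h0 h2
  gcongr

/-! ### (M4): the diagonal Green function -/

/-- diagonal Green function of the clean tree -/
noncomputable def moo (d : ℕ) (z : ℂ) : ℂ := -1 / (z + (d : ℂ) * mc d z)

theorem moo_eq {d : ℕ} (hd : 3 ≤ d) {z : ℂ} (hz : Dom d z) :
    moo d z = mc d z / (1 - mc d z ^ 2) := by
  have h := (mc_root hd hz).moo_eq (sq_ne_one (mc_root hd hz) (two_le hd) hz.im_nonneg)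
  rw [← h, moo]
  congr 2
  push_cast
  ring

theorem denom_ne_zero {d : ℕ} (hd : 3 ≤ d) {z : ℂ} (hz : Dom d z) : z + (d : ℂ) * mc d z ≠ 0 := by
  intro h0
  have h1 := congrArg Complex.im h0
  simp at h1
  have h2 := mc_im_pos hd hz
  have h3 := hz.im_nonneg
  have h4 : (0 : ℝ) < d := by linarith [two_le hd]
  nlinarith [mul_pos h4 h2]

theorem moo_im_ge {d : ℕ} (hd : 3 ≤ d) {z : ℂ} (hz : Dom d z) :
    (mc d z).im / 4 ≤ (moo d z).im := by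
  have h := mc_root hd hz
  have h1 := diag_add_off h (two_le hd) hz.im_nonneg
  have h2 := diag_sub_off h (two_le hd) hz.im_nonneg
  have h3 := im_div_one_add_ge h (two_le hd) hz.im_nonneg
  have h4 := im_div_one_sub_ge h (two_le hd) hz.im_nonneg
  rw [← h1, Complex.add_im] at h3
  rw [← h2, Complex.sub_im] at h4
  rw [moo_eq hd hz]
  linarith

theorem moo_im_pos {d : ℕ} (hd : 3 ≤ d) {z : ℂ} (hz : Dom d z) : 0 < (moo d z).im := by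
  have h1 := moo_im_ge hd hz
  have h2 := mc_im_pos hd hz
  linarith

theorem moo_norm_le {d : ℕ} (hd : 3 ≤ d) {z : ℂ} (hz : Dom d z) : ‖moo d z‖ ≤ 2 * ‖mc d z‖ := by
  rw [moo_eq hd hz, norm_div]
  have h1 := half_le_norm_one_sub hd hz
  rw [div_le_iff₀ (by linarith)]
  have := norm_nonneg (mc d z)
  nlinarith

theorem moo_norm_le_two {d : ℕ} (hd : 3 ≤ d) {z : ℂ} (hz : Dom d z) : ‖moo d z‖ ≤ 2 := by
  have h1 := moo_norm_le hd hz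
  have h2 := mc_norm_le_34 hd hz
  linarith

theorem moo_sub_le {d : ℕ} (hd : 3 ≤ d) {z z' : ℂ} (hz : Dom d z) (hz' : Dom d z') :
    ‖moo d z - moo d z'‖ ≤ 8 * ‖mc d z - mc d z'‖ := by
  rw [moo_eq hd hz, moo_eq hd hz']
  exact diag_sub_le (mc_root hd hz) (mc_root hd hz') (two_le hd) hz.im_nonneg hz'.im_nonneg

theorem moo_ze_sub_le {d : ℕ} (hd : 3 ≤ d) {E : ℝ} (hE : E ^ 2 < 4 * ((d : ℝ) - 1)) {η : ℝ}
    (hη : 0 ≤ η) :
    ‖moo d (ze E η) - moo d (E : ℂ)‖ ≤ 8 * (η / (((d : ℝ) - 1) * (mc d (E : ℂ)).im)) :=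
  (moo_sub_le hd (dom_ze hE hη) (dom_real hE)).trans (by
    have := mc_ze_sub_le hd hE hη
    gcongr)

/-- (M4) the Kesten-McKay density -/
theorem moo_im_real {d : ℕ} (hd : 3 ≤ d) {E : ℝ} (hE : E ^ 2 < 4 * ((d : ℝ) - 1)) :
    (moo d (E : ℂ)).im = Real.pi * kestenMcKayDensity d E := by
  have h := kestenMcKay_eq hd hE
  have hpi := Real.pi_pos
  rw [moo, ← h]
  field_simp

theorem kestenMcKay_pos {d : ℕ} (hd : 3 ≤ d) {E : ℝ} (hE : E ^ 2 < 4 * ((d : ℝ) - 1)) :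
    0 < kestenMcKayDensity d E := by
  have h1 := moo_im_real hd hE
  have h2 := moo_im_pos hd (dom_real hE)
  rw [h1] at h2
  exact pos_of_mul_pos_right h2 Real.pi_pos.le

/-! ### (P3), (M5): the clean block -/

theorem Bclean_entries {d : ℕ} (hd : 3 ≤ d) {z : ℂ} (hz : Dom d z) :
    Bclean d z = !![mc d z / (1 - mc d z ^ 2), -(mc d z) ^ 2 / (1 - mc d z ^ 2);
      -(mc d z) ^ 2 / (1 - mc d z ^ 2), mc d z / (1 - mc d z ^ 2)] :=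
  Bclean_eq (mc_ne_zero hd hz) (sq_ne_one (mc_root hd hz) (two_le hd) hz.im_nonneg)

theorem Bclean_moo {d : ℕ} (hd : 3 ≤ d) {z : ℂ} (hz : Dom d z) :
    Bclean d z = !![moo d z, -(mc d z) * moo d z; -(mc d z) * moo d z, moo d z] := by
  rw [Bclean_entries hd hz, moo_eq hd hz]
  ext i j
  fin_cases i <;> fin_cases j <;> simp <;> ring

theorem Bclean_00 {d : ℕ} (hd : 3 ≤ d) {z : ℂ} (hz : Dom d z) : Bclean d z 0 0 = moo d z := by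
  rw [Bclean_moo hd hz]; simp

theorem Bclean_11 {d : ℕ} (hd : 3 ≤ d) {z : ℂ} (hz : Dom d z) : Bclean d z 1 1 = moo d z := by
  rw [Bclean_moo hd hz]; simp

theorem Bclean_01 {d : ℕ} (hd : 3 ≤ d) {z : ℂ} (hz : Dom d z) :
    Bclean d z 0 1 = -(mc d z) * moo d z := by
  rw [Bclean_moo hd hz]; simp

theorem Bclean_10 {d : ℕ} (hd : 3 ≤ d) {z : ℂ} (hz : Dom d z) :
    Bclean d z 1 0 = -(mc d z) * moo d z := by
  rw [Bclean_moo hd hz]; simp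

theorem Bclean_transpose {d : ℕ} (hd : 3 ≤ d) {z : ℂ} (hz : Dom d z) :
    (Bclean d z).transpose = Bclean d z := by
  rw [Bclean_moo hd hz]
  ext i j
  fin_cases i <;> fin_cases j <;> simp

theorem Bclean_swap {d : ℕ} (hd : 3 ≤ d) {z : ℂ} (hz : Dom d z) (i j : Fin 2) :
    Bclean d z (1 - i) (1 - j) = Bclean d z i j := by
  fin_cases i <;> fin_cases j <;>
    simp [Bclean_00 hd hz, Bclean_01 hd hz, Bclean_10 hd hz, Bclean_11 hd hz]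

/-- (P3) -/
theorem Bclean_im_real {d : ℕ} (hd : 3 ≤ d) {E : ℝ} (hE : E ^ 2 < 4 * ((d : ℝ) - 1)) :
    (Bclean d (E : ℂ) 0 0).im = Real.pi * kestenMcKayDensity d E := by
  rw [Bclean_00 hd (dom_real hE), moo_im_real hd hE]

theorem Bclean_im_real' {d : ℕ} (hd : 3 ≤ d) {E : ℝ} (hE : E ^ 2 < 4 * ((d : ℝ) - 1)) :
    (Bclean d (E : ℂ) 1 1).im = Real.pi * kestenMcKayDensity d E := by
  rw [Bclean_11 hd (dom_real hE), moo_im_real hd hE]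

theorem det_Minv_ne_zero {d : ℕ} (hd : 3 ≤ d) {z : ℂ} (hz : Dom d z) :
    (!![(mc d z)⁻¹, 1; 1, (mc d z)⁻¹] : Matrix (Fin 2) (Fin 2) ℂ).det ≠ 0 := by
  rw [Matrix.det_fin_two_of]
  have h0 := mc_ne_zero hd hz
  have h1 := one_sub_mc_sq_ne_zero hd hz
  intro h
  apply h1
  field_simp at h
  linear_combination h

theorem Bclean_inv {d : ℕ} (hd : 3 ≤ d) {z : ℂ} (hz : Dom d z) :
    (Bclean d z)⁻¹ = !![(mc d z)⁻¹, 1; 1, (mc d z)⁻¹] := by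
  unfold Bclean
  rw [Matrix.nonsing_inv_nonsing_inv]
  exact (isUnit_iff_ne_zero).mpr (det_Minv_ne_zero hd hz)

theorem Bclean_det_ne_zero {d : ℕ} (hd : 3 ≤ d) {z : ℂ} (hz : Dom d z) :
    (Bclean d z).det ≠ 0 := by
  unfold Bclean
  rw [Matrix.det_nonsing_inv, Ring.inverse_eq_inv']
  exact inv_ne_zero (det_Minv_ne_zero hd hz)

theorem bnorm_Bclean_le {d : ℕ} (hd : 3 ≤ d) {z : ℂ} (hz : Dom d z) : bnorm (Bclean d z) ≤ 2 := by
  have h1 := moo_norm_le_two hd hz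
  have h2 := mc_norm_le_34 hd hz
  have h3 : ‖-(mc d z) * moo d z‖ ≤ 2 := by
    rw [norm_mul, norm_neg]
    calc ‖mc d z‖ * ‖moo d z‖ ≤ 3 / 4 * 2 := by gcongr
      _ ≤ 2 := by norm_num
  rw [bnorm_le_iff, Bclean_moo hd hz]
  intro i j
  fin_cases i <;> fin_cases j <;> simp at h3 ⊢ <;> assumption

theorem Bclean_sub_le {d : ℕ} (hd : 3 ≤ d) {z z' : ℂ} (hz : Dom d z) (hz' : Dom d z') :
    bnorm (Bclean d z - Bclean d z') ≤ 8 * ‖mc d z - mc d z'‖ := by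
  have h1 := diag_sub_le (mc_root hd hz) (mc_root hd hz') (two_le hd) hz.im_nonneg hz'.im_nonneg
  have h2 := off_sub_le (mc_root hd hz) (mc_root hd hz') (two_le hd) hz.im_nonneg hz'.im_nonneg
  rw [bnorm_le_iff, Bclean_entries hd hz, Bclean_entries hd hz']
  intro i j
  fin_cases i <;> fin_cases j <;> simp at h1 h2 ⊢ <;> assumption

/-- (P2) for the block -/
theorem Bclean_ze_sub_le {d : ℕ} (hd : 3 ≤ d) {E : ℝ} (hE : E ^ 2 < 4 * ((d : ℝ) - 1)) {η : ℝ}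
    (hη : 0 ≤ η) :
    bnorm (Bclean d (ze E η) - Bclean d (E : ℂ)) ≤
      8 * (η / (((d : ℝ) - 1) * (mc d (E : ℂ)).im)) :=
  (Bclean_sub_le hd (dom_ze hE hη) (dom_real hE)).trans (by
    have := mc_ze_sub_le hd hE hη
    gcongr)

theorem tendsto_bnorm_Bclean {d : ℕ} (hd : 3 ≤ d) {E : ℝ} (hE : E ^ 2 < 4 * ((d : ℝ) - 1)) :
    Tendsto (fun η : ℝ => bnorm (Bclean d (ze E η) - Bclean d (E : ℂ))) (𝓝[>] 0) (𝓝 0) := by
  have h1 : Tendsto (fun η : ℝ => 8 * ‖mc d (ze E η) - mc d (E : ℂ)‖) (𝓝[>] 0) (𝓝 0) := by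
    have h2 := (tendsto_iff_norm_sub_tendsto_zero.mp (tendsto_mc hd hE)).const_mul 8
    rwa [mul_zero] at h2
  refine squeeze_zero' (Eventually.of_forall fun z => bnorm_nonneg _) ?_ h1
  filter_upwards [self_mem_nhdsWithin] with η hη
  exact Bclean_sub_le hd (dom_ze hE (le_of_lt hη)) (dom_real hE)

theorem tendsto_Bclean {d : ℕ} (hd : 3 ≤ d) {E : ℝ} (hE : E ^ 2 < 4 * ((d : ℝ) - 1))
    (i j : Fin 2) :
    Tendsto (fun η : ℝ => Bclean d (ze E η) i j) (𝓝[>] 0) (𝓝 (Bclean d (E : ℂ) i j)) := by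
  rw [tendsto_iff_norm_sub_tendsto_zero]
  refine squeeze_zero (fun _ => norm_nonneg _) (fun η => ?_) (tendsto_bnorm_Bclean hd hE)
  exact norm_le_bnorm (Bclean d (ze E η) - Bclean d (E : ℂ)) i j

/-! ### (P4) the quadratic form of the imaginary part -/

lemma quad_eq {d : ℕ} (hd : 3 ≤ d) {z : ℂ} (hz : Dom d z) (x : Fin 2 → ℝ) :
    ∑ a, ∑ c, x a * (Bclean d z a c).im * x c =
      (mc d z / (1 + mc d z)).im * ((x 0 + x 1) ^ 2 / 2) +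
      (mc d z / (1 - mc d z)).im * ((x 0 - x 1) ^ 2 / 2) := by
  have h := mc_root hd hz
  have h1 := diag_add_off h (two_le hd) hz.im_nonneg
  have h2 := diag_sub_off h (two_le hd) hz.im_nonneg
  rw [← h1, ← h2, Complex.add_im, Complex.sub_im]
  rw [Bclean_entries hd hz]
  simp [Fin.sum_univ_two]
  ring

/-- (P4) lower bound -/
theorem quad_ge {d : ℕ} (hd : 3 ≤ d) {z : ℂ} (hz : Dom d z) (x : Fin 2 → ℝ) :
    (mc d z).im / 4 * (x 0 ^ 2 + x 1 ^ 2) ≤ ∑ a, ∑ c, x a * (Bclean d z a c).im * x c := by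
  rw [quad_eq hd hz]
  have h := mc_root hd hz
  have h3 := im_div_one_add_ge h (two_le hd) hz.im_nonneg
  have h4 := im_div_one_sub_ge h (two_le hd) hz.im_nonneg
  have e : (mc d z).im / 4 * (x 0 ^ 2 + x 1 ^ 2) =
      (mc d z).im / 4 * ((x 0 + x 1) ^ 2 / 2) + (mc d z).im / 4 * ((x 0 - x 1) ^ 2 / 2) := by ring
  rw [e]
  gcongr

/-- (P4) upper bound -/
theorem quad_le {d : ℕ} (hd : 3 ≤ d) {z : ℂ} (hz : Dom d z) (x : Fin 2 → ℝ) :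
    ∑ a, ∑ c, x a * (Bclean d z a c).im * x c ≤ 16 * (mc d z).im * (x 0 ^ 2 + x 1 ^ 2) := by
  rw [quad_eq hd hz]
  have h := mc_root hd hz
  have h3 := im_div_one_add_le h (two_le hd) hz.im_nonneg
  have h4 := im_div_one_sub_le h (two_le hd) hz.im_nonneg
  have e : 16 * (mc d z).im * (x 0 ^ 2 + x 1 ^ 2) =
      16 * (mc d z).im * ((x 0 + x 1) ^ 2 / 2) + 16 * (mc d z).im * ((x 0 - x 1) ^ 2 / 2) := by ring
  rw [e]
  gcongr

/-- perturbation of the quadratic form -/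
lemma quad_sub_le (A B : Matrix (Fin 2) (Fin 2) ℂ) (x : Fin 2 → ℝ) :
    |∑ a, ∑ c, x a * (A a c).im * x c - ∑ a, ∑ c, x a * (B a c).im * x c| ≤
      2 * bnorm (A - B) * (x 0 ^ 2 + x 1 ^ 2) := by
  have h : ∀ i j, |(A i j).im - (B i j).im| ≤ bnorm (A - B) := by
    intro i j
    have h1 := norm_le_bnorm (A - B) i j
    have h2 := Complex.abs_im_le_norm ((A - B) i j)
    rw [Matrix.sub_apply, Complex.sub_im] at h2
    exact h2.trans h1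
  have h0 := bnorm_nonneg (A - B)
  have e : ∑ a, ∑ c, x a * (A a c).im * x c - ∑ a, ∑ c, x a * (B a c).im * x c =
      ∑ a, ∑ c, x a * ((A a c).im - (B a c).im) * x c := by
    simp only [Fin.sum_univ_two]; ring
  rw [e]
  have h1 : |∑ a, ∑ c, x a * ((A a c).im - (B a c).im) * x c| ≤
      ∑ a : Fin 2, ∑ c : Fin 2, bnorm (A - B) * (|x a| * |x c|) := by
    refine (Finset.abs_sum_le_sum_abs _ _).trans (Finset.sum_le_sum fun a _ => ?_)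
    refine (Finset.abs_sum_le_sum_abs _ _).trans (Finset.sum_le_sum fun c _ => ?_)
    rw [abs_mul, abs_mul]
    calc |x a| * |(A a c).im - (B a c).im| * |x c| ≤ |x a| * bnorm (A - B) * |x c| := by
          gcongr; exact h a c
      _ = _ := by ring
  refine h1.trans ?_
  simp only [Fin.sum_univ_two]
  have h2 : |x 0| ^ 2 = x 0 ^ 2 := sq_abs _
  have h3 : |x 1| ^ 2 = x 1 ^ 2 := sq_abs _
  nlinarith [mul_nonneg h0 (sq_nonneg (|x 0| - |x 1|))]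

/-- (P4) for every block near the clean one -/
theorem quad_ge_of_near {d : ℕ} (hd : 3 ≤ d) {z : ℂ} (hz : Dom d z)
    {B : Matrix (Fin 2) (Fin 2) ℂ} (hB : bnorm (B - Bclean d z) ≤ (mc d z).im / 16)
    (x : Fin 2 → ℝ) :
    (mc d z).im / 8 * (x 0 ^ 2 + x 1 ^ 2) ≤ ∑ a, ∑ c, x a * (B a c).im * x c := by
  have h1 := quad_ge hd hz x
  have h2 := (abs_le.mp (quad_sub_le B (Bclean d z) x)).1
  have h3 : 0 ≤ x 0 ^ 2 + x 1 ^ 2 := by positivity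
  have h4 : 2 * bnorm (B - Bclean d z) * (x 0 ^ 2 + x 1 ^ 2) ≤
      2 * ((mc d z).im / 16) * (x 0 ^ 2 + x 1 ^ 2) := by gcongr
  linarith

/-! ### (P5) the block map near `m I` -/

/-- the adjacency block of an edge -/
def W2 : Matrix (Fin 2) (Fin 2) ℂ := !![0, 1; 1, 0]

/-- adding the edge -/
noncomputable def addE (B0 : Matrix (Fin 2) (Fin 2) ℂ) : Matrix (Fin 2) (Fin 2) ℂ :=
  (B0⁻¹ + W2)⁻¹

/-- removing the edge -/
noncomputable def remE (B : Matrix (Fin 2) (Fin 2) ℂ) : Matrix (Fin 2) (Fin 2) ℂ :=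
  (B⁻¹ - W2)⁻¹

lemma addE_eq {B0 : Matrix (Fin 2) (Fin 2) ℂ} (h : B0.det ≠ 0) :
    addE B0 = (1 + B0 * W2)⁻¹ * B0 := by
  have hu : IsUnit B0.det := isUnit_iff_ne_zero.mpr h
  have e : B0⁻¹ + W2 = B0⁻¹ * (1 + B0 * W2) := by
    rw [Matrix.mul_add, Matrix.mul_one, ← Matrix.mul_assoc, Matrix.nonsing_inv_mul _ hu,
      Matrix.one_mul]
  rw [addE, e, Matrix.mul_inv_rev, Matrix.nonsing_inv_nonsing_inv _ hu]

lemma addE_eq' {B0 : Matrix (Fin 2) (Fin 2) ℂ} (h : B0.det ≠ 0) :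
    addE B0 = B0 * (1 + W2 * B0)⁻¹ := by
  have hu : IsUnit B0.det := isUnit_iff_ne_zero.mpr h
  have e : B0⁻¹ + W2 = (1 + W2 * B0) * B0⁻¹ := by
    rw [Matrix.add_mul, Matrix.one_mul, Matrix.mul_assoc, Matrix.mul_nonsing_inv _ hu,
      Matrix.mul_one]
  rw [addE, e, Matrix.mul_inv_rev, Matrix.nonsing_inv_nonsing_inv _ hu]

lemma remE_eq {B : Matrix (Fin 2) (Fin 2) ℂ} (h : B.det ≠ 0) :
    remE B = (1 - B * W2)⁻¹ * B := by
  have hu : IsUnit B.det := isUnit_iff_ne_zero.mpr h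
  have e : B⁻¹ - W2 = B⁻¹ * (1 - B * W2) := by
    rw [Matrix.mul_sub, Matrix.mul_one, ← Matrix.mul_assoc, Matrix.nonsing_inv_mul _ hu,
      Matrix.one_mul]
  rw [remE, e, Matrix.mul_inv_rev, Matrix.nonsing_inv_nonsing_inv _ hu]

lemma one_add_mul_W2 (B : Matrix (Fin 2) (Fin 2) ℂ) :
    1 + B * W2 = !![1 + B 0 1, B 0 0; B 1 1, 1 + B 1 0] := by
  ext i j
  fin_cases i <;> fin_cases j <;> simp [W2, Matrix.mul_apply, Fin.sum_univ_two]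

lemma one_sub_mul_W2 (B : Matrix (Fin 2) (Fin 2) ℂ) :
    1 - B * W2 = !![1 - B 0 1, -B 0 0; -B 1 1, 1 - B 1 0] := by
  ext i j
  fin_cases i <;> fin_cases j <;> simp [W2, Matrix.mul_apply, Fin.sum_univ_two]

lemma det_one_add (B : Matrix (Fin 2) (Fin 2) ℂ) :
    (1 + B * W2).det = (1 + B 0 1) * (1 + B 1 0) - B 0 0 * B 1 1 := by
  rw [one_add_mul_W2, Matrix.det_fin_two_of]

lemma det_one_sub (B : Matrix (Fin 2) (Fin 2) ℂ) :
    (1 - B * W2).det = (1 - B 0 1) * (1 - B 1 0) - B 0 0 * B 1 1 := by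
  rw [one_sub_mul_W2, Matrix.det_fin_two_of]; ring

/-- entries of the inverse of a `2×2` matrix -/
lemma bnorm_inv_le {M : Matrix (Fin 2) (Fin 2) ℂ} {δ : ℝ} (hδ : 0 < δ) (h : δ ≤ ‖M.det‖) :
    bnorm M⁻¹ ≤ bnorm M / δ := by
  have h0 : M.det ≠ 0 := by
    intro h1; rw [h1, norm_zero] at h; linarith
  rw [Matrix.inv_def, Ring.inverse_eq_inv', bnorm_le_iff]
  intro i j
  rw [Matrix.smul_apply, smul_eq_mul, norm_mul, norm_inv]
  have h1 : ‖M.adjugate i j‖ ≤ bnorm M := by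
    rw [Matrix.adjugate_fin_two]
    fin_cases i <;> fin_cases j <;> simp <;> exact norm_le_bnorm M _ _
  have h2 := bnorm_nonneg M
  calc ‖M.det‖⁻¹ * ‖M.adjugate i j‖ ≤ δ⁻¹ * bnorm M := by gcongr
    _ = bnorm M / δ := by rw [div_eq_inv_mul]

section P5

variable {b : ℝ} {z m : ℂ}

/-- the determinant of a block near `m I` -/
lemma det_near {B0 : Matrix (Fin 2) (Fin 2) ℂ} (hm : m ≠ 0)
    (hB : bnorm (B0 - m • (1 : Matrix (Fin 2) (Fin 2) ℂ)) ≤ ‖m‖ / 4) : B0.det ≠ 0 := by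
  set Δ := B0 - m • (1 : Matrix (Fin 2) (Fin 2) ℂ) with hΔ
  have e00 : B0 0 0 = m + Δ 0 0 := by rw [hΔ]; simp
  have e01 : B0 0 1 = Δ 0 1 := by rw [hΔ]; simp
  have e10 : B0 1 0 = Δ 1 0 := by rw [hΔ]; simp
  have e11 : B0 1 1 = m + Δ 1 1 := by rw [hΔ]; simp
  have h00 := (norm_le_bnorm Δ 0 0).trans hB
  have h01 := (norm_le_bnorm Δ 0 1).trans hB
  have h10 := (norm_le_bnorm Δ 1 0).trans hB
  have h11 := (norm_le_bnorm Δ 1 1).trans hB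
  have hn : 0 < ‖m‖ := norm_pos_iff.mpr hm
  rw [Matrix.det_fin_two, e00, e01, e10, e11]
  intro h0
  have h1 : m ^ 2 = -(m * Δ 0 0) - m * Δ 1 1 - Δ 0 0 * Δ 1 1 + Δ 0 1 * Δ 1 0 := by
    linear_combination h0
  have h2 : ‖m ^ 2‖ ≤ ‖m‖ * (‖m‖ / 4) + ‖m‖ * (‖m‖ / 4) + (‖m‖ / 4) * (‖m‖ / 4) +
      (‖m‖ / 4) * (‖m‖ / 4) := by
    rw [h1]
    calc ‖-(m * Δ 0 0) - m * Δ 1 1 - Δ 0 0 * Δ 1 1 + Δ 0 1 * Δ 1 0‖
        ≤ ‖-(m * Δ 0 0) - m * Δ 1 1 - Δ 0 0 * Δ 1 1‖ + ‖Δ 0 1 * Δ 1 0‖ := norm_add_le _ _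
      _ ≤ ‖-(m * Δ 0 0) - m * Δ 1 1‖ + ‖Δ 0 0 * Δ 1 1‖ + ‖Δ 0 1 * Δ 1 0‖ := by
          gcongr; exact norm_sub_le _ _
      _ ≤ ‖-(m * Δ 0 0)‖ + ‖m * Δ 1 1‖ + ‖Δ 0 0 * Δ 1 1‖ + ‖Δ 0 1 * Δ 1 0‖ := by
          gcongr; exact norm_sub_le _ _
      _ = ‖m‖ * ‖Δ 0 0‖ + ‖m‖ * ‖Δ 1 1‖ + ‖Δ 0 0‖ * ‖Δ 1 1‖ + ‖Δ 0 1‖ * ‖Δ 1 0‖ := by
          rw [norm_neg, norm_mul, norm_mul, norm_mul, norm_mul]
      _ ≤ _ := by gcongr
  rw [norm_pow] at h2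
  nlinarith

/-- the determinant of `1 + B0 W` near `m I` -/
lemma det_one_add_near (h : IsRoot b z m) (hb : 2 ≤ b) (hz : 0 ≤ z.im)
    {B0 : Matrix (Fin 2) (Fin 2) ℂ}
    (hB : bnorm (B0 - m • (1 : Matrix (Fin 2) (Fin 2) ℂ)) ≤ 1 / 24) :
    1 / 4 ≤ ‖(1 + B0 * W2).det‖ ∧ bnorm (1 + B0 * W2) ≤ 5 / 4 := by
  set Δ := B0 - m • (1 : Matrix (Fin 2) (Fin 2) ℂ) with hΔ
  have e00 : B0 0 0 = m + Δ 0 0 := by rw [hΔ]; simp
  have e01 : B0 0 1 = Δ 0 1 := by rw [hΔ]; simp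
  have e10 : B0 1 0 = Δ 1 0 := by rw [hΔ]; simp
  have e11 : B0 1 1 = m + Δ 1 1 := by rw [hΔ]; simp
  have h00 := (norm_le_bnorm Δ 0 0).trans hB
  have h01 := (norm_le_bnorm Δ 0 1).trans hB
  have h10 := (norm_le_bnorm Δ 1 0).trans hB
  have h11 := (norm_le_bnorm Δ 1 1).trans hB
  have hm34 := norm_le_34 h hb hz
  have hm1 := half_le_norm h hb hz
  constructor
  · rw [det_one_add, e00, e01, e10, e11]
    have e : (1 + Δ 0 1) * (1 + Δ 1 0) - (m + Δ 0 0) * (m + Δ 1 1) =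
        (1 - m ^ 2) - (m * Δ 0 0 + m * Δ 1 1 + Δ 0 0 * Δ 1 1 - Δ 0 1 * Δ 1 0 - Δ 0 1 - Δ 1 0) := by
      ring
    rw [e]
    have h1 : ‖m * Δ 0 0 + m * Δ 1 1 + Δ 0 0 * Δ 1 1 - Δ 0 1 * Δ 1 0 - Δ 0 1 - Δ 1 0‖ ≤
        3 / 4 * (1 / 24) + 3 / 4 * (1 / 24) + 1 / 24 * (1 / 24) + 1 / 24 * (1 / 24) + 1 / 24 +
          1 / 24 := by
      calc ‖m * Δ 0 0 + m * Δ 1 1 + Δ 0 0 * Δ 1 1 - Δ 0 1 * Δ 1 0 - Δ 0 1 - Δ 1 0‖
          ≤ ‖m * Δ 0 0 + m * Δ 1 1 + Δ 0 0 * Δ 1 1 - Δ 0 1 * Δ 1 0 - Δ 0 1‖ + ‖Δ 1 0‖ :=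
            norm_sub_le _ _
        _ ≤ ‖m * Δ 0 0 + m * Δ 1 1 + Δ 0 0 * Δ 1 1 - Δ 0 1 * Δ 1 0‖ + ‖Δ 0 1‖ + ‖Δ 1 0‖ := by
            gcongr; exact norm_sub_le _ _
        _ ≤ ‖m * Δ 0 0 + m * Δ 1 1 + Δ 0 0 * Δ 1 1‖ + ‖Δ 0 1 * Δ 1 0‖ + ‖Δ 0 1‖ + ‖Δ 1 0‖ := by
            gcongr; exact norm_sub_le _ _
        _ ≤ ‖m * Δ 0 0 + m * Δ 1 1‖ + ‖Δ 0 0 * Δ 1 1‖ + ‖Δ 0 1 * Δ 1 0‖ + ‖Δ 0 1‖ + ‖Δ 1 0‖ := by
            gcongr; exact norm_add_le _ _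
        _ ≤ ‖m * Δ 0 0‖ + ‖m * Δ 1 1‖ + ‖Δ 0 0 * Δ 1 1‖ + ‖Δ 0 1 * Δ 1 0‖ + ‖Δ 0 1‖ + ‖Δ 1 0‖ := by
            gcongr; exact norm_add_le _ _
        _ = ‖m‖ * ‖Δ 0 0‖ + ‖m‖ * ‖Δ 1 1‖ + ‖Δ 0 0‖ * ‖Δ 1 1‖ + ‖Δ 0 1‖ * ‖Δ 1 0‖ + ‖Δ 0 1‖ +
              ‖Δ 1 0‖ := by
            rw [norm_mul, norm_mul, norm_mul, norm_mul]
        _ ≤ _ := by gcongr
    have h2 := norm_sub_norm_le (1 - m ^ 2)
      (m * Δ 0 0 + m * Δ 1 1 + Δ 0 0 * Δ 1 1 - Δ 0 1 * Δ 1 0 - Δ 0 1 - Δ 1 0)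
    linarith
  · rw [bnorm_le_iff, one_add_mul_W2, e00, e01, e10, e11]
    have k1 : ‖1 + Δ 0 1‖ ≤ 5 / 4 := by
      have := norm_add_le (1 : ℂ) (Δ 0 1)
      rw [norm_one] at this
      linarith
    have k2 : ‖1 + Δ 1 0‖ ≤ 5 / 4 := by
      have := norm_add_le (1 : ℂ) (Δ 1 0)
      rw [norm_one] at this
      linarith
    have k3 : ‖m + Δ 0 0‖ ≤ 5 / 4 := by
      have := norm_add_le m (Δ 0 0)
      linarith
    have k4 : ‖m + Δ 1 1‖ ≤ 5 / 4 := by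
      have := norm_add_le m (Δ 1 1)
      linarith
    intro i j
    fin_cases i <;> fin_cases j <;> simp <;> assumption

/-- difference of two values of `addE` -/
lemma addE_sub {B0 B1 : Matrix (Fin 2) (Fin 2) ℂ} (h0 : B0.det ≠ 0) (h1 : B1.det ≠ 0)
    (k0 : (1 + B0 * W2).det ≠ 0) (k1 : (1 + W2 * B1).det ≠ 0) :
    addE B0 - addE B1 = (1 + B0 * W2)⁻¹ * (B0 - B1) * (1 + W2 * B1)⁻¹ := by
  have u0 : IsUnit (1 + B0 * W2).det := isUnit_iff_ne_zero.mpr k0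
  have u1 : IsUnit (1 + W2 * B1).det := isUnit_iff_ne_zero.mpr k1
  have e : B0 - B1 = B0 * (1 + W2 * B1) - (1 + B0 * W2) * B1 := by
    rw [Matrix.mul_add, Matrix.add_mul, Matrix.mul_one, Matrix.one_mul, Matrix.mul_assoc]
    abel
  rw [addE_eq h0, addE_eq' h1, e, Matrix.mul_sub, Matrix.sub_mul]
  congr 1
  · rw [← Matrix.mul_assoc, Matrix.mul_nonsing_inv_cancel_right _ _ u1]
  · rw [← Matrix.mul_assoc, Matrix.nonsing_inv_mul _ u0, Matrix.one_mul]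

end P5

lemma smul_one_det (m : ℂ) : (m • (1 : Matrix (Fin 2) (Fin 2) ℂ)).det = m ^ 2 := by
  rw [Matrix.det_smul]; simp

/-- the clean block is the value of `addE` at `m I` -/
theorem addE_clean {d : ℕ} (hd : 3 ≤ d) {z : ℂ} (hz : Dom d z) :
    addE (mc d z • (1 : Matrix (Fin 2) (Fin 2) ℂ)) = Bclean d z := by
  have h0 := mc_ne_zero hd hz
  unfold addE Bclean
  congr 1
  have e : (mc d z • (1 : Matrix (Fin 2) (Fin 2) ℂ))⁻¹ = (mc d z)⁻¹ • 1 := by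
    apply Matrix.inv_eq_right_inv
    rw [Matrix.smul_mul, Matrix.mul_smul, Matrix.one_mul, smul_smul, mul_inv_cancel₀ h0, one_smul]
  rw [e]
  ext i j
  fin_cases i <;> fin_cases j <;> simp [W2]

/-- radius for (P5) -/
noncomputable def rB (d : ℕ) (A : ℝ) : ℝ := min (1 / 24) (cIm d A / 4)

lemma rB_pos {d : ℕ} (hd : 3 ≤ d) {A : ℝ} (hA : A ^ 2 < 4 * ((d : ℝ) - 1)) : 0 < rB d A :=
  lt_min (by norm_num) (by linarith [cIm_pos hd hA])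

/-- (P5) general form -/
theorem addE_near {d : ℕ} (hd : 3 ≤ d) {z : ℂ} (hz : Dom d z)
    {B0 : Matrix (Fin 2) (Fin 2) ℂ}
    (h1 : bnorm (B0 - mc d z • (1 : Matrix (Fin 2) (Fin 2) ℂ)) ≤ 1 / 24)
    (h2 : bnorm (B0 - mc d z • (1 : Matrix (Fin 2) (Fin 2) ℂ)) ≤ ‖mc d z‖ / 4) :
    B0.det ≠ 0 ∧ (B0⁻¹ + W2).det ≠ 0 ∧
      bnorm (addE B0 - Bclean d z) ≤
        50 * bnorm (B0 - mc d z • (1 : Matrix (Fin 2) (Fin 2) ℂ)) := by
  have h := mc_root hd hz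
  have hb := two_le hd
  have hi := hz.im_nonneg
  have hm := mc_ne_zero hd hz
  set m := mc d z with hmdef
  have hdet := det_near hm h2
  obtain ⟨h3, h4⟩ := det_one_add_near h hb hi h1
  have h3' : (1 + B0 * W2).det ≠ 0 := by
    intro h0; rw [h0, norm_zero] at h3; linarith
  refine ⟨hdet, ?_, ?_⟩
  · have hu : IsUnit B0.det := isUnit_iff_ne_zero.mpr hdet
    have e : B0⁻¹ + W2 = B0⁻¹ * (1 + B0 * W2) := by
      rw [Matrix.mul_add, Matrix.mul_one, ← Matrix.mul_assoc, Matrix.nonsing_inv_mul _ hu,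
        Matrix.one_mul]
    rw [e, Matrix.det_mul, Matrix.det_nonsing_inv, Ring.inverse_eq_inv']
    exact mul_ne_zero (inv_ne_zero hdet) h3'
  · have hm2 : (m • (1 : Matrix (Fin 2) (Fin 2) ℂ)).det ≠ 0 := by
      rw [smul_one_det]; exact pow_ne_zero 2 hm
    have eW : 1 + W2 * (m • (1 : Matrix (Fin 2) (Fin 2) ℂ)) = !![1, m; m, 1] := by
      ext i j
      fin_cases i <;> fin_cases j <;> simp [W2]
    have k1 : (1 + W2 * (m • (1 : Matrix (Fin 2) (Fin 2) ℂ))).det = 1 - m ^ 2 := by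
      rw [eW, Matrix.det_fin_two_of]; ring
    have k2 := half_le_norm h hb hi
    have k3 : (1 + W2 * (m • (1 : Matrix (Fin 2) (Fin 2) ℂ))).det ≠ 0 := by
      rw [k1]; exact one_sub_sq_ne_zero h hb hi
    have k4 : bnorm (1 + W2 * (m • (1 : Matrix (Fin 2) (Fin 2) ℂ)))⁻¹ ≤ 2 := by
      have k5 : bnorm (1 + W2 * (m • (1 : Matrix (Fin 2) (Fin 2) ℂ))) ≤ 1 := by
        rw [eW, bnorm_le_iff]
        have k6 := norm_le_34 h hb hi
        have k7 : ‖m‖ ≤ 1 := by linarith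
        intro i j
        fin_cases i <;> fin_cases j <;> simp <;> assumption
      have k6 := bnorm_inv_le (M := 1 + W2 * (m • (1 : Matrix (Fin 2) (Fin 2) ℂ))) (δ := 1 / 2)
        (by norm_num) (by rw [k1]; exact k2)
      linarith
    have k5 : bnorm (1 + B0 * W2)⁻¹ ≤ 5 := by
      have k6 := bnorm_inv_le (M := 1 + B0 * W2) (δ := 1 / 4) (by norm_num) h3
      linarith
    rw [← addE_clean hd hz, ← hmdef, addE_sub hdet hm2 h3' k3]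
    have k6 := bnorm_nonneg (B0 - m • (1 : Matrix (Fin 2) (Fin 2) ℂ))
    have k7 := bnorm_nonneg (1 + B0 * W2)⁻¹
    have k8 := bnorm_nonneg (1 + W2 * (m • (1 : Matrix (Fin 2) (Fin 2) ℂ)))⁻¹
    calc bnorm ((1 + B0 * W2)⁻¹ * (B0 - m • 1) * (1 + W2 * (m • 1))⁻¹)
        ≤ 2 * bnorm ((1 + B0 * W2)⁻¹ * (B0 - m • 1)) * bnorm (1 + W2 * (m • 1))⁻¹ :=
          bnorm_mul_le _ _
      _ ≤ 2 * (2 * bnorm (1 + B0 * W2)⁻¹ * bnorm (B0 - m • 1)) *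
          bnorm (1 + W2 * (m • 1))⁻¹ := by
          gcongr
          exact bnorm_mul_le _ _
      _ ≤ 2 * (2 * 5 * bnorm (B0 - m • 1)) * 2 := by gcongr
      _ ≤ 50 * bnorm (B0 - m • 1) := by linarith

/-- (P5) uniformly in `0 ≤ η ≤ 1` and `|E| ≤ A` -/
theorem addE_near_compact {d : ℕ} (hd : 3 ≤ d) {A : ℝ} (hA : A ^ 2 < 4 * ((d : ℝ) - 1)) {z : ℂ}
    (hz1 : |z.re| ≤ A) (hz0 : 0 ≤ z.im) (hz2 : z.im ≤ 1)
    {B0 : Matrix (Fin 2) (Fin 2) ℂ}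
    (h : bnorm (B0 - mc d z • (1 : Matrix (Fin 2) (Fin 2) ℂ)) ≤ rB d A) :
    B0.det ≠ 0 ∧ (B0⁻¹ + W2).det ≠ 0 ∧
      bnorm ((B0⁻¹ + W2)⁻¹ - Bclean d z) ≤
        50 * bnorm (B0 - mc d z • (1 : Matrix (Fin 2) (Fin 2) ℂ)) := by
  have hre : z.re ^ 2 ≤ A ^ 2 := by
    rw [← sq_abs z.re]; gcongr
  have hz : Dom d z := by
    rcases hz0.eq_or_lt with h | h
    · exact Or.inr ⟨h.symm, lt_of_le_of_lt hre hA⟩
    · exact Or.inl h
  refine addE_near hd hz (h.trans (min_le_left _ _)) (h.trans ((min_le_right _ _).trans ?_))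
  have h1 := cIm_le hd hA hz1 hz0 hz2
  have h2 := Complex.im_le_norm (mc d z)
  linarith

/-- (P5) at the energies `ze E η` -/
theorem addE_near_ze {d : ℕ} (hd : 3 ≤ d) {E : ℝ} (hE : E ^ 2 < 4 * ((d : ℝ) - 1)) {η : ℝ}
    (h0 : 0 ≤ η) (h1 : η ≤ 1) {B0 : Matrix (Fin 2) (Fin 2) ℂ}
    (h : bnorm (B0 - mc d (ze E η) • (1 : Matrix (Fin 2) (Fin 2) ℂ)) ≤ rB d |E|) :
    B0.det ≠ 0 ∧ (B0⁻¹ + W2).det ≠ 0 ∧
      bnorm ((B0⁻¹ + W2)⁻¹ - Bclean d (ze E η)) ≤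
        50 * bnorm (B0 - mc d (ze E η) • (1 : Matrix (Fin 2) (Fin 2) ℂ)) :=
  addE_near_compact hd (A := |E|) (by rwa [sq_abs]) (by simp) (by simpa using h0)
    (by simpa using h1) h

/-- (P5) compared with the block at the real energy -/
theorem addE_near_real {d : ℕ} (hd : 3 ≤ d) {E : ℝ} (hE : E ^ 2 < 4 * ((d : ℝ) - 1)) {η : ℝ}
    (h0 : 0 ≤ η) (h1 : η ≤ 1) {B0 : Matrix (Fin 2) (Fin 2) ℂ}
    (h : bnorm (B0 - mc d (ze E η) • (1 : Matrix (Fin 2) (Fin 2) ℂ)) ≤ rB d |E|) :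
    bnorm ((B0⁻¹ + W2)⁻¹ - Bclean d (E : ℂ)) ≤
        50 * bnorm (B0 - mc d (ze E η) • (1 : Matrix (Fin 2) (Fin 2) ℂ)) +
        8 * (η / (((d : ℝ) - 1) * (mc d (E : ℂ)).im)) := by
  have h2 := (addE_near_ze hd hE h0 h1 h).2.2
  have h3 := Bclean_ze_sub_le hd hE h0
  have h4 := bnorm_add_le ((B0⁻¹ + W2)⁻¹ - Bclean d (ze E η)) (Bclean d (ze E η) - Bclean d (E : ℂ))
  rw [sub_add_sub_cancel] at h4
  linarith

end Crest.Agent.R166.McClean797
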