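import Crest.Agent.R166.Sec_269

/-!
# Row 166, section 32 (graph half), helper522: second moment lemma with AVERAGED stability

Same as `Sec269.second_moment`, but the stability of the observable under one move is only
assumed in the mean over states, moves and sites.
-/

set_option autoImplicit false

namespace Crest.Agent.R166.Sec522

open Finset Crest.Agent.R166.Sec269

variable {P M E : Type*} {Gr : Finset P} {Mv : Finset M} {Ed : Finset E} {ctr : M → E} {q : ℕ}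
  {sw : P → M → P × M}

/-- the average over the states of the site average = the average of the one-step average -/
theorem sum_nu_eq_sum_g (h : MoveSystem Gr Mv Ed ctr q sw) (hM : Mv.Nonempty) (f : P → E → ℝ) :
    ∑ p ∈ Gr, nuAvg Ed f p = ∑ p ∈ Gr, gAvg Mv ctr sw f p := by
  have hMpos : (0 : ℝ) < Mv.card := by exact_mod_cast hM.card_pos
  have h1 := sum_gAvg_mul h hM f (fun _ => 1)
  have h2 := sum_nuAvg_mul h hM f (fun _ => 1)
  simp only [mul_one] at h1 h2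
  exact (mul_left_cancel₀ hMpos.ne' (h1.trans h2.symm)).symm

/-- **Second moment lemma, averaged stability.** -/
theorem second_moment_avg (h : MoveSystem Gr Mv Ed ctr q sw) (hM : Mv.Nonempty)
    (f : P → E → ℝ) (hf : ∀ p ∈ Gr, ∀ e ∈ Ed, |f p e| ≤ 1) (δ₁ δ₂ : ℝ)
    (hstab : ∑ p ∈ Gr, ∑ m ∈ Mv, ∑ e ∈ Ed, |f (sw p m).1 e - f p e| ≤
      δ₂ * (Gr.card : ℝ) * (Mv.card : ℝ) * (Ed.card : ℝ))
    (hcomm : ∃ Bad : P → Finset (M × M),
      (∀ p ∈ Gr, ((Bad p).card : ℝ) ≤ δ₁ * (Mv.card : ℝ) ^ 2) ∧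
      (∀ p ∈ Gr, ∀ m ∈ Mv, ∀ m' ∈ Mv, (m, m') ∉ Bad p →
        (sw (sw p m).1 m').1 = (sw (sw p m').1 m).1)) :
    ∑ p ∈ Gr, (nuAvg Ed f p - gAvg Mv ctr sw f p) ^ 2 ≤ (2 * δ₂ + 2 * δ₁) * (Gr.card : ℝ) := by
  classical
  have hMpos : (0 : ℝ) < Mv.card := by exact_mod_cast hM.card_pos
  have hc := card_moves h
  have hEpos : (0 : ℝ) < Ed.card := by
    rcases (Nat.cast_nonneg Ed.card : (0 : ℝ) ≤ Ed.card).lt_or_eq with h1 | h1
    · exact h1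
    · rw [hc, ← h1, mul_zero] at hMpos
      exact absurd hMpos (lt_irrefl _)
  set ν := nuAvg Ed f with hν
  set g := gAvg Mv ctr sw f with hg
  -- stability of ν
  have hνst : ∑ p ∈ Gr, ∑ m ∈ Mv, |ν (sw p m).1 - ν p| ≤
      (Gr.card : ℝ) * ((Mv.card : ℝ) * δ₂) := by
    have hpt : ∀ p ∈ Gr, ∀ m ∈ Mv, (Ed.card : ℝ) * |ν (sw p m).1 - ν p| ≤
        ∑ e ∈ Ed, |f (sw p m).1 e - f p e| := by
      intro p _ m _
      have : ν (sw p m).1 - ν p = (∑ e ∈ Ed, (f (sw p m).1 e - f p e)) / (Ed.card : ℝ) := by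
        rw [hν, nuAvg, nuAvg, Finset.sum_sub_distrib, sub_div]
      rw [this, abs_div, abs_of_pos hEpos, mul_div_cancel₀ _ hEpos.ne']
      exact Finset.abs_sum_le_sum_abs _ _
    have h2 : (Ed.card : ℝ) * ∑ p ∈ Gr, ∑ m ∈ Mv, |ν (sw p m).1 - ν p| ≤
        (Ed.card : ℝ) * ((Gr.card : ℝ) * ((Mv.card : ℝ) * δ₂)) := by
      rw [Finset.mul_sum]
      calc _ ≤ ∑ p ∈ Gr, ∑ m ∈ Mv, ∑ e ∈ Ed, |f (sw p m).1 e - f p e| := by
            refine Finset.sum_le_sum fun p hp => ?_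
            rw [Finset.mul_sum]
            exact Finset.sum_le_sum fun m hm => hpt p hp m hm
        _ ≤ _ := hstab
        _ = _ := by ring
    exact le_of_mul_le_mul_left h2 hEpos
  -- E2 vs E1
  have hA1 : (Mv.card : ℝ) * ∑ p ∈ Gr, g p * ν p
      = ∑ p ∈ Gr, ∑ m ∈ Mv, f p (ctr m) * ν (sw p m).1 := sum_gAvg_mul h hM f ν
  have hA2 : (Mv.card : ℝ) * ∑ p ∈ Gr, ν p * ν p
      = ∑ p ∈ Gr, ∑ m ∈ Mv, f p (ctr m) * ν p := sum_nuAvg_mul h hM f ν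
  have hA : |(Mv.card : ℝ) * ∑ p ∈ Gr, g p * ν p - (Mv.card : ℝ) * ∑ p ∈ Gr, ν p * ν p|
      ≤ (Gr.card : ℝ) * ((Mv.card : ℝ) * δ₂) := by
    rw [hA1, hA2, ← Finset.sum_sub_distrib]
    refine (Finset.abs_sum_le_sum_abs _ _).trans (le_trans ?_ hνst)
    refine Finset.sum_le_sum fun p hp => ?_
    rw [← Finset.sum_sub_distrib]
    refine (Finset.abs_sum_le_sum_abs _ _).trans ?_
    refine Finset.sum_le_sum fun m hm => ?_
    rw [← mul_sub, abs_mul]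
    calc |f p (ctr m)| * |ν (sw p m).1 - ν p| ≤ 1 * |ν (sw p m).1 - ν p| :=
          mul_le_mul_of_nonneg_right (hf p hp _ (h.ctr_mem m hm)) (abs_nonneg _)
      _ = |ν (sw p m).1 - ν p| := one_mul _
  -- E3 vs E2
  have hB1 : (Mv.card : ℝ) * ∑ p ∈ Gr, g p * g p
      = ∑ p ∈ Gr, ∑ m ∈ Mv, f p (ctr m) * g (sw p m).1 := sum_gAvg_mul h hM f g
  have hB2 : (Mv.card : ℝ) * ∑ p ∈ Gr, ν p * g p
      = ∑ p ∈ Gr, ∑ m ∈ Mv, f p (ctr m) * g p := sum_nuAvg_mul h hM f g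
  obtain ⟨Bad, hBad, hgood⟩ := hcomm
  -- total variation of g
  have hT : ∑ p ∈ Gr, ∑ m ∈ Mv, |g (sw p m).1 - g p|
      ≤ (Gr.card : ℝ) * ((Mv.card : ℝ) * (δ₂ + 2 * δ₁)) := by
    have hpt : ∀ p ∈ Gr, ∀ m ∈ Mv, (Mv.card : ℝ) * |g (sw p m).1 - g p|
        ≤ ∑ m' ∈ Mv, (|f (sw (sw p m').1 m).1 (ctr m') - f (sw p m').1 (ctr m')|
            + if (m, m') ∈ Bad p then (2 : ℝ) else 0) := by
      intro p hp m hm
      have e1 : (Mv.card : ℝ) * |g (sw p m).1 - g p|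
          = |∑ m' ∈ Mv, (f (sw (sw p m).1 m').1 (ctr m') - f (sw p m').1 (ctr m'))| := by
        have : g (sw p m).1 - g p
            = (∑ m' ∈ Mv, (f (sw (sw p m).1 m').1 (ctr m') - f (sw p m').1 (ctr m')))
              / (Mv.card : ℝ) := by
          rw [hg, gAvg, gAvg, Finset.sum_sub_distrib, sub_div]
        rw [this, abs_div, abs_of_pos hMpos]
        field_simp
      rw [e1]
      refine (Finset.abs_sum_le_sum_abs _ _).trans (Finset.sum_le_sum fun m' hm' => ?_)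
      by_cases hb : (m, m') ∈ Bad p
      · rw [if_pos hb]
        have ha := hf _ (h.mem_left _ (h.mem_left p hp m hm) m' hm') _ (h.ctr_mem m' hm')
        have hb' := hf _ (h.mem_left p hp m' hm') _ (h.ctr_mem m' hm')
        have := abs_sub (f (sw (sw p m).1 m').1 (ctr m')) (f (sw p m').1 (ctr m'))
        have h3 := abs_nonneg (f (sw (sw p m').1 m).1 (ctr m') - f (sw p m').1 (ctr m'))
        linarith
      · rw [if_neg hb, hgood p hp m hm m' hm' hb, add_zero]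
    have hsum : (Mv.card : ℝ) * ∑ p ∈ Gr, ∑ m ∈ Mv, |g (sw p m).1 - g p|
        ≤ ∑ p ∈ Gr, ∑ m ∈ Mv, ∑ m' ∈ Mv,
            |f (sw (sw p m').1 m).1 (ctr m') - f (sw p m').1 (ctr m')|
          + ∑ p ∈ Gr, ∑ m ∈ Mv, ∑ m' ∈ Mv, (if (m, m') ∈ Bad p then (2 : ℝ) else 0) := by
      rw [Finset.mul_sum, ← Finset.sum_add_distrib]
      refine Finset.sum_le_sum fun p hp => ?_
      rw [Finset.mul_sum, ← Finset.sum_add_distrib]
      refine Finset.sum_le_sum fun m hm => ?_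
      rw [← Finset.sum_add_distrib]
      exact hpt p hp m hm
    have hfirst : ∑ p ∈ Gr, ∑ m ∈ Mv, ∑ m' ∈ Mv,
            |f (sw (sw p m').1 m).1 (ctr m') - f (sw p m').1 (ctr m')|
        ≤ (Gr.card : ℝ) * ((Mv.card : ℝ) * ((Mv.card : ℝ) * δ₂)) := by
      have hswap : ∑ p ∈ Gr, ∑ m ∈ Mv, ∑ m' ∈ Mv,
            |f (sw (sw p m').1 m).1 (ctr m') - f (sw p m').1 (ctr m')|
          = ∑ m ∈ Mv, ∑ p ∈ Gr, ∑ m' ∈ Mv,
            |f (sw (sw p m').1 m).1 (ctr m') - f (sw p m').1 (ctr m')| := Finset.sum_comm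
      rw [hswap]
      have hm1 : ∀ m ∈ Mv, ∑ p ∈ Gr, ∑ m' ∈ Mv,
            |f (sw (sw p m').1 m).1 (ctr m') - f (sw p m').1 (ctr m')|
          = ∑ p ∈ Gr, (Mv.card : ℝ) * ((∑ e ∈ Ed, |f (sw p m).1 e - f p e|) / (Ed.card : ℝ)) := by
        intro m hm
        have := sum_change h (fun p m' => |f (sw p m).1 (ctr m') - f p (ctr m')|)
        have e2 : ∑ p ∈ Gr, ∑ m' ∈ Mv,
            |f (sw (sw p m').1 m).1 (ctr m') - f (sw p m').1 (ctr m')|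
            = ∑ p ∈ Gr, ∑ m' ∈ Mv, |f (sw p m).1 (ctr m') - f p (ctr m')| := by
          rw [this]
          refine Finset.sum_congr rfl fun p hp => Finset.sum_congr rfl fun m' hm' => ?_
          simp only [h.ctr_sw p hp m' hm']
        rw [e2]
        refine Finset.sum_congr rfl fun p hp => ?_
        rw [avg_ctr h hM (fun e => |f (sw p m).1 e - f p e|)]
      rw [Finset.sum_congr rfl hm1, Finset.sum_comm]
      simp only [← Finset.mul_sum, ← Finset.sum_div]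
      have h3 : (∑ p ∈ Gr, ∑ m ∈ Mv, ∑ e ∈ Ed, |f (sw p m).1 e - f p e|) / (Ed.card : ℝ) ≤
          δ₂ * (Gr.card : ℝ) * (Mv.card : ℝ) := by
        rw [div_le_iff₀ hEpos]; exact hstab
      calc _ ≤ (Mv.card : ℝ) * (δ₂ * (Gr.card : ℝ) * (Mv.card : ℝ)) :=
            mul_le_mul_of_nonneg_left h3 hMpos.le
        _ = _ := by ring
    have hsecond : ∑ p ∈ Gr, ∑ m ∈ Mv, ∑ m' ∈ Mv, (if (m, m') ∈ Bad p then (2 : ℝ) else 0)
        ≤ (Gr.card : ℝ) * (2 * (δ₁ * (Mv.card : ℝ) ^ 2)) := by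
      rw [← nsmul_eq_mul]
      refine Finset.sum_le_card_nsmul _ _ _ fun p hp => ?_
      rw [← Finset.sum_product', ← Finset.sum_filter, Finset.sum_const, nsmul_eq_mul, mul_comm]
      refine mul_le_mul_of_nonneg_left ?_ (by norm_num)
      refine le_trans ?_ (hBad p hp)
      have : (Mv ×ˢ Mv).filter (fun x => (x.1, x.2) ∈ Bad p) ⊆ Bad p := by
        intro x hx
        exact (Finset.mem_filter.1 hx).2
      exact_mod_cast Finset.card_le_card this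
    have hfin : (Mv.card : ℝ) * ∑ p ∈ Gr, ∑ m ∈ Mv, |g (sw p m).1 - g p|
        ≤ (Mv.card : ℝ) * ((Gr.card : ℝ) * ((Mv.card : ℝ) * (δ₂ + 2 * δ₁))) := by
      refine hsum.trans ((add_le_add hfirst hsecond).trans (le_of_eq ?_))
      ring
    exact le_of_mul_le_mul_left hfin hMpos
  have hB : |(Mv.card : ℝ) * ∑ p ∈ Gr, g p * g p - (Mv.card : ℝ) * ∑ p ∈ Gr, ν p * g p|
      ≤ (Gr.card : ℝ) * ((Mv.card : ℝ) * (δ₂ + 2 * δ₁)) := by
    rw [hB1, hB2, ← Finset.sum_sub_distrib]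
    refine (Finset.abs_sum_le_sum_abs _ _).trans (le_trans ?_ hT)
    refine Finset.sum_le_sum fun p hp => ?_
    rw [← Finset.sum_sub_distrib]
    refine (Finset.abs_sum_le_sum_abs _ _).trans (Finset.sum_le_sum fun m hm => ?_)
    rw [← mul_sub, abs_mul]
    calc |f p (ctr m)| * |g (sw p m).1 - g p| ≤ 1 * |g (sw p m).1 - g p| :=
          mul_le_mul_of_nonneg_right (hf p hp _ (h.ctr_mem m hm)) (abs_nonneg _)
      _ = |g (sw p m).1 - g p| := one_mul _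
  -- conclusion
  have hexp : (Mv.card : ℝ) * ∑ p ∈ Gr, (ν p - g p) ^ 2
      = ((Mv.card : ℝ) * ∑ p ∈ Gr, g p * g p - (Mv.card : ℝ) * ∑ p ∈ Gr, ν p * g p)
        - ((Mv.card : ℝ) * ∑ p ∈ Gr, g p * ν p - (Mv.card : ℝ) * ∑ p ∈ Gr, ν p * ν p) := by
    rw [← mul_sub, ← mul_sub, ← mul_sub, ← Finset.sum_sub_distrib, ← Finset.sum_sub_distrib,
      ← Finset.sum_sub_distrib]
    congr 1
    refine Finset.sum_congr rfl fun p _ => ?_
    ring
  have h1 := abs_le.1 hA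
  have h2 := abs_le.1 hB
  have hfin : (Mv.card : ℝ) * ∑ p ∈ Gr, (ν p - g p) ^ 2
      ≤ (Mv.card : ℝ) * ((2 * δ₂ + 2 * δ₁) * (Gr.card : ℝ)) := by
    rw [hexp]
    nlinarith [h1.1, h2.2]
  exact le_of_mul_le_mul_left hfin hMpos

/-- `L¹` form: average of `|ν - g|` over the states. -/
theorem first_moment_avg (h : MoveSystem Gr Mv Ed ctr q sw) (hM : Mv.Nonempty)
    (f : P → E → ℝ) (hf : ∀ p ∈ Gr, ∀ e ∈ Ed, |f p e| ≤ 1) (δ₁ δ₂ : ℝ)
    (hstab : ∑ p ∈ Gr, ∑ m ∈ Mv, ∑ e ∈ Ed, |f (sw p m).1 e - f p e| ≤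
      δ₂ * (Gr.card : ℝ) * (Mv.card : ℝ) * (Ed.card : ℝ))
    (hcomm : ∃ Bad : P → Finset (M × M),
      (∀ p ∈ Gr, ((Bad p).card : ℝ) ≤ δ₁ * (Mv.card : ℝ) ^ 2) ∧
      (∀ p ∈ Gr, ∀ m ∈ Mv, ∀ m' ∈ Mv, (m, m') ∉ Bad p →
        (sw (sw p m).1 m').1 = (sw (sw p m').1 m).1)) :
    ∑ p ∈ Gr, |nuAvg Ed f p - gAvg Mv ctr sw f p| ≤
      Real.sqrt (2 * δ₂ + 2 * δ₁) * (Gr.card : ℝ) := by
  have h1 := second_moment_avg h hM f hf δ₁ δ₂ hstab hcomm
  have h2 := Real.sum_mul_le_sqrt_mul_sqrt Gr (fun p => |nuAvg Ed f p - gAvg Mv ctr sw f p|)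
    (fun _ => 1)
  simp only [mul_one, sq_abs, one_pow, Finset.sum_const, nsmul_eq_mul] at h2
  have hG : (0 : ℝ) ≤ Gr.card := Nat.cast_nonneg _
  refine h2.trans ?_
  calc Real.sqrt (∑ p ∈ Gr, (nuAvg Ed f p - gAvg Mv ctr sw f p) ^ 2) * Real.sqrt (Gr.card)
      ≤ Real.sqrt ((2 * δ₂ + 2 * δ₁) * (Gr.card : ℝ)) * Real.sqrt (Gr.card) :=
        mul_le_mul_of_nonneg_right (Real.sqrt_le_sqrt h1) (Real.sqrt_nonneg _)
    _ = Real.sqrt (2 * δ₂ + 2 * δ₁) * (Gr.card : ℝ) := by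
        rw [Real.sqrt_mul' _ hG, mul_assoc, Real.mul_self_sqrt hG]

end Crest.Agent.R166.Sec522
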