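import Crest.Agent.R166.SpecF1_522
import Crest.Agent.R166.FineDet2_522
import Crest.Agent.R166.McClean_797
import Crest.Agent.R166.Sec2_522
import Crest.Agent.R166.TreeTL_798

/-!
# Row 166, section 32 (graph half): `F1From` (helper420)

`F1` (most edge blocks are `κ`-fine at all scales) from the one-step estimate `F1Step` (helper522)
and Theorem A.

* `fine_of_dev` : a block whose cavity block is close to `m I` is fine;
* `qk_le_Vp`    : the fraction of non-fine edges is at most `V_G / r²`;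
* `one_step`    : the averaged one-step inequality;
* `iterate`     : abstract iteration;
* `f1From`      : `SpecF1.F1From d`.
-/

set_option autoImplicit false

open Matrix

namespace Crest.Agent.R166.F1From420

open Crest.Agent.R166 Stab269 SwP470 Rev811 SpecA
open Crest.Agent.R166.Res598 Crest.Agent.R166.Off522 Crest.Agent.R166.Fine522

variable {n d : ℕ}

/-! ### scalar matrices are fine -/

theorem imGe_smul_one {m : ℂ} {c : ℝ} (hc : c ≤ m.im) :
    ImGe c (m • (1 : Matrix (Fin 2) (Fin 2) ℂ)) := by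
  intro x
  have h1 : qf (imM (m • (1 : Matrix (Fin 2) (Fin 2) ℂ))) x = m.im * ∑ i, ‖x i‖ ^ 2 := by
    simp only [qf, vre, vim, dotProduct, Matrix.mulVec, Fin.sum_univ_two, imM_apply,
      Matrix.smul_apply, Matrix.one_apply, smul_eq_mul]
    have e0 : ‖x 0‖ ^ 2 = (x 0).re * (x 0).re + (x 0).im * (x 0).im := by
      rw [← Complex.normSq_eq_norm_sq, Complex.normSq_apply]
    have e1 : ‖x 1‖ ^ 2 = (x 1).re * (x 1).re + (x 1).im * (x 1).im := by
      rw [← Complex.normSq_eq_norm_sq, Complex.normSq_apply]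
    rw [e0, e1]
    simp
    ring
  rw [h1]
  exact mul_le_mul_of_nonneg_right hc (by positivity)

theorem fine_smul_one {m : ℂ} {c : ℝ} (hc0 : 0 < c) (hc : c ≤ m.im) (hm : ‖m‖ ≤ 1) (hc1 : c ≤ 1) :
    Fine c (m • (1 : Matrix (Fin 2) (Fin 2) ℂ)) := by
  refine ⟨?_, hc0, imGe_smul_one hc, fun i j => ?_⟩
  · rw [Matrix.transpose_smul, Matrix.transpose_one]
  · have h1 : (1 : ℝ) ≤ c⁻¹ := one_le_inv_iff₀.2 ⟨hc0, hc1⟩
    rw [Matrix.smul_apply, smul_eq_mul, norm_mul, Matrix.one_apply]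
    split_ifs
    · rw [norm_one, mul_one]; exact hm.trans h1
    · rw [norm_zero, mul_zero]; exact (zero_le_one).trans h1

/-- a block whose cavity block is close to `m I` is fine -/
theorem fine_of_dev {p : Equiv.Perm (HE n d)} (hp : IsPort p) (s : ℝ) (ω : Fin n → ℝ) {z : ℂ}
    (hz : 0 < z.im) (h : HE n d) {c r : ℝ} (hc0 : 0 < c) (hc1 : c ≤ 1) (hc : c ≤ (mc d z).im)
    (hm : ‖mc d z‖ ≤ 1) (hr0 : 0 ≤ r) (hr : r * 2 / c ≤ 1 / 2) (hdev : dev p s ω z h ≤ r) :
    Fine (kap1 2 (c / 2)) (BE p s ω z h) := by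
  have hS : Siegel (BE p s ω z h) := Dec598.siegel_iff.2 (sieg_BE hp s ω hz h)
  have hcav : Siegel (cavB (BE p s ω z h)) := siegel_cavB hS
  apply fine_of_cavB hS
  have h1 := fine_smul_one (m := mc d z) hc0 hc hm hc1
  refine fine_near h1 hr ?_
  have h2 := near_of_entry (c := c) (δ := r) (Z := mc d z • (1 : Matrix (Fin 2) (Fin 2) ℂ))
    (Z' := cavB (BE p s ω z h)) hc0 hr0 hcav.symm h1.im (fun i j => by
      rw [← Matrix.sub_apply]
      refine le_trans ?_ hdev
      unfold dev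
      exact McClean797.norm_le_bnorm _ i j)
  simpa using h2

/-- fraction of the half-edges whose block is not `κ`-fine -/
noncomputable def qk (κ : ℝ) (p : Equiv.Perm (HE n d)) (s : ℝ) (ω : Fin n → ℝ) (z : ℂ) : ℝ :=
  pr1 fun h : HE n d => ¬ Fine κ (BE p s ω z h)

open Classical in
theorem qk_eq (κ : ℝ) (p : Equiv.Perm (HE n d)) (s : ℝ) (ω : Fin n → ℝ) (z : ℂ) :
    qk κ p s ω z = (∑ h : HE n d, if ¬ Fine κ (BE p s ω z h) then (1 : ℝ) else 0) /
      (Fintype.card (HE n d) : ℝ) := by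
  unfold qk pr1 av1
  congr 1
  refine Finset.sum_congr rfl fun h _ => ?_
  by_cases hx : Fine κ (BE p s ω z h) <;> simp [hx]

theorem qk_nonneg (κ : ℝ) (p : Equiv.Perm (HE n d)) (s : ℝ) (ω : Fin n → ℝ) (z : ℂ) :
    0 ≤ qk κ p s ω z := by
  classical
  rw [qk_eq]
  exact div_nonneg (Finset.sum_nonneg fun h _ => by split_ifs <;> norm_num) (Nat.cast_nonneg _)

theorem qk_le_one (κ : ℝ) (p : Equiv.Perm (HE n d)) (s : ℝ) (ω : Fin n → ℝ) (z : ℂ) :
    qk κ p s ω z ≤ 1 := by
  classical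
  rw [qk_eq]
  refine div_le_one_of_le₀ ?_ (Nat.cast_nonneg _)
  calc (∑ h : HE n d, if ¬ Fine κ (BE p s ω z h) then (1 : ℝ) else 0) ≤ ∑ _h : HE n d, (1 : ℝ) :=
        Finset.sum_le_sum fun h _ => by split_ifs <;> norm_num
    _ = (Fintype.card (HE n d) : ℝ) := by simp

theorem qk_anti {κ κ' : ℝ} (hκ : 0 < κ') (h : κ' ≤ κ) (p : Equiv.Perm (HE n d)) (s : ℝ)
    (ω : Fin n → ℝ) (z : ℂ) : qk κ' p s ω z ≤ qk κ p s ω z := by
  classical
  rw [qk_eq, qk_eq]
  refine div_le_div_of_nonneg_right (Finset.sum_le_sum fun x _ => ?_) (Nat.cast_nonneg _)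
  by_cases hx : Fine κ (BE p s ω z x)
  · rw [if_neg (not_not.2 hx), if_neg (not_not.2 (hx.mono hκ h))]
  · rw [if_pos hx]
    split_ifs <;> norm_num

/-- the fraction of non-fine edges is controlled by `V_G` -/
theorem qk_le_Vp {p : Equiv.Perm (HE n d)} (hp : IsPort p) (s : ℝ) (ω : Fin n → ℝ) {z : ℂ}
    (hz : 0 < z.im) {c r rs : ℝ} (hc0 : 0 < c) (hc1 : c ≤ 1) (hc : c ≤ (mc d z).im)
    (hm : ‖mc d z‖ ≤ 1) (hr0 : 0 < r) (hrs : r ≤ rs) (hr : r * 2 / c ≤ 1 / 2) :
    qk (kap1 2 (c / 2)) p s ω z ≤ Vp rs p s ω z / r ^ 2 := by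
  classical
  rw [qk_eq, Vp, div_div, mul_comm (((n * d : ℕ) : ℝ)) (r ^ 2), ← div_div, IsPort.card_HE]
  refine div_le_div_of_nonneg_right ?_ (Nat.cast_nonneg _)
  rw [le_div_iff₀ (by positivity), Finset.sum_mul]
  refine Finset.sum_le_sum fun h _ => ?_
  by_cases hx : Fine (kap1 2 (c / 2)) (BE p s ω z h)
  · rw [if_neg (not_not.2 hx), zero_mul]; positivity
  · rw [if_pos hx, one_mul]
    have h1 : r ≤ Dv rs p s ω z h := by
      unfold Dv
      refine le_min hrs ?_
      by_contra hcon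
      exact hx (fine_of_dev hp s ω hz h hc0 hc1 hc hm hr0.le hr (not_le.1 hcon).le)
    exact pow_le_pow_left₀ hr0.le h1 2

/-! ### the averaged one-step inequality -/

theorem one_step [NeZero d] (hd : 3 ≤ d) (hn : 0 < n) {s η E : ℝ} {ω : Fin n → ℝ} {κ κ' C0 C : ℝ}
    (hstep : ∀ p : Equiv.Perm (HE n d), IsPort p → ∀ h0 : HE n d, TL 2 p h0 →
          pr (fun b : BI d 2 → HE n d =>
            ¬ Off522.Fine κ' (BE (bsw 2 p (h0, b)).1 s ω (ze E η) h0)) ≤
          C0 * (pr1 fun h : HE n d => ¬ Off522.Fine κ (BE p s ω (ze E η) h)) ^ 2 + C / (n * η))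
    (hX : 0 ≤ C0) (hX' : 0 ≤ C / (n * η)) :
    ∑ p ∈ Ports n d, qk κ' p s ω (ze E η) ≤
      ∑ p ∈ Ports n d, C0 * qk κ p s ω (ze E η) ^ 2 +
        (C / (n * η) + Tree798.CT d 2 / (n * d)) * (Ports n d).card := by
  classical
  have hd0 : 0 < d := by omega
  have hHE : (0 : ℝ) < (Fintype.card (HE n d) : ℝ) := by
    rw [IsPort.card_HE]; exact_mod_cast Nat.mul_pos hn hd0
  have hne : Nonempty (HE n d) := ⟨(⟨0, hn⟩, ⟨0, hd0⟩)⟩
  have hMv : (Finset.univ : Finset (HE n d × (BI d 2 → HE n d))).Nonempty := Finset.univ_nonempty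
  set f : Equiv.Perm (HE n d) → HE n d → ℝ := fun p h =>
    if ¬ Fine κ' (BE p s ω (ze E η) h) then (1 : ℝ) else 0 with hf
  have h1 := Sec522.sum_nu_eq_sum_g (SwP470.moveSystem n d 2 (by norm_num)) hMv f
  have e1 : ∀ p, Sec269.nuAvg (Finset.univ : Finset (HE n d)) f p = qk κ' p s ω (ze E η) := by
    intro p
    rw [qk_eq, Sec269.nuAvg, Finset.card_univ]
  simp only [e1] at h1
  rw [h1]
  have e2 : ∀ p ∈ Ports n d, Sec269.gAvg (Finset.univ : Finset (HE n d × (BI d 2 → HE n d)))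
      Prod.fst (bsw 2) f p ≤ C0 * qk κ p s ω (ze E η) ^ 2 + (C / (n * η) +
        ((Finset.univ.filter fun h : HE n d => ¬ TL 2 p h).card : ℝ) / (n * d)) := by
    intro p hp
    set X : ℝ := C0 * qk κ p s ω (ze E η) ^ 2 + C / (n * η) with hXdef
    have hX0 : 0 ≤ X := by
      have := mul_nonneg hX (sq_nonneg (qk κ p s ω (ze E η)))
      linarith
    have e3 : Sec269.gAvg (Finset.univ : Finset (HE n d × (BI d 2 → HE n d)))
        Prod.fst (bsw 2) f p = (∑ h0 : HE n d, pr (fun b : BI d 2 → HE n d =>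
            ¬ Fine κ' (BE (bsw 2 p (h0, b)).1 s ω (ze E η) h0))) / (Fintype.card (HE n d) : ℝ) := by
      rw [Sec269.gAvg, Fintype.sum_prod_type, Finset.card_univ, Fintype.card_prod, Nat.cast_mul,
        mul_comm, ← div_div, Finset.sum_div]
      congr 1
      refine Finset.sum_congr rfl fun h0 _ => ?_
      unfold pr av
      congr 1
      refine Finset.sum_congr rfl fun b _ => ?_
      simp only [hf]
      by_cases hx : Fine κ' (BE (bsw 2 p (h0, b)).1 s ω (ze E η) h0) <;> simp [hx]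
    rw [e3, div_le_iff₀ hHE]
    have e4 : ∑ h0 : HE n d, pr (fun b : BI d 2 → HE n d =>
            ¬ Fine κ' (BE (bsw 2 p (h0, b)).1 s ω (ze E η) h0)) ≤
        ∑ h0 : HE n d, (X + if ¬ TL 2 p h0 then (1 : ℝ) else 0) := by
      refine Finset.sum_le_sum fun h0 _ => ?_
      by_cases hTL : TL 2 p h0
      · rw [if_neg (not_not.2 hTL), add_zero]
        exact hstep p (mem_Ports.1 hp) h0 hTL
      · rw [if_pos hTL]
        have : pr (fun b : BI d 2 → HE n d =>
            ¬ Fine κ' (BE (bsw 2 p (h0, b)).1 s ω (ze E η) h0)) ≤ 1 := by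
          calc _ ≤ av (fun _ : BI d 2 → HE n d => (1 : ℝ)) :=
                av_mono fun e => by split_ifs <;> norm_num
            _ = 1 := av_const 1
        linarith
    refine e4.trans ?_
    rw [Finset.sum_add_distrib, Finset.sum_const, Finset.card_univ, nsmul_eq_mul,
      ← Finset.sum_filter, Finset.sum_const, nsmul_eq_mul, mul_one, IsPort.card_HE]
    push_cast
    have hnd : (0 : ℝ) < n * d := by
      have : (0 : ℝ) < ((n * d : ℕ) : ℝ) := by exact_mod_cast Nat.mul_pos hn hd0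
      push_cast at this
      exact this
    have e5 : ((Finset.univ.filter fun h : HE n d => ¬ TL 2 p h).card : ℝ) / (n * d) * (n * d) =
        ((Finset.univ.filter fun h : HE n d => ¬ TL 2 p h).card : ℝ) :=
      div_mul_cancel₀ _ hnd.ne'
    rw [add_mul, add_mul, e5, hXdef]
    ring_nf
    rfl
  refine (Finset.sum_le_sum e2).trans ?_
  rw [Finset.sum_add_distrib, Finset.sum_add_distrib, Finset.sum_const, nsmul_eq_mul,
    ← Finset.sum_div, add_mul]
  have h3 := Tree798.sum_card_not_TL_le (n := n) (d := d) (by omega) 2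
  have h4 : (∑ p ∈ Ports n d, ((Finset.univ.filter fun h : HE n d => ¬ TL 2 p h).card : ℝ)) /
      (n * d) ≤ Tree798.CT d 2 / (n * d) * (Ports n d).card := by
    rw [div_mul_eq_mul_div]
    refine div_le_div_of_nonneg_right ?_ (by positivity)
    convert h3
  linarith

/-! ### abstract iteration -/

theorem iterate {Γ : Type*} [DecidableEq Γ] (Gr Bd : Finset Γ) (hBd : Bd ⊆ Gr) (q : ℕ → Γ → ℝ)
    {C0 v δ e : ℝ} (hC0 : 0 ≤ C0) (hv : C0 * v ≤ 1 / 4)
    (h0 : ∀ j p, 0 ≤ q j p) (h1 : ∀ j p, q j p ≤ 1)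
    (hgood : ∀ j, ∀ p ∈ Gr, p ∉ Bd → q j p ≤ v)
    (hB : (Bd.card : ℝ) ≤ δ * Gr.card) (J : ℕ)
    (hstep : ∀ j, j < J → ∑ p ∈ Gr, q (j + 1) p ≤ ∑ p ∈ Gr, C0 * q j p ^ 2 + e * Gr.card)
    (he : 0 ≤ e) (hδ : 0 ≤ δ) :
    ∑ p ∈ Gr, q J p ≤ ((1 / 4) ^ J + 2 * (C0 * δ + e)) * Gr.card := by
  have key : ∀ j, j ≤ J → ∑ p ∈ Gr, q j p ≤ ((1 / 4) ^ j + 2 * (C0 * δ + e)) * Gr.card := by
    intro j
    induction j with
    | zero =>
      intro _
      have h2 : ∑ p ∈ Gr, q 0 p ≤ Gr.card := by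
        calc ∑ p ∈ Gr, q 0 p ≤ ∑ _p ∈ Gr, (1 : ℝ) := Finset.sum_le_sum fun p _ => h1 0 p
          _ = Gr.card := by simp
      have h3 : 0 ≤ C0 * δ + e := by positivity
      have h4 : (0 : ℝ) ≤ Gr.card := Nat.cast_nonneg _
      rw [pow_zero]
      nlinarith
    | succ j ih =>
      intro hj
      have ih' := ih (by omega)
      refine (hstep j (by omega)).trans ?_
      have h2 : ∑ p ∈ Gr, C0 * q j p ^ 2 ≤ 1 / 4 * ∑ p ∈ Gr, q j p + C0 * δ * Gr.card := by
        have h3 : ∀ p ∈ Gr, C0 * q j p ^ 2 ≤ 1 / 4 * q j p + if p ∈ Bd then C0 else 0 := by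
          intro p hp
          by_cases hpB : p ∈ Bd
          · rw [if_pos hpB]
            have a1 := h0 j p
            have a2 := h1 j p
            have a3 : q j p ^ 2 ≤ 1 := pow_le_one₀ a1 a2
            nlinarith [mul_le_mul_of_nonneg_left a3 hC0]
          · rw [if_neg hpB, add_zero]
            have a1 := h0 j p
            have a2 := hgood j p hp hpB
            calc C0 * q j p ^ 2 = C0 * q j p * q j p := by ring
              _ ≤ C0 * v * q j p := by
                  exact mul_le_mul_of_nonneg_right (mul_le_mul_of_nonneg_left a2 hC0) a1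
              _ ≤ 1 / 4 * q j p := mul_le_mul_of_nonneg_right hv a1
        refine (Finset.sum_le_sum h3).trans ?_
        rw [Finset.sum_add_distrib, ← Finset.mul_sum, ← Finset.sum_filter, Finset.sum_const,
          nsmul_eq_mul]
        have h4 : Gr.filter (fun p => p ∈ Bd) = Bd := by
          ext p
          simp only [Finset.mem_filter]
          exact ⟨fun h => h.2, fun h => ⟨hBd h, h⟩⟩
        rw [h4]
        have h5 := mul_le_mul_of_nonneg_left hB hC0
        nlinarith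
      have h3 : 0 ≤ C0 * δ + e := by positivity
      have h4 : (0 : ℝ) ≤ Gr.card := Nat.cast_nonneg _
      rw [pow_succ]
      nlinarith [mul_nonneg h3 h4]
  exact key J le_rfl

/-! ### the conclusion -/

set_option maxHeartbeats 1000000 in
/-- **F1 from the one-step estimate and Theorem A** -/
theorem f1From (d : ℕ) [NeZero d] : SpecF1.F1From d := by
  classical
  intro hd hF hA A hA0 hA2
  obtain ⟨C0, hC0, hF⟩ := hF
  obtain ⟨rs, C1, s0A, hrs, hC1, hs0A, hA⟩ := hA A hA0 hA2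
  have hd3 : (3 : ℝ) ≤ d := by exact_mod_cast hd
  -- constants of the clean root
  set c : ℝ := min (McClean797.cIm d A) 1 with hc
  have hcpos : 0 < c := lt_min (McClean797.cIm_pos hd hA2) one_pos
  have hc1 : c ≤ 1 := min_le_right _ _
  set r : ℝ := min rs (c / 4) with hr
  have hrpos : 0 < r := lt_min hrs (by positivity)
  have hr2 : r * 2 / c ≤ 1 / 2 := by
    have : r ≤ c / 4 := min_le_right _ _
    rw [div_le_iff₀ hcpos]
    linarith
  set κs : ℝ := kap1 2 (c / 2) with hκs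
  have hκs0 : 0 < κs := kap1_pos (by positivity)
  set v : ℝ := 1 / (4 * C0) with hv
  have hv0 : 0 < v := by positivity
  have hCv : C0 * v ≤ 1 / 4 := by
    rw [hv]
    apply le_of_eq
    field_simp
  -- the strength
  set s1 : ℝ := Real.sqrt (v * r ^ 2 / (2 * C1)) with hs1
  have hs1pos : 0 < s1 := Real.sqrt_pos.2 (by positivity)
  refine ⟨min (min s0A 1) s1, lt_min (lt_min hs0A one_pos) hs1pos, fun ε hε => ?_⟩
  -- the sequence of levels
  choose κ' hκ' C hC H using hF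
  let lev : ℕ → {κ : ℝ // 0 < κ} := fun j => Nat.rec ⟨κs, hκs0⟩
    (fun _ k => ⟨min (κ' k.1 k.2) k.1, lt_min (hκ' k.1 k.2) k.2⟩) j
  have lev_succ : ∀ j, (lev (j + 1)).1 = min (κ' (lev j).1 (lev j).2) (lev j).1 := fun j => rfl
  have lev_le : ∀ j, (lev j).1 ≤ κs := by
    intro j
    induction j with
    | zero => exact le_rfl
    | succ j ih => rw [lev_succ]; exact (min_le_right _ _).trans ih
  -- number of steps
  obtain ⟨J, hJ⟩ := exists_pow_lt_of_lt_one (show (0:ℝ) < ε / 4 by positivity)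
    (show (1 / 4 : ℝ) < 1 by norm_num)
  -- the exceptional fraction
  set δ : ℝ := min (v * r ^ 2 / 2) (ε / (16 * C0)) with hδ
  have hδ0 : 0 < δ := lt_min (by positivity) (by positivity)
  obtain ⟨KA, hKA, hA⟩ := hA δ hδ0
  -- the scale
  set Cm : ℝ := ∑ j ∈ Finset.range J, C (lev j).1 (lev j).2 with hCm
  have hCm0 : 0 ≤ Cm := Finset.sum_nonneg fun j _ => (hC _ _).le
  set K0 : ℝ := max KA (16 * Cm / ε) with hK0
  have hK0pos : 0 < K0 := lt_of_lt_of_le hKA (le_max_left _ _)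
  obtain ⟨NA, hA⟩ := hA K0 (le_max_left _ _)
  have hCT : 0 ≤ Tree798.CT d 2 := Tree798.CT_nonneg d 2
  obtain ⟨NC, hNC⟩ := exists_nat_ge (16 * Tree798.CT d 2 / ε)
  refine ⟨(lev J).1, (lev J).2, K0, hK0pos, max NA (NC + 1), ?_⟩
  intro n hn E s η hE hs hη1 hη2 ω hω
  have hn1 : 0 < n := lt_of_lt_of_le (Nat.succ_pos NC) (le_trans (le_max_right _ _) hn)
  have hn0 : (0 : ℝ) < n := by exact_mod_cast hn1
  have hη : 0 < η := lt_of_lt_of_le (div_pos hK0pos hn0) hη1
  have hs' : |s| ≤ s0A := hs.trans ((min_le_left _ _).trans (min_le_left _ _))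
  have hs'' : |s| ≤ 1 := hs.trans ((min_le_left _ _).trans (min_le_right _ _))
  have hs1' : |s| ≤ s1 := hs.trans (min_le_right _ _)
  have hEd : |E| ≤ d := by
    refine hE.trans ?_
    have : A ^ 2 ≤ (d : ℝ) ^ 2 := by nlinarith [sq_nonneg ((d : ℝ) - 2)]
    exact (sq_le_sq₀ hA0.le (by linarith)).1 this
  set z := ze E η with hz
  have hzim : z.im = η := McClean797.ze_im E η
  have hzre : z.re = E := McClean797.ze_re E η
  have hzpos : 0 < z.im := by rw [hzim]; exact hη
  have hcz : c ≤ (mc d z).im := (min_le_left _ _).trans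
    (McClean797.cIm_le hd hA2 (by rw [hzre]; exact hE) hzpos.le (by rw [hzim]; exact hη2))
  have hmz : ‖mc d z‖ ≤ 1 :=
    (McClean797.mc_norm_le_34 hd (McClean797.dom_of_im hzpos)).trans (by norm_num)
  -- the exceptional set
  set Bd : Finset (Equiv.Perm (HE n d)) := (Ports n d).filter fun p => ∃ η : ℝ, K0 / n ≤ η ∧
    η ≤ 1 ∧ C1 * s ^ 2 + δ < Vp rs p s ω (ze E η) with hBd
  have hBdcard : (Bd.card : ℝ) ≤ δ * (Ports n d).card := by
    have := hA n (le_trans (le_max_left _ _) hn) E s hE hs' ω hω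
    exact this
  have hs2 : C1 * s ^ 2 ≤ v * r ^ 2 / 2 := by
    have h1 : s ^ 2 ≤ s1 ^ 2 := by
      rw [← sq_abs s]; exact pow_le_pow_left₀ (abs_nonneg _) hs1' 2
    have h2 : s1 ^ 2 = v * r ^ 2 / (2 * C1) := Real.sq_sqrt (by positivity)
    rw [h2] at h1
    calc C1 * s ^ 2 ≤ C1 * (v * r ^ 2 / (2 * C1)) := mul_le_mul_of_nonneg_left h1 hC1.le
      _ = v * r ^ 2 / 2 := by field_simp
  have hgood0 : ∀ p ∈ Ports n d, p ∉ Bd → qk κs p s ω z ≤ v := by
    intro p hp hpB
    have h1 : Vp rs p s ω z ≤ C1 * s ^ 2 + δ := by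
      by_contra hcon
      apply hpB
      rw [hBd, Finset.mem_filter]
      exact ⟨hp, η, hη1, hη2, not_le.1 hcon⟩
    have h2 := qk_le_Vp (mem_Ports.1 hp) s ω hzpos hcpos hc1 hcz hmz hrpos (min_le_left _ _) hr2
      (rs := rs)
    refine h2.trans ?_
    rw [div_le_iff₀ (by positivity)]
    have h3 : δ ≤ v * r ^ 2 / 2 := min_le_left _ _
    linarith
  set q : ℕ → Equiv.Perm (HE n d) → ℝ := fun j p => qk (lev j).1 p s ω z with hq
  set e : ℝ := Cm / K0 + Tree798.CT d 2 / (n * d) with he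
  have he0 : 0 ≤ e := by positivity
  have hit := iterate (Ports n d) Bd (Finset.filter_subset _ _) q hC0.le hCv
    (fun j p => qk_nonneg _ p s ω z) (fun j p => qk_le_one _ p s ω z)
    (fun j p hp hpB => (qk_anti (lev j).2 (lev_le j) p s ω z).trans (hgood0 p hp hpB))
    hBdcard J (fun j hj => by
      have h1 := one_step (n := n) (d := d) hd hn1 (s := s) (η := η) (E := E) (ω := ω)
        (κ := (lev j).1) (κ' := κ' (lev j).1 (lev j).2) (C0 := C0) (C := C (lev j).1 (lev j).2)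
        (fun p hp h0 hTL => H (lev j).1 (lev j).2 n hn1 E s η hEd hs'' hη hη2 ω hω p hp h0 hTL)
        hC0.le (by have := (hC (lev j).1 (lev j).2).le; positivity)
      have h2 : ∑ p ∈ Ports n d, q (j + 1) p ≤
          ∑ p ∈ Ports n d, qk (κ' (lev j).1 (lev j).2) p s ω z := by
        refine Finset.sum_le_sum fun p _ => ?_
        exact qk_anti (lev (j + 1)).2 (by rw [lev_succ]; exact min_le_left _ _) p s ω z
      refine h2.trans (h1.trans ?_)
      have h3 : C (lev j).1 (lev j).2 / (n * η) ≤ Cm / K0 := by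
        have h4 : C (lev j).1 (lev j).2 ≤ Cm :=
          Finset.single_le_sum (f := fun j => C (lev j).1 (lev j).2)
            (fun i _ => (hC _ _).le) (Finset.mem_range.2 hj)
        have h5 : K0 ≤ n * η := by
          rw [div_le_iff₀ hn0] at hη1
          linarith
        exact div_le_div₀ hCm0 h4 hK0pos h5
      have h6 : (C (lev j).1 (lev j).2 / (n * η) + Tree798.CT d 2 / (n * d)) *
          ((Ports n d).card : ℝ) ≤ e * (Ports n d).card :=
        mul_le_mul_of_nonneg_right (by rw [he]; linarith) (Nat.cast_nonneg _)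
      linarith) he0 hδ0.le
  -- numerics
  have e1 : C0 * δ ≤ ε / 16 := by
    have : δ ≤ ε / (16 * C0) := min_le_right _ _
    calc C0 * δ ≤ C0 * (ε / (16 * C0)) := mul_le_mul_of_nonneg_left this hC0.le
      _ = ε / 16 := by field_simp
  have e2 : Cm / K0 ≤ ε / 16 := by
    have h1 : 16 * Cm / ε ≤ K0 := le_max_right _ _
    rw [div_le_iff₀ hε] at h1
    rw [div_le_iff₀ hK0pos]
    linarith
  have e3 : Tree798.CT d 2 / (n * d) ≤ ε / 16 := by
    have h1 : (NC : ℝ) ≤ n := by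
      have : NC ≤ n := le_trans (Nat.le_succ NC) (le_trans (le_max_right _ _) hn)
      exact_mod_cast this
    have h2 := hNC.trans h1
    rw [div_le_iff₀ hε] at h2
    rw [div_le_iff₀ (by positivity)]
    have h3 : (n : ℝ) * 1 ≤ n * d := mul_le_mul_of_nonneg_left (by linarith only [hd3]) hn0.le
    have h4 : ε / 16 * ((n : ℝ) * 1) ≤ ε / 16 * (n * d) :=
      mul_le_mul_of_nonneg_left h3 (by positivity)
    linarith only [h2, h4]
  have e4 : (1 / 4 : ℝ) ^ J + 2 * (C0 * δ + e) ≤ ε := by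
    rw [he]
    linarith only [e1, e2, e3, hJ, hε]
  have e5 : ∑ p ∈ Ports n d, q J p ≤ ε * (Ports n d).card :=
    hit.trans (mul_le_mul_of_nonneg_right e4 (Nat.cast_nonneg _))
  have hnd : (0 : ℝ) < n * d := by positivity
  have e6 : ∀ p : Equiv.Perm (HE n d), ((Finset.univ.filter fun h : HE n d =>
      ¬ Off522.Fine (lev J).1 (BE p s ω (ze E η) h)).card : ℝ) = (n * d) * q J p := by
    intro p
    simp only [hq]
    rw [qk_eq, IsPort.card_HE, ← Finset.sum_filter, Finset.sum_const, nsmul_eq_mul, mul_one]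
    push_cast
    rw [mul_div_cancel₀ _ hnd.ne']
  calc ∑ p ∈ Ports n d, ((Finset.univ.filter fun h : HE n d =>
        ¬ Off522.Fine (lev J).1 (BE p s ω (ze E η) h)).card : ℝ)
      = ∑ p ∈ Ports n d, (n * d : ℝ) * q J p := Finset.sum_congr rfl fun p _ => e6 p
    _ = (n * d : ℝ) * ∑ p ∈ Ports n d, q J p := by rw [Finset.mul_sum]
    _ ≤ (n * d : ℝ) * (ε * (Ports n d).card) := mul_le_mul_of_nonneg_left e5 hnd.le
    _ = ε * (n * d) * (Ports n d).card := by ring

end Crest.Agent.R166.F1From420
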