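import Crest.Agent.R166.Spec30_395
import Crest.Agent.R166.ObsB_269
import Crest.Agent.R166.H4_269
import Crest.Agent.R166.Root_355

/-!
# Row 166, section 30.4 (helper395): comparison of the cut-off observable with the coordinate `u`

* `adm_of` : `TreeDet350.Adm (d-1) (y00 d A) z (mc d z)` for `z = ze E η`, `|E| ≤ A`, `0 < η ≤ 1`;
* `muA_sub` : `|muA (rs/2) m B - (1-m²) u(B₀₀)| ≤ CM · dv²`;
* `mup_sub` : `|mup - (1-m²) avc yP| ≤ CM · Vp`.
-/

set_option autoImplicit false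

open Matrix Finset

namespace Crest.Agent.R166.MuU395

open Crest.Agent.R166 Stab269 Shape395 TreeDet350 Rev811

/-- lower bound of `Im m` for `|E| ≤ A`, `0 < η ≤ 1` -/
noncomputable def y00 (d : ℕ) (A : ℝ) : ℝ := (1 - A ^ 2 / (4 * ((d : ℝ) - 1))) / d

theorem y00_pos {d : ℕ} (hd : 2 ≤ d) {A : ℝ} (hA : A ^ 2 < 4 * ((d : ℝ) - 1)) : 0 < y00 d A := by
  have hd' : (2 : ℝ) ≤ d := by exact_mod_cast hd
  unfold y00
  have h1 : A ^ 2 / (4 * ((d : ℝ) - 1)) < 1 := by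
    rw [div_lt_one (by linarith)]
    exact hA
  have : 0 < 1 - A ^ 2 / (4 * ((d : ℝ) - 1)) := by linarith
  positivity

theorem adm_of {d : ℕ} (hd : 3 ≤ d) {A E η : ℝ} (hA : A ^ 2 < 4 * ((d : ℝ) - 1)) (hE : |E| ≤ A)
    (hη : 0 < η) (hη1 : η ≤ 1) :
    Adm (d - 1) (y00 d A) (ze E η) (mc d (ze E η)) := by
  have hd' : (3 : ℝ) ≤ d := by exact_mod_cast hd
  have hzi : (ze E η).im = η := by simp [ze]
  have hzr : (ze E η).re = E := by simp [ze]
  have hz : 0 < (ze E η).im := by rw [hzi]; exact hη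
  have hr := Root355.mc_isRoot (by omega : 2 ≤ d) hz
  have hcast : ((d - 1 : ℕ) : ℂ) = (((d : ℝ) - 1 : ℝ) : ℂ) := by
    rw [Nat.cast_sub (by omega)]
    push_cast
    rfl
  refine ⟨by omega, y00_pos (by omega) hA, hz.le, ?_, ?_⟩
  · rw [hcast]
    exact hr.eq
  · have h1 := hr.im_ge (by linarith) hz.le
    rw [hzi, hzr] at h1
    refine le_trans ?_ h1
    unfold y00
    have hE2 : E ^ 2 ≤ A ^ 2 := by
      rw [← sq_abs E]
      exact pow_le_pow_left₀ (abs_nonneg _) hE 2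
    have h2 : E ^ 2 / (4 * ((d : ℝ) - 1)) ≤ A ^ 2 / (4 * ((d : ℝ) - 1)) :=
      div_le_div_of_nonneg_right hE2 (by linarith)
    have h3 : A ^ 2 / (4 * ((d : ℝ) - 1)) < 1 := by
      rw [div_lt_one (by linarith)]
      exact hA
    exact div_le_div₀ (by linarith) (by linarith) (by linarith) (by linarith)

/-- the imaginary parts of the diagonal entries of the cavity block are positive -/
theorem im_B0_pos {n d : ℕ} {p : Equiv.Perm (HE n d)} (hp : IsPort p) (s : ℝ) (ω : Fin n → ℝ)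
    {z : ℂ} (hz : 0 < z.im) (h : HE n d) (i : Fin 2) : 0 < (B0 p s ω z h i i).im := by
  have h0 := sieg_BE hp s ω hz h
  have hS : Res598.Siegel (BE p s ω z h) := Dec598.siegel_iff.2 h0
  have h1 : Res598.Siegel (Dec598.B0 (BE p s ω z h)) := Dec598.siegel_B0 hS
  have h2 : Dec598.B0 (BE p s ω z h) = B0 p s ω z h := by
    have hinv := Res598.mob_inv hS Dec598.neg_Wm_symm
    have hu := h1.isUnit
    have h3 : Dec598.B0 (BE p s ω z h) = (Dec598.B0 (BE p s ω z h))⁻¹⁻¹ :=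
      (Matrix.nonsing_inv_nonsing_inv _ hu).symm
    rw [h3]
    unfold Dec598.B0
    rw [hinv]
    unfold B0 cavB
    congr 1
    rw [sub_eq_add_neg]
    congr 1
    ext a b
    fin_cases a <;> fin_cases b <;> simp [Dec598.Wm, W2, Res598.cx]
  rw [← h2]
  exact h1.pos.diag_pos

/-- constant -/
noncomputable def CM (y0 rs : ℝ) : ℝ := 1 / y0 ^ 2 + (rs + 3 / 2 * BB y0) / (rs / 2) ^ 2

theorem CM_nonneg {y0 rs : ℝ} (hy : 0 < y0) (hrs : 0 < rs) : 0 ≤ CM y0 rs := by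
  unfold CM
  have := BB_pos hy
  positivity

theorem muA_sub {b : ℕ} {y0 : ℝ} {z m : ℂ} (h : Adm b y0 z m) {rs : ℝ} (hrs : 0 < rs)
    {B : Matrix (Fin 2) (Fin 2) ℂ} (hB : 0 ≤ (B 0 0).im) :
    ‖muA (rs / 2) m B - (1 - m ^ 2) * uu m (B 0 0)‖ ≤ CM y0 rs * dv rs m B ^ 2 := by
  have hy := h.hy
  have hBB := BB_pos hy
  have hr : 0 < rs / 2 := by linarith
  have hd0 : 0 ≤ dv rs m B := dv_nonneg hrs.le
  by_cases hb : bnorm (B - m • (1 : Matrix (Fin 2) (Fin 2) ℂ)) ≤ rs / 2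
  · have h1 : chiB (rs / 2) m B = 1 := chiB_eq_one hr hb
    have h2 : dv rs m B = bnorm (B - m • (1 : Matrix (Fin 2) (Fin 2) ℂ)) := by
      unfold dv
      exact min_eq_right (by linarith)
    have h3 : ‖B 0 0 - m‖ ≤ dv rs m B := by
      rw [h2]
      exact entry_sub_le_bnorm m B
    have hne := h.one_sub_ne hB
    have h4 : muA (rs / 2) m B - (1 - m ^ 2) * uu m (B 0 0) =
        -(m * (B 0 0 - m) ^ 2 / (1 - m * B 0 0)) := by
      unfold muA uu
      rw [h1]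
      generalize B 0 0 = x at hne
      have hq : (1 - m * x) * (1 - m * x)⁻¹ = 1 := mul_inv_cancel₀ hne
      rw [div_eq_mul_inv, div_eq_mul_inv]
      push_cast
      linear_combination (-(x - m)) * hq
    rw [h4, norm_neg, norm_div, norm_mul, norm_pow]
    have h5 := den_ge'' h hB
    have h6 : 0 < y0 ^ 2 := pow_pos hy 2
    have h7 : ‖m‖ ≤ 1 := h.norm_le.trans (by norm_num)
    have h8 : ‖B 0 0 - m‖ ^ 2 ≤ dv rs m B ^ 2 := pow_le_pow_left₀ (norm_nonneg _) h3 2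
    have h9 : ‖m‖ * ‖B 0 0 - m‖ ^ 2 ≤ 1 * dv rs m B ^ 2 :=
      mul_le_mul h7 h8 (sq_nonneg _) zero_le_one
    have h10 : ‖m‖ * ‖B 0 0 - m‖ ^ 2 / ‖1 - m * B 0 0‖ ≤ 1 * dv rs m B ^ 2 / y0 ^ 2 :=
      div_le_div₀ (by positivity) h9 h6 h5
    refine h10.trans ?_
    unfold CM
    rw [add_mul]
    have h11 : 0 ≤ (rs + 3 / 2 * BB y0) / (rs / 2) ^ 2 * dv rs m B ^ 2 := by positivity
    have h12 : 1 * dv rs m B ^ 2 / y0 ^ 2 = 1 / y0 ^ 2 * dv rs m B ^ 2 := by ring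
    linarith
  · push Not at hb
    unfold CM
    set K := rs + 3 / 2 * BB y0 with hK
    have hK0 : 0 ≤ K := by rw [hK]; positivity
    have h1 : rs / 2 ≤ dv rs m B := by
      unfold dv
      exact le_min (by linarith) hb.le
    have h2 : ‖muA (rs / 2) m B‖ ≤ rs := by
      have := muA_le hr m B
      linarith
    have h3 : ‖(1 - m ^ 2) * uu m (B 0 0)‖ ≤ 3 / 2 * BB y0 := by
      rw [norm_mul]
      exact mul_le_mul h.norm_a_le (h.norm_uu_le hB) (norm_nonneg _) (by norm_num)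
    have h4 : ‖muA (rs / 2) m B - (1 - m ^ 2) * uu m (B 0 0)‖ ≤ K :=
      (norm_sub_le _ _).trans (by rw [hK]; linarith)
    have h5 : (rs / 2) ^ 2 ≤ dv rs m B ^ 2 := pow_le_pow_left₀ hr.le h1 2
    have h6 : K ≤ K / (rs / 2) ^ 2 * dv rs m B ^ 2 := by
      rw [div_mul_eq_mul_div, le_div_iff₀ (by positivity)]
      exact mul_le_mul_of_nonneg_left h5 hK0
    rw [add_mul]
    have h7 : 0 ≤ 1 / y0 ^ 2 * dv rs m B ^ 2 := by positivity
    linarith

section port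

variable {n d : ℕ}

theorem dv_eq (rs : ℝ) (p : Equiv.Perm (HE n d)) (s : ℝ) (ω : Fin n → ℝ) (z : ℂ) (h : HE n d) :
    SpecA.Dv rs p s ω z h = dv rs (mc d z) (B0 p s ω z h) := rfl

/-- `Vp` as an average over half-edges -/
theorem Vp_av1 (rs : ℝ) (p : Equiv.Perm (HE n d)) (s : ℝ) (ω : Fin n → ℝ) (z : ℂ) :
    SpecA.Vp rs p s ω z = av1 fun h => SpecA.Dv rs p s ω z h ^ 2 := by
  unfold SpecA.Vp av1
  rw [Rev811.card_HE_real]
  push_cast
  rfl

/-- `mup` as an average over half-edges -/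
theorem mup_avc (rs : ℝ) (p : Equiv.Perm (HE n d)) (s : ℝ) (ω : Fin n → ℝ) (z : ℂ) :
    SpecA.mup rs p s ω z = avc fun h => muA (rs / 2) (mc d z) (B0 p s ω z h) := by
  rw [H4.mup_eq]
  unfold mub avc
  have : (Fintype.card (HE n d) : ℂ) = n * d := by
    rw [IsPort.card_HE]
    push_cast
    rfl
  rw [this]

theorem norm_avc_le' {Ω : Type*} [Fintype Ω] (f : Ω → ℂ) : ‖avc f‖ ≤ av1 fun x => ‖f x‖ := by
  unfold avc av1
  rw [norm_div, Complex.norm_natCast]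
  exact div_le_div_of_nonneg_right (norm_sum_le _ _) (Nat.cast_nonneg _)

theorem avc_sub' {Ω : Type*} [Fintype Ω] (f g : Ω → ℂ) :
    avc f - avc g = avc fun x => f x - g x := by
  unfold avc
  rw [Finset.sum_sub_distrib, sub_div]

theorem avc_const_mul' {Ω : Type*} [Fintype Ω] (c : ℂ) (f : Ω → ℂ) :
    avc (fun x => c * f x) = c * avc f := by
  unfold avc
  rw [← Finset.mul_sum, mul_div_assoc]

theorem mup_sub {b : ℕ} {y0 : ℝ} {z : ℂ} (h : Adm b y0 z (mc d z)) (hz : 0 < z.im) {rs : ℝ}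
    (hrs : 0 < rs) {p : Equiv.Perm (HE n d)} (hp : IsPort p) (s : ℝ) (ω : Fin n → ℝ) :
    ‖SpecA.mup rs p s ω z - (1 - mc d z ^ 2) * avc (Spec30.yP p s ω z)‖ ≤
      CM y0 rs * SpecA.Vp rs p s ω z := by
  rw [mup_avc, Vp_av1, ← avc_const_mul', avc_sub', ← av1_const_mul]
  refine (norm_avc_le' _).trans (av1_mono fun x => ?_)
  exact muA_sub h hrs (im_B0_pos hp s ω hz x 0).le

end port

end Crest.Agent.R166.MuU395
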