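import Crest.Agent.R166.SpecA_598
import Crest.Agent.R166.OffDet_522

/-!
# Row 166, section 32 (graph half): interface Props F1, F2, F3 (helper798)

Port form, first moments, every fixed `ω` in the cube, uniform in `E`, `s` and `η`.
* `F1P` : most blocks `BE` are `κ`-fine (helper522);
* `F2P` : the off-diagonal entries of the cavity blocks tend to 0 (helper63);
* `F3P` : the blocks at two scales agree (helper798).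
-/

set_option autoImplicit false

namespace Crest.Agent.R166.SpecF3

open Crest.Agent.R166 Stab269

open Classical in
/-- most blocks are `κ`-fine, at all scales `[K0/n, 1]` -/
def F1P (d : ℕ) (A s0 : ℝ) : Prop :=
  ∀ ε : ℝ, 0 < ε → ∃ κ : ℝ, 0 < κ ∧ ∃ K0 : ℝ, 0 < K0 ∧ ∃ N : ℕ, ∀ n : ℕ, N ≤ n →
    ∀ E s η : ℝ, |E| ≤ A → |s| ≤ s0 → K0 / n ≤ η → η ≤ 1 → ∀ ω : Fin n → ℝ, (∀ v, |ω v| ≤ 1) →
      ∑ p ∈ Ports n d,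
        ((Finset.univ.filter fun h : HE n d => ¬ Off522.Fine κ (BE p s ω (ze E η) h)).card : ℝ) ≤
          ε * (n * d) * (Ports n d).card

/-- the off-diagonal entries of the cavity blocks are small -/
def F2P (d : ℕ) (A s0 : ℝ) : Prop :=
  ∀ ε : ℝ, 0 < ε → ∃ η1 : ℝ, 0 < η1 ∧ ∃ K0 : ℝ, 0 < K0 ∧ ∃ N : ℕ, ∀ n : ℕ, N ≤ n →
    ∀ E s η : ℝ, |E| ≤ A → |s| ≤ s0 → K0 / n ≤ η → η ≤ η1 → ∀ ω : Fin n → ℝ, (∀ v, |ω v| ≤ 1) →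
      ∑ p ∈ Ports n d, ∑ h : HE n d, min 1 (‖B0 p s ω (ze E η) h 0 1‖ ^ 2) ≤
          ε * (n * d) * (Ports n d).card

/-- the blocks at two scales agree -/
def F3P (d : ℕ) (A s0 : ℝ) : Prop :=
  ∀ ε : ℝ, 0 < ε → ∃ η1 : ℝ, 0 < η1 ∧ ∃ K0 : ℝ, 0 < K0 ∧ ∃ N : ℕ, ∀ n : ℕ, N ≤ n →
    ∀ E s η η' : ℝ, |E| ≤ A → |s| ≤ s0 → K0 / n ≤ η → η ≤ η1 → K0 / n ≤ η' → η' ≤ η1 →
      ∀ ω : Fin n → ℝ, (∀ v, |ω v| ≤ 1) →
      ∑ p ∈ Ports n d, ∑ h : HE n d,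
          min 1 (bnorm (BE p s ω (ze E η) h - BE p s ω (ze E η') h)) ≤
          ε * (n * d) * (Ports n d).card

/-- for every `A < 2 √(d-1)` there is an admissible strength -/
def F1 (d : ℕ) : Prop :=
  ∀ A : ℝ, 0 < A → A ^ 2 < 4 * ((d : ℝ) - 1) → ∃ s0 : ℝ, 0 < s0 ∧ F1P d A s0

def F2 (d : ℕ) : Prop :=
  ∀ A : ℝ, 0 < A → A ^ 2 < 4 * ((d : ℝ) - 1) → ∃ s0 : ℝ, 0 < s0 ∧ F2P d A s0

def F3 (d : ℕ) : Prop :=
  ∀ A : ℝ, 0 < A → A ^ 2 < 4 * ((d : ℝ) - 1) → ∃ s0 : ℝ, 0 < s0 ∧ F3P d A s0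

/-- F3 from F1, F2 and Theorem A (helper798) -/
def F3From (d : ℕ) : Prop := 3 ≤ d → F1 d → F2 d → SpecA.ThmA d → F3 d

/-- LocLim from F3 (helper798) -/
def LocFrom (d : ℕ) : Prop :=
  ∀ A s0 : ℝ, F3P d A s0 → ∀ E s : ℝ, |E| ≤ A → |s| ≤ s0 → LocLim d s E

end Crest.Agent.R166.SpecF3
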