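import Crest.Agent.R166.F2c_63
import Crest.Agent.R166.SpecF3_798
import Crest.Agent.R166.MuU_395

/-!
# Row 166, section 32: the off-diagonal entries of the cavity blocks tend to 0 (helper63)

`f2 : 3 ≤ d → SpecF3.F1 d → SpecA.ThmA d → SpecF3.F2 d`.
-/

set_option autoImplicit false
set_option linter.unusedSectionVars false

open Matrix Finset

namespace Crest.Agent.R166.F263

open Crest.Agent.R166 Crest.Agent.R166.Res598 Crest.Agent.R166.Dec598
open Crest.Agent.R166.TwoPort522 Crest.Agent.R166.Off522 Crest.Agent.R166.Stab269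
open Crest.Agent.R166.Sec269

/-! ### entries of a cavity block -/

section entries

variable {ι : Type*} [Fintype ι] [DecidableEq ι]

lemma star_single (j : ι) :
    star (Pi.single j (1 : ℂ) : ι → ℂ) = (Pi.single j 1 : ι → ℂ) := by
  funext i
  by_cases h : i = j
  · subst h; simp
  · simp [h]

lemma l2_single (j : ι) : l2 (Pi.single j (1 : ℂ)) = 1 := by
  unfold l2
  have : ∑ i, ‖(Pi.single j (1 : ℂ) : ι → ℂ) i‖ ^ 2 = 1 := by
    rw [Finset.sum_eq_single j]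
    · simp
    · intro b _ hb; simp [Pi.single_eq_of_ne hb]
    · simp
  rw [this, Real.sqrt_one]

theorem norm_mob_le {κ : ℝ} {Z : Matrix ι ι ℂ} (h : Fine κ Z) {V : Matrix ι ι ℝ} (hV : Vᵀ = V)
    (i j : ι) : ‖mob V Z i j‖ ≤ (Fintype.card ι) ^ 2 / κ ^ 3 := by
  have hκ := h.pos
  have hZ := h.siegel
  set w : ι → ℂ := (1 + cx V * Z)⁻¹ *ᵥ Pi.single j 1 with hw
  have e1 : ∀ i, mob V Z i j = Pi.single i 1 ⬝ᵥ (Z *ᵥ w) := by
    intro i
    rw [hw, Matrix.mulVec_mulVec, single_one_dotProduct]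
    change _ = (mob V Z *ᵥ Pi.single j 1) i
    rw [Matrix.mulVec_single_one]
    rfl
  have hs : Real.sqrt (Fintype.card ι) * Real.sqrt (Fintype.card ι) = Fintype.card ι :=
    Real.mul_self_sqrt (Nat.cast_nonneg _)
  have b1 : ∀ i, ‖mob V Z i j‖ ≤ κ⁻¹ * Fintype.card ι * l2 w := by
    intro i
    rw [e1 i]
    have := norm_form_le (inv_nonneg.2 hκ.le) h.le (Pi.single i 1) w
    rw [hs, l2_single, one_mul] at this
    exact this
  have b2 : κ * l2 w ^ 2 ≤ κ⁻¹ * Fintype.card ι * l2 w := by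
    have h1 := h.im w
    rw [← l2_sq] at h1
    have h2 := qf_mob hZ hV (Pi.single j 1)
    rw [← hw] at h2
    have h3 := im_form (mob_symm hZ hV) (Pi.single j 1)
    rw [star_single, single_one_dotProduct, Matrix.mulVec_single_one] at h3
    have h4 : (mob V Z j j).im = qf (imM (mob V Z)) (Pi.single j 1) := h3
    calc κ * l2 w ^ 2 ≤ qf (imM Z) w := h1
      _ = (mob V Z j j).im := by rw [h4, h2]
      _ ≤ ‖mob V Z j j‖ := Complex.im_le_norm _
      _ ≤ _ := b1 j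
  have b3 : l2 w ≤ Fintype.card ι / κ ^ 2 := by
    by_cases h0 : l2 w = 0
    · rw [h0]; positivity
    · have hpos : 0 < l2 w := lt_of_le_of_ne (l2_nonneg _) (Ne.symm h0)
      have : κ * l2 w ≤ κ⁻¹ * Fintype.card ι := by
        have : κ * l2 w * l2 w ≤ κ⁻¹ * Fintype.card ι * l2 w := by nlinarith
        exact le_of_mul_le_mul_right this hpos
      rw [le_div_iff₀ (by positivity)]
      calc l2 w * κ ^ 2 = κ * (κ * l2 w) := by ring
        _ ≤ κ * (κ⁻¹ * Fintype.card ι) := mul_le_mul_of_nonneg_left this hκ.le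
        _ = Fintype.card ι := by field_simp
  calc ‖mob V Z i j‖ ≤ κ⁻¹ * Fintype.card ι * l2 w := b1 i
    _ ≤ κ⁻¹ * Fintype.card ι * (Fintype.card ι / κ ^ 2) :=
        mul_le_mul_of_nonneg_left b3 (by positivity)
    _ = _ := by field_simp

end entries

theorem norm_cavB_le {κ : ℝ} {B : Matrix (Fin 2) (Fin 2) ℂ} (h : Fine κ B) (i j : Fin 2) :
    ‖cavB B i j‖ ≤ 4 / κ ^ 3 := by
  rw [cavB_eq_mob h.siegel]
  have := norm_mob_le h (V := -W2r) (by rw [Matrix.transpose_neg, W2r_symm]) i j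
  refine this.trans (le_of_eq ?_)
  norm_num

variable {n d : ℕ}

/-- off-diagonal entry of a fine edge through the gain -/
lemma off_le_tM {p : Equiv.Perm (HE n d)} (hp : IsPort p) (s : ℝ) (ω : Fin n → ℝ) {z : ℂ}
    (hz : 0 < z.im) {κ : ℝ} {h : HE n d} (hf : Fine κ (BE p s ω z h)) :
    ‖B0 p s ω z h 0 1‖ ^ 2 ≤ 8 * (1 + 4 / κ ^ 3) ^ 4 * tM p s ω z h := by
  have hκ := hf.pos
  have hM : (1 : ℝ) ≤ 1 + 4 / κ ^ 3 := by
    have : 0 ≤ 4 / κ ^ 3 := by positivity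
    linarith
  have hb : ∀ i j, ‖B0 p s ω z h i j‖ ≤ 1 + 4 / κ ^ 3 := fun i j =>
    (norm_cavB_le hf i j).trans (by linarith)
  exact off_le_tau (sg_of_siegel (siegel_B0 hp s ω hz h)) hM (hb 0 0) (hb 1 1) (hb 0 1)

/-- the gain through the deviation from the clean block -/
lemma tM_le_Dv {p : Equiv.Perm (HE n d)} (hp : IsPort p) (s : ℝ) (ω : Fin n → ℝ) {z : ℂ}
    (hz : 0 < z.im) {rs r : ℝ} (hr : 0 < r) (hrs : r ≤ rs) (hm : 4 * r ≤ (mc d z).im)
    (h : HE n d) : tM p s ω z h ≤ SpecA.Dv rs p s ω z h ^ 2 / r ^ 2 := by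
  have hS := siegel_B0 hp s ω hz h
  by_cases hdev : SpecA.dev p s ω z h ≤ r
  · have hDv : SpecA.Dv rs p s ω z h = SpecA.dev p s ω z h := by
      rw [SpecA.Dv, min_eq_right (hdev.trans hrs)]
    rw [hDv]
    set m := mc d z with hmdef
    set B := B0 p s ω z h with hB
    have hent : ∀ i j, ‖(B - m • (1 : Matrix (Fin 2) (Fin 2) ℂ)) i j‖ ≤ SpecA.dev p s ω z h :=
      fun i j => entry_le_bnorm _ i j
    have h00 := hent 0 0
    have h11 := hent 1 1
    have h01 := hent 0 1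
    simp only [Matrix.sub_apply, Matrix.smul_apply, Matrix.one_apply_eq, smul_eq_mul,
      mul_one] at h00 h11
    have h01' : ‖B 0 1‖ ≤ SpecA.dev p s ω z h := by
      simpa using h01
    have a1 : 3 * r ≤ (B 0 0).im := by
      have := (Complex.abs_im_le_norm (B 0 0 - m)).trans (h00.trans hdev)
      rw [Complex.sub_im, abs_le] at this
      linarith
    have a2 : 3 * r ≤ (B 1 1).im := by
      have := (Complex.abs_im_le_norm (B 1 1 - m)).trans (h11.trans hdev)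
      rw [Complex.sub_im, abs_le] at this
      linarith
    have a3 : (B 0 1).im ^ 2 ≤ r ^ 2 := by
      have := (Complex.abs_im_le_norm (B 0 1)).trans (h01'.trans hdev)
      rw [← sq_abs]
      exact pow_le_pow_left₀ (abs_nonneg _) this 2
    have hdet : 8 * r ^ 2 ≤ (B 0 0).im * (B 1 1).im - (B 0 1).im ^ 2 := by
      have : 3 * r * (3 * r) ≤ (B 0 0).im * (B 1 1).im :=
        mul_le_mul a1 a2 (by positivity) (by linarith)
      nlinarith
    have key := tau_le_off (sg_of_siegel hS)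
    have hdev0 : 0 ≤ SpecA.dev p s ω z h := bnorm_nonneg _
    calc tM p s ω z h ≤ ‖B 0 1‖ ^ 2 / (4 * ((B 0 0).im * (B 1 1).im - (B 0 1).im ^ 2)) := key
      _ ≤ SpecA.dev p s ω z h ^ 2 / r ^ 2 := by
          apply div_le_div₀ (by positivity) (pow_le_pow_left₀ (norm_nonneg _) h01' 2)
            (by positivity)
          nlinarith
  · have hDv : r ≤ SpecA.Dv rs p s ω z h := le_min hrs (not_le.1 hdev).le
    have h1 := tM_le_one hp s ω hz h
    refine h1.trans ?_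
    rw [le_div_iff₀ (by positivity), one_mul]
    exact pow_le_pow_left₀ hr.le hDv 2

lemma nuT_le_Vp {p : Equiv.Perm (HE n d)} (hp : IsPort p) (s : ℝ) (ω : Fin n → ℝ) {z : ℂ}
    (hz : 0 < z.im) {rs r : ℝ} (hr : 0 < r) (hrs : r ≤ rs) (hm : 4 * r ≤ (mc d z).im) :
    nuT p s ω z ≤ SpecA.Vp rs p s ω z / r ^ 2 := by
  rw [nuT_eq, SpecA.Vp]
  have h1 : ∑ h, tM p s ω z h ≤ (∑ h, SpecA.Dv rs p s ω z h ^ 2) / r ^ 2 := by
    rw [Finset.sum_div]
    exact Finset.sum_le_sum fun h _ => tM_le_Dv hp s ω hz hr hrs hm h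
  calc (∑ h, tM p s ω z h) / (n * d) ≤ (∑ h, SpecA.Dv rs p s ω z h ^ 2) / r ^ 2 / (n * d) :=
        div_le_div_of_nonneg_right h1 (by positivity)
    _ = _ := by push_cast; ring

/-! ### assembly -/

open Classical in
/-- **F2 for the gain** -/
theorem f2_tau {d : ℕ} (hd : 3 ≤ d) {A s1 : ℝ} (hA : A ^ 2 < 4 * ((d : ℝ) - 1))
    (hF : SpecF3.F1P d A s1) {rs C1 s0 r : ℝ} (hr : 0 < r) (hrs : r ≤ rs)
    (hry : 4 * r ≤ MuU395.y00 d A) (hC1 : 0 < C1)
    (hThm : ∀ δ : ℝ, 0 < δ → ∃ K0 : ℝ, 0 < K0 ∧ ∀ K : ℝ, K0 ≤ K → ∃ N : ℕ, ∀ n : ℕ, N ≤ n →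
        ∀ E s : ℝ, |E| ≤ A → |s| ≤ s0 → ∀ ω : Fin n → ℝ, (∀ v, |ω v| ≤ 1) →
          (((Ports n d).filter fun p => ∃ η : ℝ, K / n ≤ η ∧ η ≤ 1 ∧
            C1 * s ^ 2 + δ < SpecA.Vp rs p s ω (ze E η)).card : ℝ) ≤ δ * (Ports n d).card)
    {s2 : ℝ} (hs21 : s2 ≤ s1) (hs20 : s2 ≤ s0) (hs2 : C1 * s2 ^ 2 ≤ r ^ 2 / 4)
    {ε : ℝ} (hε : 0 < ε) (hε1 : ε ≤ 1) :
    ∃ K0 : ℝ, 0 < K0 ∧ ∃ N : ℕ, ∀ n : ℕ, N ≤ n →
      ∀ E s η : ℝ, |E| ≤ A → |s| ≤ s2 → K0 / n ≤ η → η ≤ 1 → ∀ ω : Fin n → ℝ, (∀ v, |ω v| ≤ 1) →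
        ∑ p ∈ Ports n d, nuT p s ω (ze E η) ≤ ε * (Ports n d).card := by
  set ε1 : ℝ := ε ^ 2 / 512 with hε1def
  have hε1pos : 0 < ε1 := by positivity
  obtain ⟨c, hc, Kc, hKc, Nc, hFc⟩ := hF ε1 hε1pos
  set δ : ℝ := c * (ε / 1152) with hδdef
  have hδ : 0 < δ := by positivity
  set δA : ℝ := min (r ^ 2 / 4) (ε / 8) with hδAdef
  have hδA : 0 < δA := by positivity
  obtain ⟨KA, hKA, hThmA⟩ := hThm δA hδA
  obtain ⟨NA, hNA⟩ := hThmA KA le_rfl
  have hdR : (3 : ℝ) ≤ d := by exact_mod_cast hd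
  set B : ℝ := 64 / (δ ^ 2 * c * ε) + 32 * (d + 2) / ε + 768 * 256 / (c * ε ^ 2) +
    32 * 256 / ε ^ 2 with hBdef
  have hB : 0 < B := by positivity
  refine ⟨max (max Kc KA) B, by positivity, max (max Nc NA) 1, ?_⟩
  intro n hn E s η hE hs hη hη1 ω hω
  have hn1 : 0 < n := lt_of_lt_of_le one_pos ((le_max_right _ _).trans hn)
  have hnc : Nc ≤ n := ((le_max_left _ _).trans (le_max_left _ _)).trans hn
  have hnA : NA ≤ n := ((le_max_right _ _).trans (le_max_left _ _)).trans hn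
  have hnR : (0 : ℝ) < n := by exact_mod_cast hn1
  have hηpos : 0 < η := lt_of_lt_of_le (by positivity) hη
  have hz : 0 < (ze E η).im := by simp [ze]; exact hηpos
  have hzim : (ze E η).im = η := by simp [ze]
  have hKn : max (max Kc KA) B ≤ n * η := by
    rw [div_le_iff₀ hnR] at hη; linarith [mul_comm η (n : ℝ)]
  have hBn : B ≤ n * η := (le_max_right _ _).trans hKn
  have hBn' : B ≤ n := hBn.trans (mul_le_of_le_one_right hnR.le hη1)
  have hkc : Kc / n ≤ η := by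
    rw [div_le_iff₀ hnR]
    have := ((le_max_left Kc KA).trans (le_max_left _ B)).trans hKn
    linarith [mul_comm η (n : ℝ)]
  have hka : KA / n ≤ η := by
    rw [div_le_iff₀ hnR]
    have := ((le_max_right Kc KA).trans (le_max_left _ B)).trans hKn
    linarith [mul_comm η (n : ℝ)]
  have hF1 := hFc n hnc E s η hE (hs.trans hs21) hkc hη1 ω hω
  have hF1' : ∑ p ∈ Ports n d, nfc c p s ω (ze E η) ≤ ε1 * (n * d) * (Ports n d).card := by
    unfold nfc
    convert hF1 using 3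
  -- bad port graphs
  have hadm := MuU395.adm_of hd hA hE hηpos hη1
  have hmy : 4 * r ≤ (mc d (ze E η)).im := hry.trans hadm.him
  have hq : (((Ports n d).filter fun p => 1 / 2 < nuT p s ω (ze E η)).card : ℝ) ≤
      δA * (Ports n d).card := by
    refine le_trans ?_ (hNA n hnA E s hE (hs.trans hs20) ω hω)
    have : ((Ports n d).filter fun p => 1 / 2 < nuT p s ω (ze E η)) ⊆
        ((Ports n d).filter fun p => ∃ η : ℝ, KA / n ≤ η ∧ η ≤ 1 ∧
            C1 * s ^ 2 + δA < SpecA.Vp rs p s ω (ze E η)) := by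
      intro p hp
      rw [Finset.mem_filter] at hp ⊢
      refine ⟨hp.1, η, hka, hη1, ?_⟩
      have h1 := nuT_le_Vp (mem_Ports.1 hp.1) s ω hz hr hrs hmy
      have h2 := lt_of_lt_of_le hp.2 h1
      rw [lt_div_iff₀ (by positivity)] at h2
      have h3 : s ^ 2 ≤ s2 ^ 2 := by
        rw [← sq_abs s]; exact pow_le_pow_left₀ (abs_nonneg _) hs 2
      have h4 : C1 * s ^ 2 ≤ r ^ 2 / 4 := (mul_le_mul_of_nonneg_left h3 hC1.le).trans hs2
      have h5 : δA ≤ r ^ 2 / 4 := min_le_left _ _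
      linarith
    exact_mod_cast Finset.card_le_card this
  have hsmall : δ * 4 / c ≤ 1 / 3 := by
    rw [hδdef, div_le_iff₀ hc]
    have : c * ε ≤ c * 1 := mul_le_mul_of_nonneg_left hε1 hc.le
    linarith
  have key := f2_core hn1 (by omega) s ω hz hc hδ hsmall hF1' hq
  refine key.trans (mul_le_mul_of_nonneg_right ?_ (Nat.cast_nonneg _))
  rw [hzim]
  -- numerical bounds
  have hnη : 0 < (n : ℝ) * η := by positivity
  have u1 : 64 / (δ ^ 2 * c * ε) ≤ n * η := by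
    refine le_trans ?_ hBn
    have : 0 ≤ 32 * ((d : ℝ) + 2) / ε + 768 * 256 / (c * ε ^ 2) + 32 * 256 / ε ^ 2 := by
      positivity
    rw [hBdef]; linarith
  have u2 : 32 * ((d : ℝ) + 2) / ε ≤ n := by
    refine le_trans ?_ hBn'
    have : 0 ≤ 64 / (δ ^ 2 * c * ε) + 768 * 256 / (c * ε ^ 2) + 32 * 256 / ε ^ 2 := by
      positivity
    rw [hBdef]; linarith
  have u3 : 768 * 256 / (c * ε ^ 2) ≤ n * η := by
    refine le_trans ?_ hBn
    have : 0 ≤ 64 / (δ ^ 2 * c * ε) + 32 * ((d : ℝ) + 2) / ε + 32 * 256 / ε ^ 2 := by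
      positivity
    rw [hBdef]; linarith
  have u4 : 32 * 256 / ε ^ 2 ≤ n := by
    refine le_trans ?_ hBn'
    have : 0 ≤ 64 / (δ ^ 2 * c * ε) + 32 * ((d : ℝ) + 2) / ε + 768 * 256 / (c * ε ^ 2) := by
      positivity
    rw [hBdef]; linarith
  have v0 : 72 * δ / c = ε / 16 := by
    rw [hδdef, div_eq_iff hc.ne']; ring
  have v1 : 4 / (δ ^ 2 * c * (n * η)) ≤ ε / 16 := by
    rw [div_le_iff₀ (by positivity)] at u1 ⊢
    linarith
  have v2 : 2 * ((d : ℝ) + 2) / n ≤ ε / 16 := by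
    rw [div_le_iff₀ (by positivity)] at u2 ⊢
    linarith
  have v3 : 384 / (c * (n * η)) ≤ ε ^ 2 / 512 := by
    rw [div_le_iff₀ (by positivity)] at u3 ⊢
    linarith
  have v5 : 16 / (n : ℝ) ≤ ε ^ 2 / 512 := by
    rw [div_le_iff₀ (by positivity)] at u4 ⊢
    linarith
  have v4 : 8 / ((n : ℝ) * d) ≤ ε ^ 2 / 512 := by
    refine le_trans ?_ v5
    apply div_le_div₀ (by norm_num) (by norm_num) hnR
    exact le_mul_of_one_le_right hnR.le (by linarith)
  have v6 : Real.sqrt (2 * (384 / (c * (n * η)) + 8 / (n * d) + ε1) + 2 * (16 / n)) ≤ ε / 8 := by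
    apply Real.sqrt_le_iff.2
    refine ⟨by positivity, ?_⟩
    have e64 : (ε / 8) ^ 2 = ε ^ 2 / 64 := by ring
    rw [hε1def, e64]
    linarith
  have v7 : δA ≤ ε / 8 := min_le_right _ _
  have v8 : ε1 ≤ ε / 512 := by
    rw [hε1def]
    have : ε ^ 2 ≤ ε := by rw [sq]; exact mul_le_of_le_one_right hε.le hε1
    linarith
  rw [v0]
  linarith

theorem f2 {d : ℕ} (hd : 3 ≤ d) (hF : SpecF3.F1 d) (hT : SpecA.ThmA d) : SpecF3.F2 d := by
  classical
  intro A hA0 hA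
  obtain ⟨s1, hs1, hF1⟩ := hF A hA0 hA
  obtain ⟨rs, C1, s0, hrs, hC1, hs0, hThm⟩ := hT A hA0 hA
  have hy := MuU395.y00_pos (d := d) (by omega) hA
  set r : ℝ := min rs (MuU395.y00 d A / 4) with hrdef
  have hr : 0 < r := by positivity
  have hr1 : r ≤ rs := min_le_left _ _
  have hr2 : 4 * r ≤ MuU395.y00 d A := by
    have : r ≤ MuU395.y00 d A / 4 := min_le_right _ _
    linarith
  set s2 : ℝ := min (min s1 s0) (r / (2 * (1 + C1))) with hs2def
  have hs2 : 0 < s2 := by positivity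
  have hs2r : s2 ≤ r / (2 * (1 + C1)) := min_le_right _ _
  have hs2C : C1 * s2 ^ 2 ≤ r ^ 2 / 4 := by
    have h1 : s2 ^ 2 ≤ (r / (2 * (1 + C1))) ^ 2 := pow_le_pow_left₀ hs2.le hs2r 2
    have h2 : C1 * (r / (2 * (1 + C1))) ^ 2 ≤ r ^ 2 / 4 := by
      rw [div_pow, mul_div_assoc', div_le_div_iff₀ (by positivity) (by norm_num)]
      have : C1 ≤ (1 + C1) ^ 2 := by nlinarith
      nlinarith [mul_le_mul_of_nonneg_right this (sq_nonneg r)]
    exact (mul_le_mul_of_nonneg_left h1 hC1.le).trans h2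
  refine ⟨s2, hs2, ?_⟩
  intro ε hε
  refine ⟨1, one_pos, ?_⟩
  obtain ⟨κ, hκ, Kκ, hKκ, Nκ, hFκ⟩ := hF1 (ε / 2) (by positivity)
  set M : ℝ := 8 * (1 + 4 / κ ^ 3) ^ 4 with hMdef
  have hM : 0 < M := by positivity
  set ε' : ℝ := min 1 (ε / (2 * M)) with hε'def
  have hε' : 0 < ε' := by positivity
  obtain ⟨K1, hK1, N1, hmain⟩ := f2_tau hd hA hF1 hr hr1 hr2 hC1 hThm
    ((min_le_left _ _).trans (min_le_left _ _) : s2 ≤ s1)
    ((min_le_left _ _).trans (min_le_right _ _) : s2 ≤ s0) hs2C hε' (min_le_left _ _)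
  refine ⟨max Kκ K1, by positivity, max (max Nκ N1) 1, ?_⟩
  intro n hn E s η hE hs hη hη1 ω hω
  have hn1 : 0 < n := lt_of_lt_of_le one_pos ((le_max_right _ _).trans hn)
  have hnR : (0 : ℝ) < n := by exact_mod_cast hn1
  have hdR : (3 : ℝ) ≤ d := by exact_mod_cast hd
  have hηpos : 0 < η := lt_of_lt_of_le (by positivity) hη
  have hz : 0 < (ze E η).im := by simp [ze]; exact hηpos
  have hk1 : Kκ / n ≤ η := (div_le_div_of_nonneg_right (le_max_left _ _) hnR.le).trans hη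
  have hk2 : K1 / n ≤ η := (div_le_div_of_nonneg_right (le_max_right _ _) hnR.le).trans hη
  have a1 := hFκ n (((le_max_left _ _).trans (le_max_left _ _)).trans hn) E s η hE
    (hs.trans ((min_le_left _ _).trans (min_le_left _ _))) hk1 hη1 ω hω
  have a2 := hmain n (((le_max_right _ _).trans (le_max_left _ _)).trans hn) E s η hE hs hk2
    hη1 ω hω
  have h1 : ∀ p ∈ Ports n d, ∑ h : HE n d, min 1 (‖B0 p s ω (ze E η) h 0 1‖ ^ 2) ≤
      M * ((n * d) * nuT p s ω (ze E η)) + nfc κ p s ω (ze E η) := by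
    intro p hp
    have hp' := mem_Ports.1 hp
    have e : (n * d : ℝ) * nuT p s ω (ze E η) = ∑ h, tM p s ω (ze E η) h := by
      rw [nuT_eq]; field_simp
    rw [e, nfc_eq, Finset.mul_sum, ← Finset.sum_add_distrib]
    refine Finset.sum_le_sum fun h _ => ?_
    by_cases hf : Fine κ (BE p s ω (ze E η) h)
    · rw [if_neg (not_not.2 hf), add_zero]
      exact (min_le_right _ _).trans (off_le_tM hp' s ω hz hf)
    · rw [if_pos hf]
      have := tM_nonneg hp' s ω hz h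
      have h2 : min 1 (‖B0 p s ω (ze E η) h 0 1‖ ^ 2) ≤ 1 := min_le_left _ _
      nlinarith [mul_nonneg hM.le this]
  refine (Finset.sum_le_sum h1).trans ?_
  rw [Finset.sum_add_distrib, ← Finset.mul_sum, ← Finset.mul_sum]
  have a1' : ∑ p ∈ Ports n d, nfc κ p s ω (ze E η) ≤ ε / 2 * (n * d) * (Ports n d).card := by
    unfold nfc
    convert a1 using 3
  have h3 : M * ((n * d : ℝ) * ∑ p ∈ Ports n d, nuT p s ω (ze E η)) ≤
      ε / 2 * (n * d) * (Ports n d).card := by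
    have h4 : M * ε' ≤ ε / 2 := by
      calc M * ε' ≤ M * (ε / (2 * M)) := mul_le_mul_of_nonneg_left (min_le_right _ _) hM.le
        _ = ε / 2 := by field_simp
    have hND : (0 : ℝ) ≤ n * d := by positivity
    have hP : (0 : ℝ) ≤ (Ports n d).card := Nat.cast_nonneg _
    calc M * ((n * d : ℝ) * ∑ p ∈ Ports n d, nuT p s ω (ze E η)) ≤
        M * ((n * d : ℝ) * (ε' * (Ports n d).card)) :=
          mul_le_mul_of_nonneg_left (mul_le_mul_of_nonneg_left a2 hND) hM.le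
      _ = M * ε' * ((n * d) * (Ports n d).card) := by ring
      _ ≤ ε / 2 * ((n * d) * (Ports n d).card) :=
          mul_le_mul_of_nonneg_right h4 (mul_nonneg hND hP)
      _ = _ := by ring
  calc _ ≤ ε / 2 * (n * d) * (Ports n d).card + ε / 2 * (n * d) * (Ports n d).card :=
        add_le_add h3 a1'
    _ = _ := by ring

end Crest.Agent.R166.F263
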