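import Crest.Agent.R166.FineStep_522

/-!
# Row 166, section 32 (graph half), helper522: the one-step estimate `F1Step`
-/

set_option autoImplicit false
set_option linter.unusedSectionVars false

open Matrix Finset

namespace Crest.Agent.R166.Fine522

open Crest.Agent.R166 Crest.Agent.R166.Stab269 Crest.Agent.R166.SwP470 Crest.Agent.R166.DecP789
open Crest.Agent.R166.Off522 Crest.Agent.R166.Rev811

variable {n d : ℕ} [NeZero d]

/-- bound of the total coupling on admissible events -/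
lemma cE_le_adm {ι : Type*} [Fintype ι] [DecidableEq ι] {S : Finset (Fin n)}
    {R : Matrix (Fin n) (Fin n) ℂ} {p : Equiv.Perm (HE n d)} {b : ι → HE n d} {A : Finset ι}
    {c ε : ℝ} (hc : 0 < c) (hε : 0 ≤ ε) {Bad : HE n d → Prop}
    (hadm : Adm Bad (CpW S R p ε) (PrW R p ε) A b) :
    cE S R p b A c ≤ (2 * Fintype.card ι / Real.sqrt c + (Fintype.card ι : ℝ) ^ 2 / c) * ε := by
  unfold cE
  have h1 : ∑ j ∈ Aᶜ, Real.sqrt (cpl (GA S p A b) R p (b j)) ≤ Fintype.card ι * ε := by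
    calc _ ≤ ∑ _j ∈ Aᶜ, ε := by
          refine Finset.sum_le_sum fun j hj => ?_
          have h2 := hadm.1 j (Finset.mem_compl.1 hj)
          unfold Wk CpW at h2
          push Not at h2
          exact Real.sqrt_le_iff.2 ⟨hε, h2.2⟩
      _ = (Aᶜ.card : ℝ) * ε := by rw [Finset.sum_const, nsmul_eq_mul]
      _ ≤ _ := mul_le_mul_of_nonneg_right (by exact_mod_cast Finset.card_le_univ _) hε
  have h2 : ∑ jk ∈ (Aᶜ).offDiag, Real.sqrt (cpl2 R p (b jk.1) (b jk.2)) ≤
      (Fintype.card ι : ℝ) ^ 2 * ε := by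
    calc _ ≤ ∑ _jk ∈ (Aᶜ).offDiag, ε := by
          refine Finset.sum_le_sum fun jk hjk => ?_
          obtain ⟨ha, hb, hne⟩ := Finset.mem_offDiag.1 hjk
          have h2 := hadm.2 jk.1 jk.2 (Finset.mem_compl.1 ha) (Finset.mem_compl.1 hb) hne
          unfold PrW at h2
          push Not at h2
          exact Real.sqrt_le_iff.2 ⟨hε, h2⟩
      _ = ((Aᶜ).offDiag.card : ℝ) * ε := by rw [Finset.sum_const, nsmul_eq_mul]
      _ ≤ _ := by
          apply mul_le_mul_of_nonneg_right _ hε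
          have h3 : (Aᶜ).offDiag.card ≤ Fintype.card ι * Fintype.card ι := by
            have := Finset.card_le_univ (Aᶜ).offDiag
            rwa [Fintype.card_prod] at this
          rw [sq]
          exact_mod_cast h3
  have hs : 0 < Real.sqrt c := Real.sqrt_pos.2 hc
  calc _ ≤ 2 * (Fintype.card ι * ε) / Real.sqrt c + (Fintype.card ι : ℝ) ^ 2 * ε / c := by
        gcongr
    _ = _ := by ring

lemma card_S2t_le (p : Equiv.Perm (HE n d)) (h0 : HE n d) :
    (S2t p h0).card ≤ Fintype.card (Bool × Option (NZ d)) + Fintype.card (BI d 2) :=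
  card_S0_le _ _ _

lemma norm_ze_le {E η : ℝ} (hE : |E| ≤ d) (hη : 0 < η) (hη1 : η ≤ 1) :
    ‖ze E η‖ ≤ (d : ℝ) + 1 := by
  unfold ze
  refine (norm_add_le _ _).trans (add_le_add ?_ ?_)
  · rw [Complex.norm_real]; exact hE
  · rw [norm_mul, Complex.norm_I, Complex.norm_real, one_mul, Real.norm_eq_abs, abs_of_pos hη]
    exact hη1

lemma pr_eq_card {ι Ω : Type*} [Fintype ι] [DecidableEq ι] [Fintype Ω] (P : (ι → Ω) → Prop)
    [DecidablePred P] :
    pr P = ((Finset.univ.filter P).card : ℝ) / Fintype.card (ι → Ω) := by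
  classical
  unfold pr av
  congr 1
  rw [Finset.card_filter]
  push_cast
  refine Finset.sum_congr rfl fun x _ => ?_
  split_ifs <;> rfl

lemma pr_le_one {ι Ω : Type*} [Fintype ι] [DecidableEq ι] [Fintype Ω] [Nonempty Ω]
    (P : (ι → Ω) → Prop) : pr P ≤ 1 := by
  rw [← pr_true (ι := ι) (Ω := Ω)]
  exact pr_mono fun _ _ => trivial

lemma im_le_of_fine {κ : ℝ} {s : ℝ} {ω : Fin n → ℝ} {z : ℂ} {p : Equiv.Perm (HE n d)} {h : HE n d}
    (hf : Fine κ (BE p s ω z h)) :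
    (Res789.Res (Hm (graphOf p) s ω) z h.1 h.1).im +
      (Res789.Res (Hm (graphOf p) s ω) z (p h).1 (p h).1).im ≤ 2 * κ⁻¹ := by
  have h0 := hf.le 0 0
  have h1 := hf.le 1 1
  have e0 : BE p s ω z h 0 0 = Res789.Res (Hm (graphOf p) s ω) z h.1 h.1 := rfl
  have e1 : BE p s ω z h 1 1 = Res789.Res (Hm (graphOf p) s ω) z (p h).1 (p h).1 := rfl
  rw [e0] at h0
  rw [e1] at h1
  have h2 := (le_abs_self _).trans (Complex.abs_im_le_norm
    (Res789.Res (Hm (graphOf p) s ω) z h.1 h.1))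
  have h3 := (le_abs_self _).trans (Complex.abs_im_le_norm
    (Res789.Res (Hm (graphOf p) s ω) z (p h).1 (p h).1))
  linarith

/-- **the one-step estimate of F1** -/
theorem f1Step (hd : 3 ≤ d) : SpecF1.F1Step d := by
  classical
  set N : ℝ := (Fintype.card (BI d 2) : ℝ) with hN
  have hN0 : 0 ≤ N := Nat.cast_nonneg _
  set NS : ℕ := Fintype.card (Bool × Option (NZ d)) + Fintype.card (BI d 2) with hNS
  refine ⟨4 * N ^ 3 + 1, by positivity, fun κ hκ => ⟨kap2 d κ, kap2_pos hκ, ?_⟩⟩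
  have hsκ : 0 < Real.sqrt κ := Real.sqrt_pos.2 hκ
  set D : ℝ := 2 * N / Real.sqrt κ + N ^ 2 / κ with hD
  have hD0 : 0 ≤ D := by positivity
  set ε : ℝ := 1 / (3 * (D + 1)) with hε
  have hε0 : 0 < ε := by positivity
  have hDε : D * ε ≤ 1 / 3 := by
    rw [hε, mul_one_div, div_le_iff₀ (by positivity)]
    linarith
  set CQ : ℝ := (2 * (NS + 2 : ℝ) + 2 * (2 * κ⁻¹)) / ε ^ 2 with hCQ
  have hκi : 0 < κ⁻¹ := inv_pos.2 hκ
  have hCQ0 : 0 < CQ := by positivity
  refine ⟨(4 * N ^ 3 + N ^ 2 + 1) * CQ + SwInv356.Cinv d 2, by positivity, ?_⟩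
  intro n hn E s η hE hs hη hη1 ω hω p hp h0 htl
  have hn0 : (0 : ℝ) < n := by exact_mod_cast hn
  have hd0 : 0 < d := by omega
  have hne : Nonempty (HE n d) := ⟨(⟨0, hn⟩, ⟨0, hd0⟩)⟩
  have hz : 0 < (ze E η).im := by simp [ze, hη]
  have hzim : (ze E η).im = η := by simp [ze]
  set R := Res789.Res (Hm (graphOf p) s ω) (ze E η) with hR
  set q : ℝ := CQ / (n * η) with hq
  have hnη : 0 < (n : ℝ) * η := by positivity
  have hq0 : 0 ≤ q := by positivity
  have HY : Hyp (ι := BI d 2) (fun h => ¬ Fine κ (BE p s ω (ze E η) h))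
      (CpW (S2t p h0) R p ε) (PrW R p ε) 1
      (pr1 fun h : HE n d => ¬ Fine κ (BE p s ω (ze E η) h)) q := by
    refine hyp_ward (Hm_symm _ s ω) hz hd0 p (S2t p h0) 1 hε0 _ (M := 2 * κ⁻¹) ?_ hq0 ?_ ?_
    · intro x hx
      exact im_le_of_fine (not_not.1 hx)
    · rw [hzim, hq, hCQ, div_div, mul_comm (ε ^ 2)]
      apply div_le_div_of_nonneg_right _ (by positivity)
      have h1 : ((S2t p h0).card : ℝ) ≤ NS := by
        rw [hNS]; exact_mod_cast card_S2t_le p h0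
      push_cast
      linarith
    · rw [hzim, hq, hCQ, div_div, mul_comm (ε ^ 2)]
      apply div_le_div_of_nonneg_right _ (by positivity)
      have : (0 : ℝ) ≤ NS := Nat.cast_nonneg _
      linarith
  have h1 := pr_not_adm_one (ι := BI d 2) le_rfl HY
  set P1 := pr1 fun h : HE n d => ¬ Fine κ (BE p s ω (ze E η) h) with hP1
  have hP10 : 0 ≤ P1 := pr1_nonneg _
  -- validity
  have h2 : pr (fun b : BI d 2 → HE n d => ¬ BVal 2 p h0 b) ≤ SwInv356.Cinv d 2 / n := by
    rw [pr_eq_card]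
    have h3 := SwInv356.card_inv_le hn hp htl
    have h4 : (0 : ℝ) < Fintype.card (BI d 2 → HE n d) := by
      exact_mod_cast Fintype.card_pos
    rw [div_le_iff₀ h4]
    convert h3
  -- the main inclusion
  have h3 : pr (fun b : BI d 2 → HE n d =>
      ¬ Fine (kap2 d κ) (BE (bsw 2 p (h0, b)).1 s ω (ze E η) h0)) ≤
      pr (fun b : BI d 2 → HE n d => ¬ BVal 2 p h0 b ∨
        ∀ A : Finset (BI d 2), A.card ≤ 1 → ¬ Adm (fun h => ¬ Fine κ (BE p s ω (ze E η) h))
          (CpW (S2t p h0) R p ε) (PrW R p ε) A b) := by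
    apply pr_mono
    intro b hb
    by_contra hcon
    push Not at hcon
    obtain ⟨hv, A, hA, hadm⟩ := hcon
    apply hb
    rw [bsw_pos (m := (h0, b)) hv]
    refine fine_det hd hp hv hs hω hz (norm_ze_le hE hη hη1) hA ?_ ?_
    · intro j hj
      have := hadm.1 j hj
      unfold Wk at this
      push Not at this
      exact this.1
    · refine (cE_le_adm hκ hε0.le hadm).trans ?_
      exact hDε
  have h4 := h3.trans (pr_or _ _)
  -- numerics
  have h5 : (SwInv356.Cinv d 2 : ℝ) / n ≤ SwInv356.Cinv d 2 / (n * η) := by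
    apply div_le_div_of_nonneg_left (Nat.cast_nonneg _) hnη
    nlinarith
  have h6 : ((4 * N ^ 3 + N ^ 2 + 1) * CQ + SwInv356.Cinv d 2) / (n * η) =
      (4 * N ^ 3 + N ^ 2 + 1) * q + SwInv356.Cinv d 2 / (n * η) := by
    rw [hq, add_div, mul_div_assoc]
  rw [h6]
  by_cases hq1 : q ≤ 1
  · have h7 : (P1 + q) ^ 2 ≤ 2 * P1 ^ 2 + 2 * q := by
      nlinarith [sq_nonneg (P1 - q)]
    have h8 : 2 * N ^ 3 * (P1 + q) ^ 2 + N ^ 2 * q ≤
        (4 * N ^ 3) * P1 ^ 2 + (4 * N ^ 3 + N ^ 2) * q := by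
      have : 2 * N ^ 3 * (P1 + q) ^ 2 ≤ 2 * N ^ 3 * (2 * P1 ^ 2 + 2 * q) :=
        mul_le_mul_of_nonneg_left h7 (by positivity)
      linarith
    have h9 : 0 ≤ P1 ^ 2 := sq_nonneg _
    linarith
  · push Not at hq1
    have h7 : pr (fun b : BI d 2 → HE n d =>
      ¬ Fine (kap2 d κ) (BE (bsw 2 p (h0, b)).1 s ω (ze E η) h0)) ≤ 1 := pr_le_one _
    have h8 : 0 ≤ (4 * N ^ 3 + 1) * P1 ^ 2 := by positivity
    have h9 : 0 ≤ (4 * N ^ 3 + N ^ 2) * q := by positivity
    have h10 : (0 : ℝ) ≤ SwInv356.Cinv d 2 / (n * η) := by positivity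
    linarith

end Crest.Agent.R166.Fine522
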