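import Crest.Agent.R166.InvG3_348
import Crest.Agent.R166.InvK_988
import Crest.Agent.R166.EnvDet_536

/-!
Row 166, section 50 (helper348): `InvG` from Theorem B and the local law outputs.
-/

set_option autoImplicit false

namespace Crest.Agent.R166.InvFin348

/-- section 50, final form -/
theorem invG {d : ℕ} (hd : 0 < d) {s E ρ : ℝ} (hρ : 0 < ρ) (hB : ThmB d s E ρ)
    (hIm : ImLim d s E ρ) (hLoc : LocLim d s E) (hND : NonDeg d s E) : InvG d s E ρ :=
  InvG348.invG hd hρ (Env536.envDet d hd s E) hLoc hND (Inv988.keyCmp hd hρ hB hIm hLoc)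

end Crest.Agent.R166.InvFin348
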