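import Crest.Agent.R166.SpecF3_798
import Crest.Agent.R166.SwP2_470
import Crest.Agent.R166.TreeDet_350

/-!
# Row 166, section 32 (graph half): sub-leaves of F3 (helper798)

* `OneLevP` : one-level recursion in mean, for the depth-1 resampling `bsw 1` (helper598);
* `BlkCmp`  : deterministic comparison of two fine blocks (helper547).
-/

set_option autoImplicit false

namespace Crest.Agent.R166.SpecF3

open Crest.Agent.R166 Stab269
open Crest.Agent.R166.SwP470 (BI NZ bsw)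
open Crest.Agent.R166.TreeDet350 (rho cav)

/-- the `d-1` boundary indices of side `false` (i.e. at the vertex `h0.1`) -/
def kk (d : ℕ) [NeZero d] (j : Fin (d - 1)) : BI d 1 :=
  (false, fun _ => ⟨⟨j.1 + 1, by have := j.2; omega⟩, by
    intro h
    have := congrArg Fin.val h
    simp at this⟩)

theorem kk_injective (d : ℕ) [NeZero d] : Function.Injective (kk d) := by
  intro i j h
  have h1 := congrFun (congrArg Prod.snd h) 0
  have h2 := congrArg (fun x : NZ d => x.1.1) h1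
  simp only [kk] at h2
  exact Fin.ext (by omega)

open Classical in
/-- for all but a small fraction of the (state, centre, choices), the new cavity value at the
centre at `ze E η'` is `ε`-close (pseudo-hyperbolic distance) to the recursion AT THE ENERGY
`ze E η` (both `η, η'` in the window; `η = η'` allowed) applied to the old cavity values at
`ze E η'`. -/
def OneLevP (d : ℕ) [NeZero d] (A s0 : ℝ) : Prop :=
  ∀ ε : ℝ, 0 < ε → ∃ η1 : ℝ, 0 < η1 ∧ ∃ K0 : ℝ, 0 < K0 ∧ ∃ N : ℕ, ∀ n : ℕ, N ≤ n →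
    ∀ E s η η' : ℝ, |E| ≤ A → |s| ≤ s0 → K0 / n ≤ η → η ≤ η1 → K0 / n ≤ η' → η' ≤ η1 →
      ∀ ω : Fin n → ℝ, (∀ v, |ω v| ≤ 1) →
      ∑ p ∈ Ports n d, ((Finset.univ.filter fun mv : HE n d × (BI d 1 → HE n d) =>
          ¬ rho (B0 (bsw 1 p mv).1 s ω (ze E η') mv.1 0 0)
            (cav (ze E η) (s * ω mv.1.1) fun j : Fin (d - 1) =>
              B0 p s ω (ze E η') (mv.2 (kk d j)) 0 0) ≤ ε).card : ℝ) ≤
        ε * (Fintype.card (HE n d × (BI d 1 → HE n d)) : ℝ) * (Ports n d).card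

/-- helper598 -/
def OneLevFrom (d : ℕ) [NeZero d] : Prop :=
  3 ≤ d → ∀ A s0 : ℝ, 0 < A → A ^ 2 < 4 * ((d : ℝ) - 1) → 0 < s0 → s0 ≤ 1 →
    F1P d A s0 → F2P d A s0 → OneLevP d A s0

/-- two fine blocks with small off-diagonal cavity entries and close diagonal cavity entries are
close -/
def BlkCmp : Prop :=
  ∀ κ : ℝ, 0 < κ → ∀ ε : ℝ, 0 < ε → ∃ δ : ℝ, 0 < δ ∧ ∀ B B' : Matrix (Fin 2) (Fin 2) ℂ,
    Off522.Fine κ B → Off522.Fine κ B' → ‖cavB B 0 1‖ ≤ δ → ‖cavB B' 0 1‖ ≤ δ →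
    rho (cavB B 0 0) (cavB B' 0 0) ≤ δ → rho (cavB B 1 1) (cavB B' 1 1) ≤ δ →
    bnorm (B - B') ≤ ε

end Crest.Agent.R166.SpecF3
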