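import Crest.Agent.R166.StepFin_395
import Crest.Agent.R166.TEst_789
import Crest.Agent.R166.H2_269

/-!
# Row 166 (helper269): `StepIn`, `StepC`, `StepA`, `StepL`, `ThmA` are unconditional for `3 ≤ d`.
-/

set_option autoImplicit false

namespace Crest.Agent.R166.StepAll

open Crest.Agent.R166

variable {d : ℕ} [NeZero d]

theorem h2All (hd : 3 ≤ d) : StepFin395.H2All d := by
  intro A rs ε C1 C0 CL0 hA hrs hrs1 hε hC1 hC0 hCL0 hSM hS0
  obtain ⟨C, hC, h⟩ := H2.h2P hd hA hrs (by linarith) hε (by norm_num : (0 : ℝ) ≤ 14)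
    (H2.goodM hd hA hrs1) hC0 hCL0 hS0 hC1 hSM
  exact ⟨C, hC.le, h⟩

theorem tAll (hd : 3 ≤ d) : StepFin395.TAll d := fun _ hA L => TEst789.tEst hd hA L

theorem stepIn (hd : 3 ≤ d) : StepA395.StepIn d :=
  StepFin395.stepIn_of hd (tAll hd) (h2All hd)

theorem stepC (hd : 3 ≤ d) : StepA395.StepC d := StepA395.stepC_of hd (stepIn hd)

theorem stepL (hd : 3 ≤ d) : Spec31.StepL d := StepFin395.stepL_of (stepC hd)

theorem stepA (hd : 3 ≤ d) : SpecA.StepA d := StepA395.stepA_of hd (stepIn hd)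

theorem thmA (hd : 3 ≤ d) : SpecA.ThmA d := ThmA383.thmA_of_step d (stepA hd)

end Crest.Agent.R166.StepAll
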