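import Mathlib
import Crest.Agent.R166.Defs_419

/-!
Row 166, section 32 (graph half), helper420: Poisson kernel facts.

* `poisson_tendsto`: Poisson regularisation of a measure with a continuous density near `E`.
-/

set_option autoImplicit false

namespace Crest.Agent.R166.DosA420

open MeasureTheory Filter Topology Set

noncomputable section

/-- Poisson kernel (without the factor `1/π`) -/
def pk (E η : ℝ) (x : ℝ) : ℝ := η / ((x - E) ^ 2 + η ^ 2)

theorem pk_nonneg {E η : ℝ} (hη : 0 ≤ η) (x : ℝ) : 0 ≤ pk E η x := by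
  unfold pk; positivity

theorem continuous_pk {E η : ℝ} (hη : 0 < η) : Continuous (pk E η) := by
  unfold pk
  refine continuous_const.div (by fun_prop) fun x => ?_
  positivity

theorem pk_le {E η : ℝ} (hη : 0 < η) (x : ℝ) : pk E η x ≤ 1 / η := by
  unfold pk
  rw [div_le_div_iff₀ (by positivity) hη]
  nlinarith [sq_nonneg (x - E)]

theorem pk_le_far {E η δ : ℝ} (hη : 0 < η) (hδ : 0 < δ) {x : ℝ} (hx : δ ≤ |x - E|) :
    pk E η x ≤ η / δ ^ 2 := by
  unfold pk
  have h1 : δ ^ 2 ≤ (x - E) ^ 2 := by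
    rw [← sq_abs (x - E)]
    exact pow_le_pow_left₀ hδ.le hx 2
  exact div_le_div_of_nonneg_left hη.le (by positivity) (by nlinarith [sq_nonneg η])

theorem integrable_pk {E η : ℝ} (hη : 0 < η) (ν : Measure ℝ) [IsFiniteMeasure ν] :
    Integrable (pk E η) ν := by
  refine Integrable.of_bound (continuous_pk hη).aestronglyMeasurable (1 / η) ?_
  refine Filter.Eventually.of_forall fun x => ?_
  rw [Real.norm_of_nonneg (pk_nonneg hη.le x)]
  exact pk_le hη x

/-- Poisson regularisation at a point of continuity of the density. -/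
theorem poisson_tendsto {ν : Measure ℝ} [IsProbabilityMeasure ν] {ρ : ℝ → ℝ} {U : Set ℝ}
    (hU : IsOpen U) (hρ : ContinuousOn ρ U) (hρ0 : ∀ t ∈ U, 0 ≤ ρ t)
    (hν : ν.restrict U = (volume.restrict U).withDensity (fun t => ENNReal.ofReal (ρ t)))
    {E : ℝ} (hE : E ∈ U) :
    Tendsto (fun η : ℝ => ∫ x, pk E η x ∂ν) (𝓝[>] 0) (𝓝 (Real.pi * ρ E)) := by
  obtain ⟨δ, hδ, hδU⟩ := Metric.nhds_basis_closedBall.mem_iff.1 (hU.mem_nhds hE)
  set B := Metric.closedBall E δ with hB
  have hBm : MeasurableSet B := Metric.isClosed_closedBall.measurableSet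
  have hBc : IsCompact B := isCompact_closedBall E δ
  set g : ℝ → ℝ := B.indicator ρ with hg
  have hgi : Integrable g volume := by
    rw [hg, integrable_indicator_iff hBm]
    exact (hρ.mono hδU).integrableOn_compact hBc
  have hgE : g E = ρ E := by
    rw [hg, indicator_of_mem]
    exact Metric.mem_closedBall_self hδ.le
  have hgc : ContinuousAt g E := by
    have h1 : ContinuousAt ρ E := hρ.continuousAt (hU.mem_nhds hE)
    refine h1.congr ?_
    filter_upwards [Metric.closedBall_mem_nhds E hδ] with x hx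
    rw [hg, indicator_of_mem hx]
  set φ : ℝ → ℝ := fun x => Real.pi⁻¹ * (1 + x ^ 2)⁻¹ with hφ
  have hφ0 : ∀ x, 0 ≤ φ x := fun x => by
    rw [hφ]; positivity
  have hφ1 : ∫ x, φ x = 1 := by
    rw [hφ]
    simp only
    rw [integral_const_mul, integral_univ_inv_one_add_sq, inv_mul_cancel₀ Real.pi_pos.ne']
  have hφt : Tendsto (fun x : ℝ => ‖x‖ ^ (Module.finrank ℝ ℝ) * φ x) (Bornology.cobounded ℝ)
      (𝓝 0) := by
    rw [Module.finrank_self]
    have h1 : Tendsto (fun x : ℝ => Real.pi⁻¹ * ‖x‖⁻¹) (Bornology.cobounded ℝ) (𝓝 0) := by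
      have := (tendsto_inv_atTop_zero (𝕜 := ℝ)).comp (tendsto_norm_cobounded_atTop (E := ℝ))
      simpa using this.const_mul Real.pi⁻¹
    refine squeeze_zero (fun x => mul_nonneg (by positivity) (hφ0 x)) (fun x => ?_) h1
    rw [hφ, pow_one]
    simp only
    have h2 : ‖x‖ * (1 + x ^ 2)⁻¹ ≤ ‖x‖⁻¹ := by
      by_cases hx : x = 0
      · simp [hx]
      · have hx' : 0 < ‖x‖ := norm_pos_iff.2 hx
        rw [← div_eq_mul_inv, div_le_iff₀ (by positivity), ← one_div, div_mul_eq_mul_div,
          le_div_iff₀ hx', one_mul, ← sq, Real.norm_eq_abs, sq_abs]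
        linarith
    calc ‖x‖ * (Real.pi⁻¹ * (1 + x ^ 2)⁻¹) = Real.pi⁻¹ * (‖x‖ * (1 + x ^ 2)⁻¹) := by ring
      _ ≤ Real.pi⁻¹ * ‖x‖⁻¹ := by
        exact mul_le_mul_of_nonneg_left h2 (inv_nonneg.2 Real.pi_pos.le)
  have hmain := tendsto_integral_comp_smul_smul_of_integrable' (μ := (volume : Measure ℝ)) hφ0 hφ1
    hφt hgi hgc
  rw [hgE] at hmain
  -- substitute `c = η⁻¹`
  have h3 := (hmain.comp tendsto_inv_nhdsGT_zero).const_mul Real.pi
  -- the far part
  have h4 : Tendsto (fun η : ℝ => ∫ x in Bᶜ, pk E η x ∂ν) (𝓝[>] 0) (𝓝 0) := by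
    have h5 : Tendsto (fun η : ℝ => η / δ ^ 2) (𝓝[>] 0) (𝓝 0) := by
      have : Tendsto (fun η : ℝ => η / δ ^ 2) (𝓝 0) (𝓝 (0 / δ ^ 2)) := tendsto_id.div_const _
      rw [zero_div] at this
      exact this.mono_left nhdsWithin_le_nhds
    refine squeeze_zero' ?_ ?_ h5
    · filter_upwards [self_mem_nhdsWithin] with η hη
      exact integral_nonneg fun x => pk_nonneg (le_of_lt hη) x
    · filter_upwards [self_mem_nhdsWithin] with η hη
      have hη' : (0:ℝ) < η := hη
      calc ∫ x in Bᶜ, pk E η x ∂ν ≤ ∫ x in Bᶜ, η / δ ^ 2 ∂ν := by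
            refine setIntegral_mono_on (integrable_pk hη' ν).integrableOn
              (integrable_const _).integrableOn hBm.compl fun x hx => ?_
            refine pk_le_far hη' hδ ?_
            rw [hB, mem_compl_iff, Metric.mem_closedBall, Real.dist_eq, not_le] at hx
            exact hx.le
        _ = (ν.real Bᶜ) * (η / δ ^ 2) := by
            rw [setIntegral_const, smul_eq_mul]
        _ ≤ 1 * (η / δ ^ 2) := by
            exact mul_le_mul_of_nonneg_right measureReal_le_one (by positivity)
        _ = η / δ ^ 2 := one_mul _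
  have h6 := h3.add h4
  rw [add_zero] at h6
  refine h6.congr' ?_
  filter_upwards [self_mem_nhdsWithin] with η hη
  have hη' : (0:ℝ) < η := hη
  rw [← integral_add_compl hBm (integrable_pk hη' ν)]
  congr 1
  -- near part
  have e1 : ∫ x in B, pk E η x ∂ν = ∫ x in B, pk E η x * ρ x := by
    have : ν.restrict B = (volume.restrict B).withDensity (fun t => ENNReal.ofReal (ρ t)) := by
      rw [← restrict_withDensity hBm]
      have h7 : (ν.restrict U).restrict B = ((volume.restrict U).withDensity
          (fun t => ENNReal.ofReal (ρ t))).restrict B := by rw [hν]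
      rw [Measure.restrict_restrict hBm, restrict_withDensity hBm,
        Measure.restrict_restrict hBm, inter_eq_left.2 hδU] at h7
      rw [h7, restrict_withDensity hBm]
    rw [this]
    have hmeas : AEMeasurable (fun t => (ρ t).toNNReal) (volume.restrict B) :=
      ((hρ.mono hδU).aemeasurable hBm).real_toNNReal
    have h8 := integral_withDensity_eq_integral_smul₀ (μ := volume.restrict B) hmeas
      (fun x => pk E η x)
    have h9 : (fun t => ENNReal.ofReal (ρ t)) = fun t => ((ρ t).toNNReal : ENNReal) := by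
      funext t; rfl
    rw [h9, h8]
    refine setIntegral_congr_fun hBm fun x hx => ?_
    rw [NNReal.smul_def, Real.coe_toNNReal _ (hρ0 x (hδU hx)), smul_eq_mul, mul_comm]
  rw [e1, ← integral_indicator hBm, Function.comp_apply, ← integral_const_mul]
  refine integral_congr_ae (Filter.Eventually.of_forall fun x => ?_)
  simp only [hg, hφ, Module.finrank_self, pow_one, smul_eq_mul]
  by_cases hx : x ∈ B
  · rw [indicator_of_mem hx, indicator_of_mem hx]
    unfold pk
    have h10 : (0:ℝ) < η ^ 2 + (E - x) ^ 2 := by positivity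
    have h11 : (x - E) ^ 2 + η ^ 2 = η ^ 2 + (E - x) ^ 2 := by ring
    rw [h11]
    field_simp
  · rw [indicator_of_notMem hx, indicator_of_notMem hx, mul_zero, mul_zero]

end

end Crest.Agent.R166.DosA420
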