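import Mathlib
import Crest.Agent.R166.Defs_419
import Crest.Agent.R166.DosA_420
/-!
Row 166, section 70 (M2), helper390: Stieltjes inversion.

If the Stieltjes transform of a probability measure `ν` satisfies
`Im ∫ (x - (E+iη))⁻¹ dν → π ρ(E)` uniformly on the open set `U`, with `ρ` continuous on `U`, then
`ν` has density `ρ` on `U`.
-/
set_option autoImplicit false

namespace Crest.Agent.R166.StInv390

open MeasureTheory Set Filter Topology Crest.Agent.R166.DosA420

noncomputable section

theorem ze_im_inv (E η x : ℝ) :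
    (((x : ℂ) - ze E η)⁻¹).im = pk E η x := by
  have h1 : (x : ℂ) - ze E η = ((x - E : ℝ) : ℂ) + ((-η : ℝ) : ℂ) * Complex.I := by
    simp only [ze]; push_cast; ring
  rw [h1, Complex.inv_im]
  simp only [Complex.normSq_add_mul_I, Complex.add_im, Complex.ofReal_im, Complex.mul_im,
    Complex.ofReal_re, Complex.I_im, mul_one, Complex.I_re, mul_zero, add_zero, zero_add, neg_neg,
    pk]
  congr 1
  ring

theorem im_stieltjes {ν : Measure ℝ} [IsProbabilityMeasure ν] {E η : ℝ} (hη : 0 < η) :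
    (∫ x : ℝ, ((x : ℂ) - ze E η)⁻¹ ∂ν).im = ∫ x, pk E η x ∂ν := by
  have hne : ∀ x : ℝ, (x : ℂ) - ze E η ≠ 0 := fun x h => by
    have := congrArg Complex.im h
    simp [ze] at this
    exact hη.ne' this
  have hi : Integrable (fun x : ℝ => ((x : ℂ) - ze E η)⁻¹) ν := by
    refine Integrable.of_bound (Continuous.inv₀ (by fun_prop) hne).aestronglyMeasurable (1 / η) ?_
    refine Eventually.of_forall fun x => ?_
    rw [norm_inv, one_div]
    apply inv_anti₀ hη
    have h1 : |((x : ℂ) - ze E η).im| = η := by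
      simp [ze, abs_of_pos hη]
    have h2 := Complex.abs_im_le_norm ((x : ℂ) - ze E η)
    rwa [h1] at h2
  have := integral_im hi
  simp only [RCLike.im_eq_complex_im] at this
  rw [← this]
  refine integral_congr_ae (Eventually.of_forall fun x => ?_)
  exact ze_im_inv E η x

/-- the Poisson integral of a bounded continuous function -/
theorem poisson_subst {f : ℝ → ℝ} {η : ℝ} (hη : 0 < η) (x : ℝ) :
    ∫ E, f E * pk E η x = ∫ t, f (x + η * t) * (1 + t ^ 2)⁻¹ := by
  have h1 : ∫ E, f E * pk E η x = ∫ E, f (x + E) * pk (x + E) η x :=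
    (integral_add_left_eq_self (fun E => f E * pk E η x) x).symm
  have h2 := Measure.integral_comp_mul_left (fun E => f (x + E) * pk (x + E) η x) η
  rw [h1]
  have h3 : ∫ E, f (x + E) * pk (x + E) η x = η * ∫ t, f (x + η * t) * pk (x + η * t) η x := by
    rw [h2, abs_of_pos (inv_pos.mpr hη), smul_eq_mul, ← mul_assoc, mul_inv_cancel₀ hη.ne', one_mul]
  rw [h3, ← integral_const_mul]
  refine integral_congr_ae (Eventually.of_forall fun t => ?_)
  simp only [pk]
  have : (x - (x + η * t)) ^ 2 + η ^ 2 = η ^ 2 * (1 + t ^ 2) := by ring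
  rw [this]
  have h4 : (1 + t ^ 2) ≠ 0 := by positivity
  field_simp

theorem poisson_conv {f : ℝ → ℝ} (hf : Continuous f) {M : ℝ} (hM : ∀ x, |f x| ≤ M) (x : ℝ) :
    Tendsto (fun η : ℝ => ∫ E, f E * pk E η x) (𝓝[>] 0) (𝓝 (Real.pi * f x)) := by
  have h1 : Tendsto (fun η : ℝ => ∫ t, f (x + η * t) * (1 + t ^ 2)⁻¹) (𝓝[>] 0)
      (𝓝 (∫ t, f x * (1 + t ^ 2)⁻¹)) := by
    refine tendsto_integral_filter_of_dominated_convergence (fun t => M * (1 + t ^ 2)⁻¹) ?_ ?_ ?_ ?_
    · refine Eventually.of_forall fun η => Continuous.aestronglyMeasurable ?_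
      have : ∀ t : ℝ, 1 + t ^ 2 ≠ 0 := fun t => by positivity
      exact (hf.comp (by fun_prop)).mul (Continuous.inv₀ (by fun_prop) this)
    · refine Eventually.of_forall fun η => Eventually.of_forall fun t => ?_
      have : (0 : ℝ) ≤ (1 + t ^ 2)⁻¹ := by positivity
      rw [norm_mul, Real.norm_eq_abs, Real.norm_of_nonneg this]
      exact mul_le_mul_of_nonneg_right (hM _) this
    · exact integrable_inv_one_add_sq.const_mul _
    · refine Eventually.of_forall fun t => ?_
      have h2 : Tendsto (fun η : ℝ => f (x + η * t)) (𝓝 0) (𝓝 (f (x + 0 * t))) :=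
        (hf.comp (by fun_prop : Continuous fun η : ℝ => x + η * t)).tendsto 0
      rw [zero_mul, add_zero] at h2
      exact (h2.mono_left nhdsWithin_le_nhds).mul_const _
  rw [integral_const_mul, integral_univ_inv_one_add_sq, mul_comm] at h1
  refine h1.congr' ?_
  filter_upwards [self_mem_nhdsWithin] with η hη
  exact (poisson_subst hη x).symm

theorem poisson_bound {f : ℝ → ℝ} {M : ℝ} (hM : ∀ x, |f x| ≤ M) {η : ℝ}
    (hη : 0 < η) (x : ℝ) : |∫ E, f E * pk E η x| ≤ M * Real.pi := by
  rw [poisson_subst hη, ← integral_univ_inv_one_add_sq, ← integral_const_mul]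
  refine (abs_integral_le_integral_abs).trans ?_
  refine integral_mono_of_nonneg (Eventually.of_forall fun t => abs_nonneg _)
    (integrable_inv_one_add_sq.const_mul _) (Eventually.of_forall fun t => ?_)
  have : (0 : ℝ) ≤ (1 + t ^ 2)⁻¹ := by positivity
  simp only [abs_mul]
  rw [abs_of_nonneg this]
  exact mul_le_mul_of_nonneg_right (hM _) this

theorem fubini {ν : Measure ℝ} [IsProbabilityMeasure ν] {f : ℝ → ℝ} (hf : Integrable f)
    {η : ℝ} (hη : 0 < η) :
    ∫ E, f E * (∫ x, pk E η x ∂ν) = ∫ x, (∫ E, f E * pk E η x) ∂ν := by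
  simp_rw [← integral_const_mul]
  refine integral_integral_swap ?_
  have h1 : Integrable (fun p : ℝ × ℝ => f p.1) (volume.prod ν) := hf.comp_fst ν
  have hc : Continuous fun p : ℝ × ℝ => pk p.1 η p.2 := by
    unfold pk
    refine continuous_const.div (by fun_prop) fun p => ?_
    positivity
  refine h1.mul_bdd (c := 1 / η) hc.aestronglyMeasurable (Eventually.of_forall fun p => ?_)
  rw [Real.norm_of_nonneg (pk_nonneg hη.le _)]
  exact pk_le hη _

theorem rho_bound {ν : Measure ℝ} [IsProbabilityMeasure ν] {U : Set ℝ} {ρ : ℝ → ℝ}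
    (h : ∀ ε : ℝ, 0 < ε → ∃ η0 > 0, ∀ η : ℝ, 0 < η → η ≤ η0 → ∀ E ∈ U,
      |(∫ x : ℝ, ((x : ℂ) - ze E η)⁻¹ ∂ν).im - Real.pi * ρ E| ≤ ε) :
    ∃ B : ℝ, ∀ E ∈ U, |ρ E| ≤ B := by
  obtain ⟨η0, hη0, h1⟩ := h 1 one_pos
  refine ⟨(1 + 1 / η0) / Real.pi, ?_⟩
  intro E hE
  have h2 := h1 η0 hη0 le_rfl E hE
  rw [im_stieltjes hη0] at h2
  have h3 : |∫ x, pk E η0 x ∂ν| ≤ 1 / η0 := by
    have := norm_integral_le_of_norm_le_const (μ := ν) (f := pk E η0) (C := 1 / η0)
      (Eventually.of_forall fun x => by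
        rw [Real.norm_of_nonneg (pk_nonneg hη0.le _)]
        exact pk_le hη0 _)
    simpa using this
  rw [le_div_iff₀ Real.pi_pos]
  have h4 : |ρ E| * Real.pi = |Real.pi * ρ E| := by
    rw [abs_mul, abs_of_pos Real.pi_pos, mul_comm]
  rw [h4]
  have h5 := abs_sub_abs_le_abs_sub (Real.pi * ρ E) (∫ x, pk E η0 x ∂ν)
  rw [abs_sub_comm] at h5
  linarith

theorem integrable_mul_rho {U : Set ℝ} (hU : IsOpen U) {ρ : ℝ → ℝ} (hρ : ContinuousOn ρ U)
    (hb : ∃ B : ℝ, ∀ E ∈ U, |ρ E| ≤ B) {f : ℝ → ℝ} (hfi : Integrable f)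
    (hfU : ∀ x, x ∉ U → f x = 0) : Integrable fun E => f E * ρ E := by
  obtain ⟨B, hB⟩ := hb
  have e : (fun E => f E * ρ E) = U.indicator (fun E => f E * ρ E) := by
    funext E
    by_cases hE : E ∈ U
    · rw [indicator_of_mem hE]
    · rw [indicator_of_notMem hE, hfU E hE, zero_mul]
  rw [e, integrable_indicator_iff hU.measurableSet]
  refine hfi.integrableOn.mul_bdd (c := B) (hρ.aestronglyMeasurable hU.measurableSet) ?_
  rw [ae_restrict_iff' hU.measurableSet]
  exact Eventually.of_forall fun E hE => by rw [Real.norm_eq_abs]; exact hB E hE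

/-- test function identity -/
theorem test_eq {ν : Measure ℝ} [IsProbabilityMeasure ν] {U : Set ℝ} (hU : IsOpen U) {ρ : ℝ → ℝ}
    (hρ : ContinuousOn ρ U)
    (h : ∀ ε : ℝ, 0 < ε → ∃ η0 > 0, ∀ η : ℝ, 0 < η → η ≤ η0 → ∀ E ∈ U,
      |(∫ x : ℝ, ((x : ℂ) - ze E η)⁻¹ ∂ν).im - Real.pi * ρ E| ≤ ε)
    {f : ℝ → ℝ} (hfc : Continuous f) (hfi : Integrable f) {M : ℝ} (hM : ∀ x, |f x| ≤ M)
    (hfU : ∀ x, x ∉ U → f x = 0) :
    ∫ x, f x ∂ν = ∫ E, f E * ρ E := by
  have hfρ : Integrable fun E => f E * ρ E := integrable_mul_rho hU hρ (rho_bound h) hfi hfU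
  -- the limit of the double integral, two ways
  have hlim1 : Tendsto (fun η : ℝ => ∫ x, (∫ E, f E * pk E η x) ∂ν) (𝓝[>] 0)
      (𝓝 (∫ x, Real.pi * f x ∂ν)) := by
    refine tendsto_integral_filter_of_dominated_convergence (fun _ => M * Real.pi) ?_ ?_ ?_ ?_
    · filter_upwards [self_mem_nhdsWithin] with η hη
      have hη' : (0 : ℝ) < η := hη
      have hc : Continuous fun p : ℝ × ℝ => f p.2 * pk p.2 η p.1 := by
        unfold pk
        refine (by fun_prop : Continuous fun p : ℝ × ℝ => f p.2).mul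
          (continuous_const.div (by fun_prop) fun p => ?_)
        positivity
      exact (hc.stronglyMeasurable.integral_prod_right').aestronglyMeasurable
    · filter_upwards [self_mem_nhdsWithin] with η hη
      exact Eventually.of_forall fun x => by
        rw [Real.norm_eq_abs]; exact poisson_bound hM hη x
    · exact integrable_const _
    · exact Eventually.of_forall fun x => poisson_conv hfc hM x
  have hlim2 : Tendsto (fun η : ℝ => ∫ E, f E * (∫ x, pk E η x ∂ν)) (𝓝[>] 0)
      (𝓝 (Real.pi * ∫ E, f E * ρ E)) := by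
    rw [Metric.tendsto_nhdsWithin_nhds]
    intro ε hε
    have hI : 0 ≤ ∫ E, |f E| := integral_nonneg fun E => abs_nonneg _
    obtain ⟨η0, hη0, h1⟩ := h (ε / (2 * (1 + ∫ E, |f E|))) (by positivity)
    refine ⟨η0, hη0, fun {η} hη hd => ?_⟩
    have hη' : (0 : ℝ) < η := hη
    rw [Real.dist_eq, sub_zero, abs_of_pos hη'] at hd
    rw [Real.dist_eq, ← integral_const_mul]
    have hi1 : Integrable fun E => f E * (∫ x, pk E η x ∂ν) := by
      refine hfi.mul_bdd (c := 1 / η) ?_ ?_
      · have hc : Continuous fun p : ℝ × ℝ => pk p.1 η p.2 := by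
          unfold pk
          refine continuous_const.div (by fun_prop) fun p => ?_
          positivity
        exact (hc.stronglyMeasurable.integral_prod_right').aestronglyMeasurable
      · refine Eventually.of_forall fun E => ?_
        have := norm_integral_le_of_norm_le_const (μ := ν) (f := pk E η) (C := 1 / η)
          (Eventually.of_forall fun x => by
            rw [Real.norm_of_nonneg (pk_nonneg hη'.le _)]
            exact pk_le hη' _)
        simpa using this
    rw [← integral_sub hi1 (hfρ.const_mul _)]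
    refine (abs_integral_le_integral_abs).trans_lt ?_
    have h6 : ∫ E, |f E * (∫ x, pk E η x ∂ν) - Real.pi * (f E * ρ E)| ≤
        ∫ E, (ε / (2 * (1 + ∫ E, |f E|))) * |f E| := by
      refine integral_mono_of_nonneg (Eventually.of_forall fun _ => abs_nonneg _)
        (hfi.abs.const_mul _) (Eventually.of_forall fun E => ?_)
      by_cases hE : E ∈ U
      · have h2 := h1 η hη' hd.le E hE
        rw [im_stieltjes hη'] at h2
        have e : f E * (∫ x, pk E η x ∂ν) - Real.pi * (f E * ρ E)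
            = f E * ((∫ x, pk E η x ∂ν) - Real.pi * ρ E) := by ring
        simp only [e, abs_mul]
        rw [mul_comm]
        exact mul_le_mul_of_nonneg_right h2 (abs_nonneg _)
      · simp [hfU E hE]
    refine h6.trans_lt ?_
    rw [integral_const_mul]
    have h7 : ε / (2 * (1 + ∫ E, |f E|)) * ∫ E, |f E| ≤ ε / 2 := by
      rw [div_mul_eq_mul_div, div_le_div_iff₀ (by positivity) two_pos]
      nlinarith
    linarith
  have hlim3 : Tendsto (fun η : ℝ => ∫ x, (∫ E, f E * pk E η x) ∂ν) (𝓝[>] 0)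
      (𝓝 (Real.pi * ∫ E, f E * ρ E)) := by
    refine hlim2.congr' ?_
    filter_upwards [self_mem_nhdsWithin] with η hη
    exact fubini hfi hη
  have h8 := tendsto_nhds_unique hlim1 hlim3
  rw [integral_const_mul] at h8
  exact mul_left_cancel₀ Real.pi_pos.ne' h8

theorem exists_weight {U : Set ℝ} (hU : IsOpen U) :
    ∃ a : ℝ → ℝ, Continuous a ∧ (∀ x, 0 ≤ a x) ∧ (∀ x, a x ≤ 1) ∧ (∀ x, x ∉ U → a x = 0) ∧
      ∀ x ∈ U, 0 < a x := by
  by_cases hUc : Uᶜ.Nonempty
  · refine ⟨fun x => min 1 (Metric.infDist x Uᶜ),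
      continuous_const.min (Metric.continuous_infDist_pt _), fun x => ?_, fun x => min_le_left _ _,
      fun x hx => ?_, fun x hx => ?_⟩
    · have := Metric.infDist_nonneg (x := x) (s := Uᶜ)
      positivity
    · have h1 : Metric.infDist x Uᶜ = 0 := Metric.infDist_zero_of_mem hx
      simp [h1]
    · have h1 : 0 < Metric.infDist x Uᶜ := by
        rw [← (hU.isClosed_compl).notMem_iff_infDist_pos hUc]
        exact fun h => h hx
      positivity
  · have hU' : ∀ x, x ∈ U := fun x => by
      by_contra hx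
      exact hUc ⟨x, hx⟩
    exact ⟨fun _ => 1, continuous_const, fun _ => zero_le_one, fun _ => le_rfl,
      fun x hx => absurd (hU' x) hx, fun _ _ => one_pos⟩

/-- **Stieltjes inversion** -/
theorem stieltjes_inversion {ν : Measure ℝ} [IsProbabilityMeasure ν] {U : Set ℝ} (hU : IsOpen U)
    {ρ : ℝ → ℝ} (hρ : ContinuousOn ρ U)
    (h : ∀ ε : ℝ, 0 < ε → ∃ η0 > 0, ∀ η : ℝ, 0 < η → η ≤ η0 → ∀ E ∈ U,
      |(∫ x : ℝ, ((x : ℂ) - ze E η)⁻¹ ∂ν).im - Real.pi * ρ E| ≤ ε) :
    ν.restrict U = (volume.restrict U).withDensity fun E => ENNReal.ofReal (ρ E) := by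
  -- positivity and boundedness of `ρ`
  have hρ0 : ∀ E ∈ U, 0 ≤ ρ E := by
    intro E hE
    by_contra hneg
    push Not at hneg
    obtain ⟨η0, hη0, h1⟩ := h (-(Real.pi * ρ E) / 2) (by nlinarith [Real.pi_pos])
    have h2 := h1 η0 hη0 le_rfl E hE
    rw [im_stieltjes hη0] at h2
    have h3 : 0 ≤ ∫ x, pk E η0 x ∂ν := integral_nonneg fun x => pk_nonneg hη0.le x
    have h4 := (abs_le.mp h2).2
    nlinarith [Real.pi_pos]
  -- the weight
  obtain ⟨a, hac, ha0, ha1, haU, hapos⟩ := exists_weight hU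
  set w : ℝ → ℝ := fun x => a x * (1 + x ^ 2)⁻¹ with hw
  have hwc : Continuous w := by
    have : ∀ t : ℝ, 1 + t ^ 2 ≠ 0 := fun t => by positivity
    exact hac.mul (Continuous.inv₀ (by fun_prop) this)
  have hw0 : ∀ x, 0 ≤ w x := fun x => by
    have := ha0 x
    positivity
  have hwle : ∀ x, w x ≤ (1 + x ^ 2)⁻¹ := fun x => by
    have h1 : (0 : ℝ) ≤ (1 + x ^ 2)⁻¹ := by positivity
    have := mul_le_mul_of_nonneg_right (ha1 x) h1
    rwa [one_mul] at this
  have hw1 : ∀ x, w x ≤ 1 := fun x => (hwle x).trans (by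
    apply inv_le_one_of_one_le₀; nlinarith [sq_nonneg x])
  have hwU : ∀ x, x ∉ U → w x = 0 := fun x hx => by
    simp [hw, haU x hx]
  have hwpos : ∀ x ∈ U, 0 < w x := fun x hx => by
    have h1 := hapos x hx
    positivity
  have hwi : Integrable w := by
    refine integrable_inv_one_add_sq.mono' hwc.aestronglyMeasurable
      (Eventually.of_forall fun x => ?_)
    rw [Real.norm_of_nonneg (hw0 x)]
    exact hwle x
  set W : ℝ → ENNReal := fun x => ENNReal.ofReal (w x) with hW
  have hWm : Measurable W := hwc.measurable.ennreal_ofReal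
  have hρm : AEMeasurable (fun E => ENNReal.ofReal (ρ E)) (volume.restrict U) :=
    (hρ.aemeasurable hU.measurableSet).ennreal_ofReal
  set μ1 := ν.restrict U with hμ1
  set μ2 := (volume.restrict U).withDensity fun E => ENNReal.ofReal (ρ E) with hμ2
  have hae1 : ∀ᵐ x ∂μ1, x ∈ U := ae_restrict_mem hU.measurableSet
  have hae2 : ∀ᵐ x ∂μ2, x ∈ U :=
    (withDensity_absolutelyContinuous _ _).ae_le (ae_restrict_mem hU.measurableSet)
  have hfin : IsFiniteMeasure (μ1.withDensity W) := by
    refine isFiniteMeasure_withDensity_ofReal ?_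
    have : Integrable w μ1 := Integrable.of_bound hwc.aestronglyMeasurable 1
      (Eventually.of_forall fun x => by rw [Real.norm_of_nonneg (hw0 x)]; exact hw1 x)
    exact this.2
  have key : μ1.withDensity W = μ2.withDensity W := by
    refine ext_of_forall_lintegral_eq_of_IsFiniteMeasure fun g => ?_
    have hgm : Measurable fun x => (g x : ENNReal) :=
      g.continuous.measurable.coe_nnreal_ennreal
    rw [lintegral_withDensity_eq_lintegral_mul _ hWm hgm,
      lintegral_withDensity_eq_lintegral_mul _ hWm hgm]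
    -- the test function
    set f : ℝ → ℝ := fun x => w x * (g x : ℝ) with hf
    have hfc : Continuous f := hwc.mul (NNReal.continuous_coe.comp g.continuous)
    have hf0 : ∀ x, 0 ≤ f x := fun x => mul_nonneg (hw0 x) (g x).coe_nonneg
    obtain ⟨C, hC⟩ : ∃ C : ℝ, ∀ x, (g x : ℝ) ≤ C := by
      exact ⟨(nndist g 0 : NNReal), fun x => by
        exact_mod_cast BoundedContinuousFunction.NNReal.upper_bound g x⟩
    have hC0 : 0 ≤ C := (g 0).coe_nonneg.trans (hC 0)
    have hfM : ∀ x, |f x| ≤ C := fun x => by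
      rw [abs_of_nonneg (hf0 x)]
      calc w x * (g x : ℝ) ≤ 1 * C :=
            mul_le_mul (hw1 x) (hC x) (g x).coe_nonneg zero_le_one
        _ = C := one_mul C
    have hfi : Integrable f := by
      refine (hwi.mul_const C).mono' hfc.aestronglyMeasurable (Eventually.of_forall fun x => ?_)
      rw [Real.norm_of_nonneg (hf0 x)]
      exact mul_le_mul_of_nonneg_left (hC x) (hw0 x)
    have hfU : ∀ x, x ∉ U → f x = 0 := fun x hx => by simp only [hf, hwU x hx, zero_mul]
    have hmain := test_eq hU hρ h hfc hfi hfM hfU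
    have hfν : Integrable f ν := Integrable.of_bound hfc.aestronglyMeasurable C
      (Eventually.of_forall fun x => hfM x)
    have hfρ := integrable_mul_rho hU hρ (rho_bound h) hfi hfU
    have hWg : ∀ x, W x * (g x : ENNReal) = ENNReal.ofReal (f x) := fun x => by
      simp only [hW, hf]
      rw [ENNReal.ofReal_mul (hw0 x), ENNReal.ofReal_coe_nnreal]
    have hL : ∫⁻ x, (W * fun x => (g x : ENNReal)) x ∂μ1 = ENNReal.ofReal (∫ x, f x ∂ν) := by
      rw [ofReal_integral_eq_lintegral_ofReal hfν (Eventually.of_forall hf0), hμ1,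
        ← lintegral_indicator hU.measurableSet]
      refine lintegral_congr fun x => ?_
      by_cases hx : x ∈ U
      · rw [indicator_of_mem hx, Pi.mul_apply, hWg]
      · rw [indicator_of_notMem hx, hfU x hx, ENNReal.ofReal_zero]
    have hR : ∫⁻ x, (W * fun x => (g x : ENNReal)) x ∂μ2
        = ENNReal.ofReal (∫ x, f x * ρ x) := by
      rw [hμ2, lintegral_withDensity_eq_lintegral_mul₀ hρm (hWm.mul hgm).aemeasurable,
        ofReal_integral_eq_lintegral_ofReal hfρ, ← lintegral_indicator hU.measurableSet]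
      · refine lintegral_congr fun x => ?_
        by_cases hx : x ∈ U
        · rw [indicator_of_mem hx, Pi.mul_apply, Pi.mul_apply, hWg,
            ENNReal.ofReal_mul (hf0 x), mul_comm]
        · rw [indicator_of_notMem hx, hfU x hx, zero_mul, ENNReal.ofReal_zero]
      · refine Eventually.of_forall fun x => ?_
        by_cases hx : x ∈ U
        · exact mul_nonneg (hf0 x) (hρ0 x hx)
        · simp [hfU x hx]
    rw [hL, hR, hmain]
  have hi1 := withDensity_inv_same (μ := μ1) hWm
    (by filter_upwards [hae1] with x hx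
        simp only [hW, ne_eq, ENNReal.ofReal_eq_zero, not_le]
        exact hwpos x hx)
    (Eventually.of_forall fun x => ENNReal.ofReal_ne_top)
  have hi2 := withDensity_inv_same (μ := μ2) hWm
    (by filter_upwards [hae2] with x hx
        simp only [hW, ne_eq, ENNReal.ofReal_eq_zero, not_le]
        exact hwpos x hx)
    (Eventually.of_forall fun x => ENNReal.ofReal_ne_top)
  rw [← hi1, ← hi2, key]

/-- (70, M2), verbatim `Master423.StmtM2` -/
theorem stmtM2 : ∀ (ν : Measure ℝ) [IsProbabilityMeasure ν] (U : Set ℝ) (ρ : ℝ → ℝ), IsOpen U →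
    ContinuousOn ρ U → (∀ t ∈ U, 0 ≤ ρ t) →
    (∀ ε : ℝ, 0 < ε → ∃ η0 : ℝ, 0 < η0 ∧ ∀ η : ℝ, 0 < η → η ≤ η0 → ∀ E ∈ U,
      |(∫ x, ((x : ℂ) - ze E η)⁻¹ ∂ν).im - Real.pi * ρ E| ≤ ε) →
    ν.restrict U = (volume.restrict U).withDensity (fun t => ENNReal.ofReal (ρ t)) :=
  fun _ _ _ _ hU hρ _ h => stieltjes_inversion hU hρ h

end

end Crest.Agent.R166.StInv390
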