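import Mathlib
import Crest.Agent.R166.Spec_D_350

/-!
# R166, section 32 (tree half), T1: existence of the cavity field, for ALL `ω` (helper383)

`GK κ x y : ‖x - y‖ ≤ κ · 2 √(Im x) √(Im y)`; one level contracts `κ` by `q = b / (b + η²)`.
-/

set_option autoImplicit false

open MeasureTheory Filter Topology Complex

namespace Crest.Agent.R166.TreeT1

open Crest.Agent.R166.TreeDet350 Crest.Agent.R166.TreeDefs350 Crest.Agent.R166.TreeSpec350

noncomputable section

variable {b : ℕ}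

/-! ### One level -/

/-- the relation `γ(x,y) ≤ κ` -/
def GK (κ : ℝ) (x y : ℂ) : Prop :=
  ‖x - y‖ ≤ κ * (2 * (Real.sqrt x.im * Real.sqrt y.im))

lemma im_neg_inv (S : ℂ) : (-1 / S).im = S.im / normSq S := by
  rw [neg_div, one_div, neg_im, inv_im]; ring

lemma sqrt_im_neg_inv (S : ℂ) :
    Real.sqrt (-1 / S).im = Real.sqrt S.im / ‖S‖ := by
  rw [im_neg_inv, normSq_eq_norm_sq, Real.sqrt_div' _ (by positivity), Real.sqrt_sq (norm_nonneg _)]

lemma GK.neg_inv {κ : ℝ} {S T : ℂ} (h : GK κ S T) (hS : 0 < S.im) (hT : 0 < T.im) :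
    GK κ (-1 / S) (-1 / T) := by
  have hS0 : S ≠ 0 := by rintro rfl; simp at hS
  have hT0 : T ≠ 0 := by rintro rfl; simp at hT
  have hSn : 0 < ‖S‖ := norm_pos_iff.2 hS0
  have hTn : 0 < ‖T‖ := norm_pos_iff.2 hT0
  unfold GK at h ⊢
  rw [sqrt_im_neg_inv, sqrt_im_neg_inv]
  have e : -1 / S - -1 / T = (S - T) / (S * T) := by field_simp; ring
  rw [e, norm_div, norm_mul, div_le_iff₀ (by positivity)]
  refine h.trans (le_of_eq ?_)
  field_simp

/-- the contraction factor -/
def qq (b : ℕ) (η : ℝ) : ℝ := b / (b + η ^ 2)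

lemma qq_nonneg (b : ℕ) (η : ℝ) : 0 ≤ qq b η := by unfold qq; positivity

lemma qq_lt_one (b : ℕ) {η : ℝ} (hη : 0 < η) : qq b η < 1 := by
  unfold qq
  rw [div_lt_one (by positivity)]
  have : 0 < η ^ 2 := by positivity
  linarith

lemma le_qq {a y η : ℝ} (hη : 0 < η) (hy : η ≤ y) (ha : 0 ≤ a) (hab : a ≤ b / y) :
    a ≤ qq b η * (y + a) := by
  have hy0 : 0 < y := lt_of_lt_of_le hη hy
  unfold qq
  rw [div_mul_eq_mul_div, le_div_iff₀ (by positivity)]
  rw [le_div_iff₀ hy0] at hab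
  have h1 : a * η ^ 2 ≤ a * y * y := by
    have : η ^ 2 ≤ y ^ 2 := pow_le_pow_left₀ hη.le hy 2
    nlinarith
  have h2 : a * y * y ≤ b * y := mul_le_mul_of_nonneg_right hab hy0.le
  nlinarith

/-- `Im` of the denominator -/
lemma den_im (z : ℂ) (t : ℝ) (x : Fin b → ℂ) :
    (z - t + ∑ j, x j).im = z.im + ∑ j, (x j).im := by
  rw [add_im, sub_im, ofReal_im, sub_zero, im_sum]

lemma den_im_pos {z : ℂ} (hz : 0 < z.im) (t : ℝ) {x : Fin b → ℂ} (hx : ∀ j, 0 ≤ (x j).im) :
    0 < (z - t + ∑ j, x j).im := by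
  rw [den_im]
  have := Finset.sum_nonneg fun j (_ : j ∈ Finset.univ) => hx j
  linarith

lemma im_cav_pos {z : ℂ} (hz : 0 < z.im) (t : ℝ) {x : Fin b → ℂ} (hx : ∀ j, 0 ≤ (x j).im) :
    0 < (cav z t x).im := im_neg_inv_pos (den_im_pos hz t hx)

lemma norm_cav_le {z : ℂ} (hz : 0 < z.im) (t : ℝ) {x : Fin b → ℂ} (hx : ∀ j, 0 ≤ (x j).im) :
    ‖cav z t x‖ ≤ 1 / z.im := by
  have h1 := den_im_pos hz t hx
  have h2 : z.im ≤ ‖z - t + ∑ j, x j‖ := by
    refine le_trans ?_ (im_le_norm _)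
    rw [den_im]
    have := Finset.sum_nonneg fun j (_ : j ∈ Finset.univ) => hx j
    linarith
  unfold cav
  rw [norm_div, norm_neg, norm_one]
  exact one_div_le_one_div_of_le hz h2

/-- one level contracts the relation `GK` -/
lemma GK.cav {z : ℂ} {η κ : ℝ} (hη : 0 < η) (hz : η ≤ z.im) (hκ : 0 ≤ κ) (t : ℝ)
    {x y : Fin b → ℂ} (hx : ∀ j, 0 < (x j).im) (hy : ∀ j, 0 < (y j).im)
    (hxn : ∀ j, ‖x j‖ ≤ 1 / z.im) (hyn : ∀ j, ‖y j‖ ≤ 1 / z.im) (h : ∀ j, GK κ (x j) (y j)) :
    GK (qq b η * κ) (cav z t x) (cav z t y) := by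
  have hz0 : 0 < z.im := lt_of_lt_of_le hη hz
  have hS := den_im_pos hz0 t (fun j => (hx j).le)
  have hT := den_im_pos hz0 t (fun j => (hy j).le)
  refine GK.neg_inv ?_ hS hT
  have key := norm_sum_le_kappa Finset.univ x y κ hκ (fun j _ => (hx j).le) (fun j _ => (hy j).le)
    (fun j _ => h j)
  have e : (z - t + ∑ j, x j) - (z - t + ∑ j, y j) = ∑ j, (x j - y j) := by
    rw [Finset.sum_sub_distrib]; ring
  unfold GK
  rw [e, den_im, den_im]
  refine key.trans ?_
  have ha : ∀ w : Fin b → ℂ, (∀ j, ‖w j‖ ≤ 1 / z.im) → ∑ j, (w j).im ≤ b / z.im := by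
    intro w hw
    calc ∑ j, (w j).im ≤ ∑ _j : Fin b, 1 / z.im :=
          Finset.sum_le_sum fun j _ => (im_le_norm _).trans (hw j)
      _ = b / z.im := by
          rw [Finset.sum_const, Finset.card_univ, Fintype.card_fin, nsmul_eq_mul]; ring
  have hax := Finset.sum_nonneg fun j (_ : j ∈ Finset.univ) => (hx j).le
  have hay := Finset.sum_nonneg fun j (_ : j ∈ Finset.univ) => (hy j).le
  have h1 := le_qq hη hz hax (ha x hxn)
  have h2 := le_qq hη hz hay (ha y hyn)
  set a := ∑ j, (x j).im with hadef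
  set a' := ∑ j, (y j).im with ha'def
  have hq := qq_nonneg b η
  have s1 : Real.sqrt a ≤ Real.sqrt (qq b η) * Real.sqrt (z.im + a) := by
    rw [← Real.sqrt_mul hq]; exact Real.sqrt_le_sqrt h1
  have s2 : Real.sqrt a' ≤ Real.sqrt (qq b η) * Real.sqrt (z.im + a') := by
    rw [← Real.sqrt_mul hq]; exact Real.sqrt_le_sqrt h2
  have s3 : Real.sqrt a * Real.sqrt a' ≤
      (Real.sqrt (qq b η) * Real.sqrt (z.im + a)) * (Real.sqrt (qq b η) * Real.sqrt (z.im + a')) :=
    mul_le_mul s1 s2 (Real.sqrt_nonneg _) (by positivity)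
  have s4 : (Real.sqrt (qq b η) * Real.sqrt (z.im + a)) *
      (Real.sqrt (qq b η) * Real.sqrt (z.im + a')) =
      qq b η * (Real.sqrt (z.im + a) * Real.sqrt (z.im + a')) := by
    have := Real.mul_self_sqrt hq
    calc _ = (Real.sqrt (qq b η) * Real.sqrt (qq b η)) *
          (Real.sqrt (z.im + a) * Real.sqrt (z.im + a')) := by ring
      _ = _ := by rw [this]
  rw [s4] at s3
  calc κ * (2 * (Real.sqrt a * Real.sqrt a'))
      ≤ κ * (2 * (qq b η * (Real.sqrt (z.im + a) * Real.sqrt (z.im + a')))) := by gcongr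
    _ = qq b η * κ * (2 * (Real.sqrt (z.im + a) * Real.sqrt (z.im + a'))) := by ring

/-! ### The finite-depth values -/

lemma Xn_pos_norm (s : ℝ) {z : ℂ} (hz : 0 < z.im) (N : ℕ) (ω : List (Fin b) → ℝ) :
    0 < (Xn b s z N ω).im ∧ ‖Xn b s z N ω‖ ≤ 1 / z.im := by
  induction N generalizing ω with
  | zero =>
      have e : Xn b s z 0 ω = cav (b := 0) z (s * ω []) (fun _ => 0) := by
        simp [Xn, cav]
      rw [e]
      exact ⟨im_cav_pos hz _ (fun j => j.elim0), norm_cav_le hz _ (fun j => j.elim0)⟩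
  | succ N ih =>
      have hx : ∀ j : Fin b, 0 ≤ (Xn b s z N (sub j ω)).im := fun j => (ih (sub j ω)).1.le
      exact ⟨im_cav_pos hz _ hx, norm_cav_le hz _ hx⟩

lemma GK_succ (s : ℝ) {η : ℝ} (hη : 0 < η) {z : ℂ} (hz : η ≤ z.im) (N : ℕ)
    (ω : List (Fin b) → ℝ) :
    GK (b / (2 * η ^ 2) * qq b η ^ N) (Xn b s z (N + 1) ω) (Xn b s z N ω) := by
  have hz0 : 0 < z.im := lt_of_lt_of_le hη hz
  induction N generalizing ω with
  | zero =>
      have e : Xn b s z 0 ω = -1 / (z - (s * ω [] : ℝ)) := rfl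
      have e1 : Xn b s z (0 + 1) ω = -1 / (z - (s * ω [] : ℝ) + ∑ j : Fin b, Xn b s z 0 (sub j ω)) := rfl
      rw [e, e1, pow_zero, mul_one]
      have hx : ∀ j : Fin b, 0 ≤ (Xn b s z 0 (sub j ω)).im := fun j => (Xn_pos_norm s hz0 0 _).1.le
      have hS := den_im_pos hz0 (s * ω []) hx
      have hT : 0 < (z - (s * ω [] : ℝ)).im := by rw [sub_im, ofReal_im, sub_zero]; exact hz0
      refine GK.neg_inv ?_ hS hT
      unfold GK
      have e2 : (z - (s * ω [] : ℝ) + ∑ j : Fin b, Xn b s z 0 (sub j ω)) - (z - (s * ω [] : ℝ)) =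
          ∑ j : Fin b, Xn b s z 0 (sub j ω) := by ring
      rw [e2]
      have h1 : ‖∑ j : Fin b, Xn b s z 0 (sub j ω)‖ ≤ b / η := by
        calc ‖∑ j : Fin b, Xn b s z 0 (sub j ω)‖ ≤ ∑ j : Fin b, ‖Xn b s z 0 (sub j ω)‖ :=
              norm_sum_le _ _
          _ ≤ ∑ _j : Fin b, 1 / η := by
              refine Finset.sum_le_sum fun j _ => ((Xn_pos_norm s hz0 0 _).2).trans ?_
              exact one_div_le_one_div_of_le hη hz
          _ = b / η := by
              rw [Finset.sum_const, Finset.card_univ, Fintype.card_fin, nsmul_eq_mul]; ring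
      have h2 : η ≤ (z - (s * ω [] : ℝ) + ∑ j : Fin b, Xn b s z 0 (sub j ω)).im := by
        rw [den_im]
        have := Finset.sum_nonneg fun j (_ : j ∈ Finset.univ) => hx j
        linarith
      have h3 : η ≤ (z - (s * ω [] : ℝ)).im := by rw [sub_im, ofReal_im, sub_zero]; exact hz
      have h4 : Real.sqrt η * Real.sqrt η ≤
          Real.sqrt (z - (s * ω [] : ℝ) + ∑ j : Fin b, Xn b s z 0 (sub j ω)).im *
            Real.sqrt (z - (s * ω [] : ℝ)).im :=
        mul_le_mul (Real.sqrt_le_sqrt h2) (Real.sqrt_le_sqrt h3) (Real.sqrt_nonneg _)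
          (Real.sqrt_nonneg _)
      rw [Real.mul_self_sqrt hη.le] at h4
      refine h1.trans ?_
      calc (b : ℝ) / η = b / (2 * η ^ 2) * (2 * η) := by field_simp
        _ ≤ _ := by gcongr
  | succ N ih =>
      have hx : ∀ j : Fin b, 0 < (Xn b s z (N + 1) (sub j ω)).im :=
        fun j => (Xn_pos_norm s hz0 _ _).1
      have hy : ∀ j : Fin b, 0 < (Xn b s z N (sub j ω)).im := fun j => (Xn_pos_norm s hz0 _ _).1
      have hq := qq_nonneg b η
      have key := GK.cav hη hz (κ := b / (2 * η ^ 2) * qq b η ^ N) (by positivity) (s * ω []) hx hy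
        (fun j => (Xn_pos_norm s hz0 _ _).2) (fun j => (Xn_pos_norm s hz0 _ _).2)
        (fun j => ih (sub j ω))
      have e : qq b η * (b / (2 * η ^ 2) * qq b η ^ N) = b / (2 * η ^ 2) * qq b η ^ (N + 1) := by
        rw [pow_succ]; ring
      rw [e] at key
      exact key

/-- **T1, Cauchy estimate** -/
theorem t1_cauchy (b : ℕ) (s : ℝ) : T1_cauchy b s := by
  intro η hη z hz ω N
  have hz0 : 0 < z.im := lt_of_lt_of_le hη hz
  have key := GK_succ (b := b) s hη hz N ω
  unfold GK at key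
  refine key.trans ?_
  have h1 := (Xn_pos_norm s hz0 (N + 1) ω)
  have h2 := (Xn_pos_norm s hz0 N ω)
  have hb : ∀ M, (Xn b s z M ω).im ≤ 1 / η := fun M =>
    (im_le_norm _).trans ((Xn_pos_norm s hz0 M ω).2.trans (one_div_le_one_div_of_le hη hz))
  have h4 : Real.sqrt (Xn b s z (N + 1) ω).im * Real.sqrt (Xn b s z N ω).im ≤ 1 / η := by
    calc _ ≤ Real.sqrt (1 / η) * Real.sqrt (1 / η) :=
          mul_le_mul (Real.sqrt_le_sqrt (hb _)) (Real.sqrt_le_sqrt (hb _)) (Real.sqrt_nonneg _)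
            (Real.sqrt_nonneg _)
      _ = 1 / η := Real.mul_self_sqrt (by positivity)
  have hq := qq_nonneg b η
  calc b / (2 * η ^ 2) * qq b η ^ N * (2 * (Real.sqrt (Xn b s z (N + 1) ω).im *
        Real.sqrt (Xn b s z N ω).im))
      ≤ b / (2 * η ^ 2) * qq b η ^ N * (2 * (1 / η)) := by gcongr
    _ = b / η ^ 3 * (b / (b + η ^ 2)) ^ N := by unfold qq; field_simp

lemma dist_succ (s : ℝ) {η : ℝ} (hη : 0 < η) {z : ℂ} (hz : η ≤ z.im) (ω : List (Fin b) → ℝ)
    (N : ℕ) : dist (Xn b s z N ω) (Xn b s z (N + 1) ω) ≤ b / η ^ 3 * (qq b η) ^ N := by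
  rw [dist_comm, dist_eq_norm]
  exact t1_cauchy b s η hη z hz ω N

lemma tendsto_XX (s : ℝ) {z : ℂ} (hz : 0 < z.im) (ω : List (Fin b) → ℝ) :
    Tendsto (fun N => Xn b s z N ω) atTop (𝓝 (XX b s z ω)) := by
  have h := cauchySeq_of_le_geometric (qq b z.im) (b / z.im ^ 3) (qq_lt_one b hz)
    (dist_succ s hz le_rfl ω)
  exact h.tendsto_limUnder

/-- the error of the depth `N` approximation -/
lemma dist_Xn_XX (s : ℝ) {η : ℝ} (hη : 0 < η) {z : ℂ} (hz : η ≤ z.im) (ω : List (Fin b) → ℝ)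
    (N : ℕ) :
    dist (Xn b s z N ω) (XX b s z ω) ≤ b / η ^ 3 * (qq b η) ^ N / (1 - qq b η) :=
  dist_le_of_le_geometric_of_tendsto (qq b η) (b / η ^ 3) (qq_lt_one b hη)
    (dist_succ s hη hz ω) (tendsto_XX s (lt_of_lt_of_le hη hz) ω) N

lemma tendstoUniformlyOn_XX (s : ℝ) {η : ℝ} (hη : 0 < η) :
    TendstoUniformlyOn
      (fun N (p : ℂ × (List (Fin b) → ℝ)) => Xn b s p.1 N p.2) (fun p => XX b s p.1 p.2)
      atTop {p | η ≤ p.1.im} := by
  rw [Metric.tendstoUniformlyOn_iff]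
  intro ε hε
  have h1 : Tendsto (fun N : ℕ => b / η ^ 3 * (qq b η) ^ N / (1 - qq b η)) atTop (𝓝 0) := by
    have := tendsto_pow_atTop_nhds_zero_of_lt_one (qq_nonneg b η) (qq_lt_one b hη)
    have h2 := (this.const_mul (b / η ^ 3)).div_const (1 - qq b η)
    simpa using h2
  filter_upwards [h1.eventually (gt_mem_nhds hε)] with N hN p hp
  rw [dist_comm]
  exact lt_of_le_of_lt (dist_Xn_XX s hη hp p.2 N) hN

lemma XX_im_nonneg (s : ℝ) {z : ℂ} (hz : 0 < z.im) (ω : List (Fin b) → ℝ) :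
    0 ≤ (XX b s z ω).im := by
  have h := (continuous_im.tendsto _).comp (tendsto_XX s hz ω)
  exact ge_of_tendsto' h fun N => (Xn_pos_norm s hz N ω).1.le

lemma XX_recur (s : ℝ) {z : ℂ} (hz : 0 < z.im) (ω : List (Fin b) → ℝ) :
    XX b s z ω = cav z (s * ω []) fun j => XX b s z (sub j ω) := by
  have h1 : Tendsto (fun N => Xn b s z (N + 1) ω) atTop (𝓝 (XX b s z ω)) :=
    (tendsto_add_atTop_iff_nat 1).2 (tendsto_XX s hz ω)
  have h2 : Tendsto (fun N => z - (s * ω [] : ℝ) + ∑ j : Fin b, Xn b s z N (sub j ω)) atTop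
      (𝓝 (z - (s * ω [] : ℝ) + ∑ j : Fin b, XX b s z (sub j ω))) :=
    tendsto_const_nhds.add (tendsto_finsetSum _ fun j _ => tendsto_XX s hz (sub j ω))
  have hne : z - (s * ω [] : ℝ) + ∑ j : Fin b, XX b s z (sub j ω) ≠ 0 := by
    have := den_im_pos hz (s * ω []) (fun j : Fin b => XX_im_nonneg s hz (sub j ω))
    intro h0
    rw [h0] at this
    simp at this
  have h3 : Tendsto (fun N => Xn b s z (N + 1) ω) atTop
      (𝓝 (-1 / (z - (s * ω [] : ℝ) + ∑ j : Fin b, XX b s z (sub j ω)))) :=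
    tendsto_const_nhds.div h2 hne
  exact tendsto_nhds_unique h1 h3

lemma measurable_sub (j : Fin b) : Measurable (sub j : (List (Fin b) → ℝ) → List (Fin b) → ℝ) :=
  measurable_pi_lambda _ fun p => measurable_pi_apply _

lemma measurable_Xn (s : ℝ) (z : ℂ) (N : ℕ) : Measurable (Xn b s z N) := by
  induction N with
  | zero =>
      have : Xn b s z 0 = fun ω : List (Fin b) → ℝ => -1 / (z - ((s * ω [] : ℝ) : ℂ)) := rfl
      rw [this]
      have h1 : Measurable fun ω : List (Fin b) → ℝ => ω [] := measurable_pi_apply _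
      exact measurable_const.div (measurable_const.sub (measurable_ofReal.comp (h1.const_mul s)))
  | succ N ih =>
      have : Xn b s z (N + 1) = fun ω : List (Fin b) → ℝ =>
          -1 / (z - ((s * ω [] : ℝ) : ℂ) + ∑ j : Fin b, Xn b s z N (sub j ω)) := rfl
      rw [this]
      have h1 : Measurable fun ω : List (Fin b) → ℝ => ω [] := measurable_pi_apply _
      exact measurable_const.div ((measurable_const.sub (measurable_ofReal.comp (h1.const_mul s))).add
        (Finset.measurable_sum _ fun j _ => ih.comp (measurable_sub j)))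

lemma measurable_XX (s : ℝ) {z : ℂ} (hz : 0 < z.im) : Measurable (XX b s z) :=
  measurable_of_tendsto_metrizable (fun N => measurable_Xn s z N)
    (tendsto_pi_nhds.2 fun ω => tendsto_XX s hz ω)

lemma differentiableOn_Xn (s : ℝ) (N : ℕ) (ω : List (Fin b) → ℝ) :
    DifferentiableOn ℂ (fun z => Xn b s z N ω) {z | 0 < z.im} := by
  induction N generalizing ω with
  | zero =>
      have : (fun z : ℂ => Xn b s z 0 ω) = fun z => -1 / (z - ((s * ω [] : ℝ) : ℂ)) := rfl
      rw [this]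
      refine (differentiableOn_const _).div (differentiableOn_id.sub (differentiableOn_const _)) ?_
      intro z hz h0
      have : (z - ((s * ω [] : ℝ) : ℂ)).im = 0 := by rw [h0]; rfl
      rw [sub_im, ofReal_im, sub_zero] at this
      exact absurd this (ne_of_gt hz)
  | succ N ih =>
      have : (fun z : ℂ => Xn b s z (N + 1) ω) =
          fun z => -1 / (z - ((s * ω [] : ℝ) : ℂ) + ∑ j : Fin b, Xn b s z N (sub j ω)) := rfl
      rw [this]
      refine (differentiableOn_const _).div ((differentiableOn_id.sub (differentiableOn_const _)).add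
        (DifferentiableOn.fun_sum fun j _ => ih (sub j ω))) ?_
      intro z hz h0
      have := den_im_pos (b := b) hz (s * ω [])
        (fun j : Fin b => (Xn_pos_norm (b := b) s hz N (sub j ω)).1.le)
      rw [h0] at this
      simp at this

/-- **T1** -/
theorem t1 (b : ℕ) (s : ℝ) : T1 b s where
  tendsto := fun _ hz ω => tendsto_XX s hz ω
  unif := fun _ hη => tendstoUniformlyOn_XX s hη
  recur := fun _ hz ω => XX_recur s hz ω
  im_pos := fun z hz ω => by
    rw [XX_recur s hz ω]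
    exact im_cav_pos hz _ fun j => XX_im_nonneg s hz _
  norm_le := fun z hz ω => by
    rw [XX_recur s hz ω]
    exact norm_cav_le hz _ fun j => XX_im_nonneg s hz _
  meas := fun _ hz => measurable_XX s hz
  diff := fun ω => by
    have hopen : IsOpen {z : ℂ | 0 < z.im} := isOpen_lt continuous_const continuous_im
    refine TendstoLocallyUniformlyOn.differentiableOn (φ := atTop)
      (F := fun N z => Xn b s z N ω) ?_ (Eventually.of_forall fun N => differentiableOn_Xn s N ω)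
      hopen
    rw [Metric.tendstoLocallyUniformlyOn_iff]
    intro ε hε z hz
    have hz' : 0 < z.im := hz
    refine ⟨{w | z.im / 2 < w.im} ∩ {z | 0 < z.im}, ?_, ?_⟩
    · refine mem_nhdsWithin_of_mem_nhds (IsOpen.mem_nhds ?_ ?_)
      · exact (isOpen_lt continuous_const continuous_im).inter hopen
      · exact ⟨by simp only [Set.mem_ofPred_eq]; linarith, hz⟩
    · have := (Metric.tendstoUniformlyOn_iff.1
        (tendstoUniformlyOn_XX (b := b) s (η := z.im / 2) (by linarith))) ε hε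
      filter_upwards [this] with N hN w hw
      exact hN (w, ω) (le_of_lt hw.1)

end

end Crest.Agent.R166.TreeT1
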