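import Mathlib
import Crest.Agent.R166.Spec_D_350
/-!
Row 166, tree half, task T2 (helper251): the law of (root potential, the `b` subtrees) under
`PT b`, and the law of the disorder seen from a node.
-/
set_option autoImplicit false

namespace Crest.Agent.R166.TreeT2_251

open MeasureTheory Crest.Agent.R166.TreeDet350 Crest.Agent.R166.TreeDefs350
  Crest.Agent.R166.TreeSpec350

/-- glue a root value and `b` subtrees. -/
def glue {b : ℕ} (x : ℝ × (Fin b → List (Fin b) → ℝ)) : List (Fin b) → ℝ
  | [] => x.1
  | j :: q => x.2 j q

lemma measurable_glue {b : ℕ} : Measurable (glue (b := b)) := by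
  refine measurable_pi_lambda _ fun p => ?_
  cases p with
  | nil => exact measurable_fst
  | cons j q =>
    exact (measurable_pi_apply q).comp ((measurable_pi_apply j).comp measurable_snd)

lemma measurable_sub {b : ℕ} (j : Fin b) : Measurable (sub j) :=
  measurable_pi_lambda _ fun p => measurable_pi_apply (j :: p)

lemma measurable_split {b : ℕ} :
    Measurable (fun ω : List (Fin b) → ℝ => (ω [], fun j : Fin b => sub j ω)) :=
  (measurable_pi_apply []).prodMk (measurable_pi_lambda _ fun j => measurable_sub j)

/-- product over a finite set of words: root and children. -/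
lemma prod_words {b : ℕ} (s : Finset (List (Fin b))) (g : List (Fin b) → ENNReal) :
    ∏ p ∈ s, g p = (if [] ∈ s then g [] else 1) *
      ∏ j : Fin b, ∏ q ∈ s.preimage (List.cons j) (List.cons_injective.injOn), g (j :: q) := by
  classical
  rw [← Finset.prod_filter_mul_prod_filter_not s (fun p => p = [])]
  congr 1
  · by_cases h : [] ∈ s
    · rw [if_pos h]
      have : s.filter (fun p => p = []) = {[]} := by
        ext p; simp only [Finset.mem_filter, Finset.mem_singleton]
        constructor
        · rintro ⟨_, h2⟩; exact h2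
        · rintro rfl; exact ⟨h, rfl⟩
      rw [this, Finset.prod_singleton]
    · rw [if_neg h]
      have : s.filter (fun p => p = []) = ∅ := by
        ext p; simp only [Finset.mem_filter, Finset.notMem_empty, iff_false]
        rintro ⟨h1, rfl⟩; exact h h1
      rw [this, Finset.prod_empty]
  · rw [Finset.prod_sigma']
    symm
    refine Finset.prod_bij (fun x _ => x.1 :: x.2) ?_ ?_ ?_ ?_
    · intro x hx
      simp only [Finset.mem_sigma, Finset.mem_univ, Finset.mem_preimage, true_and] at hx
      simp only [Finset.mem_filter, hx, true_and]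
      simp
    · rintro ⟨j, q⟩ _ ⟨j', q'⟩ _ h
      simp only [List.cons.injEq] at h
      obtain ⟨rfl, rfl⟩ := h
      rfl
    · intro p hp
      simp only [Finset.mem_filter] at hp
      cases p with
      | nil => exact absurd rfl hp.2
      | cons j q =>
        exact ⟨⟨j, q⟩, by simp [hp.1], rfl⟩
    · intro x _; rfl

lemma map_glue (b : ℕ) :
    (unif.prod (Measure.pi fun _ : Fin b => PT b)).map glue = PT b := by
  classical
  unfold PT
  refine Measure.eq_infinitePi _ fun s t ht => ?_
  rw [Measure.map_apply measurable_glue (.pi s.countable_toSet fun _ _ => ht _)]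
  have hpre : glue ⁻¹' (Set.pi (s : Set (List (Fin b))) t) =
      (if [] ∈ s then t [] else Set.univ) ×ˢ
      (Set.pi Set.univ fun j : Fin b =>
        Set.pi (s.preimage (List.cons j) (List.cons_injective.injOn) : Set (List (Fin b)))
          fun q => t (j :: q)) := by
    ext ⟨r, f⟩
    simp only [Set.mem_preimage, Set.mem_pi, Finset.mem_coe, Set.mem_prod, Set.mem_univ,
      true_implies, Finset.coe_preimage]
    constructor
    · intro h
      refine ⟨?_, fun j q hq => h (j :: q) hq⟩
      by_cases h0 : [] ∈ s
      · rw [if_pos h0]; exact h [] h0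
      · rw [if_neg h0]; trivial
    · rintro ⟨h1, h2⟩ p hp
      cases p with
      | nil => rw [if_pos hp] at h1; exact h1
      | cons j q => exact h2 j q hp
  rw [hpre, Measure.prod_prod, Measure.pi_pi, prod_words s]
  congr 1
  · split_ifs
    · rfl
    · exact measure_univ
  · refine Finset.prod_congr rfl fun j _ => ?_
    exact Measure.infinitePi_pi _ fun q _ => ht _

theorem T2_proof (b : ℕ) : T2 b := by
  unfold T2
  conv_lhs => rw [← map_glue b]
  rw [Measure.map_map measurable_split measurable_glue]
  have : (fun ω : List (Fin b) → ℝ => (ω [], fun j : Fin b => sub j ω)) ∘ glue = id := by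
    funext x; rfl
  rw [this, Measure.map_id]

theorem T2_node_proof (b : ℕ) : T2_node b := by
  intro p
  refine ⟨measurable_pi_lambda _ fun q => measurable_pi_apply (p ++ q), ?_⟩
  unfold PT
  exact Measure.map_infinitePi_infinitePi_of_inj (P := fun _ : List (Fin b) => unif)
    (f := fun q => p ++ q) (List.append_right_injective p)

/-- `MeasurePreserving` form of `T2`. -/
theorem mp_split (b : ℕ) : MeasurePreserving
    (fun ω : List (Fin b) → ℝ => (ω [], fun j : Fin b => sub j ω)) (PT b)
    (unif.prod (Measure.pi fun _ : Fin b => PT b)) :=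
  ⟨measurable_split, T2_proof b⟩

theorem mp_glue (b : ℕ) : MeasurePreserving (glue (b := b))
    (unif.prod (Measure.pi fun _ : Fin b => PT b)) (PT b) :=
  ⟨measurable_glue, map_glue b⟩

/-- the subtrees: law `PT b` each, jointly independent. -/
theorem mp_subs (b : ℕ) : MeasurePreserving
    (fun ω : List (Fin b) → ℝ => fun j : Fin b => sub j ω) (PT b)
    (Measure.pi fun _ : Fin b => PT b) := by
  have h1 : MeasurePreserving (Prod.snd : ℝ × (Fin b → List (Fin b) → ℝ) → _)
      (unif.prod (Measure.pi fun _ : Fin b => PT b)) (Measure.pi fun _ : Fin b => PT b) :=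
    measurePreserving_snd
  exact h1.comp (mp_split b)

theorem mp_sub (b : ℕ) (j : Fin b) : MeasurePreserving (sub j) (PT b) (PT b) :=
  T2_node_proof b [j]

theorem mp_root (b : ℕ) : MeasurePreserving (fun ω : List (Fin b) → ℝ => ω []) (PT b) unif := by
  unfold PT
  exact measurePreserving_eval_infinitePi (fun _ : List (Fin b) => unif) []

theorem mp_coord (b : ℕ) (p : List (Fin b)) :
    MeasurePreserving (fun ω : List (Fin b) → ℝ => ω p) (PT b) unif := by
  unfold PT
  exact measurePreserving_eval_infinitePi (fun _ : List (Fin b) => unif) p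

/-- change of variables: `∫ f d(PT b) = ∫∫ f (glue (w, y))`. -/
theorem integral_glue (b : ℕ) {E : Type*} [NormedAddCommGroup E] [NormedSpace ℝ E]
    (f : (List (Fin b) → ℝ) → E) (hf : Integrable f (PT b)) :
    ∫ ω, f ω ∂(PT b) = ∫ w : ℝ, ∫ y : Fin b → List (Fin b) → ℝ, f (glue (w, y))
      ∂(Measure.pi fun _ => PT b) ∂unif := by
  have h1 : Integrable (fun x => f (glue x)) (unif.prod (Measure.pi fun _ : Fin b => PT b)) :=
    (mp_glue b).integrable_comp_of_integrable hf
  rw [← integral_prod _ h1]
  conv_lhs => rw [← (mp_glue b).map_eq]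
  refine integral_map measurable_glue.aemeasurable ?_
  rw [(mp_glue b).map_eq]; exact hf.aestronglyMeasurable

/-- the same for nonnegative measurable functions. -/
theorem lintegral_glue (b : ℕ) (f : (List (Fin b) → ℝ) → ENNReal) (hf : Measurable f) :
    ∫⁻ ω, f ω ∂(PT b) = ∫⁻ w : ℝ, ∫⁻ y : Fin b → List (Fin b) → ℝ, f (glue (w, y))
      ∂(Measure.pi fun _ => PT b) ∂unif := by
  have h := lintegral_prod (fun x : ℝ × (Fin b → List (Fin b) → ℝ) => f (glue x))
    (μ := unif) (ν := Measure.pi fun _ : Fin b => PT b) (hf.comp measurable_glue).aemeasurable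
  rw [← h]
  conv_lhs => rw [← (mp_glue b).map_eq]
  exact lintegral_map hf measurable_glue

end Crest.Agent.R166.TreeT2_251
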