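import Mathlib
import Crest.Agent.R166.Spec_D_350
import Crest.Agent.R166.TreeT1_383
import Crest.Agent.R166.TreeT2_251
/-!
Row 166, sections 32/70 (tree half), leaf (T4) of `Spec_D_350`: Wegner bound and non-degeneracy of
the cavity field on the tree.  (helper485)
-/
set_option autoImplicit false

namespace Crest.Agent.R166.T4_485

open MeasureTheory Crest.Agent.R166.TreeDet350 Crest.Agent.R166.TreeDefs350
  Crest.Agent.R166.TreeSpec350

/-- the decomposition map -/
def Phi (b : ℕ) (ω : List (Fin b) → ℝ) : ℝ × (Fin b → (List (Fin b) → ℝ)) :=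
  (ω [], fun j => sub j ω)

theorem measurable_sub {b : ℕ} (j : Fin b) : Measurable (sub j : (List (Fin b) → ℝ) → _) := by
  unfold TreeDefs350.sub
  exact measurable_pi_lambda _ fun p => measurable_pi_apply _

theorem measurable_Phi (b : ℕ) : Measurable (Phi b) := by
  unfold Phi
  exact (measurable_pi_apply _).prodMk (measurable_pi_lambda _ fun j => measurable_sub j)

theorem unif_le (A : Set ℝ) : unif A ≤ ENNReal.ofReal (1 / 2) * volume A := by
  unfold unif
  rw [Measure.smul_apply]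
  have h1 : (volume.restrict (Set.Icc (-1 : ℝ) 1)) A ≤ volume A := Measure.restrict_apply_le _ _
  have h2 : ((2⁻¹ : NNReal) : ENNReal) = ENNReal.ofReal (1 / 2) := by
    rw [one_div, ENNReal.ofReal_inv_of_pos (by norm_num)]
    norm_num
  rw [ENNReal.smul_def, smul_eq_mul, h2]
  gcongr

theorem unif_out : unif {w : ℝ | 1 < |w|} = 0 := by
  have hm : MeasurableSet {w : ℝ | 1 < |w|} := measurableSet_lt measurable_const measurable_norm
  unfold unif
  rw [Measure.smul_apply, Measure.restrict_apply hm]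
  have : {w : ℝ | 1 < |w|} ∩ Set.Icc (-1) 1 = ∅ := by
    ext w
    simp only [Set.mem_inter_iff, Set.mem_ofPred_eq, Set.mem_Icc, Set.mem_empty_iff_false, iff_false,
      not_and]
    intro h1 h2 h3
    have := abs_le.2 ⟨h2, h3⟩
    linarith
  rw [this]
  simp

/-- one-site Wegner estimate -/
theorem unif_wegner {s t : ℝ} (hs : 0 < s) (ht : 0 < t) (c : ℂ) :
    unif {w : ℝ | t < ‖-1 / (c - ((s * w : ℝ) : ℂ))‖} ≤ ENNReal.ofReal (1 / (s * t)) := by
  have hsub : {w : ℝ | t < ‖-1 / (c - ((s * w : ℝ) : ℂ))‖} ⊆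
      Set.Ioo ((c.re - 1 / t) / s) ((c.re + 1 / t) / s) := by
    intro w hw
    simp only [Set.mem_ofPred_eq] at hw
    have h0 : (c - ((s * w : ℝ) : ℂ)) ≠ 0 := by
      intro h
      rw [h] at hw
      simp at hw
      linarith
    have h1 : 0 < ‖c - ((s * w : ℝ) : ℂ)‖ := norm_pos_iff.2 h0
    have h2 : ‖-1 / (c - ((s * w : ℝ) : ℂ))‖ = 1 / ‖c - ((s * w : ℝ) : ℂ)‖ := by
      rw [norm_div]; simp
    rw [h2, lt_div_iff₀ h1] at hw
    have h3 : ‖c - ((s * w : ℝ) : ℂ)‖ < 1 / t := by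
      rw [lt_div_iff₀ ht]; linarith
    have h4 : |c.re - s * w| < 1 / t := by
      refine lt_of_le_of_lt ?_ h3
      have := Complex.abs_re_le_norm (c - ((s * w : ℝ) : ℂ))
      simpa using this
    rw [abs_lt] at h4
    constructor
    · rw [div_lt_iff₀ hs]; linarith [h4.2]
    · rw [lt_div_iff₀ hs]; linarith [h4.1]
  calc unif _ ≤ unif (Set.Ioo ((c.re - 1 / t) / s) ((c.re + 1 / t) / s)) := measure_mono hsub
    _ ≤ ENNReal.ofReal (1 / 2) * volume (Set.Ioo ((c.re - 1 / t) / s) ((c.re + 1 / t) / s)) :=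
        unif_le _
    _ = ENNReal.ofReal (1 / (s * t)) := by
        rw [Real.volume_Ioo, ← ENNReal.ofReal_mul (by norm_num)]
        congr 1
        field_simp
        ring

theorem wegner {b : ℕ} {s : ℝ} (hs : 0 < s) (h1 : T1 b s) (h2 : T2 b) : T4_wegner b s := by
  intro z hz t ht
  have hm : Measurable fun p : ℝ × (Fin b → (List (Fin b) → ℝ)) =>
      cav z (s * p.1) fun j => XX b s z (p.2 j) := by
    unfold cav
    refine Measurable.const_div ?_ _
    refine Measurable.add ?_ ?_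
    · refine Measurable.const_sub ?_ _
      exact Complex.measurable_ofReal.comp (measurable_fst.const_mul s)
    · refine Finset.measurable_sum _ fun j _ => ?_
      exact (h1.meas z hz).comp ((measurable_pi_apply j).comp measurable_snd)
  set S : Set (ℝ × (Fin b → (List (Fin b) → ℝ))) :=
    {p | t < ‖cav z (s * p.1) fun j => XX b s z (p.2 j)‖} with hS
  have hSm : MeasurableSet S := measurableSet_lt measurable_const hm.norm
  have e1 : {ω | t < ‖XX b s z ω‖} = Phi b ⁻¹' S := by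
    ext ω
    simp only [Set.mem_ofPred_eq, hS, Set.mem_preimage, Phi]
    rw [h1.recur z hz ω]
  rw [e1, ← Measure.map_apply (measurable_Phi b) hSm]
  have h2' : (PT b).map (Phi b) = unif.prod (Measure.pi fun _ : Fin b => PT b) := h2
  rw [h2', Measure.prod_apply_symm hSm]
  have h3 : ∀ y : Fin b → (List (Fin b) → ℝ), unif ((fun x => (x, y)) ⁻¹' S) ≤
      ENNReal.ofReal (1 / (s * t)) := by
    intro y
    have := unif_wegner hs ht (z + ∑ j, XX b s z (y j))
    refine le_trans (measure_mono ?_) this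
    intro w hw
    simp only [Set.mem_preimage, hS, Set.mem_ofPred_eq, cav] at hw ⊢
    have e : z - ((s * w : ℝ) : ℂ) + ∑ j, XX b s z (y j) =
      z + ∑ j, XX b s z (y j) - ((s * w : ℝ) : ℂ) := by ring
    rwa [e] at hw
  calc ∫⁻ y, unif ((fun x => (x, y)) ⁻¹' S) ∂(Measure.pi fun _ : Fin b => PT b)
      ≤ ∫⁻ _y, ENNReal.ofReal (1 / (s * t)) ∂(Measure.pi fun _ : Fin b => PT b) :=
        lintegral_mono h3
    _ = ENNReal.ofReal (1 / (s * t)) := by simp

/-- marginals of the decomposition -/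
theorem map_sub {b : ℕ} (h2 : T2 b) (j : Fin b) {A : Set (List (Fin b) → ℝ)}
    (hA : MeasurableSet A) : (PT b) (sub j ⁻¹' A) = (PT b) A := by
  have h2' : (PT b).map (Phi b) = unif.prod (Measure.pi fun _ : Fin b => PT b) := h2
  have e1 : sub j ⁻¹' A = Phi b ⁻¹' (Set.univ ×ˢ (Function.eval j ⁻¹' A)) := by
    ext ω
    simp [Phi]
  rw [e1, ← Measure.map_apply (measurable_Phi b)
    (MeasurableSet.univ.prod (measurable_pi_apply j hA)), h2', Measure.prod_prod]
  rw [(measurePreserving_eval (fun _ : Fin b => PT b) j).measure_preimage hA.nullMeasurableSet]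
  simp

theorem map_all {b : ℕ} (h2 : T2 b) {A : Set (List (Fin b) → ℝ)}
    (hA : MeasurableSet A) : (PT b) {ω | ∀ j : Fin b, sub j ω ∈ A} = (PT b) A ^ b := by
  have h2' : (PT b).map (Phi b) = unif.prod (Measure.pi fun _ : Fin b => PT b) := h2
  have e1 : {ω | ∀ j : Fin b, sub j ω ∈ A} =
      Phi b ⁻¹' (Set.univ ×ˢ (Set.pi Set.univ fun _ : Fin b => A)) := by
    ext ω
    simp [Phi]
  rw [e1, ← Measure.map_apply (measurable_Phi b)
    (MeasurableSet.univ.prod (MeasurableSet.univ_pi fun _ => hA)), h2', Measure.prod_prod,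
    Measure.pi_pi]
  simp

theorem root_out {b : ℕ} (h2 : T2 b) : (PT b) {ω | 1 < |ω []|} = 0 := by
  have h2' : (PT b).map (Phi b) = unif.prod (Measure.pi fun _ : Fin b => PT b) := h2
  have hm : MeasurableSet {w : ℝ | 1 < |w|} := measurableSet_lt measurable_const measurable_norm
  have e1 : {ω : List (Fin b) → ℝ | 1 < |ω []|} =
      Phi b ⁻¹' ({w : ℝ | 1 < |w|} ×ˢ Set.univ) := by
    ext ω
    simp [Phi]
  rw [e1, ← Measure.map_apply (measurable_Phi b) (hm.prod MeasurableSet.univ), h2',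
    Measure.prod_prod, unif_out]
  simp

/-- one step of the non-degeneracy recursion -/
theorem step {b : ℕ} {s : ℝ} (hs : 0 < s) (h1 : T1 b s) (h2 : T2 b) (hw : T4_wegner b s)
    {z : ℂ} {R κ t : ℝ} (hz : 0 < z.im) (hR : ‖z‖ ≤ R) (ht : 0 < t) :
    (PT b) {ω | (XX b s z ω).im < κ / (R + s + b * t) ^ 2} ≤
      (PT b) {ω | (XX b s z ω).im < κ} ^ b + b * ENNReal.ofReal (1 / (s * t)) := by
  set A : Set (List (Fin b) → ℝ) := {ω | (XX b s z ω).im < κ} with hA
  set B : Set (List (Fin b) → ℝ) := {ω | t < ‖XX b s z ω‖} with hB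
  have hAm : MeasurableSet A :=
    measurableSet_lt (Complex.measurable_im.comp (h1.meas z hz)) measurable_const
  have hBm : MeasurableSet B := measurableSet_lt measurable_const (h1.meas z hz).norm
  have hR0 : 0 ≤ R := (norm_nonneg z).trans hR
  have hM : 0 < R + s + b * t := by positivity
  have hsub : {ω | (XX b s z ω).im < κ / (R + s + b * t) ^ 2} ⊆
      ({ω | ∀ j : Fin b, sub j ω ∈ A} ∪ ⋃ j : Fin b, sub j ⁻¹' B) ∪ {ω | 1 < |ω []|} := by
    intro ω hω
    by_contra hcon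
    simp only [Set.mem_union, Set.mem_iUnion, Set.mem_preimage, Set.mem_ofPred_eq, not_or,
      not_exists, not_lt, hB, not_forall, hA] at hcon
    obtain ⟨⟨⟨j, hj⟩, hn⟩, hr⟩ := hcon
    simp only [Set.mem_ofPred_eq] at hω
    set T : ℂ := z - ((s * ω [] : ℝ) : ℂ) + ∑ j, XX b s z (sub j ω) with hT
    have hX : XX b s z ω = -1 / T := by rw [h1.recur z hz ω]; rfl
    have hTn : ‖T‖ ≤ R + s + b * t := by
      calc ‖T‖ ≤ ‖z - ((s * ω [] : ℝ) : ℂ)‖ + ‖∑ j, XX b s z (sub j ω)‖ := norm_add_le _ _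
        _ ≤ (‖z‖ + ‖((s * ω [] : ℝ) : ℂ)‖) + ∑ j, ‖XX b s z (sub j ω)‖ :=
            add_le_add (norm_sub_le _ _) (norm_sum_le _ _)
        _ ≤ (R + s) + ∑ _j : Fin b, t := by
            refine add_le_add (add_le_add hR ?_) (Finset.sum_le_sum fun j _ => hn j)
            rw [Complex.norm_real, Real.norm_eq_abs, abs_mul, abs_of_pos hs]
            nlinarith
        _ = R + s + b * t := by simp
    have hTi : κ ≤ T.im := by
      have e : T.im = z.im + ∑ j, (XX b s z (sub j ω)).im := by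
        rw [hT]; simp
      have h3 : (XX b s z (sub j ω)).im ≤ ∑ j, (XX b s z (sub j ω)).im :=
        Finset.single_le_sum (f := fun j => (XX b s z (sub j ω)).im)
          (fun i _ => (h1.im_pos z hz _).le) (Finset.mem_univ j)
      rw [e]; linarith
    have hTip : 0 < T.im := by
      have e : T.im = z.im + ∑ j, (XX b s z (sub j ω)).im := by
        rw [hT]; simp
      have h3 : 0 ≤ ∑ j, (XX b s z (sub j ω)).im :=
        Finset.sum_nonneg fun i _ => (h1.im_pos z hz _).le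
      rw [e]; linarith
    have hT0 : 0 < ‖T‖ := by
      refine norm_pos_iff.2 ?_
      intro h
      rw [h] at hTip
      simp at hTip
    have hXi : (XX b s z ω).im = T.im / ‖T‖ ^ 2 := by
      rw [hX, neg_div, one_div, Complex.neg_im, Complex.inv_im, ← Complex.normSq_eq_norm_sq]
      ring
    rw [hXi] at hω
    have h5 : T.im / (R + s + b * t) ^ 2 ≤ T.im / ‖T‖ ^ 2 := by
      gcongr
    have h6 : κ / (R + s + b * t) ^ 2 ≤ T.im / (R + s + b * t) ^ 2 := by
      gcongr
    linarith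
  calc (PT b) {ω | (XX b s z ω).im < κ / (R + s + b * t) ^ 2}
      ≤ (PT b) (({ω | ∀ j : Fin b, sub j ω ∈ A} ∪ ⋃ j : Fin b, sub j ⁻¹' B) ∪
          {ω | 1 < |ω []|}) := measure_mono hsub
    _ ≤ ((PT b) {ω | ∀ j : Fin b, sub j ω ∈ A} + (PT b) (⋃ j : Fin b, sub j ⁻¹' B)) +
          (PT b) {ω | 1 < |ω []|} :=
        (measure_union_le _ _).trans (add_le_add (measure_union_le _ _) le_rfl)
    _ ≤ ((PT b) A ^ b + ∑ j : Fin b, (PT b) (sub j ⁻¹' B)) + 0 := by
        refine add_le_add (add_le_add (map_all h2 hAm).le ?_) (root_out h2).le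
        exact measure_iUnion_fintype_le _ _
    _ = (PT b) A ^ b + ∑ _j : Fin b, (PT b) B := by
        rw [add_zero]
        congr 1
        exact Finset.sum_congr rfl fun j _ => map_sub h2 j hBm
    _ ≤ (PT b) A ^ b + b * ENNReal.ofReal (1 / (s * t)) := by
        refine add_le_add le_rfl ?_
        rw [Finset.sum_const, Finset.card_univ, Fintype.card_fin, nsmul_eq_mul]
        gcongr
        exact hw z hz t ht

theorem nondeg {b : ℕ} (hb : 2 ≤ b) {s : ℝ} (hs : 0 < s) (h1 : T1 b s) (h2 : T2 b)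
    (hw : T4_wegner b s) : T4_nondeg b s := by
  intro D R κ₀ hD hκ₀ hhalf ε hε
  -- one step for bounds: `q ≤ 1/2` and `δ > 0` give `q/2 + δ`
  have hstep : ∀ q : ℝ, 0 ≤ q → q ≤ 1 / 2 → ∀ δ : ℝ, 0 < δ →
      (∃ κ : ℝ, 0 < κ ∧ ∀ z ∈ D, (PT b) {ω | (XX b s z ω).im < κ} ≤ ENNReal.ofReal q) →
      (∃ κ : ℝ, 0 < κ ∧ ∀ z ∈ D,
        (PT b) {ω | (XX b s z ω).im < κ} ≤ ENNReal.ofReal (q / 2 + δ)) := by
    rintro q hq0 hq δ hδ ⟨κ, hκ, hall⟩
    have hb0 : (0 : ℝ) < b := by exact_mod_cast (by omega : 0 < b)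
    set t : ℝ := b / (s * δ) with ht
    have ht0 : 0 < t := by positivity
    set R' : ℝ := max R 0 with hR'
    have hM : 0 < R' + s + b * t := by
      have : 0 ≤ R' := le_max_right _ _
      positivity
    refine ⟨κ / (R' + s + b * t) ^ 2, by positivity, fun z hz => ?_⟩
    refine le_trans (step hs h1 h2 hw (hD z hz).1 ((hD z hz).2.trans (le_max_left _ _)) ht0) ?_
    have e1 : (b : ENNReal) * ENNReal.ofReal (1 / (s * t)) = ENNReal.ofReal δ := by
      rw [← ENNReal.ofReal_natCast, ← ENNReal.ofReal_mul (by positivity)]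
      congr 1
      rw [ht]
      field_simp
    have e2 : (PT b) {ω | (XX b s z ω).im < κ} ^ b ≤ ENNReal.ofReal (q / 2) := by
      calc (PT b) {ω | (XX b s z ω).im < κ} ^ b ≤ ENNReal.ofReal q ^ b := by
            gcongr
            exact hall z hz
        _ = ENNReal.ofReal (q ^ b) := (ENNReal.ofReal_pow hq0 b).symm
        _ ≤ ENNReal.ofReal (q / 2) := by
            refine ENNReal.ofReal_le_ofReal ?_
            calc q ^ b ≤ q ^ 2 := pow_le_pow_of_le_one hq0 (by linarith) hb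
              _ ≤ q / 2 := by nlinarith
    rw [e1, ENNReal.ofReal_add (by positivity) hδ.le]
    exact add_le_add e2 le_rfl
  -- iterate
  set δ : ℝ := min (ε / 2) (1 / 2) with hδd
  have hδ : 0 < δ := lt_min (by linarith) (by norm_num)
  have hδ1 : δ ≤ 1 / 2 := min_le_right _ _
  have hδ2 : δ ≤ ε / 2 := min_le_left _ _
  have hiter : ∀ n : ℕ, ∃ κ : ℝ, 0 < κ ∧ ∀ z ∈ D, (PT b) {ω | (XX b s z ω).im < κ} ≤
      ENNReal.ofReal ((1 / 2) * (1 / 2 : ℝ) ^ n + δ * (1 - (1 / 2 : ℝ) ^ n)) := by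
    intro n
    induction n with
    | zero =>
      refine ⟨κ₀, hκ₀, fun z hz => ?_⟩
      simpa using hhalf z hz
    | succ n ih =>
      have hp : 0 < (1 / 2 : ℝ) ^ n := by positivity
      have hp1 : (1 / 2 : ℝ) ^ n ≤ 1 := pow_le_one₀ (by norm_num) (by norm_num)
      have h3 := hstep ((1 / 2) * (1 / 2 : ℝ) ^ n + δ * (1 - (1 / 2 : ℝ) ^ n))
        (by nlinarith) (by nlinarith) (δ / 2) (by linarith) ih
      obtain ⟨κ, hκ, h4⟩ := h3
      refine ⟨κ, hκ, fun z hz => (h4 z hz).trans (ENNReal.ofReal_le_ofReal (le_of_eq ?_))⟩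
      rw [pow_succ]
      ring
  obtain ⟨n, hn⟩ := exists_pow_lt_of_lt_one hε (by norm_num : (1 / 2 : ℝ) < 1)
  obtain ⟨κ, hκ, h⟩ := hiter n
  refine ⟨κ, hκ, fun z hz => (h z hz).trans (ENNReal.ofReal_le_ofReal ?_)⟩
  have hp : 0 < (1 / 2 : ℝ) ^ n := by positivity
  nlinarith

/-- (T4), Wegner, unconditional -/
theorem t4_wegner (b : ℕ) {s : ℝ} (hs : 0 < s) : T4_wegner b s :=
  wegner hs (TreeT1.t1 b s) (TreeT2_251.T2_proof b)

/-- (T4), non-degeneracy, unconditional -/
theorem t4_nondeg {b : ℕ} (hb : 2 ≤ b) {s : ℝ} (hs : 0 < s) : T4_nondeg b s :=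
  nondeg hb hs (TreeT1.t1 b s) (TreeT2_251.T2_proof b) (t4_wegner b hs)

end Crest.Agent.R166.T4_485
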