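import Crest.Agent.R166.Spec_D_350
import Crest.Agent.R166.TreeT1_383

/-!
# R166, section 32/70 (T8), helper355: the averaged Green function up to the real axis

`Th s S = ∫ Im(-1/(S - s w)) d unif(w)`; `0 ≤ Th ≤ π/(2s)`, `|Th s S - Th s T| ≤ (2π/s) ρ(S,T)`.
-/

set_option autoImplicit false

open MeasureTheory Complex

namespace Crest.Agent.R166.T8355

open Crest.Agent.R166 Crest.Agent.R166.TreeDet350 Crest.Agent.R166.TreeDefs350
  Crest.Agent.R166.TreeSpec350

noncomputable section

/-! ### integration against the uniform law -/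

lemma integral_unif (f : ℝ → ℝ) : ∫ w, f w ∂unif = (1 / 2) * ∫ w in (-1 : ℝ)..1, f w := by
  unfold unif
  rw [integral_smul_nnreal_measure, intervalIntegral.integral_of_le (by norm_num),
    integral_Icc_eq_integral_Ioc]
  rw [NNReal.smul_def]
  simp

/-- `Im (-1/(S - t)) = Im S / |S - t|²` -/
lemma im_neg_inv (S : ℂ) (t : ℝ) : (-1 / (S - t)).im = S.im / ((S.re - t) ^ 2 + S.im ^ 2) := by
  have h1 : normSq (S - t) = (S.re - t) ^ 2 + S.im ^ 2 := by
    rw [normSq_apply]; simp; ring
  rw [Complex.div_im, h1]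
  simp [neg_div]

/-- the averaged resolvent -/
def Th (s : ℝ) (S : ℂ) : ℝ := ∫ w, (-1 / (S - (s * w : ℝ))).im ∂unif

lemma fw_nonneg {s : ℝ} {S : ℂ} (hS : 0 < S.im) (w : ℝ) : 0 ≤ (-1 / (S - (s * w : ℝ))).im := by
  rw [im_neg_inv]; positivity

lemma Th_nonneg {s : ℝ} {S : ℂ} (hS : 0 < S.im) : 0 ≤ Th s S :=
  integral_nonneg fun w => fw_nonneg hS w

lemma continuous_fw {s : ℝ} {S : ℂ} (hS : 0 < S.im) :
    Continuous fun w : ℝ => (-1 / (S - (s * w : ℝ))).im := by
  have : (fun w : ℝ => (-1 / (S - (s * w : ℝ))).im) =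
      fun w : ℝ => S.im / ((S.re - s * w) ^ 2 + S.im ^ 2) := by
    funext w; rw [im_neg_inv]
  rw [this]
  refine continuous_const.div (by fun_prop) fun w => ?_
  positivity

lemma Th_le {s : ℝ} (hs : 0 < s) {S : ℂ} (hS : 0 < S.im) : Th s S ≤ Real.pi / (2 * s) := by
  unfold Th
  rw [integral_unif]
  have hd : ∀ w ∈ Set.uIcc (-1 : ℝ) 1, HasDerivAt
      (fun w : ℝ => (-1 / s) * Real.arctan ((S.re - s * w) / S.im))
      ((-1 / (S - (s * w : ℝ))).im) w := by
    intro w _
    have h1 : HasDerivAt (fun w : ℝ => (S.re - s * w) / S.im) (-s / S.im) w := by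
      have := (((hasDerivAt_id w).const_mul s).const_sub S.re).div_const S.im
      simpa using this
    have h2 := (h1.arctan).const_mul (-1 / s)
    refine h2.congr_deriv ?_
    rw [im_neg_inv]
    have hne : (S.re - s * w) ^ 2 + S.im ^ 2 ≠ 0 := by positivity
    have hne2 : 1 + ((S.re - s * w) / S.im) ^ 2 ≠ 0 := by positivity
    field_simp
    ring
  rw [intervalIntegral.integral_eq_sub_of_hasDerivAt hd
    ((continuous_fw hS).intervalIntegrable _ _)]
  have h3 := Real.arctan_lt_pi_div_two ((S.re - s * (-1)) / S.im)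
  have h4 := Real.neg_pi_div_two_lt_arctan ((S.re - s * 1) / S.im)
  have h5 : (-1 / s) * Real.arctan ((S.re - s * 1) / S.im) -
      (-1 / s) * Real.arctan ((S.re - s * (-1)) / S.im) ≤ Real.pi / s := by
    have e : (-1 / s) * Real.arctan ((S.re - s * 1) / S.im) -
      (-1 / s) * Real.arctan ((S.re - s * (-1)) / S.im) =
      (Real.arctan ((S.re - s * (-1)) / S.im) - Real.arctan ((S.re - s * 1) / S.im)) / s := by
      ring
    rw [e, div_le_div_iff_of_pos_right hs]
    linarith
  calc (1 : ℝ) / 2 * _ ≤ 1 / 2 * (Real.pi / s) := by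
        exact mul_le_mul_of_nonneg_left h5 (by norm_num)
    _ = Real.pi / (2 * s) := by field_simp

/-- hyperbolic comparison of two points -/
lemma norm_sub_le_rho {x y : ℂ} (hx : 0 < x.im) (hy : 0 < y.im) (hr : rho x y ≤ 1 / 2) :
    ‖x - y‖ ≤ 4 * rho x y * y.im := by
  have h1 := norm_sub_eq_rho hx hy
  have h2 : ‖x - (starRingEnd ℂ) y‖ ≤ ‖x - y‖ + 2 * y.im := by
    have e : x - (starRingEnd ℂ) y = (x - y) + (y - (starRingEnd ℂ) y) := by ring
    rw [e]
    refine (norm_add_le _ _).trans ?_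
    rw [Complex.sub_conj, norm_mul, Complex.norm_I, mul_one, Complex.norm_real, Real.norm_eq_abs,
      abs_of_pos (by linarith)]
  have h0 := rho_nonneg x y
  have h3 : ‖x - y‖ ≤ rho x y * (‖x - y‖ + 2 * y.im) := by
    rw [h1]
    nlinarith [norm_nonneg (x - (starRingEnd ℂ) y)]
  nlinarith [norm_nonneg (x - y)]

lemma integrable_fw {s : ℝ} {S : ℂ} (hS : 0 < S.im) :
    Integrable (fun w : ℝ => (-1 / (S - (s * w : ℝ))).im) unif := by
  refine Integrable.of_bound (C := 1 / S.im) (continuous_fw hS).aestronglyMeasurable ?_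
  refine Filter.Eventually.of_forall fun w => ?_
  rw [Real.norm_eq_abs, abs_of_nonneg (fw_nonneg hS w), im_neg_inv,
    div_le_div_iff₀ (by positivity) hS]
  nlinarith [sq_nonneg (S.re - s * w)]

/-- **Lipschitz bound of the averaged resolvent in the pseudo-hyperbolic distance** -/
theorem Th_sub_le {s : ℝ} (hs : 0 < s) {S T : ℂ} (hS : 0 < S.im) (hT : 0 < T.im) :
    |Th s S - Th s T| ≤ 2 * Real.pi / s * rho S T := by
  have hpi := Real.pi_pos
  by_cases hr : rho S T ≤ 1 / 2
  · have h1 : |Th s S - Th s T| ≤ ∫ w, 4 * rho S T * (-1 / (T - (s * w : ℝ))).im ∂unif := by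
      unfold Th
      rw [← integral_sub (integrable_fw hS) (integrable_fw hT)]
      refine (abs_integral_le_integral_abs).trans ?_
      refine integral_mono ((integrable_fw hS).sub (integrable_fw hT)).abs
        ((integrable_fw hT).const_mul _) fun w => ?_
      have hSw : 0 < (S - (s * w : ℝ)).im := by simpa using hS
      have hTw : 0 < (T - (s * w : ℝ)).im := by simpa using hT
      have hS0 := ne_zero_of_im_pos hSw
      have hT0 := ne_zero_of_im_pos hTw
      have e : rho (-1 / (S - (s * w : ℝ))) (-1 / (T - (s * w : ℝ))) = rho S T := by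
        rw [rho_neg_inv hS0 hT0]
        unfold rho
        congr 1
        · congr 1; ring
        · congr 1
          rw [map_sub, Complex.conj_ofReal]; ring
      have hPS : 0 < (-1 / (S - (s * w : ℝ))).im := by rw [im_neg_inv]; positivity
      have hPT : 0 < (-1 / (T - (s * w : ℝ))).im := by rw [im_neg_inv]; positivity
      have h2 := norm_sub_le_rho hPS hPT (by rw [e]; exact hr)
      rw [e] at h2
      refine le_trans ?_ h2
      have h3 := Complex.abs_im_le_norm (-1 / (S - (s * w : ℝ)) - -1 / (T - (s * w : ℝ)))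
      rw [Complex.sub_im] at h3
      exact h3
    rw [integral_const_mul] at h1
    have h2 := Th_le hs hT
    have h3 : 4 * rho S T * Th s T ≤ 4 * rho S T * (Real.pi / (2 * s)) :=
      mul_le_mul_of_nonneg_left h2 (mul_nonneg (by norm_num) (rho_nonneg _ _))
    refine h1.trans (h3.trans (le_of_eq ?_))
    field_simp
    ring
  · push Not at hr
    have h1 := Th_le hs hS
    have h2 := Th_le hs hT
    have h3 := Th_nonneg (s := s) hS
    have h4 := Th_nonneg (s := s) hT
    have h5 : |Th s S - Th s T| ≤ Real.pi / (2 * s) := by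
      rw [abs_le]; constructor <;> linarith
    refine h5.trans ?_
    have h6 : Real.pi / (2 * s) ≤ 2 * Real.pi / s * (1 / 2) := by
      rw [div_mul_eq_mul_div, div_le_div_iff₀ (by positivity) hs]
      nlinarith [mul_pos hpi hs]
    refine h6.trans (mul_le_mul_of_nonneg_left hr.le (by positivity))

/-- moving the energy -/
lemma rho_add_le {z z' W : ℂ} (hz : 0 < z.im) (hz' : 0 < z'.im) (hW : 0 < W.im) :
    rho (z + W) (z' + W) ≤ ‖z - z'‖ / (2 * W.im) := by
  unfold rho
  have e : z + W - (z' + W) = z - z' := by ring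
  rw [e]
  refine div_le_div_of_nonneg_left (norm_nonneg _) (by positivity) ?_
  refine le_trans ?_ (Complex.abs_im_le_norm _)
  have : (z + W - (starRingEnd ℂ) (z' + W)).im = z.im + z'.im + 2 * W.im := by
    simp; ring
  rw [this, abs_of_pos (by positivity)]
  linarith

/-! ### the cavity average -/

variable {b : ℕ} {s : ℝ}

/-- the sum at the root of the `d`-regular tree -/
def SX (b : ℕ) (s : ℝ) (z : ℂ) (Ω : Fin (b + 1) → List (Fin b) → ℝ) : ℂ :=
  z + ∑ i, XX b s z (Ω i)

/-- the law of the `b+1` subtrees -/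
abbrev PP (b : ℕ) : Measure (Fin (b + 1) → List (Fin b) → ℝ) := Measure.pi fun _ => PT b

lemma SX_im (hT : T1 b s) {z : ℂ} (hz : 0 < z.im) (Ω : Fin (b + 1) → List (Fin b) → ℝ) :
    z.im < (SX b s z Ω).im := by
  unfold SX
  rw [Complex.add_im, Complex.im_sum]
  have : 0 < ∑ i, (XX b s z (Ω i)).im :=
    Finset.sum_pos (fun i _ => hT.im_pos z hz _) ⟨0, Finset.mem_univ _⟩
  linarith

lemma measurable_SX (hT : T1 b s) {z : ℂ} (hz : 0 < z.im) : Measurable (SX b s z) := by
  unfold SX
  refine measurable_const.add (Finset.measurable_sum _ fun i _ => ?_)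
  exact (hT.meas z hz).comp (measurable_pi_apply i)

lemma norm_neg_inv_le {z S : ℂ} (hz : 0 < z.im) (hS : z.im ≤ S.im) (t : ℝ) :
    ‖-1 / (S - t)‖ ≤ 1 / z.im := by
  rw [norm_div, norm_neg, norm_one]
  refine div_le_div_of_nonneg_left zero_le_one hz ?_
  refine le_trans ?_ (Complex.abs_im_le_norm _)
  rw [Complex.sub_im, Complex.ofReal_im, sub_zero]
  exact hS.trans (le_abs_self _)

/-- `Im Gav = E Th(S)` -/
theorem Gav_im (hT : T1 b s) {z : ℂ} (hz : 0 < z.im) :
    (Gav b s z).im = ∫ Ω, Th s (SX b s z Ω) ∂PP b := by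
  unfold Gav
  have hmeas : Measurable (fun p : ℝ × (Fin (b + 1) → List (Fin b) → ℝ) =>
      -1 / (SX b s z p.2 - ((s * p.1 : ℝ) : ℂ))) := by
    refine measurable_const.div (((measurable_SX hT hz).comp measurable_snd).sub ?_)
    exact Complex.measurable_ofReal.comp (measurable_fst.const_mul s)
  have hbound : ∀ p : ℝ × (Fin (b + 1) → List (Fin b) → ℝ),
      ‖-1 / (SX b s z p.2 - ((s * p.1 : ℝ) : ℂ))‖ ≤ 1 / z.im := fun p =>
    norm_neg_inv_le hz (SX_im hT hz p.2).le _
  have hint : Integrable (fun p : ℝ × (Fin (b + 1) → List (Fin b) → ℝ) =>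
      -1 / (SX b s z p.2 - ((s * p.1 : ℝ) : ℂ))) (unif.prod (PP b)) :=
    Integrable.of_bound (C := 1 / z.im) hmeas.aestronglyMeasurable
      (Filter.Eventually.of_forall hbound)
  have e1 : ∫ w : ℝ, ∫ ω : Fin (b + 1) → List (Fin b) → ℝ,
      -1 / (z - (s * w : ℝ) + ∑ i, XX b s z (ω i)) ∂(Measure.pi fun _ => PT b) ∂unif =
      ∫ w : ℝ, ∫ ω : Fin (b + 1) → List (Fin b) → ℝ,
      -1 / (SX b s z ω - (s * w : ℝ)) ∂(PP b) ∂unif := by
    refine integral_congr_ae (Filter.Eventually.of_forall fun w => ?_)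
    refine integral_congr_ae (Filter.Eventually.of_forall fun ω => ?_)
    simp only [SX]
    congr 1
    ring
  rw [e1, integral_integral_swap hint]
  have h2 : ∀ Ω : Fin (b + 1) → List (Fin b) → ℝ, Integrable (fun w : ℝ =>
      -1 / (SX b s z Ω - ((s * w : ℝ) : ℂ))) unif := fun Ω =>
    Integrable.of_bound (C := 1 / z.im)
      (hmeas.comp (measurable_id.prodMk measurable_const)).aestronglyMeasurable
      (Filter.Eventually.of_forall fun w => hbound (w, Ω))
  have h3 : Integrable (fun Ω => ∫ w, -1 / (SX b s z Ω - ((s * w : ℝ) : ℂ)) ∂unif) (PP b) :=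
    hint.integral_prod_right
  rw [← Complex.imCLM_apply, ← Complex.imCLM.integral_comp_comm h3]
  refine integral_congr_ae (Filter.Eventually.of_forall fun Ω => ?_)
  simp only
  rw [← Complex.imCLM.integral_comp_comm (h2 Ω)]
  rfl

lemma measurable_ThSX (hT : T1 b s) {z : ℂ} (hz : 0 < z.im) :
    AEStronglyMeasurable (fun Ω => Th s (SX b s z Ω)) (PP b) := by
  have hmeas : Measurable (fun p : (Fin (b + 1) → List (Fin b) → ℝ) × ℝ =>
      (-1 / (SX b s z p.1 - ((s * p.2 : ℝ) : ℂ))).im) := by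
    refine Complex.measurable_im.comp ?_
    refine measurable_const.div (((measurable_SX hT hz).comp measurable_fst).sub ?_)
    exact Complex.measurable_ofReal.comp (measurable_snd.const_mul s)
  exact (hmeas.stronglyMeasurable.integral_prod_right').aestronglyMeasurable

lemma integrable_ThSX (hs : 0 < s) (hT : T1 b s) {z : ℂ} (hz : 0 < z.im) :
    Integrable (fun Ω => Th s (SX b s z Ω)) (PP b) := by
  refine Integrable.of_bound (C := Real.pi / (2 * s)) (measurable_ThSX hT hz) ?_
  refine Filter.Eventually.of_forall fun Ω => ?_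
  have h := hz.trans (SX_im hT hz Ω)
  rw [Real.norm_eq_abs, abs_of_nonneg (Th_nonneg h)]
  exact Th_le hs h

/-- pointwise comparison of two energies -/
lemma Th_SX_sub_le (hs : 0 < s) (hT : T1 b s) {z z' : ℂ} (hz : 0 < z.im) (hz' : 0 < z'.im)
    {δ : ℝ} (hδ : 0 < δ) (Ω : Fin (b + 1) → List (Fin b) → ℝ) :
    |Th s (SX b s z Ω) - Th s (SX b s z' Ω)| ≤ 2 * Real.pi / s *
      (∑ i, rho (XX b s z (Ω i)) (XX b s z' (Ω i)) +
        ((if (XX b s z' (Ω 0)).im < δ then 1 else 0) + ‖z - z'‖ / (2 * δ))) := by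
  have hpi := Real.pi_pos
  set W' : ℂ := ∑ i, XX b s z' (Ω i) with hW'
  have hWim : 0 < W'.im := by
    rw [hW', Complex.im_sum]
    exact Finset.sum_pos (fun i _ => hT.im_pos z' hz' _) ⟨0, Finset.mem_univ _⟩
  have h1 : |Th s (SX b s z Ω) - Th s (z + W')| ≤ 2 * Real.pi / s *
      ∑ i, rho (XX b s z (Ω i)) (XX b s z' (Ω i)) := by
    refine (Th_sub_le hs (hz.trans (SX_im hT hz Ω)) (by rw [Complex.add_im]; linarith)).trans ?_
    refine mul_le_mul_of_nonneg_left ?_ (by positivity)
    obtain ⟨j, hj, h⟩ := rho_sum_le_max (Finset.univ : Finset (Fin (b + 1))) ⟨0, Finset.mem_univ _⟩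
      (fun i => XX b s z (Ω i)) (fun i => XX b s z' (Ω i)) z hz.le
      (fun i _ => hT.im_pos z hz _) (fun i _ => hT.im_pos z' hz' _)
    refine h.trans ?_
    exact Finset.single_le_sum (f := fun i => rho (XX b s z (Ω i)) (XX b s z' (Ω i)))
      (fun i _ => rho_nonneg _ _) hj
  have h2 : |Th s (z + W') - Th s (SX b s z' Ω)| ≤ 2 * Real.pi / s *
      ((if (XX b s z' (Ω 0)).im < δ then 1 else 0) + ‖z - z'‖ / (2 * δ)) := by
    have hS' : SX b s z' Ω = z' + W' := rfl
    rw [hS']
    refine (Th_sub_le hs (by rw [Complex.add_im]; linarith)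
      (by rw [Complex.add_im]; linarith)).trans ?_
    refine mul_le_mul_of_nonneg_left ?_ (by positivity)
    split_ifs with hc
    · have h3 := rho_le_one (x := z + W') (y := z' + W') (by rw [Complex.add_im]; linarith)
        (by rw [Complex.add_im]; linarith)
      have : 0 ≤ ‖z - z'‖ / (2 * δ) := by positivity
      linarith
    · push Not at hc
      rw [zero_add]
      refine (rho_add_le hz hz' hWim).trans ?_
      refine div_le_div_of_nonneg_left (norm_nonneg _) (by positivity) ?_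
      have h4 : (XX b s z' (Ω 0)).im ≤ W'.im := by
        rw [hW', Complex.im_sum]
        exact Finset.single_le_sum (f := fun i => (XX b s z' (Ω i)).im)
          (fun i _ => (hT.im_pos z' hz' _).le) (Finset.mem_univ 0)
      linarith
  calc |Th s (SX b s z Ω) - Th s (SX b s z' Ω)|
      ≤ |Th s (SX b s z Ω) - Th s (z + W')| + |Th s (z + W') - Th s (SX b s z' Ω)| :=
        abs_sub_le _ _ _
    _ ≤ _ := by rw [mul_add]; exact add_le_add h1 h2

lemma measurable_rhoXX (hT : T1 b s) {z z' : ℂ} (hz : 0 < z.im) (hz' : 0 < z'.im) :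
    Measurable fun ω => rho (XX b s z ω) (XX b s z' ω) := by
  unfold rho
  have h1 := hT.meas z hz
  have h2 := hT.meas z' hz'
  exact (h1.sub h2).norm.div ((h1.sub (Complex.continuous_conj.measurable.comp h2)).norm)

lemma integrable_rhoXX (hT : T1 b s) {z z' : ℂ} (hz : 0 < z.im) (hz' : 0 < z'.im) :
    Integrable (fun ω => rho (XX b s z ω) (XX b s z' ω)) (PT b) := by
  refine Integrable.of_bound (C := 1) (measurable_rhoXX hT hz hz').aestronglyMeasurable ?_
  refine Filter.Eventually.of_forall fun ω => ?_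
  rw [Real.norm_eq_abs, abs_of_nonneg (rho_nonneg _ _)]
  exact rho_le_one (hT.im_pos z hz _) (hT.im_pos z' hz' _)

lemma integrable_rhoXX_sq (hT : T1 b s) {z z' : ℂ} (hz : 0 < z.im) (hz' : 0 < z'.im) :
    Integrable (fun ω => rho (XX b s z ω) (XX b s z' ω) ^ 2) (PT b) := by
  refine Integrable.of_bound (C := 1) ((measurable_rhoXX hT hz hz').pow_const 2).aestronglyMeasurable
    ?_
  refine Filter.Eventually.of_forall fun ω => ?_
  have h1 := rho_le_one (hT.im_pos z hz ω) (hT.im_pos z' hz' ω)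
  have h0 := rho_nonneg (XX b s z ω) (XX b s z' ω)
  rw [Real.norm_eq_abs, abs_of_nonneg (by positivity)]
  nlinarith

lemma integral_eval {f : (List (Fin b) → ℝ) → ℝ} (hf : Measurable f) (i : Fin (b + 1)) :
    ∫ Ω, f (Ω i) ∂PP b = ∫ ω, f ω ∂PT b := by
  have h := measurePreserving_eval (fun _ : Fin (b + 1) => PT b) i
  rw [← h.map_eq, integral_map h.measurable.aemeasurable hf.aestronglyMeasurable]

lemma integrable_eval {f : (List (Fin b) → ℝ) → ℝ}
    (hi : Integrable f (PT b)) (i : Fin (b + 1)) :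
    Integrable (fun Ω : Fin (b + 1) → List (Fin b) → ℝ => f (Ω i)) (PP b) :=
  (measurePreserving_eval (fun _ : Fin (b + 1) => PT b) i).integrable_comp_of_integrable hi

/-- **comparison of two energies** -/
theorem Gav_sub_le (hs : 0 < s) (hT : T1 b s) {z z' : ℂ} (hz : 0 < z.im) (hz' : 0 < z'.im)
    {δ t ε1 ε2 : ℝ} (hδ : 0 < δ) (ht : 0 < t)
    (h1 : ∫ ω, rho (XX b s z ω) (XX b s z' ω) ^ 2 ∂(PT b) ≤ ε1) (hε2 : 0 ≤ ε2)
    (h2 : (PT b) {ω | (XX b s z' ω).im < δ} ≤ ENNReal.ofReal ε2) :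
    |(Gav b s z).im - (Gav b s z').im| ≤ 2 * Real.pi / s *
      ((b + 1) * (t / 2 + ε1 / (2 * t)) + (ε2 + ‖z - z'‖ / (2 * δ))) := by
  classical
  have hpi := Real.pi_pos
  have hmr := measurable_rhoXX hT hz hz'
  have hir := integrable_rhoXX hT hz hz'
  set I : (List (Fin b) → ℝ) → ℝ := fun ω => if (XX b s z' ω).im < δ then 1 else 0 with hI
  have hset : MeasurableSet {ω : List (Fin b) → ℝ | (XX b s z' ω).im < δ} :=
    measurableSet_lt (Complex.measurable_im.comp (hT.meas z' hz')) measurable_const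
  have hIm : Measurable I := Measurable.ite hset measurable_const measurable_const
  have hIi : Integrable I (PT b) := by
    refine Integrable.of_bound (C := 1) hIm.aestronglyMeasurable ?_
    refine Filter.Eventually.of_forall fun ω => ?_
    simp only [hI]
    split_ifs <;> simp
  have hII : ∫ ω, I ω ∂PT b ≤ ε2 := by
    have e : I = Set.indicator {ω : List (Fin b) → ℝ | (XX b s z' ω).im < δ} 1 := by
      funext ω
      simp only [hI, Set.indicator, Set.mem_ofPred_eq, Pi.one_apply]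
    rw [e, integral_indicator_one hset]
    exact ENNReal.toReal_le_of_le_ofReal hε2 h2
  have hr1 : ∫ ω, rho (XX b s z ω) (XX b s z' ω) ∂PT b ≤ t / 2 + ε1 / (2 * t) := by
    calc ∫ ω, rho (XX b s z ω) (XX b s z' ω) ∂PT b
        ≤ ∫ ω, (t / 2 + rho (XX b s z ω) (XX b s z' ω) ^ 2 / (2 * t)) ∂PT b := by
          refine integral_mono hir ((integrable_const _).add
            ((integrable_rhoXX_sq hT hz hz').div_const _)) fun ω => ?_
          simp only
          rw [← sub_nonneg]
          have : t / 2 + rho (XX b s z ω) (XX b s z' ω) ^ 2 / (2 * t) -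
              rho (XX b s z ω) (XX b s z' ω) =
              (t - rho (XX b s z ω) (XX b s z' ω)) ^ 2 / (2 * t) := by
            field_simp; ring
          rw [this]; positivity
      _ = t / 2 + (∫ ω, rho (XX b s z ω) (XX b s z' ω) ^ 2 ∂PT b) / (2 * t) := by
          rw [integral_add (integrable_const _) ((integrable_rhoXX_sq hT hz hz').div_const _),
            integral_const, integral_div]
          simp
      _ ≤ _ := by
          have : (∫ ω, rho (XX b s z ω) (XX b s z' ω) ^ 2 ∂PT b) / (2 * t) ≤ ε1 / (2 * t) :=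
            div_le_div_of_nonneg_right h1 (by positivity)
          linarith
  have hsumint : Integrable (fun Ω : Fin (b + 1) → List (Fin b) → ℝ =>
      ∑ i, rho (XX b s z (Ω i)) (XX b s z' (Ω i))) (PP b) :=
    integrable_finsetSum _ fun i _ => integrable_eval hir i
  have hrest : Integrable (fun Ω : Fin (b + 1) → List (Fin b) → ℝ =>
      (I (Ω 0) + ‖z - z'‖ / (2 * δ))) (PP b) :=
    (integrable_eval hIi 0).add (integrable_const _)
  rw [Gav_im hT hz, Gav_im hT hz', ← integral_sub (integrable_ThSX hs hT hz)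
    (integrable_ThSX hs hT hz')]
  calc |∫ Ω, (Th s (SX b s z Ω) - Th s (SX b s z' Ω)) ∂PP b|
      ≤ ∫ Ω, |Th s (SX b s z Ω) - Th s (SX b s z' Ω)| ∂PP b := abs_integral_le_integral_abs
    _ ≤ ∫ Ω, 2 * Real.pi / s * (∑ i, rho (XX b s z (Ω i)) (XX b s z' (Ω i)) +
        (I (Ω 0) + ‖z - z'‖ / (2 * δ))) ∂PP b := by
        refine integral_mono ((integrable_ThSX hs hT hz).sub (integrable_ThSX hs hT hz')).abs
          ((hsumint.add hrest).const_mul _) fun Ω => ?_
        exact Th_SX_sub_le hs hT hz hz' hδ Ω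
    _ = 2 * Real.pi / s * ((b + 1) * (∫ ω, rho (XX b s z ω) (XX b s z' ω) ∂PT b) +
        ((∫ ω, I ω ∂PT b) + ‖z - z'‖ / (2 * δ))) := by
        rw [integral_const_mul, integral_add hsumint hrest, integral_finsetSum _ fun i _ =>
          integrable_eval hir i, integral_add (integrable_eval hIi 0) (integrable_const _),
          integral_eval hIm]
        simp only [integral_eval hmr]
        simp
    _ ≤ _ := by
        refine mul_le_mul_of_nonneg_left ?_ (by positivity)
        refine add_le_add ?_ (add_le_add hII le_rfl)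
        exact mul_le_mul_of_nonneg_left hr1 (by positivity)

/-! ### lower bound -/

lemma Th_ge {S : ℂ} {R δ : ℝ} (hδ : 0 < δ) (hS : δ ≤ S.im) (hs : 0 < s) (hR : ‖S‖ + s ≤ R) :
    δ / R ^ 2 ≤ Th s S := by
  unfold Th
  have hS0 : 0 < S.im := hδ.trans_le hS
  have hR0 : 0 < R := by have := norm_nonneg S; linarith
  rw [integral_unif]
  have h1 : ∫ w in (-1 : ℝ)..1, δ / R ^ 2 ≤ ∫ w in (-1 : ℝ)..1, (-1 / (S - (s * w : ℝ))).im := by
    refine intervalIntegral.integral_mono_on (by norm_num) (by simp)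
      ((continuous_fw hS0).intervalIntegrable _ _) fun w hw => ?_
    rw [im_neg_inv]
    refine div_le_div₀ hS0.le hS (by positivity) ?_
    have h2 : |S.re - s * w| ≤ |S.re| + s := by
      refine (abs_sub _ _).trans ?_
      rw [abs_mul, abs_of_pos hs]
      have : |w| ≤ 1 := abs_le.2 hw
      nlinarith
    have h3 : (S.re - s * w) ^ 2 ≤ (|S.re| + s) ^ 2 := by
      rw [← sq_abs]; gcongr
    have h4 : ‖S‖ ^ 2 = S.re ^ 2 + S.im ^ 2 := by
      rw [← normSq_eq_norm_sq, normSq_apply]; ring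
    have h5 : |S.re| ≤ ‖S‖ := Complex.abs_re_le_norm S
    have h6 : (|S.re| + s) ^ 2 + S.im ^ 2 ≤ (‖S‖ + s) ^ 2 := by
      have : |S.re| ^ 2 = S.re ^ 2 := sq_abs _
      nlinarith
    have h7 : (‖S‖ + s) ^ 2 ≤ R ^ 2 := by
      have := norm_nonneg S
      gcongr
    linarith
  have h2 : ∫ w in (-1 : ℝ)..1, δ / R ^ 2 = 2 * (δ / R ^ 2) := by
    rw [intervalIntegral.integral_const]; norm_num
  rw [h2] at h1
  linarith

/-- lower bound of `Im Gav` from the non-degeneracy -/
theorem Gav_ge (hs : 0 < s) (hT : T1 b s) {z : ℂ} (hz : 0 < z.im) {δ M R : ℝ} (hδ : 0 < δ)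
    (hR : ‖z‖ + (b + 1) * M + s ≤ R) (hR0 : 0 < R)
    (h : (PT b) {ω | (XX b s z ω).im < δ ∨ M < ‖XX b s z ω‖} ≤
      ENNReal.ofReal (1 / (2 * (b + 1)))) :
    δ / (2 * R ^ 2) ≤ (Gav b s z).im := by
  classical
  rw [Gav_im hT hz]
  set A : Set (List (Fin b) → ℝ) := {ω | (XX b s z ω).im < δ ∨ M < ‖XX b s z ω‖} with hA
  have hAm : MeasurableSet A :=
    (measurableSet_lt (Complex.measurable_im.comp (hT.meas z hz)) measurable_const).union
      (measurableSet_lt measurable_const (hT.meas z hz).norm)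
  set I : (List (Fin b) → ℝ) → ℝ := A.indicator 1 with hI
  have hIm : Measurable I := measurable_one.indicator hAm
  have hIi : Integrable I (PT b) := by
    refine Integrable.of_bound (C := 1) hIm.aestronglyMeasurable ?_
    refine Filter.Eventually.of_forall fun ω => ?_
    simp only [hI, Set.indicator]
    split_ifs <;> simp
  have hII : ∫ ω, I ω ∂PT b ≤ 1 / (2 * (b + 1)) := by
    rw [hI, integral_indicator_one hAm]
    exact ENNReal.toReal_le_of_le_ofReal (by positivity) h
  have hpt : ∀ Ω : Fin (b + 1) → List (Fin b) → ℝ,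
      δ / R ^ 2 * (1 - ∑ i, I (Ω i)) ≤ Th s (SX b s z Ω) := by
    intro Ω
    have hTh := Th_nonneg (s := s) (hz.trans (SX_im hT hz Ω))
    have hI0 : ∀ ω, 0 ≤ I ω := fun ω => by
      simp only [hI, Set.indicator]; split_ifs <;> simp
    by_cases hc : ∃ i, Ω i ∈ A
    · obtain ⟨i, hi⟩ := hc
      have h1 : I (Ω i) = 1 := by simp [hI, hi]
      have h2 : I (Ω i) ≤ ∑ i, I (Ω i) :=
        Finset.single_le_sum (f := fun i => I (Ω i)) (fun i _ => hI0 _) (Finset.mem_univ i)
      have h3 : 1 - ∑ i, I (Ω i) ≤ 0 := by linarith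
      exact (mul_nonpos_of_nonneg_of_nonpos (by positivity) h3).trans hTh
    · push Not at hc
      have hc' : ∀ i, δ ≤ (XX b s z (Ω i)).im ∧ ‖XX b s z (Ω i)‖ ≤ M := by
        intro i
        have := hc i
        simp only [hA, Set.mem_ofPred_eq, not_or, not_lt] at this
        exact this
      have h1 : ∑ i, I (Ω i) = 0 := by
        refine Finset.sum_eq_zero fun i _ => ?_
        simp [hI, hc i]
      rw [h1, sub_zero, mul_one]
      refine Th_ge hδ ?_ hs ?_
      · unfold SX
        rw [Complex.add_im, Complex.im_sum]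
        have : (XX b s z (Ω 0)).im ≤ ∑ i, (XX b s z (Ω i)).im :=
          Finset.single_le_sum (f := fun i => (XX b s z (Ω i)).im)
            (fun i _ => (hT.im_pos z hz _).le) (Finset.mem_univ 0)
        linarith [(hc' 0).1]
      · refine le_trans ?_ hR
        unfold SX
        have h2 : ‖∑ i, XX b s z (Ω i)‖ ≤ (b + 1) * M := by
          refine (norm_sum_le _ _).trans ?_
          calc ∑ i, ‖XX b s z (Ω i)‖ ≤ ∑ _i : Fin (b + 1), M :=
                Finset.sum_le_sum fun i _ => (hc' i).2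
            _ = (b + 1) * M := by
                rw [Finset.sum_const, Finset.card_univ, Fintype.card_fin, nsmul_eq_mul]
                push_cast; ring
        have h3 := norm_add_le z (∑ i, XX b s z (Ω i))
        linarith
  have hsumint : Integrable (fun Ω : Fin (b + 1) → List (Fin b) → ℝ =>
      ∑ i, I (Ω i)) (PP b) :=
    integrable_finsetSum _ fun i _ => integrable_eval hIi i
  calc δ / (2 * R ^ 2) ≤ δ / R ^ 2 * (1 - (b + 1) * ∫ ω, I ω ∂PT b) := by
        have h1 : (b + 1) * ∫ ω, I ω ∂PT b ≤ 1 / 2 := by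
          calc (b + 1) * ∫ ω, I ω ∂PT b ≤ (b + 1) * (1 / (2 * (b + 1))) :=
                mul_le_mul_of_nonneg_left hII (by positivity)
            _ = 1 / 2 := by field_simp
        have h2 : δ / (2 * R ^ 2) = δ / R ^ 2 * (1 / 2) := by field_simp
        rw [h2]
        refine mul_le_mul_of_nonneg_left (by linarith) (by positivity)
    _ = ∫ Ω, δ / R ^ 2 * (1 - ∑ i, I (Ω i)) ∂PP b := by
        rw [integral_const_mul, integral_sub (integrable_const _) hsumint,
          integral_finsetSum _ fun i _ => integrable_eval hIi i]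
        simp only [integral_eval hIm]
        simp
    _ ≤ ∫ Ω, Th s (SX b s z Ω) ∂PP b :=
        integral_mono (((integrable_const _).sub hsumint).const_mul _)
          (integrable_ThSX hs hT hz) hpt

/-! ### extension to the real axis -/

lemma ze_re (E η : ℝ) : (ze E η).re = E := by unfold ze; simp

lemma ze_im (E η : ℝ) : (ze E η).im = η := by unfold ze; simp

lemma norm_ze_sub (E E' η η' : ℝ) : ‖ze E η - ze E' η'‖ ≤ |E - E'| + |η - η'| := by
  have e : ze E η - ze E' η' = ((E - E' : ℝ) : ℂ) + Complex.I * ((η - η' : ℝ) : ℂ) := by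
    unfold ze; push_cast; ring
  rw [e]
  refine (norm_add_le _ _).trans ?_
  rw [norm_mul, Complex.norm_I, one_mul, Complex.norm_real, Complex.norm_real]
  rfl

/-- a function uniformly continuous on the box has a continuous boundary value -/
theorem boundary_value (F : ℂ → ℝ) (a h : ℝ) (hh : 0 < h)
    (hF : ∀ ε : ℝ, 0 < ε → ∃ δ : ℝ, 0 < δ ∧ ∀ E E' η η' : ℝ, |E| ≤ a → |E'| ≤ a → 0 < η → η ≤ h →
      0 < η' → η' ≤ h → |E - E'| ≤ δ → |η - η'| ≤ δ → |F (ze E η) - F (ze E' η')| ≤ ε) :
    ∃ g : ℝ → ℝ, ContinuousOn g {E | |E| ≤ a} ∧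
      (∀ ε : ℝ, 0 < ε → ∃ η0 : ℝ, 0 < η0 ∧ ∀ η : ℝ, 0 < η → η ≤ η0 → ∀ E : ℝ, |E| ≤ a →
        |F (ze E η) - g E| ≤ ε) ∧
      ∀ c : ℝ, (∀ E η : ℝ, |E| ≤ a → 0 < η → η ≤ h → c ≤ F (ze E η)) →
        ∀ E : ℝ, |E| ≤ a → c ≤ g E := by
  set e : ℕ → ℝ := fun k => h / (k + 1) with he
  have hepos : ∀ k, 0 < e k := fun k => by simp only [he]; positivity
  have hele : ∀ k, e k ≤ h := fun k => by
    simp only [he]
    exact div_le_self hh.le (by have : (0 : ℝ) ≤ k := Nat.cast_nonneg k; linarith)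
  have helim : Filter.Tendsto e Filter.atTop (nhds 0) := by
    simp only [he]
    have := (tendsto_one_div_add_atTop_nhds_zero_nat (𝕜 := ℝ)).const_mul h
    simpa [div_eq_mul_inv] using this
  have hsmall : ∀ δ : ℝ, 0 < δ → ∃ N : ℕ, ∀ k, N ≤ k → e k ≤ δ := by
    intro δ hδ
    obtain ⟨N, hN⟩ := (Metric.tendsto_atTop.1 helim) δ hδ
    refine ⟨N, fun k hk => ?_⟩
    have := hN k hk
    rw [Real.dist_eq, sub_zero, abs_of_pos (hepos k)] at this
    exact this.le
  have hcauchy : ∀ E : ℝ, |E| ≤ a → CauchySeq fun k => F (ze E (e k)) := by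
    intro E hE
    rw [Metric.cauchySeq_iff']
    intro ε hε
    obtain ⟨δ, hδ, H⟩ := hF (ε / 2) (half_pos hε)
    obtain ⟨N, hN⟩ := hsmall δ hδ
    refine ⟨N, fun k hk => ?_⟩
    rw [Real.dist_eq]
    refine lt_of_le_of_lt (H E E (e k) (e N) hE hE (hepos k) (hele k) (hepos N) (hele N)
      (by simpa using hδ.le) ?_) (half_lt_self hε)
    have h1 := hN k hk
    have h2 := hN N le_rfl
    have h3 := hepos k
    have h4 := hepos N
    rw [abs_le]; constructor <;> linarith
  have hex : ∀ E : ℝ, ∃ l : ℝ, |E| ≤ a → Filter.Tendsto (fun k => F (ze E (e k))) Filter.atTop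
      (nhds l) := by
    intro E
    by_cases hE : |E| ≤ a
    · obtain ⟨l, hl⟩ := cauchySeq_tendsto_of_complete (hcauchy E hE)
      exact ⟨l, fun _ => hl⟩
    · exact ⟨0, fun h' => absurd h' hE⟩
  choose g hlim using hex
  refine ⟨g, ?_, ?_, ?_⟩
  · -- continuity
    rw [Metric.continuousOn_iff]
    intro E hE ε hε
    obtain ⟨δ, hδ, H⟩ := hF (ε / 2) (half_pos hε)
    refine ⟨δ, hδ, fun E' hE' hd => ?_⟩
    rw [Real.dist_eq] at hd ⊢
    refine lt_of_le_of_lt ?_ (half_lt_self hε)
    have h1 := ((hlim E' hE').sub (hlim E hE)).abs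
    refine le_of_tendsto h1 (Filter.Eventually.of_forall fun k => ?_)
    exact H E' E (e k) (e k) hE' hE (hepos k) (hele k) (hepos k) (hele k) hd.le (by simpa using hδ.le)
  · intro ε hε
    obtain ⟨δ, hδ, H⟩ := hF ε hε
    refine ⟨min δ h, lt_min hδ hh, fun η hη hle E hE => ?_⟩
    have h1 := ((hlim E hE).const_sub (F (ze E η))).abs
    obtain ⟨N, hN⟩ := hsmall δ hδ
    refine le_of_tendsto h1 ?_
    filter_upwards [Filter.eventually_ge_atTop N] with k hk
    refine H E E η (e k) hE hE hη (hle.trans (min_le_right _ _)) (hepos k) (hele k)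
      (by simpa using hδ.le) ?_
    have h2 := hN k hk
    have h3 := hepos k
    have h4 := hle.trans (min_le_left _ _)
    rw [abs_le]; constructor <;> linarith
  · intro c hc E hE
    exact ge_of_tendsto (hlim E hE)
      (Filter.Eventually.of_forall fun k => hc E (e k) hE (hepos k) (hele k))

/-- **(T8)** -/
theorem T8_of (hb : 1 ≤ b) (h6 : T6 b) (hnd : T6_nondeg b) : T8 b := by
  have hT : ∀ s : ℝ, T1 b s := fun s => TreeT1.t1 b s
  intro κ hκ
  have hpi := Real.pi_pos
  obtain ⟨s1, hs1, H6⟩ := h6 κ hκ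
  obtain ⟨s2, hs2, Hnd⟩ := hnd κ hκ
  have hb0 : (0 : ℝ) < b := by exact_mod_cast hb
  have hsq : 0 < Real.sqrt b := Real.sqrt_pos.2 hb0
  set a : ℝ := 2 * Real.sqrt b - κ with ha
  set h : ℝ := 2 * Real.sqrt b with hh
  have hh0 : 0 < h := by positivity
  refine ⟨min s1 s2, lt_min hs1 hs2, fun s hs hss => ?_⟩
  have H6 := H6 s hs (hss.trans_le (min_le_left _ _))
  have Hnd := Hnd s hs (hss.trans_le (min_le_right _ _))
  have hT := hT s
  set K : ℝ := 2 * Real.pi / s with hK
  have hK0 : 0 < K := by positivity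
  have hunif : ∀ ε : ℝ, 0 < ε → ∃ δ : ℝ, 0 < δ ∧ ∀ E E' η η' : ℝ, |E| ≤ a → |E'| ≤ a → 0 < η →
      η ≤ h → 0 < η' → η' ≤ h → |E - E'| ≤ δ → |η - η'| ≤ δ →
      |(fun z => (Gav b s z).im) (ze E η) - (fun z => (Gav b s z).im) (ze E' η')| ≤ ε := by
    intro ε hε
    set e : ℝ := ε / (4 * K) with he
    have he0 : 0 < e := by positivity
    set t : ℝ := e / (b + 1) with ht
    have ht0 : 0 < t := by positivity
    obtain ⟨δ1, hδ1, H6⟩ := H6 (t ^ 2) (by positivity)
    obtain ⟨δ2, hδ2, M, hM, Hnd⟩ := Hnd e he0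
    refine ⟨min (δ1 / 2) (δ2 * e), lt_min (by positivity) (by positivity),
      fun E E' η η' hE hE' hη hηh hη' hη'h hd1 hd2 => ?_⟩
    have hz : 0 < (ze E η).im := by rw [ze_im]; exact hη
    have hz' : 0 < (ze E' η').im := by rw [ze_im]; exact hη'
    have hn := norm_ze_sub E E' η η'
    have hn1 : ‖ze E η - ze E' η'‖ ≤ δ1 := by
      have h1 := hd1.trans (min_le_left _ _)
      have h2 := hd2.trans (min_le_left _ _)
      linarith
    have hn2 : ‖ze E η - ze E' η'‖ ≤ 2 * (δ2 * e) := by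
      have h1 := hd1.trans (min_le_right _ _)
      have h2 := hd2.trans (min_le_right _ _)
      linarith
    have h1 := H6 (ze E η) (ze E' η') (by rw [ze_re]; exact hE) hz (by rw [ze_im]; exact hηh)
      (by rw [ze_re]; exact hE') hz' (by rw [ze_im]; exact hη'h) hn1
    have h2 := Hnd (ze E' η') (by rw [ze_re]; exact hE') hz' (by rw [ze_im]; exact hη'h)
    have h3 := Gav_sub_le hs hT hz hz' hδ2 ht0 h1 he0.le
      ((measure_mono fun ω hω => Or.inl hω).trans h2)
    refine h3.trans ?_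
    have h4 : ‖ze E η - ze E' η'‖ / (2 * δ2) ≤ e := by
      rw [div_le_iff₀ (by positivity)]; linarith
    have h5 : ((b : ℝ) + 1) * (t / 2 + t ^ 2 / (2 * t)) = e := by
      rw [ht]; field_simp; ring
    rw [h5]
    calc K * (e + (e + ‖ze E η - ze E' η'‖ / (2 * δ2))) ≤ K * (e + (e + e)) := by gcongr
      _ = 3 / 4 * ε := by rw [he]; field_simp; ring
      _ ≤ ε := by linarith
  obtain ⟨g, hg1, hg2, hg3⟩ := boundary_value (fun z => (Gav b s z).im) a h hh0 hunif
  obtain ⟨δ, hδ, M, hM, Hnd1⟩ := Hnd (1 / (2 * (b + 1))) (by positivity)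
  set R : ℝ := a ^ 2 + 1 + h + (b + 1) * M + s with hR
  have hR0 : 0 < R := by positivity
  have hlow : ∀ E : ℝ, |E| ≤ a → δ / (2 * R ^ 2) ≤ g E := by
    refine hg3 _ fun E η hE hη hηh => ?_
    have hz : 0 < (ze E η).im := by rw [ze_im]; exact hη
    refine Gav_ge hs hT hz hδ ?_ hR0
      (Hnd1 (ze E η) (by rw [ze_re]; exact hE) hz (by rw [ze_im]; exact hηh))
    have h1 : ‖ze E η‖ ≤ |E| + η := by
      have := norm_ze_sub E 0 η 0
      have e0 : ze 0 0 = 0 := by unfold ze; simp
      rw [e0, sub_zero, sub_zero, sub_zero, abs_of_pos hη] at this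
      exact this
    have h2 : |E| ≤ a ^ 2 + 1 := by nlinarith [sq_nonneg (a - 1)]
    linarith
  refine ⟨fun E => g E / Real.pi, ?_, ⟨δ / (2 * R ^ 2) / Real.pi, by positivity, fun E hE => ?_⟩,
    fun ε hε => ?_⟩
  · exact (hg1.mono fun E (hE : |E| < a) => (le_of_lt hE : |E| ≤ a)).div_const _
  · exact div_le_div_of_nonneg_right (hlow E (le_of_lt hE)) hpi.le
  · obtain ⟨η0, hη0, H⟩ := hg2 ε hε
    refine ⟨η0, hη0, fun η hη hle E hE => ?_⟩
    have e1 : Real.pi * (g E / Real.pi) = g E := by field_simp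
    rw [e1]
    exact H η hη hle E (le_of_lt hE)

end

end Crest.Agent.R166.T8355
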