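import Mathlib
import Crest.Agent.R166.TreeCost_350
/-!
Row 166, section 32 (tree half): pointwise inequalities, part 2 (mean differences). (helper350)
-/
set_option autoImplicit false

namespace Crest.Agent.R166.TreeDet350

open Complex Finset

noncomputable section

variable {b : ℕ} {y0 : ℝ} {z m : ℂ}

theorem ut_sub (m D D' : ℂ) (h1 : 1 - m ^ 2 - m * D ≠ 0) (h2 : 1 - m ^ 2 - m * D' ≠ 0) :
    ut m D - ut m D' = (1 - m ^ 2) * (D - D') / ((1 - m ^ 2 - m * D) * (1 - m ^ 2 - m * D')) := by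
  unfold ut
  rw [div_sub_div _ _ h1 h2]
  congr 1
  ring

/-- perturbation of the inverse product. -/
theorem inv_prod_near {a α β : ℂ} {ε : ℝ} (ha : 1 / 2 ≤ ‖a‖) (ha' : ‖a‖ ≤ 3 / 2) (hε : ε ≤ 1 / 8)
    (hα : ‖α‖ ≤ ε) (hβ : ‖β‖ ≤ ε) :
    ‖1 / ((a - α) * (a - β)) - 1 / a ^ 2‖ ≤ 115 * ε := by
  have hε0 : 0 ≤ ε := (norm_nonneg _).trans hα
  have h1 : 3 / 8 ≤ ‖a - α‖ := by
    have := norm_sub_norm_le a α; linarith
  have h2 : 3 / 8 ≤ ‖a - β‖ := by
    have := norm_sub_norm_le a β; linarith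
  have n0 : a ≠ 0 := norm_pos_iff.1 (by linarith)
  have n1 : a - α ≠ 0 := norm_pos_iff.1 (by linarith)
  have n2 : a - β ≠ 0 := norm_pos_iff.1 (by linarith)
  have e : 1 / ((a - α) * (a - β)) - 1 / a ^ 2 =
      (a * (α + β) - α * β) / ((a - α) * (a - β) * a ^ 2) := by
    rw [div_sub_div _ _ (mul_ne_zero n1 n2) (pow_ne_zero 2 n0)]
    congr 1
    ring
  rw [e, norm_div, norm_mul, norm_mul, norm_pow]
  have h3 : ‖a * (α + β) - α * β‖ ≤ 4 * ε := by
    calc ‖a * (α + β) - α * β‖ ≤ ‖a * (α + β)‖ + ‖α * β‖ := norm_sub_le _ _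
      _ ≤ (3 / 2) * (2 * ε) + ε * (1 / 8) := by
        rw [norm_mul, norm_mul]
        have h4 : ‖α + β‖ ≤ 2 * ε := (norm_add_le _ _).trans (by linarith)
        exact add_le_add (mul_le_mul ha' h4 (norm_nonneg _) (by norm_num))
          (mul_le_mul hα (hβ.trans hε) (norm_nonneg _) hε0)
      _ ≤ _ := by linarith
  have h4 : (3 / 8) * (3 / 8) * (1 / 2) ^ 2 ≤ ‖a - α‖ * ‖a - β‖ * ‖a‖ ^ 2 := by
    apply mul_le_mul (mul_le_mul h1 h2 (by norm_num) (norm_nonneg _)) _ (by norm_num)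
      (by positivity)
    exact pow_le_pow_left₀ (by norm_num) ha 2
  calc _ ≤ 4 * ε / ((3 / 8) * (3 / 8) * (1 / 2) ^ 2) :=
        div_le_div₀ (by positivity) h3 (by norm_num) h4
    _ ≤ _ := by
      rw [div_le_iff₀ (by norm_num)]; nlinarith

theorem Adm.b_rr_le (h : Adm b y0 z m) : b ^ 2 * rr b y0 ≤ y0 ^ 6 / (3 * 10 ^ 7) := by
  have hy := h.hy
  have hy1 := h.y0_lt_one
  have h1 := h.C5_rr
  have hr := h.rr_pos
  have hK3 := K3_pos hy
  have hK4 := K4_pos hy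
  have hBB := h.BB_ge
  have hb := h.b2
  have h2 : 3 ≤ K3 y0 := by
    have h3 : 3 ≤ KK y0 := by unfold KK; rw [le_div_iff₀ hy]; linarith
    have h4 := one_le_K2 hy
    unfold K3
    nlinarith
  have h5 : 3 * b ^ 2 ≤ C5 b y0 := by
    have h6 : 3 * (b : ℝ) ^ 2 ≤ K3 y0 * (b ^ 2 * BB y0) := by
      have h7 : (b : ℝ) ^ 2 ≤ b ^ 2 * BB y0 := by nlinarith [sq_nonneg (b : ℝ)]
      have h8 : 0 ≤ (b : ℝ) ^ 2 := by positivity
      nlinarith
    unfold C5
    linarith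
  have h9 : 3 * b ^ 2 * rr b y0 ≤ C5 b y0 * rr b y0 := mul_le_mul_of_nonneg_right h5 hr.le
  rw [h1] at h9
  linarith

/-- pointwise relation between the displacement difference and `u`-difference. -/
theorem Adm.disp_u (h : Adm b y0 z m) {p : ℂ × ℂ} (h1 : 0 < p.1.im) (h2 : 0 < p.2.im) :
    ‖(gI m (rr b y0) p : ℂ) * (p.1 - p.2) - (1 - m ^ 2) * (uu m p.1 - uu m p.2)‖ ≤
      1600 * rr b y0 * rho p.1 p.2 + 5 / y0 * (bI m (rr b y0) p * rho p.1 p.2) := by
  have hr0 := h.rr_pos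
  have hyp := h.hy
  have hrho := rho_nonneg p.1 p.2
  have hr400 := h.rr_le'
  have hy1 := h.y0_lt_one
  have hr4 : rr b y0 ≤ 1 / 400 := by linarith
  by_cases hg : Good m (rr b y0) p
  · rw [gI_good hg, bI_good hg]
    have d1 := h.disp_le h1.le (by linarith) hg.1
    have d2 := h.disp_le h2.le (by linarith) hg.2
    have hδ := h.norm_sub_le_good h1 h2 (by linarith) hg.1 hg.2
    have hδ3 : ‖p.1 - p.2‖ ≤ 3 * rho p.1 p.2 := by
      refine hδ.trans (mul_le_mul_of_nonneg_right ?_ hrho)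
      have := h.im_le_norm; have := h.norm_le; linarith
    have hm := h.norm_le
    have a1 := h.norm_a_ge
    have a2 := h.norm_a_le
    have e1 := h.uu_sub h1.le h2.le
    rw [e1, one_sub_mul m p.1, one_sub_mul m p.2]
    have k1 : ‖m * (p.1 - m)‖ ≤ 2 * rr b y0 := by
      rw [norm_mul]
      have := mul_le_mul hm d1 (norm_nonneg _) (by norm_num); linarith
    have k2 : ‖m * (p.2 - m)‖ ≤ 2 * rr b y0 := by
      rw [norm_mul]
      have := mul_le_mul hm d2 (norm_nonneg _) (by norm_num); linarith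
    have key := inv_prod_near a1 a2 (by linarith) k1 k2
    obtain ⟨a, ha⟩ : ∃ a, a = 1 - m ^ 2 := ⟨_, rfl⟩
    rw [← ha] at a1 a2 key ⊢
    have n0 : a ≠ 0 := norm_pos_iff.1 (by linarith)
    have e2 : ((1 : ℝ) : ℂ) * (p.1 - p.2) -
        a * (a * (p.1 - p.2) / ((a - m * (p.1 - m)) * (a - m * (p.2 - m)))) =
        -(a ^ 2 * (p.1 - p.2)) *
          (1 / ((a - m * (p.1 - m)) * (a - m * (p.2 - m))) - 1 / a ^ 2) := by
      field_simp
      push_cast
      ring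
    rw [e2, norm_mul, norm_neg, norm_mul, norm_pow]
    have h5 : ‖a‖ ^ 2 * ‖p.1 - p.2‖ ≤ (3 / 2) ^ 2 * (3 * rho p.1 p.2) :=
      mul_le_mul (pow_le_pow_left₀ (norm_nonneg _) a2 2) hδ3 (norm_nonneg _) (by norm_num)
    have h6 := mul_le_mul h5 key (norm_nonneg _) (by positivity)
    refine h6.trans ?_
    have : 0 ≤ rho p.1 p.2 * rr b y0 := by positivity
    nlinarith
  · rw [gI_bad hg, bI_bad hg]
    have h3 := h.uu_lip h1 h2
    have a2 := h.norm_a_le
    rw [ofReal_zero, zero_mul, zero_sub, norm_neg, norm_mul]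
    have h4 : ‖1 - m ^ 2‖ * ‖uu m p.1 - uu m p.2‖ ≤ (3 / 2) * (3 / y0 * rho p.1 p.2) :=
      mul_le_mul a2 h3 (norm_nonneg _) (by norm_num)
    have h5 : 0 ≤ 1600 * rr b y0 * rho p.1 p.2 := by positivity
    have h6 : (3 / 2) * (3 / y0 * rho p.1 p.2) ≤ 5 / y0 * (1 * rho p.1 p.2) := by
      have : 0 ≤ rho p.1 p.2 / y0 := by positivity
      calc (3 / 2) * (3 / y0 * rho p.1 p.2) = 9 / 2 * (rho p.1 p.2 / y0) := by ring
        _ ≤ 5 * (rho p.1 p.2 / y0) := by linarith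
        _ = _ := by ring
    linarith

/-- the mean difference, pointwise. -/
theorem Adm.mean_pointwise (h : Adm b y0 z m) {t : ℝ} (ht : |t| ≤ rr b y0) {p : Fin b → ℂ × ℂ}
    (hp1 : ∀ k, 0 < (p k).1.im) (hp2 : ∀ k, 0 < (p k).2.im) :
    ‖(uu m (cav z t fun k => (p k).1) - uu m (cav z t fun k => (p k).2)) -
      m ^ 2 * ∑ k, (uu m (p k).1 - uu m (p k).2)‖ ≤
      4000 * b * rr b y0 * ∑ k, rho (p k).1 (p k).2 +
      6 / y0 * ∑ j, ∑ k, bI m (rr b y0) (p j) * rho (p k).1 (p k).2 := by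
  have hb := h.hb
  have hb2 := h.b2
  have hr0 := h.rr_pos
  have hyp := h.hy
  have hy1 := h.y0_lt_one
  have hr400 := h.rr_le'
  have hbr : b * rr b y0 ≤ 1 / 1000 := by
    have h1 := h.b_rr_le
    have h2 : y0 ^ 6 ≤ 1 := pow_le_one₀ hyp.le hy1.le
    have h3 : b * rr b y0 ≤ b ^ 2 * rr b y0 := by
      apply mul_le_mul_of_nonneg_right _ hr0.le; nlinarith
    linarith
  have hR0 : 0 ≤ ∑ k, rho (p k).1 (p k).2 := Finset.sum_nonneg fun _ _ => rho_nonneg _ _
  have hn2 : 0 ≤ 6 / y0 * ∑ j, ∑ k, bI m (rr b y0) (p j) * rho (p k).1 (p k).2 := by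
    refine mul_nonneg (by positivity) (Finset.sum_nonneg fun j _ => Finset.sum_nonneg fun k _ => ?_)
    exact mul_nonneg (bI_nonneg _ _) (rho_nonneg _ _)
  have hm2 : ‖m ^ 2‖ ≤ 1 := by
    rw [norm_pow, Adm.sq_norm]; linarith [h.normSq_le]
  by_cases hall : ∀ k, Good m (rr b y0) (p k)
  · -- all good
    have hr4 : rr b y0 ≤ 1 / 4 := by linarith
    have d1 : ∀ k, ‖(p k).1 - m‖ ≤ 2 * rr b y0 := fun k => h.disp_le (hp1 k).le hr4 (hall k).1
    have d2 : ∀ k, ‖(p k).2 - m‖ ≤ 2 * rr b y0 := fun k => h.disp_le (hp2 k).le hr4 (hall k).2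
    have hne1 : z - t + ∑ k, (p k).1 ≠ 0 :=
      ne_zero_of_im_pos (h.SS_im_pos t (fun k => (p k).1) hp1)
    have hne2 : z - t + ∑ k, (p k).2 ≠ 0 :=
      ne_zero_of_im_pos (h.SS_im_pos t (fun k => (p k).2) hp2)
    rw [h.uu_cav t (fun k => (p k).1) (fun k => (hp1 k).le) hne1,
      h.uu_cav t (fun k => (p k).2) (fun k => (hp2 k).le) hne2]
    have i1 := h.im_D_ge t (fun k => (p k).1) (fun k => (hp1 k).le)
    have i2 := h.im_D_ge t (fun k => (p k).2) (fun k => (hp2 k).le)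
    have D1 : ∀ q : Fin b → ℂ, (∀ k, ‖q k - m‖ ≤ 2 * rr b y0) →
        ‖m * (∑ k, (q k - m) - (t : ℂ))‖ ≤ 3 * (b * rr b y0) := by
      intro q hq
      have s1 : ‖∑ k, (q k - m)‖ ≤ b * (2 * rr b y0) := by
        refine (norm_sum_le _ _).trans ((Finset.sum_le_sum fun k _ => hq k).trans ?_)
        rw [Finset.sum_const, Finset.card_univ, Fintype.card_fin, nsmul_eq_mul]
      have s2 : ‖∑ k, (q k - m) - (t : ℂ)‖ ≤ b * (2 * rr b y0) + rr b y0 := by
        refine (norm_sub_le _ _).trans ?_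
        rw [norm_real, Real.norm_eq_abs]; linarith
      rw [norm_mul]
      have s3 := mul_le_mul h.norm_le s2 (norm_nonneg _) (by norm_num)
      have s4 : rr b y0 ≤ b * rr b y0 := by nlinarith
      nlinarith
    have k1 := D1 _ d1
    have k2 := D1 _ d2
    have a1 := h.norm_a_ge
    have a2 := h.norm_a_le
    have key := inv_prod_near a1 a2 (by linarith) k1 k2
    have hδ3 : ∀ k, ‖(p k).1 - (p k).2‖ ≤ 3 * rho (p k).1 (p k).2 := fun k => by
      have hδ := h.norm_sub_le_good (hp1 k) (hp2 k) hr4 (hall k).1 (hall k).2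
      refine hδ.trans (mul_le_mul_of_nonneg_right ?_ (rho_nonneg _ _))
      have := h.im_le_norm; have := h.norm_le; linarith
    have eD : ut m (∑ k, ((p k).1 - m) - t) - ut m (∑ k, ((p k).2 - m) - t) =
        ∑ k, (1 - m ^ 2) * ((p k).1 - (p k).2) *
          (1 / ((1 - m ^ 2 - m * (∑ k, ((p k).1 - m) - t)) *
            (1 - m ^ 2 - m * (∑ k, ((p k).2 - m) - t)))) := by
      rw [ut_sub m _ _ (h.den_ne i1) (h.den_ne i2), ← Finset.sum_mul, ← Finset.mul_sum]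
      have : (∑ k, ((p k).1 - m) - (t : ℂ)) - (∑ k, ((p k).2 - m) - t) =
          ∑ k, ((p k).1 - (p k).2) := by
        rw [sub_sub_sub_cancel_right, ← Finset.sum_sub_distrib]
        refine Finset.sum_congr rfl fun k _ => ?_
        ring
      rw [this, mul_one_div]
    rw [← mul_sub, eD, ← mul_sub, norm_mul, ← Finset.sum_sub_distrib]
    have hterm : ∀ k ∈ (Finset.univ : Finset (Fin b)),
        ‖(1 - m ^ 2) * ((p k).1 - (p k).2) *
          (1 / ((1 - m ^ 2 - m * (∑ k, ((p k).1 - m) - t)) *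
            (1 - m ^ 2 - m * (∑ k, ((p k).2 - m) - t)))) - (uu m (p k).1 - uu m (p k).2)‖ ≤
        4000 * b * rr b y0 * rho (p k).1 (p k).2 := by
      intro k _
      have q1 : ‖m * ((p k).1 - m)‖ ≤ 2 * rr b y0 := by
        rw [norm_mul]
        have := mul_le_mul h.norm_le (d1 k) (norm_nonneg _) (by norm_num); linarith
      have q2 : ‖m * ((p k).2 - m)‖ ≤ 2 * rr b y0 := by
        rw [norm_mul]
        have := mul_le_mul h.norm_le (d2 k) (norm_nonneg _) (by norm_num); linarith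
      have key2 := inv_prod_near a1 a2 (by linarith) q1 q2
      rw [h.uu_sub (hp1 k).le (hp2 k).le, one_sub_mul m (p k).1, one_sub_mul m (p k).2]
      obtain ⟨A, hA⟩ : ∃ A, A = 1 / ((1 - m ^ 2 - m * (∑ k, ((p k).1 - m) - t)) *
            (1 - m ^ 2 - m * (∑ k, ((p k).2 - m) - t))) := ⟨_, rfl⟩
      obtain ⟨B, hB⟩ : ∃ B, B = 1 / ((1 - m ^ 2 - m * ((p k).1 - m)) *
            (1 - m ^ 2 - m * ((p k).2 - m))) := ⟨_, rfl⟩
      rw [← hA] at key ⊢
      rw [← hB] at key2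
      have e3 : (1 - m ^ 2) * ((p k).1 - (p k).2) * A -
          (1 - m ^ 2) * ((p k).1 - (p k).2) / ((1 - m ^ 2 - m * ((p k).1 - m)) *
            (1 - m ^ 2 - m * ((p k).2 - m))) =
          (1 - m ^ 2) * ((p k).1 - (p k).2) * ((A - 1 / (1 - m ^ 2) ^ 2) -
            (B - 1 / (1 - m ^ 2) ^ 2)) := by
        rw [hB]; ring
      rw [e3, norm_mul, norm_mul]
      have s1 : ‖(A - 1 / (1 - m ^ 2) ^ 2) - (B - 1 / (1 - m ^ 2) ^ 2)‖ ≤
          115 * (3 * (b * rr b y0)) + 115 * (2 * rr b y0) :=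
        (norm_sub_le _ _).trans (add_le_add key key2)
      have s2 : ‖1 - m ^ 2‖ * ‖(p k).1 - (p k).2‖ ≤ (3 / 2) * (3 * rho (p k).1 (p k).2) :=
        mul_le_mul a2 (hδ3 k) (norm_nonneg _) (by norm_num)
      have s3 := mul_le_mul s2 s1 (norm_nonneg _) (by have := rho_nonneg (p k).1 (p k).2; positivity)
      refine s3.trans ?_
      have s4 : rr b y0 ≤ b * rr b y0 := by nlinarith
      have s5 : 115 * (3 * (b * rr b y0)) + 115 * (2 * rr b y0) ≤ 575 * (b * rr b y0) := by linarith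
      have s6 : 0 ≤ rho (p k).1 (p k).2 := rho_nonneg _ _
      calc (3 / 2) * (3 * rho (p k).1 (p k).2) *
            (115 * (3 * (b * rr b y0)) + 115 * (2 * rr b y0))
          ≤ (3 / 2) * (3 * rho (p k).1 (p k).2) * (575 * (b * rr b y0)) :=
            mul_le_mul_of_nonneg_left s5 (by positivity)
        _ = 2587.5 * (b * rr b y0 * rho (p k).1 (p k).2) := by ring
        _ ≤ 4000 * (b * rr b y0 * rho (p k).1 (p k).2) := by
            apply mul_le_mul_of_nonneg_right (by norm_num) (by positivity)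
        _ = _ := by ring
    have hs := (norm_sum_le _ _).trans (Finset.sum_le_sum hterm)
    rw [← Finset.mul_sum] at hs
    have hfin := mul_le_mul hm2 hs (norm_nonneg _) (by norm_num)
    rw [one_mul] at hfin
    linarith
  · push Not at hall
    obtain ⟨j, hj⟩ := hall
    have h1 : ‖uu m (cav z t fun k => (p k).1) - uu m (cav z t fun k => (p k).2)‖ ≤
        3 / y0 * ∑ k, rho (p k).1 (p k).2 := by
      refine (h.uu_lip (h.cav_im_pos t _ hp1) (h.cav_im_pos t _ hp2)).trans ?_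
      exact mul_le_mul_of_nonneg_left (h.rho_cav_le_sum t _ _ hp1 hp2) (by positivity)
    have h2 : ‖∑ k, (uu m (p k).1 - uu m (p k).2)‖ ≤ 3 / y0 * ∑ k, rho (p k).1 (p k).2 := by
      refine (norm_sum_le _ _).trans ?_
      rw [Finset.mul_sum]
      exact Finset.sum_le_sum fun k _ => h.uu_lip (hp1 k) (hp2 k)
    have h3 : ‖m ^ 2 * ∑ k, (uu m (p k).1 - uu m (p k).2)‖ ≤
        3 / y0 * ∑ k, rho (p k).1 (p k).2 := by
      rw [norm_mul]
      have := mul_le_mul hm2 h2 (norm_nonneg _) (by norm_num)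
      linarith
    have h4 : ∑ k, rho (p k).1 (p k).2 ≤ ∑ j, ∑ k, bI m (rr b y0) (p j) * rho (p k).1 (p k).2 := by
      have := Finset.single_le_sum
        (f := fun j => ∑ k, bI m (rr b y0) (p j) * rho (p k).1 (p k).2)
        (fun j _ => Finset.sum_nonneg fun k _ => mul_nonneg (bI_nonneg _ _) (rho_nonneg _ _))
        (Finset.mem_univ j)
      rw [bI_bad hj] at this
      simpa using this
    have h5 := norm_sub_le (uu m (cav z t fun k => (p k).1) - uu m (cav z t fun k => (p k).2))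
      (m ^ 2 * ∑ k, (uu m (p k).1 - uu m (p k).2))
    have h6 : 0 ≤ 4000 * b * rr b y0 * ∑ k, rho (p k).1 (p k).2 := by positivity
    have h7 : 6 / y0 * ∑ k, rho (p k).1 (p k).2 ≤
        6 / y0 * ∑ j, ∑ k, bI m (rr b y0) (p j) * rho (p k).1 (p k).2 :=
      mul_le_mul_of_nonneg_left h4 (by positivity)
    have h8 : 6 / y0 * ∑ k, rho (p k).1 (p k).2 =
        3 / y0 * ∑ k, rho (p k).1 (p k).2 + 3 / y0 * ∑ k, rho (p k).1 (p k).2 := by ring
    linarith

end

end Crest.Agent.R166.TreeDet350
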