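import Mathlib
import Crest.Agent.R166.TreeCost2_350
/-!
Row 166, section 32 (tree half): averaged one-level inequalities, for a GENERAL probability space
`(Θ, π)` and measurable `X Y : Θ → ℂ` with positive imaginary parts; the `b` children are
independent copies (`Measure.pi fun _ : Fin b => π`).  (helper350)
-/
set_option autoImplicit false

namespace Crest.Agent.R166.TreeDet350

open MeasureTheory ProbabilityTheory Complex Finset

noncomputable section

section prod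

variable {Θ : Type*} [MeasurableSpace Θ] {π : Measure Θ} [IsProbabilityMeasure π] {b : ℕ}

theorem int_eval {E : Type*} [NormedAddCommGroup E] [NormedSpace ℝ E] (j : Fin b) {f : Θ → E}
    (hf : AEStronglyMeasurable f π) :
    ∫ θ, f (θ j) ∂(Measure.pi fun _ : Fin b => π) = ∫ θ, f θ ∂π :=
  integral_comp_eval (μ := fun _ : Fin b => π) hf

theorem int_pair {𝕜 : Type*} [RCLike 𝕜] {j k : Fin b} (hjk : j ≠ k) {f g : Θ → 𝕜}
    (hf : Measurable f) (hg : Measurable g) :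
    ∫ θ, f (θ j) * g (θ k) ∂(Measure.pi fun _ : Fin b => π) = (∫ θ, f θ ∂π) * ∫ θ, g θ ∂π := by
  have hi : iIndepFun (fun (i : Fin b) (ω : Fin b → Θ) => id (ω i))
      (Measure.pi fun _ : Fin b => π) :=
    iIndepFun_pi (μ := fun _ : Fin b => π) (X := fun _ => id) fun _ => aemeasurable_id
  have h1 := (hi.indepFun hjk).comp hf hg
  have h2 := h1.integral_fun_mul_eq_mul_integral
    ((hf.comp (measurable_pi_apply j)).aestronglyMeasurable)
    ((hg.comp (measurable_pi_apply k)).aestronglyMeasurable)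
  have e1 : ∫ θ, f (θ j) ∂(Measure.pi fun _ : Fin b => π) = ∫ θ, f θ ∂π :=
    int_eval j hf.aestronglyMeasurable
  have e2 : ∫ θ, g (θ k) ∂(Measure.pi fun _ : Fin b => π) = ∫ θ, g θ ∂π :=
    int_eval k hg.aestronglyMeasurable
  rw [← e1, ← e2]
  exact h2

theorem integrable_of_bdd {Ω : Type*} [MeasurableSpace Ω] {P : Measure Ω} [IsFiniteMeasure P]
    {E : Type*} [NormedAddCommGroup E] {f : Ω → E} {B : ℝ} (hf : AEStronglyMeasurable f P)
    (hB : ∀ ω, ‖f ω‖ ≤ B) : Integrable f P :=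
  Integrable.of_bound hf B (Filter.Eventually.of_forall hB)

theorem int_norm_sum_sq {f : Θ → ℂ} (hf : Measurable f) {B : ℝ} (hB : ∀ θ, ‖f θ‖ ≤ B) :
    ∫ θ, ‖∑ k, f (θ k)‖ ^ 2 ∂(Measure.pi fun _ : Fin b => π) ≤
      b * ∫ θ, ‖f θ‖ ^ 2 ∂π + b ^ 2 * ‖∫ θ, f θ ∂π‖ ^ 2 := by
  have hfs : Measurable fun θ => (starRingEnd ℂ) (f θ) := Complex.continuous_conj.measurable.comp hf
  have hBs : ∀ θ, ‖(starRingEnd ℂ) (f θ)‖ ≤ B := fun θ => by rw [RCLike.norm_conj]; exact hB θ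
  have key : ∫ θ, ((‖∑ k, f (θ k)‖ ^ 2 : ℝ) : ℂ) ∂(Measure.pi fun _ : Fin b => π) =
      ∑ j : Fin b, ∑ k : Fin b, if j = k then ((∫ θ, ‖f θ‖ ^ 2 ∂π : ℝ) : ℂ) else
        ((‖∫ θ, f θ ∂π‖ ^ 2 : ℝ) : ℂ) := by
    have e0 : ∀ θ : Fin b → Θ, ((‖∑ k, f (θ k)‖ ^ 2 : ℝ) : ℂ) =
        ∑ j : Fin b, ∑ k : Fin b, f (θ j) * (starRingEnd ℂ) (f (θ k)) := by
      intro θ
      have : ((‖∑ k, f (θ k)‖ ^ 2 : ℝ) : ℂ) = (∑ k, f (θ k)) * (starRingEnd ℂ) (∑ k, f (θ k)) := by
        rw [Complex.mul_conj, Complex.normSq_eq_norm_sq]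
      rw [this, map_sum, Finset.sum_mul_sum]
    simp_rw [e0]
    have hint : ∀ j k : Fin b, Integrable (fun θ : Fin b → Θ =>
        f (θ j) * (starRingEnd ℂ) (f (θ k))) (Measure.pi fun _ : Fin b => π) := by
      intro j k
      refine integrable_of_bdd (B := B * B) ?_ ?_
      · exact ((hf.comp (measurable_pi_apply j)).mul
          (hfs.comp (measurable_pi_apply k))).aestronglyMeasurable
      · intro θ
        rw [norm_mul]
        exact mul_le_mul (hB _) (hBs _) (norm_nonneg _) ((norm_nonneg _).trans (hB (θ j)))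
    rw [integral_finsetSum _ fun j _ => integrable_finsetSum _ fun k _ => hint j k]
    refine Finset.sum_congr rfl fun j _ => ?_
    rw [integral_finsetSum _ fun k _ => hint j k]
    refine Finset.sum_congr rfl fun k _ => ?_
    split_ifs with hjk
    · subst hjk
      have e1 : ∀ θ : Fin b → Θ, f (θ j) * (starRingEnd ℂ) (f (θ j)) =
          (fun x => ((‖f x‖ ^ 2 : ℝ) : ℂ)) (θ j) := by
        intro θ
        simp only
        rw [Complex.mul_conj, Complex.normSq_eq_norm_sq]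
      simp_rw [e1]
      rw [int_eval j (f := fun x => ((‖f x‖ ^ 2 : ℝ) : ℂ))
        ((Complex.measurable_ofReal.comp (hf.norm.pow_const 2)).aestronglyMeasurable)]
      exact integral_ofReal
    · rw [int_pair hjk hf hfs, integral_conj, Complex.mul_conj, Complex.normSq_eq_norm_sq]
  have key2 : ∫ θ, ‖∑ k, f (θ k)‖ ^ 2 ∂(Measure.pi fun _ : Fin b => π) =
      ∑ j : Fin b, ∑ k : Fin b, if j = k then (∫ θ, ‖f θ‖ ^ 2 ∂π : ℝ) else
        (‖∫ θ, f θ ∂π‖ ^ 2 : ℝ) := by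
    have e9 : ∫ θ, ((‖∑ k, f (θ k)‖ ^ 2 : ℝ) : ℂ) ∂(Measure.pi fun _ : Fin b => π) =
        ((∫ θ, ‖∑ k, f (θ k)‖ ^ 2 ∂(Measure.pi fun _ : Fin b => π) : ℝ) : ℂ) := integral_ofReal
    rw [e9] at key
    have : ((∫ θ, ‖∑ k, f (θ k)‖ ^ 2 ∂(Measure.pi fun _ : Fin b => π) : ℝ) : ℂ) =
      ((∑ j : Fin b, ∑ k : Fin b, if j = k then (∫ θ, ‖f θ‖ ^ 2 ∂π : ℝ) else
        (‖∫ θ, f θ ∂π‖ ^ 2 : ℝ) : ℝ) : ℂ) := by
      rw [key]
      push_cast
      refine Finset.sum_congr rfl fun j _ => Finset.sum_congr rfl fun k _ => ?_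
      split_ifs <;> simp
    exact_mod_cast this
  rw [key2]
  have e3 : ∀ j k : Fin b, (if j = k then (∫ θ, ‖f θ‖ ^ 2 ∂π : ℝ) else
        (‖∫ θ, f θ ∂π‖ ^ 2 : ℝ)) ≤ (if j = k then (∫ θ, ‖f θ‖ ^ 2 ∂π : ℝ) else 0) +
        (‖∫ θ, f θ ∂π‖ ^ 2 : ℝ) := by
    intro j k
    split_ifs
    · have : 0 ≤ ‖∫ θ, f θ ∂π‖ ^ 2 := by positivity
      linarith
    · simp
  refine (Finset.sum_le_sum fun j _ => Finset.sum_le_sum fun k _ => e3 j k).trans ?_
  simp_rw [Finset.sum_add_distrib]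
  simp only [Finset.sum_ite_eq, Finset.mem_univ, if_true, Finset.sum_const, Finset.card_univ,
    Fintype.card_fin, nsmul_eq_mul]
  apply le_of_eq
  ring

/-- Cauchy–Schwarz for integrals. -/
theorem int_cs {Ω : Type*} [MeasurableSpace Ω] {P : Measure Ω} {f g : Ω → ℝ}
    (hf : Integrable (fun ω => f ω ^ 2) P) (hg : Integrable (fun ω => g ω ^ 2) P)
    (hfg : Integrable (fun ω => f ω * g ω) P) :
    (∫ ω, f ω * g ω ∂P) ^ 2 ≤ (∫ ω, f ω ^ 2 ∂P) * ∫ ω, g ω ^ 2 ∂P := by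
  have key : ∀ x : ℝ, 0 ≤ (∫ ω, f ω ^ 2 ∂P) * (x * x) + (2 * ∫ ω, f ω * g ω ∂P) * x +
      ∫ ω, g ω ^ 2 ∂P := by
    intro x
    have h1 : 0 ≤ ∫ ω, (x * f ω + g ω) ^ 2 ∂P := integral_nonneg fun ω => by positivity
    have h2 : ∫ ω, (x * f ω + g ω) ^ 2 ∂P = (∫ ω, f ω ^ 2 ∂P) * (x * x) +
        (2 * ∫ ω, f ω * g ω ∂P) * x + ∫ ω, g ω ^ 2 ∂P := by
      have e : ∀ ω, (x * f ω + g ω) ^ 2 = (x * x) * f ω ^ 2 + (2 * x) * (f ω * g ω) + g ω ^ 2 := by
        intro ω; ring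
      simp_rw [e]
      have i1 : Integrable (fun ω => (x * x) * f ω ^ 2) P := hf.const_mul _
      have i2 : Integrable (fun ω => (2 * x) * (f ω * g ω)) P := hfg.const_mul _
      have i12 : Integrable (fun ω => (x * x) * f ω ^ 2 + (2 * x) * (f ω * g ω)) P := i1.add i2
      rw [integral_add i12 hg, integral_add i1 i2, integral_const_mul, integral_const_mul]
      ring
    linarith
  have := discrim_le_zero key
  unfold discrim at this
  nlinarith

end prod

/-! ### measurability -/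

@[fun_prop]
theorem measurable_uu (m : ℂ) : Measurable (uu m) := by
  unfold uu
  exact (measurable_id.sub measurable_const).div (measurable_const.sub
    (measurable_const.mul measurable_id))

theorem measurable_rho : Measurable fun p : ℂ × ℂ => rho p.1 p.2 := by
  unfold rho
  exact (measurable_fst.sub measurable_snd).norm.div
    (measurable_fst.sub (Complex.continuous_conj.measurable.comp measurable_snd)).norm

theorem measurable_cost (M : ℝ) (m : ℂ) : Measurable (cost M m) := by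
  unfold cost
  exact (measurable_rho.pow_const 2).mul ((measurable_const.add (measurable_const.mul
    (((measurable_uu m).comp measurable_fst).norm.pow_const 2))).add (measurable_const.mul
    (((measurable_uu m).comp measurable_snd).norm.pow_const 2)))

theorem measurable_gI (m : ℂ) (r : ℝ) : Measurable (gI m r) := by
  unfold gI
  refine Measurable.ite ?_ measurable_const measurable_const
  unfold Good
  exact (measurableSet_le ((measurable_uu m).comp measurable_fst).norm measurable_const).inter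
    (measurableSet_le ((measurable_uu m).comp measurable_snd).norm measurable_const)

theorem measurable_bI (m : ℂ) (r : ℝ) : Measurable (bI m r) := by
  unfold bI
  exact measurable_const.sub (measurable_gI m r)

variable {b : ℕ} {y0 : ℝ} {z m : ℂ} {Θ : Type*} [MeasurableSpace Θ]

theorem measurable_cav {X : Θ → ℂ} (hX : Measurable X) (z : ℂ) (t : ℝ) :
    Measurable fun θ : Fin b → Θ => cav z t fun k => X (θ k) := by
  unfold cav
  exact measurable_const.div (measurable_const.add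
    (Finset.measurable_sum _ fun k _ => hX.comp (measurable_pi_apply k)))

theorem Adm.cost_le_C3 (h : Adm b y0 z m) {p : ℂ × ℂ} (h1 : 0 < p.1.im) (h2 : 0 < p.2.im) :
    cost (Mc b y0) m p ≤ C3 b y0 := by
  have k1 := h.norm_uu_le h1.le
  have k2 := h.norm_uu_le h2.le
  have k3 := rho_le_one h1 h2
  have k4 := rho_nonneg p.1 p.2
  have hM := h.Mc_pos
  have e1 : rho p.1 p.2 ^ 2 ≤ 1 := pow_le_one₀ k4 k3
  have e2 : ‖uu m p.1‖ ^ 2 ≤ BB y0 ^ 2 := pow_le_pow_left₀ (norm_nonneg _) k1 2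
  have e3 : ‖uu m p.2‖ ^ 2 ≤ BB y0 ^ 2 := pow_le_pow_left₀ (norm_nonneg _) k2 2
  have e4 : 1 + Mc b y0 * ‖uu m p.1‖ ^ 2 + Mc b y0 * ‖uu m p.2‖ ^ 2 ≤ C3 b y0 := by
    unfold C3; nlinarith
  unfold cost
  have e5 : 0 ≤ 1 + Mc b y0 * ‖uu m p.1‖ ^ 2 + Mc b y0 * ‖uu m p.2‖ ^ 2 := by positivity
  calc _ ≤ 1 * (1 + Mc b y0 * ‖uu m p.1‖ ^ 2 + Mc b y0 * ‖uu m p.2‖ ^ 2) :=
        mul_le_mul_of_nonneg_right e1 e5
    _ ≤ _ := by linarith

/-- an admissible pair of random variables -/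
structure Pr (X Y : Θ → ℂ) : Prop where
  mX : Measurable X
  mY : Measurable Y
  pX : ∀ θ, 0 < (X θ).im
  pY : ∀ θ, 0 < (Y θ).im

/-- average cost -/
def cA (b : ℕ) (y0 : ℝ) (m : ℂ) (π : Measure Θ) (X Y : Θ → ℂ) : ℝ :=
  ∫ θ, cost (Mc b y0) m (X θ, Y θ) ∂π

/-- probability of a bad pair -/
def pA (b : ℕ) (y0 : ℝ) (m : ℂ) (π : Measure Θ) (X Y : Θ → ℂ) : ℝ :=
  ∫ θ, bI m (rr b y0) (X θ, Y θ) ∂π

/-- mean square pseudo-hyperbolic distance -/
def rA (π : Measure Θ) (X Y : Θ → ℂ) : ℝ := ∫ θ, rho (X θ) (Y θ) ^ 2 ∂π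

/-- mean difference of the `u`-coordinates -/
def dA (m : ℂ) (π : Measure Θ) (X Y : Θ → ℂ) : ℂ := ∫ θ, (uu m (X θ) - uu m (Y θ)) ∂π

variable {π : Measure Θ} [IsProbabilityMeasure π] {X Y : Θ → ℂ}

theorem Pr.meas_pair (P : Pr X Y) : Measurable fun θ => (X θ, Y θ) := P.mX.prodMk P.mY

theorem Pr.meas_rho (P : Pr X Y) : Measurable fun θ => rho (X θ) (Y θ) :=
  measurable_rho.comp P.meas_pair

theorem Pr.meas_cost (P : Pr X Y) (M : ℝ) (m : ℂ) : Measurable fun θ => cost M m (X θ, Y θ) :=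
  (measurable_cost M m).comp P.meas_pair

theorem Pr.meas_bI (P : Pr X Y) (m : ℂ) (r : ℝ) : Measurable fun θ => bI m r (X θ, Y θ) :=
  (measurable_bI m r).comp P.meas_pair

theorem Pr.meas_gI (P : Pr X Y) (m : ℂ) (r : ℝ) : Measurable fun θ => gI m r (X θ, Y θ) :=
  (measurable_gI m r).comp P.meas_pair

theorem Pr.rho_sq_le (P : Pr X Y) (θ : Θ) : rho (X θ) (Y θ) ^ 2 ≤ 1 :=
  pow_le_one₀ (rho_nonneg _ _) (rho_le_one (P.pX θ) (P.pY θ))

theorem Pr.int_rho_sq (P : Pr X Y) : Integrable (fun θ => rho (X θ) (Y θ) ^ 2) π :=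
  integrable_of_bdd (B := 1) (P.meas_rho.pow_const 2).aestronglyMeasurable fun θ => by
    rw [Real.norm_eq_abs, abs_of_nonneg (by positivity)]; exact P.rho_sq_le θ

theorem Pr.int_rho (P : Pr X Y) : Integrable (fun θ => rho (X θ) (Y θ)) π :=
  integrable_of_bdd (B := 1) P.meas_rho.aestronglyMeasurable fun θ => by
    rw [Real.norm_eq_abs, abs_of_nonneg (rho_nonneg _ _)]; exact rho_le_one (P.pX θ) (P.pY θ)

theorem Pr.int_bI (P : Pr X Y) (m : ℂ) (r : ℝ) : Integrable (fun θ => bI m r (X θ, Y θ)) π :=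
  integrable_of_bdd (B := 1) (P.meas_bI m r).aestronglyMeasurable fun θ => by
    rw [Real.norm_eq_abs, abs_of_nonneg (bI_nonneg _ _)]; exact bI_le_one _ _

theorem Adm.int_cost (h : Adm b y0 z m) (P : Pr X Y) :
    Integrable (fun θ => cost (Mc b y0) m (X θ, Y θ)) π :=
  integrable_of_bdd (B := C3 b y0) (P.meas_cost _ m).aestronglyMeasurable fun θ => by
    rw [Real.norm_eq_abs, abs_of_nonneg (cost_nonneg h.Mc_pos.le _)]
    exact h.cost_le_C3 (P.pX θ) (P.pY θ)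

omit [IsProbabilityMeasure π] in
theorem rA_nonneg : 0 ≤ rA π X Y := integral_nonneg fun _ => by positivity

omit [IsProbabilityMeasure π] in
theorem pA_nonneg : 0 ≤ pA b y0 m π X Y := integral_nonneg fun _ => bI_nonneg _ _

omit [IsProbabilityMeasure π] in
theorem Adm.cA_nonneg (h : Adm b y0 z m) : 0 ≤ cA b y0 m π X Y :=
  integral_nonneg fun _ => cost_nonneg h.Mc_pos.le _

theorem Adm.rA_le_cA (h : Adm b y0 z m) (P : Pr X Y) : rA π X Y ≤ cA b y0 m π X Y :=
  integral_mono P.int_rho_sq (h.int_cost P) fun θ => rho_sq_le_cost h.Mc_pos.le (X θ, Y θ)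

theorem Adm.cA_le_rA (h : Adm b y0 z m) (P : Pr X Y) : cA b y0 m π X Y ≤ C3 b y0 * rA π X Y := by
  unfold cA rA
  rw [← integral_const_mul]
  refine integral_mono (h.int_cost P) (P.int_rho_sq.const_mul _) fun θ => ?_
  simp only
  have k1 := h.norm_uu_le (P.pX θ).le
  have k2 := h.norm_uu_le (P.pY θ).le
  have hM := h.Mc_pos
  have e2 : ‖uu m (X θ)‖ ^ 2 ≤ BB y0 ^ 2 := pow_le_pow_left₀ (norm_nonneg _) k1 2
  have e3 : ‖uu m (Y θ)‖ ^ 2 ≤ BB y0 ^ 2 := pow_le_pow_left₀ (norm_nonneg _) k2 2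
  have e4 : 1 + Mc b y0 * ‖uu m (X θ)‖ ^ 2 + Mc b y0 * ‖uu m (Y θ)‖ ^ 2 ≤ C3 b y0 := by
    unfold C3; nlinarith
  unfold cost
  rw [mul_comm]
  exact mul_le_mul_of_nonneg_right e4 (by positivity)

set_option maxHeartbeats 800000 in
/-- averaged one-level cost inequality, before the mean difference is inserted. -/
theorem Adm.cost_avg0 (h : Adm b y0 z m) {t : ℝ} (ht : |t| ≤ rr b y0) (P : Pr X Y) :
    ∫ θ, cost (Mc b y0) m (cav z t fun k => X (θ k), cav z t fun k => Y (θ k))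
      ∂(Measure.pi fun _ : Fin b => π) ≤
    (3 / 4 + (CF b y0 * b ^ 2 + C3 b y0 * b ^ 3) * pA b y0 m π X Y) * cA b y0 m π X Y +
      CA b m * b ^ 2 * ‖∫ θ, (gI m (rr b y0) (X θ, Y θ) : ℂ) * (X θ - Y θ) ∂π‖ ^ 2 := by
  have hy := h.hy
  have hy1 := h.y0_lt_one
  have hb2 := h.b2
  have hr0 := h.rr_pos
  have hr4 : rr b y0 ≤ 1 / 4 := by linarith [h.rr_le']
  have him := h.im_pos
  have hM := h.Mc_pos
  have hC3 := h.C3_pos
  have hCA : 0 ≤ CA b m := by unfold CA; positivity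
  have hCF : 0 ≤ CF b y0 := by unfold CF; positivity
  -- the function `g δ`
  obtain ⟨f, hf⟩ : ∃ f : Θ → ℂ, f = fun θ => (gI m (rr b y0) (X θ, Y θ) : ℂ) * (X θ - Y θ) :=
    ⟨_, rfl⟩
  have hfm : Measurable f := by
    rw [hf]
    exact (Complex.measurable_ofReal.comp (P.meas_gI m _)).mul (P.mX.sub P.mY)
  have hfb : ∀ θ, ‖f θ‖ ^ 2 ≤ (2 * m.im + 4 * rr b y0) ^ 2 *
      (gI m (rr b y0) (X θ, Y θ) * rho (X θ) (Y θ) ^ 2) := by
    intro θ
    rw [hf]
    simp only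
    by_cases hg : Good m (rr b y0) (X θ, Y θ)
    · rw [gI_good hg, ofReal_one, one_mul, one_mul, ← mul_pow]
      exact pow_le_pow_left₀ (norm_nonneg _)
        (h.norm_sub_le_good (P.pX θ) (P.pY θ) hr4 hg.1 hg.2) 2
    · rw [gI_bad hg]; simp
  have hfb1 : ∀ θ, ‖f θ‖ ≤ 2 * m.im + 4 * rr b y0 := by
    intro θ
    have h1 := hfb θ
    have h2 : gI m (rr b y0) (X θ, Y θ) * rho (X θ) (Y θ) ^ 2 ≤ 1 * 1 :=
      mul_le_mul (gI_le_one _ _) (P.rho_sq_le θ) (by positivity) (by norm_num)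
    have h3 : ‖f θ‖ ^ 2 ≤ (2 * m.im + 4 * rr b y0) ^ 2 := by
      have : 0 ≤ (2 * m.im + 4 * rr b y0) ^ 2 := by positivity
      nlinarith
    exact (pow_le_pow_iff_left₀ (norm_nonneg _) (by positivity) (by norm_num)).1 h3
  have hCost : Measurable fun θ => cost (Mc b y0) m (X θ, Y θ) := P.meas_cost _ m
  have hcav1 : Measurable fun θ : Fin b → Θ => cav z t fun k => X (θ k) := measurable_cav P.mX z t
  have hcav2 : Measurable fun θ : Fin b → Θ => cav z t fun k => Y (θ k) := measurable_cav P.mY z t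
  have pc1 : ∀ θ : Fin b → Θ, 0 < (cav z t fun k => X (θ k)).im := fun θ =>
    h.cav_im_pos t _ fun k => P.pX (θ k)
  have pc2 : ∀ θ : Fin b → Θ, 0 < (cav z t fun k => Y (θ k)).im := fun θ =>
    h.cav_im_pos t _ fun k => P.pY (θ k)
  -- the four functions
  obtain ⟨bb, hbb⟩ : ∃ bb : Θ → ℝ, bb = fun θ => bI m (rr b y0) (X θ, Y θ) := ⟨_, rfl⟩
  obtain ⟨r2, hr2⟩ : ∃ r2 : Θ → ℝ, r2 = fun θ => rho (X θ) (Y θ) ^ 2 := ⟨_, rfl⟩
  obtain ⟨co, hco⟩ : ∃ co : Θ → ℝ, co = fun θ => cost (Mc b y0) m (X θ, Y θ) := ⟨_, rfl⟩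
  have mbb : Measurable bb := by rw [hbb]; exact P.meas_bI _ _
  have mr2 : Measurable r2 := by rw [hr2]; exact P.meas_rho.pow_const 2
  have mco : Measurable co := by rw [hco]; exact P.meas_cost _ _
  have bb0 : ∀ θ, 0 ≤ bb θ := fun θ => by rw [hbb]; exact bI_nonneg _ _
  have bb1 : ∀ θ, bb θ ≤ 1 := fun θ => by rw [hbb]; exact bI_le_one _ _
  have r20 : ∀ θ, 0 ≤ r2 θ := fun θ => by rw [hr2]; positivity
  have r21 : ∀ θ, r2 θ ≤ 1 := fun θ => by rw [hr2]; exact P.rho_sq_le θ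
  have co0 : ∀ θ, 0 ≤ co θ := fun θ => by rw [hco]; exact cost_nonneg hM.le _
  have co1 : ∀ θ, co θ ≤ C3 b y0 := fun θ => by
    rw [hco]; exact h.cost_le_C3 (P.pX θ) (P.pY θ)
  have ibb : Integrable bb π := integrable_of_bdd (B := 1) mbb.aestronglyMeasurable fun θ => by
    rw [Real.norm_eq_abs, abs_of_nonneg (bb0 θ)]; exact bb1 θ
  have ir2 : Integrable r2 π := integrable_of_bdd (B := 1) mr2.aestronglyMeasurable fun θ => by
    rw [Real.norm_eq_abs, abs_of_nonneg (r20 θ)]; exact r21 θ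
  have ico : Integrable co π :=
    integrable_of_bdd (B := C3 b y0) mco.aestronglyMeasurable fun θ => by
      rw [Real.norm_eq_abs, abs_of_nonneg (co0 θ)]; exact co1 θ
  have ibc : Integrable (fun θ => bb θ * co θ) π :=
    integrable_of_bdd (B := C3 b y0) (mbb.mul mco).aestronglyMeasurable fun θ => by
      rw [Real.norm_eq_abs, abs_of_nonneg (mul_nonneg (bb0 θ) (co0 θ))]
      have := mul_le_mul (bb1 θ) (co1 θ) (co0 θ) (by norm_num)
      linarith
  -- pairs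
  have ipair : ∀ j k : Fin b, Integrable (fun θ : Fin b → Θ => bb (θ j) * r2 (θ k))
      (Measure.pi fun _ : Fin b => π) := fun j k =>
    integrable_of_bdd (B := 1) ((mbb.comp (measurable_pi_apply j)).mul
      (mr2.comp (measurable_pi_apply k))).aestronglyMeasurable fun θ => by
      rw [Real.norm_eq_abs, abs_of_nonneg (mul_nonneg (bb0 _) (r20 _))]
      exact mul_le_one₀ (bb1 _) (r20 _) (r21 _)
  have epair : ∀ j k : Fin b, j ≠ k → ∫ θ : Fin b → Θ, bb (θ j) * r2 (θ k)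
      ∂(Measure.pi fun _ : Fin b => π) = pA b y0 m π X Y * rA π X Y := by
    intro j k hjk
    rw [int_pair hjk mbb mr2, hbb, hr2]
    rfl
  have hU : ∀ θ : Fin b → Θ,
      cost (Mc b y0) m (cav z t fun k => X (θ k), cav z t fun k => Y (θ k)) ≤
      CA b m * ‖∑ k, f (θ k)‖ ^ 2 + 3 / 4 * (b : ℝ)⁻¹ * ∑ j, bb (θ j) * co (θ j) +
      CF b y0 * ∑ q ∈ (Finset.univ : Finset (Fin b)).offDiag, bb (θ q.1) * r2 (θ q.2) +
      C3 b y0 * ∑ q ∈ (Finset.univ : Finset (Fin b)).offDiag, ∑ l,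
        bb (θ (if l = q.1 then q.2 else q.1)) * r2 (θ l) := by
    intro θ
    have h1 := h.cost_pointwise ht (p := fun k => (X (θ k), Y (θ k))) (fun k => P.pX (θ k))
      (fun k => P.pY (θ k))
    simp only at h1
    have h2 : ∑ q ∈ (Finset.univ : Finset (Fin b)).offDiag,
        bI m (rr b y0) (X (θ q.1), Y (θ q.1)) * bI m (rr b y0) (X (θ q.2), Y (θ q.2)) *
          ∑ l, rho (X (θ l)) (Y (θ l)) ^ 2 ≤
        ∑ q ∈ (Finset.univ : Finset (Fin b)).offDiag, ∑ l,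
        bb (θ (if l = q.1 then q.2 else q.1)) * r2 (θ l) := by
      refine Finset.sum_le_sum fun q _ => ?_
      rw [Finset.mul_sum]
      refine Finset.sum_le_sum fun l _ => ?_
      rw [hbb, hr2]
      simp only
      have n1 := bI_nonneg (m := m) (rr b y0) (X (θ q.1), Y (θ q.1))
      have n2 := bI_nonneg (m := m) (rr b y0) (X (θ q.2), Y (θ q.2))
      have u1 := bI_le_one (m := m) (rr b y0) (X (θ q.1), Y (θ q.1))
      have u2 := bI_le_one (m := m) (rr b y0) (X (θ q.2), Y (θ q.2))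
      refine mul_le_mul_of_nonneg_right ?_ (by positivity)
      split_ifs
      · nlinarith
      · nlinarith
    have h3 := mul_le_mul_of_nonneg_left h2 hC3.le
    rw [hbb, hr2] at h3
    rw [hbb, hr2, hco, hf]
    simp only at h3 ⊢
    linarith
  -- integrability of the upper bound
  have i1 : Integrable (fun θ : Fin b → Θ => CA b m * ‖∑ k, f (θ k)‖ ^ 2)
      (Measure.pi fun _ : Fin b => π) := by
    refine Integrable.const_mul ?_ _
    refine integrable_of_bdd (B := (b * (2 * m.im + 4 * rr b y0)) ^ 2) ?_ ?_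
    · exact ((Finset.measurable_sum _ fun k _ =>
        hfm.comp (measurable_pi_apply k)).norm.pow_const 2).aestronglyMeasurable
    · intro θ
      rw [Real.norm_eq_abs, abs_of_nonneg (by positivity)]
      refine pow_le_pow_left₀ (norm_nonneg _) ?_ 2
      refine (norm_sum_le _ _).trans ((Finset.sum_le_sum fun k _ => hfb1 (θ k)).trans ?_)
      rw [Finset.sum_const, Finset.card_univ, Fintype.card_fin, nsmul_eq_mul]
  have i2' : ∀ j : Fin b, Integrable (fun θ : Fin b → Θ => bb (θ j) * co (θ j))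
      (Measure.pi fun _ : Fin b => π) := fun j =>
    integrable_comp_eval (μ := fun _ : Fin b => π) (i := j) (f := fun θ => bb θ * co θ) ibc
  have i2 : Integrable (fun θ : Fin b → Θ => 3 / 4 * (b : ℝ)⁻¹ * ∑ j, bb (θ j) * co (θ j))
      (Measure.pi fun _ : Fin b => π) :=
    Integrable.const_mul (integrable_finsetSum _ fun j _ => i2' j) _
  have i3 : Integrable (fun θ : Fin b → Θ => CF b y0 *
      ∑ q ∈ (Finset.univ : Finset (Fin b)).offDiag, bb (θ q.1) * r2 (θ q.2))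
      (Measure.pi fun _ : Fin b => π) :=
    Integrable.const_mul (integrable_finsetSum _ fun q _ => ipair q.1 q.2) _
  have i4 : Integrable (fun θ : Fin b → Θ => C3 b y0 *
      ∑ q ∈ (Finset.univ : Finset (Fin b)).offDiag, ∑ l,
        bb (θ (if l = q.1 then q.2 else q.1)) * r2 (θ l))
      (Measure.pi fun _ : Fin b => π) :=
    Integrable.const_mul (integrable_finsetSum _ fun q _ => integrable_finsetSum _ fun l _ =>
      ipair _ l) _
  have i12 := i1.add i2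
  have i123 := i12.add i3
  have i1234 := i123.add i4
  have hL : Integrable (fun θ : Fin b → Θ =>
      cost (Mc b y0) m (cav z t fun k => X (θ k), cav z t fun k => Y (θ k)))
      (Measure.pi fun _ : Fin b => π) :=
    h.int_cost (X := fun θ : Fin b → Θ => cav z t fun k => X (θ k))
      (Y := fun θ : Fin b → Θ => cav z t fun k => Y (θ k)) ⟨hcav1, hcav2, pc1, pc2⟩
  have hmono := integral_mono hL i1234 hU
  have hsum : ∫ θ : Fin b → Θ, (CA b m * ‖∑ k, f (θ k)‖ ^ 2 +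
      3 / 4 * (b : ℝ)⁻¹ * ∑ j, bb (θ j) * co (θ j) +
      CF b y0 * ∑ q ∈ (Finset.univ : Finset (Fin b)).offDiag, bb (θ q.1) * r2 (θ q.2) +
      C3 b y0 * ∑ q ∈ (Finset.univ : Finset (Fin b)).offDiag, ∑ l,
        bb (θ (if l = q.1 then q.2 else q.1)) * r2 (θ l)) ∂(Measure.pi fun _ : Fin b => π) =
      CA b m * ∫ θ : Fin b → Θ, ‖∑ k, f (θ k)‖ ^ 2 ∂(Measure.pi fun _ : Fin b => π) +
      3 / 4 * (b : ℝ)⁻¹ * ∑ _j : Fin b, ∫ θ, bb θ * co θ ∂π +
      CF b y0 * ∑ _q ∈ (Finset.univ : Finset (Fin b)).offDiag, pA b y0 m π X Y * rA π X Y +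
      C3 b y0 * ∑ _q ∈ (Finset.univ : Finset (Fin b)).offDiag, ∑ _l : Fin b,
        pA b y0 m π X Y * rA π X Y := by
    rw [integral_add (f := fun θ : Fin b → Θ => (CA b m * ‖∑ k, f (θ k)‖ ^ 2 +
      3 / 4 * (b : ℝ)⁻¹ * ∑ j, bb (θ j) * co (θ j) +
      CF b y0 * ∑ q ∈ (Finset.univ : Finset (Fin b)).offDiag, bb (θ q.1) * r2 (θ q.2))) i123 i4,
      integral_add (f := fun θ : Fin b → Θ => (CA b m * ‖∑ k, f (θ k)‖ ^ 2 +
      3 / 4 * (b : ℝ)⁻¹ * ∑ j, bb (θ j) * co (θ j))) i12 i3, integral_add i1 i2,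
      integral_const_mul, integral_const_mul, integral_const_mul, integral_const_mul,
      integral_finsetSum _ fun j _ => i2' j,
      integral_finsetSum _ fun q _ => ipair q.1 q.2,
      integral_finsetSum _ fun q _ => integrable_finsetSum _ fun l _ => ipair _ l]
    congr 1
    · congr 1
      · congr 2
        refine Finset.sum_congr rfl fun j _ => ?_
        exact int_eval j (f := fun θ => bb θ * co θ) ibc.aestronglyMeasurable
      · congr 1
        refine Finset.sum_congr rfl fun q hq => ?_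
        exact epair q.1 q.2 (Finset.mem_offDiag.1 hq).2.2
    · congr 1
      refine Finset.sum_congr rfl fun q hq => ?_
      rw [integral_finsetSum _ fun l _ => ipair _ l]
      refine Finset.sum_congr rfl fun l _ => ?_
      refine epair _ _ ?_
      have hq' := (Finset.mem_offDiag.1 hq).2.2
      split_ifs with hl
      · rw [hl]; exact fun h' => hq' h'.symm
      · exact fun h' => hl h'.symm
  have hmono2 := hmono.trans_eq hsum
  refine hmono2.trans ?_
  rw [← hf]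
  have hp0 : 0 ≤ pA b y0 m π X Y := pA_nonneg
  have hR0 : 0 ≤ rA π X Y := rA_nonneg
  have hRc := h.rA_le_cA (π := π) P
  have hc0 : 0 ≤ cA b y0 m π X Y := h.cA_nonneg
  have hpR : pA b y0 m π X Y * rA π X Y ≤ pA b y0 m π X Y * cA b y0 m π X Y :=
    mul_le_mul_of_nonneg_left hRc hp0
  have hpR0 : 0 ≤ pA b y0 m π X Y * rA π X Y := mul_nonneg hp0 hR0
  -- the quadratic term
  have q1 : ∫ θ : Fin b → Θ, ‖∑ k, f (θ k)‖ ^ 2 ∂(Measure.pi fun _ : Fin b => π) ≤
      b * ∫ θ, ‖f θ‖ ^ 2 ∂π + b ^ 2 * ‖∫ θ, f θ ∂π‖ ^ 2 := int_norm_sum_sq hfm hfb1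
  have ig : Integrable (fun θ => gI m (rr b y0) (X θ, Y θ) * rho (X θ) (Y θ) ^ 2) π :=
    integrable_of_bdd (B := 1) ((P.meas_gI m _).mul (P.meas_rho.pow_const 2)).aestronglyMeasurable
      fun θ => by
        rw [Real.norm_eq_abs, abs_of_nonneg (mul_nonneg (gI_nonneg _ _) (by positivity))]
        exact mul_le_one₀ (gI_le_one _ _) (by positivity) (P.rho_sq_le θ)
  have iff2 : Integrable (fun θ => ‖f θ‖ ^ 2) π :=
    integrable_of_bdd (B := (2 * m.im + 4 * rr b y0) ^ 2)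
      (hfm.norm.pow_const 2).aestronglyMeasurable fun θ => by
        rw [Real.norm_eq_abs, abs_of_nonneg (by positivity)]
        exact pow_le_pow_left₀ (norm_nonneg _) (hfb1 θ) 2
  have q2 : ∫ θ, ‖f θ‖ ^ 2 ∂π ≤ (2 * m.im + 4 * rr b y0) ^ 2 *
      ∫ θ, gI m (rr b y0) (X θ, Y θ) * rho (X θ) (Y θ) ^ 2 ∂π := by
    rw [← integral_const_mul]
    exact integral_mono iff2 (ig.const_mul _) hfb
  have q3 : (∫ θ, gI m (rr b y0) (X θ, Y θ) * rho (X θ) (Y θ) ^ 2 ∂π) +
      ∫ θ, bb θ * co θ ∂π ≤ cA b y0 m π X Y := by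
    rw [← integral_add ig ibc]
    refine integral_mono (ig.add ibc) (h.int_cost P) fun θ => ?_
    rw [hbb, hco]
    simp only
    have e1 := rho_sq_le_cost (m := m) hM.le (X θ, Y θ)
    simp only at e1
    have e2 : bI m (rr b y0) (X θ, Y θ) = 1 - gI m (rr b y0) (X θ, Y θ) := rfl
    rw [e2]
    have e3 := gI_nonneg (m := m) (rr b y0) (X θ, Y θ)
    nlinarith
  have g0 : 0 ≤ ∫ θ, gI m (rr b y0) (X θ, Y θ) * rho (X θ) (Y θ) ^ 2 ∂π :=
    integral_nonneg fun θ => mul_nonneg (gI_nonneg _ _) (by positivity)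
  have q4 : CA b m * b * (2 * m.im + 4 * rr b y0) ^ 2 ≤ 3 / 4 := by
    have l1 : 2 * m.im + 4 * rr b y0 ≤ 2 * m.im * (1 + 1 / 200) := by
      have := h.rr_le'; have := h.him; linarith
    have l2 : (2 * m.im + 4 * rr b y0) ^ 2 ≤ (2 * m.im * (1 + 1 / 200)) ^ 2 :=
      pow_le_pow_left₀ (by positivity) l1 2
    have l3 : CA b m * b * (2 * m.im + 4 * rr b y0) ^ 2 ≤
        CA b m * b * (2 * m.im * (1 + 1 / 200)) ^ 2 :=
      mul_le_mul_of_nonneg_left l2 (by positivity)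
    refine l3.trans ?_
    have hb0 : (b : ℝ) ≠ 0 := by linarith
    have l4 : CA b m * b * (2 * m.im * (1 + 1 / 200)) ^ 2 =
        (1 + 6 / 100) * (1 + 1 / 200) ^ 2 / b := by
      unfold CA
      field_simp
      ring
    rw [l4, div_le_iff₀ (by linarith)]
    nlinarith
  have q5 : CA b m * ∫ θ : Fin b → Θ, ‖∑ k, f (θ k)‖ ^ 2 ∂(Measure.pi fun _ : Fin b => π) ≤
      3 / 4 * (∫ θ, gI m (rr b y0) (X θ, Y θ) * rho (X θ) (Y θ) ^ 2 ∂π) +
        CA b m * b ^ 2 * ‖∫ θ, f θ ∂π‖ ^ 2 := by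
    have r1 := mul_le_mul_of_nonneg_left q1 hCA
    have r2' := mul_le_mul_of_nonneg_left q2 (by positivity : 0 ≤ CA b m * b)
    have r3 := mul_le_mul_of_nonneg_right q4 g0
    rw [mul_add, ← mul_assoc (CA b m) (b : ℝ), ← mul_assoc (CA b m) ((b : ℝ) ^ 2)] at r1
    rw [← mul_assoc (CA b m * b)] at r2'
    linarith
  have hcard : (((Finset.univ : Finset (Fin b)).offDiag).card : ℝ) ≤ (b : ℝ) ^ 2 := by
    have h5 := Finset.offDiag_card (s := (Finset.univ : Finset (Fin b)))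
    rw [h5, Finset.card_univ, Fintype.card_fin]
    have : b * b - b ≤ b ^ 2 := by rw [pow_two]; exact Nat.sub_le _ _
    exact_mod_cast this
  have q6 : 3 / 4 * (b : ℝ)⁻¹ * ∑ _j : Fin b, ∫ θ, bb θ * co θ ∂π =
      3 / 4 * ∫ θ, bb θ * co θ ∂π := by
    rw [Finset.sum_const, Finset.card_univ, Fintype.card_fin, nsmul_eq_mul]
    have hb0 : (b : ℝ) ≠ 0 := by linarith
    field_simp
  have q7 : CF b y0 * ∑ _q ∈ (Finset.univ : Finset (Fin b)).offDiag,
      pA b y0 m π X Y * rA π X Y ≤ CF b y0 * b ^ 2 * (pA b y0 m π X Y * cA b y0 m π X Y) := by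
    rw [Finset.sum_const, nsmul_eq_mul, mul_assoc]
    refine mul_le_mul_of_nonneg_left ?_ hCF
    exact mul_le_mul hcard hpR hpR0 (by positivity)
  have q8 : C3 b y0 * ∑ _q ∈ (Finset.univ : Finset (Fin b)).offDiag, ∑ _l : Fin b,
      pA b y0 m π X Y * rA π X Y ≤ C3 b y0 * b ^ 3 * (pA b y0 m π X Y * cA b y0 m π X Y) := by
    rw [Finset.sum_const, Finset.sum_const, Finset.card_univ, Fintype.card_fin, nsmul_eq_mul,
      nsmul_eq_mul, mul_assoc]
    refine mul_le_mul_of_nonneg_left ?_ hC3.le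
    have e1 : (b : ℝ) * (pA b y0 m π X Y * rA π X Y) ≤
        b * (pA b y0 m π X Y * cA b y0 m π X Y) :=
      mul_le_mul_of_nonneg_left hpR (by linarith)
    have e2 := mul_le_mul hcard e1 (by positivity) (by positivity)
    have e3 : (b : ℝ) ^ 2 * (b * (pA b y0 m π X Y * cA b y0 m π X Y)) =
        b ^ 3 * (pA b y0 m π X Y * cA b y0 m π X Y) := by ring
    rw [e3] at e2
    exact e2
  rw [q6]
  have e4 : (3 / 4 + (CF b y0 * b ^ 2 + C3 b y0 * b ^ 3) * pA b y0 m π X Y) *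
      cA b y0 m π X Y = 3 / 4 * cA b y0 m π X Y +
        CF b y0 * b ^ 2 * (pA b y0 m π X Y * cA b y0 m π X Y) +
        C3 b y0 * b ^ 3 * (pA b y0 m π X Y * cA b y0 m π X Y) := by ring
  rw [e4]
  linarith

end

end Crest.Agent.R166.TreeDet350
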