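import Mathlib
import Crest.Agent.R166.TreeT1_383
import Crest.Agent.R166.Root_355

/-!
# R166, section 32 (tree half): `T6_nondeg` from `T4` and `T5` (helper383)
-/

set_option autoImplicit false

open MeasureTheory Filter Topology

namespace Crest.Agent.R166.TreeT6N

open Crest.Agent.R166 Crest.Agent.R166.TreeDet350 Crest.Agent.R166.TreeDefs350
  Crest.Agent.R166.TreeSpec350 Crest.Agent.R166.TreeT1 Crest.Agent.R166.Root355

noncomputable section

/-- lower bound of `Im m` on the energy region of `T5`, `T6` -/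
def y00 (b : ℕ) (κ : ℝ) : ℝ :=
  (1 - (2 * Real.sqrt b - κ) ^ 2 / (4 * b)) / (b + 2 * Real.sqrt b)

lemma y00_pos {b : ℕ} (hb : 2 ≤ b) {κ : ℝ} (hκ : 0 < κ) (hκ' : κ ≤ 2 * Real.sqrt b) :
    0 < y00 b κ := by
  have hb2 : (2 : ℝ) ≤ b := by exact_mod_cast hb
  have hs := Real.sq_sqrt (show (0 : ℝ) ≤ b by positivity)
  have hs0 := Real.sqrt_nonneg (b : ℝ)
  unfold y00
  refine div_pos ?_ (by positivity)
  rw [sub_pos, div_lt_one (by positivity)]
  nlinarith

/-- the clean root is admissible -/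
lemma exists_adm {b : ℕ} (hb : 2 ≤ b) {κ : ℝ} (hκ : 0 < κ) {z : ℂ}
    (h1 : |z.re| ≤ 2 * Real.sqrt b - κ) (h2 : 0 < z.im) (h3 : z.im ≤ 2 * Real.sqrt b) :
    ∃ m, Adm b (y00 b κ) z m := by
  have hb2 : (2 : ℝ) ≤ b := by exact_mod_cast hb
  have hs := Real.sq_sqrt (show (0 : ℝ) ≤ b by positivity)
  have hκ' : κ ≤ 2 * Real.sqrt b := by
    have := abs_nonneg z.re
    linarith
  obtain ⟨m, hm⟩ := exists_isRoot (b := (b : ℝ)) (by linarith) h2
  refine ⟨m, hb, y00_pos hb hκ hκ', h2.le, ?_, ?_⟩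
  · have := hm.eq
    simpa using this
  · refine le_trans ?_ (hm.im_ge (by linarith) h2.le)
    have hre : z.re ^ 2 ≤ (2 * Real.sqrt b - κ) ^ 2 := by
      rw [← sq_abs z.re]
      exact pow_le_pow_left₀ (abs_nonneg _) h1 2
    have hnum : 1 - (2 * Real.sqrt b - κ) ^ 2 / (4 * b) ≤ 1 - z.re ^ 2 / (4 * b) := by
      have : z.re ^ 2 / (4 * (b : ℝ)) ≤ (2 * Real.sqrt b - κ) ^ 2 / (4 * b) := by gcongr
      linarith
    have h0 : 0 < 1 - (2 * Real.sqrt b - κ) ^ 2 / (4 * b) := by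
      have := y00_pos hb hκ hκ'
      unfold y00 at this
      have hden : 0 < (b : ℝ) + 2 * Real.sqrt b := by positivity
      rwa [div_pos_iff_of_pos_right hden] at this
    unfold y00
    exact div_le_div₀ (h0.le.trans hnum) hnum (by linarith) (by linarith)

lemma measurable_uu {b : ℕ} (s : ℝ) {z : ℂ} (hz : 0 < z.im) (m : ℂ) :
    Measurable fun ω => uu m (XX b s z ω) := by
  have h := measurable_XX (b := b) s hz
  unfold uu
  exact (h.sub measurable_const).div (measurable_const.sub (measurable_const.mul h))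

/-- Chebyshev for `u(X)` -/
lemma measure_uu_le {b : ℕ} {s y0 : ℝ} {z m : ℂ} (hz : 0 < z.im) (ha : Adm b y0 z m) {r e : ℝ}
    (hr : 0 < r) (he : ∫ ω, ‖uu m (XX b s z ω)‖ ^ 2 ∂(PT b) ≤ e) :
    (PT b) {ω | r ≤ ‖uu m (XX b s z ω)‖} ≤ ENNReal.ofReal (e / r ^ 2) := by
  have T := t1 b s
  have hm : Measurable fun ω => ‖uu m (XX b s z ω)‖ ^ 2 := (measurable_uu s hz m).norm.pow_const 2
  have hint : Integrable (fun ω => ‖uu m (XX b s z ω)‖ ^ 2) (PT b) := by
    refine Integrable.of_bound hm.aestronglyMeasurable (BB y0 ^ 2) (Eventually.of_forall fun ω => ?_)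
    rw [Real.norm_of_nonneg (sq_nonneg _)]
    exact pow_le_pow_left₀ (norm_nonneg _) (ha.norm_uu_le (T.im_pos z hz ω).le) 2
  have key := mul_meas_ge_le_integral_of_nonneg
    (μ := PT b) (Eventually.of_forall fun ω => sq_nonneg (‖uu m (XX b s z ω)‖)) hint (r ^ 2)
  have hset : {ω | r ≤ ‖uu m (XX b s z ω)‖} = {ω | r ^ 2 ≤ ‖uu m (XX b s z ω)‖ ^ 2} := by
    ext ω
    simp only [Set.mem_ofPred_eq]
    rw [pow_le_pow_iff_left₀ hr.le (norm_nonneg _) two_ne_zero]
  rw [hset, ← ofReal_measureReal (measure_ne_top _ _)]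
  apply ENNReal.ofReal_le_ofReal
  rw [le_div_iff₀ (by positivity)]
  linarith

/-- **`T6_nondeg`** -/
theorem t6_nondeg {b : ℕ} (hb : 2 ≤ b) (hw : ∀ s : ℝ, 0 < s → T4_wegner b s)
    (hn : ∀ s : ℝ, 0 < s → T4_nondeg b s) (h5 : T5 b) : T6_nondeg b := by
  intro κ hκ
  have hb2 : (2 : ℝ) ≤ b := by exact_mod_cast hb
  by_cases hκ' : κ ≤ 2 * Real.sqrt b
  swap
  · refine ⟨1, one_pos, fun s _ _ ε _ => ⟨1, one_pos, 1, one_pos, fun z hz => ?_⟩⟩
    exact absurd hz (by have := abs_nonneg z.re; push Not at hκ' ⊢; linarith)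
  obtain ⟨s0, hs0, C, hC, H⟩ := h5 κ hκ
  have hy0 := y00_pos hb hκ hκ'
  set y0 := y00 b κ with hy0def
  set r : ℝ := min (1 / 4) (y0 / 4) with hr
  have hr0 : 0 < r := lt_min (by norm_num) (by positivity)
  have hr1 : r ≤ 1 / 4 := min_le_left _ _
  have hr2 : r ≤ y0 / 4 := min_le_right _ _
  refine ⟨min s0 (min 1 (r ^ 2 / (2 * C))), lt_min hs0 (lt_min one_pos (by positivity)), ?_⟩
  intro s hs hss ε hε
  have hss0 : s < s0 := hss.trans_le (min_le_left _ _)
  have hss1 : s < 1 := hss.trans_le ((min_le_right _ _).trans (min_le_left _ _))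
  have hss2 : s < r ^ 2 / (2 * C) := hss.trans_le ((min_le_right _ _).trans (min_le_right _ _))
  have hsq : C * s ^ 2 / r ^ 2 ≤ 1 / 2 := by
    rw [lt_div_iff₀ (by positivity)] at hss2
    rw [div_le_iff₀ (by positivity)]
    have : s ^ 2 ≤ s := by nlinarith
    nlinarith
  have T := t1 b s
  set D : Set ℂ := {z | |z.re| ≤ 2 * Real.sqrt b - κ ∧ 0 < z.im ∧ z.im ≤ 2 * Real.sqrt b} with hD
  obtain ⟨δ, hδ, Hδ⟩ := hn s hs D (4 * Real.sqrt b) (y0 / 2) (by
      rintro z ⟨h1, h2, h3⟩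
      refine ⟨h2, ?_⟩
      refine (Complex.norm_le_abs_re_add_abs_im z).trans ?_
      rw [abs_of_pos h2]
      linarith) (by positivity)
    (by
      rintro z ⟨h1, h2, h3⟩
      obtain ⟨m, ha⟩ := exists_adm hb hκ h1 h2 h3
      have hint := H s hs hss0 z m h1 h2 h3 ha.im_pos ha.hm
      have key := measure_uu_le h2 ha hr0 hint
      refine le_trans (measure_mono ?_) (key.trans (ENNReal.ofReal_le_ofReal hsq))
      intro ω hω
      simp only [Set.mem_ofPred_eq] at hω ⊢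
      by_contra hcon
      push Not at hcon
      have hd := ha.disp_le (T.im_pos z h2 ω).le hr1 hcon.le
      have h4 : |(XX b s z ω).im - m.im| ≤ 2 * r := by
        rw [← Complex.sub_im]
        exact (Complex.abs_im_le_norm _).trans hd
      have h5 := (abs_le.1 h4).1
      have h6 := ha.him
      linarith) (ε / 2) (by positivity)
  refine ⟨δ, hδ, 2 / (s * ε), by positivity, fun z h1 h2 h3 => ?_⟩
  have hA := Hδ z ⟨h1, h2, h3⟩
  have hB := hw s hs z h2 (2 / (s * ε)) (by positivity)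
  have e : 1 / (s * (2 / (s * ε))) = ε / 2 := by field_simp
  rw [e] at hB
  have hset : {ω | (XX b s z ω).im < δ ∨ 2 / (s * ε) < ‖XX b s z ω‖} =
      {ω | (XX b s z ω).im < δ} ∪ {ω | 2 / (s * ε) < ‖XX b s z ω‖} := rfl
  rw [hset]
  refine (measure_union_le _ _).trans ((add_le_add hA hB).trans (le_of_eq ?_))
  rw [← ENNReal.ofReal_add (by positivity) (by positivity), add_halves]

end

end Crest.Agent.R166.TreeT6N
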