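import Mathlib
import Crest.Agent.R166.TreeT6N_383
import Crest.Agent.R166.TreeT2_251
import Crest.Agent.R166.TreeCon_350

/-!
# R166, section 32 (tree half), T5: Theorem A on the tree (helper383, plan of helper350)

`∫ ‖u(X)‖² ≤ C s²` for `|Re z| ≤ 2√b - κ`, `0 < Im z ≤ 2√b`.
-/

set_option autoImplicit false

open MeasureTheory Filter Topology

namespace Crest.Agent.R166.TreeT5

open Crest.Agent.R166 Crest.Agent.R166.TreeDet350 Crest.Agent.R166.TreeDefs350
  Crest.Agent.R166.TreeSpec350 Crest.Agent.R166.TreeT1 Crest.Agent.R166.Root355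
  Crest.Agent.R166.TreeT6N Crest.Agent.R166.TreeT2_251

noncomputable section

variable {b : ℕ}

/-! ### the root -/

lemma adm_of_root (hb : 2 ≤ b) {κ : ℝ} (hκ : 0 < κ) {z m : ℂ}
    (h1 : |z.re| ≤ 2 * Real.sqrt b - κ) (h2 : 0 < z.im) (h3 : z.im ≤ 2 * Real.sqrt b)
    (hm : IsRoot (b : ℝ) z m) : Adm b (y00 b κ) z m := by
  have hb2 : (2 : ℝ) ≤ b := by exact_mod_cast hb
  obtain ⟨m', hm'⟩ := exists_adm hb hκ h1 h2 h3
  have hr' : IsRoot (b : ℝ) z m' := ⟨hm'.im_pos, by simpa using hm'.hm⟩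
  have : m = m' := hm.unique hr' (by linarith) h2.le
  rw [this]
  exact hm'

/-! ### integrals over the subtrees -/

/-- change of variables to the subtrees -/
lemma integral_subs {E : Type*} [NormedAddCommGroup E] [NormedSpace ℝ E]
    {F : (Fin b → List (Fin b) → ℝ) → E}
    (hF : AEStronglyMeasurable F (Measure.pi fun _ : Fin b => PT b)) :
    ∫ ω, F (fun j => sub j ω) ∂(PT b) = ∫ θ, F θ ∂(Measure.pi fun _ : Fin b => PT b) := by
  have h := (mp_subs b).map_eq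
  rw [← h] at hF ⊢
  rw [integral_map (mp_subs b).measurable.aemeasurable hF]

/-- the potentials are in `[-1,1]` almost surely -/
lemma ae_cube (b : ℕ) : ∀ᵐ ω ∂(PT b), ∀ p : List (Fin b), |ω p| ≤ 1 := by
  rw [ae_all_iff]
  intro p
  have h1 : ∀ᵐ x ∂unif, |x| ≤ 1 := by
    unfold unif
    refine Measure.ae_smul_measure ?_ _
    filter_upwards [ae_restrict_mem (μ := volume) (measurableSet_Icc : MeasurableSet (Set.Icc (-1 : ℝ) 1))] with x hx
    exact abs_le.2 ⟨hx.1, hx.2⟩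
  have h2 := (mp_coord b p).quasiMeasurePreserving.ae h1
  exact h2

section oneLevel

variable {s y0 : ℝ} {z m : ℂ}

/-- mean square of `u(X)` -/
def VV (b : ℕ) (s : ℝ) (z m : ℂ) : ℝ := ∫ ω, ‖uu m (XX b s z ω)‖ ^ 2 ∂(PT b)

/-- mean of `u(X)` -/
def MM (b : ℕ) (s : ℝ) (z m : ℂ) : ℂ := ∫ ω, uu m (XX b s z ω) ∂(PT b)

lemma VV_nonneg (b : ℕ) (s : ℝ) (z m : ℂ) : 0 ≤ VV b s z m :=
  integral_nonneg fun _ => by positivity

lemma bdd_uu (ha : Adm b y0 z m) (hz : 0 < z.im) (s : ℝ) (ω : List (Fin b) → ℝ) :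
    ‖uu m (XX b s z ω)‖ ≤ BB y0 := ha.norm_uu_le ((t1 b s).im_pos z hz ω).le

lemma card_offDiag_le (b : ℕ) :
    (((Finset.univ : Finset (Fin b)).offDiag).card : ℝ) ≤ (b : ℝ) ^ 2 := by
  have h5 := Finset.offDiag_card (s := (Finset.univ : Finset (Fin b)))
  rw [h5, Finset.card_univ, Fintype.card_fin]
  have : b * b - b ≤ b ^ 2 := by rw [pow_two]; exact Nat.sub_le _ _
  exact_mod_cast this

/-- `off` of the children -/
def offX (b : ℕ) (s : ℝ) (z m : ℂ) (ω : List (Fin b) → ℝ) : ℝ :=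
  off fun j : Fin b => ‖uu m (XX b s z (sub j ω))‖

lemma offX_nonneg (ω : List (Fin b) → ℝ) : 0 ≤ offX b s z m ω := by
  unfold offX off
  exact Finset.sum_nonneg fun _ _ => by positivity

lemma measurable_fu (hz : 0 < z.im) (m : ℂ) : Measurable fun ω => uu m (XX b s z ω) :=
  TreeT6N.measurable_uu s hz m

lemma measurable_offX (hz : 0 < z.im) : Measurable (offX b s z m) := by
  unfold offX off
  refine Finset.measurable_sum _ fun p _ => ?_
  exact (((measurable_fu hz m).comp (TreeT1.measurable_sub p.1)).norm).mul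
    (((measurable_fu hz m).comp (TreeT1.measurable_sub p.2)).norm)

lemma offX_le (ha : Adm b y0 z m) (hz : 0 < z.im) (ω : List (Fin b) → ℝ) :
    offX b s z m ω ≤ (b : ℝ) ^ 2 * BB y0 ^ 2 := by
  have hB := (BB_pos ha.hy).le
  calc offX b s z m ω ≤ ∑ _p ∈ (Finset.univ : Finset (Fin b)).offDiag, BB y0 ^ 2 := by
        unfold offX off
        refine Finset.sum_le_sum fun p _ => ?_
        rw [pow_two]
        exact mul_le_mul (bdd_uu ha hz s _) (bdd_uu ha hz s _) (norm_nonneg _) hB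
    _ ≤ (b : ℝ) ^ 2 * BB y0 ^ 2 := by
        rw [Finset.sum_const, nsmul_eq_mul]
        exact mul_le_mul_of_nonneg_right (card_offDiag_le b) (by positivity)

lemma int_uu_sq (ha : Adm b y0 z m) (hz : 0 < z.im) (s : ℝ) :
    Integrable (fun ω => ‖uu m (XX b s z ω)‖ ^ 2) (PT b) := by
  refine integrable_of_bdd (B := BB y0 ^ 2)
    ((measurable_fu hz m).norm.pow_const 2).aestronglyMeasurable fun ω => ?_
  rw [Real.norm_of_nonneg (sq_nonneg _)]
  exact pow_le_pow_left₀ (norm_nonneg _) (bdd_uu ha hz s ω) 2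

lemma int_offX (ha : Adm b y0 z m) (hz : 0 < z.im) (s : ℝ) :
    Integrable (offX b s z m) (PT b) := by
  refine integrable_of_bdd (B := (b : ℝ) ^ 2 * BB y0 ^ 2) (measurable_offX hz).aestronglyMeasurable
    fun ω => ?_
  rw [Real.norm_of_nonneg (offX_nonneg ω)]
  exact offX_le ha hz ω

/-- (i) -/
lemma int_sum_sq_le (ha : Adm b y0 z m) (hz : 0 < z.im) (s : ℝ) :
    ∫ ω, ‖∑ j : Fin b, uu m (XX b s z (sub j ω))‖ ^ 2 ∂(PT b) ≤
      b * VV b s z m + b ^ 2 * ‖MM b s z m‖ ^ 2 := by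
  have hf := measurable_fu (b := b) (s := s) hz m
  have e := integral_subs (b := b)
    (F := fun θ : Fin b → List (Fin b) → ℝ => ‖∑ j : Fin b, uu m (XX b s z (θ j))‖ ^ 2)
    ((Finset.measurable_sum _ fun j _ => hf.comp (measurable_pi_apply j)).norm.pow_const 2).aestronglyMeasurable
  rw [e]
  exact int_norm_sum_sq hf (bdd_uu ha hz s)

/-- (ii) -/
lemma int_off_sq_le (ha : Adm b y0 z m) (hz : 0 < z.im) (s : ℝ) :
    ∫ ω, offX b s z m ω ^ 2 ∂(PT b) ≤ (b : ℝ) ^ 4 * VV b s z m ^ 2 := by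
  have hf := measurable_fu (b := b) (s := s) hz m
  have hf2 : Measurable fun ω => ‖uu m (XX b s z ω)‖ ^ 2 := hf.norm.pow_const 2
  have hB := (BB_pos ha.hy).le
  set S := (Finset.univ : Finset (Fin b)).offDiag with hS
  have hmeas : ∀ p : Fin b × Fin b, Measurable fun θ : Fin b → List (Fin b) → ℝ =>
      ‖uu m (XX b s z (θ p.1))‖ ^ 2 * ‖uu m (XX b s z (θ p.2))‖ ^ 2 := fun p =>
    (hf2.comp (measurable_pi_apply p.1)).mul (hf2.comp (measurable_pi_apply p.2))
  have hpi : ∀ p : Fin b × Fin b, Integrable (fun θ : Fin b → List (Fin b) → ℝ =>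
      ‖uu m (XX b s z (θ p.1))‖ ^ 2 * ‖uu m (XX b s z (θ p.2))‖ ^ 2)
      (Measure.pi fun _ : Fin b => PT b) := by
    intro p
    refine integrable_of_bdd (B := BB y0 ^ 2 * BB y0 ^ 2) (hmeas p).aestronglyMeasurable
      fun θ => ?_
    rw [Real.norm_of_nonneg (by positivity)]
    exact mul_le_mul (pow_le_pow_left₀ (norm_nonneg _) (bdd_uu ha hz s _) 2)
      (pow_le_pow_left₀ (norm_nonneg _) (bdd_uu ha hz s _) 2) (by positivity) (by positivity)
  have e : ∫ ω, ((S.card : ℝ) * ∑ p ∈ S, ‖uu m (XX b s z (sub p.1 ω))‖ ^ 2 *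
      ‖uu m (XX b s z (sub p.2 ω))‖ ^ 2) ∂(PT b) = (S.card : ℝ) * ((S.card : ℝ) * VV b s z m ^ 2) := by
    have e1 := integral_subs (b := b)
      (F := fun θ : Fin b → List (Fin b) → ℝ => (S.card : ℝ) * ∑ p ∈ S,
        ‖uu m (XX b s z (θ p.1))‖ ^ 2 * ‖uu m (XX b s z (θ p.2))‖ ^ 2)
      (measurable_const.mul (Finset.measurable_sum _ fun p _ => hmeas p)).aestronglyMeasurable
    rw [e1, integral_const_mul, integral_finsetSum _ fun p _ => hpi p]
    congr 1
    have e2 : ∀ p ∈ S, ∫ θ : Fin b → List (Fin b) → ℝ, ‖uu m (XX b s z (θ p.1))‖ ^ 2 *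
        ‖uu m (XX b s z (θ p.2))‖ ^ 2 ∂(Measure.pi fun _ : Fin b => PT b) = VV b s z m ^ 2 := by
      intro p hp
      rw [int_pair (Finset.mem_offDiag.1 hp).2.2 hf2 hf2, pow_two]
      rfl
    rw [Finset.sum_congr rfl e2, Finset.sum_const, nsmul_eq_mul]
  have hint1 : Integrable (fun ω => offX b s z m ω ^ 2) (PT b) := by
    refine integrable_of_bdd (B := ((b : ℝ) ^ 2 * BB y0 ^ 2) ^ 2)
      ((measurable_offX hz).pow_const 2).aestronglyMeasurable fun ω => ?_
    rw [Real.norm_of_nonneg (by positivity)]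
    exact pow_le_pow_left₀ (offX_nonneg ω) (offX_le ha hz ω) 2
  have hint2 : Integrable (fun ω => (S.card : ℝ) * ∑ p ∈ S, ‖uu m (XX b s z (sub p.1 ω))‖ ^ 2 *
      ‖uu m (XX b s z (sub p.2 ω))‖ ^ 2) (PT b) := by
    refine Integrable.const_mul (integrable_finsetSum _ fun p _ => ?_) _
    refine integrable_of_bdd (B := BB y0 ^ 2 * BB y0 ^ 2)
      ((hf2.comp (TreeT1.measurable_sub p.1)).mul (hf2.comp (TreeT1.measurable_sub p.2))).aestronglyMeasurable
      fun θ => ?_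
    rw [Real.norm_of_nonneg (by positivity)]
    exact mul_le_mul (pow_le_pow_left₀ (norm_nonneg _) (bdd_uu ha hz s _) 2)
      (pow_le_pow_left₀ (norm_nonneg _) (bdd_uu ha hz s _) 2) (by positivity) (by positivity)
  have hle := integral_mono hint1 hint2 (fun ω => by
    have h1 := sq_sum_le_card_mul_sum_sq (s := S)
      (f := fun p : Fin b × Fin b => ‖uu m (XX b s z (sub p.1 ω))‖ * ‖uu m (XX b s z (sub p.2 ω))‖)
    simp only [mul_pow] at h1
    exact h1)
  rw [e] at hle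
  refine hle.trans ?_
  have hc := card_offDiag_le b
  rw [← hS] at hc
  have hV := sq_nonneg (VV b s z m)
  calc (S.card : ℝ) * ((S.card : ℝ) * VV b s z m ^ 2)
      ≤ (b : ℝ) ^ 2 * ((b : ℝ) ^ 2 * VV b s z m ^ 2) := by gcongr
    _ = (b : ℝ) ^ 4 * VV b s z m ^ 2 := by ring

/-- (iii) -/
lemma int_off_le (ha : Adm b y0 z m) (hz : 0 < z.im) (s : ℝ) :
    ∫ ω, offX b s z m ω ∂(PT b) ≤ (b : ℝ) ^ 2 * VV b s z m := by
  have hf := measurable_fu (b := b) (s := s) hz m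
  have hf2 : Measurable fun ω => ‖uu m (XX b s z ω)‖ ^ 2 := hf.norm.pow_const 2
  set S := (Finset.univ : Finset (Fin b)).offDiag with hS
  have hsub : ∀ j : Fin b, Integrable (fun ω => ‖uu m (XX b s z (sub j ω))‖ ^ 2) (PT b) := fun j =>
    (mp_sub b j).integrable_comp_of_integrable (int_uu_sq ha hz s)
  have hsubint : ∀ j : Fin b, ∫ ω, ‖uu m (XX b s z (sub j ω))‖ ^ 2 ∂(PT b) = VV b s z m := by
    intro j
    have h := (mp_sub b j).map_eq
    have e := integral_map (μ := PT b) (mp_sub b j).measurable.aemeasurable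
      (f := fun ω => ‖uu m (XX b s z ω)‖ ^ 2) (by rw [h]; exact hf2.aestronglyMeasurable)
    rw [h] at e
    exact e.symm
  have hint2 : Integrable (fun ω => ∑ p ∈ S, (1 / 2 : ℝ) * (‖uu m (XX b s z (sub p.1 ω))‖ ^ 2 +
      ‖uu m (XX b s z (sub p.2 ω))‖ ^ 2)) (PT b) :=
    integrable_finsetSum _ fun p _ => ((hsub p.1).add (hsub p.2)).const_mul _
  have hle := integral_mono (int_offX ha hz s) hint2 (fun ω => by
    simp only [offX, off]
    refine Finset.sum_le_sum fun p _ => ?_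
    nlinarith [sq_nonneg (‖uu m (XX b s z (sub p.1 ω))‖ - ‖uu m (XX b s z (sub p.2 ω))‖)])
  refine hle.trans ?_
  rw [integral_finsetSum _ fun p _ => ((hsub p.1).add (hsub p.2)).const_mul _]
  have e2 : ∀ p ∈ S, ∫ ω, (1 / 2 : ℝ) * (‖uu m (XX b s z (sub p.1 ω))‖ ^ 2 +
      ‖uu m (XX b s z (sub p.2 ω))‖ ^ 2) ∂(PT b) = VV b s z m := by
    intro p _
    rw [integral_const_mul, integral_add (hsub p.1) (hsub p.2), hsubint, hsubint]
    ring
  rw [Finset.sum_congr rfl e2, Finset.sum_const, nsmul_eq_mul]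
  exact mul_le_mul_of_nonneg_right (card_offDiag_le b) (VV_nonneg _ _ _ _)

/-- the pointwise one-level estimate on the tree -/
lemma uu_sub_le (ha : Adm b y0 z m) (hz : 0 < z.im) (hs : 0 ≤ s) {ω : List (Fin b) → ℝ}
    (hω : |ω []| ≤ 1) :
    ‖uu m (XX b s z ω) - m ^ 2 * ∑ j : Fin b, uu m (XX b s z (sub j ω))‖ ≤
      ‖m‖ ^ 2 * (K3 y0 * offX b s z m ω + K4 y0 * s) := by
  have T := t1 b s
  have h1 := ha.uu_cav_sub (s * ω []) (fun j : Fin b => XX b s z (sub j ω))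
    (fun j => (T.im_pos z hz _).le) (by
      have := den_im_pos hz (s * ω []) (fun j : Fin b => (T.im_pos z hz (sub j ω)).le)
      intro h0
      rw [h0] at this
      simp at this)
  rw [← T.recur z hz ω] at h1
  refine h1.trans ?_
  have h2 : |s * ω []| ≤ s := by
    rw [abs_mul, abs_of_nonneg hs]
    calc s * |ω []| ≤ s * 1 := mul_le_mul_of_nonneg_left hω hs
      _ = s := mul_one s
  have h3 : 0 ≤ K4 y0 := by
    unfold K4
    have := K2_pos ha.hy
    positivity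
  have h4 : K4 y0 * |s * ω []| ≤ K4 y0 * s := mul_le_mul_of_nonneg_left h2 h3
  unfold offX
  gcongr

lemma K4_nonneg (hy : 0 < y0) : 0 ≤ K4 y0 := by
  unfold K4
  have := K2_pos hy
  positivity

/-- the mean -/
lemma mean_le (ha : Adm b y0 z m) (hz : 0 < z.im) (hs : 0 ≤ s) :
    ‖1 - (b : ℂ) * m ^ 2‖ * ‖MM b s z m‖ ≤ K3 y0 * b * VV b s z m + K4 y0 * s := by
  have hf := measurable_fu (b := b) (s := s) hz m
  have hb2 := ha.b2
  have hK3 := (K3_pos ha.hy).le
  have hK4 := K4_nonneg ha.hy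
  have hV := VV_nonneg b s z m
  have hintf : Integrable (fun ω => uu m (XX b s z ω)) (PT b) :=
    integrable_of_bdd hf.aestronglyMeasurable (bdd_uu ha hz s)
  have hsub : ∀ j : Fin b, Integrable (fun ω => uu m (XX b s z (sub j ω))) (PT b) := fun j =>
    (mp_sub b j).integrable_comp_of_integrable hintf
  have hsubint : ∀ j : Fin b, ∫ ω, uu m (XX b s z (sub j ω)) ∂(PT b) = MM b s z m := by
    intro j
    have h := (mp_sub b j).map_eq
    have e := integral_map (μ := PT b) (mp_sub b j).measurable.aemeasurable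
      (f := fun ω => uu m (XX b s z ω)) (by rw [h]; exact hf.aestronglyMeasurable)
    rw [h] at e
    exact e.symm
  have hsum : Integrable (fun ω => ∑ j : Fin b, uu m (XX b s z (sub j ω))) (PT b) :=
    integrable_finsetSum _ fun j _ => hsub j
  have e1 : ∫ ω, (uu m (XX b s z ω) - m ^ 2 * ∑ j : Fin b, uu m (XX b s z (sub j ω))) ∂(PT b) =
      (1 - (b : ℂ) * m ^ 2) * MM b s z m := by
    rw [integral_sub hintf (hsum.const_mul _), integral_const_mul,
      integral_finsetSum _ fun j _ => hsub j]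
    simp only [hsubint, Finset.sum_const, Finset.card_univ, Fintype.card_fin, nsmul_eq_mul]
    unfold MM
    ring
  rw [← norm_mul, ← e1]
  have hint2 : Integrable (fun ω => ‖m‖ ^ 2 * (K3 y0 * offX b s z m ω + K4 y0 * s)) (PT b) :=
    (((int_offX ha hz s).const_mul _).add (integrable_const _)).const_mul _
  have h2 := norm_integral_le_of_norm_le hint2 (f := fun ω => uu m (XX b s z ω) -
    m ^ 2 * ∑ j : Fin b, uu m (XX b s z (sub j ω)))
    (by filter_upwards [ae_cube b] with ω hω using uu_sub_le ha hz hs (hω []))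
  refine h2.trans ?_
  rw [integral_const_mul, integral_add ((int_offX ha hz s).const_mul _) (integrable_const _),
    integral_const_mul, integral_const]
  simp only [probReal_univ, one_smul]
  have h3 := int_off_le ha hz s
  have h4 : (b : ℝ) * ‖m‖ ^ 2 ≤ 1 := by
    have := ha.b_normSq
    rwa [← Adm.sq_norm] at this
  have h5 : ‖m‖ ^ 2 ≤ 1 := by nlinarith [sq_nonneg ‖m‖]
  have h6 : 0 ≤ ‖m‖ ^ 2 := by positivity
  calc ‖m‖ ^ 2 * (K3 y0 * ∫ ω, offX b s z m ω ∂(PT b) + K4 y0 * s)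
      ≤ ‖m‖ ^ 2 * (K3 y0 * ((b : ℝ) ^ 2 * VV b s z m) + K4 y0 * s) := by gcongr
    _ = ((b : ℝ) * ‖m‖ ^ 2) * (K3 y0 * b * VV b s z m) + ‖m‖ ^ 2 * (K4 y0 * s) := by ring
    _ ≤ 1 * (K3 y0 * b * VV b s z m) + 1 * (K4 y0 * s) := by gcongr
    _ = K3 y0 * b * VV b s z m + K4 y0 * s := by ring

/-- the mean square -/
lemma sq_le (ha : Adm b y0 z m) (hz : 0 < z.im) (hs : 0 ≤ s) :
    VV b s z m ≤ 5 / 8 * VV b s z m + 5 / 4 * ‖MM b s z m‖ ^ 2 +
      10 * K3 y0 ^ 2 * b ^ 2 * VV b s z m ^ 2 + 10 * K4 y0 ^ 2 * s ^ 2 := by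
  have hf := measurable_fu (b := b) (s := s) hz m
  have hb2 := ha.b2
  have hK3 := (K3_pos ha.hy).le
  have hK4 := K4_nonneg ha.hy
  have hV := VV_nonneg b s z m
  set c : ℝ := ‖m‖ ^ 2 with hc
  have hc0 : 0 ≤ c := by positivity
  have hbc : (b : ℝ) * c ≤ 1 := by
    have := ha.b_normSq
    rwa [← Adm.sq_norm] at this
  have hpt : ∀ᵐ ω ∂(PT b), ‖uu m (XX b s z ω)‖ ^ 2 ≤
      c ^ 2 * (5 / 4 * ‖∑ j : Fin b, uu m (XX b s z (sub j ω))‖ ^ 2 +
        (10 * K3 y0 ^ 2 * offX b s z m ω ^ 2 + 10 * K4 y0 ^ 2 * s ^ 2)) := by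
    filter_upwards [ae_cube b] with ω hω
    have h1 := uu_sub_le ha hz hs (hω [])
    set A := ‖∑ j : Fin b, uu m (XX b s z (sub j ω))‖ with hA
    have hA0 : 0 ≤ A := norm_nonneg _
    set o := offX b s z m ω with ho
    have ho0 : 0 ≤ o := offX_nonneg ω
    have h2 : ‖uu m (XX b s z ω)‖ ≤ c * A + c * (K3 y0 * o + K4 y0 * s) := by
      have := norm_sub_norm_le (uu m (XX b s z ω)) (m ^ 2 * ∑ j : Fin b, uu m (XX b s z (sub j ω)))
      rw [norm_mul, norm_pow] at this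
      linarith
    have h3 : ‖uu m (XX b s z ω)‖ ^ 2 ≤ (c * A + c * (K3 y0 * o + K4 y0 * s)) ^ 2 :=
      pow_le_pow_left₀ (norm_nonneg _) h2 2
    refine h3.trans ?_
    have e : (c * A + c * (K3 y0 * o + K4 y0 * s)) ^ 2 =
        c ^ 2 * (A + (K3 y0 * o + K4 y0 * s)) ^ 2 := by ring
    rw [e]
    refine mul_le_mul_of_nonneg_left ?_ (by positivity)
    nlinarith [sq_nonneg (A - 4 * (K3 y0 * o + K4 y0 * s)), sq_nonneg (K3 y0 * o - K4 y0 * s)]
  have hi1 : Integrable (fun ω => ‖∑ j : Fin b, uu m (XX b s z (sub j ω))‖ ^ 2) (PT b) := by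
    refine integrable_of_bdd (B := (b * BB y0) ^ 2)
      ((Finset.measurable_sum _ fun j _ => hf.comp (TreeT1.measurable_sub j)).norm.pow_const 2).aestronglyMeasurable
      fun ω => ?_
    rw [Real.norm_of_nonneg (by positivity)]
    refine pow_le_pow_left₀ (norm_nonneg _) ?_ 2
    refine (norm_sum_le _ _).trans ((Finset.sum_le_sum fun j _ => bdd_uu ha hz s (sub j ω)).trans ?_)
    rw [Finset.sum_const, Finset.card_univ, Fintype.card_fin, nsmul_eq_mul]
  have hi2 : Integrable (fun ω => offX b s z m ω ^ 2) (PT b) := by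
    refine integrable_of_bdd (B := ((b : ℝ) ^ 2 * BB y0 ^ 2) ^ 2)
      ((measurable_offX hz).pow_const 2).aestronglyMeasurable fun ω => ?_
    rw [Real.norm_of_nonneg (by positivity)]
    exact pow_le_pow_left₀ (offX_nonneg ω) (offX_le ha hz ω) 2
  have hi3 : Integrable (fun ω => 10 * K3 y0 ^ 2 * offX b s z m ω ^ 2 + 10 * K4 y0 ^ 2 * s ^ 2)
      (PT b) := (hi2.const_mul _).add (integrable_const _)
  have hi4 : Integrable (fun ω => c ^ 2 * (5 / 4 * ‖∑ j : Fin b, uu m (XX b s z (sub j ω))‖ ^ 2 +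
        (10 * K3 y0 ^ 2 * offX b s z m ω ^ 2 + 10 * K4 y0 ^ 2 * s ^ 2))) (PT b) :=
    ((hi1.const_mul _).add hi3).const_mul _
  have h5 := integral_mono_ae (int_uu_sq ha hz s) hi4 hpt
  rw [integral_const_mul, integral_add (hi1.const_mul _) hi3, integral_const_mul,
    integral_add (hi2.const_mul _) (integrable_const _), integral_const_mul, integral_const] at h5
  simp only [probReal_univ, smul_eq_mul, one_mul] at h5
  have h6 := int_sum_sq_le ha hz s
  have h7 := int_off_sq_le ha hz s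
  have hVdef : ∫ ω, ‖uu m (XX b s z ω)‖ ^ 2 ∂(PT b) = VV b s z m := rfl
  rw [hVdef] at h5
  set V := VV b s z m with hVs
  set M2 := ‖MM b s z m‖ ^ 2 with hM2
  have hM20 : 0 ≤ M2 := by positivity
  have h8 : c ^ 2 * (5 / 4 * ∫ ω, ‖∑ j : Fin b, uu m (XX b s z (sub j ω))‖ ^ 2 ∂(PT b) +
      (10 * K3 y0 ^ 2 * ∫ ω, offX b s z m ω ^ 2 ∂(PT b) + 10 * K4 y0 ^ 2 * s ^ 2)) ≤
      c ^ 2 * (5 / 4 * (b * V + b ^ 2 * M2) +
      (10 * K3 y0 ^ 2 * ((b : ℝ) ^ 4 * V ^ 2) + 10 * K4 y0 ^ 2 * s ^ 2)) := by gcongr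
  refine h5.trans (h8.trans ?_)
  have hbc2 : ((b : ℝ) * c) ^ 2 ≤ 1 := pow_le_one₀ (by positivity) hbc
  have hc2 : c ^ 2 ≤ 1 := by
    have h1 : c ≤ 1 := by nlinarith
    exact pow_le_one₀ hc0 h1
  have t1 : c ^ 2 * (5 / 4 * (b * V)) ≤ 5 / 8 * V := by
    have h1 : c ^ 2 * (b : ℝ) * 2 ≤ 1 := by
      calc c ^ 2 * (b : ℝ) * 2 ≤ c ^ 2 * b * b := by gcongr
        _ = ((b : ℝ) * c) ^ 2 := by ring
        _ ≤ 1 := hbc2
    nlinarith
  have t2 : c ^ 2 * (5 / 4 * (b ^ 2 * M2)) ≤ 5 / 4 * M2 := by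
    have : c ^ 2 * (5 / 4 * (b ^ 2 * M2)) = ((b : ℝ) * c) ^ 2 * (5 / 4 * M2) := by ring
    rw [this]
    calc ((b : ℝ) * c) ^ 2 * (5 / 4 * M2) ≤ 1 * (5 / 4 * M2) := by gcongr
      _ = _ := one_mul _
  have t3 : c ^ 2 * (10 * K3 y0 ^ 2 * ((b : ℝ) ^ 4 * V ^ 2)) ≤ 10 * K3 y0 ^ 2 * b ^ 2 * V ^ 2 := by
    have : c ^ 2 * (10 * K3 y0 ^ 2 * ((b : ℝ) ^ 4 * V ^ 2)) =
      ((b : ℝ) * c) ^ 2 * (10 * K3 y0 ^ 2 * b ^ 2 * V ^ 2) := by ring
    rw [this]
    calc ((b : ℝ) * c) ^ 2 * (10 * K3 y0 ^ 2 * b ^ 2 * V ^ 2)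
        ≤ 1 * (10 * K3 y0 ^ 2 * b ^ 2 * V ^ 2) := by gcongr
      _ = _ := one_mul _
  have t4 : c ^ 2 * (10 * K4 y0 ^ 2 * s ^ 2) ≤ 10 * K4 y0 ^ 2 * s ^ 2 := by
    calc c ^ 2 * (10 * K4 y0 ^ 2 * s ^ 2) ≤ 1 * (10 * K4 y0 ^ 2 * s ^ 2) := by gcongr
      _ = _ := one_mul _
  have e : c ^ 2 * (5 / 4 * (b * V + b ^ 2 * M2) +
      (10 * K3 y0 ^ 2 * ((b : ℝ) ^ 4 * V ^ 2) + 10 * K4 y0 ^ 2 * s ^ 2)) =
      c ^ 2 * (5 / 4 * (b * V)) + c ^ 2 * (5 / 4 * (b ^ 2 * M2)) +
      c ^ 2 * (10 * K3 y0 ^ 2 * ((b : ℝ) ^ 4 * V ^ 2)) + c ^ 2 * (10 * K4 y0 ^ 2 * s ^ 2) := by ring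
  rw [e]
  linarith

/-- the constant of the one-level inequality -/
def C1 (b : ℕ) (y0 : ℝ) : ℝ := 8 / 3 * (5 / (8 * y0 ^ 2) + 10) * (K3 y0 ^ 2 * b ^ 2 + K4 y0 ^ 2)

lemma C1_pos (hb : 2 ≤ b) (hy : 0 < y0) : 0 < C1 b y0 := by
  have hb2 : (2 : ℝ) ≤ b := by exact_mod_cast hb
  have := K3_pos hy
  unfold C1
  positivity

/-- (V') : `V ≤ C1 (V² + s²)` -/
theorem V_ineq (ha : Adm b y0 z m) (hz : 0 < z.im) (hs : 0 ≤ s) :
    VV b s z m ≤ C1 b y0 * (VV b s z m ^ 2 + s ^ 2) := by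
  have hb2 := ha.b2
  have hy := ha.hy
  have hK3 := (K3_pos ha.hy).le
  have hK4 := K4_nonneg ha.hy
  have hV := VV_nonneg b s z m
  have h1 := mean_le ha hz hs
  have h2 := sq_le ha hz hs
  have hr : IsRoot (b : ℝ) z m := ⟨ha.im_pos, by simpa using ha.hm⟩
  have h3 := hr.nonres (by linarith) hz.le
  have h3' : 2 * Real.sqrt b * m.im ≤ ‖1 - (b : ℂ) * m ^ 2‖ := by simpa using h3
  have hsb : 1 ≤ Real.sqrt b := by
    rw [Real.one_le_sqrt]; linarith
  have h4 : 2 * y0 ≤ ‖1 - (b : ℂ) * m ^ 2‖ := by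
    refine le_trans ?_ h3'
    have : y0 ≤ m.im := ha.him
    nlinarith [mul_le_mul hsb this hy.le (by positivity)]
  set V := VV b s z m with hVs
  set M := ‖MM b s z m‖ with hM
  have hM0 : 0 ≤ M := norm_nonneg _
  have h5 : 2 * y0 * M ≤ K3 y0 * b * V + K4 y0 * s :=
    (mul_le_mul_of_nonneg_right h4 hM0).trans h1
  have h6 : M ^ 2 ≤ (K3 y0 ^ 2 * b ^ 2 * V ^ 2 + K4 y0 ^ 2 * s ^ 2) / (2 * y0 ^ 2) := by
    rw [le_div_iff₀ (by positivity)]
    have h7 : (2 * y0 * M) ^ 2 ≤ (K3 y0 * b * V + K4 y0 * s) ^ 2 :=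
      pow_le_pow_left₀ (by positivity) h5 2
    nlinarith [sq_nonneg (K3 y0 * b * V - K4 y0 * s)]
  set Q := K3 y0 ^ 2 * b ^ 2 * V ^ 2 + K4 y0 ^ 2 * s ^ 2 with hQ
  have h8 : V ≤ 8 / 3 * (5 / (8 * y0 ^ 2) + 10) * Q := by
    have e1 : 5 / 4 * (Q / (2 * y0 ^ 2)) = 5 / (8 * y0 ^ 2) * Q := by field_simp; ring
    have h9 : 5 / 4 * M ^ 2 ≤ 5 / (8 * y0 ^ 2) * Q := by
      rw [← e1]; linarith
    have h10 : 10 * K3 y0 ^ 2 * b ^ 2 * V ^ 2 + 10 * K4 y0 ^ 2 * s ^ 2 = 10 * Q := by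
      rw [hQ]; ring
    linarith
  refine h8.trans ?_
  unfold C1
  rw [mul_assoc (8 / 3 * (5 / (8 * y0 ^ 2) + 10))]
  refine mul_le_mul_of_nonneg_left ?_ (by positivity)
  rw [hQ]
  have p1 : 0 ≤ K3 y0 ^ 2 * (b : ℝ) ^ 2 * s ^ 2 := by positivity
  have p2 : 0 ≤ K4 y0 ^ 2 * V ^ 2 := by positivity
  nlinarith

end oneLevel

/-! ### the top scale `Im z = 2 √b` -/

lemma top_Xn (hb : 2 ≤ b) {s : ℝ} (hs : 0 ≤ s) {z m : ℂ} (hz : z.im = 2 * Real.sqrt b)
    (hr : IsRoot (b : ℝ) z m) (N : ℕ) (ω : List (Fin b) → ℝ) (hω : ∀ p, |ω p| ≤ 1) :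
    ‖Xn b s z N ω - m‖ ≤ s / (3 * b) + (1 / 4) ^ N := by
  have hb2 : (2 : ℝ) ≤ b := by exact_mod_cast hb
  have hsq := Real.sq_sqrt (show (0 : ℝ) ≤ b by positivity)
  have hsb : 1 ≤ Real.sqrt b := by rw [Real.one_le_sqrt]; linarith
  have hz0 : 0 < z.im := by rw [hz]; positivity
  have hmn : ‖m‖ ≤ 1 / z.im := hr.norm_le_inv (by linarith) hz0
  have hzi : 1 / z.im = 1 / (2 * Real.sqrt b) := by rw [hz]
  have hprod : (1 / z.im) * (1 / z.im) = 1 / (4 * b) := by
    rw [hzi, div_mul_div_comm]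
    congr 1
    · norm_num
    · nlinarith
  induction N generalizing ω with
  | zero =>
      have h1 := (Xn_pos_norm (b := b) s hz0 0 ω).2
      have h2 : 1 / z.im ≤ 1 / 2 := by
        rw [hzi]
        exact one_div_le_one_div_of_le (by norm_num) (by linarith)
      have h3 : 0 ≤ s / (3 * b) := by positivity
      calc ‖Xn b s z 0 ω - m‖ ≤ ‖Xn b s z 0 ω‖ + ‖m‖ := norm_sub_le _ _
        _ ≤ s / (3 * b) + (1 / 4) ^ 0 := by rw [pow_zero]; linarith
  | succ N ih =>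
      have e : Xn b s z (N + 1) ω = cav z (s * ω []) fun j : Fin b => Xn b s z N (sub j ω) := rfl
      have hx : ∀ j : Fin b, 0 ≤ (Xn b s z N (sub j ω)).im := fun j => (Xn_pos_norm s hz0 N _).1.le
      have hn := norm_cav_le hz0 (s * ω []) hx
      rw [e]
      have hS : z - (s * ω [] : ℝ) + ∑ j : Fin b, Xn b s z N (sub j ω) ≠ 0 := by
        have := den_im_pos hz0 (s * ω []) hx
        intro h0; rw [h0] at this; simp at this
      have key : cav z (s * ω []) (fun j : Fin b => Xn b s z N (sub j ω)) - m =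
          cav z (s * ω []) (fun j : Fin b => Xn b s z N (sub j ω)) * m *
            (∑ j : Fin b, (Xn b s z N (sub j ω) - m) - (s * ω [] : ℝ)) := by
        have hc : cav z (s * ω []) (fun j : Fin b => Xn b s z N (sub j ω)) *
            (z - (s * ω [] : ℝ) + ∑ j : Fin b, Xn b s z N (sub j ω)) = -1 := by
          unfold cav; exact div_mul_cancel₀ _ hS
        have hm := hr.eq
        have hm' : m * (z + (b : ℂ) * m) = -1 := by simpa using hm
        rw [Finset.sum_sub_distrib, Finset.sum_const, Finset.card_univ, Fintype.card_fin,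
          nsmul_eq_mul]
        linear_combination (-m) * hc + cav z (s * ω []) (fun j : Fin b => Xn b s z N (sub j ω)) * hm'
      rw [key, norm_mul, norm_mul]
      have h1 : ‖∑ j : Fin b, (Xn b s z N (sub j ω) - m) - (s * ω [] : ℝ)‖ ≤
          b * (s / (3 * b) + (1 / 4) ^ N) + s := by
        refine (norm_sub_le _ _).trans (add_le_add ?_ ?_)
        · refine (norm_sum_le _ _).trans ((Finset.sum_le_sum fun j _ =>
            ih (sub j ω) fun p => hω _).trans ?_)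
          rw [Finset.sum_const, Finset.card_univ, Fintype.card_fin, nsmul_eq_mul]
        · rw [Complex.norm_real, Real.norm_eq_abs, abs_mul, abs_of_nonneg hs]
          calc s * |ω []| ≤ s * 1 := mul_le_mul_of_nonneg_left (hω []) hs
            _ = s := mul_one s
      have h2 : ‖cav z (s * ω []) (fun j : Fin b => Xn b s z N (sub j ω))‖ * ‖m‖ ≤ 1 / (4 * b) := by
        rw [← hprod]
        exact mul_le_mul hn hmn (norm_nonneg _) (by positivity)
      calc _ ≤ 1 / (4 * b) * (b * (s / (3 * b) + (1 / 4) ^ N) + s) :=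
            mul_le_mul h2 h1 (norm_nonneg _) (by positivity)
        _ = s / (3 * b) + (1 / 4) ^ (N + 1) := by
            rw [pow_succ]; field_simp; ring

lemma top_VV (hb : 2 ≤ b) {s : ℝ} (hs : 0 ≤ s) {z m : ℂ} (hz : z.im = 2 * Real.sqrt b)
    (hr : IsRoot (b : ℝ) z m) : VV b s z m ≤ 4 * s ^ 2 := by
  have hb2 : (2 : ℝ) ≤ b := by exact_mod_cast hb
  have hsq := Real.sq_sqrt (show (0 : ℝ) ≤ b by positivity)
  have hsb : 1 ≤ Real.sqrt b := by rw [Real.one_le_sqrt]; linarith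
  have hz0 : 0 < z.im := by rw [hz]; positivity
  have hmn : ‖m‖ ≤ 1 / z.im := hr.norm_le_inv (by linarith) hz0
  have T := t1 b s
  have h2 : 1 / z.im ≤ 1 / 2 := by
    rw [hz]
    exact one_div_le_one_div_of_le (by norm_num) (by linarith)
  have hpt : ∀ᵐ ω ∂(PT b), ‖uu m (XX b s z ω)‖ ^ 2 ≤ 4 * s ^ 2 := by
    filter_upwards [ae_cube b] with ω hω
    have hlim : Tendsto (fun N : ℕ => s / (3 * b) + (1 / 4 : ℝ) ^ N) atTop (𝓝 (s / (3 * b) + 0)) :=
      tendsto_const_nhds.add (tendsto_pow_atTop_nhds_zero_of_lt_one (by norm_num) (by norm_num))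
    have hX : ‖XX b s z ω - m‖ ≤ s / (3 * b) + 0 :=
      le_of_tendsto_of_tendsto' (((T.tendsto z hz0 ω).sub_const m).norm) hlim
        fun N => top_Xn hb hs hz hr N ω hω
    have hX' : ‖XX b s z ω - m‖ ≤ s := by
      refine hX.trans ?_
      rw [add_zero, div_le_iff₀ (by positivity)]
      nlinarith
    have hXn := T.norm_le z hz0 ω
    have hden : 1 / 2 ≤ ‖1 - m * XX b s z ω‖ := by
      have h3 : ‖m * XX b s z ω‖ ≤ 1 / 4 := by
        rw [norm_mul]
        calc ‖m‖ * ‖XX b s z ω‖ ≤ (1 / 2) * (1 / 2) :=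
              mul_le_mul (hmn.trans h2) (hXn.trans h2) (norm_nonneg _) (by norm_num)
          _ = 1 / 4 := by norm_num
      have h4 := norm_sub_norm_le (1 : ℂ) (m * XX b s z ω)
      rw [norm_one] at h4
      linarith
    have hu : ‖uu m (XX b s z ω)‖ ≤ 2 * s := by
      unfold uu
      rw [norm_div, div_le_iff₀ (by linarith)]
      nlinarith
    calc ‖uu m (XX b s z ω)‖ ^ 2 ≤ (2 * s) ^ 2 := pow_le_pow_left₀ (norm_nonneg _) hu 2
      _ = 4 * s ^ 2 := by ring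
  have hint : Integrable (fun ω => ‖uu m (XX b s z ω)‖ ^ 2) (PT b) := by
    refine Integrable.mono' (integrable_const (4 * s ^ 2))
      ((TreeT6N.measurable_uu s hz0 m).norm.pow_const 2).aestronglyMeasurable ?_
    filter_upwards [hpt] with ω hω
    rw [Real.norm_of_nonneg (sq_nonneg _)]
    exact hω
  calc VV b s z m ≤ ∫ _ω, 4 * s ^ 2 ∂(PT b) := integral_mono_ae hint (integrable_const _) hpt
    _ = 4 * s ^ 2 := by simp

/-! ### continuity in `η` and conclusion -/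

/-- **T5** -/
theorem t5 (hb : 2 ≤ b) : T5 b := by
  intro κ hκ
  have hb2 : (2 : ℝ) ≤ b := by exact_mod_cast hb
  have hsb : 1 ≤ Real.sqrt b := by rw [Real.one_le_sqrt]; linarith
  by_cases hκ' : κ ≤ 2 * Real.sqrt b
  swap
  · refine ⟨1, one_pos, 1, one_pos, fun s _ _ z m hz => ?_⟩
    exact absurd hz (by have := abs_nonneg z.re; push Not at hκ' ⊢; linarith)
  have hy0 := y00_pos hb hκ hκ'
  set y0 := y00 b κ with hy0def
  have hC1 := C1_pos hb hy0
  set C := C1 b y0 with hCdef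
  refine ⟨min 1 (1 / (16 * (C + 1) ^ 2)), lt_min one_pos (by positivity), 2 * C, by positivity, ?_⟩
  intro s hs hss z m hz1 hz2 hz3 hm1 hm2
  have hs1 : s < 1 := hss.trans_le (min_le_left _ _)
  have hs2 : s < 1 / (16 * (C + 1) ^ 2) := hss.trans_le (min_le_right _ _)
  have hssq : s ^ 2 ≤ s := by nlinarith
  have hsC : s ^ 2 * (16 * (C + 1) ^ 2) < 1 := by
    rw [lt_div_iff₀ (by positivity)] at hs2
    have : s ^ 2 * (16 * (C + 1) ^ 2) ≤ s * (16 * (C + 1) ^ 2) := by gcongr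
    linarith
  have T := t1 b s
  -- the path
  let zp : ℝ → ℂ := fun η => ⟨z.re, η⟩
  have hroot : ∀ η : ℝ, 0 < η → ∃ m', IsRoot (b : ℝ) (zp η) m' := fun η hη =>
    exists_isRoot (by linarith) hη
  choose! mp hmp using hroot
  have hadm : ∀ η : ℝ, 0 < η → η ≤ 2 * Real.sqrt b → Adm b y0 (zp η) (mp η) := fun η h1 h2 =>
    adm_of_root hb hκ hz1 h1 h2 (hmp η h1)
  -- dichotomy
  have hdich : ∀ η : ℝ, 0 < η → η ≤ 2 * Real.sqrt b →
      VV b s (zp η) (mp η) ≤ 2 * C * s ^ 2 ∨ 1 / (2 * C) ≤ VV b s (zp η) (mp η) := by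
    intro η h1 h2
    have h3 := V_ineq (hadm η h1 h2) h1 hs.le
    rw [← hCdef] at h3
    by_cases h4 : 1 / (2 * C) ≤ VV b s (zp η) (mp η)
    · exact Or.inr h4
    · left
      push Not at h4
      rw [lt_div_iff₀ (by positivity)] at h4
      have hV := VV_nonneg b s (zp η) (mp η)
      nlinarith
  -- continuity
  have hcont : ContinuousOn (fun η => VV b s (zp η) (mp η)) (Set.Icc z.im (2 * Real.sqrt b)) := by
    have hzp : Continuous zp := by
      have : zp = fun η : ℝ => (z.re : ℂ) + (η : ℂ) * Complex.I := by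
        funext η
        apply Complex.ext <;> simp [zp]
      rw [this]
      exact continuous_const.add (Complex.continuous_ofReal.mul continuous_const)
    have hmc : ContinuousOn mp (Set.Icc z.im (2 * Real.sqrt b)) := by
      intro η hη
      have hη0 : 0 < η := hz2.trans_le hη.1
      rw [Metric.continuousWithinAt_iff]
      intro ε hε
      have hmi := (hmp η hη0).im_pos
      refine ⟨ε * (mp η).im, by positivity, fun {x} hx hd => ?_⟩
      have hx0 : 0 < x := hz2.trans_le hx.1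
      have h1 := (hmp η hη0).lipschitz (hmp x hx0) (by linarith) hη0.le hx0.le
      have h2 : ‖zp η - zp x‖ = |η - x| := by
        have : zp η - zp x = ((η - x : ℝ) : ℂ) * Complex.I := by
          apply Complex.ext <;> simp [zp]
        rw [this, norm_mul, Complex.norm_I, mul_one, Complex.norm_real, Real.norm_eq_abs]
      rw [h2] at h1
      rw [dist_comm, dist_eq_norm]
      rw [Real.dist_eq, abs_sub_comm] at hd
      refine lt_of_le_of_lt h1 ?_
      rw [div_lt_iff₀ hmi]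
      exact hd
    refine continuousOn_of_dominated (bound := fun _ => BB y0 ^ 2) ?_ ?_ (integrable_const _) ?_
    · intro η hη
      exact ((TreeT6N.measurable_uu s (show 0 < (zp η).im from hz2.trans_le hη.1) (mp η)).norm.pow_const 2).aestronglyMeasurable
    · intro η hη
      refine Eventually.of_forall fun ω => ?_
      rw [Real.norm_of_nonneg (sq_nonneg _)]
      exact pow_le_pow_left₀ (norm_nonneg _)
        (bdd_uu (hadm η (hz2.trans_le hη.1) hη.2) (hz2.trans_le hη.1) s ω) 2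
    · refine Eventually.of_forall fun ω => ?_
      have hXc : ContinuousOn (fun η => XX b s (zp η) ω) (Set.Icc z.im (2 * Real.sqrt b)) := by
        have h1 := (T.diff ω).continuousOn
        exact h1.comp hzp.continuousOn fun η hη => (hz2.trans_le hη.1 : 0 < η)
      refine ContinuousOn.pow (ContinuousOn.norm ?_) 2
      unfold uu
      refine (hXc.sub hmc).div (continuousOn_const.sub (hmc.mul hXc)) fun η hη => ?_
      exact (hadm η (hz2.trans_le hη.1) hη.2).one_sub_ne (T.im_pos _ (hz2.trans_le hη.1) ω).le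
  -- the start
  have htop : VV b s (zp (2 * Real.sqrt b)) (mp (2 * Real.sqrt b)) ≤ 4 * s ^ 2 :=
    top_VV hb hs.le rfl (hmp _ (by positivity))
  have hmz : mp z.im = m := by
    have h1 := hmp z.im hz2
    have h2 : IsRoot (b : ℝ) (zp z.im) m := ⟨hm1, by
      have e : zp z.im = z := rfl
      rw [e]; simpa using hm2⟩
    exact h1.unique h2 (by linarith) hz2.le
  have hzz : zp z.im = z := rfl
  have hgoal : VV b s z m = VV b s (zp z.im) (mp z.im) := by rw [hmz, hzz]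
  have hgap1 : 4 * s ^ 2 < 1 / (2 * C) := by
    rw [lt_div_iff₀ (by positivity)]
    nlinarith [sq_nonneg s, sq_nonneg (C - 1), mul_nonneg (sq_nonneg s) (sq_nonneg C)]
  have hgap2 : 2 * C * s ^ 2 < 1 / (2 * C) := by
    rw [lt_div_iff₀ (by positivity)]
    nlinarith [sq_nonneg s, mul_nonneg (sq_nonneg s) hC1.le]
  have htop' : VV b s (zp (2 * Real.sqrt b)) (mp (2 * Real.sqrt b)) ≤ 2 * C * s ^ 2 := by
    rcases hdich (2 * Real.sqrt b) (by positivity) le_rfl with h | h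
    · exact h
    · linarith
  rcases hdich z.im hz2 hz3 with h | h
  · have : VV b s z m ≤ 2 * C * s ^ 2 := by rw [hgoal]; exact h
    exact this
  · exfalso
    have hivt := intermediate_value_Icc' hz3 hcont
    have hmem : (2 * C * s ^ 2 + 1 / (2 * C)) / 2 ∈
        Set.Icc (VV b s (zp (2 * Real.sqrt b)) (mp (2 * Real.sqrt b)))
          (VV b s (zp z.im) (mp z.im)) := ⟨by linarith, by linarith⟩
    obtain ⟨η, hη, hη2⟩ := hivt hmem
    simp only at hη2
    rcases hdich η (hz2.trans_le hη.1) hη.2 with h' | h'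
    · linarith
    · linarith

end

end Crest.Agent.R166.TreeT5
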