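import Mathlib
import Crest.Agent.R166.TreeT1_383

/-!
# R166, section 32 (tree half): `T6 b → T6_lim b` (helper383)

a.s. convergence of the cavity field along a sequence `η_j → 0`, to a point of the open upper half
plane: `∑ ρ(X_j, X_{j+1}) < ∞` a.s. and completeness of the hyperbolic plane.
-/

set_option autoImplicit false

open MeasureTheory Filter Topology

namespace Crest.Agent.R166.TreeT6L

open Crest.Agent.R166 Crest.Agent.R166.TreeDet350 Crest.Agent.R166.TreeDefs350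
  Crest.Agent.R166.TreeSpec350 Crest.Agent.R166.TreeT1

noncomputable section

/-- hyperbolic distance and `ρ` -/
lemma dist_le_of_rho {x y : UpperHalfPlane} {r : ℝ} (hr : r ≤ 1 / 2)
    (h : rho (x : ℂ) (y : ℂ) ≤ r) : dist x y ≤ 4 * r := by
  have hx : 0 < (x : ℂ).im := x.2
  have hy : 0 < (y : ℂ).im := y.2
  have hr0 : 0 ≤ r := (rho_nonneg _ _).trans h
  have hd0 : 0 ≤ dist x y := dist_nonneg
  have h1 : dist x y / 2 ≤ Real.sinh (dist x y / 2) := Real.self_le_sinh_iff.2 (by positivity)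
  rw [UpperHalfPlane.sinh_half_dist] at h1
  have hxy : 0 < x.im * y.im := mul_pos x.im_pos y.im_pos
  have h2 : ‖(x : ℂ) - y‖ ^ 2 ≤ r ^ 2 / (1 - r ^ 2) * (4 * (x.im * y.im)) := by
    have e := rho_sq (x := (x : ℂ)) (y := (y : ℂ))
    have h3 : rho (x : ℂ) y ^ 2 ≤ r ^ 2 := pow_le_pow_left₀ (rho_nonneg _ _) h 2
    have hr2 : r ^ 2 ≤ 1 / 4 := by nlinarith
    have hden : 0 < ‖(x : ℂ) - y‖ ^ 2 + 4 * (x : ℂ).im * (y : ℂ).im := by positivity
    rw [e, div_le_iff₀ hden] at h3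
    rw [div_mul_eq_mul_div, le_div_iff₀ (by linarith)]
    have e1 : (x : ℂ).im = x.im := rfl
    have e2 : (y : ℂ).im = y.im := rfl
    rw [e1, e2] at h3
    nlinarith
  have h4 : ‖(x : ℂ) - y‖ ≤ 2 * r * (2 * Real.sqrt (x.im * y.im)) := by
    apply le_of_sq_le_sq _ (by positivity)
    refine h2.trans ?_
    have hr2 : r ^ 2 ≤ 1 / 4 := by nlinarith
    have h5 : r ^ 2 / (1 - r ^ 2) ≤ 4 * r ^ 2 := by
      rw [div_le_iff₀ (by linarith)]
      nlinarith [sq_nonneg r]
    calc r ^ 2 / (1 - r ^ 2) * (4 * (x.im * y.im)) ≤ 4 * r ^ 2 * (4 * (x.im * y.im)) := by gcongr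
      _ = (2 * r * (2 * Real.sqrt (x.im * y.im))) ^ 2 := by
          rw [mul_pow, mul_pow 2 (Real.sqrt _), Real.sq_sqrt hxy.le]; ring
  rw [dist_eq_norm, ] at h1
  have h6 : ‖(x : ℂ) - y‖ / (2 * Real.sqrt (x.im * y.im)) ≤ 2 * r := by
    rw [div_le_iff₀ (by positivity)]
    exact h4
  linarith

/-- deterministic part: a sequence with summable `ρ` converges in the open half plane -/
lemma exists_limit {x : ℕ → ℂ} (hx : ∀ j, 0 < (x j).im)
    (h : ∀ᶠ j in atTop, rho (x j) (x (j + 1)) ≤ (1 / 2 : ℝ) ^ (j + 1)) :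
    ∃ y : ℂ, 0 < y.im ∧ Tendsto x atTop (𝓝 y) := by
  let f : ℕ → UpperHalfPlane := fun j => ⟨x j, hx j⟩
  have hc : CauchySeq f := by
    apply cauchySeq_of_summable_dist
    refine Summable.of_norm_bounded_eventually_nat (g := fun j => 4 * (1 / 2 : ℝ) ^ (j + 1)) ?_ ?_
    · have := (summable_geometric_of_lt_one (by norm_num : (0:ℝ) ≤ 1/2) (by norm_num)).mul_left (4 * (1/2))
      refine this.congr fun j => ?_
      rw [pow_succ]; ring
    · filter_upwards [h] with j hj
      rw [Real.norm_of_nonneg dist_nonneg]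
      refine dist_le_of_rho ?_ hj
      rw [pow_succ]
      have : (1 / 2 : ℝ) ^ j ≤ 1 := pow_le_one₀ (by norm_num) (by norm_num)
      linarith
  obtain ⟨y, hy⟩ := cauchySeq_tendsto_of_complete hc
  refine ⟨(y : ℂ), y.2, ?_⟩
  exact (UpperHalfPlane.continuous_coe.tendsto y).comp hy

lemma measurable_rho {b : ℕ} (s : ℝ) {z w : ℂ} (hz : 0 < z.im) (hw : 0 < w.im) :
    Measurable fun ω => rho (XX b s z ω) (XX b s w ω) := by
  have h1 := measurable_XX (b := b) s hz
  have h2 := measurable_XX (b := b) s hw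
  unfold rho
  exact (h1.sub h2).norm.div (h1.sub (Complex.continuous_conj.measurable.comp h2)).norm

lemma measure_rho_le {b : ℕ} (s : ℝ) {z w : ℂ} (hz : 0 < z.im) (hw : 0 < w.im) {r e : ℝ}
    (hr : 0 < r) (he : ∫ ω, rho (XX b s z ω) (XX b s w ω) ^ 2 ∂(PT b) ≤ e) :
    (PT b) {ω | r ≤ rho (XX b s z ω) (XX b s w ω)} ≤ ENNReal.ofReal (e / r ^ 2) := by
  have T := t1 b s
  have hm : Measurable fun ω => rho (XX b s z ω) (XX b s w ω) ^ 2 :=
    (measurable_rho s hz hw).pow_const 2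
  have hint : Integrable (fun ω => rho (XX b s z ω) (XX b s w ω) ^ 2) (PT b) := by
    refine Integrable.of_bound hm.aestronglyMeasurable 1 (Eventually.of_forall fun ω => ?_)
    rw [Real.norm_of_nonneg (sq_nonneg _)]
    exact pow_le_one₀ (rho_nonneg _ _) (rho_le_one (T.im_pos z hz ω) (T.im_pos w hw ω))
  have key := mul_meas_ge_le_integral_of_nonneg
    (μ := PT b) (Eventually.of_forall fun ω => sq_nonneg (rho (XX b s z ω) (XX b s w ω))) hint (r ^ 2)
  have hset : {ω | r ≤ rho (XX b s z ω) (XX b s w ω)} =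
      {ω | r ^ 2 ≤ rho (XX b s z ω) (XX b s w ω) ^ 2} := by
    ext ω
    simp only [Set.mem_ofPred_eq]
    rw [pow_le_pow_iff_left₀ hr.le (rho_nonneg _ _) two_ne_zero]
  rw [hset, ← ofReal_measureReal (measure_ne_top _ _)]
  apply ENNReal.ofReal_le_ofReal
  rw [le_div_iff₀ (by positivity)]
  linarith

/-- **`T6 → T6_lim`** -/
theorem t6_lim (b : ℕ) (h6 : T6 b) : T6_lim b := by
  intro κ hκ
  obtain ⟨s0, hs0, H⟩ := h6 κ hκ
  refine ⟨s0, hs0, fun s hs hss E hE => ?_⟩
  have hb : 0 < 2 * Real.sqrt b := by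
    have := abs_nonneg E
    linarith
  have T := t1 b s
  choose δ hδ Hδ using fun j : ℕ => H s hs hss ((1 / 8 : ℝ) ^ (j + 1)) (by positivity)
  set η : ℕ → ℝ := fun j => min (min (δ j) (δ (j - 1))) (min (2 * Real.sqrt b) (1 / (j + 1)))
    with hη
  have hη0 : ∀ j, 0 < η j := fun j => by
    simp only [hη]
    exact lt_min (lt_min (hδ _) (hδ _)) (lt_min hb (by positivity))
  have hη1 : ∀ j, η j ≤ δ j := fun j => (min_le_left _ _).trans (min_le_left _ _)
  have hη2 : ∀ j, η (j + 1) ≤ δ j := fun j =>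
    (min_le_left (min (δ (j + 1)) (δ (j + 1 - 1))) _).trans (min_le_right _ _)
  have hη3 : ∀ j, η j ≤ 2 * Real.sqrt b := fun j => (min_le_right _ _).trans (min_le_left _ _)
  have hη4 : ∀ j, η j ≤ 1 / (j + 1) := fun j => (min_le_right _ _).trans (min_le_right _ _)
  have hlim : Tendsto η atTop (𝓝 0) :=
    squeeze_zero (fun j => (hη0 j).le) hη4 tendsto_one_div_add_atTop_nhds_zero_nat
  refine ⟨η, hη0, hlim, ?_⟩
  have him : ∀ j, 0 < (ze E (η j)).im := fun j => by
    unfold ze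
    simpa using hη0 j
  have hint : ∀ j, ∫ ω, rho (XX b s (ze E (η j)) ω) (XX b s (ze E (η (j + 1))) ω) ^ 2 ∂(PT b) ≤
      (1 / 8 : ℝ) ^ (j + 1) := by
    intro j
    refine Hδ j _ _ ?_ (him j) ?_ ?_ (him (j + 1)) ?_ ?_
    · unfold ze; simpa using hE
    · unfold ze; simpa using hη3 j
    · unfold ze; simpa using hE
    · unfold ze; simpa using hη3 (j + 1)
    · have e : ze E (η j) - ze E (η (j + 1)) = Complex.I * ((η j - η (j + 1) : ℝ) : ℂ) := by
        unfold ze; push_cast; ring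
      rw [e, norm_mul, Complex.norm_I, one_mul, Complex.norm_real, Real.norm_eq_abs, abs_le]
      constructor
      · linarith [hη0 j, hη2 j]
      · linarith [hη0 (j + 1), hη1 j]
  -- Borel-Cantelli
  have hsum : (∑' j : ℕ, (PT b) {ω | (1 / 2 : ℝ) ^ (j + 1) ≤
      rho (XX b s (ze E (η j)) ω) (XX b s (ze E (η (j + 1))) ω)}) ≠ ⊤ := by
    have hle : ∀ j : ℕ, (PT b) {ω | (1 / 2 : ℝ) ^ (j + 1) ≤
        rho (XX b s (ze E (η j)) ω) (XX b s (ze E (η (j + 1))) ω)} ≤
        ENNReal.ofReal ((1 / 2 : ℝ) ^ (j + 1)) := by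
      intro j
      refine (measure_rho_le s (him j) (him (j + 1)) (by positivity) (hint j)).trans ?_
      apply ENNReal.ofReal_le_ofReal
      rw [← pow_mul, div_le_iff₀ (by positivity), ← pow_add]
      have : (1 / 8 : ℝ) = (1 / 2) ^ 3 := by norm_num
      rw [this, ← pow_mul]
      apply le_of_eq
      congr 1
      ring
    refine ne_top_of_le_ne_top ?_ (ENNReal.tsum_le_tsum hle)
    have hs' : Summable fun j : ℕ => (1 / 2 : ℝ) ^ (j + 1) := by
      have := (summable_geometric_of_lt_one (by norm_num : (0:ℝ) ≤ 1/2) (by norm_num)).mul_left (1/2 : ℝ)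
      refine this.congr fun j => ?_
      rw [pow_succ]; ring
    exact (ENNReal.ofReal_tsum_of_nonneg (fun _ => by positivity) hs').symm ▸ ENNReal.ofReal_ne_top
  filter_upwards [ae_eventually_notMem hsum] with ω hω
  refine exists_limit (fun j => T.im_pos _ (him j) ω) ?_
  filter_upwards [hω] with j hj
  simp only [Set.mem_ofPred_eq, not_le] at hj
  exact hj.le

end

end Crest.Agent.R166.TreeT6L
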