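import Mathlib
import Crest.Agent.R166.TreeCon_350
/-!
Row 166, section 32 (tree half): averaged one-level contraction, final forms.  (helper350)
-/
set_option autoImplicit false

namespace Crest.Agent.R166.TreeDet350

open MeasureTheory ProbabilityTheory Complex Finset

noncomputable section

variable {b : ℕ} {y0 : ℝ} {z m : ℂ} {Θ : Type*} [MeasurableSpace Θ]
variable {π : Measure Θ} [IsProbabilityMeasure π] {X Y : Θ → ℂ}

/-- smallness threshold for the probability of a bad pair -/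
def pb0 (b : ℕ) (y0 : ℝ) : ℝ := y0 ^ 6 / (40000 * b ^ 4 * (1 + CF b y0 + C3 b y0))

theorem Adm.CF_nonneg (h : Adm b y0 z m) : 0 ≤ CF b y0 := by
  have := h.C3_pos; have := h.hy; unfold CF; positivity

theorem Adm.pb0_pos (h : Adm b y0 z m) : 0 < pb0 b y0 := by
  have := h.CF_nonneg; have := h.C3_pos; have := h.hy; have := h.b2
  unfold pb0; positivity

/-- the two consequences of `p ≤ pb0` that are used -/
theorem Adm.pb0_use (h : Adm b y0 z m) {p : ℝ} (hp0 : 0 ≤ p) (hp : p ≤ pb0 b y0) :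
    b ^ 4 * p ≤ y0 ^ 6 / 40000 ∧ (CF b y0 * b ^ 2 + C3 b y0 * b ^ 3) * p ≤ 1 / 40000 := by
  have hCF := h.CF_nonneg
  have hC3 := h.C3_pos
  have hy := h.hy
  have hy1 := h.y0_lt_one
  have hb2 := h.b2
  have hb0 : (0 : ℝ) < b := by linarith
  have hy6 : y0 ^ 6 ≤ 1 := pow_le_one₀ hy.le hy1.le
  have h1 : p * (40000 * b ^ 4 * (1 + CF b y0 + C3 b y0)) ≤ y0 ^ 6 := by
    unfold pb0 at hp
    rwa [le_div_iff₀ (by positivity)] at hp
  have h2 : b ^ 4 * p ≤ b ^ 4 * p * (1 + CF b y0 + C3 b y0) := by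
    have : 0 ≤ b ^ 4 * p := by positivity
    nlinarith
  constructor
  · rw [le_div_iff₀ (by norm_num)]
    nlinarith
  · have h3 : CF b y0 * (b : ℝ) ^ 2 + C3 b y0 * b ^ 3 ≤ b ^ 4 * (1 + CF b y0 + C3 b y0) := by
      have e1 : (b : ℝ) ^ 2 ≤ b ^ 4 := pow_le_pow_right₀ (by linarith) (by norm_num)
      have e2 : (b : ℝ) ^ 3 ≤ b ^ 4 := pow_le_pow_right₀ (by linarith) (by norm_num)
      have e3 := mul_le_mul_of_nonneg_left e1 hCF
      have e4 := mul_le_mul_of_nonneg_left e2 hC3.le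
      have e5 : (0 : ℝ) ≤ b ^ 4 := by positivity
      nlinarith
    have h4 := mul_le_mul_of_nonneg_right h3 hp0
    rw [le_div_iff₀ (by norm_num)]
    nlinarith

omit [IsProbabilityMeasure π] in
theorem int_rho_bI_sq [IsFiniteMeasure π] (P : Pr X Y) (m : ℂ) (r : ℝ) :
    (∫ θ, bI m r (X θ, Y θ) * rho (X θ) (Y θ) ∂π) ^ 2 ≤
      (∫ θ, bI m r (X θ, Y θ) ∂π) * rA π X Y := by
  have mb := P.meas_bI m r
  have mr := P.meas_rho
  have i1 : Integrable (fun θ => bI m r (X θ, Y θ) ^ 2) π :=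
    integrable_of_bdd (B := 1) (mb.pow_const 2).aestronglyMeasurable fun θ => by
      rw [Real.norm_eq_abs, abs_of_nonneg (by positivity)]
      exact pow_le_one₀ (bI_nonneg _ _) (bI_le_one _ _)
  have i1' : Integrable (fun θ => bI m r (X θ, Y θ)) π :=
    integrable_of_bdd (B := 1) mb.aestronglyMeasurable fun θ => by
      rw [Real.norm_eq_abs, abs_of_nonneg (bI_nonneg _ _)]
      exact bI_le_one _ _
  have i2 : Integrable (fun θ => rho (X θ) (Y θ) ^ 2) π :=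
    integrable_of_bdd (B := 1) (mr.pow_const 2).aestronglyMeasurable fun θ => by
      rw [Real.norm_eq_abs, abs_of_nonneg (by positivity)]
      exact P.rho_sq_le θ
  have i3 : Integrable (fun θ => bI m r (X θ, Y θ) * rho (X θ) (Y θ)) π :=
    integrable_of_bdd (B := 1) (mb.mul mr).aestronglyMeasurable fun θ => by
      rw [Real.norm_eq_abs, abs_of_nonneg (mul_nonneg (bI_nonneg _ _) (rho_nonneg _ _))]
      exact mul_le_one₀ (bI_le_one _ _) (rho_nonneg _ _) (rho_le_one (P.pX θ) (P.pY θ))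
  refine (int_cs i1 i2 i3).trans ?_
  refine mul_le_mul_of_nonneg_right ?_ rA_nonneg
  refine integral_mono i1 i1' fun θ => ?_
  have e1 := bI_nonneg (m := m) r (X θ, Y θ)
  have e2 := bI_le_one (m := m) r (X θ, Y θ)
  simp only
  nlinarith

theorem int_rho_sq_le (P : Pr X Y) : (∫ θ, rho (X θ) (Y θ) ∂π) ^ 2 ≤ rA π X Y := by
  have h := int_cs (P := π) (f := fun _ => (1 : ℝ)) (g := fun θ => rho (X θ) (Y θ))
    (by simp) P.int_rho_sq (by simpa using P.int_rho)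
  unfold rA
  simpa using h

/-- squared bound of the mean of `g δ` -/
theorem Adm.int_disp (h : Adm b y0 z m) (P : Pr X Y) :
    ‖∫ θ, (gI m (rr b y0) (X θ, Y θ) : ℂ) * (X θ - Y θ) ∂π‖ ^ 2 ≤
      9 / 2 * ‖dA m π X Y‖ ^ 2 + 4 * (1600 * rr b y0) ^ 2 * cA b y0 m π X Y +
        4 * (5 / y0) ^ 2 * (pA b y0 m π X Y * cA b y0 m π X Y) := by
  have hy := h.hy
  have hr0 := h.rr_pos
  have hr4 : rr b y0 ≤ 1 / 4 := by linarith [h.rr_le', h.y0_lt_one]
  have hRc := h.rA_le_cA (π := π) P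
  have hp0 : 0 ≤ pA b y0 m π X Y := pA_nonneg
  have hR0 : 0 ≤ rA π X Y := rA_nonneg
  have hc0 : 0 ≤ cA b y0 m π X Y := h.cA_nonneg
  have hBB := BB_pos hy
  have mg := P.meas_gI m (rr b y0)
  have mb := P.meas_bI m (rr b y0)
  have i1 : Integrable (fun θ => (gI m (rr b y0) (X θ, Y θ) : ℂ) * (X θ - Y θ)) π := by
    refine integrable_of_bdd (B := 2 * m.im + 4 * rr b y0)
      ((Complex.measurable_ofReal.comp mg).mul (P.mX.sub P.mY)).aestronglyMeasurable fun θ => ?_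
    by_cases hg : Good m (rr b y0) (X θ, Y θ)
    · rw [gI_good hg, ofReal_one, one_mul]
      have e1 := h.norm_sub_le_good (P.pX θ) (P.pY θ) hr4 hg.1 hg.2
      have e2 := rho_le_one (P.pX θ) (P.pY θ)
      have e3 : 0 ≤ 2 * m.im + 4 * rr b y0 := by have := h.im_pos; positivity
      nlinarith
    · rw [gI_bad hg]
      have := h.im_pos
      simp only [ofReal_zero, zero_mul, norm_zero]
      positivity
  have i2 : Integrable (fun θ => uu m (X θ) - uu m (Y θ)) π := by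
    refine integrable_of_bdd (B := BB y0 + BB y0)
      (((measurable_uu m).comp P.mX).sub ((measurable_uu m).comp P.mY)).aestronglyMeasurable
      fun θ => ?_
    exact (norm_sub_le _ _).trans (add_le_add (h.norm_uu_le (P.pX θ).le) (h.norm_uu_le (P.pY θ).le))
  have i3 : Integrable (fun θ => bI m (rr b y0) (X θ, Y θ) * rho (X θ) (Y θ)) π :=
    integrable_of_bdd (B := 1) (mb.mul P.meas_rho).aestronglyMeasurable fun θ => by
      rw [Real.norm_eq_abs, abs_of_nonneg (mul_nonneg (bI_nonneg _ _) (rho_nonneg _ _))]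
      exact mul_le_one₀ (bI_le_one _ _) (rho_nonneg _ _) (rho_le_one (P.pX θ) (P.pY θ))
  have e0 : ∫ θ, (gI m (rr b y0) (X θ, Y θ) : ℂ) * (X θ - Y θ) ∂π =
      (∫ θ, ((gI m (rr b y0) (X θ, Y θ) : ℂ) * (X θ - Y θ) -
        (1 - m ^ 2) * (uu m (X θ) - uu m (Y θ))) ∂π) + (1 - m ^ 2) * dA m π X Y := by
    rw [integral_sub i1 (i2.const_mul _), integral_const_mul]
    unfold dA
    ring
  have e1 : ‖∫ θ, ((gI m (rr b y0) (X θ, Y θ) : ℂ) * (X θ - Y θ) -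
        (1 - m ^ 2) * (uu m (X θ) - uu m (Y θ))) ∂π‖ ≤
      1600 * rr b y0 * (∫ θ, rho (X θ) (Y θ) ∂π) +
        5 / y0 * ∫ θ, bI m (rr b y0) (X θ, Y θ) * rho (X θ) (Y θ) ∂π := by
    refine (norm_integral_le_integral_norm _).trans ?_
    rw [← integral_const_mul, ← integral_const_mul,
      ← integral_add (P.int_rho.const_mul _) (i3.const_mul _)]
    refine integral_mono (i1.sub (i2.const_mul _)).norm
      ((P.int_rho.const_mul _).add (i3.const_mul _)) fun θ => ?_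
    exact h.disp_u (p := (X θ, Y θ)) (P.pX θ) (P.pY θ)
  have e2 := int_rho_sq_le (π := π) P
  have e3 := int_rho_bI_sq (π := π) P m (rr b y0)
  obtain ⟨S1, hS1⟩ : ∃ S, S = ∫ θ, rho (X θ) (Y θ) ∂π := ⟨_, rfl⟩
  obtain ⟨S2, hS2⟩ : ∃ S, S = ∫ θ, bI m (rr b y0) (X θ, Y θ) * rho (X θ) (Y θ) ∂π := ⟨_, rfl⟩
  rw [← hS1] at e1 e2
  rw [← hS2] at e1 e3
  have hS10 : 0 ≤ S1 := by rw [hS1]; exact integral_nonneg fun _ => rho_nonneg _ _
  have hS20 : 0 ≤ S2 := by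
    rw [hS2]; exact integral_nonneg fun _ => mul_nonneg (bI_nonneg _ _) (rho_nonneg _ _)
  have e4 : ‖∫ θ, (gI m (rr b y0) (X θ, Y θ) : ℂ) * (X θ - Y θ) ∂π‖ ≤
      (1600 * rr b y0 * S1 + 5 / y0 * S2) + 3 / 2 * ‖dA m π X Y‖ := by
    rw [e0]
    refine (norm_add_le _ _).trans (add_le_add e1 ?_)
    rw [norm_mul]
    exact mul_le_mul_of_nonneg_right h.norm_a_le (norm_nonneg _)
  have e5 := pow_le_pow_left₀ (norm_nonneg _) e4 2
  refine e5.trans ?_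
  have e6 : (pA b y0 m π X Y) * rA π X Y ≤ pA b y0 m π X Y * cA b y0 m π X Y :=
    mul_le_mul_of_nonneg_left hRc hp0
  have e7 : S1 ^ 2 ≤ cA b y0 m π X Y := e2.trans hRc
  have e8 : S2 ^ 2 ≤ pA b y0 m π X Y * cA b y0 m π X Y := e3.trans e6
  have e9 : 4 * (1600 * rr b y0) ^ 2 * S1 ^ 2 ≤ 4 * (1600 * rr b y0) ^ 2 * cA b y0 m π X Y :=
    mul_le_mul_of_nonneg_left e7 (by positivity)
  have e10 : 4 * (5 / y0) ^ 2 * S2 ^ 2 ≤
      4 * (5 / y0) ^ 2 * (pA b y0 m π X Y * cA b y0 m π X Y) :=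
    mul_le_mul_of_nonneg_left e8 (by positivity)
  have e11 : ∀ A B D : ℝ, (A + B + D) ^ 2 ≤ 2 * D ^ 2 + 4 * A ^ 2 + 4 * B ^ 2 := by
    intro A B D
    nlinarith [sq_nonneg (A - B), sq_nonneg (A + B - D)]
  have e12 := e11 (1600 * rr b y0 * S1) (5 / y0 * S2) (3 / 2 * ‖dA m π X Y‖)
  have e13 : 2 * (3 / 2 * ‖dA m π X Y‖) ^ 2 = 9 / 2 * ‖dA m π X Y‖ ^ 2 := by ring
  have e14 : 4 * (1600 * rr b y0 * S1) ^ 2 = 4 * (1600 * rr b y0) ^ 2 * S1 ^ 2 := by ring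
  have e15 : 4 * (5 / y0 * S2) ^ 2 = 4 * (5 / y0) ^ 2 * S2 ^ 2 := by ring
  linarith

/-- **(C)** averaged one-level cost contraction. -/
theorem Adm.cost_avg (h : Adm b y0 z m) {t : ℝ} (ht : |t| ≤ rr b y0) (P : Pr X Y)
    (hp : pA b y0 m π X Y ≤ pb0 b y0) :
    ∫ θ, cost (Mc b y0) m (cav z t fun k => X (θ k), cav z t fun k => Y (θ k))
      ∂(Measure.pi fun _ : Fin b => π) ≤
    4 / 5 * cA b y0 m π X Y + 2 / y0 ^ 2 * ‖dA m π X Y‖ ^ 2 := by
  have hy := h.hy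
  have hy1 := h.y0_lt_one
  have hb2 := h.b2
  have hr0 := h.rr_pos
  have hc0 : 0 ≤ cA b y0 m π X Y := h.cA_nonneg
  have hp0 : 0 ≤ pA b y0 m π X Y := pA_nonneg
  have h0 := h.cost_avg0 ht P (π := π)
  have h1 := h.int_disp P (π := π)
  obtain ⟨u1, u2⟩ := h.pb0_use hp0 hp
  have him := h.him
  have him0 := h.im_pos
  have hCA : CA b m * b ^ 2 ≤ 53 / 200 / y0 ^ 2 := by
    have e1 : CA b m * b ^ 2 = 53 / 200 / m.im ^ 2 := by
      have hb0 : (b : ℝ) ≠ 0 := by linarith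
      unfold CA
      field_simp
      ring
    rw [e1]
    exact div_le_div_of_nonneg_left (by norm_num) (by positivity)
      (pow_le_pow_left₀ hy.le him 2)
  obtain ⟨N, hN⟩ : ∃ N, N = ‖∫ θ, (gI m (rr b y0) (X θ, Y θ) : ℂ) * (X θ - Y θ) ∂π‖ ^ 2 :=
    ⟨_, rfl⟩
  obtain ⟨p, hpp⟩ : ∃ p, p = pA b y0 m π X Y := ⟨_, rfl⟩
  obtain ⟨c, hcc⟩ : ∃ c, c = cA b y0 m π X Y := ⟨_, rfl⟩
  obtain ⟨a, haa⟩ : ∃ a, a = ‖dA m π X Y‖ ^ 2 := ⟨_, rfl⟩
  have hN0 : 0 ≤ N := by rw [hN]; positivity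
  have ha0 : 0 ≤ a := by rw [haa]; positivity
  rw [← hpp] at hp0 u1 u2 h0 h1
  rw [← hcc] at hc0 h0 h1 ⊢
  rw [← haa] at h1 ⊢
  rw [← hN] at h0 h1
  have e1 : CA b m * b ^ 2 * N ≤ 53 / 200 / y0 ^ 2 * N := mul_le_mul_of_nonneg_right hCA hN0
  have e2 : 53 / 200 / y0 ^ 2 * N ≤ 53 / 200 / y0 ^ 2 *
      (9 / 2 * a + 4 * (1600 * rr b y0) ^ 2 * c + 4 * (5 / y0) ^ 2 * (p * c)) :=
    mul_le_mul_of_nonneg_left h1 (by positivity)
  have hyy : 0 < y0 ^ 2 := by positivity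
  -- the two error terms
  have e3 : 53 / 200 / y0 ^ 2 * (4 * (1600 * rr b y0) ^ 2 * c) ≤ 1 / 1000 * c := by
    have k1 : rr b y0 ≤ y0 ^ 6 / (2 * 10 ^ 7) := h.rr_le
    have k2 : rr b y0 ^ 2 ≤ (y0 ^ 6 / (2 * 10 ^ 7)) ^ 2 := pow_le_pow_left₀ hr0.le k1 2
    have k3 : (y0 ^ 6 / (2 * 10 ^ 7)) ^ 2 ≤ y0 ^ 2 / (2 * 10 ^ 7) ^ 2 := by
      rw [div_pow, ← pow_mul]
      apply div_le_div_of_nonneg_right _ (by positivity)
      exact pow_le_pow_of_le_one hy.le hy1.le (by norm_num)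
    have k4 : 53 / 200 / y0 ^ 2 * (4 * (1600 * rr b y0) ^ 2 * c) =
        (53 / 200 * 4 * 1600 ^ 2) * (rr b y0 ^ 2 / y0 ^ 2) * c := by
      field_simp
    have k5 : rr b y0 ^ 2 / y0 ^ 2 ≤ 1 / (2 * 10 ^ 7) ^ 2 := by
      rw [div_le_iff₀ hyy]
      refine (k2.trans k3).trans (le_of_eq ?_)
      ring
    rw [k4]
    refine mul_le_mul_of_nonneg_right ?_ hc0
    nlinarith
  have e4 : 53 / 200 / y0 ^ 2 * (4 * (5 / y0) ^ 2 * (p * c)) ≤ 1 / 1000 * c := by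
    have k1 : p ≤ y0 ^ 6 / 640000 := by
      have : (16 : ℝ) ≤ b ^ 4 := by
        have := pow_le_pow_left₀ (by norm_num : (0:ℝ) ≤ 2) hb2 4
        norm_num at this ⊢
        exact this
      nlinarith
    have k2 : p / y0 ^ 4 ≤ 1 / 640000 := by
      rw [div_le_iff₀ (by positivity)]
      have : y0 ^ 6 ≤ y0 ^ 4 := pow_le_pow_of_le_one hy.le hy1.le (by norm_num)
      linarith
    have k3 : 53 / 200 / y0 ^ 2 * (4 * (5 / y0) ^ 2 * (p * c)) = 53 / 2 * (p / y0 ^ 4) * c := by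
      field_simp
      ring
    rw [k3]
    refine mul_le_mul_of_nonneg_right ?_ hc0
    nlinarith
  have e5 : 53 / 200 / y0 ^ 2 * (9 / 2 * a) ≤ 2 / y0 ^ 2 * a := by
    have : 53 / 200 / y0 ^ 2 * (9 / 2 * a) = (53 * 9 / 400) / y0 ^ 2 * a := by ring
    rw [this]
    exact mul_le_mul_of_nonneg_right (div_le_div_of_nonneg_right (by norm_num) hyy.le) ha0
  have e6 : 53 / 200 / y0 ^ 2 *
      (9 / 2 * a + 4 * (1600 * rr b y0) ^ 2 * c + 4 * (5 / y0) ^ 2 * (p * c)) =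
      53 / 200 / y0 ^ 2 * (9 / 2 * a) + 53 / 200 / y0 ^ 2 * (4 * (1600 * rr b y0) ^ 2 * c) +
      53 / 200 / y0 ^ 2 * (4 * (5 / y0) ^ 2 * (p * c)) := by ring
  have e7 := mul_le_mul_of_nonneg_right u2 hc0
  have e8 : (3 / 4 + (CF b y0 * (b : ℝ) ^ 2 + C3 b y0 * b ^ 3) * p) * c =
      3 / 4 * c + (CF b y0 * (b : ℝ) ^ 2 + C3 b y0 * b ^ 3) * p * c := by ring
  rw [e8] at h0
  rw [e6] at e2
  linarith

set_option maxHeartbeats 1000000 in
/-- **(M)** averaged one-level relation for the mean difference. -/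
theorem Adm.mean_avg (h : Adm b y0 z m) {t : ℝ} (ht : |t| ≤ rr b y0) (P : Pr X Y)
    (hp : pA b y0 m π X Y ≤ pb0 b y0) :
    ‖(∫ θ, (uu m (cav z t fun k => X (θ k)) - uu m (cav z t fun k => Y (θ k)))
      ∂(Measure.pi fun _ : Fin b => π)) - b * m ^ 2 * dA m π X Y‖ ^ 2 ≤
      1 / 50 * y0 ^ 4 * cA b y0 m π X Y := by
  have hy := h.hy
  have hy1 := h.y0_lt_one
  have hb2 := h.b2
  have hr0 := h.rr_pos
  have hRc := h.rA_le_cA (π := π) P
  have hc0 : 0 ≤ cA b y0 m π X Y := h.cA_nonneg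
  have hp0 : 0 ≤ pA b y0 m π X Y := pA_nonneg
  have hBB := BB_pos hy
  obtain ⟨u1, -⟩ := h.pb0_use hp0 hp
  have hcav1 : Measurable fun θ : Fin b → Θ => cav z t fun k => X (θ k) := measurable_cav P.mX z t
  have hcav2 : Measurable fun θ : Fin b → Θ => cav z t fun k => Y (θ k) := measurable_cav P.mY z t
  have pc1 : ∀ θ : Fin b → Θ, 0 < (cav z t fun k => X (θ k)).im := fun θ =>
    h.cav_im_pos t _ fun k => P.pX (θ k)
  have pc2 : ∀ θ : Fin b → Θ, 0 < (cav z t fun k => Y (θ k)).im := fun θ =>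
    h.cav_im_pos t _ fun k => P.pY (θ k)
  obtain ⟨bb, hbb⟩ : ∃ bb : Θ → ℝ, bb = fun θ => bI m (rr b y0) (X θ, Y θ) := ⟨_, rfl⟩
  obtain ⟨r1, hr1⟩ : ∃ r1 : Θ → ℝ, r1 = fun θ => rho (X θ) (Y θ) := ⟨_, rfl⟩
  obtain ⟨w, hw⟩ : ∃ w : Θ → ℂ, w = fun θ => uu m (X θ) - uu m (Y θ) := ⟨_, rfl⟩
  have mbb : Measurable bb := by rw [hbb]; exact P.meas_bI _ _
  have mr1 : Measurable r1 := by rw [hr1]; exact P.meas_rho
  have mw : Measurable w := by
    rw [hw]; exact ((measurable_uu m).comp P.mX).sub ((measurable_uu m).comp P.mY)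
  have bb0 : ∀ θ, 0 ≤ bb θ := fun θ => by rw [hbb]; exact bI_nonneg _ _
  have bb1 : ∀ θ, bb θ ≤ 1 := fun θ => by rw [hbb]; exact bI_le_one _ _
  have r10 : ∀ θ, 0 ≤ r1 θ := fun θ => by rw [hr1]; exact rho_nonneg _ _
  have r11 : ∀ θ, r1 θ ≤ 1 := fun θ => by rw [hr1]; exact rho_le_one (P.pX θ) (P.pY θ)
  have wb : ∀ θ, ‖w θ‖ ≤ BB y0 + BB y0 := fun θ => by
    rw [hw]
    exact (norm_sub_le _ _).trans (add_le_add (h.norm_uu_le (P.pX θ).le)
      (h.norm_uu_le (P.pY θ).le))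
  have ipair : ∀ j k : Fin b, Integrable (fun θ : Fin b → Θ => bb (θ j) * r1 (θ k))
      (Measure.pi fun _ : Fin b => π) := fun j k =>
    integrable_of_bdd (B := 1) ((mbb.comp (measurable_pi_apply j)).mul
      (mr1.comp (measurable_pi_apply k))).aestronglyMeasurable fun θ => by
      rw [Real.norm_eq_abs, abs_of_nonneg (mul_nonneg (bb0 _) (r10 _))]
      exact mul_le_one₀ (bb1 _) (r10 _) (r11 _)
  have iw : Integrable w π := integrable_of_bdd mw.aestronglyMeasurable wb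
  have ir : Integrable r1 π := integrable_of_bdd (B := 1) mr1.aestronglyMeasurable fun θ => by
    rw [Real.norm_eq_abs, abs_of_nonneg (r10 _)]; exact r11 θ
  have iw' : ∀ k : Fin b, Integrable (fun θ : Fin b → Θ => w (θ k))
      (Measure.pi fun _ : Fin b => π) := fun k =>
    integrable_comp_eval (μ := fun _ : Fin b => π) (i := k) iw
  have ir' : ∀ k : Fin b, Integrable (fun θ : Fin b → Θ => r1 (θ k))
      (Measure.pi fun _ : Fin b => π) := fun k =>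
    integrable_comp_eval (μ := fun _ : Fin b => π) (i := k) ir
  have iL : Integrable (fun θ : Fin b → Θ => uu m (cav z t fun k => X (θ k)) -
      uu m (cav z t fun k => Y (θ k))) (Measure.pi fun _ : Fin b => π) := by
    refine integrable_of_bdd (B := BB y0 + BB y0)
      (((measurable_uu m).comp hcav1).sub ((measurable_uu m).comp hcav2)).aestronglyMeasurable
      fun θ => ?_
    exact (norm_sub_le _ _).trans (add_le_add (h.norm_uu_le (pc1 θ).le) (h.norm_uu_le (pc2 θ).le))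
  have iS : Integrable (fun θ : Fin b → Θ => m ^ 2 * ∑ k, w (θ k))
      (Measure.pi fun _ : Fin b => π) :=
    (integrable_finsetSum _ fun k _ => iw' k).const_mul _
  have eS : ∫ θ : Fin b → Θ, m ^ 2 * ∑ k, w (θ k) ∂(Measure.pi fun _ : Fin b => π) =
      b * m ^ 2 * dA m π X Y := by
    rw [integral_const_mul, integral_finsetSum _ fun k _ => iw' k]
    have : ∀ k ∈ (Finset.univ : Finset (Fin b)), ∫ θ : Fin b → Θ, w (θ k)
        ∂(Measure.pi fun _ : Fin b => π) = dA m π X Y := by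
      intro k _
      rw [int_eval k mw.aestronglyMeasurable, hw]
      rfl
    rw [Finset.sum_congr rfl this, Finset.sum_const, Finset.card_univ, Fintype.card_fin,
      nsmul_eq_mul]
    ring
  rw [← eS, ← integral_sub iL iS]
  have hB : ∀ θ : Fin b → Θ, ‖(uu m (cav z t fun k => X (θ k)) -
      uu m (cav z t fun k => Y (θ k))) - m ^ 2 * ∑ k, w (θ k)‖ ≤
      4000 * b * rr b y0 * ∑ k, r1 (θ k) + 6 / y0 * ∑ j, ∑ k, bb (θ j) * r1 (θ k) := by
    intro θ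
    have h1 := h.mean_pointwise ht (p := fun k => (X (θ k), Y (θ k))) (fun k => P.pX (θ k))
      (fun k => P.pY (θ k))
    rw [hw, hr1, hbb]
    exact h1
  have iR1 : Integrable (fun θ : Fin b → Θ => 4000 * b * rr b y0 * ∑ k, r1 (θ k))
      (Measure.pi fun _ : Fin b => π) := (integrable_finsetSum _ fun k _ => ir' k).const_mul _
  have iR2 : Integrable (fun θ : Fin b → Θ => 6 / y0 * ∑ j, ∑ k, bb (θ j) * r1 (θ k))
      (Measure.pi fun _ : Fin b => π) :=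
    (integrable_finsetSum _ fun j _ => integrable_finsetSum _ fun k _ => ipair j k).const_mul _
  obtain ⟨S1, hS1⟩ : ∃ S, S = ∫ θ, r1 θ ∂π := ⟨_, rfl⟩
  obtain ⟨S2, hS2⟩ : ∃ S, S = ∫ θ, bb θ * r1 θ ∂π := ⟨_, rfl⟩
  obtain ⟨p, hpp⟩ : ∃ p, p = pA b y0 m π X Y := ⟨_, rfl⟩
  have hS10 : 0 ≤ S1 := by rw [hS1]; exact integral_nonneg fun θ => r10 θ
  have hS20 : 0 ≤ S2 := by
    rw [hS2]; exact integral_nonneg fun θ => mul_nonneg (bb0 θ) (r10 θ)
  have f1 : ∫ θ : Fin b → Θ, 4000 * b * rr b y0 * ∑ k, r1 (θ k)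
      ∂(Measure.pi fun _ : Fin b => π) = 4000 * (b ^ 2 * rr b y0) * S1 := by
    rw [integral_const_mul, integral_finsetSum _ fun k _ => ir' k]
    have : ∀ k ∈ (Finset.univ : Finset (Fin b)), ∫ θ : Fin b → Θ, r1 (θ k)
        ∂(Measure.pi fun _ : Fin b => π) = S1 := by
      intro k _
      rw [int_eval k mr1.aestronglyMeasurable, hS1]
    rw [Finset.sum_congr rfl this, Finset.sum_const, Finset.card_univ, Fintype.card_fin,
      nsmul_eq_mul]
    ring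
  have f2 : ∫ θ : Fin b → Θ, 6 / y0 * ∑ j, ∑ k, bb (θ j) * r1 (θ k)
      ∂(Measure.pi fun _ : Fin b => π) ≤ 6 / y0 * (b * S2 + b ^ 2 * (p * S1)) := by
    rw [integral_const_mul, integral_finsetSum _ fun j _ =>
      integrable_finsetSum _ fun k _ => ipair j k]
    refine mul_le_mul_of_nonneg_left ?_ (by positivity)
    have g1 : ∀ j ∈ (Finset.univ : Finset (Fin b)), ∫ θ : Fin b → Θ, ∑ k, bb (θ j) * r1 (θ k)
        ∂(Measure.pi fun _ : Fin b => π) ≤ S2 + b * (p * S1) := by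
      intro j _
      rw [integral_finsetSum _ fun k _ => ipair j k]
      have g2 : ∀ k ∈ (Finset.univ : Finset (Fin b)), ∫ θ : Fin b → Θ, bb (θ j) * r1 (θ k)
          ∂(Measure.pi fun _ : Fin b => π) ≤ (if j = k then S2 else 0) + p * S1 := by
        intro k _
        have hpS : 0 ≤ p * S1 := mul_nonneg (by rw [hpp]; exact hp0) hS10
        split_ifs with hjk
        · subst hjk
          rw [int_eval j (f := fun θ => bb θ * r1 θ) (mbb.mul mr1).aestronglyMeasurable, hS2]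
          linarith
        · rw [int_pair hjk mbb mr1, zero_add, hpp, hS1, hbb]
          exact le_of_eq rfl
      refine (Finset.sum_le_sum g2).trans (le_of_eq ?_)
      rw [Finset.sum_add_distrib, Finset.sum_ite_eq, if_pos (Finset.mem_univ _), Finset.sum_const,
        Finset.card_univ, Fintype.card_fin, nsmul_eq_mul]
    refine (Finset.sum_le_sum g1).trans (le_of_eq ?_)
    rw [Finset.sum_const, Finset.card_univ, Fintype.card_fin, nsmul_eq_mul]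
    ring
  have hmain : ‖∫ θ : Fin b → Θ, ((uu m (cav z t fun k => X (θ k)) -
      uu m (cav z t fun k => Y (θ k))) - m ^ 2 * ∑ k, w (θ k))
      ∂(Measure.pi fun _ : Fin b => π)‖ ≤
      4000 * (b ^ 2 * rr b y0) * S1 + 6 / y0 * (b * S2 + b ^ 2 * (p * S1)) := by
    refine (norm_integral_le_integral_norm _).trans ?_
    have := integral_mono (iL.sub iS).norm (iR1.add iR2) hB
    refine this.trans ?_
    have e := integral_add iR1 iR2
    refine (le_of_eq e).trans ?_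
    rw [f1]
    linarith
  have hsq := pow_le_pow_left₀ (norm_nonneg _) hmain 2
  refine hsq.trans ?_
  -- numerics
  obtain ⟨c, hcc⟩ : ∃ c, c = cA b y0 m π X Y := ⟨_, rfl⟩
  have k1 : S1 ^ 2 ≤ c := by
    rw [hS1, hr1, hcc]; exact (int_rho_sq_le P).trans hRc
  have k2 : S2 ^ 2 ≤ p * c := by
    rw [hS2, hr1, hbb, hcc, hpp]
    refine (int_rho_bI_sq (π := π) P m (rr b y0)).trans ?_
    exact mul_le_mul_of_nonneg_left hRc hp0
  rw [← hcc] at hc0 ⊢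
  rw [← hpp] at hp0 u1
  have k3 : (p * S1) ^ 2 ≤ p * c := by
    have hp1 : p ≤ 1 := by
      have : (1 : ℝ) ≤ b ^ 4 := one_le_pow₀ (by linarith)
      have : y0 ^ 6 ≤ 1 := pow_le_one₀ hy.le hy1.le
      nlinarith
    have e1 : (p * S1) ^ 2 = p * (p * S1 ^ 2) := by ring
    rw [e1]
    refine mul_le_mul_of_nonneg_left ?_ hp0
    have : p * S1 ^ 2 ≤ 1 * c := mul_le_mul hp1 k1 (by positivity) (by norm_num)
    linarith
  have k4 : (b : ℝ) ^ 2 * rr b y0 ≤ y0 ^ 6 / (3 * 10 ^ 7) := h.b_rr_le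
  have k4' : 0 ≤ (b : ℝ) ^ 2 * rr b y0 := by positivity
  have hy12 : y0 ^ 12 ≤ y0 ^ 4 := pow_le_pow_of_le_one hy.le hy1.le (by norm_num)
  have e1 : ∀ A B D : ℝ, (A + (B + D)) ^ 2 ≤ 2 * A ^ 2 + 4 * B ^ 2 + 4 * D ^ 2 := by
    intro A B D
    nlinarith [sq_nonneg (A - (B + D)), sq_nonneg (B - D)]
  have e2 := e1 (4000 * (b ^ 2 * rr b y0) * S1) (6 / y0 * (b * S2)) (6 / y0 * (b ^ 2 * (p * S1)))
  rw [← mul_add] at e2
  refine e2.trans ?_
  have t1 : 2 * (4000 * (b ^ 2 * rr b y0) * S1) ^ 2 ≤ 1 / 1000 * y0 ^ 4 * c := by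
    have e3 : 2 * (4000 * (b ^ 2 * rr b y0) * S1) ^ 2 =
        (2 * 4000 ^ 2) * (b ^ 2 * rr b y0) ^ 2 * S1 ^ 2 := by ring
    have e4 : (b ^ 2 * rr b y0) ^ 2 ≤ (y0 ^ 6 / (3 * 10 ^ 7)) ^ 2 := pow_le_pow_left₀ k4' k4 2
    have e5 : (2 * 4000 ^ 2) * (b ^ 2 * rr b y0) ^ 2 ≤ 1 / 1000 * y0 ^ 4 := by
      have : (y0 ^ 6 / (3 * 10 ^ 7)) ^ 2 = y0 ^ 12 / (9 * 10 ^ 14) := by ring
      rw [this] at e4
      have e6 : (0 : ℝ) ≤ y0 ^ 12 := by positivity
      nlinarith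
    rw [e3]
    exact mul_le_mul e5 k1 (by positivity) (by positivity)
  have hb24 : (b : ℝ) ^ 2 ≤ b ^ 4 := pow_le_pow_right₀ (by linarith) (by norm_num)
  have t0 : (b : ℝ) ^ 4 * p / y0 ^ 2 ≤ y0 ^ 4 / 40000 := by
    rw [div_le_iff₀ (by positivity)]
    refine u1.trans (le_of_eq ?_)
    ring
  have t2 : 4 * (6 / y0 * (b * S2)) ^ 2 ≤ 1 / 200 * y0 ^ 4 * c := by
    have e3 : 4 * (6 / y0 * (b * S2)) ^ 2 = 144 / y0 ^ 2 * (b ^ 2 * S2 ^ 2) := by ring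
    have e4 : (b : ℝ) ^ 2 * S2 ^ 2 ≤ b ^ 4 * (p * c) :=
      mul_le_mul hb24 k2 (by positivity) (by positivity)
    rw [e3]
    calc 144 / y0 ^ 2 * (b ^ 2 * S2 ^ 2) ≤ 144 / y0 ^ 2 * (b ^ 4 * (p * c)) :=
          mul_le_mul_of_nonneg_left e4 (by positivity)
      _ = 144 * (b ^ 4 * p / y0 ^ 2) * c := by ring
      _ ≤ 144 * (y0 ^ 4 / 40000) * c := by
          refine mul_le_mul_of_nonneg_right (mul_le_mul_of_nonneg_left t0 (by norm_num)) hc0
      _ ≤ _ := by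
          have : 0 ≤ y0 ^ 4 * c := by positivity
          linarith
  have t3 : 4 * (6 / y0 * (b ^ 2 * (p * S1))) ^ 2 ≤ 1 / 200 * y0 ^ 4 * c := by
    have e3 : 4 * (6 / y0 * (b ^ 2 * (p * S1))) ^ 2 =
        144 / y0 ^ 2 * (b ^ 4 * (p * S1) ^ 2) := by ring
    have e4 : (b : ℝ) ^ 4 * (p * S1) ^ 2 ≤ b ^ 4 * (p * c) :=
      mul_le_mul_of_nonneg_left k3 (by positivity)
    rw [e3]
    calc 144 / y0 ^ 2 * (b ^ 4 * (p * S1) ^ 2) ≤ 144 / y0 ^ 2 * (b ^ 4 * (p * c)) :=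
          mul_le_mul_of_nonneg_left e4 (by positivity)
      _ = 144 * (b ^ 4 * p / y0 ^ 2) * c := by ring
      _ ≤ 144 * (y0 ^ 4 / 40000) * c := by
          refine mul_le_mul_of_nonneg_right (mul_le_mul_of_nonneg_left t0 (by norm_num)) hc0
      _ ≤ _ := by
          have : 0 ≤ y0 ^ 4 * c := by positivity
          linarith
  have : 0 ≤ y0 ^ 4 * c := by positivity
  linarith

/-- from the relation `‖Δ + e - b m² Δ‖² ≤ y0⁴ c / 50` one gets the bound of `Δ`. -/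
theorem Adm.delta_le (h : Adm b y0 z m) {c : ℝ} {Δ e : ℂ}
    (hD : ‖Δ + e - b * m ^ 2 * Δ‖ ^ 2 ≤ 1 / 50 * y0 ^ 4 * c) :
    2 / y0 ^ 2 * ‖Δ‖ ^ 2 ≤ 1 / 100 * c + 1 / y0 ^ 4 * ‖e‖ ^ 2 := by
  have hy := h.hy
  have hb2 := h.b2
  have him := h.him
  have h0 := h.im_pos
  have hn := h.norm_pos
  -- `|1 - b m²| ≥ 2 √b Im m`; here in the squared form `≥ 8 y0²`
  have key : 8 * y0 ^ 2 ≤ ‖1 - b * m ^ 2‖ ^ 2 := by
    have h1 := h.b_normSq
    rw [← Complex.normSq_eq_norm_sq]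
    have e1 : normSq (1 - b * m ^ 2) = (1 - b * normSq m) ^ 2 + 4 * b * m.im ^ 2 := by
      simp only [Complex.normSq_apply, Complex.sub_re, Complex.sub_im, Complex.mul_re,
        Complex.mul_im, Complex.natCast_re, Complex.natCast_im, pow_two, Complex.one_re,
        Complex.one_im]
      ring
    rw [e1]
    have e2 : y0 ^ 2 ≤ m.im ^ 2 := pow_le_pow_left₀ hy.le him 2
    nlinarith [sq_nonneg (1 - b * normSq m)]
  have e1 : (1 - b * m ^ 2) * Δ = (Δ + e - b * m ^ 2 * Δ) - e := by ring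
  have e2 : ‖(1 - b * m ^ 2) * Δ‖ ^ 2 ≤ 2 * ‖Δ + e - b * m ^ 2 * Δ‖ ^ 2 + 2 * ‖e‖ ^ 2 := by
    rw [e1]
    have e3 := norm_sub_le (Δ + e - b * m ^ 2 * Δ) e
    have e4 := pow_le_pow_left₀ (norm_nonneg _) e3 2
    nlinarith [sq_nonneg (‖Δ + e - b * m ^ 2 * Δ‖ - ‖e‖)]
  rw [norm_mul, mul_pow] at e2
  have e5 : 8 * y0 ^ 2 * ‖Δ‖ ^ 2 ≤ 2 * (1 / 50 * y0 ^ 4 * c) + 2 * ‖e‖ ^ 2 := by
    have := mul_le_mul_of_nonneg_right key (sq_nonneg ‖Δ‖)
    linarith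
  have hy2 : 0 < y0 ^ 2 := by positivity
  have e6 : 2 / y0 ^ 2 * ‖Δ‖ ^ 2 = (8 * y0 ^ 2 * ‖Δ‖ ^ 2) / (4 * y0 ^ 4) := by
    field_simp
    ring
  rw [e6]
  calc (8 * y0 ^ 2 * ‖Δ‖ ^ 2) / (4 * y0 ^ 4)
      ≤ (2 * (1 / 50 * y0 ^ 4 * c) + 2 * ‖e‖ ^ 2) / (4 * y0 ^ 4) :=
        div_le_div_of_nonneg_right e5 (by positivity)
    _ = 1 / 100 * c + 1 / 2 * (1 / y0 ^ 4 * ‖e‖ ^ 2) := by
        field_simp
        ring
    _ ≤ _ := by
        have : 0 ≤ 1 / y0 ^ 4 * ‖e‖ ^ 2 := by positivity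
        linarith

end

end Crest.Agent.R166.TreeDet350
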