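import Mathlib
import Crest.Agent.R166.TreeCon2_350
import Crest.Agent.R166.TreeT1_383
import Crest.Agent.R166.TreeT2_251
import Crest.Agent.R166.TreeT6N_383
import Crest.Agent.R166.T4_485
/-!
Row 166, section 32 (tree half): T6 = uniform continuity of `z ↦ X(z)` up to the real axis.
(helper350)
-/
set_option autoImplicit false

namespace Crest.Agent.R166.TreeT6350

open MeasureTheory Complex Crest.Agent.R166.TreeDet350 Crest.Agent.R166.TreeDefs350
  Crest.Agent.R166.TreeSpec350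

noncomputable section

theorem rho_comm (x y : ℂ) : rho x y = rho y x := by
  unfold rho
  rw [norm_sub_rev x y]
  congr 1
  rw [← RCLike.norm_conj (x - (starRingEnd ℂ) y), map_sub, Complex.conj_conj, norm_sub_rev]

/-- strong triangle inequality of the pseudo-hyperbolic distance. -/
theorem rho_triangle {x y w : ℂ} (hx : 0 < x.im) (hy : 0 < y.im) (hw : 0 < w.im) :
    rho x y ≤ rho x w + rho w y := by
  have nxy := norm_sub_conj_pos hx hy
  have nxw := norm_sub_conj_pos hx hw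
  have nyw := norm_sub_conj_pos hy hw
  have hA0 := rho_nonneg x w
  have hB0 := rho_nonneg y w
  have hA1 := rho_le_one hx hw
  have hB1 := rho_le_one hy hw
  rw [rho_comm w y]
  obtain ⟨A, hA⟩ : ∃ A, A = rho x w := ⟨_, rfl⟩
  obtain ⟨B, hB⟩ : ∃ B, B = rho y w := ⟨_, rfl⟩
  rw [← hA] at hA0 hA1 ⊢
  rw [← hB] at hB0 hB1 ⊢
  have eA : ‖x - w‖ = A * ‖x - (starRingEnd ℂ) w‖ := by
    rw [hA]; unfold rho; field_simp
  have eB : ‖y - w‖ = B * ‖y - (starRingEnd ℂ) w‖ := by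
    rw [hB]; unfold rho; field_simp
  -- `|x - ȳ| 2 Im w ≤ |x-w̄||y-w̄| + |x-w||y-w|`
  have h1 : ‖x - (starRingEnd ℂ) y‖ * (2 * w.im) ≤
      ‖x - (starRingEnd ℂ) w‖ * ‖y - (starRingEnd ℂ) w‖ * (1 + A * B) := by
    have e1 : (x - (starRingEnd ℂ) y) * (w - (starRingEnd ℂ) w) =
        (x - w) * ((starRingEnd ℂ) y - (starRingEnd ℂ) w) -
          (x - (starRingEnd ℂ) w) * ((starRingEnd ℂ) y - w) := by ring
    have e2 : ‖w - (starRingEnd ℂ) w‖ = 2 * w.im := by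
      rw [Complex.sub_conj, norm_mul, Complex.norm_I, mul_one, Complex.norm_real,
        Real.norm_eq_abs, abs_of_pos (by positivity)]
    have e3 : ‖(starRingEnd ℂ) y - (starRingEnd ℂ) w‖ = ‖y - w‖ := by
      rw [← map_sub, RCLike.norm_conj]
    have e4 : ‖(starRingEnd ℂ) y - w‖ = ‖y - (starRingEnd ℂ) w‖ := by
      rw [← RCLike.norm_conj ((starRingEnd ℂ) y - w), map_sub, Complex.conj_conj]
    have h2 := norm_sub_le ((x - w) * ((starRingEnd ℂ) y - (starRingEnd ℂ) w))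
      ((x - (starRingEnd ℂ) w) * ((starRingEnd ℂ) y - w))
    rw [← e1, norm_mul, norm_mul, norm_mul, e2, e3, e4, eA, eB] at h2
    nlinarith
  have sA := norm_sub_conj_sq x w
  have sB := norm_sub_conj_sq y w
  have sC := norm_sub_conj_sq x y
  have h3 : rho x y ^ 2 * ‖x - (starRingEnd ℂ) y‖ ^ 2 = ‖x - y‖ ^ 2 := by
    unfold rho; field_simp
  -- put everything together
  have key : rho x y ^ 2 ≤ (A + B) ^ 2 := by
    rw [eA] at sA
    rw [eB] at sB
    obtain ⟨a, ha⟩ : ∃ a, a = ‖x - (starRingEnd ℂ) w‖ := ⟨_, rfl⟩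
    obtain ⟨c, hc⟩ : ∃ c, c = ‖y - (starRingEnd ℂ) w‖ := ⟨_, rfl⟩
    obtain ⟨N, hN⟩ : ∃ N, N = ‖x - (starRingEnd ℂ) y‖ := ⟨_, rfl⟩
    rw [← ha] at sA h1 nxw
    rw [← hc] at sB h1 nyw
    rw [← hN] at sC h1 h3 nxy
    -- 1 - rho² = 4 Im x Im y / N²
    have q1 : (1 - A ^ 2) * a ^ 2 = 4 * x.im * w.im := by linarith
    have q2 : (1 - B ^ 2) * c ^ 2 = 4 * y.im * w.im := by linarith
    have q3 : (1 - rho x y ^ 2) * N ^ 2 = 4 * x.im * y.im := by nlinarith
    have q4 : (N * (2 * w.im)) ^ 2 ≤ (a * c * (1 + A * B)) ^ 2 :=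
      pow_le_pow_left₀ (by positivity) h1 2
    -- (1-A²)(1-B²) a² c² = 4 (4 xi yi) wi² = 4 wi² (1-rho²) N² ≤ (1 - rho²) (a c (1+AB))²
    have hr1 : rho x y ^ 2 ≤ 1 := pow_le_one₀ (rho_nonneg _ _) (rho_le_one hx hy)
    have q5 : (1 - A ^ 2) * (1 - B ^ 2) * (a ^ 2 * c ^ 2) =
        (1 - rho x y ^ 2) * (N * (2 * w.im)) ^ 2 := by
      have : (1 - A ^ 2) * (1 - B ^ 2) * (a ^ 2 * c ^ 2) =
          ((1 - A ^ 2) * a ^ 2) * ((1 - B ^ 2) * c ^ 2) := by ring
      rw [this, q1, q2]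
      have : (1 - rho x y ^ 2) * (N * (2 * w.im)) ^ 2 =
          ((1 - rho x y ^ 2) * N ^ 2) * (4 * w.im ^ 2) := by ring
      rw [this, q3]
      ring
    have q6 : (1 - A ^ 2) * (1 - B ^ 2) * (a ^ 2 * c ^ 2) ≤
        (1 - rho x y ^ 2) * (1 + A * B) ^ 2 * (a ^ 2 * c ^ 2) := by
      rw [q5]
      have q6' := mul_le_mul_of_nonneg_left q4 (by linarith : 0 ≤ 1 - rho x y ^ 2)
      refine q6'.trans (le_of_eq ?_)
      ring
    have q7 : (1 - A ^ 2) * (1 - B ^ 2) ≤ (1 - rho x y ^ 2) * (1 + A * B) ^ 2 :=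
      le_of_mul_le_mul_right q6 (by positivity)
    have q8 : rho x y ^ 2 * (1 + A * B) ^ 2 ≤ (A + B) ^ 2 := by
      have id1 : (1 + A * B) ^ 2 - (1 - A ^ 2) * (1 - B ^ 2) = (A + B) ^ 2 := by ring
      have id2 : (1 - rho x y ^ 2) * (1 + A * B) ^ 2 =
        (1 + A * B) ^ 2 - rho x y ^ 2 * (1 + A * B) ^ 2 := by ring
      rw [id2] at q7
      linarith
    have q9 : (1 : ℝ) ≤ (1 + A * B) ^ 2 := by
      have : 0 ≤ A * B := mul_nonneg hA0 hB0
      exact one_le_pow₀ (by linarith)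
    have q10 : 0 ≤ rho x y ^ 2 := by positivity
    have q11 := mul_le_mul_of_nonneg_left q9 q10
    linarith
  exact (pow_le_pow_iff_left₀ (rho_nonneg _ _) (by positivity) (by norm_num)).1 key

variable {b : ℕ} {y0 : ℝ} {z m : ℂ}

def C6 (b : ℕ) (y0 : ℝ) : ℝ := 7 * Mc b y0 * BB y0 / y0 + 21 * C3 b y0

theorem C6_pos (h : Adm b y0 z m) : 0 < C6 b y0 := by
  have := h.Mc_pos; have := h.C3_pos; have := h.hy; have := BB_pos h.hy
  unfold C6; positivity

/-- changing the second argument of the cost. -/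
theorem cost_change (h : Adm b y0 z m) {x y w : ℂ} (hx : 0 < x.im) (hy : 0 < y.im)
    (hw : 0 < w.im) :
    cost (Mc b y0) m (x, y) ≤ 21 / 20 * cost (Mc b y0) m (x, w) + C6 b y0 * rho y w := by
  have hM := h.Mc_pos
  have hC3 := h.C3_pos
  have hy0 := h.hy
  have hBB := BB_pos hy0
  have n1 := h.norm_uu_le hx.le
  have n2 := h.norm_uu_le hy.le
  have n3 := h.norm_uu_le hw.le
  have hl := h.uu_lip hy hw
  have ht := rho_triangle hx hy hw
  rw [rho_comm w y] at ht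
  obtain ⟨a, ha⟩ : ∃ a, a = rho x w := ⟨_, rfl⟩
  obtain ⟨r, hr⟩ : ∃ r, r = rho y w := ⟨_, rfl⟩
  have ha0 : 0 ≤ a := by rw [ha]; exact rho_nonneg _ _
  have ha1 : a ≤ 1 := by rw [ha]; exact rho_le_one hx hw
  have hr0 : 0 ≤ r := by rw [hr]; exact rho_nonneg _ _
  have hr1 : r ≤ 1 := by rw [hr]; exact rho_le_one hy hw
  have e1 : rho x y ^ 2 ≤ 21 / 20 * a ^ 2 + 21 * r ^ 2 := by
    have h1 : rho x y ^ 2 ≤ (a + r) ^ 2 := by
      rw [ha, hr]; exact pow_le_pow_left₀ (rho_nonneg _ _) ht 2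
    nlinarith [sq_nonneg (a - 20 * r)]
  obtain ⟨Wy, hWy⟩ : ∃ W, W = 1 + Mc b y0 * ‖uu m x‖ ^ 2 + Mc b y0 * ‖uu m y‖ ^ 2 := ⟨_, rfl⟩
  obtain ⟨Ww, hWw⟩ : ∃ W, W = 1 + Mc b y0 * ‖uu m x‖ ^ 2 + Mc b y0 * ‖uu m w‖ ^ 2 := ⟨_, rfl⟩
  have e2 : Wy ≤ C3 b y0 := by
    rw [hWy]
    have e2 : ‖uu m x‖ ^ 2 ≤ BB y0 ^ 2 := pow_le_pow_left₀ (norm_nonneg _) n1 2
    have e3 : ‖uu m y‖ ^ 2 ≤ BB y0 ^ 2 := pow_le_pow_left₀ (norm_nonneg _) n2 2
    unfold C3; nlinarith
  have e3 : Wy ≤ Ww + 6 * Mc b y0 * BB y0 / y0 * r := by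
    have f1 : ‖uu m y‖ - ‖uu m w‖ ≤ 3 / y0 * r := by
      rw [hr]; exact (norm_sub_norm_le _ _).trans hl
    have f2 : ‖uu m y‖ ^ 2 - ‖uu m w‖ ^ 2 ≤ 3 / y0 * r * (2 * BB y0) := by
      have f3 : ‖uu m y‖ ^ 2 - ‖uu m w‖ ^ 2 =
          (‖uu m y‖ - ‖uu m w‖) * (‖uu m y‖ + ‖uu m w‖) := by ring
      rw [f3]
      have f4 : (‖uu m y‖ - ‖uu m w‖) * (‖uu m y‖ + ‖uu m w‖) ≤
          3 / y0 * r * (‖uu m y‖ + ‖uu m w‖) :=
        mul_le_mul_of_nonneg_right f1 (by positivity)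
      refine f4.trans (mul_le_mul_of_nonneg_left (by linarith) (by positivity))
    have f5 := mul_le_mul_of_nonneg_left f2 hM.le
    have f6 : Mc b y0 * (3 / y0 * r * (2 * BB y0)) = 6 * Mc b y0 * BB y0 / y0 * r := by ring
    rw [hWy, hWw]
    linarith
  have hWy0 : 0 ≤ Wy := by rw [hWy]; positivity
  have hWw0 : 0 ≤ Ww := by rw [hWw]; positivity
  unfold cost
  simp only
  rw [← hWy, ← hWw, ← ha, ← hr]
  have g1 : rho x y ^ 2 * Wy ≤ (21 / 20 * a ^ 2 + 21 * r ^ 2) * Wy :=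
    mul_le_mul_of_nonneg_right e1 hWy0
  have g2 : a ^ 2 * Wy ≤ a ^ 2 * (Ww + 6 * Mc b y0 * BB y0 / y0 * r) :=
    mul_le_mul_of_nonneg_left e3 (by positivity)
  have g3 : a ^ 2 * (6 * Mc b y0 * BB y0 / y0 * r) ≤ 1 * (6 * Mc b y0 * BB y0 / y0 * r) :=
    mul_le_mul_of_nonneg_right (pow_le_one₀ ha0 ha1) (by positivity)
  have g4 : r ^ 2 * Wy ≤ r * C3 b y0 :=
    mul_le_mul (by nlinarith) e2 hWy0 hr0
  have g5 : C6 b y0 * r = 7 * Mc b y0 * BB y0 / y0 * r + 21 * (r * C3 b y0) := by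
    unfold C6; ring
  have g6 : 21 / 20 * (6 * Mc b y0 * BB y0 / y0 * r) ≤ 7 * Mc b y0 * BB y0 / y0 * r := by
    have : 0 ≤ Mc b y0 * BB y0 / y0 * r := by positivity
    have e7 : 21 / 20 * (6 * Mc b y0 * BB y0 / y0 * r) =
        (21 / 20 * 6) * (Mc b y0 * BB y0 / y0 * r) := by ring
    have e8 : 7 * Mc b y0 * BB y0 / y0 * r = 7 * (Mc b y0 * BB y0 / y0 * r) := by ring
    rw [e7, e8]
    linarith
  rw [g5]
  have g7 : (21 / 20 * a ^ 2 + 21 * r ^ 2) * Wy = 21 / 20 * (a ^ 2 * Wy) + 21 * (r ^ 2 * Wy) := by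
    ring
  have g8 : a ^ 2 * (Ww + 6 * Mc b y0 * BB y0 / y0 * r) =
      a ^ 2 * Ww + a ^ 2 * (6 * Mc b y0 * BB y0 / y0 * r) := by ring
  linarith

theorem unif_abs_le : ∀ᵐ w : ℝ ∂unif, |w| ≤ 1 := by
  rw [ae_iff]
  simpa using T4_485.unif_out

def C7 (b : ℕ) (y0 : ℝ) : ℝ := 7 * (21 / 20 * (9 / y0 ^ 6) + C6 b y0)

theorem C7_pos (h : Adm b y0 z m) : 0 < C7 b y0 := by
  have := C6_pos h; have := h.hy
  unfold C7; positivity

set_option maxHeartbeats 1000000 in
/-- one step: the stationary cost is bounded by the shift error. -/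
theorem T6_step (h : Adm b y0 z m) {s : ℝ} (hs : 0 < s) (hsr : s ≤ rr b y0)
    {X Y : (List (Fin b) → ℝ) → ℂ} (P : Pr X Y)
    (hrec : ∀ ω, X ω = cav z (s * ω []) fun j => X (sub j ω))
    (hp : pA b y0 m (PT b) X Y ≤ pb0 b y0) :
    cA b y0 m (PT b) X Y ≤ C7 b y0 *
      ∫ ω, rho (Y ω) (cav z (s * ω []) fun j => Y (sub j ω)) ∂(PT b) := by
  have hy := h.hy
  have hC6 := C6_pos h
  have hM := h.Mc_pos
  have hBB := BB_pos hy
  obtain ⟨W, hW⟩ : ∃ W : (List (Fin b) → ℝ) → ℂ, W = fun ω =>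
    cav z (s * ω []) fun j => Y (sub j ω) := ⟨_, rfl⟩
  have mX := P.mX
  have mY := P.mY
  have mW : Measurable W := by
    rw [hW]
    unfold cav
    refine measurable_const.div ((measurable_const.sub ?_).add
      (Finset.measurable_sum _ fun k _ => mY.comp (TreeT2_251.measurable_sub k)))
    exact Complex.measurable_ofReal.comp (measurable_const.mul (measurable_pi_apply []))
  have pW : ∀ ω, 0 < (W ω).im := fun ω => by
    rw [hW]; exact h.cav_im_pos _ _ fun j => P.pY _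
  have PXW : Pr X W := ⟨mX, mW, P.pX, pW⟩
  have PYW : Pr Y W := ⟨mY, mW, P.pY, pW⟩
  have er : (∫ ω, rho (Y ω) (cav z (s * ω []) fun j => Y (sub j ω)) ∂(PT b)) =
      ∫ ω, rho (Y ω) (W ω) ∂(PT b) := by rw [hW]
  rw [er]
  obtain ⟨rb, hrb⟩ : ∃ r, r = ∫ ω, rho (Y ω) (W ω) ∂(PT b) := ⟨_, rfl⟩
  obtain ⟨c, hc⟩ : ∃ c, c = cA b y0 m (PT b) X Y := ⟨_, rfl⟩
  have hc0 : 0 ≤ c := by rw [hc]; exact h.cA_nonneg
  have hrb0 : 0 ≤ rb := by rw [hrb]; exact integral_nonneg fun _ => rho_nonneg _ _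
  have hrb1 : rb ≤ 1 := by
    rw [hrb]
    have := integral_mono (μ := PT b) PYW.int_rho (integrable_const (1 : ℝ))
      fun ω => rho_le_one (P.pY ω) (pW ω)
    simpa using this
  -- (i) the cost of (X, W)
  have iXW : Integrable (fun ω => cost (Mc b y0) m (X ω, W ω)) (PT b) := h.int_cost PXW
  have h1 : ∫ ω, cost (Mc b y0) m (X ω, W ω) ∂(PT b) ≤
      4 / 5 * c + 2 / y0 ^ 2 * ‖dA m (PT b) X Y‖ ^ 2 := by
    rw [TreeT2_251.integral_glue b _ iXW]
    have hae : ∀ᵐ w : ℝ ∂unif, (∫ y : Fin b → List (Fin b) → ℝ,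
        cost (Mc b y0) m (X (TreeT2_251.glue (w, y)), W (TreeT2_251.glue (w, y)))
          ∂(Measure.pi fun _ => PT b)) ≤ 4 / 5 * c + 2 / y0 ^ 2 * ‖dA m (PT b) X Y‖ ^ 2 := by
      filter_upwards [unif_abs_le] with w hw
      have ht : |s * w| ≤ rr b y0 := by
        rw [abs_mul, abs_of_pos hs]
        nlinarith [abs_nonneg w]
      have h2 := h.cost_avg ht P hp
      rw [hc]
      refine le_trans (le_of_eq ?_) h2
      refine integral_congr_ae (Filter.Eventually.of_forall fun y => ?_)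
      simp only
      rw [hrec, hW]
      rfl
    have iI : Integrable (fun w : ℝ => ∫ y : Fin b → List (Fin b) → ℝ,
        cost (Mc b y0) m (X (TreeT2_251.glue (w, y)), W (TreeT2_251.glue (w, y)))
          ∂(Measure.pi fun _ => PT b)) unif := by
      have := (TreeT2_251.mp_glue b).integrable_comp_of_integrable iXW
      exact this.integral_prod_left
    have := integral_mono_ae iI (integrable_const _) hae
    refine this.trans (le_of_eq ?_)
    simp
  -- (ii) the mean difference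
  have iuXW : Integrable (fun ω => uu m (X ω) - uu m (W ω)) (PT b) := by
    refine integrable_of_bdd (B := BB y0 + BB y0)
      (((measurable_uu m).comp mX).sub ((measurable_uu m).comp mW)).aestronglyMeasurable fun ω => ?_
    exact (norm_sub_le _ _).trans (add_le_add (h.norm_uu_le (P.pX ω).le) (h.norm_uu_le (pW ω).le))
  have iuXY : Integrable (fun ω => uu m (X ω) - uu m (Y ω)) (PT b) := by
    refine integrable_of_bdd (B := BB y0 + BB y0)
      (((measurable_uu m).comp mX).sub ((measurable_uu m).comp mY)).aestronglyMeasurable fun ω => ?_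
    exact (norm_sub_le _ _).trans (add_le_add (h.norm_uu_le (P.pX ω).le)
      (h.norm_uu_le (P.pY ω).le))
  have iuYW : Integrable (fun ω => uu m (Y ω) - uu m (W ω)) (PT b) := by
    refine integrable_of_bdd (B := BB y0 + BB y0)
      (((measurable_uu m).comp mY).sub ((measurable_uu m).comp mW)).aestronglyMeasurable fun ω => ?_
    exact (norm_sub_le _ _).trans (add_le_add (h.norm_uu_le (P.pY ω).le) (h.norm_uu_le (pW ω).le))
  obtain ⟨Δ, hΔ⟩ : ∃ Δ, Δ = dA m (PT b) X Y := ⟨_, rfl⟩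
  obtain ⟨e, he⟩ : ∃ e, e = ∫ ω, (uu m (Y ω) - uu m (W ω)) ∂(PT b) := ⟨_, rfl⟩
  have hsum : ∫ ω, (uu m (X ω) - uu m (W ω)) ∂(PT b) = Δ + e := by
    rw [hΔ, he]
    unfold dA
    rw [← integral_add iuXY iuYW]
    refine integral_congr_ae (Filter.Eventually.of_forall fun y => ?_)
    simp only
    ring
  have hen : ‖e‖ ≤ 3 / y0 * rb := by
    rw [he, hrb, ← integral_const_mul]
    refine (norm_integral_le_integral_norm _).trans ?_
    exact integral_mono iuYW.norm (PYW.int_rho.const_mul _) fun ω => h.uu_lip (P.pY ω) (pW ω)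
  have hD : ‖Δ + e - b * m ^ 2 * Δ‖ ^ 2 ≤ 1 / 50 * y0 ^ 4 * c := by
    have hR0 : 0 ≤ 1 / 50 * y0 ^ 4 * c := by positivity
    have hR : ‖Δ + e - b * m ^ 2 * Δ‖ ≤ Real.sqrt (1 / 50 * y0 ^ 4 * c) := by
      rw [← hsum, TreeT2_251.integral_glue b _ iuXW]
      have iI : Integrable (fun w : ℝ => ∫ y : Fin b → List (Fin b) → ℝ,
          (uu m (X (TreeT2_251.glue (w, y))) - uu m (W (TreeT2_251.glue (w, y))))
            ∂(Measure.pi fun _ => PT b)) unif := by
        have := (TreeT2_251.mp_glue b).integrable_comp_of_integrable iuXW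
        exact this.integral_prod_left
      have e3 : (∫ w : ℝ, ∫ y : Fin b → List (Fin b) → ℝ,
          (uu m (X (TreeT2_251.glue (w, y))) - uu m (W (TreeT2_251.glue (w, y))))
            ∂(Measure.pi fun _ => PT b) ∂unif) - b * m ^ 2 * Δ =
          ∫ w : ℝ, ((∫ y : Fin b → List (Fin b) → ℝ,
          (uu m (X (TreeT2_251.glue (w, y))) - uu m (W (TreeT2_251.glue (w, y))))
            ∂(Measure.pi fun _ => PT b)) - b * m ^ 2 * Δ) ∂unif := by
        rw [integral_sub iI (integrable_const _)]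
        simp
      rw [e3]
      have hae : ∀ᵐ w : ℝ ∂unif, ‖(∫ y : Fin b → List (Fin b) → ℝ,
          (uu m (X (TreeT2_251.glue (w, y))) - uu m (W (TreeT2_251.glue (w, y))))
            ∂(Measure.pi fun _ => PT b)) - b * m ^ 2 * Δ‖ ≤
            Real.sqrt (1 / 50 * y0 ^ 4 * c) := by
        filter_upwards [unif_abs_le] with w hw
        have ht : |s * w| ≤ rr b y0 := by
          rw [abs_mul, abs_of_pos hs]
          nlinarith [abs_nonneg w]
        have h2 := h.mean_avg ht P hp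
        rw [← hc, ← hΔ] at h2
        refine Real.le_sqrt_of_sq_le ?_
        refine le_trans (le_of_eq ?_) h2
        congr 3
        refine integral_congr_ae (Filter.Eventually.of_forall fun y => ?_)
        simp only
        rw [hrec, hW]
        rfl
      have := norm_integral_le_of_norm_le_const hae
      simpa using this
    have := pow_le_pow_left₀ (norm_nonneg _) hR 2
    rwa [Real.sq_sqrt hR0] at this
  have h3 := h.delta_le hD
  rw [← hΔ] at h1
  -- (iii) conclusion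
  have h4 : c ≤ 21 / 20 * (∫ ω, cost (Mc b y0) m (X ω, W ω) ∂(PT b)) + C6 b y0 * rb := by
    rw [hc, hrb, ← integral_const_mul, ← integral_const_mul,
      ← integral_add (iXW.const_mul _) (PYW.int_rho.const_mul _)]
    exact integral_mono (h.int_cost P) ((iXW.const_mul _).add (PYW.int_rho.const_mul _))
      fun ω => cost_change h (P.pX ω) (P.pY ω) (pW ω)
  have h5 : ‖e‖ ^ 2 ≤ 9 / y0 ^ 2 * rb := by
    have e1 := pow_le_pow_left₀ (norm_nonneg _) hen 2
    have e2 : (3 / y0 * rb) ^ 2 = 9 / y0 ^ 2 * (rb * rb) := by ring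
    rw [e2] at e1
    refine e1.trans (mul_le_mul_of_nonneg_left (by nlinarith) (by positivity))
  have h6 : 1 / y0 ^ 4 * ‖e‖ ^ 2 ≤ 9 / y0 ^ 6 * rb := by
    have := mul_le_mul_of_nonneg_left h5 (by positivity : 0 ≤ 1 / y0 ^ 4)
    refine this.trans (le_of_eq ?_)
    field_simp
  rw [← hc, ← hrb]
  have h7 : C7 b y0 * rb = 7 * (21 / 20 * (9 / y0 ^ 6 * rb) + C6 b y0 * rb) := by
    unfold C7; ring
  rw [h7]
  linarith

/-- Lipschitz dependence of goodness on the clean root. -/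
theorem good_shift {z' m' : ℂ} (h : Adm b y0 z m) (h' : Adm b y0 z' m') {r : ℝ} (_hr : 0 ≤ r)
    (hr1 : r ≤ 1 / 4) (hmm : ‖m - m'‖ ≤ r / 8) {y : ℂ} (hy : 0 ≤ y.im)
    (hu : ‖uu m' y‖ ≤ r / 8) : ‖uu m y‖ ≤ r := by
  have h1 := h'.disp_le hy (by linarith : r / 8 ≤ 1 / 4) hu
  have h2 : ‖y - m‖ ≤ 3 / 8 * r := by
    have e : y - m = (y - m') - (m - m') := by ring
    rw [e]
    refine (norm_sub_le _ _).trans ?_
    linarith
  have h3 : 2 / 5 ≤ ‖1 - m * y‖ := by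
    rw [TreeDet350.one_sub_mul m y]
    have e1 := h.norm_a_ge
    have e2 : ‖m * (y - m)‖ ≤ 3 / 4 * (3 / 8 * r) := by
      rw [norm_mul]
      exact mul_le_mul h.norm_le h2 (norm_nonneg _) (by norm_num)
    have e3 := norm_sub_norm_le (1 - m ^ 2) (m * (y - m))
    linarith
  unfold uu
  rw [norm_div, div_le_iff₀ (by linarith)]
  have : r * (2 / 5) ≤ r * ‖1 - m * y‖ := mul_le_mul_of_nonneg_left h3 _hr
  linarith

theorem pA_le {z' m' : ℂ} (h : Adm b y0 z m) (h' : Adm b y0 z' m')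
    (hmm : ‖m - m'‖ ≤ rr b y0 / 8) {X Y : (List (Fin b) → ℝ) → ℂ} (P : Pr X Y) :
    pA b y0 m (PT b) X Y ≤ (∫ ω, ‖uu m (X ω)‖ ^ 2 ∂(PT b)) / rr b y0 ^ 2 +
      64 * (∫ ω, ‖uu m' (Y ω)‖ ^ 2 ∂(PT b)) / rr b y0 ^ 2 := by
  have hr0 := h.rr_pos
  have hr4 : rr b y0 ≤ 1 / 4 := by linarith [h.rr_le', h.y0_lt_one]
  have hBB := BB_pos h.hy
  have i1 : Integrable (fun ω => ‖uu m (X ω)‖ ^ 2) (PT b) :=
    integrable_of_bdd (B := BB y0 ^ 2)
      (((measurable_uu m).comp P.mX).norm.pow_const 2).aestronglyMeasurable fun ω => by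
      rw [Real.norm_eq_abs, abs_of_nonneg (by positivity)]
      exact pow_le_pow_left₀ (norm_nonneg _) (h.norm_uu_le (P.pX ω).le) 2
  have i2 : Integrable (fun ω => ‖uu m' (Y ω)‖ ^ 2) (PT b) :=
    integrable_of_bdd (B := BB y0 ^ 2)
      (((measurable_uu m').comp P.mY).norm.pow_const 2).aestronglyMeasurable fun ω => by
      rw [Real.norm_eq_abs, abs_of_nonneg (by positivity)]
      exact pow_le_pow_left₀ (norm_nonneg _) (h'.norm_uu_le (P.pY ω).le) 2
  have e : (∫ ω, ‖uu m (X ω)‖ ^ 2 ∂(PT b)) / rr b y0 ^ 2 +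
      64 * (∫ ω, ‖uu m' (Y ω)‖ ^ 2 ∂(PT b)) / rr b y0 ^ 2 =
      ∫ ω, ((1 / rr b y0 ^ 2) * ‖uu m (X ω)‖ ^ 2 + (64 / rr b y0 ^ 2) * ‖uu m' (Y ω)‖ ^ 2)
        ∂(PT b) := by
    rw [integral_add (i1.const_mul _) (i2.const_mul _), integral_const_mul, integral_const_mul]
    ring
  rw [e]
  refine integral_mono (P.int_bI m _) ((i1.const_mul _).add (i2.const_mul _)) fun ω => ?_
  simp only
  by_cases hg : Good m (rr b y0) (X ω, Y ω)
  · rw [bI_good hg]; positivity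
  · rw [bI_bad hg]
    have n1 : 0 ≤ (1 / rr b y0 ^ 2) * ‖uu m (X ω)‖ ^ 2 := by positivity
    have n2 : 0 ≤ (64 / rr b y0 ^ 2) * ‖uu m' (Y ω)‖ ^ 2 := by positivity
    unfold Good at hg
    rw [not_and_or] at hg
    rcases hg with hg | hg
    · have hg' : rr b y0 ≤ ‖uu m (X ω)‖ := (not_le.1 hg).le
      have : 1 ≤ (1 / rr b y0 ^ 2) * ‖uu m (X ω)‖ ^ 2 := by
        rw [one_div, ← div_eq_inv_mul, le_div_iff₀ (by positivity), one_mul]
        exact pow_le_pow_left₀ hr0.le hg' 2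
      linarith
    · have hg' : rr b y0 / 8 ≤ ‖uu m' (Y ω)‖ := by
        by_contra hc
        exact hg (good_shift h h' hr0.le hr4 hmm (P.pY ω).le (not_le.1 hc).le)
      have : 1 ≤ (64 / rr b y0 ^ 2) * ‖uu m' (Y ω)‖ ^ 2 := by
        rw [div_mul_eq_mul_div, le_div_iff₀ (by positivity), one_mul]
        have := pow_le_pow_left₀ (by positivity) hg' 2
        nlinarith
      linarith

/-- shift error -/
theorem shift_le {s : ℝ} (hz : 0 < z.im) {z' : ℂ} (hz' : 0 < z'.im) (hb : 1 ≤ b) {κ : ℝ}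
    (hκ : 0 < κ) {ε : ℝ} (hε : 0 ≤ ε)
    (hP : (PT b) {ω | (XX b s z' ω).im < κ} ≤ ENNReal.ofReal ε) :
    ∫ ω, rho (XX b s z' ω) (cav z (s * ω []) fun j => XX b s z' (sub j ω)) ∂(PT b) ≤
      ε + ‖z - z'‖ / (2 * κ) := by
  have T := TreeT1.t1 b s
  have j0 : Fin b := ⟨0, hb⟩
  have mY := T.meas z' hz'
  have hms : MeasurableSet {ω | (XX b s z' (sub j0 ω)).im < κ} :=
    measurableSet_lt (Complex.measurable_im.comp (mY.comp (TreeT2_251.measurable_sub j0)))
      measurable_const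
  have hP' : (PT b) {ω | (XX b s z' (sub j0 ω)).im < κ} ≤ ENNReal.ofReal ε := by
    have h1 := (TreeT2_251.mp_sub b j0).measure_preimage
      (s := {ω | (XX b s z' ω).im < κ})
      (measurableSet_lt (Complex.measurable_im.comp mY) measurable_const).nullMeasurableSet
    have h2 : {ω | (XX b s z' (sub j0 ω)).im < κ} = sub j0 ⁻¹' {ω | (XX b s z' ω).im < κ} := rfl
    rw [h2, h1]
    exact hP
  have hreal : (PT b).real {ω | (XX b s z' (sub j0 ω)).im < κ} ≤ ε :=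
    ENNReal.toReal_le_of_le_ofReal hε hP'
  have hbound : ∀ ω, rho (XX b s z' ω) (cav z (s * ω []) fun j => XX b s z' (sub j ω)) ≤
      Set.indicator {ω | (XX b s z' (sub j0 ω)).im < κ} (fun _ => (1 : ℝ)) ω +
        ‖z - z'‖ / (2 * κ) := by
    intro ω
    have hd : 0 ≤ ‖z - z'‖ / (2 * κ) := by positivity
    have pX : ∀ j : Fin b, 0 < (XX b s z' (sub j ω)).im := fun j => T.im_pos z' hz' _
    have hsum : (XX b s z' (sub j0 ω)).im ≤ ∑ j : Fin b, (XX b s z' (sub j ω)).im :=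
      Finset.single_le_sum (f := fun j : Fin b => (XX b s z' (sub j ω)).im)
        (fun j _ => (pX j).le) (Finset.mem_univ j0)
    have hS' : 0 < (z' - ((s * ω [] : ℝ) : ℂ) + ∑ j : Fin b, XX b s z' (sub j ω)).im := by
      rw [Complex.add_im, Complex.sub_im, Complex.ofReal_im, Complex.im_sum]
      have := pX j0; linarith
    have hS : 0 < (z - ((s * ω [] : ℝ) : ℂ) + ∑ j : Fin b, XX b s z' (sub j ω)).im := by
      rw [Complex.add_im, Complex.sub_im, Complex.ofReal_im, Complex.im_sum]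
      have := pX j0; linarith
    rw [T.recur z' hz' ω]
    unfold cav
    rw [rho_neg_inv (ne_zero_of_im_pos hS') (ne_zero_of_im_pos hS)]
    by_cases hω : ω ∈ {ω | (XX b s z' (sub j0 ω)).im < κ}
    · rw [Set.indicator_of_mem hω]
      have := rho_le_one hS' hS
      linarith
    · rw [Set.indicator_of_notMem hω, zero_add]
      have hω' : κ ≤ (XX b s z' (sub j0 ω)).im := not_lt.1 hω
      unfold rho
      have e1 : z' - ((s * ω [] : ℝ) : ℂ) + ∑ j : Fin b, XX b s z' (sub j ω) -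
          (z - ((s * ω [] : ℝ) : ℂ) + ∑ j : Fin b, XX b s z' (sub j ω)) = z' - z := by ring
      rw [e1, norm_sub_rev]
      refine div_le_div_of_nonneg_left (norm_nonneg _) (by positivity) ?_
      refine le_trans ?_ (Complex.im_le_norm _)
      rw [Complex.sub_im, Complex.conj_im, Complex.add_im, Complex.add_im, Complex.sub_im,
        Complex.sub_im, Complex.ofReal_im, Complex.im_sum]
      linarith
  have PYW : Pr (XX b s z') (fun ω => cav z (s * ω []) fun j => XX b s z' (sub j ω)) := by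
    refine ⟨mY, ?_, fun ω => T.im_pos z' hz' ω, fun ω => ?_⟩
    · unfold cav
      refine measurable_const.div ((measurable_const.sub ?_).add
        (Finset.measurable_sum _ fun k _ => mY.comp (TreeT2_251.measurable_sub k)))
      exact Complex.measurable_ofReal.comp (measurable_const.mul (measurable_pi_apply []))
    · exact TreeT1.im_cav_pos hz _ fun j => (T.im_pos z' hz' _).le
  have i1 : Integrable (Set.indicator {ω | (XX b s z' (sub j0 ω)).im < κ} fun _ => (1 : ℝ))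
      (PT b) := (integrable_const (1 : ℝ)).indicator hms
  have h1 := integral_mono PYW.int_rho (i1.add (integrable_const (‖z - z'‖ / (2 * κ)))) hbound
  refine h1.trans ?_
  have h2 := integral_add i1 (integrable_const (μ := PT b) (‖z - z'‖ / (2 * κ)))
  refine (le_of_eq h2).trans ?_
  rw [integral_indicator hms]
  simp only [integral_const, MeasurableSet.univ, smul_eq_mul, mul_one,
    measureReal_restrict_apply, Set.univ_inter, probReal_univ, one_mul]
  linarith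

/-- **T6.** -/
theorem t6 (hb : 2 ≤ b) (h5 : T5 b) (hnd : T6_nondeg b) : T6 b := by
  intro κ hκ
  by_cases hκ' : κ ≤ 2 * Real.sqrt b
  swap
  · refine ⟨1, one_pos, fun s _ _ ε _ => ⟨1, one_pos, fun z z' h1 => ?_⟩⟩
    have := abs_nonneg z.re
    exact absurd (this.trans h1) (by linarith)
  obtain ⟨s5, hs5, C, hC, H5⟩ := h5 κ hκ
  obtain ⟨s6, hs6, H6⟩ := hnd κ hκ
  have hy0 : 0 < TreeT6N.y00 b κ := TreeT6N.y00_pos hb hκ hκ'
  obtain ⟨y0, hy0'⟩ : ∃ y, y = TreeT6N.y00 b κ := ⟨_, rfl⟩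
  -- a witness of admissibility
  obtain ⟨m1, hm1⟩ := TreeT6N.exists_adm (z := Complex.I) hb hκ (by
    simp only [Complex.I_re, abs_zero]; linarith) (by simp) (by
    have : (1 : ℝ) ≤ Real.sqrt b := by
      rw [Real.one_le_sqrt]
      have : (2 : ℝ) ≤ b := by exact_mod_cast hb
      linarith
    simp only [Complex.I_im]; linarith)
  rw [← hy0'] at hm1 hy0
  have hrr := hm1.rr_pos
  have hpb := hm1.pb0_pos
  have hC7 := C7_pos hm1
  obtain ⟨s1, hs1⟩ : ∃ s1, s1 = min 1 (pb0 b y0 * rr b y0 ^ 2 / (65 * C)) := ⟨_, rfl⟩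
  have hs1pos : 0 < s1 := by rw [hs1]; positivity
  refine ⟨min (min s5 s6) (min (rr b y0) s1), by positivity, fun s hs hss ε hε => ?_⟩
  have l1 : s < s5 := hss.trans_le ((min_le_left _ _).trans (min_le_left _ _))
  have l2 : s < s6 := hss.trans_le ((min_le_left _ _).trans (min_le_right _ _))
  have l3 : s < rr b y0 := hss.trans_le ((min_le_right _ _).trans (min_le_left _ _))
  have l4 : s < s1 := hss.trans_le ((min_le_right _ _).trans (min_le_right _ _))
  have l5 : s ≤ 1 := l4.le.trans (by rw [hs1]; exact min_le_left _ _)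
  have l6 : 65 * C * s ≤ pb0 b y0 * rr b y0 ^ 2 := by
    have : s ≤ pb0 b y0 * rr b y0 ^ 2 / (65 * C) :=
      l4.le.trans (by rw [hs1]; exact min_le_right _ _)
    rw [le_div_iff₀ (by positivity)] at this
    linarith
  obtain ⟨κ1, hκ1, M, hM, Hnd⟩ := H6 s hs l2 (ε / (2 * C7 b y0)) (by positivity)
  refine ⟨min (rr b y0 / 8 * y0) (κ1 * (ε / C7 b y0)), by positivity,
    fun z z' z1 z2 z3 z1' z2' z3' hzz => ?_⟩
  obtain ⟨m, hm⟩ := TreeT6N.exists_adm hb hκ z1 z2 z3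
  obtain ⟨m', hm'⟩ := TreeT6N.exists_adm hb hκ z1' z2' z3'
  rw [← hy0'] at hm hm'
  have T := TreeT1.t1 b s
  have P : Pr (XX b s z) (XX b s z') :=
    ⟨T.meas z z2, T.meas z' z2', T.im_pos z z2, T.im_pos z' z2'⟩
  -- roots are close
  have hmm : ‖m - m'‖ ≤ rr b y0 / 8 := by
    have r1 : Root355.IsRoot (b : ℝ) z m := ⟨hm.im_pos, by simpa using hm.hm⟩
    have r2 : Root355.IsRoot (b : ℝ) z' m' := ⟨hm'.im_pos, by simpa using hm'.hm⟩
    have hb1 : (1 : ℝ) ≤ b := by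
      have : (2 : ℝ) ≤ b := by exact_mod_cast hb
      linarith
    refine (r1.lipschitz r2 hb1 z2.le z2'.le).trans ?_
    rw [div_le_iff₀ hm.im_pos]
    have e1 : ‖z - z'‖ ≤ rr b y0 / 8 * y0 := hzz.trans (min_le_left _ _)
    refine e1.trans (mul_le_mul_of_nonneg_left hm.him (by positivity))
  -- bad probability
  have hV := H5 s hs l1 z m z1 z2 z3 hm.im_pos hm.hm
  have hV' := H5 s hs l1 z' m' z1' z2' z3' hm'.im_pos hm'.hm
  have hp : pA b y0 m (PT b) (XX b s z) (XX b s z') ≤ pb0 b y0 := by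
    refine (pA_le hm hm' hmm P).trans ?_
    rw [← add_div, div_le_iff₀ (by positivity)]
    have : s ^ 2 ≤ s := by nlinarith
    have : C * s ^ 2 ≤ C * s := mul_le_mul_of_nonneg_left this hC.le
    linarith
  have hstep := T6_step hm hs l3.le P (fun ω => T.recur z z2 ω) hp
  have hnd' : (PT b) {ω | (XX b s z' ω).im < κ1} ≤ ENNReal.ofReal (ε / (2 * C7 b y0)) :=
    (measure_mono fun ω hω => Or.inl hω).trans (Hnd z' z1' z2' z3')
  have hsh := shift_le (s := s) z2 z2' (by omega : 1 ≤ b) hκ1 (by positivity) hnd'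
  have h1 := hm.rA_le_cA (π := PT b) P
  have h2 : ‖z - z'‖ / (2 * κ1) ≤ ε / (2 * C7 b y0) := by
    rw [div_le_iff₀ (by positivity)]
    refine (hzz.trans (min_le_right _ _)).trans (le_of_eq ?_)
    field_simp
  have h3 : C7 b y0 * (∫ ω, rho (XX b s z' ω)
      (cav z (s * ω []) fun j => XX b s z' (sub j ω)) ∂(PT b)) ≤
      C7 b y0 * (ε / (2 * C7 b y0) + ε / (2 * C7 b y0)) :=
    mul_le_mul_of_nonneg_left (by linarith) hC7.le
  have h4 : C7 b y0 * (ε / (2 * C7 b y0) + ε / (2 * C7 b y0)) = ε := by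
    field_simp
    ring
  unfold rA at h1
  linarith

end

end Crest.Agent.R166.TreeT6350
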