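import Mathlib
import Crest.Agent.R166.TreeT6_350
import Crest.Agent.R166.TreeT5_383
import Crest.Agent.R166.TreeT6L_383
import Crest.Agent.R166.TreeT6N_383
import Crest.Agent.R166.T4_485
import Crest.Agent.R166.T8_355
import Crest.Agent.R166.StInv_390
import Crest.Agent.R166.DosM1_356
/-!
Row 166, sections 32 (tree half) + 70: final statements of the tree half (helper350; leaves by
helper251, helper355, helper356, helper383, helper390, helper485).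
-/
set_option autoImplicit false

namespace Crest.Agent.R166.TreeFin350

open MeasureTheory Crest.ProbabilityR.RandomMatrix Crest.Agent.R166.TreeDet350
  Crest.Agent.R166.TreeDefs350 Crest.Agent.R166.TreeSpec350

variable {b : ℕ}

theorem t5 (hb : 2 ≤ b) : T5 b := TreeT5.t5 hb

theorem t6_nondeg (hb : 2 ≤ b) : T6_nondeg b :=
  TreeT6N.t6_nondeg hb (fun _ hs => T4_485.t4_wegner b hs) (fun _ hs => T4_485.t4_nondeg hb hs)
    (t5 hb)

theorem t6 (hb : 2 ≤ b) : T6 b := TreeT6350.t6 hb (t5 hb) (t6_nondeg hb)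

theorem t6_lim (hb : 2 ≤ b) : T6_lim b := TreeT6L.t6_lim b (t6 hb)

theorem t8 (hb : 2 ≤ b) : T8 b := T8355.T8_of (by omega) (t6 hb) (t6_nondeg hb)

/-- the density-of-states part of S0252, with the convergence of the averaged Green function. -/
theorem tree_dos (d : ℕ) (hd : 3 ≤ d) (κ : ℝ) (hκ : 0 < κ) :
    ∃ s₀ : ℝ, 0 < s₀ ∧ ∀ s : ℝ, 0 < s → s < s₀ →
      ∃ ν : Measure ℝ, IsTreeDOS d s ν ∧
        ∃ (ρ : ℝ → ℝ) (U : Set ℝ), IsOpen U ∧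
          Set.Icc (-(2 * Real.sqrt ((d : ℝ) - 1)) + κ) (2 * Real.sqrt ((d : ℝ) - 1) - κ) ⊆ U ∧
          ContinuousOn ρ U ∧ (∀ t ∈ U, 0 ≤ ρ t) ∧
          ν.restrict U = (volume.restrict U).withDensity (fun t => ENNReal.ofReal (ρ t)) ∧
          (∀ E ∈ U, 0 < ρ E) ∧
          (∀ E ∈ U, |E| < 2 * Real.sqrt ((d : ℝ) - 1) - κ / 2) ∧
          (∀ z : ℂ, 0 < z.im → ∫ x : ℝ, ((x : ℂ) - z)⁻¹ ∂ν = Gav (d - 1) s z) ∧
          ∀ ε : ℝ, 0 < ε → ∃ η0 > 0, ∀ η : ℝ, 0 < η → η ≤ η0 → ∀ E ∈ U,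
            |(Gav (d - 1) s (ze E η)).im - Real.pi * ρ E| ≤ ε := by
  obtain ⟨b, rfl⟩ : ∃ b, d = b + 1 := ⟨d - 1, by omega⟩
  have hb : 2 ≤ b := by omega
  have eb : ((b + 1 : ℕ) : ℝ) - 1 = b := by push_cast; ring
  obtain ⟨s0, hs0, H⟩ := t8 hb (κ / 2) (by positivity)
  refine ⟨s0, hs0, fun s hs hss => ?_⟩
  obtain ⟨ρ, hρc, ⟨c, hc, hρ⟩, hlim⟩ := H s hs hss
  obtain ⟨ν, hν, hst⟩ := DosM1356.exists_treeDOS b s hs.le
  rw [eb, Nat.add_sub_cancel]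
  obtain ⟨U, hU⟩ : ∃ U, U = {E : ℝ | |E| < 2 * Real.sqrt b - κ / 2} := ⟨_, rfl⟩
  have hUo : IsOpen U := by
    rw [hU]; exact isOpen_lt continuous_abs continuous_const
  have hlim' : ∀ ε : ℝ, 0 < ε → ∃ η0 > 0, ∀ η : ℝ, 0 < η → η ≤ η0 → ∀ E ∈ U,
      |(Gav b s (ze E η)).im - Real.pi * ρ E| ≤ ε := by
    intro ε hε
    obtain ⟨η0, hη0, h1⟩ := hlim ε hε
    exact ⟨η0, hη0, fun η h2 h3 E hE => h1 η h2 h3 E (by rw [hU] at hE; exact hE)⟩
  have := hν.1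
  refine ⟨ν, hν, ρ, U, hUo, ?_, ?_, ?_, ?_, ?_, ?_, hst, hlim'⟩
  · intro E hE
    rw [hU]
    simp only [Set.mem_ofPred_eq]
    rw [abs_lt]
    constructor
    · linarith [hE.1]
    · linarith [hE.2]
  · rw [hU]; exact hρc
  · intro E hE
    rw [hU] at hE
    exact hc.le.trans (hρ E hE)
  · refine StInv390.stieltjes_inversion hUo (by rw [hU]; exact hρc) ?_
    intro ε hε
    obtain ⟨η0, hη0, h1⟩ := hlim' ε hε
    refine ⟨η0, hη0, fun η h2 h3 E hE => ?_⟩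
    rw [hst (ze E η) (by simp [ze, h2])]
    exact h1 η h2 h3 E hE
  · intro E hE
    rw [hU] at hE
    exact lt_of_lt_of_le hc (hρ E hE)
  · intro E hE
    rw [hU] at hE
    exact hE

end Crest.Agent.R166.TreeFin350
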