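import Crest.Agent.R166.Master_423
import Crest.Agent.R166.AuditA_811
import Crest.Agent.R166.Asm32G_583
import Crest.Agent.R166.TreeFin_350
import Crest.Agent.R166.StepAll_269
import Crest.Agent.R166.F1From_420
import Crest.Agent.R166.FineProb_522
import Crest.Agent.R166.F2_63
import Crest.Agent.R166.SpecF3b_798
import Crest.Agent.R166.InvFin_348

/-!
Row 166: audit of the composition (helper383): landed results applied to the Props of
`Master_423`; S0251 and S0252 from the open inputs `StmtB0` / `StmtBs`, `F3From`.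
-/

set_option autoImplicit false

namespace Crest.Agent.R166.Audit383

open MeasureTheory ProbabilityTheory Crest.ProbabilityR.RandomMatrix Crest.Agent.R166
open Crest.Agent.R166.Asm423 Crest.Agent.R166.Master423

/-- (50) -/
theorem stmt50 : Stmt50 := fun _ _ _ _ hd hρ _ hIm hLoc hND hB =>
  InvFin348.invG (by omega) hρ hB hIm hLoc hND

/-- (70, M1) -/
theorem stmtM1 : StmtM1 := by
  intro d s hd hs
  obtain ⟨b, rfl⟩ : ∃ b, d = b + 1 := ⟨d - 1, by omega⟩
  exact DosM1356.exists_treeDOS b s hs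

/-- (70, M2) -/
theorem stmtM2 : StmtM2 := StInv390.stmtM2

/-- the tree half -/
theorem t8 (b : ℕ) (hb : 2 ≤ b) : TreeSpec350.T8 b := TreeFin350.t8 hb

theorem thmA (d : ℕ) (hd : 3 ≤ d) : SpecA.ThmA d := by
  have : NeZero d := ⟨by omega⟩
  exact StepAll.thmA hd

theorem f1 (d : ℕ) (hd : 3 ≤ d) : SpecF3.F1 d := by
  have : NeZero d := ⟨by omega⟩
  exact F1From420.f1From d hd (Fine522.f1Step hd) (thmA d hd)

theorem f2 (d : ℕ) (hd : 3 ≤ d) : SpecF3.F2 d := F263.f2 hd (f1 d hd) (thmA d hd)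

/-- the graph half of section 32 from `F3From` -/
theorem stmt32G (h3 : ∀ d : ℕ, 3 ≤ d → SpecF3.F3From d) : Stmt32G :=
  Asm32G583.stmt32G stmtM1 thmA f1 f2 h3

/-- **S0251 from `StmtB0`**, in the form of the template -/
theorem s0251_from (hB : StmtB0)
    (d : ℕ) (hd : 3 ≤ d) (E : ℝ) (hE : E ^ 2 < 4 * ((d : ℝ) - 1))
    (h : ℝ → ℝ) (hcont : Continuous h) (hsupp : HasCompactSupport h) (hpos : ∀ t, 0 ≤ h t) :
    ∀ ε : ℝ, 0 < ε → ∃ N : ℕ, ∀ n : ℕ, N ≤ n → (regularGraphs n d).Nonempty →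
      |regularAverage n d (fun G => adjLaplaceWeight G
          (unfoldAt h (n * kestenMcKayDensity d E) E)) -
          ∫ g, goeLaplaceWeight g (unfoldAt h (n / Real.pi) 0) ∂goeDisorderLaw n| < ε :=
  s0251 stmt50 Audit811.stmtEnv Audit811.stmt31 hB Audit811.invO d hd E hE h hcont hsupp hpos

/-- **S0252 from `StmtBs` and `F3From`**, in the form of the template -/
theorem s0252_from (hB : StmtBs) (h3 : ∀ d : ℕ, 3 ≤ d → SpecF3.F3From d)
    (d : ℕ) (hd : 3 ≤ d) (κ : ℝ) (hκ : 0 < κ) (_ : κ < 2 * Real.sqrt ((d : ℝ) - 1)) :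
    ∃ s₀ : ℝ, 0 < s₀ ∧ ∀ s : ℝ, 0 < s → s < s₀ →
      ∃ ν : MeasureTheory.Measure ℝ, IsTreeDOS d s ν ∧
        ∃ (ρ : ℝ → ℝ) (U : Set ℝ), IsOpen U ∧
          Set.Icc (-(2 * Real.sqrt ((d : ℝ) - 1)) + κ) (2 * Real.sqrt ((d : ℝ) - 1) - κ) ⊆ U ∧
          ContinuousOn ρ U ∧ (∀ t ∈ U, 0 ≤ ρ t) ∧
          ν.restrict U = (MeasureTheory.volume.restrict U).withDensity
            (fun t => ENNReal.ofReal (ρ t)) ∧
          (∀ E ∈ Set.Icc (-(2 * Real.sqrt ((d : ℝ) - 1)) + κ)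
            (2 * Real.sqrt ((d : ℝ) - 1) - κ), 0 < ρ E) ∧
          ∀ E ∈ Set.Icc (-(2 * Real.sqrt ((d : ℝ) - 1)) + κ) (2 * Real.sqrt ((d : ℝ) - 1) - κ),
            ∀ h : ℝ → ℝ, Continuous h → HasCompactSupport h → (∀ t, 0 ≤ h t) →
              ∀ ε : ℝ, 0 < ε → ∃ N : ℕ, ∀ n : ℕ, N ≤ n → d < n → Even (n * d) →
                |regularAverage n d (fun G => ∫ ω, disorderedLaplaceWeight G s ω
                      (unfoldAt h (n * ρ E) E) ∂potentialLaw n) -
                    ∫ g, goeLaplaceWeight g (unfoldAt h (n / Real.pi) 0) ∂goeDisorderLaw n|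
                  < ε :=
  s0252 stmt50 Audit811.stmtEnv (stmt32G h3) hB Audit811.invO stmtM1 stmtM2 t8 d hd κ hκ

end Crest.Agent.R166.Audit383
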