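import Crest.Agent.R166.TreeCost2_350
import Crest.Agent.R166.MeanEq_269

/-!
# Row 166, section 32 (graph half, helper798): averaged one-level contraction over a finite set

`Ω` a finite nonempty set (half-edges), `P : Ω → ℂ × ℂ` pairs of cavity values, `e : Fin b → Ω`
uniform choices.
* `cost_avg` : `E cost(F(X∘e), F(Y∘e)) ≤ (3/4 + 1/1000) V + C1 |D|² + C2 p V`;
* `mean_avg` : `|E (u F(X∘e) - u F(Y∘e)) - b m² D|² ≤ small V + C p V`;
* `av_comp`, `avC_comp` : marginals of the uniform choice under an injection of index sets.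
-/

set_option autoImplicit false
set_option linter.unusedSectionVars false

open Finset

namespace Crest.Agent.R166.AvgCon798

open Crest.Agent.R166.TreeDet350 Crest.Agent.R166.Rev811 Crest.Agent.R166.MeanEq269

/-! ### marginals -/

section marginal

variable {κ ι Ω : Type*} [Fintype κ] [DecidableEq κ] [Fintype ι] [DecidableEq ι] [Fintype Ω]

open Classical in
/-- overwrite `e` by `f` on the range of `k` -/
noncomputable def ovr (k : κ → ι) (e : ι → Ω) (f : κ → Ω) : ι → Ω := fun i =>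
  if h : ∃ j, k j = i then f h.choose else e i

lemma ovr_k {k : κ → ι} (hk : Function.Injective k) (e : ι → Ω) (f : κ → Ω) (j : κ) :
    ovr k e f (k j) = f j := by
  unfold ovr
  have h : ∃ j', k j' = k j := ⟨j, rfl⟩
  rw [dif_pos h, hk h.choose_spec]

lemma ovr_ovr {k : κ → ι} (hk : Function.Injective k) (e : ι → Ω) (f : κ → Ω) :
    ovr k (ovr k e f) (fun j => e (k j)) = e := by
  funext i
  by_cases h : ∃ j, k j = i
  · obtain ⟨j, rfl⟩ := h
    rw [ovr_k hk]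
  · unfold ovr
    rw [dif_neg h, dif_neg h]

/-- the exchange -/
noncomputable def ovrE {k : κ → ι} (hk : Function.Injective k) :
    (ι → Ω) × (κ → Ω) ≃ (ι → Ω) × (κ → Ω) where
  toFun x := (ovr k x.1 x.2, fun j => x.1 (k j))
  invFun x := (ovr k x.1 x.2, fun j => x.1 (k j))
  left_inv x := by
    refine Prod.ext (ovr_ovr hk _ _) ?_
    funext j
    exact ovr_k hk _ _ _
  right_inv x := by
    refine Prod.ext (ovr_ovr hk _ _) ?_
    funext j
    exact ovr_k hk _ _ _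

theorem sum_comp {k : κ → ι} (hk : Function.Injective k) (G : (κ → Ω) → ℝ) :
    (Fintype.card (κ → Ω) : ℝ) * ∑ e : ι → Ω, G (fun j => e (k j)) =
      (Fintype.card (ι → Ω) : ℝ) * ∑ f, G f := by
  have h1 : ∑ x : (ι → Ω) × (κ → Ω), G (fun j => x.1 (k j)) =
      ∑ x : (ι → Ω) × (κ → Ω), G x.2 :=
    Fintype.sum_equiv (ovrE hk) _ _ fun x => rfl
  rw [Fintype.sum_prod_type, Fintype.sum_prod_type] at h1
  simp only [Finset.sum_const, Finset.card_univ, nsmul_eq_mul] at h1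
  rw [← h1, Finset.mul_sum]

theorem av_comp [Nonempty Ω] {k : κ → ι} (hk : Function.Injective k) (G : (κ → Ω) → ℝ) :
    av (fun e : ι → Ω => G (fun j => e (k j))) = av G := by
  have h := sum_comp (Ω := Ω) hk G
  have h1 : (0 : ℝ) < Fintype.card (ι → Ω) := by exact_mod_cast Fintype.card_pos
  have h2 : (0 : ℝ) < Fintype.card (κ → Ω) := by exact_mod_cast Fintype.card_pos
  unfold av
  rw [div_eq_div_iff h1.ne' h2.ne']
  linarith

theorem avC_comp [Nonempty Ω] {k : κ → ι} (hk : Function.Injective k) (G : (κ → Ω) → ℂ) :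
    avC (fun e : ι → Ω => G (fun j => e (k j))) = avC G := by
  apply Complex.ext
  · rw [avC_re, avC_re]
    exact av_comp hk fun f => (G f).re
  · rw [avC_im, avC_im]
    exact av_comp hk fun f => (G f).im

end marginal

/-! ### averages -/

section avg

variable {Ω : Type*} [Fintype Ω] [Nonempty Ω]

lemma av1_mul_sq_le (f g : Ω → ℝ) :
    av1 (fun x => f x * g x) ^ 2 ≤ av1 (fun x => f x ^ 2) * av1 fun x => g x ^ 2 := by
  unfold av1
  have hO : (0 : ℝ) < Fintype.card Ω := by exact_mod_cast Fintype.card_pos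
  rw [div_pow, div_mul_div_comm, ← sq]
  exact div_le_div_of_nonneg_right (Finset.sum_mul_sq_le_sq_mul_sq _ _ _) (by positivity)

lemma av1_const (c : ℝ) : av1 (fun _ : Ω => c) = c := by
  unfold av1
  have hO : (0 : ℝ) < Fintype.card Ω := by exact_mod_cast Fintype.card_pos
  rw [Finset.sum_const, Finset.card_univ, nsmul_eq_mul]
  field_simp

lemma norm_avc_le (f : Ω → ℂ) : ‖avc f‖ ≤ av1 fun x => ‖f x‖ := by
  unfold avc av1
  rw [norm_div, Complex.norm_natCast]
  exact div_le_div_of_nonneg_right (norm_sum_le _ _) (Nat.cast_nonneg _)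

lemma avc_sub (f g : Ω → ℂ) : avc f - avc g = avc fun x => f x - g x := by
  unfold avc
  rw [Finset.sum_sub_distrib, sub_div]

lemma avc_const_mul (c : ℂ) (f : Ω → ℂ) : avc (fun x => c * f x) = c * avc f := by
  unfold avc
  rw [← Finset.mul_sum, mul_div_assoc]

end avg

/-! ### the contraction -/

section con

variable {Ω : Type*} [Fintype Ω] [Nonempty Ω] {b : ℕ} {y0 : ℝ} {z m : ℂ}

/-- `V` -/
noncomputable def VV (b : ℕ) (y0 : ℝ) (m : ℂ) (P : Ω → ℂ × ℂ) : ℝ :=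
  av1 fun x => cost (Mc b y0) m (P x)

/-- `D` -/
noncomputable def DD (m : ℂ) (P : Ω → ℂ × ℂ) : ℂ :=
  avc fun x => uu m (P x).1 - uu m (P x).2

/-- `p` -/
noncomputable def pp (b : ℕ) (y0 : ℝ) (m : ℂ) (P : Ω → ℂ × ℂ) : ℝ :=
  av1 fun x => bI m (rr b y0) (P x)

lemma pp_nonneg (b : ℕ) (y0 : ℝ) (m : ℂ) (P : Ω → ℂ × ℂ) : 0 ≤ pp b y0 m P :=
  av1_nonneg fun _ => bI_nonneg _ _

lemma pp_le_one (b : ℕ) (y0 : ℝ) (m : ℂ) (P : Ω → ℂ × ℂ) : pp b y0 m P ≤ 1 := by
  refine (av1_mono fun x => bI_le_one _ _).trans (le_of_eq ?_)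
  exact av1_const 1

lemma VV_nonneg (h : Adm b y0 z m) (P : Ω → ℂ × ℂ) : 0 ≤ VV b y0 m P :=
  av1_nonneg fun _ => cost_nonneg h.Mc_pos.le _

lemma av1_rho_sq_le (h : Adm b y0 z m) (P : Ω → ℂ × ℂ) :
    av1 (fun x => rho (P x).1 (P x).2 ^ 2) ≤ VV b y0 m P :=
  av1_mono fun _ => rho_sq_le_cost h.Mc_pos.le _

/-- `E ρ ≤ √V` -/
lemma av1_rho_le (h : Adm b y0 z m) (P : Ω → ℂ × ℂ) :
    av1 (fun x => rho (P x).1 (P x).2) ≤ Real.sqrt (VV b y0 m P) := by
  apply Real.le_sqrt_of_sq_le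
  exact (av1_sq_le _).trans (av1_rho_sq_le h P)

/-- `E 1_bad ρ ≤ √(p V)` -/
lemma av1_bI_rho_le (h : Adm b y0 z m) (P : Ω → ℂ × ℂ) :
    av1 (fun x => bI m (rr b y0) (P x) * rho (P x).1 (P x).2) ≤
      Real.sqrt (pp b y0 m P * VV b y0 m P) := by
  apply Real.le_sqrt_of_sq_le
  refine (av1_mul_sq_le _ _).trans ?_
  refine mul_le_mul ?_ (av1_rho_sq_le h P) (av1_nonneg fun _ => sq_nonneg _) (pp_nonneg _ _ _ _)
  refine av1_mono fun x => ?_
  have h1 := bI_nonneg (m := m) (rr b y0) (P x)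
  have h2 := bI_le_one (m := m) (rr b y0) (P x)
  nlinarith

/-- constants -/
noncomputable def C1 (y0 : ℝ) : ℝ := 3 / y0 ^ 2
noncomputable def C2 (b : ℕ) (y0 : ℝ) : ℝ := 25 / y0 ^ 4 + CF b y0 * b ^ 2 + C3 b y0 * b ^ 3

lemma xi_sq_le (h : Adm b y0 z m) {p : ℂ × ℂ} (h1 : 0 < p.1.im) (h2 : 0 < p.2.im) :
    CA b m * (b * ‖(gI m (rr b y0) p : ℂ) * (p.1 - p.2)‖ ^ 2) ≤
      3 / 4 * (gI m (rr b y0) p * cost (Mc b y0) m p) := by
  have hr0 := h.rr_pos
  have hyp := h.hy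
  have him := h.im_pos
  have hb2 := h.b2
  have hr400 := h.rr_le'
  have hy1 := h.y0_lt_one
  have hb0 : (0 : ℝ) < b := by linarith
  by_cases hg : Good m (rr b y0) p
  · rw [gI_good hg]
    have hδ := h.norm_sub_le_good h1 h2 (by linarith) hg.1 hg.2
    have hrho := rho_nonneg p.1 p.2
    have hc := rho_sq_le_cost (m := m) h.Mc_pos.le p
    rw [Complex.ofReal_one, one_mul, one_mul]
    have h3 : ‖p.1 - p.2‖ ^ 2 ≤ (2 * m.im + 4 * rr b y0) ^ 2 * rho p.1 p.2 ^ 2 := by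
      rw [← mul_pow]
      exact pow_le_pow_left₀ (norm_nonneg _) hδ 2
    have h4 : (2 * m.im + 4 * rr b y0) ^ 2 ≤ (1 + 1 / 50) * (4 * m.im ^ 2) := by
      have h5 : 400 * rr b y0 ≤ m.im := by linarith [h.him]
      nlinarith [mul_nonneg hr0.le (sub_nonneg.2 h5), mul_nonneg him.le (sub_nonneg.2 h5)]
    have h6 : ‖p.1 - p.2‖ ^ 2 ≤ (1 + 1 / 50) * (4 * m.im ^ 2) * cost (Mc b y0) m p := by
      refine h3.trans (mul_le_mul h4 hc (by positivity) (by positivity))
    have hcost := cost_nonneg (m := m) h.Mc_pos.le p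
    have hCA : 0 ≤ CA b m := by unfold CA; positivity
    calc CA b m * (b * ‖p.1 - p.2‖ ^ 2)
        ≤ CA b m * (b * ((1 + 1 / 50) * (4 * m.im ^ 2) * cost (Mc b y0) m p)) :=
          mul_le_mul_of_nonneg_left (mul_le_mul_of_nonneg_left h6 hb0.le) hCA
      _ = (1 + 6 / 100) * (1 + 1 / 50) * ((b : ℝ)⁻¹ * cost (Mc b y0) m p) := by
          unfold CA
          field_simp
      _ ≤ (1 + 6 / 100) * (1 + 1 / 50) * ((1 / 2) * cost (Mc b y0) m p) := by
          have h7 : (b : ℝ)⁻¹ ≤ 1 / 2 := by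
            rw [inv_le_comm₀ hb0 (by norm_num)]
            linarith
          exact mul_le_mul_of_nonneg_left (mul_le_mul_of_nonneg_right h7 hcost) (by norm_num)
      _ ≤ 3 / 4 * cost (Mc b y0) m p := by nlinarith
  · rw [gI_bad hg]
    simp

lemma avc_xi_sq_le (h : Adm b y0 z m) {P : Ω → ℂ × ℂ} (hP1 : ∀ x, 0 < (P x).1.im)
    (hP2 : ∀ x, 0 < (P x).2.im) :
    CA b m * (b ^ 2 * ‖avc (fun x => (gI m (rr b y0) (P x) : ℂ) * ((P x).1 - (P x).2))‖ ^ 2) ≤
      C1 y0 * ‖DD m P‖ ^ 2 + 1 / 1000 * VV b y0 m P +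
        25 / y0 ^ 4 * (pp b y0 m P * VV b y0 m P) := by
  have hr0 := h.rr_pos
  have hyp := h.hy
  have hy1 := h.y0_lt_one
  have him := h.im_pos
  have hb2 := h.b2
  have hb0 : (0 : ℝ) < b := by linarith
  have hV := VV_nonneg h P
  have hp := pp_nonneg b y0 m P
  set S := Real.sqrt (VV b y0 m P) with hS
  set T := Real.sqrt (pp b y0 m P * VV b y0 m P) with hT
  have hS2 : S ^ 2 = VV b y0 m P := Real.sq_sqrt hV
  have hT2 : T ^ 2 = pp b y0 m P * VV b y0 m P := Real.sq_sqrt (mul_nonneg hp hV)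
  have hS0 : 0 ≤ S := Real.sqrt_nonneg _
  have hT0 : 0 ≤ T := Real.sqrt_nonneg _
  have h1 : ‖avc (fun x => (gI m (rr b y0) (P x) : ℂ) * ((P x).1 - (P x).2))‖ ≤
      3 / 2 * ‖DD m P‖ + 1600 * rr b y0 * S + 5 / y0 * T := by
    have e1 : avc (fun x => (gI m (rr b y0) (P x) : ℂ) * ((P x).1 - (P x).2)) =
        (avc (fun x => (gI m (rr b y0) (P x) : ℂ) * ((P x).1 - (P x).2)) -
          (1 - m ^ 2) * DD m P) + (1 - m ^ 2) * DD m P := by ring
    rw [e1]
    refine (norm_add_le _ _).trans ?_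
    have h2 : ‖(1 - m ^ 2) * DD m P‖ ≤ 3 / 2 * ‖DD m P‖ := by
      rw [norm_mul]
      exact mul_le_mul_of_nonneg_right h.norm_a_le (norm_nonneg _)
    have h3 : ‖avc (fun x => (gI m (rr b y0) (P x) : ℂ) * ((P x).1 - (P x).2)) -
          (1 - m ^ 2) * DD m P‖ ≤ 1600 * rr b y0 * S + 5 / y0 * T := by
      unfold DD
      rw [← avc_const_mul, avc_sub]
      refine (norm_avc_le _).trans ((av1_mono fun x => h.disp_u (hP1 x) (hP2 x)).trans ?_)
      rw [av1_add, av1_const_mul, av1_const_mul]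
      exact add_le_add (mul_le_mul_of_nonneg_left (av1_rho_le h P) (by positivity))
        (mul_le_mul_of_nonneg_left (av1_bI_rho_le h P) (by positivity))
    linarith
  have h2 : ‖avc (fun x => (gI m (rr b y0) (P x) : ℂ) * ((P x).1 - (P x).2))‖ ^ 2 ≤
      3 * ((3 / 2 * ‖DD m P‖) ^ 2 + (1600 * rr b y0 * S) ^ 2 + (5 / y0 * T) ^ 2) := by
    refine (pow_le_pow_left₀ (norm_nonneg _) h1 2).trans ?_
    nlinarith [sq_nonneg (3 / 2 * ‖DD m P‖ - 1600 * rr b y0 * S),
      sq_nonneg (3 / 2 * ‖DD m P‖ - 5 / y0 * T), sq_nonneg (1600 * rr b y0 * S - 5 / y0 * T)]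
  have hCA : CA b m * b ^ 2 ≤ 1 / (3 * y0 ^ 2) := by
    unfold CA
    rw [div_mul_eq_mul_div, div_le_div_iff₀ (by positivity) (by positivity)]
    have h3 : y0 ^ 2 ≤ m.im ^ 2 := pow_le_pow_left₀ hyp.le h.him 2
    nlinarith [sq_nonneg (b : ℝ), mul_nonneg (sq_nonneg (b : ℝ)) (sub_nonneg.2 h3)]
  have hCA0 : 0 ≤ CA b m * b ^ 2 := by unfold CA; positivity
  have h5 : (1600 * rr b y0) ^ 2 ≤ 1 / 1000 * y0 ^ 2 := by
    have h6 : 1600 * rr b y0 ≤ 1 / 100 * y0 := by
      have h7 := h.rr_le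
      have h8 : y0 ^ 6 ≤ y0 := by
        calc y0 ^ 6 ≤ y0 ^ 1 := pow_le_pow_of_le_one hyp.le hy1.le (by norm_num)
          _ = y0 := pow_one _
      linarith
    have h9 : (1600 * rr b y0) ^ 2 ≤ (1 / 100 * y0) ^ 2 := pow_le_pow_left₀ (by positivity) h6 2
    nlinarith [sq_nonneg y0]
  calc CA b m * (b ^ 2 * ‖avc (fun x => (gI m (rr b y0) (P x) : ℂ) * ((P x).1 - (P x).2))‖ ^ 2)
      = (CA b m * b ^ 2) *
        ‖avc (fun x => (gI m (rr b y0) (P x) : ℂ) * ((P x).1 - (P x).2))‖ ^ 2 := by ring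
    _ ≤ (1 / (3 * y0 ^ 2)) *
        (3 * ((3 / 2 * ‖DD m P‖) ^ 2 + (1600 * rr b y0 * S) ^ 2 + (5 / y0 * T) ^ 2)) :=
        mul_le_mul hCA h2 (by positivity) (by positivity)
    _ = (9 / 4) / y0 ^ 2 * ‖DD m P‖ ^ 2 + (1600 * rr b y0) ^ 2 / y0 ^ 2 * S ^ 2 +
        25 / y0 ^ 4 * T ^ 2 := by
        field_simp
        ring
    _ ≤ _ := by
        rw [hS2, hT2]
        unfold C1
        have h6 : (1600 * rr b y0) ^ 2 / y0 ^ 2 ≤ 1 / 1000 := by
          rw [div_le_iff₀ (by positivity)]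
          exact h5
        have h7 := mul_le_mul_of_nonneg_right h6 hV
        have h8 : (9 / 4) / y0 ^ 2 * ‖DD m P‖ ^ 2 ≤ 3 / y0 ^ 2 * ‖DD m P‖ ^ 2 := by
          apply mul_le_mul_of_nonneg_right _ (by positivity)
          exact div_le_div_of_nonneg_right (by norm_num) (by positivity)
        linarith

lemma av_bI_rho_sq (P : Ω → ℂ × ℂ) {i j : Fin b} (hij : i ≠ j) :
    av (fun e : Fin b → Ω => bI m (rr b y0) (P (e i)) * rho (P (e j)).1 (P (e j)).2 ^ 2) =
      pp b y0 m P * av1 (fun x => rho (P x).1 (P x).2 ^ 2) :=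
  av_coord_mul hij (fun x => bI m (rr b y0) (P x)) (fun x => rho (P x).1 (P x).2 ^ 2)

/-- **the averaged contraction of the cost** -/
theorem cost_avg (h : Adm b y0 z m) {t : ℝ} (ht : |t| ≤ rr b y0) {P : Ω → ℂ × ℂ}
    (hP1 : ∀ x, 0 < (P x).1.im) (hP2 : ∀ x, 0 < (P x).2.im) :
    av (fun e : Fin b → Ω =>
        cost (Mc b y0) m (cav z t fun j => (P (e j)).1, cav z t fun j => (P (e j)).2)) ≤
      (3 / 4 + 1 / 1000) * VV b y0 m P + C1 y0 * ‖DD m P‖ ^ 2 +
        C2 b y0 * (pp b y0 m P * VV b y0 m P) := by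
  have hV := VV_nonneg h P
  have hp := pp_nonneg b y0 m P
  have hM := h.Mc_pos
  have hyp := h.hy
  have hb2 := h.b2
  have hb0 : (0 : ℝ) < b := by linarith
  have him := h.im_pos
  have hC3 := h.C3_pos
  have hCA : 0 ≤ CA b m := by unfold CA; positivity
  have hCF : 0 ≤ CF b y0 := by unfold CF; positivity
  have hR := av1_rho_sq_le h P
  have hR0 : 0 ≤ av1 (fun x => rho (P x).1 (P x).2 ^ 2) := av1_nonneg fun _ => sq_nonneg _
  refine (av_mono fun e => h.cost_pointwise ht (p := fun j => P (e j)) (fun k => hP1 _)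
    (fun k => hP2 _)).trans ?_
  rw [av_add, av_add, av_add, av_const_mul, av_const_mul, av_const_mul, av_const_mul]
  -- first term
  have t1 : CA b m * av (fun e : Fin b → Ω =>
      ‖∑ k, (gI m (rr b y0) (P (e k)) : ℂ) * ((P (e k)).1 - (P (e k)).2)‖ ^ 2) ≤
      3 / 4 * av1 (fun x => gI m (rr b y0) (P x) * cost (Mc b y0) m (P x)) +
      (C1 y0 * ‖DD m P‖ ^ 2 + 1 / 1000 * VV b y0 m P +
        25 / y0 ^ 4 * (pp b y0 m P * VV b y0 m P)) := by
    have h1 := av_norm_sum_sq (ι := Fin b) (Ω := Ω)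
      (fun _ x => (gI m (rr b y0) (P x) : ℂ) * ((P x).1 - (P x).2))
    simp only [Finset.sum_const, Finset.card_univ, Fintype.card_fin, nsmul_eq_mul, norm_mul,
      Complex.norm_natCast, mul_pow] at h1
    have h2 := mul_le_mul_of_nonneg_left h1 hCA
    rw [mul_add] at h2
    have h3 : CA b m * (b * av1 (fun x => ‖(gI m (rr b y0) (P x) : ℂ)‖ ^ 2 *
        ‖(P x).1 - (P x).2‖ ^ 2)) ≤
        3 / 4 * av1 (fun x => gI m (rr b y0) (P x) * cost (Mc b y0) m (P x)) := by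
      rw [← av1_const_mul, ← av1_const_mul, ← av1_const_mul]
      refine av1_mono fun x => ?_
      have := xi_sq_le h (hP1 x) (hP2 x)
      rw [norm_mul, mul_pow] at this
      exact this
    have h4 := avc_xi_sq_le h hP1 hP2
    have h5 : CA b m * ((b : ℝ) ^ 2 *
        ‖avc (fun x => (gI m (rr b y0) (P x) : ℂ) * ((P x).1 - (P x).2))‖ ^ 2) =
        CA b m * ((b : ℝ) ^ 2 *
        ‖avc (fun x => (gI m (rr b y0) (P x) : ℂ) * ((P x).1 - (P x).2))‖ ^ 2) := rfl
    linarith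
  -- second term
  have t2 : 3 / 4 * (b : ℝ)⁻¹ * av (fun e : Fin b → Ω =>
      ∑ j, bI m (rr b y0) (P (e j)) * cost (Mc b y0) m (P (e j))) =
      3 / 4 * av1 (fun x => bI m (rr b y0) (P x) * cost (Mc b y0) m (P x)) := by
    rw [av_sum]
    have h1 : ∀ j ∈ (Finset.univ : Finset (Fin b)), av (fun e : Fin b → Ω =>
        bI m (rr b y0) (P (e j)) * cost (Mc b y0) m (P (e j))) =
        av1 (fun x => bI m (rr b y0) (P x) * cost (Mc b y0) m (P x)) := fun j _ =>
      av_coord j fun x => bI m (rr b y0) (P x) * cost (Mc b y0) m (P x)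
    rw [Finset.sum_congr rfl h1, Finset.sum_const, Finset.card_univ, Fintype.card_fin,
      nsmul_eq_mul]
    field_simp
  have t12 : av1 (fun x => gI m (rr b y0) (P x) * cost (Mc b y0) m (P x)) +
      av1 (fun x => bI m (rr b y0) (P x) * cost (Mc b y0) m (P x)) = VV b y0 m P := by
    rw [← av1_add]
    unfold VV
    congr 1
    ext x
    unfold bI
    ring
  -- third term
  have hcard : (((Finset.univ : Finset (Fin b)).offDiag).card : ℝ) ≤ (b : ℝ) ^ 2 := by
    rw [Finset.offDiag_card, Finset.card_univ, Fintype.card_fin]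
    have : b * b - b ≤ b ^ 2 := by rw [pow_two]; exact Nat.sub_le _ _
    exact_mod_cast this
  have hpR : 0 ≤ pp b y0 m P * av1 (fun x => rho (P x).1 (P x).2 ^ 2) := mul_nonneg hp hR0
  have hpV : pp b y0 m P * av1 (fun x => rho (P x).1 (P x).2 ^ 2) ≤
      pp b y0 m P * VV b y0 m P := mul_le_mul_of_nonneg_left hR hp
  have t3 : CF b y0 * av (fun e : Fin b → Ω =>
      ∑ q ∈ (Finset.univ : Finset (Fin b)).offDiag,
        bI m (rr b y0) (P (e q.1)) * rho (P (e q.2)).1 (P (e q.2)).2 ^ 2) ≤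
      CF b y0 * b ^ 2 * (pp b y0 m P * VV b y0 m P) := by
    rw [av_sum]
    have h1 : ∀ q ∈ (Finset.univ : Finset (Fin b)).offDiag, av (fun e : Fin b → Ω =>
        bI m (rr b y0) (P (e q.1)) * rho (P (e q.2)).1 (P (e q.2)).2 ^ 2) =
        pp b y0 m P * av1 (fun x => rho (P x).1 (P x).2 ^ 2) := fun q hq =>
      av_bI_rho_sq P (Finset.mem_offDiag.1 hq).2.2
    rw [Finset.sum_congr rfl h1, Finset.sum_const, nsmul_eq_mul, mul_assoc]
    refine mul_le_mul_of_nonneg_left ?_ hCF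
    exact mul_le_mul hcard hpV hpR (by positivity)
  -- fourth term
  have t4 : C3 b y0 * av (fun e : Fin b → Ω =>
      ∑ q ∈ (Finset.univ : Finset (Fin b)).offDiag,
        bI m (rr b y0) (P (e q.1)) * bI m (rr b y0) (P (e q.2)) *
          ∑ l, rho (P (e l)).1 (P (e l)).2 ^ 2) ≤
      C3 b y0 * b ^ 3 * (pp b y0 m P * VV b y0 m P) := by
    rw [av_sum, mul_assoc]
    refine mul_le_mul_of_nonneg_left ?_ hC3.le
    have h1 : ∀ q ∈ (Finset.univ : Finset (Fin b)).offDiag, av (fun e : Fin b → Ω =>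
        bI m (rr b y0) (P (e q.1)) * bI m (rr b y0) (P (e q.2)) *
          ∑ l, rho (P (e l)).1 (P (e l)).2 ^ 2) ≤ b * (pp b y0 m P * VV b y0 m P) := by
      intro q hq
      have hne := (Finset.mem_offDiag.1 hq).2.2
      have h2 : (fun e : Fin b → Ω =>
        bI m (rr b y0) (P (e q.1)) * bI m (rr b y0) (P (e q.2)) *
          ∑ l, rho (P (e l)).1 (P (e l)).2 ^ 2) = fun e : Fin b → Ω =>
          ∑ l, bI m (rr b y0) (P (e q.1)) * bI m (rr b y0) (P (e q.2)) *
            rho (P (e l)).1 (P (e l)).2 ^ 2 := by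
        funext e
        rw [Finset.mul_sum]
      rw [h2, av_sum]
      have h3 : ∀ l ∈ (Finset.univ : Finset (Fin b)), av (fun e : Fin b → Ω =>
          bI m (rr b y0) (P (e q.1)) * bI m (rr b y0) (P (e q.2)) *
            rho (P (e l)).1 (P (e l)).2 ^ 2) ≤ pp b y0 m P * VV b y0 m P := by
        intro l _
        by_cases hl : q.1 = l
        · have hl2 : q.2 ≠ l := fun h' => hne (hl.trans h'.symm)
          refine le_trans (av_mono fun e => ?_) ((av_bI_rho_sq (m := m) (y0 := y0) P hl2).le.trans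
            hpV)
          have g1 := bI_nonneg (m := m) (rr b y0) (P (e q.1))
          have g2 := bI_le_one (m := m) (rr b y0) (P (e q.1))
          have g3 := bI_nonneg (m := m) (rr b y0) (P (e q.2))
          have g4 : 0 ≤ rho (P (e l)).1 (P (e l)).2 ^ 2 := sq_nonneg _
          have g5 : bI m (rr b y0) (P (e q.1)) * bI m (rr b y0) (P (e q.2)) ≤
              bI m (rr b y0) (P (e q.2)) := by nlinarith
          exact mul_le_mul_of_nonneg_right g5 g4
        · refine le_trans (av_mono fun e => ?_) ((av_bI_rho_sq (m := m) (y0 := y0) P hl).le.trans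
            hpV)
          have g1 := bI_nonneg (m := m) (rr b y0) (P (e q.2))
          have g2 := bI_le_one (m := m) (rr b y0) (P (e q.2))
          have g3 := bI_nonneg (m := m) (rr b y0) (P (e q.1))
          have g4 : 0 ≤ rho (P (e l)).1 (P (e l)).2 ^ 2 := sq_nonneg _
          have g5 : bI m (rr b y0) (P (e q.1)) * bI m (rr b y0) (P (e q.2)) ≤
              bI m (rr b y0) (P (e q.1)) := by nlinarith
          exact mul_le_mul_of_nonneg_right g5 g4
      refine (Finset.sum_le_sum h3).trans (le_of_eq ?_)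
      rw [Finset.sum_const, Finset.card_univ, Fintype.card_fin, nsmul_eq_mul]
    refine (Finset.sum_le_sum h1).trans ?_
    rw [Finset.sum_const, nsmul_eq_mul]
    have h5 : 0 ≤ b * (pp b y0 m P * VV b y0 m P) := by positivity
    refine (mul_le_mul_of_nonneg_right hcard h5).trans (le_of_eq ?_)
    ring
  have t5 : C2 b y0 * (pp b y0 m P * VV b y0 m P) =
      25 / y0 ^ 4 * (pp b y0 m P * VV b y0 m P) +
      CF b y0 * b ^ 2 * (pp b y0 m P * VV b y0 m P) +
      C3 b y0 * b ^ 3 * (pp b y0 m P * VV b y0 m P) := by unfold C2; ring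
  rw [t5, t2]
  linarith

/-- **the averaged mean** -/
theorem mean_avg (h : Adm b y0 z m) {t : ℝ} (ht : |t| ≤ rr b y0) {P : Ω → ℂ × ℂ}
    (hP1 : ∀ x, 0 < (P x).1.im) (hP2 : ∀ x, 0 < (P x).2.im) :
    ‖avC (fun e : Fin b → Ω =>
        uu m (cav z t fun j => (P (e j)).1) - uu m (cav z t fun j => (P (e j)).2)) -
      b * m ^ 2 * DD m P‖ ≤
      4000 * b ^ 2 * rr b y0 * Real.sqrt (VV b y0 m P) +
        6 / y0 * b ^ 2 * Real.sqrt (pp b y0 m P * VV b y0 m P) := by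
  have hV := VV_nonneg h P
  have hp := pp_nonneg b y0 m P
  have hp1 := pp_le_one b y0 m P
  have hyp := h.hy
  have hb2 := h.b2
  have hb0 : (0 : ℝ) < b := by linarith
  have hr0 := h.rr_pos
  have e1 : (b : ℂ) * m ^ 2 * DD m P = avC (fun e : Fin b → Ω =>
      m ^ 2 * ∑ k, (uu m (P (e k)).1 - uu m (P (e k)).2)) := by
    rw [avC_const_mul, avC_sum]
    have h1 : ∀ k ∈ (Finset.univ : Finset (Fin b)), avC (fun e : Fin b → Ω =>
        uu m (P (e k)).1 - uu m (P (e k)).2) = DD m P := fun k _ =>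
      avC_coord k fun x => uu m (P x).1 - uu m (P x).2
    rw [Finset.sum_congr rfl h1, Finset.sum_const, Finset.card_univ, Fintype.card_fin,
      nsmul_eq_mul]
    ring
  rw [e1, avC_sub]
  refine (norm_avC_le _).trans ?_
  refine (av_mono fun e => h.mean_pointwise ht (p := fun j => P (e j)) (fun k => hP1 _)
    (fun k => hP2 _)).trans ?_
  rw [av_add, av_const_mul, av_const_mul, av_sum, av_sum]
  set S := Real.sqrt (VV b y0 m P) with hS
  set T := Real.sqrt (pp b y0 m P * VV b y0 m P) with hT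
  have hS0 : 0 ≤ S := Real.sqrt_nonneg _
  have hT0 : 0 ≤ T := Real.sqrt_nonneg _
  have h1 : ∀ k ∈ (Finset.univ : Finset (Fin b)), av (fun e : Fin b → Ω =>
      rho (P (e k)).1 (P (e k)).2) ≤ S := fun k _ =>
    (av_coord k (fun x => rho (P x).1 (P x).2)).le.trans (av1_rho_le h P)
  have h2 := Finset.sum_le_sum h1
  rw [Finset.sum_const, Finset.card_univ, Fintype.card_fin, nsmul_eq_mul] at h2
  have h3 : ∀ j ∈ (Finset.univ : Finset (Fin b)), av (fun e : Fin b → Ω =>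
      ∑ k, bI m (rr b y0) (P (e j)) * rho (P (e k)).1 (P (e k)).2) ≤ b * T := by
    intro j _
    rw [av_sum]
    have h4 : ∀ k ∈ (Finset.univ : Finset (Fin b)), av (fun e : Fin b → Ω =>
        bI m (rr b y0) (P (e j)) * rho (P (e k)).1 (P (e k)).2) ≤ T := by
      intro k _
      by_cases hjk : j = k
      · subst hjk
        exact (av_coord j (fun x => bI m (rr b y0) (P x) * rho (P x).1 (P x).2)).le.trans
          (av1_bI_rho_le h P)
      · rw [av_coord_mul hjk (fun x => bI m (rr b y0) (P x)) (fun x => rho (P x).1 (P x).2)]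
        apply Real.le_sqrt_of_sq_le
        rw [mul_pow]
        have g1 : av1 (fun x => rho (P x).1 (P x).2) ^ 2 ≤ VV b y0 m P :=
          (av1_sq_le _).trans (av1_rho_sq_le h P)
        have g2 : (av1 fun x => bI m (rr b y0) (P x)) ^ 2 ≤ pp b y0 m P := by
          change pp b y0 m P ^ 2 ≤ pp b y0 m P
          nlinarith
        exact mul_le_mul g2 g1 (sq_nonneg _) hp
    refine (Finset.sum_le_sum h4).trans (le_of_eq ?_)
    rw [Finset.sum_const, Finset.card_univ, Fintype.card_fin, nsmul_eq_mul]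
  have h5 := Finset.sum_le_sum h3
  rw [Finset.sum_const, Finset.card_univ, Fintype.card_fin, nsmul_eq_mul] at h5
  have h6 := mul_le_mul_of_nonneg_left h2 (show 0 ≤ 4000 * b * rr b y0 by positivity)
  have h7 := mul_le_mul_of_nonneg_left h5 (show 0 ≤ 6 / y0 by positivity)
  calc _ ≤ 4000 * b * rr b y0 * (b * S) + 6 / y0 * (b * (b * T)) := add_le_add h6 h7
    _ = _ := by ring

/-- squared form -/
theorem mean_avg_sq (h : Adm b y0 z m) {t : ℝ} (ht : |t| ≤ rr b y0) {P : Ω → ℂ × ℂ}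
    (hP1 : ∀ x, 0 < (P x).1.im) (hP2 : ∀ x, 0 < (P x).2.im) :
    ‖avC (fun e : Fin b → Ω =>
        uu m (cav z t fun j => (P (e j)).1) - uu m (cav z t fun j => (P (e j)).2)) -
      b * m ^ 2 * DD m P‖ ^ 2 ≤
      1 / 10 ^ 6 * y0 ^ 4 * VV b y0 m P +
        72 * b ^ 4 / y0 ^ 2 * (pp b y0 m P * VV b y0 m P) := by
  have hV := VV_nonneg h P
  have hp := pp_nonneg b y0 m P
  have hyp := h.hy
  have hy1 := h.y0_lt_one
  have hb2 := h.b2
  have hb0 : (0 : ℝ) < b := by linarith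
  have hr0 := h.rr_pos
  have h1 := mean_avg h ht hP1 hP2
  have hS2 : Real.sqrt (VV b y0 m P) ^ 2 = VV b y0 m P := Real.sq_sqrt hV
  have hT2 : Real.sqrt (pp b y0 m P * VV b y0 m P) ^ 2 = pp b y0 m P * VV b y0 m P :=
    Real.sq_sqrt (mul_nonneg hp hV)
  set S := Real.sqrt (VV b y0 m P) with hS
  set T := Real.sqrt (pp b y0 m P * VV b y0 m P) with hT
  have hS0 : 0 ≤ S := Real.sqrt_nonneg _
  have hT0 : 0 ≤ T := Real.sqrt_nonneg _
  have h2 : (4000 * b ^ 2 * rr b y0 * S + 6 / y0 * b ^ 2 * T) ^ 2 ≤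
      2 * (4000 * b ^ 2 * rr b y0) ^ 2 * S ^ 2 + 2 * (6 / y0 * b ^ 2) ^ 2 * T ^ 2 := by
    nlinarith [sq_nonneg (4000 * b ^ 2 * rr b y0 * S - 6 / y0 * b ^ 2 * T)]
  refine (pow_le_pow_left₀ (norm_nonneg _) h1 2).trans (h2.trans ?_)
  rw [hS2, hT2]
  have h3 : 4000 * b ^ 2 * rr b y0 ≤ 1 / 2000 * y0 ^ 2 := by
    have h4 := h.b_rr_le
    have h5 : y0 ^ 6 ≤ y0 ^ 2 := pow_le_pow_of_le_one hyp.le hy1.le (by norm_num)
    nlinarith
  have h4 : (4000 * b ^ 2 * rr b y0) ^ 2 ≤ (1 / 2000 * y0 ^ 2) ^ 2 :=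
    pow_le_pow_left₀ (by positivity) h3 2
  have h5 : 2 * (4000 * b ^ 2 * rr b y0) ^ 2 * VV b y0 m P ≤ 1 / 10 ^ 6 * y0 ^ 4 * VV b y0 m P := by
    apply mul_le_mul_of_nonneg_right _ hV
    have e : (1 / 2000 * y0 ^ 2) ^ 2 = 1 / 4000000 * y0 ^ 4 := by ring
    rw [e] at h4
    have : 0 ≤ y0 ^ 4 := by positivity
    linarith
  have h6 : 2 * (6 / y0 * (b : ℝ) ^ 2) ^ 2 * (pp b y0 m P * VV b y0 m P) =
      72 * b ^ 4 / y0 ^ 2 * (pp b y0 m P * VV b y0 m P) := by
    field_simp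
    ring
  linarith

end con

end Crest.Agent.R166.AvgCon798
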