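import Crest.Agent.R166.Spec_B1_955
import Crest.Agent.R166.DosB_420
import Crest.Agent.R166.EnvB_536

/-!
# R166 / LogDet_424 (helper424)

Leaf B5: `SpecB1.Stmt_LogDet`: the normalised log-determinants (and all spectral averages of
continuous functions) converge uniformly along an extracted sequence.
-/

set_option autoImplicit false

open MeasureTheory Filter Topology
open scoped BoundedContinuousFunction

namespace Crest.Agent.R166.LogDet424

open Crest.ProbabilityR.RandomMatrix Crest.Agent.R166 Crest.Agent.R166.Words955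
  Crest.Agent.R166.Env536 Crest.Agent.R166.TreeLike942 Crest.Agent.R166.Seq980
  Crest.Agent.R166.SpecB1

variable {n d : ℕ} [NeZero d]

/-! ### nodes and words -/

/-- the word of a node (first letter = first step) -/
def word : Node d → TW d
  | (true, l) => ⟨(l.map Subtype.val).reverse, by
      intro a ha
      have h1 := List.mem_of_mem_tail ha
      rw [List.mem_reverse, List.mem_map] at h1
      obtain ⟨k, _, rfl⟩ := h1
      exact k.2⟩
  | (false, l) => ⟨0 :: (l.map Subtype.val).reverse, by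
      intro a ha
      rw [List.tail_cons, List.mem_reverse, List.mem_map] at ha
      obtain ⟨k, _, rfl⟩ := ha
      exact k.2⟩

theorem word_len_le (x : Node d) : (word x).len ≤ x.2.length + 1 := by
  obtain ⟨b, l⟩ := x
  cases b <;> simp [word, TW.len]

theorem walk_word {p : Equiv.Perm (HE n d)} (hp : ∀ h, p (p h) = h) (h : HE n d) (x : Node d) :
    walk p (word x).1 h = p (hf p h x.1 x.2) := by
  obtain ⟨b, l⟩ := x
  cases b
  · induction l with
    | nil =>
      simp [word, walk]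
    | cons k l ih =>
      have e : (word (false, k :: l)).1 = (word (false, l)).1 ++ [k.1] := by
        simp [word]
      rw [e, walk_append, ih]
      simp only [walk, hf_cons, child, rot]
  · induction l with
    | nil =>
      simp [word, walk, hp]
    | cons k l ih =>
      have e : (word (true, k :: l)).1 = (word (true, l)).1 ++ [k.1] := by
        simp [word]
      rw [e, walk_append, ih]
      simp only [walk, hf_cons, child, rot]

theorem conf_word {κ : ℕ} {p : Equiv.Perm (HE n d)} (hp : ∀ h, p (p h) = h) (ω : Fin n → ℝ)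
    (F : Fin κ → Fin n → ℝ) (h : HE n d) (x : Node d) :
    (conf p (Seq980.col ω F) h (word x)).2.1 = ω (nv p h x) := by
  show (Seq980.col ω F (walk p (word x).1 h)).2.1 = _
  rw [walk_word hp]
  rfl

/-! ### the local function -/

/-- clipping to `[-1,1]` -/
noncomputable def clip (t : ℝ) : ℝ := max (-1) (min 1 t)

theorem continuous_clip : Continuous clip := continuous_const.max (continuous_const.min continuous_id)

theorem abs_clip_le (t : ℝ) : |clip t| ≤ 1 := by
  unfold clip
  rw [abs_le]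
  exact ⟨le_max_left _ _, max_le (by norm_num) (min_le_left _ _)⟩

theorem clip_eq {t : ℝ} (ht : t ∈ Set.Icc (-1 : ℝ) 1) : clip t = t := by
  unfold clip
  rw [min_eq_right ht.2, max_eq_right ht.1]

/-- the root delta function -/
noncomputable def del : Node d → ℝ := Pi.single (true, []) 1

theorem card_Lt : ((Fintype.card (Lt d) : ℕ) : ℝ) + 1 = d := by
  have h1 : Fintype.card (Lt d) = d - 1 := by
    have := Fintype.card_subtype_compl (fun k : Fin d => k = 0)
    simp only [Fintype.card_fin, Fintype.card_subtype_eq] at this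
    exact this
  have h2 : 1 ≤ d := NeZero.one_le
  rw [h1]
  push_cast [Nat.cast_sub h2]
  ring

theorem abs_pow_Tl_le (s : ℝ) {Ω : Node d → ℝ} (hΩ : ∀ x, |Ω x| ≤ 1) {F : Node d → ℝ}
    (hF : ∀ x, |F x| ≤ 1) (k : ℕ) (x : Node d) :
    |((Tl s Ω) ^ k) F x| ≤ ((d : ℝ) + |s|) ^ k := by
  induction k generalizing x with
  | zero => simpa using hF x
  | succ k ih =>
    rw [pow_succ', Module.End.mul_apply, Tl_apply]
    set G := ((Tl s Ω) ^ k) F with hG
    set B : ℝ := ((d : ℝ) + |s|) ^ k with hB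
    have hB0 : 0 ≤ B := by positivity
    have h1 : |∑ j : Lt d, G (x.1, j :: x.2)| ≤ (Fintype.card (Lt d) : ℝ) * B := by
      refine (Finset.abs_sum_le_sum_abs _ _).trans ?_
      calc ∑ j : Lt d, |G (x.1, j :: x.2)| ≤ ∑ _j : Lt d, B := Finset.sum_le_sum fun j _ => ih _
        _ = _ := by rw [Finset.sum_const, Finset.card_univ, nsmul_eq_mul]
    have h2 : |s * Ω x * G x| ≤ |s| * B := by
      rw [abs_mul, abs_mul]
      calc |s| * |Ω x| * |G x| ≤ |s| * 1 * B :=
            mul_le_mul (mul_le_mul_of_nonneg_left (hΩ x) (abs_nonneg _)) (ih x) (abs_nonneg _)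
              (by positivity)
        _ = |s| * B := by ring
    have h3 := abs_add_le (G (par x) + ∑ j : Lt d, G (x.1, j :: x.2)) (s * Ω x * G x)
    have h4 := abs_add_le (G (par x)) (∑ j : Lt d, G (x.1, j :: x.2))
    have h5 := ih (par x)
    have h6 := card_Lt (d := d)
    calc |G (par x) + ∑ j : Lt d, G (x.1, j :: x.2) + s * Ω x * G x|
        ≤ B + (Fintype.card (Lt d) : ℝ) * B + |s| * B := by linarith
      _ = ((Fintype.card (Lt d) : ℝ) + 1 + |s|) * B := by ring
      _ = ((d : ℝ) + |s|) ^ (k + 1) := by rw [h6, pow_succ', hB]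

/-- the local function representing `(H^k)_{vv}` -/
noncomputable def phi (κ : ℕ) (s : ℝ) (k : ℕ) (ξ : Conf d (S1 d κ)) : ℝ :=
  ((Tl s fun x => clip (ξ (word x)).2.1) ^ k) del (true, [])

theorem abs_del_le (x : Node d) : |del x| ≤ 1 := by
  unfold del
  rw [Pi.single_apply]
  split_ifs <;> simp

theorem abs_phi_le (κ : ℕ) (s : ℝ) (k : ℕ) (ξ : Conf d (S1 d κ)) :
    |phi κ s k ξ| ≤ ((d : ℝ) + |s|) ^ k :=
  abs_pow_Tl_le s (fun _ => abs_clip_le _) abs_del_le k _

theorem continuous_phi (κ : ℕ) (s : ℝ) (k : ℕ) :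
    Continuous (phi κ s k : Conf d (S1 d κ) → ℝ) := by
  unfold phi
  have h1 : Continuous fun (ξ : Conf d (S1 d κ)) (x : Node d) => clip (ξ (word x)).2.1 :=
    continuous_pi fun x => continuous_clip.comp
      (continuous_fst.comp (continuous_snd.comp (continuous_apply (word x))))
  exact (continuous_pow s del k (true, [])).comp h1

/-- the bounded continuous version -/
noncomputable def phiB (κ : ℕ) (s : ℝ) (k : ℕ) : Conf d (S1 d κ) →ᵇ ℝ :=
  BoundedContinuousFunction.ofNormedAddCommGroup (phi κ s k) (continuous_phi κ s k)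
    (((d : ℝ) + |s|) ^ k) (fun ξ => by rw [Real.norm_eq_abs]; exact abs_phi_le κ s k ξ)

@[simp] theorem phiB_apply (κ : ℕ) (s : ℝ) (k : ℕ) (ξ : Conf d (S1 d κ)) :
    phiB κ s k ξ = phi κ s k ξ := rfl

/-! ### diagonal entries of the powers -/

section diag

variable {p : Equiv.Perm (HE n d)} {s : ℝ} {ω : Fin n → ℝ}

theorem pow_diag_eq (hp : IsPort p) (k : ℕ) (h : HE n d) :
    ((Hm (graphOf p) s ω) ^ k) h.1 h.1 =
      ((Tl s (ω ∘ nv p h)) ^ k) ((Pi.single h.1 (1 : ℝ)) ∘ nv p h) (true, []) := by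
  rw [← pow_nv hp s ω (Pi.single h.1 (1 : ℝ)) h k (true, []), nv_true hp,
    Matrix.mulVec_single_one]
  rfl

theorem abs_pow_diag_le (hp : IsPort p) (hω : ∀ v, |ω v| ≤ 1) (k : ℕ) (h : HE n d) :
    |((Hm (graphOf p) s ω) ^ k) h.1 h.1| ≤ ((d : ℝ) + |s|) ^ k := by
  rw [pow_diag_eq hp]
  refine abs_pow_Tl_le s (fun x => hω _) (fun x => ?_) k _
  rw [Function.comp_apply, Pi.single_apply]
  split_ifs <;> simp

theorem phi_conf {κ : ℕ} (hp : IsPort p) (hω : ∀ v, ω v ∈ Set.Icc (-1 : ℝ) 1)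
    (F : Fin κ → Fin n → ℝ) (k : ℕ) (h : HE n d) :
    phi κ s k (conf p (Seq980.col ω F) h) = ((Tl s (ω ∘ nv p h)) ^ k) del (true, []) := by
  unfold phi
  have e : (fun x : Node d => clip (conf p (Seq980.col ω F) h (word x)).2.1) = ω ∘ nv p h := by
    funext x
    rw [conf_word hp.inv, clip_eq (hω _)]
    rfl
  rw [e]

theorem phi_eq_diag {κ : ℕ} (hp : IsPort p) (hω : ∀ v, ω v ∈ Set.Icc (-1 : ℝ) 1)
    (F : Fin κ → Fin n → ℝ) (k : ℕ) (h : HE n d) (ht : TreeAt Prod.fst p (k + 1) h.1) :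
    phi κ s k (conf p (Seq980.col ω F) h) = ((Hm (graphOf p) s ω) ^ k) h.1 h.1 := by
  rw [phi_conf hp hω, pow_diag_eq hp]
  refine pow_local s k 0 (fun y hy => ?_) (fun y _ => rfl) _ (by simp)
  unfold del
  rw [Function.comp_apply, Pi.single_apply, Pi.single_apply]
  by_cases hy' : y = (true, [])
  · subst hy'
    rw [if_pos rfl, nv_true hp, if_pos rfl]
  · rw [if_neg hy', if_neg]
    intro h0
    apply hy'
    refine nv_inj hp ht (by omega) (by simp) ?_
    rw [h0, nv_true hp]

omit [NeZero d] in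
/-- number of the half-edges at non tree-like vertices -/
theorem sum_ite_tree (p : Equiv.Perm (HE n d)) (a : ℕ) (B : ℝ) [∀ v, Decidable (TreeAt Prod.fst p a v)] :
    ∑ h : HE n d, (if TreeAt Prod.fst p a h.1 then 0 else B) = d * (B * nonTree a p) := by
  classical
  rw [Fintype.sum_prod_type]
  have h0 : ∀ v : Fin n, ∑ _i : Fin d, (if TreeAt Prod.fst p a v then (0 : ℝ) else B) =
      (d : ℝ) * (if TreeAt Prod.fst p a v then 0 else B) := fun v => by
    rw [Finset.sum_const, Finset.card_univ, Fintype.card_fin, nsmul_eq_mul]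
  show ∑ v : Fin n, ∑ _i : Fin d, (if TreeAt Prod.fst p a v then (0 : ℝ) else B) = _
  rw [Finset.sum_congr rfl fun v _ => h0 v, ← Finset.mul_sum]
  congr 1
  have h1 : ∑ v : Fin n, (if TreeAt Prod.fst p a v then 0 else B) =
      ∑ v : Fin n, (if ¬ TreeAt Prod.fst p a v then B else 0) :=
    Finset.sum_congr rfl fun v _ => by split_ifs <;> simp_all
  rw [h1, ← Finset.sum_filter, Finset.sum_const, nsmul_eq_mul, mul_comm]
  congr 2
  unfold nonTree
  rw [Nat.card_eq_fintype_card, Fintype.card_subtype]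

theorem abs_trace_sub_le {κ : ℕ} (hn : 0 < n) (hp : IsPort p)
    (hω : ∀ v, ω v ∈ Set.Icc (-1 : ℝ) 1) (F : Fin κ → Fin n → ℝ) (k : ℕ) :
    |((Hm (graphOf p) s ω) ^ k).trace / n -
      ∫ ξ, phi κ s k ξ ∂(emp p (Seq980.col ω F))| ≤
      2 * ((d : ℝ) + |s|) ^ k * (nonTree (k + 1) p / n) := by
  classical
  have hd0 : (0 : ℝ) < d := by exact_mod_cast NeZero.pos d
  have hn0 : (0 : ℝ) < n := by exact_mod_cast hn
  set B : ℝ := ((d : ℝ) + |s|) ^ k with hB
  have hB0 : 0 ≤ B := by positivity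
  have h1 : ((Hm (graphOf p) s ω) ^ k).trace / n =
      ((n : ℝ) * d)⁻¹ * ∑ h : HE n d, ((Hm (graphOf p) s ω) ^ k) h.1 h.1 := by
    rw [Fintype.sum_prod_type]
    simp only [Finset.sum_const, Finset.card_univ, Fintype.card_fin, nsmul_eq_mul]
    rw [← Finset.mul_sum, Matrix.trace]
    simp only [Matrix.diag_apply]
    field_simp
  have h2 : ∫ ξ, phi κ s k ξ ∂(emp p (Seq980.col ω F)) =
      ((n : ℝ) * d)⁻¹ * ∑ h : HE n d, phi κ s k (conf p (Seq980.col ω F) h) := by
    rw [integral_emp _ _ _ (continuous_phi κ s k).stronglyMeasurable, smul_eq_mul]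
    congr 2
    simp
  rw [h1, h2, ← mul_sub, ← Finset.sum_sub_distrib, abs_mul,
    abs_of_pos (by positivity : (0:ℝ) < ((n : ℝ) * d)⁻¹)]
  have h3 : |∑ h : HE n d, (((Hm (graphOf p) s ω) ^ k) h.1 h.1 -
      phi κ s k (conf p (Seq980.col ω F) h))| ≤ d * (2 * B * nonTree (k + 1) p) := by
    rw [← sum_ite_tree p (k + 1) (2 * B)]
    refine (Finset.abs_sum_le_sum_abs _ _).trans (Finset.sum_le_sum fun h _ => ?_)
    by_cases ht : TreeAt Prod.fst p (k + 1) h.1
    · rw [if_pos ht, phi_eq_diag hp hω F k h ht, sub_self, abs_zero]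
    · rw [if_neg ht]
      have h4 := abs_pow_diag_le (s := s) hp (fun v => abs_le.2 (hω v)) k h
      have h5 := abs_phi_le κ s k (conf p (Seq980.col ω F) h)
      have h6 := abs_sub (((Hm (graphOf p) s ω) ^ k) h.1 h.1)
        (phi κ s k (conf p (Seq980.col ω F) h))
      linarith
  calc ((n : ℝ) * d)⁻¹ * |∑ h : HE n d, (((Hm (graphOf p) s ω) ^ k) h.1 h.1 -
        phi κ s k (conf p (Seq980.col ω F) h))|
      ≤ ((n : ℝ) * d)⁻¹ * (d * (2 * B * nonTree (k + 1) p)) :=
        mul_le_mul_of_nonneg_left h3 (by positivity)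
    _ = 2 * B * (nonTree (k + 1) p / n) := by field_simp

end diag

/-! ### spectral bound -/

omit [NeZero d] in
theorem sum_abs_Hm_le' {G : SimpleGraph (Fin n)} (hG : G ∈ regularGraphs n d) (s : ℝ)
    {ω : Fin n → ℝ} (hω : ∀ i, |ω i| ≤ 1) (x : Fin n) :
    ∑ y, |Hm G s ω x y| ≤ (d : ℝ) + |s| := by
  classical
  unfold regularGraphs at hG
  rw [Finset.mem_filter] at hG
  have hdeg := hG.2 x
  calc ∑ y, |Hm G s ω x y| ≤
      ∑ y, ((if G.Adj x y then (1:ℝ) else 0) + if x = y then |s| else 0) := by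
        refine Finset.sum_le_sum fun y _ => ?_
        unfold Hm
        rw [Matrix.add_apply]
        refine (abs_add_le _ _).trans (add_le_add ?_ ?_)
        · rw [SimpleGraph.adjMatrix_apply]
          split_ifs <;> simp
        · rw [Matrix.smul_apply, Matrix.diagonal_apply]
          split_ifs with h
          · rw [smul_eq_mul, abs_mul]
            calc |s| * |ω x| ≤ |s| * 1 := mul_le_mul_of_nonneg_left (hω x) (abs_nonneg _)
              _ = |s| := mul_one _
          · simp
    _ = (d : ℝ) + |s| := by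
        rw [Finset.sum_add_distrib, Finset.sum_ite_eq, if_pos (Finset.mem_univ _)]
        congr 1
        rw [← Finset.sum_filter, Finset.sum_const, nsmul_eq_mul, mul_one]
        norm_cast

/-! ### convergence along the sequence -/

section seq

variable {κ : ℕ} (S : Seq d κ) {s E K' : ℝ}

/-- limit of the normalised trace of `H^k` -/
theorem trace_lim (hS : Extra S s E K') (k : ℕ) {ε : ℝ} (hε : 0 < ε) :
    ∀ᶠ j in atTop, ∀ x ∈ S.U j, |((Hm (graphOf x.1) s x.2) ^ k).trace / S.n j -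
      ∫ ξ, phi κ s k ξ ∂S.P| ≤ ε := by
  set B : ℝ := ((d : ℝ) + |s|) ^ k with hB
  have hB0 : 0 ≤ B := by positivity
  have h1 := hS.tree (k + 1) (ε / (4 * (B + 1))) (by positivity)
  have h2 := S.lim (phiB κ s k) (ε / 2) (by positivity)
  filter_upwards [h1, h2] with j a1 a2 x hx
  have b1 := a1 x hx
  have b2 := a2 x hx
  have hn0 : (0 : ℝ) < S.n j := by exact_mod_cast S.pos j
  have b3 := abs_trace_sub_le (s := s) (S.pos j) (S.port j x hx) (S.om j x hx) (S.F j x) k
  have b4 : 2 * B * (nonTree (k + 1) x.1 / S.n j) ≤ ε / 2 := by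
    have h5 : (nonTree (k + 1) x.1 : ℝ) / S.n j ≤ ε / (4 * (B + 1)) := by
      rw [div_le_iff₀ hn0]; exact b1
    calc 2 * B * (nonTree (k + 1) x.1 / S.n j) ≤ 2 * B * (ε / (4 * (B + 1))) :=
          mul_le_mul_of_nonneg_left h5 (by positivity)
      _ ≤ ε / 2 := by
          rw [mul_div_assoc', div_le_iff₀ (by positivity)]
          nlinarith
  have b5 : |∫ ξ, phi κ s k ξ ∂(emp x.1 (Seq980.col x.2 (S.F j x))) - ∫ ξ, phi κ s k ξ ∂S.P| ≤
      ε / 2 := b2
  have b6 := abs_sub_le (((Hm (graphOf x.1) s x.2) ^ k).trace / S.n j)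
    (∫ ξ, phi κ s k ξ ∂(emp x.1 (Seq980.col x.2 (S.F j x)))) (∫ ξ, phi κ s k ξ ∂S.P)
  linarith

/-- polynomial traces -/
theorem poly_lim (hS : Extra S s E K') (P : Polynomial ℝ) {ε : ℝ} (hε : 0 < ε) :
    ∀ᶠ j in atTop, ∀ x ∈ S.U j, |(Polynomial.aeval (Hm (graphOf x.1) s x.2) P).trace / S.n j -
      ∑ k ∈ P.support, P.coeff k * ∫ ξ, phi κ s k ξ ∂S.P| ≤ ε := by
  classical
  set A : ℝ := ∑ k ∈ P.support, |P.coeff k| with hA
  have hA0 : 0 ≤ A := Finset.sum_nonneg fun k _ => abs_nonneg _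
  have h1 : ∀ k ∈ P.support, ∀ᶠ j in atTop, ∀ x ∈ S.U j,
      |((Hm (graphOf x.1) s x.2) ^ k).trace / S.n j - ∫ ξ, phi κ s k ξ ∂S.P| ≤ ε / (A + 1) :=
    fun k _ => trace_lim S hS k (by positivity)
  rw [← Filter.eventually_all_finset] at h1
  filter_upwards [h1] with j hj x hx
  have e1 : (Polynomial.aeval (Hm (graphOf x.1) s x.2) P).trace / S.n j =
      ∑ k ∈ P.support, P.coeff k * (((Hm (graphOf x.1) s x.2) ^ k).trace / S.n j) := by
    rw [Polynomial.aeval_eq_sum_range' (Nat.lt_succ_self _), Matrix.trace_sum, Finset.sum_div]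
    symm
    refine Finset.sum_subset_zero_on_sdiff ?_ ?_ ?_
    · intro k hk
      rw [Finset.mem_range, Nat.lt_succ_iff]
      exact Polynomial.le_natDegree_of_mem_supp k hk
    · intro k hk
      rw [Finset.mem_sdiff, Polynomial.notMem_support_iff] at hk
      rw [hk.2, zero_smul, Matrix.trace_zero, zero_div]
    · intro k _
      rw [Matrix.trace_smul, smul_eq_mul, mul_div_assoc]
  rw [e1, ← Finset.sum_sub_distrib]
  calc |∑ k ∈ P.support, (P.coeff k * (((Hm (graphOf x.1) s x.2) ^ k).trace / S.n j) -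
          P.coeff k * ∫ ξ, phi κ s k ξ ∂S.P)|
      ≤ ∑ k ∈ P.support, |P.coeff k| * (ε / (A + 1)) := by
        refine (Finset.abs_sum_le_sum_abs _ _).trans (Finset.sum_le_sum fun k hk' => ?_)
        rw [← mul_sub, abs_mul]
        exact mul_le_mul_of_nonneg_left (hj k hk' x hx) (abs_nonneg _)
    _ = A * (ε / (A + 1)) := by rw [← Finset.sum_mul]
    _ ≤ ε := by
        rw [mul_div_assoc', div_le_iff₀ (by positivity)]
        nlinarith

/-- spectral average of a function at a state -/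
noncomputable def specAvg (s : ℝ) {m : ℕ} (f : ℝ → ℝ) (x : PS d m) : ℝ :=
  (∑ i, f ((Hm_isHermitian (graphOf x.1) s x.2).eigenvalues i)) / m

/-- approximate limits of the spectral averages of a continuous function -/
theorem spec_approx (hS : Extra S s E K') {f : ℝ → ℝ} (hf : Continuous f) {ε : ℝ} (hε : 0 < ε) :
    ∃ l : ℝ, ∀ᶠ j in atTop, ∀ x ∈ S.U j, |specAvg s f x - l| ≤ ε := by
  obtain ⟨P, hP⟩ := Noise547.exists_poly hf ((d : ℝ) + |s|) (show 0 < ε / 2 by positivity)
  refine ⟨∑ k ∈ P.support, P.coeff k * ∫ ξ, phi κ s k ξ ∂S.P, ?_⟩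
  filter_upwards [poly_lim S hS P (show 0 < ε / 2 by positivity)] with j hj x hx
  have hn1 : 0 < S.n j := S.pos j
  have : Nonempty (Fin (S.n j)) := ⟨⟨0, hn1⟩⟩
  have h1 := hj x hx
  have h2 := Noise547.logdet_poly (Hm_isHermitian (graphOf x.1) s x.2) (f := f) P (ε := ε / 2)
    (fun i => hP _ (Noise547.eig_abs_le _
      (sum_abs_Hm_le' (S.port j x hx).graphOf_mem s fun v => abs_le.2 (S.om j x hx v)) i))
  rw [Fintype.card_fin] at h2
  have h3 := abs_sub_le (specAvg s f x)
    ((Polynomial.aeval (Hm (graphOf x.1) s x.2) P).trace / S.n j)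
    (∑ k ∈ P.support, P.coeff k * ∫ ξ, phi κ s k ξ ∂S.P)
  have h4 : |specAvg s f x - (Polynomial.aeval (Hm (graphOf x.1) s x.2) P).trace / S.n j| ≤
      ε / 2 := h2
  linarith

/-- **convergence of all spectral averages of continuous functions along the sequence** -/
theorem spec_lim (hS : Extra S s E K') {f : ℝ → ℝ} (hf : Continuous f) :
    ∃ l : ℝ, ∀ ε : ℝ, 0 < ε → ∀ᶠ j in atTop, ∀ x ∈ S.U j, |specAvg s f x - l| ≤ ε := by
  choose L hL using fun m : ℕ => spec_approx S hS hf (show 0 < 1 / ((m : ℝ) + 1) by positivity)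
  have hdist : ∀ m m' : ℕ, |L m - L m'| ≤ 1 / ((m : ℝ) + 1) + 1 / ((m' : ℝ) + 1) := by
    intro m m'
    obtain ⟨j, h1, h2⟩ := ((hL m).and (hL m')).exists
    obtain ⟨x, hx⟩ := S.nonempty j
    have a1 := h1 x hx
    have a2 := h2 x hx
    have a3 := abs_sub_le (L m) (specAvg s f x) (L m')
    rw [abs_sub_comm] at a1
    linarith
  have hc : CauchySeq L := by
    refine Metric.cauchySeq_iff'.2 fun ε hε => ?_
    obtain ⟨N, hN⟩ := exists_nat_one_div_lt (show 0 < ε / 2 by positivity)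
    refine ⟨N, fun m hm => ?_⟩
    rw [Real.dist_eq]
    have h1 := hdist m N
    have h2 : 1 / ((m : ℝ) + 1) ≤ 1 / ((N : ℝ) + 1) := by
      apply one_div_le_one_div_of_le (by positivity)
      have : (N : ℝ) ≤ m := by exact_mod_cast hm
      linarith
    linarith
  obtain ⟨l, hl⟩ := cauchySeq_tendsto_of_complete hc
  refine ⟨l, fun ε hε => ?_⟩
  obtain ⟨N, hN⟩ := exists_nat_one_div_lt (show 0 < ε / 4 by positivity)
  have h1 : |L N - l| ≤ 2 / ((N : ℝ) + 1) := by
    have h2 : Tendsto (fun m => |L N - L m|) atTop (𝓝 |L N - l|) :=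
      (tendsto_const_nhds.sub hl).abs
    refine le_of_tendsto h2 ?_
    filter_upwards [eventually_ge_atTop N] with m hm
    have h3 := hdist N m
    have h4 : 1 / ((m : ℝ) + 1) ≤ 1 / ((N : ℝ) + 1) := by
      apply one_div_le_one_div_of_le (by positivity)
      have : (N : ℝ) ≤ m := by exact_mod_cast hm
      linarith
    calc |L N - L m| ≤ 1 / ((N : ℝ) + 1) + 1 / ((N : ℝ) + 1) := by linarith
      _ = 2 / ((N : ℝ) + 1) := by ring
  filter_upwards [hL N] with j hj x hx
  have a1 := hj x hx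
  have a2 := abs_sub_le (specAvg s f x) (L N) l
  have a3 : 2 / ((N : ℝ) + 1) = 2 * (1 / ((N : ℝ) + 1)) := by ring
  rw [a3] at h1
  linarith

end seq

/-- **B5** -/
theorem stmt_LogDet : Stmt_LogDet := by
  intro d k _ S s E K' η c hη hc hS
  have hcont : Continuous fun t : ℝ => Real.log (Noise547.geta E η c t) :=
    (Noise547.continuous_geta hη).log fun t => (Noise547.geta_pos hη hc t).ne'
  obtain ⟨l, hl⟩ := spec_lim S hS hcont
  exact ⟨l, hl⟩

end Crest.Agent.R166.LogDet424
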