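import Mathlib
import Crest.Agent.R166.NoiseVol_547
import Crest.Agent.R166.NoiseLLN_849
import Crest.Agent.R166.Gauss_286

/-!
Row 166, 40.6 (T), part (a) (helper547): for ONE fixed sample, the number of cells of the noisy
field hit by a noise event of probability `≥ 1/2`, including the two infinite cells.

* `cell_vol_le` : volume of `{y : cell y = s, ∑ y² ≤ R}`.
* `hit_le` : `gm G ≤ exp(...) * #S + tails`.
* `noisy_moment` : Markov bound for `∑ (F + √t Z)²`.
* `log_card_ge` : the final lower bound.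
-/

set_option autoImplicit false
set_option maxHeartbeats 400000

namespace Crest.Agent.R166.TypA547

open Matrix MeasureTheory ProbabilityTheory
open Crest.Agent.R166.Noise547
open scoped ENNReal

/-- dominating function of one cell -/
noncomputable def gcell (a D L y : ℝ) : ℝ :=
  (Set.Icc a (a + D)).indicator (fun _ => (1 : ℝ)) y + (Set.Iic (-L)).indicator Real.exp y +
    (Set.Ioi L).indicator (fun y => Real.exp (-y)) y + ({L} : Set ℝ).indicator (fun _ => 1) y

lemma gcell_nonneg (a D L y : ℝ) : 0 ≤ gcell a D L y := by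
  unfold gcell
  have h1 := Set.indicator_nonneg (s := Set.Icc a (a + D)) (f := fun _ => (1 : ℝ))
    (fun x _ => zero_le_one) y
  have h2 := Set.indicator_nonneg (s := Set.Iic (-L)) (f := Real.exp)
    (fun x _ => (Real.exp_pos x).le) y
  have h3 := Set.indicator_nonneg (s := Set.Ioi L) (f := fun y => Real.exp (-y))
    (fun x _ => (Real.exp_pos _).le) y
  have h4 := Set.indicator_nonneg (s := ({L} : Set ℝ)) (f := fun _ => (1 : ℝ))
    (fun x _ => zero_le_one) y
  linarith

lemma integrable_gcell (a D L : ℝ) : Integrable (gcell a D L) := by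
  unfold gcell
  refine ((Integrable.add ?_ ?_).add ?_).add ?_
  · rw [integrable_indicator_iff measurableSet_Icc]
    exact integrableOn_const (by simp)
  · rw [integrable_indicator_iff measurableSet_Iic]
    exact integrableOn_exp_Iic _
  · rw [integrable_indicator_iff measurableSet_Ioi]
    exact integrableOn_exp_neg_Ioi _
  · rw [integrable_indicator_iff (measurableSet_singleton _)]
    exact integrableOn_const (by simp)

lemma integral_gcell (a L : ℝ) {D : ℝ} (hD : 0 ≤ D) :
    ∫ y, gcell a D L y = D + 2 * Real.exp (-L) := by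
  unfold gcell
  have i1 : Integrable ((Set.Icc a (a + D)).indicator (fun _ => (1 : ℝ))) := by
    rw [integrable_indicator_iff measurableSet_Icc]
    exact integrableOn_const (by simp)
  have i2 : Integrable ((Set.Iic (-L)).indicator Real.exp) := by
    rw [integrable_indicator_iff measurableSet_Iic]
    exact integrableOn_exp_Iic _
  have i3 : Integrable ((Set.Ioi L).indicator (fun y => Real.exp (-y))) := by
    rw [integrable_indicator_iff measurableSet_Ioi]
    exact integrableOn_exp_neg_Ioi _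
  have i4 : Integrable (({L} : Set ℝ).indicator (fun _ => (1 : ℝ))) := by
    rw [integrable_indicator_iff (measurableSet_singleton _)]
    exact integrableOn_const (by simp)
  have e : ∀ (p q r s : ℝ → ℝ), Integrable p → Integrable q → Integrable r → Integrable s →
      ∫ y, (p y + q y + r y + s y) = (∫ y, p y) + (∫ y, q y) + (∫ y, r y) + ∫ y, s y := by
    intro p q r s hp hq hr hs
    rw [integral_add (f := fun y => p y + q y + r y) ((hp.add hq).add hr) hs,
      integral_add (f := fun y => p y + q y) (hp.add hq) hr, integral_add hp hq]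
  rw [e _ _ _ _ i1 i2 i3 i4, integral_indicator measurableSet_Icc, integral_indicator measurableSet_Iic,
    integral_indicator measurableSet_Ioi, integral_indicator (measurableSet_singleton _),
    integral_exp_Iic, integral_exp_neg_Ioi]
  simp [hD]
  ring

/-- the pointwise bound in one cell -/
lemma gcell_ge {a D L y : ℝ} (hL : 0 < L) (h : |y| < L → a ≤ y ∧ y ≤ a + D) :
    Real.exp (-(y ^ 2 / L)) ≤ gcell a D L y := by
  have h1 := Set.indicator_nonneg (s := Set.Icc a (a + D)) (f := fun _ => (1 : ℝ))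
    (fun x _ => zero_le_one) y
  have h2 := Set.indicator_nonneg (s := Set.Iic (-L)) (f := Real.exp)
    (fun x _ => (Real.exp_pos x).le) y
  have h3 := Set.indicator_nonneg (s := Set.Ioi L) (f := fun y => Real.exp (-y))
    (fun x _ => (Real.exp_pos _).le) y
  have h4 := Set.indicator_nonneg (s := ({L} : Set ℝ)) (f := fun _ => (1 : ℝ))
    (fun x _ => zero_le_one) y
  have hle1 : Real.exp (-(y ^ 2 / L)) ≤ 1 := by
    rw [← Real.exp_zero]
    apply Real.exp_le_exp.2
    have : 0 ≤ y ^ 2 / L := by positivity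
    linarith
  unfold gcell
  rcases lt_or_ge (|y|) L with hy | hy
  · have hm : y ∈ Set.Icc a (a + D) := h hy
    rw [Set.indicator_of_mem hm]
    linarith
  · rcases le_or_gt y 0 with hy0 | hy0
    · rw [abs_of_nonpos hy0] at hy
      have hm : y ∈ Set.Iic (-L) := by
        show y ≤ -L
        linarith
      rw [Set.indicator_of_mem hm]
      have : Real.exp (-(y ^ 2 / L)) ≤ Real.exp y := by
        apply Real.exp_le_exp.2
        have : -y ≤ y ^ 2 / L := by
          rw [le_div_iff₀ hL]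
          nlinarith
        linarith
      linarith
    · rw [abs_of_pos hy0] at hy
      rcases eq_or_lt_of_le hy with hyL | hyL
      · have hm : y ∈ ({L} : Set ℝ) := by
          show y = L
          exact hyL.symm
        rw [Set.indicator_of_mem hm]
        linarith
      · have hm : y ∈ Set.Ioi L := hyL
        rw [Set.indicator_of_mem hm]
        have : Real.exp (-(y ^ 2 / L)) ≤ Real.exp (-y) := by
          apply Real.exp_le_exp.2
          have : y ≤ y ^ 2 / L := by
            rw [le_div_iff₀ hL]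
            nlinarith
          linarith
        linarith

/-- volume of a (possibly infinite) cell with bounded second moment -/
lemma cell_vol_le {ι : Type*} [Fintype ι] (a : ι → ℝ) {D L : ℝ} (hL : 0 < L) (hD : 0 ≤ D)
    (R : ℝ) :
    volume {y : ι → ℝ | (∀ i, |y i| < L → a i ≤ y i ∧ y i ≤ a i + D) ∧ ∑ i, y i ^ 2 ≤ R} ≤
      ENNReal.ofReal (Real.exp (R / L) * (D + 2 * Real.exp (-L)) ^ Fintype.card ι) := by
  set A : Set (ι → ℝ) :=
    {y : ι → ℝ | (∀ i, |y i| < L → a i ≤ y i ∧ y i ≤ a i + D) ∧ ∑ i, y i ^ 2 ≤ R} with hA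
  have hnn : ∀ y : ι → ℝ, 0 ≤ Real.exp (R / L) * ∏ i, gcell (a i) D L (y i) := fun y =>
    mul_nonneg (Real.exp_pos _).le (Finset.prod_nonneg fun i _ => gcell_nonneg _ _ _ _)
  have hint : Integrable (fun y : ι → ℝ => Real.exp (R / L) * ∏ i, gcell (a i) D L (y i)) :=
    (Integrable.fintype_prod (f := fun i => gcell (a i) D L)
      (fun i => integrable_gcell _ _ _)).const_mul _
  have hmeas : Measurable fun y : ι → ℝ =>
      ENNReal.ofReal (Real.exp (R / L) * ∏ i, gcell (a i) D L (y i)) := by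
    have : ∀ b : ℝ, Measurable (gcell b D L) := by
      intro b
      unfold gcell
      refine ((Measurable.add ?_ ?_).add ?_).add ?_
      · exact measurable_const.indicator measurableSet_Icc
      · exact Real.measurable_exp.indicator measurableSet_Iic
      · exact (Real.measurable_exp.comp measurable_neg).indicator measurableSet_Ioi
      · exact measurable_const.indicator (measurableSet_singleton _)
    exact ENNReal.measurable_ofReal.comp ((Finset.measurable_prod _ fun i _ =>
      (this (a i)).comp (measurable_pi_apply i)).const_mul _)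
  have h1 : volume A ≤ ∫⁻ y : ι → ℝ,
      ENNReal.ofReal (Real.exp (R / L) * ∏ i, gcell (a i) D L (y i)) := by
    refine le_trans (measure_mono fun y hy => ?_)
      (le_trans (le_of_eq (one_mul _).symm) (mul_meas_ge_le_lintegral₀ hmeas.aemeasurable 1))
    show (1 : ℝ≥0∞) ≤ ENNReal.ofReal (Real.exp (R / L) * ∏ i, gcell (a i) D L (y i))
    rw [← ENNReal.ofReal_one]
    apply ENNReal.ofReal_le_ofReal
    have h2 : ∏ i, Real.exp (-(y i ^ 2 / L)) ≤ ∏ i, gcell (a i) D L (y i) :=
      Finset.prod_le_prod (fun i _ => (Real.exp_pos _).le) fun i _ => gcell_ge hL (hy.1 i)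
    rw [← Real.exp_sum] at h2
    have h3 : (1 : ℝ) ≤ Real.exp (R / L) * Real.exp (∑ i, -(y i ^ 2 / L)) := by
      rw [← Real.exp_add, ← Real.exp_zero]
      apply Real.exp_le_exp.2
      rw [Finset.sum_neg_distrib, ← Finset.sum_div]
      have := div_le_div_of_nonneg_right hy.2 hL.le
      linarith
    exact h3.trans (mul_le_mul_of_nonneg_left h2 (Real.exp_pos _).le)
  refine h1.trans (le_of_eq ?_)
  rw [← ofReal_integral_eq_lintegral_ofReal hint (Filter.Eventually.of_forall hnn)]
  congr 1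
  rw [integral_const_mul, integral_fintype_prod_volume_eq_prod (fun i => gcell (a i) D L)]
  congr 1
  simp only [integral_gcell _ _ hD]
  rw [Finset.prod_const, Finset.card_univ]

/-- curried form -/
lemma cell_vol_le' {V K : Type*} [Fintype V] [Fintype K] (a : V → K → ℝ) {D L : ℝ} (hL : 0 < L)
    (hD : 0 ≤ D) (R : ℝ) :
    volume {y : V → K → ℝ | (∀ v κ, |y v κ| < L → a v κ ≤ y v κ ∧ y v κ ≤ a v κ + D) ∧
        ∑ v, ∑ κ, y v κ ^ 2 ≤ R} ≤
      ENNReal.ofReal (Real.exp (R / L) *
        (D + 2 * Real.exp (-L)) ^ (Fintype.card V * Fintype.card K)) := by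
  have h := cell_vol_le (ι := V × K) (fun p => a p.1 p.2) hL hD R
  rw [Fintype.card_prod] at h
  refine le_trans ?_ h
  have hUm : Measurable (fun (y : V → K → ℝ) (p : V × K) => y p.1 p.2) :=
    measurable_pi_lambda _ fun p => (measurable_pi_apply p.2).comp (measurable_pi_apply p.1)
  rw [← uncurry_volume (V := V) (K := K)]
  refine le_trans (measure_mono ?_) (Measure.le_map_apply hUm.aemeasurable _)
  intro y hy
  refine ⟨fun p => hy.1 p.1 p.2, ?_⟩
  have := hy.2
  rw [← Finset.univ_product_univ, Finset.sum_product]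
  exact this

section main

variable {V : Type*} [Fintype V] [DecidableEq V] {H : Matrix V V ℝ}

/-- **number of cells hit**, one sample. `c` is any cell map, `lo` the left end points; nothing
is required of `c` outside `|y| < L`. -/
theorem hit_le (hH : H.IsHermitian) {g : ℝ → ℝ} (hg : ∀ i, 0 < g (hH.eigenvalues i))
    {t : ℝ} (ht : 0 < t) {k : ℕ} (F : V → Fin k → ℝ) {T : Type*} (c : ℝ → T) (lo : T → ℝ)
    {D L : ℝ} (hL : 0 < L) (hD : 0 < D) (hc : ∀ y, |y| < L → lo (c y) ≤ y ∧ y ≤ lo (c y) + D)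
    (G : Set (V → Fin k → ℝ)) (S : Finset (V → Fin k → T))
    (hS : ∀ ξ ∈ G, (fun v κ => c (noisy hH g t F ξ v κ)) ∈ S) (e R : ℝ) :
    (Measure.pi fun _ : V => Measure.pi fun _ : Fin k => gaussianReal 0 1) G ≤
      ENNReal.ofReal (S.card * Real.exp (-((Fintype.card V * k : ℝ) / 2 *
          Real.log (2 * Real.pi * Real.exp 1 * t) +
        (k : ℝ) / 2 * ∑ i, Real.log (g (hH.eigenvalues i))) + e +
        R / L + Fintype.card V * k * (Real.log D + 2 * Real.exp (-L) / D))) +
      (Measure.pi fun _ : V => Measure.pi fun _ : Fin k => gaussianReal 0 1)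
        {ξ | ∑ v, ∑ κ, ξ v κ ^ 2 ≤ (Fintype.card V * k : ℝ) - 2 * e} +
      (Measure.pi fun _ : V => Measure.pi fun _ : Fin k => gaussianReal 0 1)
        {ξ | R < ∑ v, ∑ κ, noisy hH g t F ξ v κ ^ 2} := by
  classical
  set μ := (Measure.pi fun _ : V => Measure.pi fun _ : Fin k => gaussianReal 0 1) with hμ
  set A0 : Set (V → Fin k → ℝ) := ⋃ s ∈ S, {y : V → Fin k → ℝ |
    (∀ v κ, |y v κ| < L → lo (s v κ) ≤ y v κ ∧ y v κ ≤ lo (s v κ) + D) ∧
        ∑ v, ∑ κ, y v κ ^ 2 ≤ R} with hA0
  set A := toMeasurable volume A0 with hA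
  have hsub : G ⊆ {ξ | noisy hH g t F ξ ∈ A} ∪
      {ξ | R < ∑ v, ∑ κ, noisy hH g t F ξ v κ ^ 2} := by
    intro ξ hξ
    rcases lt_or_ge R (∑ v, ∑ κ, noisy hH g t F ξ v κ ^ 2) with h | h
    · exact Or.inr h
    · left
      show noisy hH g t F ξ ∈ A
      apply subset_toMeasurable
      simp only [hA0, Set.mem_iUnion]
      exact ⟨_, hS ξ hξ, fun v κ => hc _, h⟩
  have hvol : volume A ≤ ENNReal.ofReal (S.card * (Real.exp (R / L) *
      (D + 2 * Real.exp (-L)) ^ (Fintype.card V * k))) := by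
    rw [hA, measure_toMeasurable]
    refine (measure_biUnion_finset_le S _).trans ?_
    refine (Finset.sum_le_card_nsmul S _ _ fun s _ =>
      cell_vol_le' (fun v κ => lo (s v κ)) hL hD.le R).trans ?_
    rw [Fintype.card_fin, nsmul_eq_mul, ENNReal.ofReal_mul (Nat.cast_nonneg _),
      ENNReal.ofReal_natCast]
  have hpow : (D + 2 * Real.exp (-L)) ^ (Fintype.card V * k) ≤
      Real.exp (Fintype.card V * k * (Real.log D + 2 * Real.exp (-L) / D)) := by
    have h1 : D + 2 * Real.exp (-L) ≤ Real.exp (Real.log D + 2 * Real.exp (-L) / D) := by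
      rw [Real.exp_add, Real.exp_log hD]
      have := Real.add_one_le_exp (2 * Real.exp (-L) / D)
      calc D + 2 * Real.exp (-L) = D * (2 * Real.exp (-L) / D + 1) := by
            field_simp
            ring
        _ ≤ _ := mul_le_mul_of_nonneg_left this hD.le
    have h2 := pow_le_pow_left₀ (by positivity) h1 (Fintype.card V * k)
    rw [← Real.exp_nat_mul] at h2
    push_cast at h2
    exact h2
  have hd := noise_density_le hH hg ht F A (measurableSet_toMeasurable _ _) e
  refine (measure_mono hsub).trans ((measure_union_le _ _).trans (add_le_add ?_ le_rfl))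
  refine hd.trans (add_le_add ?_ le_rfl)
  refine (mul_le_mul_right hvol _).trans ?_
  rw [← ENNReal.ofReal_mul (Real.exp_pos _).le]
  apply ENNReal.ofReal_le_ofReal
  set X := -((Fintype.card V * k : ℝ) / 2 * Real.log (2 * Real.pi * Real.exp 1 * t) +
        (k : ℝ) / 2 * ∑ i, Real.log (g (hH.eigenvalues i))) + e with hX
  calc Real.exp X * (S.card * (Real.exp (R / L) *
      (D + 2 * Real.exp (-L)) ^ (Fintype.card V * k)))
      ≤ Real.exp X * (S.card * (Real.exp (R / L) *
        Real.exp (Fintype.card V * k * (Real.log D + 2 * Real.exp (-L) / D)))) := by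
        gcongr
    _ = _ := by
        rw [Real.exp_add (X + R / L), Real.exp_add X (R / L)]
        ring

/-! ### second moments -/

lemma lintegral_sq_gauss :
    ∫⁻ x : ℝ, ENNReal.ofReal (x ^ 2) ∂(gaussianReal 0 1) = 1 := by
  have hint : Integrable (fun x : ℝ => x ^ 2) (gaussianReal 0 1) := by
    have := (memLp_id_gaussianReal (μ := 0) (v := 1) 2).integrable_sq
    simpa using this
  rw [← ofReal_integral_eq_lintegral_ofReal hint (Filter.Eventually.of_forall fun x => sq_nonneg x)]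
  have h1 : ∫ x : ℝ, x ^ 2 ∂(gaussianReal 0 1) = 1 := by
    have h2 := variance_id_gaussianReal (μ := 0) (v := 1)
    rw [variance_eq_integral (by fun_prop)] at h2
    simpa [integral_id_gaussianReal] using h2
  rw [h1, ENNReal.ofReal_one]

lemma lintegral_sq_coord (V K : Type*) [Fintype V] [Fintype K] (v : V) (κ : K) :
    ∫⁻ ξ : V → K → ℝ, ENNReal.ofReal (ξ v κ ^ 2)
      ∂(Measure.pi fun _ : V => Measure.pi fun _ : K => gaussianReal 0 1) = 1 := by
  have hm : Measurable fun x : ℝ => ENNReal.ofReal (x ^ 2) := by fun_prop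
  have h1 := (measurePreserving_eval (fun _ : V => Measure.pi fun _ : K => gaussianReal 0 1) v)
  have h2 := (measurePreserving_eval (fun _ : K => gaussianReal 0 1) κ)
  have h3 := h2.comp h1
  have h4 := h3.lintegral_comp hm
  rw [lintegral_sq_gauss] at h4
  simpa [Function.comp_def, Function.eval] using h4

/-- Markov for the standard Gaussian array -/
lemma gauss_markov (V : Type*) [Fintype V] (k : ℕ) (h : 0 < Fintype.card V * k) :
    (Measure.pi fun _ : V => Measure.pi fun _ : Fin k => gaussianReal 0 1)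
      {ξ | 8 * (Fintype.card V * k : ℝ) < ∑ v, ∑ κ, ξ v κ ^ 2} ≤ ENNReal.ofReal (1 / 8) := by
  set μ := (Measure.pi fun _ : V => Measure.pi fun _ : Fin k => gaussianReal 0 1) with hμ
  have hpos : (0 : ℝ) < Fintype.card V * k := by exact_mod_cast h
  have hm : Measurable fun ξ : V → Fin k → ℝ => ENNReal.ofReal (∑ v, ∑ κ, ξ v κ ^ 2) := by
    refine ENNReal.measurable_ofReal.comp (Finset.measurable_sum _ fun v _ =>
      Finset.measurable_sum _ fun κ _ => ?_)
    exact ((measurable_pi_apply κ).comp (measurable_pi_apply v)).pow_const 2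
  have hE : ∫⁻ ξ, ENNReal.ofReal (∑ v, ∑ κ, ξ v κ ^ 2) ∂μ =
      ENNReal.ofReal (Fintype.card V * k : ℝ) := by
    have e1 : ∀ ξ : V → Fin k → ℝ, ENNReal.ofReal (∑ v, ∑ κ, ξ v κ ^ 2) =
        ∑ v, ∑ κ, ENNReal.ofReal (ξ v κ ^ 2) := by
      intro ξ
      rw [ENNReal.ofReal_sum_of_nonneg fun v _ => Finset.sum_nonneg fun κ _ => sq_nonneg _]
      refine Finset.sum_congr rfl fun v _ => ?_
      rw [ENNReal.ofReal_sum_of_nonneg fun κ _ => sq_nonneg _]
    simp only [e1]
    have hmm : ∀ (v : V) (κ : Fin k), Measurable fun ξ : V → Fin k → ℝ =>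
        ENNReal.ofReal (ξ v κ ^ 2) := fun v κ =>
      ENNReal.measurable_ofReal.comp
        (((measurable_pi_apply κ).comp (measurable_pi_apply v)).pow_const 2)
    rw [lintegral_finsetSum _ fun v _ => Finset.measurable_sum _ fun κ _ => hmm v κ]
    have e2 : ∀ v : V, ∫⁻ ξ, ∑ κ, ENNReal.ofReal (ξ v κ ^ 2) ∂μ = k := by
      intro v
      rw [lintegral_finsetSum _ fun κ _ => hmm v κ]
      simp only [hμ, lintegral_sq_coord]
      simp
    simp only [e2]
    rw [Finset.sum_const, Finset.card_univ, nsmul_eq_mul, ENNReal.ofReal_mul (Nat.cast_nonneg _),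
      ENNReal.ofReal_natCast, ENNReal.ofReal_natCast]
  have hmk := mul_meas_ge_le_lintegral (μ := μ) hm (ENNReal.ofReal (8 * (Fintype.card V * k : ℝ)))
  rw [hE] at hmk
  have hsub : {ξ : V → Fin k → ℝ | 8 * (Fintype.card V * k : ℝ) < ∑ v, ∑ κ, ξ v κ ^ 2} ⊆
      {ξ | ENNReal.ofReal (8 * (Fintype.card V * k : ℝ)) ≤
        ENNReal.ofReal (∑ v, ∑ κ, ξ v κ ^ 2)} := by
    intro ξ hξ
    exact ENNReal.ofReal_le_ofReal (le_of_lt hξ)
  refine (measure_mono hsub).trans ?_
  have h8 : ENNReal.ofReal (8 * (Fintype.card V * k : ℝ)) ≠ 0 := by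
    rw [Ne, ENNReal.ofReal_eq_zero, not_le]; positivity
  rw [mul_comm, ← ENNReal.le_div_iff_mul_le (Or.inl h8) (Or.inl ENNReal.ofReal_ne_top)] at hmk
  refine hmk.trans (le_of_eq ?_)
  rw [← ENNReal.ofReal_div_of_pos (by positivity)]
  congr 1
  rw [div_mul_cancel_right₀ hpos.ne' 8]
  norm_num

/-- energy of the noise -/
lemma fM_energy (hH : H.IsHermitian) {f : ℝ → ℝ} {M : ℝ} (hM : ∀ i, f (hH.eigenvalues i) ^ 2 ≤ M)
    (z : V → ℝ) : ∑ v, (∑ x, fM hH f v x * z x) ^ 2 ≤ M * ∑ x, z x ^ 2 := by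
  have h1 : ∑ v, (∑ x, fM hH f v x * z x) ^ 2 =
      ∑ x, ∑ y, z x * fM hH (fun u => f u ^ 2) x y * z y := by
    have e1 : fM hH (fun u => f u ^ 2) = fM hH f * fM hH f := by
      rw [fM_mul]
      congr 1
      funext u
      ring
    rw [e1]
    have e2 : ∀ v, (∑ x, fM hH f v x * z x) ^ 2 =
        ∑ x, ∑ y, z x * (fM hH f x v * fM hH f v y) * z y := by
      intro v
      rw [sq, Finset.sum_mul_sum]
      refine Finset.sum_congr rfl fun x _ => Finset.sum_congr rfl fun y _ => ?_
      rw [fM_symm hH f x v]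
      ring
    simp only [e2]
    rw [Finset.sum_comm]
    refine Finset.sum_congr rfl fun x _ => ?_
    rw [Finset.sum_comm]
    refine Finset.sum_congr rfl fun y _ => ?_
    rw [Matrix.mul_apply, Finset.mul_sum, Finset.sum_mul]
  rw [h1, fM_quad, parseval hH, Finset.mul_sum]
  exact Finset.sum_le_sum fun i _ => mul_le_mul_of_nonneg_right (hM i) (sq_nonneg _)

/-- **second moment of the samples** (L2) -/
theorem noisy_moment (hH : H.IsHermitian) {g : ℝ → ℝ} {t gmax C0 : ℝ} (ht : 0 < t)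
    (hg0 : ∀ i, 0 < g (hH.eigenvalues i)) (hg : ∀ i, g (hH.eigenvalues i) ≤ gmax) {k : ℕ}
    (F : V → Fin k → ℝ) (hF : ∑ v, ∑ κ, F v κ ^ 2 ≤ Fintype.card V * C0)
    (h : 0 < Fintype.card V * k) :
    (Measure.pi fun _ : V => Measure.pi fun _ : Fin k => gaussianReal 0 1)
        {ξ | Fintype.card V * (2 * C0 + 16 * k * t * gmax) <
          ∑ v, ∑ κ, noisy hH g t F ξ v κ ^ 2} ≤ ENNReal.ofReal (1 / 8) := by
  refine (measure_mono ?_).trans (gauss_markov V k h)
  intro ξ hξ
  have hV : 0 < Fintype.card V := Nat.pos_of_mul_pos_right h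
  have hne : Nonempty V := Fintype.card_pos_iff.1 hV
  obtain ⟨v0⟩ := hne
  have hgm : 0 < gmax := (hg0 v0).trans_le (hg v0)
  have h1 : ∑ v, ∑ κ, noisy hH g t F ξ v κ ^ 2 ≤
      2 * ∑ v, ∑ κ, F v κ ^ 2 + 2 * (t * gmax * ∑ v, ∑ κ, ξ v κ ^ 2) := by
    have h2 : ∀ κ : Fin k, ∑ v, (∑ x, fM hH (fun u => Real.sqrt (t * g u)) v x * ξ x κ) ^ 2 ≤
        t * gmax * ∑ x, ξ x κ ^ 2 := fun κ =>
      fM_energy hH (fun i => by
        rw [Real.sq_sqrt (mul_pos ht (hg0 i)).le]
        exact mul_le_mul_of_nonneg_left (hg i) ht.le) (fun x => ξ x κ)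
    calc ∑ v, ∑ κ, noisy hH g t F ξ v κ ^ 2
        ≤ ∑ v, ∑ κ, (2 * F v κ ^ 2 + 2 *
            (∑ x, fM hH (fun u => Real.sqrt (t * g u)) v x * ξ x κ) ^ 2) := by
          refine Finset.sum_le_sum fun v _ => Finset.sum_le_sum fun κ _ => ?_
          unfold noisy
          nlinarith [sq_nonneg (F v κ - ∑ x, fM hH (fun u => Real.sqrt (t * g u)) v x * ξ x κ)]
      _ = 2 * ∑ v, ∑ κ, F v κ ^ 2 + 2 * ∑ κ, ∑ v,
            (∑ x, fM hH (fun u => Real.sqrt (t * g u)) v x * ξ x κ) ^ 2 := by
          rw [Finset.sum_comm (s := (Finset.univ : Finset (Fin k)))]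
          simp only [Finset.sum_add_distrib, Finset.mul_sum]
      _ ≤ _ := by
          gcongr
          rw [Finset.sum_comm (f := fun v κ => ξ v κ ^ 2), Finset.mul_sum]
          exact Finset.sum_le_sum fun κ _ => h2 κ
  have h3 : Fintype.card V * (2 * C0 + 16 * k * t * gmax) <
      ∑ v, ∑ κ, noisy hH g t F ξ v κ ^ 2 := hξ
  show 8 * (Fintype.card V * k : ℝ) < ∑ v, ∑ κ, ξ v κ ^ 2
  by_contra hcon
  rw [not_lt] at hcon
  have h4 : t * gmax * ∑ v, ∑ κ, ξ v κ ^ 2 ≤ t * gmax * (8 * (Fintype.card V * k : ℝ)) :=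
    mul_le_mul_of_nonneg_left hcon (by positivity)
  nlinarith

/-- **(T), part (a)**: the number of cells hit by a noise event of probability `≥ 1/2`. -/
theorem card_ge {k : ℕ} (hk : 0 < k) {t gmax C0 D L ε : ℝ} (ht : 0 < t) (hD : 0 < D)
    (hL : 0 < L) (hε : 0 < ε) :
    ∃ N : ℕ, ∀ {V : Type} [Fintype V] [DecidableEq V] {H : Matrix V V ℝ} (hH : H.IsHermitian)
      {g : ℝ → ℝ}, N ≤ Fintype.card V → (∀ i, 0 < g (hH.eigenvalues i)) →
      (∀ i, g (hH.eigenvalues i) ≤ gmax) → ∀ (F : V → Fin k → ℝ),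
      ∑ v, ∑ κ, F v κ ^ 2 ≤ Fintype.card V * C0 →
      ∀ {T : Type} (c : ℝ → T) (lo : T → ℝ),
      (∀ y, |y| < L → lo (c y) ≤ y ∧ y ≤ lo (c y) + D) →
      ∀ (G : Set (V → Fin k → ℝ)) (S : Finset (V → Fin k → T)),
      (∀ ξ ∈ G, (fun v κ => c (noisy hH g t F ξ v κ)) ∈ S) →
      ENNReal.ofReal (1 / 2) ≤
        (Measure.pi fun _ : V => Measure.pi fun _ : Fin k => gaussianReal 0 1) G →
      Real.exp (Fintype.card V * ((k : ℝ) / 2 * Real.log (2 * Real.pi * Real.exp 1 * t) +
          (k : ℝ) / 2 * ((∑ i, Real.log (g (hH.eigenvalues i))) / Fintype.card V) -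
          k * Real.log D - k * (2 * Real.exp (-L) / D) -
          (2 * C0 + 16 * k * t * gmax) / L - ε)) ≤ (S.card : ℝ) := by
  obtain ⟨N1, hN1⟩ := exists_nat_ge (12 * k / (ε / 2) ^ 2)
  obtain ⟨N2, hN2⟩ := exists_nat_ge (2 / (ε / 2))
  refine ⟨max (max N1 N2) 1, fun {V} _ _ {H} hH {g} hN hg0 hg F hF {T} c lo hc G S hS hG => ?_⟩
  set n : ℝ := (Fintype.card V : ℝ) with hn
  have hn1 : (N1 : ℝ) ≤ n := by
    rw [hn]
    exact_mod_cast (le_max_left _ _).trans ((le_max_left _ _).trans hN)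
  have hn2 : (N2 : ℝ) ≤ n := by
    rw [hn]
    exact_mod_cast (le_max_right _ _).trans ((le_max_left _ _).trans hN)
  have hcard : 1 ≤ Fintype.card V := (le_max_right _ _).trans hN
  have hn0 : 0 < n := by
    have : (1 : ℝ) ≤ n := by
      rw [hn]
      exact_mod_cast hcard
    linarith
  have hkR : (0 : ℝ) < k := by exact_mod_cast hk
  have hNk : 0 < Fintype.card V * k := Nat.mul_pos hcard hk
  have h1 := hit_le hH hg0 ht F c lo hL hD hc G S hS (ε / 2 * n)
    (n * (2 * C0 + 16 * k * t * gmax))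
  have h2 := noisy_moment hH ht hg0 hg F hF hNk
  have h3 := noise_tail V k (e := ε / 2 * n) (by positivity) hNk
  have h4 : Real.exp (-((ε / 2 * n) ^ 2) / (n * k)) ≤ 1 / 8 := by
    have e1 : -((ε / 2 * n) ^ 2) / (n * k) ≤ -12 * 1 := by
      rw [div_le_iff₀ (by positivity)]
      have : 12 * k ≤ n * (ε / 2) ^ 2 := by
        have := hN1.trans hn1
        rwa [div_le_iff₀ (by positivity)] at this
      nlinarith
    have e2 : Real.exp (-12 * 1) ≤ 1 / 8 := by
      have := Real.add_one_le_exp (12 : ℝ)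
      rw [mul_one, Real.exp_neg, inv_eq_one_div]
      apply one_div_le_one_div_of_le (by norm_num)
      linarith
    exact (Real.exp_le_exp.2 e1).trans e2
  set X : ℝ := S.card * Real.exp (-((n * k : ℝ) / 2 *
          Real.log (2 * Real.pi * Real.exp 1 * t) +
        (k : ℝ) / 2 * ∑ i, Real.log (g (hH.eigenvalues i))) + ε / 2 * n +
        n * (2 * C0 + 16 * k * t * gmax) / L + n * k * (Real.log D + 2 * Real.exp (-L) / D))
    with hX
  have h5 : ENNReal.ofReal (1 / 2) ≤ ENNReal.ofReal (X + 1 / 8 + 1 / 8) := by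
    refine hG.trans (h1.trans ?_)
    have hX0 : 0 ≤ X := by positivity
    rw [ENNReal.ofReal_add (by positivity) (by norm_num), ENNReal.ofReal_add hX0 (by norm_num)]
    exact add_le_add (add_le_add le_rfl (h3.trans (ENNReal.ofReal_le_ofReal h4))) h2
  have h6 : 1 / 4 ≤ X := by
    rw [ENNReal.ofReal_le_ofReal_iff (by positivity)] at h5
    linarith
  have h7 : Real.exp (-(ε / 2 * n)) ≤ 1 / 4 := by
    have e1 : (2 : ℝ) ≤ ε / 2 * n := by
      have := hN2.trans hn2
      rw [div_le_iff₀ (by positivity)] at this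
      linarith
    have e2 : Real.exp (-(ε / 2 * n)) ≤ Real.exp (-2) := Real.exp_le_exp.2 (by linarith)
    have e3 : Real.exp (-2) ≤ 1 / 4 := by
      have := Real.exp_one_gt_d9
      rw [Real.exp_neg, inv_eq_one_div]
      apply one_div_le_one_div_of_le (by norm_num)
      have h9 : Real.exp 2 = Real.exp 1 * Real.exp 1 := by
        rw [← Real.exp_add]; norm_num
      rw [h9]
      nlinarith
    exact e2.trans e3
  have h8 := h7.trans h6
  rw [hX] at h8
  have h9 := (le_div_iff₀ (Real.exp_pos _)).2 (le_refl ((S.card : ℝ) * Real.exp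
    (-((n * k : ℝ) / 2 * Real.log (2 * Real.pi * Real.exp 1 * t) +
        (k : ℝ) / 2 * ∑ i, Real.log (g (hH.eigenvalues i))) + ε / 2 * n +
        n * (2 * C0 + 16 * k * t * gmax) / L + n * k * (Real.log D + 2 * Real.exp (-L) / D))))
  have h10 := (div_le_iff₀ (Real.exp_pos _)).2 h8
  refine le_trans (le_of_eq ?_) h10
  rw [← Real.exp_sub]
  congr 1
  field_simp
  ring

/-- outer measure of a transposed event -/
lemma gm_transpose_le (V : Type*) [Fintype V] (k : ℕ) (G : Set (Fin k → V → ℝ)) :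
    (Measure.pi fun _ : Fin k => Measure.pi fun _ : V => gaussianReal 0 1) G ≤
      (Measure.pi fun _ : V => Measure.pi fun _ : Fin k => gaussianReal 0 1)
        {ξ | (fun i v => ξ v i) ∈ G} := by
  have h := Gauss286.gm_map_transpose (ι := Fin k) (κ := V)
  have hm : Measurable fun (g : Fin k → V → ℝ) (v : V) (i : Fin k) => g i v :=
    measurable_pi_lambda _ fun v => measurable_pi_lambda _ fun i =>
      (measurable_pi_apply v).comp (measurable_pi_apply i)
  have h2 := Measure.le_map_apply (μ := Gauss286.gm (Fin k) V) hm.aemeasurable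
    {ξ : V → Fin k → ℝ | (fun i v => ξ v i) ∈ G}
  rw [h] at h2
  exact h2

/-- `noisy` in the form of helper849 -/
lemma noisy_eq_Zn (hH : H.IsHermitian) (g : ℝ → ℝ) {t : ℝ} (ht : 0 ≤ t) {k : ℕ}
    (F : Fin k → V → ℝ) (ξ : Fin k → V → ℝ) (v : V) (i : Fin k) :
    noisy hH g t (fun v i => F i v) (fun v i => ξ i v) v i =
      F i v + Real.sqrt t * NoiseLLN849.Zn hH g ξ i v := by
  unfold noisy NoiseLLN849.Zn
  congr 1
  have h1 : fM hH (fun u => Real.sqrt (t * g u)) =
      fM hH (fun u => Real.sqrt t * Real.sqrt (g u)) := by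
    congr 1
    funext u
    rw [Real.sqrt_mul ht]
  rw [h1, fM_const_mul, Finset.mul_sum]
  refine Finset.sum_congr rfl fun x _ => ?_
  rw [Matrix.smul_apply, smul_eq_mul]
  ring

/-- **(T), part (a)**, noise in the form of helper849 (`Zn`). -/
theorem card_ge_Zn {k : ℕ} (hk : 0 < k) {t gmax C0 D L ε : ℝ} (ht : 0 < t) (hD : 0 < D)
    (hL : 0 < L) (hε : 0 < ε) :
    ∃ N : ℕ, ∀ {V : Type} [Fintype V] [DecidableEq V] {H : Matrix V V ℝ} (hH : H.IsHermitian)
      {g : ℝ → ℝ}, N ≤ Fintype.card V → (∀ i, 0 < g (hH.eigenvalues i)) →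
      (∀ i, g (hH.eigenvalues i) ≤ gmax) → ∀ (F : Fin k → V → ℝ),
      ∑ i, ∑ v, F i v ^ 2 ≤ Fintype.card V * C0 →
      ∀ {T : Type} (c : ℝ → T) (lo : T → ℝ),
      (∀ y, |y| < L → lo (c y) ≤ y ∧ y ≤ lo (c y) + D) →
      ∀ (G : Set (Fin k → V → ℝ)) (S : Finset (V → Fin k → T)),
      (∀ ξ ∈ G, (fun v i => c (F i v + Real.sqrt t * NoiseLLN849.Zn hH g ξ i v)) ∈ S) →
      ENNReal.ofReal (1 / 2) ≤
        (Measure.pi fun _ : Fin k => Measure.pi fun _ : V => gaussianReal 0 1) G →
      Real.exp (Fintype.card V * ((k : ℝ) / 2 * Real.log (2 * Real.pi * Real.exp 1 * t) +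
          (k : ℝ) / 2 * ((∑ i, Real.log (g (hH.eigenvalues i))) / Fintype.card V) -
          k * Real.log D - k * (2 * Real.exp (-L) / D) -
          (2 * C0 + 16 * k * t * gmax) / L - ε)) ≤ (S.card : ℝ) := by
  obtain ⟨N, hN⟩ := card_ge (gmax := gmax) (C0 := C0) hk ht hD hL hε
  refine ⟨N, fun {V} _ _ {H} hH {g} hNV hg0 hg F hF {T} c lo hc G S hS hG => ?_⟩
  refine hN hH hNV hg0 hg (fun v i => F i v) ?_ c lo hc {ξ | (fun i v => ξ v i) ∈ G} S ?_ ?_
  · rw [Finset.sum_comm]
    exact hF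
  · intro ξ hξ
    have h1 := hS _ hξ
    have h2 : (fun v κ => c (noisy hH g t (fun v i => F i v) ξ v κ)) =
        (fun v i => c (F i v + Real.sqrt t * NoiseLLN849.Zn hH g (fun i v => ξ v i) i v)) := by
      funext v i
      rw [← noisy_eq_Zn hH g ht.le F (fun i v => ξ v i)]
    rw [h2]
    exact h1
  · exact hG.trans (gm_transpose_le V k G)

end main

/-! ### the cells -/

/-- clipped cell index (same as `SpecB1.cellIx`) -/
lemma cell_spec {L D : ℝ} {M : ℕ} (hM : 0 < M) (hD : 0 < D) (hDM : 2 * L ≤ D * M) {y : ℝ}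
    (hy : |y| < L) :
    -L + D * (min (M - 1) ⌊(y + L) / D⌋₊ : ℕ) ≤ y ∧
      y ≤ -L + D * (min (M - 1) ⌊(y + L) / D⌋₊ : ℕ) + D := by
  rw [abs_lt] at hy
  have h0 : 0 ≤ (y + L) / D := by
    apply div_nonneg _ hD.le
    linarith
  have h1 : ⌊(y + L) / D⌋₊ ≤ M - 1 := by
    have h2 : (y + L) / D < M := by
      rw [div_lt_iff₀ hD]
      linarith [mul_comm D (M : ℝ)]
    have h3 : ⌊(y + L) / D⌋₊ < M := (Nat.floor_lt h0).2 h2
    omega
  rw [min_eq_right h1]
  have h4 := Nat.floor_le h0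
  have h5 := Nat.lt_floor_add_one ((y + L) / D)
  rw [le_div_iff₀ hD] at h4
  rw [div_lt_iff₀ hD] at h5
  constructor <;> nlinarith

end Crest.Agent.R166.TypA547
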