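import Crest.Agent.R166.TypL_674
import Crest.Agent.R166.TypA_547

/-!
# R166, 40.6 (T): `SpecB1.Stmt_T` (helper674)
-/

set_option autoImplicit false

namespace Crest.Agent.R166.TypC674

open MeasureTheory Finset PairCount356 SpecB1 Crest.ProbabilityR.RandomMatrix Filter Topology
open ProbabilityTheory
open Crest.Agent.R166.Seq980 (PS portLaw portLaw_apply)
open Crest.Agent.R166.Upp724 (View viewOf vroot vroot_viewOf lo)
open Crest.Agent.R166.Count674 (St Th)
open Crest.Agent.R166.Lev47 Crest.Agent.R166.Words955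

/-- in the box the cell contains the value -/
theorem lo_cell_le {L D : ℝ} (hD : 0 < D) {M : ℕ} [NeZero M] {x : ℝ} (h1 : -L ≤ x)
    (h2 : x ≤ -L + D * M) :
    lo L D (cell L D M x) ≤ x ∧ x ≤ lo L D (cell L D M x) + D := by
  have hM : 1 ≤ M := NeZero.pos M
  have hu : 0 ≤ (x + L) / D := div_nonneg (by linarith) hD.le
  have hf1 : (⌊(x + L) / D⌋₊ : ℝ) ≤ (x + L) / D := Nat.floor_le hu
  have hf2 : (x + L) / D < ⌊(x + L) / D⌋₊ + 1 := Nat.lt_floor_add_one _
  rw [le_div_iff₀ hD] at hf1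
  rw [div_lt_iff₀ hD] at hf2
  unfold lo cell
  simp only
  rcases le_or_gt ⌊(x + L) / D⌋₊ (M - 1) with h | h
  · rw [min_eq_right h]
    constructor <;> nlinarith
  · rw [min_eq_left h.le, Nat.cast_sub hM]
    have h3 : (M : ℝ) ≤ ⌊(x + L) / D⌋₊ := by exact_mod_cast (by omega : M ≤ ⌊(x + L) / D⌋₊)
    push_cast
    constructor <;> nlinarith

/-- the cells of the potential have mass at most `2^-m` -/
theorem u1_oq (m : ℕ) (i : Fin (2 ^ m)) :
    u1 (oq m ⁻¹' {i}) ≤ ((Fintype.card (Fin (2 ^ m)) : ℕ) : ENNReal)⁻¹ := by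
  have hmeas : MeasurableSet (oq m ⁻¹' {i}) :=
    measurable_cell 1 (2 * (1 / 2) ^ m) (2 ^ m) (measurableSet_singleton i)
  have hD : (0 : ℝ) < 2 * (1 / 2) ^ m := by positivity
  have hsub : oq m ⁻¹' {i} ∩ Set.Icc (-1 : ℝ) 1 ⊆
      Set.Icc (lo 1 (2 * (1 / 2) ^ m) i) (lo 1 (2 * (1 / 2) ^ m) i + 2 * (1 / 2) ^ m) := by
    rintro x ⟨hx, hx1, hx2⟩
    have h1 : cell 1 (2 * (1 / 2) ^ m) (2 ^ m) x = i := hx
    have h2 := lo_cell_le hD (M := 2 ^ m) hx1 (by rw [D_mul_M_o]; linarith)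
    rw [h1] at h2
    exact h2
  unfold u1
  rw [Measure.smul_apply, Measure.restrict_apply hmeas]
  have h3 : volume (oq m ⁻¹' {i} ∩ Set.Icc (-1 : ℝ) 1) ≤ ENNReal.ofReal (2 * (1 / 2) ^ m) := by
    refine (measure_mono hsub).trans ?_
    rw [Real.volume_Icc]
    apply ENNReal.ofReal_le_ofReal
    linarith
  have h4 : (2⁻¹ : NNReal) • volume (oq m ⁻¹' {i} ∩ Set.Icc (-1 : ℝ) 1) ≤
      (2⁻¹ : NNReal) • ENNReal.ofReal (2 * (1 / 2) ^ m) := by
    gcongr
  refine h4.trans (le_of_eq ?_)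
  rw [ENNReal.smul_def, smul_eq_mul, ENNReal.ofReal_mul (by norm_num), ← mul_assoc,
    ENNReal.coe_inv (by norm_num)]
  have h5 : ((2 : NNReal) : ENNReal)⁻¹ * ENNReal.ofReal 2 = 1 := by
    rw [ENNReal.ofReal_ofNat]
    exact ENNReal.inv_mul_cancel (by norm_num) (by norm_num)
  rw [h5, one_mul, Fintype.card_fin]
  rw [ENNReal.ofReal_pow (by norm_num), one_div, ENNReal.ofReal_inv_of_pos (by norm_num),
    ENNReal.ofReal_ofNat, ← ENNReal.inv_pow]
  push_cast
  rfl

/-- the error at level `m` -/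
noncomputable def errT (k : ℕ) (t gmax : ℝ) (m : ℕ) : ℝ :=
  k * (2 * Real.exp (-(2 ^ m : ℝ)) / (1 / 8) ^ m) + (2 * k + 16 * k * t * gmax) / 2 ^ m

theorem tendsto_errT (k : ℕ) (t gmax : ℝ) : Tendsto (errT k t gmax) atTop (𝓝 0) := by
  have h1 : Tendsto (fun m : ℕ => (2 : ℝ) ^ m) atTop atTop :=
    tendsto_pow_atTop_atTop_of_one_lt (by norm_num)
  have h2 : Tendsto (fun x : ℝ => x ^ 3 * Real.exp (-x)) atTop (𝓝 0) :=
    Real.tendsto_pow_mul_exp_neg_atTop_nhds_zero 3
  have h3 : Tendsto (fun m : ℕ => ((2 : ℝ) ^ m) ^ 3 * Real.exp (-(2 ^ m))) atTop (𝓝 0) :=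
    h2.comp h1
  have h4 : Tendsto (fun m : ℕ => (k : ℝ) * (2 * (((2 : ℝ) ^ m) ^ 3 * Real.exp (-(2 ^ m)))))
      atTop (𝓝 0) := by
    simpa using (h3.const_mul 2).const_mul (k : ℝ)
  have h5 : Tendsto (fun m : ℕ => (2 * k + 16 * k * t * gmax) / (2 : ℝ) ^ m) atTop (𝓝 0) :=
    Tendsto.div_atTop tendsto_const_nhds h1
  have h6 := h4.add h5
  rw [add_zero] at h6
  refine h6.congr fun m => ?_
  unfold errT
  have e1 : ((2 : ℝ) ^ m) ^ 3 = ((1 / 8 : ℝ) ^ m)⁻¹ := by
    rw [← pow_mul, mul_comm m 3, pow_mul, one_div, inv_pow, inv_inv]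
    norm_num
  rw [e1]
  field_simp

theorem stmt_T : Stmt_T := by
  classical
  intro d k _ S s E K' η c t l Q hη hc ht hE hQ hLLN hLD ε hε
  obtain ⟨m0, hm0⟩ := eventually_atTop.1
    ((tendsto_errT k t (c / η)).eventually (gt_mem_nhds hε))
  refine ⟨m0, fun m hm a R => ?_⟩
  have herr := hm0 m hm
  set κ : ℝ := (k : ℝ) / 2 * Real.log (2 * Real.pi * Real.exp 1 * t) + (k : ℝ) / 2 * l -
    k * Real.log ((1 / 8) ^ m) - errT k t (c / η) m with hκ
  have hd : 1 ≤ d := le_trans (by norm_num) hE.hd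
  have hmain := typ_abs d a R hd (Fin (2 ^ m)) (Fin k → Fin (2 * 16 ^ m)) (oq m) (u1_oq m)
    S.n S.tendsto_n S.U S.port ?_ (fun j => Fin k → Fin (S.n j) → ℝ) (fun j => gmP k (S.n j))
    (fun j x ξ v i => yq m (S.F j x i v + Real.sqrt t * ZP s E η c x ξ i v)) κ ?_
    (qstar Q (cview (gcol d k t a m) R)) ?_
  · -- conclusion
    have h1 : PsiL t Q a m R = PsiR (qstar Q (cview (gcol d k t a m) R)) := by
      unfold PsiL
      congr!
    rw [h1]
    refine le_trans ?_ hmain
    rw [Fintype.card_fin, hκ]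
    push_cast
    rw [Real.log_pow, Real.log_pow, one_div, Real.log_inv]
    linarith
  · -- size
    intro ε' hε'
    have h1 : ∀ᶠ j : ℕ in atTop, 1 / ((j : ℝ) + 1) < ε' :=
      (tendsto_one_div_add_atTop_nhds_zero_nat (𝕜 := ℝ)).eventually (gt_mem_nhds hε')
    filter_upwards [h1] with j hj
    refine le_trans ?_ (S.mass j)
    apply ENNReal.ofReal_le_ofReal
    apply Real.exp_le_exp.2
    have h2 : (S.n j : ℝ) / (j + 1) ≤ ε' * S.n j := by
      rw [div_eq_mul_one_div, mul_comm]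
      exact mul_le_mul_of_nonneg_right hj.le (by positivity)
    rw [neg_div]
    linarith
  · -- number of cells
    intro ε' hε'
    rcases Nat.eq_zero_or_pos k with hk | hk
    · subst hk
      refine Eventually.of_forall fun j x hx G hG => ?_
      have hGne : G.Nonempty := by
        rw [Set.nonempty_iff_ne_empty]
        rintro rfl
        rw [measure_empty] at hG
        exact absurd hG (by norm_num)
      obtain ⟨ξ, hξ⟩ := hGne
      have h1 : 1 ≤ Nat.card {y : Fin (S.n j) → Fin 0 → Fin (2 * 16 ^ m) // ∃ ξ ∈ G,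
          (fun v i => yq m (S.F j x i v + Real.sqrt t * ZP s E η c x ξ i v)) = y} := by
        apply Nat.one_le_iff_ne_zero.2
        have : Nonempty {y : Fin (S.n j) → Fin 0 → Fin (2 * 16 ^ m) // ∃ ξ ∈ G,
          (fun v i => yq m (S.F j x i v + Real.sqrt t * ZP s E η c x ξ i v)) = y} :=
          ⟨⟨_, ξ, hξ, rfl⟩⟩
        exact Nat.card_pos.ne'
      have h2 : (1 : ℝ) ≤ Nat.card {y : Fin (S.n j) → Fin 0 → Fin (2 * 16 ^ m) // ∃ ξ ∈ G,
          (fun v i => yq m (S.F j x i v + Real.sqrt t * ZP s E η c x ξ i v)) = y} := by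
        exact_mod_cast h1
      refine le_trans ?_ h2
      rw [Real.exp_le_one_iff]
      have h3 : κ = 0 := by
        rw [hκ]
        simp [errT]
      rw [h3]
      have : (0 : ℝ) ≤ S.n j := by positivity
      nlinarith
    · obtain ⟨N, hN⟩ := TypA547.card_ge_Zn hk (gmax := c / η) (C0 := k) (D := (1 / 8) ^ m)
        (L := 2 ^ m) (ε := ε' / 2) ht (by positivity) (by positivity) (by positivity)
      have hkR : (0 : ℝ) < k := by exact_mod_cast hk
      have h1 := S.tendsto_n.eventually (eventually_ge_atTop N)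
      have h2 := hLD (ε' / k) (by positivity)
      filter_upwards [h1, h2] with j hj1 hj2 x hx G hG
      set Sf : Finset (Fin (S.n j) → Fin k → Fin (2 * 16 ^ m)) := univ.filter fun y =>
        ∃ ξ ∈ G, (fun v i => yq m (S.F j x i v + Real.sqrt t * ZP s E η c x ξ i v)) = y with hSf
      have hcard : Nat.card {y : Fin (S.n j) → Fin k → Fin (2 * 16 ^ m) // ∃ ξ ∈ G,
          (fun v i => yq m (S.F j x i v + Real.sqrt t * ZP s E η c x ξ i v)) = y} = Sf.card := by
        rw [Nat.card_eq_fintype_card, Fintype.card_subtype]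
      rw [hcard]
      have h3 := hN (V := Fin (S.n j)) (H := Hm (graphOf x.1) s x.2)
        (Hm_isHermitian (graphOf x.1) s x.2) (g := Noise547.geta E η c)
        (by rw [Fintype.card_fin]; exact hj1) (fun i => Noise547.geta_pos hη hc _)
        (fun i => Noise547.geta_le hη hc _) (S.F j x) ?_ (yq m) (yrep m) ?_ G Sf ?_ ?_
      · refine le_trans ?_ h3
        apply Real.exp_le_exp.2
        rw [Fintype.card_fin]
        apply mul_le_mul_of_nonneg_left _ (by positivity)
        have h4 := (abs_le.1 (hj2 x hx)).1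
        unfold ldet at h4
        have h5 : (k : ℝ) / 2 * (l - ε' / k) ≤ (k : ℝ) / 2 * ((∑ i, Real.log
            (Noise547.geta E η c ((Hm_isHermitian (graphOf x.1) s x.2).eigenvalues i))) / S.n j) :=
          mul_le_mul_of_nonneg_left (by linarith) (by positivity)
        have h6 : (k : ℝ) / 2 * (l - ε' / k) = (k : ℝ) / 2 * l - ε' / 2 := by
          field_simp
        rw [h6] at h5
        have h7 : errT k t (c / η) m = k * (2 * Real.exp (-(2 ^ m : ℝ)) / (1 / 8) ^ m) +
          (2 * k + 16 * k * t * (c / η)) / 2 ^ m := rfl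
        rw [hκ, h7]
        linarith
      · rw [Fintype.card_fin]
        have h4 : ∑ i, ∑ v, S.F j x i v ^ 2 = ∑ _i : Fin k, (S.n j : ℝ) :=
          Finset.sum_congr rfl fun i _ => S.frame j x hx i
        rw [h4]
        simp [mul_comm]
      · intro y hy
        have h4 := abs_lt.1 hy
        have h5 := lo_cell_le (L := 2 ^ m) (D := (1 / 8) ^ m) (M := 2 * 16 ^ m) (by positivity)
          (x := y) (by linarith [h4.1]) (by rw [D_mul_M_y]; linarith [h4.2])
        exact h5
      · intro ξ hξ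
        rw [hSf, mem_filter]
        exact ⟨mem_univ _, ξ, hξ, rfl⟩
      · have h4 : ENNReal.ofReal (1 / 2) = 1 / 2 := by
          rw [one_div, ENNReal.ofReal_inv_of_pos (by norm_num), ENNReal.ofReal_ofNat, one_div]
        rw [h4]
        exact hG
  · -- convergence
    intro ε' hε'
    have h1 := hLLN a m R (min ε' (1 / 2)) (by positivity)
    filter_upwards [h1] with j hj x hx
    have h2 := hj x hx
    refine le_trans (measure_mono ?_) (h2.trans ?_)
    · rintro ξ ⟨σ, hσ⟩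
      refine ⟨σ, lt_of_le_of_lt (min_le_left _ _) (hσ.trans_le (le_of_eq ?_))⟩
      congr 2
      have h3 : ∀ f : Fin (S.n j) → Col d k a m, ∀ τ : St (View (Col d k a m) (Fin d) R) d,
          ((Count674.starCnt x.1 (viewOf (⇑x.1) f R) τ : ℕ) : ℝ) =
          (Nat.card {v // Count674.starOf x.1 (viewOf (⇑x.1) f R) v = τ} : ℝ) := by
        intro f τ
        rw [Nat.card_eq_fintype_card, Fintype.card_subtype]
        rfl
      rw [h3]
      rfl
    · refine (ENNReal.ofReal_le_ofReal (min_le_right _ _)).trans (le_of_eq ?_)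
      rw [one_div, ENNReal.ofReal_inv_of_pos (by norm_num), ENNReal.ofReal_ofNat, one_div]

end Crest.Agent.R166.TypC674
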