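import Crest.Agent.R166.PsiBridge2_397
import Crest.Agent.R166.NoiseNull_849
import Crest.Agent.R166.LogDet_424
import Crest.Agent.R166.TypT_674
import Crest.Agent.R166.Q0_955

/-!
Row 166, sections 40.6-40.10 (helper47): the laws `P_η` of an extracted sequence are approximately
edge-Markov. Inputs: `Stmt_U` and `Stmt_LLNStar` (as hypotheses), `Stmt_T` (674), `Stmt_LogDet`
(424), `lawEta_null` (849), `approxCI_of_psiDiff` (397).
-/

set_option autoImplicit false

noncomputable section

namespace Crest.Agent.R166.B1Fin47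

open MeasureTheory Filter Topology
open Crest.Agent.R166.Words955 Crest.Agent.R166.NoiseLim849 Crest.Agent.R166.CMI47
open Crest.Agent.R166.PsiBridge397 (poC pyS)
open Crest.Agent.R166.EnvLaw289 Crest.Agent.R166.Erg424
open Crest.Agent.R166.TreeDefs350 (unif)

/-- the covariance kernels `c Im treeG(E + iη)` are admissible -/
theorem isCov_gamG {d k : ℕ} [NeZero d] (P : Measure (Conf d (NoiseLim849.S1 d k))) (s E : ℝ)
    {η c : ℝ} (hη : 0 < η) (hc : 0 < c) : Q0_955.IsCov P (gamG k s E η c) where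
  meas w w' := (continuous_gamG k s E hη c w w').measurable
  psd := ae_of_all _ fun ζ B v => gamG_psd k s E hη hc.le B v ζ

/-- **fixed `η`**: the noisy limit law with all its properties. -/
theorem approxCI_seq (hU : SpecB1.Stmt_U) (hL : SpecB1.Stmt_LLNStar) {b k : ℕ}
    (S : Seq980.Seq (b + 1) k) {s E K' : ℝ} (hX : SpecB1.Extra S s E K')
    (henv : S.P.map (envP (X := Fin k → ℝ)) = envLaw (b + 1) unif) {η c t : ℝ}
    (hη : 0 < η) (hc : 0 < c) (ht : 0 < t) :
    ∃ Q : Measure (Conf (b + 1) (NoiseLim849.S2 (b + 1) k)),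
      SpecB1.IsNoisyLim S s E η c Q ∧ Inv Q ∧ Q0_955.NLaw S.P (gamG k s E η c) Q ∧
      ∀ R : ℕ, Lim47.ApproxCI Q (sideC (b := b) (pyS k t) id R ⊔ Ced b (poC k) (pyS k t))
        (sideC (b := b) (pyS k t) cross R ⊔ Ced b (poC k) (pyS k t))
        (Ced b (poC k) (pyS k t))
        (2 * Real.sqrt (2 * EntTree397.sR b R * ((k : ℝ) / 2 * Real.log ((t + η / c) / t)))) := by
  obtain ⟨Q, h1, h2, h3, h4, h5, h6⟩ := lawEta_null S hX hη hc henv
  have hQ : IsProbabilityMeasure Q := h1.1
  have hP : IsProbabilityMeasure S.P := S.prob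
  obtain ⟨l, hl⟩ := LogDet424.stmt_LogDet (b + 1) k S s E K' η c hη hc hX
  have hLLN : SpecB1.LLNStar S s E η c t Q :=
    hL (b + 1) k S s E K' η c t Q hη hc ht hX h1 h5 (h6 t ht)
  have hTl := TypC674.stmt_T (b + 1) k S s E K' η c t l Q hη hc ht hX hQ hLLN hl
  have hUl := hU (b + 1) k S s E K' η c t l Q hη hc ht hX hQ hLLN hl
  have hPsi : SpecB1.PsiDiff t (t + η / c) Q := SpecB1.psiDiff_of ht (by positivity) hTl hUl
  exact ⟨Q, h1, h3, Q0_955.NLaw.of_continuous (isCov_gamG S.P s E hη hc) h4,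
    fun R => PsiBridge397.approxCI_of_psiDiff R h3 hPsi⟩

/-- the error bound tends to zero with `η` -/
theorem tendsto_err (b k R : ℕ) {c t : ℝ} (ht : 0 < t) {η : ℕ → ℝ}
    (hη : Tendsto η atTop (𝓝 0)) :
    Tendsto (fun n => 2 * Real.sqrt (2 * EntTree397.sR b R *
      ((k : ℝ) / 2 * Real.log ((t + η n / c) / t)))) atTop (𝓝 0) := by
  have h1 : Tendsto (fun n => (t + η n / c) / t) atTop (𝓝 1) := by
    have := ((hη.div_const c).const_add t).div_const t
    simpa [ht.ne'] using this
  have h2 : Tendsto (fun n => Real.log ((t + η n / c) / t)) atTop (𝓝 0) := by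
    have := (Real.continuousAt_log one_ne_zero).tendsto.comp h1
    rw [Real.log_one] at this
    exact this
  have h3 : Tendsto (fun n => 2 * EntTree397.sR b R * ((k : ℝ) / 2 *
      Real.log ((t + η n / c) / t))) atTop (𝓝 0) := by
    simpa using (h2.const_mul ((k : ℝ) / 2)).const_mul (2 * EntTree397.sR b R)
  have h4 := ((Real.continuous_sqrt.tendsto 0).comp h3).const_mul 2
  rw [Real.sqrt_zero, mul_zero] at h4
  exact h4

end Crest.Agent.R166.B1Fin47
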