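import Crest.Agent.R166.Ball_356

/-!
# Row 166, section 70 (M1), concrete half, part 2: Green function of the ball (helper356)
-/

set_option autoImplicit false

open Finset MeasureTheory Filter Topology

namespace Crest.Agent.R166.Ball356

open Crest.ProbabilityR.RandomMatrix Crest.Agent.R166.Env536 Crest.Agent.R166.TreeDefs350
  Crest.Agent.R166.TreeWalk356

section green

variable {d : ℕ} [NeZero d]

/-- cavity value at the node `x` with `M` more levels below -/
noncomputable def cN (s : ℝ) (z : ℂ) (Ω : Node d → ℝ) : ℕ → Node d → ℂ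
  | 0, x => -1 / (z - s * Ω x)
  | M + 1, x => -1 / (z - s * Ω x + ∑ k : Lt d, cN s z Ω M (ch x k))

/-- denominators -/
noncomputable def dN (s : ℝ) (z : ℂ) (Ω : Node d → ℝ) : ℕ → Node d → ℂ
  | 0, x => z - s * Ω x
  | M + 1, x => z - s * Ω x + ∑ k : Lt d, cN s z Ω M (ch x k)

lemma cN_eq (s : ℝ) (z : ℂ) (Ω : Node d → ℝ) (M : ℕ) (x : Node d) :
    cN s z Ω M x = -1 / dN s z Ω M x := by
  cases M <;> rfl

lemma im_neg_inv_pos {w : ℂ} (hw : 0 < w.im) : 0 < (-1 / w).im := by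
  rw [neg_div, Complex.neg_im, one_div, Complex.inv_im, neg_div, neg_neg]
  have h0 : w ≠ 0 := fun h => by rw [h] at hw; simp at hw
  exact div_pos hw (Complex.normSq_pos.2 h0)

lemma norm_neg_inv_le {w : ℂ} {t : ℝ} (ht : 0 < t) (hw : t ≤ w.im) : ‖-1 / w‖ ≤ 1 / t := by
  rw [norm_div, norm_neg, norm_one]
  apply one_div_le_one_div_of_le ht
  exact hw.trans ((le_abs_self _).trans (Complex.abs_im_le_norm w))

lemma cN_im_pos (s : ℝ) {z : ℂ} (hz : 0 < z.im) (Ω : Node d → ℝ) (M : ℕ) (x : Node d) :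
    0 < (cN s z Ω M x).im := by
  induction M generalizing x with
  | zero =>
    apply im_neg_inv_pos
    simpa using hz
  | succ M ih =>
    apply im_neg_inv_pos
    have h : (z - s * Ω x + ∑ k : Lt d, cN s z Ω M (ch x k)).im =
        z.im + ∑ k : Lt d, (cN s z Ω M (ch x k)).im := by
      simp [Complex.im_sum]
    rw [h]
    have := Finset.sum_nonneg fun (k : Lt d) (_ : k ∈ univ) => (ih (ch x k)).le
    linarith

lemma dN_im (s : ℝ) {z : ℂ} (hz : 0 < z.im) (Ω : Node d → ℝ) (M : ℕ) (x : Node d) :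
    z.im ≤ (dN s z Ω M x).im := by
  cases M with
  | zero => simp [dN]
  | succ M =>
    have h : (dN s z Ω (M + 1) x).im = z.im + ∑ k : Lt d, (cN s z Ω M (ch x k)).im := by
      simp [dN, Complex.im_sum]
    rw [h]
    have := Finset.sum_nonneg fun (k : Lt d) (_ : k ∈ univ) => (cN_im_pos s hz Ω M (ch x k)).le
    linarith

lemma dN_ne (s : ℝ) {z : ℂ} (hz : 0 < z.im) (Ω : Node d → ℝ) (M : ℕ) (x : Node d) :
    dN s z Ω M x ≠ 0 := by
  intro h
  have := dN_im s hz Ω M x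
  rw [h] at this
  simp at this
  linarith

lemma cN_mul (s : ℝ) {z : ℂ} (hz : 0 < z.im) (Ω : Node d → ℝ) (M : ℕ) (x : Node d) :
    cN s z Ω M x * dN s z Ω M x = -1 := by
  rw [cN_eq, div_mul_cancel₀ _ (dN_ne s hz Ω M x)]

/-- denominator of the Green function at the root of the ball of depth `N + 1` -/
noncomputable def dG (s : ℝ) (z : ℂ) (N : ℕ) (Ω : Node d → ℝ) : ℂ :=
  z - s * Ω r0 + ∑ k : Lt d, cN s z Ω N (ch r0 k) + cN s z Ω (N + 1) (false, [])

/-- Green function at the root of the ball of depth `N + 1` -/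
noncomputable def GN (s : ℝ) (z : ℂ) (N : ℕ) (Ω : Node d → ℝ) : ℂ := -1 / dG s z N Ω

lemma dG_im (s : ℝ) {z : ℂ} (hz : 0 < z.im) (N : ℕ) (Ω : Node d → ℝ) :
    z.im ≤ (dG s z N Ω).im := by
  have h : (dG s z N Ω).im = z.im + ∑ k : Lt d, (cN s z Ω N (ch r0 k)).im +
      (cN s z Ω (N + 1) (false, [])).im := by
    simp [dG, Complex.im_sum]
  rw [h]
  have h1 := Finset.sum_nonneg fun (k : Lt d) (_ : k ∈ univ) => (cN_im_pos s hz Ω N (ch r0 k)).le
  have h2 := cN_im_pos s hz Ω (N + 1) ((false, []) : Node d)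
  linarith

lemma norm_GN_le (s : ℝ) {z : ℂ} (hz : 0 < z.im) (N : ℕ) (Ω : Node d → ℝ) :
    ‖GN s z N Ω‖ ≤ 1 / z.im := norm_neg_inv_le hz (dG_im s hz N Ω)

lemma GN_mul (s : ℝ) {z : ℂ} (hz : 0 < z.im) (N : ℕ) (Ω : Node d → ℝ) :
    GN s z N Ω * dG s z N Ω = -1 := by
  have h0 : dG s z N Ω ≠ 0 := by
    intro h
    have := dG_im s hz N Ω
    rw [h] at this
    simp at this
    linarith
  unfold GN
  rw [div_mul_cancel₀ _ h0]

/-- the Green vector on the nodes, `b` = side, ball of depth `N + 1` -/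
noncomputable def fvA (s : ℝ) (z : ℂ) (N : ℕ) (Ω : Node d → ℝ) (b : Bool) : List (Lt d) → ℂ
  | [] => if b then GN s z N Ω else -cN s z Ω (N + 1) (false, []) * GN s z N Ω
  | k :: l => -cN s z Ω (N - l.length) (b, k :: l) * fvA s z N Ω b l

/-- the Green vector -/
noncomputable def fv (s : ℝ) (z : ℂ) (N : ℕ) (Ω : Node d → ℝ) (x : Node d) : ℂ :=
  fvA s z N Ω x.1 x.2

lemma fv_root (s : ℝ) (z : ℂ) (N : ℕ) (Ω : Node d → ℝ) : fv s z N Ω r0 = GN s z N Ω := rfl

lemma fv_ch (s : ℝ) (z : ℂ) (N : ℕ) (Ω : Node d → ℝ) (x : Node d) (k : Lt d) :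
    fv s z N Ω (ch x k) = -cN s z Ω (N - x.2.length) (ch x k) * fv s z N Ω x := rfl

/-- for `x ≠ r0`: `fv x = -c x * fv (par x)` -/
lemma fv_ne_root (s : ℝ) (z : ℂ) (N : ℕ) (Ω : Node d → ℝ) {x : Node d} (hx : x ≠ r0) :
    fv s z N Ω x = -cN s z Ω (N + 1 - x.2.length) x * fv s z N Ω (par x) := by
  rcases x with ⟨b, _ | ⟨k, l⟩⟩
  · cases b
    · rfl
    · exact absurd rfl hx
  · show -cN s z Ω (N - l.length) (b, k :: l) * fvA s z N Ω b l = _
    simp only [List.length_cons, Nat.add_sub_add_right]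
    rfl

/-- children sum -/
lemma sum_fv_ch (s : ℝ) (z : ℂ) (N : ℕ) (Ω : Node d → ℝ) (x : Node d) (hx : x.2.length ≤ N + 1) :
    ∑ k : Lt d, ext (fun y : V d (N + 1) => fv s z N Ω y.1) (ch x k) =
      - (dN s z Ω (N + 1 - x.2.length) x - (z - s * Ω x)) * fv s z N Ω x := by
  rcases Nat.lt_or_ge x.2.length (N + 1) with h | h
  · have h1 : N + 1 - x.2.length = (N - x.2.length) + 1 := by omega
    rw [h1, dN]
    have h2 : ∀ k : Lt d, ext (fun y : V d (N + 1) => fv s z N Ω y.1) (ch x k) =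
        -cN s z Ω (N - x.2.length) (ch x k) * fv s z N Ω x := by
      intro k
      unfold ext
      rw [dif_pos (by simp only [ch, List.length_cons]; omega)]
      exact fv_ch s z N Ω x k
    simp only [h2]
    rw [← Finset.sum_mul, Finset.sum_neg_distrib]
    ring
  · have h1 : N + 1 - x.2.length = 0 := by omega
    rw [h1, dN]
    have h2 : ∀ k : Lt d, ext (fun y : V d (N + 1) => fv s z N Ω y.1) (ch x k) = 0 := by
      intro k
      unfold ext
      rw [dif_neg (by simp only [ch, List.length_cons]; omega)]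
    simp only [h2]
    simp

/-- (C3) `(HN - z) fv = δ_root` -/
theorem HN_green (s : ℝ) {z : ℂ} (hz : 0 < z.im) (N : ℕ) (Ω : Node d → ℝ) :
    ((HN s (N + 1) Ω).map (fun x : ℝ => (x : ℂ)) -
      z • (1 : Matrix (V d (N + 1)) (V d (N + 1)) ℂ)).mulVec (fun y => fv s z N Ω y.1) =
      Pi.single (rN (N + 1)) 1 := by
  classical
  funext x
  have h1 : ((HN s (N + 1) Ω).map (fun x : ℝ => (x : ℂ)) -
      z • (1 : Matrix (V d (N + 1)) (V d (N + 1)) ℂ)).mulVec (fun y => fv s z N Ω y.1) x =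
      (ext (fun y : V d (N + 1) => fv s z N Ω y.1) (par x.1) +
        ∑ k : Lt d, ext (fun y : V d (N + 1) => fv s z N Ω y.1) (ch x.1 k) +
        s * Ω x.1 * fv s z N Ω x.1) - z * fv s z N Ω x.1 := by
    rw [Matrix.sub_mulVec, Matrix.smul_mulVec, Matrix.one_mulVec]
    simp only [Pi.sub_apply, Pi.smul_apply, smul_eq_mul]
    congr 1
    rw [← sum_row (s : ℂ) (fun x => (Ω x : ℂ)) (fun y : V d (N + 1) => fv s z N Ω y.1) x]
    simp only [Matrix.mulVec, dotProduct, Matrix.map_apply, HN]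
    apply Finset.sum_congr rfl
    intro y _
    congr 1
    push_cast
    congr 1 <;> split_ifs <;> simp
  rw [h1, sum_fv_ch s z N Ω x.1 x.2]
  have hpar : ext (fun y : V d (N + 1) => fv s z N Ω y.1) (par x.1) = fv s z N Ω (par x.1) := by
    unfold ext
    rw [dif_pos ((par_len x.1).trans x.2)]
  rw [hpar]
  by_cases hx : x.1 = r0
  · have hx' : x = rN (N + 1) := Subtype.ext hx
    subst hx'
    rw [Pi.single_eq_same]
    show fv s z N Ω (par (r0 : Node d)) + -(dN s z Ω (N + 1 - (r0 : Node d).2.length) r0 -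
      (z - s * Ω r0)) * fv s z N Ω r0 + s * Ω r0 * fv s z N Ω r0 - z * fv s z N Ω r0 = 1
    have e1 : fv s z N Ω (par (r0 : Node d)) = -cN s z Ω (N + 1) (false, []) * GN s z N Ω := rfl
    have e2 : dN s z Ω (N + 1 - (r0 : Node d).2.length) r0 =
        z - s * Ω r0 + ∑ k : Lt d, cN s z Ω N (ch r0 k) := rfl
    rw [e1, e2, fv_root]
    have e3 := GN_mul s hz N Ω
    unfold dG at e3
    linear_combination -e3
  · have hx' : x ≠ rN (N + 1) := fun h => hx (by rw [h]; rfl)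
    rw [Pi.single_eq_of_ne hx']
    have e1 := fv_ne_root s z N Ω hx
    have e2 := cN_mul s hz Ω (N + 1 - x.1.2.length) x.1
    rw [e1]
    linear_combination (fv s z N Ω (par x.1)) * e2

end green

end Crest.Agent.R166.Ball356
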