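import Crest.Agent.R166.Ball2_356

/-!
# Row 166, section 70 (M1), concrete half, part 3: `∫ GN → Gav`, moments (helper356)
-/

set_option autoImplicit false

open Finset MeasureTheory Filter Topology

namespace Crest.Agent.R166.Ball356

open Crest.ProbabilityR.RandomMatrix Crest.Agent.R166.Env536 Crest.Agent.R166.TreeDefs350
  Crest.Agent.R166.TreeWalk356

/-- the law of the potentials on the nodes -/
noncomputable def PN (d : ℕ) [NeZero d] : Measure (Node d → ℝ) :=
  Measure.infinitePi fun _ : Node d => unif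

instance (d : ℕ) [NeZero d] : IsProbabilityMeasure (PN d) := by unfold PN; infer_instance

section cav

variable {b : ℕ}

/-- letters -/
def lt (j : Fin b) : Lt (b + 1) := ⟨j.succ, Fin.succ_ne_zero j⟩

lemma lt_bij : Function.Bijective (lt : Fin b → Lt (b + 1)) := by
  constructor
  · intro i j h
    have := congrArg Subtype.val h
    exact Fin.succ_injective _ this
  · rintro ⟨k, hk⟩
    obtain ⟨j, rfl⟩ := Fin.exists_succ_eq.2 hk
    exact ⟨j, rfl⟩

/-- letters as an equivalence -/
noncomputable def le : Fin b ≃ Lt (b + 1) := Equiv.ofBijective lt lt_bij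

@[simp] lemma le_apply (j : Fin b) : le j = lt j := rfl

/-- the disorder seen from the node `x` -/
def om (x : Node (b + 1)) (Ω : Node (b + 1) → ℝ) : List (Fin b) → ℝ := fun p =>
  Ω (x.1, (p.map lt).reverse ++ x.2)

lemma sub_om (x : Node (b + 1)) (Ω : Node (b + 1) → ℝ) (j : Fin b) :
    sub j (om x Ω) = om (ch x (lt j)) Ω := by
  funext p
  simp [sub, om, ch]

lemma om_nil (x : Node (b + 1)) (Ω : Node (b + 1) → ℝ) : om x Ω [] = Ω x := rfl

lemma sum_lt {M : Type*} [AddCommMonoid M] (f : Lt (b + 1) → M) :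
    ∑ k, f k = ∑ j : Fin b, f (lt j) := (Equiv.sum_comp le f).symm

lemma cN_eq_Xn (s : ℝ) (z : ℂ) (Ω : Node (b + 1) → ℝ) (M : ℕ) (x : Node (b + 1)) :
    cN s z Ω M x = Xn b s z M (om x Ω) := by
  induction M generalizing x with
  | zero => simp [cN, Xn, om_nil]
  | succ M ih =>
    simp only [cN, Xn, TreeDet350.cav, om_nil]
    rw [sum_lt]
    simp only [ih, sub_om]
    push_cast
    rfl

/-- root potential and the `b + 1` subtrees -/
def TT (Ω : Node (b + 1) → ℝ) : ℝ × (Fin (b + 1) → List (Fin b) → ℝ) :=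
  (Ω r0, Fin.cons (om (false, []) Ω) (fun j => om (ch r0 (lt j)) Ω))

/-- limit Green function -/
noncomputable def GF (s : ℝ) (z : ℂ) (x : ℝ × (Fin (b + 1) → List (Fin b) → ℝ)) : ℂ :=
  -1 / (z - (s * x.1 : ℝ) + ∑ i, XX b s z (x.2 i))

lemma tendsto_GN (s : ℝ) {z : ℂ} (hz : 0 < z.im) (Ω : Node (b + 1) → ℝ) :
    Tendsto (fun N => GN s z N Ω) atTop (𝓝 (GF s z (TT Ω))) := by
  have hX : ∀ ω : List (Fin b) → ℝ, Tendsto (fun N => Xn b s z N ω) atTop (𝓝 (XX b s z ω)) :=
    (TreeT1.t1 b s).tendsto z hz
  have hd : Tendsto (fun N => dG s z N Ω) atTop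
      (𝓝 (z - (s * (TT Ω).1 : ℝ) + ∑ i, XX b s z ((TT Ω).2 i))) := by
    have h1 : ∀ N, dG s z N Ω = z - (s * (TT Ω).1 : ℝ) +
        (Xn b s z (N + 1) (om (false, []) Ω) + ∑ j : Fin b, Xn b s z N (om (ch r0 (lt j)) Ω)) := by
      intro N
      unfold dG
      rw [sum_lt, cN_eq_Xn]
      simp only [cN_eq_Xn, TT]
      push_cast
      ring
    simp only [h1]
    have h2 : ∑ i, XX b s z ((TT Ω).2 i) = XX b s z (om (false, []) Ω) +
        ∑ j : Fin b, XX b s z (om (ch r0 (lt j)) Ω) := by
      rw [Fin.sum_univ_succ]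
      simp [TT]
    rw [h2]
    refine tendsto_const_nhds.add ?_
    refine Tendsto.add ((hX _).comp (tendsto_add_atTop_nat 1)) ?_
    exact tendsto_finsetSum _ fun j _ => hX _
  have hne : z - (s * (TT Ω).1 : ℝ) + ∑ i, XX b s z ((TT Ω).2 i) ≠ 0 := by
    intro h
    have h3 : z.im ≤ (z - (s * (TT Ω).1 : ℝ) + ∑ i, XX b s z ((TT Ω).2 i)).im := by
      refine ge_of_tendsto' ((Complex.continuous_im.tendsto _).comp hd) fun N => ?_
      exact dG_im s hz N Ω
    rw [h] at h3
    simp at h3
    linarith
  unfold GN GF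
  exact tendsto_const_nhds.div hd hne

lemma measurable_om (x : Node (b + 1)) :
    Measurable (om x : (Node (b + 1) → ℝ) → List (Fin b) → ℝ) :=
  measurable_pi_lambda _ fun _ => measurable_pi_apply _

lemma measurable_TT : Measurable (TT : (Node (b + 1) → ℝ) → ℝ × (Fin (b + 1) → List (Fin b) → ℝ)) := by
  refine (measurable_pi_apply _).prodMk (measurable_pi_lambda _ fun i => ?_)
  refine Fin.cases ?_ (fun j => ?_) i
  · exact measurable_om _
  · exact measurable_om _

lemma measurable_GN (s : ℝ) (z : ℂ) (N : ℕ) :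
    Measurable (GN s z N : (Node (b + 1) → ℝ) → ℂ) := by
  have h1 : ∀ (M : ℕ) (x : Node (b + 1)), Measurable fun Ω : Node (b + 1) → ℝ => cN s z Ω M x := by
    intro M x
    simp only [cN_eq_Xn]
    exact (TreeT1.measurable_Xn s z M).comp (measurable_om x)
  unfold GN dG
  refine measurable_const.div (((measurable_const.sub (measurable_const.mul ?_)).add ?_).add ?_)
  · exact Complex.measurable_ofReal.comp (measurable_pi_apply _)
  · exact Finset.measurable_sum _ fun k _ => h1 _ _
  · exact h1 _ _

lemma measurable_GF (s : ℝ) {z : ℂ} (hz : 0 < z.im) :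
    Measurable (GF s z : ℝ × (Fin (b + 1) → List (Fin b) → ℝ) → ℂ) := by
  have hX : Measurable (XX b s z) := (TreeT1.t1 b s).meas z hz
  unfold GF
  refine measurable_const.div ((measurable_const.sub ?_).add ?_)
  · exact Complex.measurable_ofReal.comp (measurable_const.mul measurable_fst)
  · exact Finset.measurable_sum _ fun i _ => hX.comp ((measurable_pi_apply i).comp measurable_snd)

lemma norm_GF_le (s : ℝ) {z : ℂ} (hz : 0 < z.im) (x : ℝ × (Fin (b + 1) → List (Fin b) → ℝ)) :
    ‖GF s z x‖ ≤ 1 / z.im := by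
  apply norm_neg_inv_le hz
  have h1 : (z - (s * x.1 : ℝ) + ∑ i, XX b s z (x.2 i)).im =
      z.im + ∑ i, (XX b s z (x.2 i)).im := by
    simp [Complex.im_sum]
  rw [h1]
  have := Finset.sum_nonneg fun (i : Fin (b + 1)) (_ : i ∈ univ) =>
    ((TreeT1.t1 b s).im_pos z hz (x.2 i)).le
  linarith

/-! ### the law of `TT` -/

/-- letters of `Node` as letters of the `b + 1`-ary tree -/
noncomputable def e' (k : Lt (b + 1)) : Fin (b + 1) := (le.symm k).castSucc

lemma e'_lt (j : Fin b) : e' (lt j) = j.castSucc := by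
  unfold e'
  rw [← le_apply, Equiv.symm_apply_apply]

lemma e'_inj : Function.Injective (e' : Lt (b + 1) → Fin (b + 1)) :=
  (Fin.castSucc_injective b).comp le.symm.injective

/-- nodes as words of the `b + 1`-ary tree -/
noncomputable def JJ (x : Node (b + 1)) : List (Fin (b + 1)) :=
  if x.1 then
    match x.2.reverse with
    | [] => []
    | k :: r => k.1 :: r.map e'
  else 0 :: x.2.reverse.map e'

lemma JJ_inj : Function.Injective (JJ : Node (b + 1) → List (Fin (b + 1))) := by
  rintro ⟨s1, l1⟩ ⟨s2, l2⟩ h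
  have hmap : Function.Injective (List.map (e' : Lt (b + 1) → Fin (b + 1))) :=
    List.map_injective_iff.2 e'_inj
  cases s1 <;> cases s2
  · simp only [JJ, Bool.false_eq_true, if_false, List.cons.injEq, true_and] at h
    have := List.reverse_injective (hmap h)
    rw [this]
  · simp only [JJ, Bool.false_eq_true, if_false, if_true] at h
    rcases h2 : l2.reverse with _ | ⟨k, r⟩
    · rw [h2] at h; simp at h
    · rw [h2] at h
      simp only [List.cons.injEq] at h
      exact absurd h.1.symm k.2
  · simp only [JJ, Bool.false_eq_true, if_false, if_true] at h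
    rcases h2 : l1.reverse with _ | ⟨k, r⟩
    · rw [h2] at h; simp at h
    · rw [h2] at h
      simp only [List.cons.injEq] at h
      exact absurd h.1 k.2
  · simp only [JJ, if_true] at h
    rcases h1 : l1.reverse with _ | ⟨k, r⟩ <;> rcases h2 : l2.reverse with _ | ⟨k', r'⟩
    · have e1 := List.reverse_eq_nil_iff.1 h1
      have e2 := List.reverse_eq_nil_iff.1 h2
      rw [e1, e2]
    · rw [h1, h2] at h; simp at h
    · rw [h1, h2] at h; simp at h
    · rw [h1, h2] at h
      simp only [List.cons.injEq] at h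
      have e1 : k = k' := Subtype.ext h.1
      have e2 : r = r' := hmap h.2
      have e3 : l1.reverse = l2.reverse := by rw [h1, h2, e1, e2]
      rw [List.reverse_injective e3]

/-- restriction of the disorder to the `b`-ary subtree -/
def rst (ω : List (Fin (b + 1)) → ℝ) : List (Fin b) → ℝ := fun p => ω (p.map Fin.castSucc)

lemma measurable_rst : Measurable (rst : (List (Fin (b + 1)) → ℝ) → List (Fin b) → ℝ) :=
  measurable_pi_lambda _ fun _ => measurable_pi_apply _

lemma map_rst : (PT (b + 1)).map rst = PT b := by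
  have h : Function.Injective (List.map (Fin.castSucc : Fin b → Fin (b + 1))) :=
    List.map_injective_iff.2 (Fin.castSucc_injective b)
  exact Measure.map_infinitePi_infinitePi_of_inj (P := fun _ : List (Fin (b + 1)) => unif) h

lemma TT_JJ (ω : List (Fin (b + 1)) → ℝ) :
    TT (fun x => ω (JJ x)) = (ω [], fun i => rst (sub i ω)) := by
  have hm : ∀ p : List (Fin b), (p.map lt).map e' = p.map Fin.castSucc := by
    intro p
    rw [List.map_map]
    apply List.map_congr_left
    intro j _
    exact e'_lt j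
  unfold TT
  refine Prod.ext ?_ ?_
  · show ω (JJ r0) = ω []
    simp [JJ, r0]
  · funext i
    refine Fin.cases ?_ (fun j => ?_) i
    · funext p
      simp only [Fin.cons_zero, om, rst, sub, JJ, Bool.false_eq_true, if_false, List.append_nil,
        List.reverse_reverse, hm]
    · funext p
      simp only [Fin.cons_succ, om, rst, sub, JJ, ch, r0, if_true, List.reverse_append,
        List.reverse_cons, List.reverse_nil, List.nil_append, List.reverse_reverse,
        List.cons_append, hm]
      rfl

theorem map_TT : (PN (b + 1)).map TT = unif.prod (Measure.pi fun _ : Fin (b + 1) => PT b) := by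
  have h1 : (PT (b + 1)).map (fun ω (x : Node (b + 1)) => ω (JJ x)) = PN (b + 1) :=
    Measure.map_infinitePi_infinitePi_of_inj (P := fun _ : List (Fin (b + 1)) => unif) JJ_inj
  have hmJ : Measurable (fun (ω : List (Fin (b + 1)) → ℝ) (x : Node (b + 1)) => ω (JJ x)) :=
    measurable_pi_lambda _ fun _ => measurable_pi_apply _
  have h2 : TT ∘ (fun (ω : List (Fin (b + 1)) → ℝ) (x : Node (b + 1)) => ω (JJ x)) =
      (Prod.map id (fun (y : Fin (b + 1) → List (Fin (b + 1)) → ℝ) i => rst (y i))) ∘
        (fun ω : List (Fin (b + 1)) → ℝ => (ω [], fun j : Fin (b + 1) => sub j ω)) := by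
    funext ω
    exact TT_JJ ω
  have hmr : Measurable (fun (y : Fin (b + 1) → List (Fin (b + 1)) → ℝ) i => rst (b := b) (y i)) :=
    measurable_pi_lambda _ fun i => measurable_rst.comp (measurable_pi_apply i)
  rw [← h1, Measure.map_map measurable_TT hmJ, h2, ← Measure.map_map
    (measurable_id.prodMap hmr) TreeT2_251.measurable_split,
    TreeT2_251.T2_proof (b + 1)]
  rw [← Measure.map_prod_map _ _ measurable_id hmr, Measure.map_id]
  congr 1
  rw [Measure.pi_map_pi (fun i => measurable_rst.aemeasurable)]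
  simp only [map_rst]

end cav

end Crest.Agent.R166.Ball356
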