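import Crest.Agent.R166.Ball3_356

/-!
# Row 166, section 70 (M1), concrete half, part 4: limits and moments (helper356)
-/

set_option autoImplicit false

open Finset MeasureTheory Filter Topology

namespace Crest.Agent.R166.Ball356

open Crest.ProbabilityR.RandomMatrix Crest.Agent.R166.Env536 Crest.Agent.R166.TreeDefs350
  Crest.Agent.R166.TreeWalk356

section lim

variable {b : ℕ}

/-- (C4) the averaged Green function of the balls converges to `Gav` -/
theorem tendsto_integral_GN (s : ℝ) {z : ℂ} (hz : 0 < z.im) :
    Tendsto (fun N => ∫ Ω, GN s z N Ω ∂(PN (b + 1))) atTop (𝓝 (Gav b s z)) := by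
  have h1 : Gav b s z = ∫ Ω, GF s z (TT Ω) ∂(PN (b + 1)) := by
    rw [← integral_map (f := GF s z) measurable_TT.aemeasurable
      (measurable_GF s hz).aestronglyMeasurable, map_TT, integral_prod]
    · rfl
    · exact Integrable.of_bound (measurable_GF s hz).aestronglyMeasurable (1 / z.im)
        (ae_of_all _ fun x => norm_GF_le s hz x)
  rw [h1]
  refine tendsto_integral_of_dominated_convergence (fun _ => 1 / z.im) ?_ ?_ ?_ ?_
  · exact fun N => (measurable_GN s z N).aestronglyMeasurable
  · exact integrable_const _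
  · exact fun N => ae_of_all _ fun Ω => norm_GN_le s hz N Ω
  · exact ae_of_all _ fun Ω => tendsto_GN s hz Ω

lemma integrable_GN (s : ℝ) {z : ℂ} (hz : 0 < z.im) (N : ℕ) :
    Integrable (fun Ω => GN s z N Ω) (PN (b + 1)) :=
  Integrable.of_bound (measurable_GN s z N).aestronglyMeasurable (1 / z.im)
    (ae_of_all _ fun Ω => norm_GN_le s hz N Ω)

end lim

section moments

variable {d : ℕ} [NeZero d]

lemma unif_ae : ∀ᵐ x ∂unif, |x| ≤ 1 := by
  have h : ∀ᵐ x ∂(volume.restrict (Set.Icc (-1 : ℝ) 1)), |x| ≤ 1 := by
    filter_upwards [ae_restrict_mem measurableSet_Icc] with x hx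
    exact abs_le.2 hx
  unfold unif
  exact Measure.ae_smul_measure h _

/-- (C5) the potentials are in the cube -/
theorem ae_cube : ∀ᵐ Ω ∂(PN d), ∀ x, |Ω x| ≤ 1 := by
  rw [ae_all_iff]
  intro x
  have h := (measurePreserving_eval_infinitePi (fun _ : Node d => unif) x)
  exact h.quasiMeasurePreserving.ae unif_ae

lemma integrable_Tl_pow (s : ℝ) (k : ℕ) :
    Integrable (fun Ω => ((Tl s Ω) ^ k) (Pi.single (r0 : Node d) (1 : ℝ)) r0) (PN d) := by
  have h1 := Measure.map_infinitePi_infinitePi_of_inj (P := fun _ : List (Fin d) => unif)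
    (phi_injective (d := d))
  have hm : Measurable (fun (ω : List (Fin d) → ℝ) (x : Node d) => ω (phi x)) :=
    measurable_pi_lambda _ fun _ => measurable_pi_apply _
  unfold PN
  rw [← h1, integrable_map_measure _ hm.aemeasurable]
  · have h2 : (fun Ω : Node d → ℝ => ((Tl s Ω) ^ k) (Pi.single (r0 : Node d) (1 : ℝ)) r0) ∘
        (fun (ω : List (Fin d) → ℝ) (x : Node d) => ω (phi x)) =
        fun ω => ((lazyWalks d k).map fun w => wt s ω w *
          (fun l : List (Fin d) => if l = [] then (1 : ℝ) else 0) (w.headD [])).sum := by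
      funext ω
      rw [← Hw_pow s ω k (fun l : List (Fin d) => if l = [] then (1 : ℝ) else 0)]
      show ((Tl s (ω ∘ phi)) ^ k) (Pi.single (r0 : Node d) (1 : ℝ)) r0 = _
      rw [r0, ← single_comp]
      exact Tl_pow_phi s ω k _ (true, [])
    rw [h2]
    have hl : ∀ l : List (List (List (Fin d))), Integrable (fun ω : List (Fin d) → ℝ =>
        (l.map fun w => wt s ω w *
          (fun l : List (Fin d) => if l = [] then (1 : ℝ) else 0) (w.headD [])).sum)
        (Measure.infinitePi fun _ : List (Fin d) => unif) := by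
      intro l
      induction l with
      | nil => simp
      | cons w l ih =>
        simp only [List.map_cons, List.sum_cons]
        refine Integrable.add ?_ ih
        have hw : ∀ (ω : List (Fin d) → ℝ),
            wt s ω w = ∏ v ∈ w.toFinset, (s * ω v) ^ stayCount w v := fun ω =>
          wt_eq s ω w _ (fun v hv => by simpa using hv)
        simp only [hw]
        exact (integrable_prod_pow s w.toFinset _).mul_const _
    exact hl _
  · exact (Env536.continuous_pow s _ k _).aestronglyMeasurable

/-- (C5) -/
theorem integrable_aeval (s : ℝ) (p : Polynomial ℝ) :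
    Integrable (fun Ω => (Polynomial.aeval (Tl s Ω) p) (Pi.single (r0 : Node d) (1 : ℝ)) r0)
      (PN d) := by
  simp only [Polynomial.aeval_eq_sum_range, LinearMap.sum_apply, Finset.sum_apply,
    LinearMap.smul_apply, Pi.smul_apply, smul_eq_mul]
  exact integrable_finsetSum _ fun k _ => (integrable_Tl_pow s k).const_mul _

/-- (C5) -/
theorem integral_aeval (s : ℝ) (p : Polynomial ℝ) :
    ∫ Ω, (Polynomial.aeval (Tl s Ω) p) (Pi.single (r0 : Node d) (1 : ℝ)) r0 ∂(PN d) =
      ∑ k ∈ Finset.range (p.natDegree + 1), p.coeff k * treeMoment d s k := by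
  simp only [Polynomial.aeval_eq_sum_range, LinearMap.sum_apply, Finset.sum_apply,
    LinearMap.smul_apply, Pi.smul_apply, smul_eq_mul]
  rw [integral_finsetSum _ fun k _ => (integrable_Tl_pow s k).const_mul _]
  apply Finset.sum_congr rfl
  intro k _
  rw [integral_const_mul]
  congr 1
  exact integral_Tl_pow s k

end moments

end Crest.Agent.R166.Ball356
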