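import Crest.Agent.R166.TreeWalk_356
import Crest.Agent.R166.Noise_547
import Crest.Agent.R166.TreeT1_383
import Crest.Agent.R166.TreeT2_251

/-!
# Row 166, section 70 (M1), concrete half (helper356)

Finite balls of the tree `Env536.Node d`: `V N = {x // x.2.length ≤ N}`, the matrix `HN s N Ω`,
its powers at the root, its Green function at the root, and the limit `N → ∞`.
-/

set_option autoImplicit false

open Finset MeasureTheory Filter Topology

namespace Crest.Agent.R166.Ball356

open Crest.ProbabilityR.RandomMatrix Crest.Agent.R166.Env536 Crest.Agent.R166.TreeDefs350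
  Crest.Agent.R166.TreeWalk356

variable {d : ℕ} [NeZero d]

/-- nodes of depth at most `N` -/
abbrev V (d : ℕ) [NeZero d] (N : ℕ) : Type := {x : Node d // x.2.length ≤ N}

instance (N : ℕ) : Finite (V d N) := by
  have h : Set.Finite {x : Node d | x.2.length ≤ N} := by
    have h1 : {x : Node d | x.2.length ≤ N} ⊆
        (Set.univ : Set Bool) ×ˢ {l : List (Lt d) | l.length ≤ N} := by
      intro x hx
      exact ⟨Set.mem_univ _, hx⟩
    exact (Set.finite_univ.prod (List.finite_length_le (Lt d) N)).subset h1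
  exact h

noncomputable instance (N : ℕ) : Fintype (V d N) := Fintype.ofFinite _

/-- the root -/
def r0 : Node d := (true, [])

/-- the root in the ball -/
def rN (N : ℕ) : V d N := ⟨r0, by simp [r0]⟩

/-- the matrix on the ball -/
def HN (s : ℝ) (N : ℕ) (Ω : Node d → ℝ) : Matrix (V d N) (V d N) ℝ := fun x y =>
  (if y.1 = par x.1 ∨ x.1 = par y.1 then 1 else 0) + if x = y then s * Ω x.1 else 0

/-- extension by zero -/
def ext {𝕜 : Type*} [Zero 𝕜] {N : ℕ} (f : V d N → 𝕜) (x : Node d) : 𝕜 :=
  if h : x.2.length ≤ N then f ⟨x, h⟩ else 0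

/-- child -/
def ch (x : Node d) (k : Lt d) : Node d := (x.1, k :: x.2)

lemma par_ch (x : Node d) (k : Lt d) : par (ch x k) = x := rfl

lemma ch_inj (x : Node d) : Function.Injective (ch x) := by
  intro k k' h
  simp only [ch, Prod.mk.injEq, List.cons.injEq] at h
  exact h.2.1

/-- the neighbours of `x` -/
lemma nbr_iff (x y : Node d) : (y = par x ∨ x = par y) ↔ (y = par x ∨ ∃ k, y = ch x k) := by
  constructor
  · rintro (h | h)
    · exact Or.inl h
    · rcases y with ⟨b, _ | ⟨k, l⟩⟩
      · left
        rw [h]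
        simp [par]
      · right
        refine ⟨k, ?_⟩
        rw [h]
        rfl
  · rintro (h | ⟨k, h⟩)
    · exact Or.inl h
    · right; rw [h, par_ch]

lemma ch_ne_par (x : Node d) (k : Lt d) : ch x k ≠ par x := by
  intro h
  have h1 := par_len x
  rw [← h] at h1
  simp [ch] at h1

lemma sum_row {𝕜 : Type*} [Semiring 𝕜] (s : 𝕜) {N : ℕ} (Ω : Node d → 𝕜) (f : V d N → 𝕜)
    (x : V d N) :
    ∑ y : V d N, ((if y.1 = par x.1 ∨ x.1 = par y.1 then (1 : 𝕜) else 0) +
      if x = y then s * Ω x.1 else 0) * f y =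
    ext f (par x.1) + ∑ k : Lt d, ext f (ch x.1 k) + s * Ω x.1 * f x := by
  classical
  simp only [add_mul, Finset.sum_add_distrib, ite_mul, one_mul, zero_mul, Finset.sum_ite_eq,
    Finset.mem_univ, if_true]
  congr 1
  have hpar : (par x.1).2.length ≤ N := (par_len x.1).trans x.2
  have h1 : (univ.filter fun y : V d N => y.1 = par x.1 ∨ x.1 = par y.1) =
      insert (⟨par x.1, hpar⟩ : V d N)
        (univ.filter fun y : V d N => ∃ k, y.1 = ch x.1 k) := by
    ext y
    simp only [Finset.mem_filter, Finset.mem_univ, true_and, Finset.mem_insert]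
    rw [nbr_iff, Subtype.ext_iff]
  rw [← Finset.sum_filter, h1, Finset.sum_insert]
  · congr 1
    · unfold ext; rw [dif_pos hpar]
    · -- children
      have h2 : ∀ k : Lt d, ext f (ch x.1 k) =
          ∑ y : V d N, if y.1 = ch x.1 k then f y else 0 := by
        intro k
        unfold ext
        split_ifs with h
        · rw [Finset.sum_eq_single (⟨ch x.1 k, h⟩ : V d N)]
          · rw [if_pos rfl]
          · intro b _ hb
            rw [if_neg]
            intro hb'
            exact hb (Subtype.ext hb')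
          · intro h'; exact absurd (Finset.mem_univ _) h'
        · rw [Finset.sum_eq_zero]
          intro y _
          rw [if_neg]
          intro hy
          apply h
          rw [← hy]
          exact y.2
      simp only [h2]
      rw [Finset.sum_comm, Finset.sum_filter]
      apply Finset.sum_congr rfl
      intro y _
      by_cases hy : ∃ k, y.1 = ch x.1 k
      · rw [if_pos hy]
        obtain ⟨k, hk⟩ := hy
        rw [Finset.sum_eq_single k]
        · rw [if_pos hk]
        · intro k' _ hk'
          rw [if_neg]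
          intro h
          exact hk' (ch_inj x.1 (h.symm.trans hk))
        · intro h'; exact absurd (Finset.mem_univ _) h'
      · rw [if_neg hy]
        symm
        apply Finset.sum_eq_zero
        intro k _
        rw [if_neg (fun h => hy ⟨k, h⟩)]
  · simp only [Finset.mem_filter, Finset.mem_univ, true_and, not_exists]
    intro k h
    exact ch_ne_par x.1 k h.symm

lemma HN_mulVec (s : ℝ) {N : ℕ} (Ω : Node d → ℝ) (f : V d N → ℝ) (x : V d N) :
    (HN s N Ω).mulVec f x = Tl s Ω (ext f) x.1 := by
  rw [Tl_apply]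
  have h := sum_row s Ω f x
  have h2 : ext f x.1 = f x := by unfold ext; rw [dif_pos x.2]
  rw [h2]
  exact h

lemma HN_symm (s : ℝ) (N : ℕ) (Ω : Node d → ℝ) : (HN s N Ω).IsHermitian := by
  ext x y
  simp only [HN, Matrix.conjTranspose_apply, star_trivial]
  congr 1
  · simp only [or_comm]
  · by_cases h : x = y
    · subst h; rfl
    · rw [if_neg h, if_neg (Ne.symm h)]

/-- powers at the root -/
lemma HN_pow (s : ℝ) {N : ℕ} (Ω : Node d → ℝ) (F : Node d → ℝ) (k : ℕ) (x : V d N)
    (hx : x.1.2.length + k ≤ N) :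
    ((HN s N Ω) ^ k).mulVec (fun y => F y.1) x = ((Tl s Ω) ^ k) F x.1 := by
  induction k generalizing x with
  | zero => simp
  | succ k ih =>
    rw [pow_succ', ← Matrix.mulVec_mulVec, HN_mulVec, pow_succ', Module.End.mul_apply, Tl_apply,
      Tl_apply]
    have key : ∀ y : Node d, y.2.length + k ≤ N →
        ext (((HN s N Ω) ^ k).mulVec (fun y => F y.1)) y = ((Tl s Ω) ^ k) F y := by
      intro y hy
      have hy' : y.2.length ≤ N := by omega
      unfold ext
      rw [dif_pos hy']
      exact ih ⟨y, hy'⟩ hy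
    rw [key (par x.1) (by have := par_len x.1; omega), key x.1 (by omega)]
    congr 2
    apply Finset.sum_congr rfl
    intro j _
    exact key _ (by simp only [List.length_cons]; omega)

lemma HN_pow_root (s : ℝ) {N : ℕ} (Ω : Node d → ℝ) {k : ℕ} (hk : k ≤ N) :
    ((HN s N Ω) ^ k) (rN N) (rN N) = ((Tl s Ω) ^ k) (Pi.single (r0 : Node d) (1 : ℝ)) r0 := by
  classical
  have h := HN_pow s Ω (Pi.single (r0 : Node d) (1 : ℝ)) k (rN N) (by simp [rN, r0]; omega)
  have h2 : (fun y : V d N => (Pi.single (r0 : Node d) (1 : ℝ) : Node d → ℝ) y.1) =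
      Pi.single (rN N) 1 := by
    funext y
    by_cases hy : y = rN N
    · subst hy; simp [rN]
    · rw [Pi.single_eq_of_ne hy, Pi.single_eq_of_ne]
      intro h; exact hy (Subtype.ext h)
  rw [h2, Matrix.mulVec_single_one] at h
  exact h

/-- (C2) -/
theorem HN_aeval_root (s : ℝ) {N : ℕ} (Ω : Node d → ℝ) (p : Polynomial ℝ) (hp : p.natDegree ≤ N) :
    (Polynomial.aeval (HN s N Ω) p) (rN N) (rN N) =
      (Polynomial.aeval (Tl s Ω) p) (Pi.single (r0 : Node d) (1 : ℝ)) r0 := by
  rw [Polynomial.aeval_eq_sum_range, Polynomial.aeval_eq_sum_range, Matrix.sum_apply,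
    LinearMap.sum_apply, Finset.sum_apply]
  refine Finset.sum_congr rfl fun k hk => ?_
  rw [Finset.mem_range] at hk
  rw [Matrix.smul_apply, LinearMap.smul_apply, Pi.smul_apply, HN_pow_root s Ω (by omega)]

/-- (C1) row sums -/
theorem HN_row (s : ℝ) (hs : 0 ≤ s) (N : ℕ) (Ω : Node d → ℝ) (hΩ : ∀ x, |Ω x| ≤ 1) (x : V d N) :
    ∑ y, |HN s N Ω x y| ≤ d + s := by
  classical
  have h1 : ∀ y, |HN s N Ω x y| ≤ ((if y.1 = par x.1 ∨ x.1 = par y.1 then (1 : ℝ) else 0) +
      if x = y then s * |Ω x.1| else 0) * 1 := by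
    intro y
    rw [mul_one]
    refine (abs_add_le _ _).trans (add_le_add ?_ ?_)
    · split_ifs <;> simp
    · split_ifs
      · rw [abs_mul, abs_of_nonneg hs]
      · simp
  refine (Finset.sum_le_sum fun y _ => h1 y).trans ?_
  rw [sum_row s (fun x => |Ω x|) (fun _ => 1) x]
  have h2 : ∀ y : Node d, ext (fun _ : V d N => (1 : ℝ)) y ≤ 1 := by
    intro y; unfold ext; split_ifs <;> simp
  have h3 : Fintype.card (Lt d) + 1 = d := by
    have : Fintype.card (Lt d) = d - 1 := by
      rw [Fintype.card_subtype_compl, Fintype.card_fin, Fintype.card_unique]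
    rw [this]
    have := Nat.pos_of_ne_zero (NeZero.ne d)
    omega
  have h4 : ∑ k : Lt d, ext (fun _ : V d N => (1 : ℝ)) (ch x.1 k) ≤ Fintype.card (Lt d) := by
    refine (Finset.sum_le_sum fun k _ => h2 _).trans ?_
    simp
  have h5 : (d : ℝ) = Fintype.card (Lt d) + 1 := by exact_mod_cast h3.symm
  have h6 := mul_le_mul_of_nonneg_left (hΩ x.1) hs
  have h7 := h2 (par x.1)
  rw [h5]
  linarith

end Crest.Agent.R166.Ball356
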