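import Mathlib

/-!
Row 166, section 42 (helper487).  Conditional Bessel inequality.
-/

set_option autoImplicit false
set_option linter.unusedSectionVars false

namespace Crest.Agent.R166.Bessel487

open MeasureTheory ProbabilityTheory

variable {Ω α σ : Type*} [MeasurableSpace Ω] [MeasurableSpace α] {P : Measure Ω}
  [IsProbabilityMeasure P]

/-- Bessel with bounded coefficients. -/
theorem bessel_bdd (s : Finset σ) {U : Ω → α} (hU : Measurable U) {Z : Ω → ℝ}
    (hZ : MemLp Z 2 P) {ψ : σ → Ω → ℝ} (hψ : ∀ e, Measurable (ψ e)) {C : ℝ} (hC : 0 < C)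
    (hψC : ∀ e x, |ψ e x| ≤ C) {a : σ → α → ℝ} (ha : ∀ e, Measurable (a e))
    (M : ℝ) (haM : ∀ e u, |a e u| ≤ M)
    (h1 : ∀ e ∈ s, ∀ e' ∈ s, e ≠ e' → ∫ x, ψ e x * ψ e' x * (a e (U x) * a e' (U x)) ∂P = 0)
    (h2 : ∀ e ∈ s, ∫ x, Z x * ψ e x * a e (U x) ∂P = ∫ x, a e (U x) ^ 2 ∂P) :
    ∑ e ∈ s, ∫ x, a e (U x) ^ 2 ∂P ≤ C ^ 2 * ∫ x, Z x ^ 2 ∂P := by
  classical
  by_cases hs : s.Nonempty
  swap
  · rw [Finset.not_nonempty_iff_eq_empty] at hs
    rw [hs, Finset.sum_empty]
    exact mul_nonneg (by positivity) (integral_nonneg fun x => sq_nonneg _)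
  obtain ⟨e0, he0⟩ := hs
  have hM : 0 ≤ M := by
    have : Nonempty Ω := by
      by_contra hne
      rw [not_nonempty_iff] at hne
      exact IsProbabilityMeasure.ne_zero P (Measure.eq_zero_of_isEmpty P)
    exact (abs_nonneg _).trans (haM e0 (U this.some))
  have haU : ∀ e, Measurable fun x => a e (U x) := fun e => (ha e).comp hU
  set D : Ω → ℝ := fun x => ∑ e ∈ s, a e (U x) * ψ e x with hD
  have hDm : Measurable D := Finset.measurable_sum _ fun e _ => (haU e).mul (hψ e)
  have hterm : ∀ e x, |a e (U x) * ψ e x| ≤ M * C := by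
    intro e x
    rw [abs_mul]
    exact mul_le_mul (haM _ _) (hψC _ _) (abs_nonneg _) hM
  have hDb : ∀ x, |D x| ≤ s.card * (M * C) := by
    intro x
    refine (Finset.abs_sum_le_sum_abs _ _).trans ?_
    refine (Finset.sum_le_sum fun e _ => hterm e x).trans ?_
    rw [Finset.sum_const, nsmul_eq_mul]
  have hZi : Integrable (fun x => Z x ^ 2) P := hZ.integrable_sq
  have hZ1 : Integrable Z P := hZ.integrable (by norm_num)
  have hbdint : ∀ {f : Ω → ℝ}, Measurable f → ∀ K : ℝ, (∀ x, |f x| ≤ K) → Integrable f P := by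
    intro f hf K hK
    exact Integrable.mono' (integrable_const K) hf.aestronglyMeasurable
      (Filter.Eventually.of_forall fun x => by rw [Real.norm_eq_abs]; exact hK x)
  have hZf : ∀ {f : Ω → ℝ}, Measurable f → ∀ K : ℝ, 0 ≤ K → (∀ x, |f x| ≤ K) →
      Integrable (fun x => Z x * f x) P := by
    intro f hf K hK0 hK
    refine (hZ1.abs.mul_const K).mono' (hZ1.aestronglyMeasurable.mul hf.aestronglyMeasurable)
      (Filter.Eventually.of_forall fun x => ?_)
    rw [Real.norm_eq_abs, abs_mul]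
    exact mul_le_mul_of_nonneg_left (hK x) (abs_nonneg _)
  -- cross term
  have hcross : ∫ x, Z x * D x ∂P = ∑ e ∈ s, ∫ x, a e (U x) ^ 2 ∂P := by
    have h3 : (fun x => Z x * D x) = fun x => ∑ e ∈ s, Z x * ψ e x * a e (U x) := by
      ext x
      rw [hD, Finset.mul_sum]
      exact Finset.sum_congr rfl fun e _ => by ring
    rw [h3, integral_finsetSum]
    · exact Finset.sum_congr rfl fun e he => h2 e he
    · intro e _
      have := hZf (f := fun x => a e (U x) * ψ e x) ((haU e).mul (hψ e)) (M * C)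
        (by positivity) (hterm e)
      refine this.congr (Filter.Eventually.of_forall fun x => ?_)
      simp only
      ring
  -- square term
  have hsq : ∫ x, D x ^ 2 ∂P ≤ C ^ 2 * ∑ e ∈ s, ∫ x, a e (U x) ^ 2 ∂P := by
    have h3 : (fun x => D x ^ 2) = fun x => ∑ e ∈ s, ∑ e' ∈ s,
        ψ e x * ψ e' x * (a e (U x) * a e' (U x)) := by
      ext x
      rw [hD, sq, Finset.sum_mul_sum]
      exact Finset.sum_congr rfl fun e _ => Finset.sum_congr rfl fun e' _ => by ring
    have hint : ∀ e e', Integrable (fun x => ψ e x * ψ e' x * (a e (U x) * a e' (U x))) P := by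
      intro e e'
      refine hbdint (((hψ e).mul (hψ e')).mul ((haU e).mul (haU e'))) ((C * C) * (M * M)) ?_
      intro x
      rw [abs_mul, abs_mul, abs_mul]
      exact mul_le_mul (mul_le_mul (hψC _ _) (hψC _ _) (abs_nonneg _) hC.le)
        (mul_le_mul (haM _ _) (haM _ _) (abs_nonneg _) hM)
        (mul_nonneg (abs_nonneg _) (abs_nonneg _)) (by positivity)
    rw [h3, integral_finsetSum _ fun e _ => integrable_finsetSum _ fun e' _ => hint e e',
      Finset.mul_sum]
    refine Finset.sum_le_sum fun e he => ?_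
    rw [integral_finsetSum _ fun e' _ => hint e e', Finset.sum_eq_single e]
    · rw [← integral_const_mul]
      refine integral_mono (hint e e) ?_ fun x => ?_
      · refine Integrable.const_mul ?_ _
        refine hbdint ((haU e).pow_const 2) (M ^ 2) fun x => ?_
        rw [abs_pow]
        exact pow_le_pow_left₀ (abs_nonneg _) (haM _ _) 2
      · have h5 : ψ e x ^ 2 ≤ C ^ 2 := by
          rw [← sq_abs (ψ e x)]
          exact pow_le_pow_left₀ (abs_nonneg _) (hψC e x) 2
        have h6 := mul_le_mul_of_nonneg_right h5 (sq_nonneg (a e (U x)))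
        simp only
        nlinarith
    · intro e' he' hne
      exact h1 e he e' he' hne.symm
    · intro h; exact absurd he h
  have hD2 : Integrable (fun x => D x ^ 2) P := by
    refine hbdint (hDm.pow_const 2) ((s.card * (M * C)) ^ 2) fun x => ?_
    rw [abs_pow]
    exact pow_le_pow_left₀ (abs_nonneg _) (hDb x) 2
  have hZD : Integrable (fun x => Z x * D x) P :=
    hZf hDm (s.card * (M * C)) (by positivity) hDb
  have hpos : 0 ≤ ∫ x, (Z x - (C ^ 2)⁻¹ * D x) ^ 2 ∂P := integral_nonneg fun x => sq_nonneg _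
  have hexp : ∫ x, (Z x - (C ^ 2)⁻¹ * D x) ^ 2 ∂P =
      (∫ x, Z x ^ 2 ∂P) - 2 * (C ^ 2)⁻¹ * (∫ x, Z x * D x ∂P) +
        ((C ^ 2)⁻¹) ^ 2 * ∫ x, D x ^ 2 ∂P := by
    have e1 := integral_sub hZi (hZD.const_mul (2 * (C ^ 2)⁻¹))
    have e2 := integral_add (hZi.sub (hZD.const_mul (2 * (C ^ 2)⁻¹)))
      (hD2.const_mul (((C ^ 2)⁻¹) ^ 2))
    rw [← integral_const_mul, ← integral_const_mul, ← e1]
    refine Eq.trans ?_ e2
    congr 1
    ext x
    simp only [Pi.sub_apply]
    ring
  rw [hexp, hcross] at hpos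
  have hC2 : 0 < C ^ 2 := by positivity
  set Sg := ∑ e ∈ s, ∫ x, a e (U x) ^ 2 ∂P with hSg
  have h7 : ((C ^ 2)⁻¹) ^ 2 * ∫ x, D x ^ 2 ∂P ≤ (C ^ 2)⁻¹ * Sg := by
    calc ((C ^ 2)⁻¹) ^ 2 * ∫ x, D x ^ 2 ∂P ≤ ((C ^ 2)⁻¹) ^ 2 * (C ^ 2 * Sg) :=
          mul_le_mul_of_nonneg_left hsq (by positivity)
      _ = (C ^ 2)⁻¹ * Sg := by field_simp
  have h8 : (C ^ 2)⁻¹ * Sg ≤ ∫ x, Z x ^ 2 ∂P := by nlinarith
  calc Sg = C ^ 2 * ((C ^ 2)⁻¹ * Sg) := by field_simp
    _ ≤ C ^ 2 * ∫ x, Z x ^ 2 ∂P := mul_le_mul_of_nonneg_left h8 hC2.le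

/-- **Conditional Bessel inequality.**  `c e` = coefficient functions of the environment, only used
through truncations. -/
theorem bessel (s : Finset σ) {U : Ω → α} (hU : Measurable U) {Z : Ω → ℝ}
    (hZ : MemLp Z 2 P) {ψ : σ → Ω → ℝ} (hψ : ∀ e, Measurable (ψ e)) {C : ℝ} (hC : 0 < C)
    (hψC : ∀ e x, |ψ e x| ≤ C) {c : σ → α → ℝ} (hc : ∀ e, Measurable (c e))
    (h1 : ∀ e ∈ s, ∀ e' ∈ s, e ≠ e' → ∀ a : α → ℝ, Measurable a → (∀ u, |a u| ≤ 1) →
      ∫ x, ψ e x * ψ e' x * a (U x) ∂P = 0)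
    (h2 : ∀ e ∈ s, ∀ a : α → ℝ, Measurable a → (∀ u, |a u| ≤ 1) →
      (∃ M : ℝ, ∀ u, a u ≠ 0 → |c e u| ≤ M) →
      ∫ x, Z x * ψ e x * a (U x) ∂P = ∫ x, c e (U x) * a (U x) ∂P) :
    (∀ e ∈ s, Integrable (fun x => c e (U x) ^ 2) P) ∧
    ∑ e ∈ s, ∫ x, c e (U x) ^ 2 ∂P ≤ C ^ 2 * ∫ x, Z x ^ 2 ∂P := by
  classical
  -- truncations
  set a : ℕ → σ → α → ℝ := fun M e => {u | |c e u| ≤ M}.indicator (c e) with ha
  have haS : ∀ (M : ℕ) e, MeasurableSet {u | |c e u| ≤ (M : ℝ)} := fun M e =>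
    measurableSet_le (hc e).abs measurable_const
  have ham : ∀ M e, Measurable (a M e) := fun M e => (hc e).indicator (haS M e)
  have haM : ∀ (M : ℕ) e u, |a M e u| ≤ M := by
    intro M e u
    by_cases hu : |c e u| ≤ M
    · have : a M e u = c e u := Set.indicator_of_mem (s := {u | |c e u| ≤ (M : ℝ)}) hu _
      rw [this]; exact hu
    · have : a M e u = 0 := Set.indicator_of_notMem (s := {u | |c e u| ≤ (M : ℝ)}) hu _
      rw [this, abs_zero]; positivity
  have hle : ∀ (M : ℕ) e u, a M e u ^ 2 ≤ c e u ^ 2 := by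
    intro M e u
    by_cases hu : |c e u| ≤ M
    · have : a M e u = c e u := Set.indicator_of_mem (s := {u | |c e u| ≤ (M : ℝ)}) hu _
      rw [this]
    · have : a M e u = 0 := Set.indicator_of_notMem (s := {u | |c e u| ≤ (M : ℝ)}) hu _
      rw [this]; simpa using sq_nonneg (c e u)
  have hb : ∀ M : ℕ, ∑ e ∈ s, ∫ x, a M e (U x) ^ 2 ∂P ≤ C ^ 2 * ∫ x, Z x ^ 2 ∂P := by
    intro M
    refine bessel_bdd s hU hZ hψ hC hψC (fun e => ham M e) M (fun e u => haM M e u) ?_ ?_
    · intro e he e' he' hne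
      have := h1 e he e' he' hne (fun u => a M e u * a M e' u / ((M : ℝ) ^ 2 + 1))
        (((ham M e).mul (ham M e')).div_const _) (fun u => by
          rw [abs_div, abs_mul, abs_of_pos (by positivity : (0 : ℝ) < (M : ℝ) ^ 2 + 1),
            div_le_one (by positivity)]
          have := mul_le_mul (haM M e u) (haM M e' u) (abs_nonneg _) (by positivity)
          nlinarith)
      have h3 : ∀ x, ψ e x * ψ e' x * (a M e (U x) * a M e' (U x)) =
          ((M : ℝ) ^ 2 + 1) * (ψ e x * ψ e' x * (a M e (U x) * a M e' (U x) /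
            ((M : ℝ) ^ 2 + 1))) := by
        intro x; field_simp
      simp_rw [h3]
      rw [integral_const_mul, this, mul_zero]
    · intro e he
      have := h2 e he (fun u => a M e u / ((M : ℝ) + 1)) ((ham M e).div_const _) (fun u => by
          rw [abs_div, abs_of_pos (by positivity : (0 : ℝ) < (M : ℝ) + 1),
            div_le_one (by positivity)]
          have := haM M e u
          linarith) ⟨M, fun u hu => by
            by_contra hcon
            apply hu
            have : a M e u = 0 := Set.indicator_of_notMem (s := {u | |c e u| ≤ (M : ℝ)}) hcon _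
            rw [this, zero_div]⟩
      have h3 : ∀ x, Z x * ψ e x * a M e (U x) = ((M : ℝ) + 1) *
          (Z x * ψ e x * (a M e (U x) / ((M : ℝ) + 1))) := by
        intro x; field_simp
      have h4 : ∀ x, a M e (U x) ^ 2 = ((M : ℝ) + 1) *
          (c e (U x) * (a M e (U x) / ((M : ℝ) + 1))) := by
        intro x
        have h5 : c e (U x) * a M e (U x) = a M e (U x) ^ 2 := by
          by_cases hu : |c e (U x)| ≤ M
          · have : a M e (U x) = c e (U x) :=
              Set.indicator_of_mem (s := {u | |c e u| ≤ (M : ℝ)}) hu _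
            rw [this]; ring
          · have : a M e (U x) = 0 :=
              Set.indicator_of_notMem (s := {u | |c e u| ≤ (M : ℝ)}) hu _
            rw [this]; ring
        rw [← h5]; field_simp
      simp_rw [h3, h4]
      rw [integral_const_mul, integral_const_mul, this]
  have hev : ∀ e u, ∃ M0 : ℕ, ∀ M : ℕ, M0 ≤ M → a M e u = c e u := by
    intro e u
    obtain ⟨M0, hM0⟩ := exists_nat_ge |c e u|
    refine ⟨M0, fun M hM => ?_⟩
    have h2 : (M0 : ℝ) ≤ M := by exact_mod_cast hM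
    exact Set.indicator_of_mem (s := {u | |c e u| ≤ (M : ℝ)}) (le_trans hM0 h2) _
  have hBd : ∀ (M : ℕ) e, e ∈ s → ∫ x, a M e (U x) ^ 2 ∂P ≤ C ^ 2 * ∫ x, Z x ^ 2 ∂P := by
    intro M e he
    refine le_trans ?_ (hb M)
    exact Finset.single_le_sum (f := fun e => ∫ x, a M e (U x) ^ 2 ∂P)
      (fun e _ => integral_nonneg fun x => sq_nonneg _) he
  have hai : ∀ (M : ℕ) e, Integrable (fun x => a M e (U x) ^ 2) P := by
    intro M e
    refine Integrable.mono' (integrable_const ((M : ℝ) ^ 2))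
      (((ham M e).comp hU).pow_const 2).aestronglyMeasurable
      (Filter.Eventually.of_forall fun x => ?_)
    rw [Real.norm_eq_abs, abs_pow]
    exact pow_le_pow_left₀ (abs_nonneg _) (haM _ _ _) 2
  have hint : ∀ e ∈ s, Integrable (fun x => c e (U x) ^ 2) P := by
    intro e he
    have hlim : ∀ᵐ x ∂P, Filter.Tendsto (fun M : ℕ => a M e (U x) ^ 2) Filter.atTop
        (nhds (c e (U x) ^ 2)) := by
      refine Filter.Eventually.of_forall fun x => ?_
      obtain ⟨M0, hM0⟩ := hev e (U x)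
      refine tendsto_const_nhds.congr' ?_
      filter_upwards [Filter.eventually_ge_atTop M0] with M hM
      rw [hM0 M hM]
    refine ⟨(((hc e).comp hU).pow_const 2).aestronglyMeasurable, ?_⟩
    rw [hasFiniteIntegral_iff_enorm]
    have hF := lintegral_liminf_le (μ := P) (u := Filter.atTop)
      (f := fun (M : ℕ) x => ‖a M e (U x) ^ 2‖ₑ)
      (fun M => (((ham M e).comp hU).pow_const 2).enorm)
    have hK : ∀ M : ℕ, ∫⁻ x, ‖a M e (U x) ^ 2‖ₑ ∂P ≤
        ENNReal.ofReal (C ^ 2 * ∫ x, Z x ^ 2 ∂P) := by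
      intro M
      have h5 := ofReal_integral_norm_eq_lintegral_enorm (hai M e)
      rw [← h5]
      apply ENNReal.ofReal_le_ofReal
      have h6 : ∀ x, ‖a M e (U x) ^ 2‖ = a M e (U x) ^ 2 := fun x => by
        rw [Real.norm_eq_abs, abs_of_nonneg (sq_nonneg _)]
      simp_rw [h6]
      exact hBd M e he
    have h7 : ∫⁻ x, ‖c e (U x) ^ 2‖ₑ ∂P ≤
        ∫⁻ x, Filter.liminf (fun M : ℕ => ‖a M e (U x) ^ 2‖ₑ) Filter.atTop ∂P := by
      apply lintegral_mono_ae
      filter_upwards [hlim] with x hx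
      have := (continuous_enorm.tendsto _).comp hx
      exact this.liminf_eq.symm.le
    refine lt_of_le_of_lt (h7.trans (hF.trans ?_)) (ENNReal.ofReal_lt_top
      (r := C ^ 2 * ∫ x, Z x ^ 2 ∂P))
    exact Filter.liminf_le_of_le (by isBoundedDefault) (fun b hb => by
      obtain ⟨M, hM⟩ := hb.exists
      exact hM.trans (hK M))
  refine ⟨hint, ?_⟩
  have hlim : Filter.Tendsto (fun M : ℕ => ∑ e ∈ s, ∫ x, a M e (U x) ^ 2 ∂P) Filter.atTop
      (nhds (∑ e ∈ s, ∫ x, c e (U x) ^ 2 ∂P)) := by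
    refine tendsto_finsetSum _ fun e he => ?_
    refine tendsto_integral_of_dominated_convergence (fun x => c e (U x) ^ 2)
      (fun M => (((ham M e).comp hU).pow_const 2).aestronglyMeasurable) (hint e he)
      (fun M => Filter.Eventually.of_forall fun x => ?_) (Filter.Eventually.of_forall fun x => ?_)
    · rw [Real.norm_eq_abs, abs_of_nonneg (sq_nonneg _)]
      exact hle M e _
    · obtain ⟨M0, hM0⟩ := hev e (U x)
      refine tendsto_const_nhds.congr' ?_
      filter_upwards [Filter.eventually_ge_atTop M0] with M hM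
      rw [hM0 M hM]
  exact le_of_tendsto' hlim hb

end Crest.Agent.R166.Bessel487
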