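import Crest.Agent.R166.SpecF3b_798
import Crest.Agent.R166.FineDet2_522
import Crest.Agent.R166.Stab_269

/-!
# Row 166, section 32 (graph half): `BlkCmp` (helper547)

Two fine edge blocks whose cavity blocks have small off-diagonal entries and `rho`-close diagonal
entries are close entrywise.
-/

set_option autoImplicit false
set_option maxHeartbeats 400000

open Matrix

namespace Crest.Agent.R166.BlkCmp547

open Crest.Agent.R166 Crest.Agent.R166.Stab269 Crest.Agent.R166.Fine522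
open Crest.Agent.R166.Res598 Crest.Agent.R166.Dec598 Crest.Agent.R166.Off522
open Crest.Agent.R166.TreeDet350 (rho)

attribute [local instance] Matrix.linftyOpNormedRing Matrix.linftyOpNormedAlgebra

/-- the difference of two blocks through the difference of their cavity blocks -/
theorem sub_eq_cavB {B B' : Matrix (Fin 2) (Fin 2) ℂ} (hB : IsUnit B.det) (hB' : IsUnit B'.det)
    (h0 : IsUnit (B⁻¹ - W2).det) (h0' : IsUnit (B'⁻¹ - W2).det) :
    B - B' = (1 - B * W2) * (cavB B - cavB B') * (1 - W2 * B') := by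
  have e1 : (B⁻¹ - W2) * cavB B = 1 := Matrix.mul_nonsing_inv _ h0
  have e2 : cavB B' * (B'⁻¹ - W2) = 1 := Matrix.nonsing_inv_mul _ h0'
  have b1 : B * B⁻¹ = 1 := Matrix.mul_nonsing_inv _ hB
  have b2 : B'⁻¹ * B' = 1 := Matrix.nonsing_inv_mul _ hB'
  have f1 : 1 - B * W2 = B * (B⁻¹ - W2) := by
    rw [mul_sub, b1]
  have f2 : 1 - W2 * B' = (B'⁻¹ - W2) * B' := by
    rw [sub_mul, b2]
  rw [f1, f2]
  have g1 : B * (B⁻¹ - W2) * (cavB B - cavB B') * ((B'⁻¹ - W2) * B')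
      = B * (((B⁻¹ - W2) * cavB B) * (B'⁻¹ - W2) - (B⁻¹ - W2) * (cavB B' * (B'⁻¹ - W2))) * B' := by
    noncomm_ring
  rw [g1, e1, e2, one_mul, mul_one]
  have g2 : (B'⁻¹ - W2) - (B⁻¹ - W2) = B'⁻¹ - B⁻¹ := by abel
  rw [g2, mul_sub, sub_mul, b1, one_mul, mul_assoc, b2, mul_one]

/-- Siegel blocks are regular -/
theorem regB_of_siegel {B : Matrix (Fin 2) (Fin 2) ℂ} (hB : Siegel B) : RegB B := by
  refine ⟨hB.isUnit, ?_⟩
  have hV : (-W2r)ᵀ = -W2r := by rw [Matrix.transpose_neg, W2r_symm]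
  have h1 := mob_inv hB hV
  have h2 := siegel_mob hB hV
  have h3 : cx (-W2r) = -Stab269.W2 := by
    rw [← cx_W2r]; ext i j; simp
  rw [h3, ← sub_eq_add_neg] at h1
  rw [← h1]
  exact Matrix.isUnit_nonsing_inv_det _ h2.isUnit

/-- a block bound from a bound of the difference of the cavity blocks -/
theorem blk_norm_sub_le {c M : ℝ} {B B' : Matrix (Fin 2) (Fin 2) ℂ} (h : Fine c B) (h' : Fine c B')
    (hM : ∀ i j, ‖(cavB B - cavB B') i j‖ ≤ M) :
    ‖B - B'‖ ≤ (1 + 2 * c⁻¹) ^ 2 * (2 * M) := by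
  have hc := h.pos
  have r := regB_of_siegel h.siegel
  have r' := regB_of_siegel h'.siegel
  rw [sub_eq_cavB r.det r'.det r.det0 r'.det0]
  have n1 : ‖(1 : Matrix (Fin 2) (Fin 2) ℂ)‖ = 1 := norm_one
  have hBn := norm_le_of_entries h.le
  have hBn' := norm_le_of_entries h'.le
  have a1 : ‖1 - B * W2‖ ≤ 1 + 2 * c⁻¹ := by
    refine (norm_sub_le _ _).trans ?_
    rw [n1]
    have : ‖B * W2‖ ≤ 2 * c⁻¹ := by
      refine (norm_mul_le _ _).trans ?_
      calc ‖B‖ * ‖W2‖ ≤ (2 * c⁻¹) * 1 :=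
            mul_le_mul hBn norm_W2_le (norm_nonneg _) (by positivity)
        _ = 2 * c⁻¹ := mul_one _
    linarith
  have a2 : ‖1 - W2 * B'‖ ≤ 1 + 2 * c⁻¹ := by
    refine (norm_sub_le _ _).trans ?_
    rw [n1]
    have : ‖W2 * B'‖ ≤ 2 * c⁻¹ := by
      refine (norm_mul_le _ _).trans ?_
      calc ‖W2‖ * ‖B'‖ ≤ 1 * (2 * c⁻¹) :=
            mul_le_mul norm_W2_le hBn' (norm_nonneg _) zero_le_one
        _ = 2 * c⁻¹ := one_mul _
    linarith
  have a3 : ‖cavB B - cavB B'‖ ≤ 2 * M := norm_le_of_entries hM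
  have hM0 : 0 ≤ 2 * M := (norm_nonneg _).trans a3
  have hk : (0 : ℝ) ≤ 1 + 2 * c⁻¹ := by positivity
  calc ‖(1 - B * W2) * (cavB B - cavB B') * (1 - W2 * B')‖
      ≤ ‖1 - B * W2‖ * ‖cavB B - cavB B'‖ * ‖1 - W2 * B'‖ :=
        (norm_mul_le _ _).trans (mul_le_mul_of_nonneg_right (norm_mul_le _ _) (norm_nonneg _))
    _ ≤ (1 + 2 * c⁻¹) * (2 * M) * (1 + 2 * c⁻¹) := by
        refine mul_le_mul (mul_le_mul a1 a3 (norm_nonneg _) hk) a2 (norm_nonneg _)
          (mul_nonneg hk hM0)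
    _ = _ := by ring

/-- the imaginary part of a diagonal entry of a fine matrix is positive -/
theorem im_diag_pos {c : ℝ} {Z : Matrix (Fin 2) (Fin 2) ℂ} (h : Fine c Z) (k : Fin 2) :
    0 < (Z k k).im := by
  have h1 := h.im (Pi.single k 1)
  rw [← im_form h.symm] at h1
  have e2 : (star (Pi.single k (1 : ℂ)) ⬝ᵥ (Z *ᵥ Pi.single k 1)) = Z k k := by
    have e3 : star (Pi.single k (1 : ℂ)) = (Pi.single k (1 : ℂ) : Fin 2 → ℂ) := by
      rw [← Pi.single_star, star_one]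
    rw [e3]; simp
  rw [e2] at h1
  have h2 : ∑ i : Fin 2, ‖(Pi.single k (1 : ℂ) : Fin 2 → ℂ) i‖ ^ 2 = 1 := by
    rw [Finset.sum_eq_single k]
    · simp
    · intro j _ hj
      rw [Pi.single_eq_of_ne hj]; simp
    · simp
  rw [h2, mul_one] at h1
  exact lt_of_lt_of_le h.pos h1

/-- `rho`-close points of the upper half plane in a disc are close -/
theorem norm_sub_le_of_rho {x y : ℂ} {δ K : ℝ} (hx : 0 < x.im) (hy : 0 < y.im)
    (hxK : ‖x‖ ≤ K) (hyK : ‖y‖ ≤ K) (hδ : 0 ≤ δ) (h : rho x y ≤ δ) :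
    ‖x - y‖ ≤ δ * (2 * K) := by
  have hne : x - (starRingEnd ℂ) y ≠ 0 := by
    intro h0
    have := congrArg Complex.im h0
    simp only [Complex.sub_im, Complex.conj_im, Complex.zero_im] at this
    linarith
  have hpos : 0 < ‖x - (starRingEnd ℂ) y‖ := norm_pos_iff.2 hne
  unfold TreeDet350.rho at h
  rw [div_le_iff₀ hpos] at h
  refine h.trans (mul_le_mul_of_nonneg_left ?_ hδ)
  refine (norm_sub_le _ _).trans ?_
  rw [Complex.norm_conj]
  linarith

theorem blkCmp : SpecF3.BlkCmp := by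
  intro κ hκ ε hε
  set k1 := kap1 2 κ with hk1
  have hk1p : 0 < k1 := kap1_pos hκ
  set P : ℝ := (1 + 2 * κ⁻¹) ^ 2 * (2 * (2 + 2 * k1⁻¹)) with hP
  have hPp : 0 < P := by positivity
  refine ⟨ε / P, by positivity, ?_⟩
  intro B B' hB hB' ho ho' hr0 hr1
  set δ := ε / P with hδ
  have hδ0 : 0 < δ := by positivity
  have hC : Fine k1 (cavB B) := hB.cavB
  have hC' : Fine k1 (cavB B') := hB'.cavB
  have hk : 0 ≤ k1⁻¹ := by positivity
  have hdiag : ∀ i : Fin 2, rho (cavB B i i) (cavB B' i i) ≤ δ →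
      ‖(cavB B - cavB B') i i‖ ≤ δ * (2 + 2 * k1⁻¹) := by
    intro i hi
    have h1 := norm_sub_le_of_rho (im_diag_pos hC i) (im_diag_pos hC' i) (hC.le i i) (hC'.le i i)
      hδ0.le hi
    rw [Matrix.sub_apply]
    refine h1.trans (mul_le_mul_of_nonneg_left (by linarith) hδ0.le)
  have hoff : ‖(cavB B - cavB B') 0 1‖ ≤ δ * (2 + 2 * k1⁻¹) := by
    rw [Matrix.sub_apply]
    refine (norm_sub_le _ _).trans ?_
    nlinarith
  have hsymm : (cavB B - cavB B') 1 0 = (cavB B - cavB B') 0 1 := by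
    have e1 := congrFun (congrFun hC.symm 0) 1
    have e2 := congrFun (congrFun hC'.symm 0) 1
    rw [Matrix.transpose_apply] at e1 e2
    rw [Matrix.sub_apply, Matrix.sub_apply, e1, e2]
  have hall : ∀ i j, ‖(cavB B - cavB B') i j‖ ≤ δ * (2 + 2 * k1⁻¹) := by
    intro i j
    fin_cases i <;> fin_cases j
    · exact hdiag 0 hr0
    · exact hoff
    · show ‖(cavB B - cavB B') 1 0‖ ≤ _
      rw [hsymm]; exact hoff
    · exact hdiag 1 hr1
  have hfin := blk_norm_sub_le hB hB' hall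
  have hval : (1 + 2 * κ⁻¹) ^ 2 * (2 * (δ * (2 + 2 * k1⁻¹))) = ε := by
    have : (1 + 2 * κ⁻¹) ^ 2 * (2 * (δ * (2 + 2 * k1⁻¹))) = δ * P := by rw [hP]; ring
    rw [this, hδ, div_mul_cancel₀ _ hPp.ne']
  rw [hval] at hfin
  unfold bnorm
  refine max_le (max_le ?_ ?_) (max_le ?_ ?_) <;>
    exact (entry_le_norm _ _ _).trans hfin

end Crest.Agent.R166.BlkCmp547
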