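import Crest.Agent.R166.SpecA_598
import Crest.Agent.R166.ScaleV_355
import Crest.Agent.R166.ObsB_269

/-!
# R166, sections 30/31/32 (helper355): from Theorem A (cavity blocks) to the edge blocks

* `sub_Bclean` : `B - Bclean = (1 - B W)(B⁰ - m I)(1 - W Bclean)`
* `bnorm_sub_le` : `bnorm (B - Bclean) ≤ 49 dev` if `dev ≤ 1/14`, for every `d ≥ 3`, every energy
* `eAvg_le` : fraction of bad blocks ≤ `V / r²`
* `BlkLaw0` (helper501's Prop) from `SpecA.ThmA`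
-/

set_option autoImplicit false

open Matrix Finset

namespace Crest.Agent.R166.BlkLaw355

open Crest.Agent.R166 Crest.Agent.R166.Root355 Crest.Agent.R166.Stab269
  Crest.ProbabilityR.RandomMatrix

attribute [local instance] Matrix.linftyOpNormedRing Matrix.linftyOpNormedAlgebra

/-! ### the clean block -/

section Clean

variable {d : ℕ} {z : ℂ}

lemma d_real (hd : 3 ≤ d) : (2 : ℝ) ≤ (d : ℝ) - 1 := by
  have : (3 : ℝ) ≤ d := by exact_mod_cast hd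
  linarith

/-- `|mc|² ≤ 1/2` for `d ≥ 3` -/
lemma root_sq_le {b : ℝ} {m : ℂ} (h : IsRoot b z m) (hb : 2 ≤ b) (hz : 0 ≤ z.im) :
    ‖m‖ ^ 2 ≤ 1 / 2 := by
  have h1 := h.b_normSq_le hz
  rw [Complex.normSq_eq_norm_sq] at h1
  nlinarith [sq_nonneg ‖m‖]

lemma root_norm_le {b : ℝ} {m : ℂ} (h : IsRoot b z m) (hb : 2 ≤ b) (hz : 0 ≤ z.im) :
    ‖m‖ ≤ 5 / 7 := by
  have h1 := root_sq_le h hb hz
  nlinarith [norm_nonneg m]

/-- the clean block satisfies `Bclean (m⁻¹ + W) = 1` -/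
lemma Bclean_inv {m : ℂ} (hm : mc d z = m) (hm0 : m ≠ 0) (hm1 : m ^ 2 ≠ 1) :
    Bclean d z * (m⁻¹ • (1 : Matrix (Fin 2) (Fin 2) ℂ) + W2) = 1 ∧
      (m⁻¹ • (1 : Matrix (Fin 2) (Fin 2) ℂ) + W2) * Bclean d z = 1 := by
  have h2 : 1 - m ^ 2 ≠ 0 := fun h3 => hm1 (by linear_combination -h3)
  have hB : Bclean d z = !![m / (1 - m ^ 2), -m ^ 2 / (1 - m ^ 2);
      -m ^ 2 / (1 - m ^ 2), m / (1 - m ^ 2)] := by
    have := Bclean_eq (d := d) (z := z) (by rw [hm]; exact hm0) (by rw [hm]; exact hm1)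
    rw [this, hm]
  have hW : m⁻¹ • (1 : Matrix (Fin 2) (Fin 2) ℂ) + W2 = !![m⁻¹, 1; 1, m⁻¹] := by
    ext i j
    fin_cases i <;> fin_cases j <;> simp [W2]
  rw [hB, hW]
  constructor
  · ext i j
    fin_cases i <;> fin_cases j <;> simp [Matrix.mul_apply, Fin.sum_univ_two] <;> field_simp <;> ring
  · ext i j
    fin_cases i <;> fin_cases j <;> simp [Matrix.mul_apply, Fin.sum_univ_two] <;> field_simp <;> ring

/-- the clean block is bounded by `5/2`, uniformly in `d ≥ 3` and the energy -/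
lemma norm_Bclean_le {m : ℂ} (hm : mc d z = m) (hm0 : m ≠ 0) (hmn : ‖m‖ ≤ 5 / 7) :
    ‖Bclean d z‖ ≤ 5 / 2 := by
  have hm1 : m ^ 2 ≠ 1 := by
    intro h
    have : ‖m‖ ^ 2 = 1 := by rw [← norm_pow, h, norm_one]
    nlinarith [norm_nonneg m]
  obtain ⟨h1, h2⟩ := Bclean_inv hm hm0 hm1
  -- `m⁻¹ B = 1 - W B`
  have h3 : m⁻¹ • Bclean d z = 1 - W2 * Bclean d z := by
    rw [← h2, add_mul, smul_mul_assoc, one_mul]; abel
  have h4 : Bclean d z = m • (1 - W2 * Bclean d z) := by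
    rw [← h3, smul_smul, mul_inv_cancel₀ hm0, one_smul]
  have h5 : ‖Bclean d z‖ ≤ ‖m‖ * (1 + ‖Bclean d z‖) := by
    calc ‖Bclean d z‖ = ‖m • (1 - W2 * Bclean d z)‖ := by rw [← h4]
      _ ≤ ‖m‖ * ‖1 - W2 * Bclean d z‖ := norm_smul_le _ _
      _ ≤ ‖m‖ * (1 + ‖Bclean d z‖) := by
        refine mul_le_mul_of_nonneg_left ?_ (norm_nonneg _)
        refine (norm_sub_le _ _).trans ?_
        have h6 : ‖(1 : Matrix (Fin 2) (Fin 2) ℂ)‖ = 1 := norm_one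
        have h7 : ‖W2 * Bclean d z‖ ≤ 1 * ‖Bclean d z‖ :=
          (norm_mul_le _ _).trans (mul_le_mul_of_nonneg_right norm_W2_le (norm_nonneg _))
        linarith
  nlinarith [norm_nonneg (Bclean d z), norm_nonneg m]

end Clean

/-! ### the block map -/

/-- `B - Bc = (1 - B W)(B⁰ - m)(1 - W Bc)` -/
theorem sub_eq {B Bc : Matrix (Fin 2) (Fin 2) ℂ} {m : ℂ} (hB : RegB B) (hm0 : m ≠ 0)
    (h2 : (m⁻¹ • (1 : Matrix (Fin 2) (Fin 2) ℂ) + W2) * Bc = 1) :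
    B - Bc = (1 - B * W2) * (cavB B - m • (1 : Matrix (Fin 2) (Fin 2) ℂ)) * (1 - W2 * Bc) := by
  have e1 : B * B⁻¹ = 1 := Matrix.mul_nonsing_inv _ hB.det
  have e2 : (B⁻¹ - W2) * cavB B = 1 := Matrix.mul_nonsing_inv _ hB.det0
  have e3 : 1 - B * W2 = B * (B⁻¹ - W2) := by rw [mul_sub, e1]
  have e4 : 1 - W2 * Bc = m⁻¹ • Bc := by
    rw [← h2, add_mul, smul_mul_assoc, one_mul]; abel
  rw [e3, e4]
  calc B - Bc = B * ((m⁻¹ • (1 : Matrix (Fin 2) (Fin 2) ℂ) + W2) * Bc) - (B * B⁻¹) * Bc := by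
        rw [h2, e1, mul_one, one_mul]
    _ = B * ((m⁻¹ • (1 : Matrix (Fin 2) (Fin 2) ℂ)) - (B⁻¹ - W2)) * Bc := by
        noncomm_ring
    _ = B * (((B⁻¹ - W2) * cavB B) * m⁻¹ • (1 : Matrix (Fin 2) (Fin 2) ℂ) - (B⁻¹ - W2)) * Bc := by
        rw [e2, one_mul]
    _ = B * (B⁻¹ - W2) * (cavB B - m • (1 : Matrix (Fin 2) (Fin 2) ℂ)) * (m⁻¹ • Bc) := by
        have hc : m⁻¹ * m = 1 := inv_mul_cancel₀ hm0
        simp only [mul_sub, sub_mul, mul_smul_comm, smul_mul_assoc, mul_one, smul_sub,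
          smul_smul, hc, mul_assoc, one_smul]

theorem norm_sub_le' {B Bc : Matrix (Fin 2) (Fin 2) ℂ} {m : ℂ} (hB : RegB B) (hm0 : m ≠ 0)
    (h2 : (m⁻¹ • (1 : Matrix (Fin 2) (Fin 2) ℂ) + W2) * Bc = 1) {β : ℝ} (hβ : ‖Bc‖ ≤ β)
    (hsmall : (1 + β) * ‖cavB B - m • (1 : Matrix (Fin 2) (Fin 2) ℂ)‖ ≤ 1 / 2) :
    ‖B - Bc‖ ≤ 2 * (1 + β) ^ 2 * ‖cavB B - m • (1 : Matrix (Fin 2) (Fin 2) ℂ)‖ := by
  have hβ0 : 0 ≤ β := (norm_nonneg _).trans hβ
  set t := ‖cavB B - m • (1 : Matrix (Fin 2) (Fin 2) ℂ)‖ with ht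
  have ht0 : 0 ≤ t := norm_nonneg _
  have h1 : ‖(1 : Matrix (Fin 2) (Fin 2) ℂ)‖ = 1 := norm_one
  have hBn : ‖B‖ ≤ β + ‖B - Bc‖ := by
    have : B = Bc + (B - Bc) := by abel
    calc ‖B‖ = ‖Bc + (B - Bc)‖ := by rw [← this]
      _ ≤ ‖Bc‖ + ‖B - Bc‖ := norm_add_le _ _
      _ ≤ β + ‖B - Bc‖ := by linarith
  have hl : ‖1 - B * W2‖ ≤ 1 + β + ‖B - Bc‖ := by
    refine (norm_sub_le _ _).trans ?_
    have : ‖B * W2‖ ≤ ‖B‖ * 1 :=
      (norm_mul_le _ _).trans (mul_le_mul_of_nonneg_left norm_W2_le (norm_nonneg _))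
    linarith
  have hr : ‖1 - W2 * Bc‖ ≤ 1 + β := by
    refine (norm_sub_le _ _).trans ?_
    have : ‖W2 * Bc‖ ≤ 1 * ‖Bc‖ :=
      (norm_mul_le _ _).trans (mul_le_mul_of_nonneg_right norm_W2_le (norm_nonneg _))
    linarith
  have hmain : ‖B - Bc‖ ≤ (1 + β + ‖B - Bc‖) * t * (1 + β) := by
    calc ‖B - Bc‖ = ‖(1 - B * W2) * (cavB B - m • (1 : Matrix (Fin 2) (Fin 2) ℂ)) *
          (1 - W2 * Bc)‖ := by rw [← sub_eq hB hm0 h2]
      _ ≤ ‖1 - B * W2‖ * t * ‖1 - W2 * Bc‖ :=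
          (norm_mul_le _ _).trans (mul_le_mul_of_nonneg_right (norm_mul_le _ _) (norm_nonneg _))
      _ ≤ (1 + β + ‖B - Bc‖) * t * (1 + β) := by
          have := norm_nonneg (B - Bc)
          gcongr
  have hd0 := norm_nonneg (B - Bc)
  nlinarith [mul_nonneg hd0 ht0]

variable {n d : ℕ}

/-- **Lipschitz bound of the block map near the clean value**, uniform in everything -/
theorem bnorm_sub_le (hd : 3 ≤ d) {p : Equiv.Perm (HE n d)} (hp : IsPort p) (s : ℝ)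
    (ω : Fin n → ℝ) {z : ℂ} (hz : 0 < z.im) (h : HE n d)
    (hr : SpecA.dev p s ω z h ≤ 1 / 14) :
    bnorm (BE p s ω z h - Bclean d z) ≤ 49 * SpecA.dev p s ω z h := by
  have hroot := mc_isRoot (d := d) (by omega) hz
  have hb := d_real hd
  have hm0 := hroot.ne_zero
  have hmn := root_norm_le hroot hb hz.le
  have hm1 := hroot.sq_ne_one (by linarith) hz.le
  have h2 := (Bclean_inv rfl hm0 hm1).2
  have hβ := norm_Bclean_le rfl hm0 hmn
  have hB := regB_BE hp s ω hz h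
  set t := ‖cavB (BE p s ω z h) - mc d z • (1 : Matrix (Fin 2) (Fin 2) ℂ)‖ with ht
  have ht2 : t ≤ 2 * SpecA.dev p s ω z h := norm_le_two_bnorm _
  have h3 := norm_sub_le' hB hm0 h2 hβ (by rw [← ht]; linarith)
  rw [← ht] at h3
  refine (bnorm_le_norm _).trans (h3.trans ?_)
  linarith

lemma dev_nonneg (p : Equiv.Perm (HE n d)) (s : ℝ) (ω : Fin n → ℝ) (z : ℂ) (h : HE n d) :
    0 ≤ SpecA.dev p s ω z h := Stab269.bnorm_nonneg _

/-- the threshold for the cavity deviation -/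
noncomputable def thr (rs r : ℝ) : ℝ := min rs (min (1 / 14) (r / 49))

lemma thr_pos {rs r : ℝ} (hrs : 0 < rs) (hr : 0 < r) : 0 < thr rs r :=
  lt_min hrs (lt_min (by norm_num) (by positivity))

/-- a bad block has a large cavity deviation -/
lemma thr_le_Dv (hd : 3 ≤ d) {p : Equiv.Perm (HE n d)} (hp : IsPort p) (s : ℝ)
    (ω : Fin n → ℝ) {z : ℂ} (hz : 0 < z.im) (h : HE n d) {rs r : ℝ}
    (hbad : r < bnorm (BE p s ω z h - Bclean d z)) :
    thr rs r ≤ SpecA.Dv rs p s ω z h := by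
  unfold SpecA.Dv
  refine le_min (min_le_left _ _) ?_
  by_contra hcon
  push Not at hcon
  have h1 : SpecA.dev p s ω z h < 1 / 14 := hcon.trans_le ((min_le_right _ _).trans (min_le_left _ _))
  have h2 : SpecA.dev p s ω z h < r / 49 := hcon.trans_le ((min_le_right _ _).trans (min_le_right _ _))
  have h3 := bnorm_sub_le hd hp s ω hz h h1.le
  linarith

open Classical in
/-- **fraction of bad blocks** -/
theorem eAvg_le (hd : 3 ≤ d) {p : Equiv.Perm (HE n d)} (hp : IsPort p) (s : ℝ)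
    (ω : Fin n → ℝ) {z : ℂ} (hz : 0 < z.im) {rs r : ℝ} (hrs : 0 < rs) (hr : 0 < r) :
    eAvg (graphOf p) (fun u w =>
      if r < bnorm (Blk (Res (Hm (graphOf p) s ω) z) u w - Bclean d z) then (1 : ℝ) else 0) ≤
      SpecA.Vp rs p s ω z / thr rs r ^ 2 := by
  have ht := thr_pos hrs hr
  rw [hp.eAvg_graphOf]
  unfold SpecA.Vp
  rw [div_right_comm]
  push_cast
  refine div_le_div_of_nonneg_right ?_ (by positivity)
  rw [le_div_iff₀ (by positivity), Finset.sum_mul]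
  refine Finset.sum_le_sum fun h _ => ?_
  split_ifs with hbad
  · rw [one_mul]
    have := thr_le_Dv (rs := rs) hd hp s ω hz h hbad
    gcongr
  · rw [zero_mul]; positivity

/-! ### transfer of counts from port-numbered graphs to graphs -/

open Classical in
theorem card_filter_Ports (n d : ℕ) (P : SimpleGraph (Fin n) → Prop) :
    (((Ports n d).filter fun p => P (graphOf p)).card : ℝ) =
      (Nat.factorial d ^ n : ℕ) * (((regularGraphs n d).filter P).card : ℝ) := by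
  have h := sum_Ports (n := n) (d := d) (fun G => if P G then (1 : ℕ) else 0)
  rw [← Finset.card_filter, ← Finset.card_filter, smul_eq_mul] at h
  rw [h]
  push_cast
  rfl

open Classical in
/-- a proportion of port-numbered graphs is a proportion of graphs -/
theorem card_le_of_Ports {n d : ℕ} {P : SimpleGraph (Fin n) → Prop} {δ : ℝ}
    (h : (((Ports n d).filter fun p => P (graphOf p)).card : ℝ) ≤ δ * (Ports n d).card) :
    (((regularGraphs n d).filter P).card : ℝ) ≤ δ * (regularGraphs n d).card := by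
  rw [card_filter_Ports, card_Ports] at h
  have h0 : (0 : ℝ) < (Nat.factorial d ^ n : ℕ) := by
    exact_mod_cast pow_pos (Nat.factorial_pos d) n
  push_cast at h h0
  have h1 : ((Nat.factorial d : ℝ) ^ n) * (((regularGraphs n d).filter P).card : ℝ) ≤
      ((Nat.factorial d : ℝ) ^ n) * (δ * (regularGraphs n d).card) := by linarith
  exact le_of_mul_le_mul_left h1 h0

lemma Hm_zero (G : SimpleGraph (Fin n)) (ω ω' : Fin n → ℝ) : Hm G 0 ω = Hm G 0 ω' := by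
  unfold Hm; simp

lemma ze_im' (E η : ℝ) : (ze E η).im = η := by unfold ze; simp

open Classical in
/-- helper501's Prop: all the blocks at all the scales `η ∈ [K/n,1]` (`s = 0`) -/
def BlkLaw0 (d : ℕ) (E : ℝ) : Prop :=
  ∀ δ : ℝ, 0 < δ → ∃ K0 : ℝ, 0 < K0 ∧ ∀ K : ℝ, K0 ≤ K → ∃ N : ℕ, ∀ n : ℕ, N ≤ n →
    ∀ ω : Fin n → ℝ,
    (((regularGraphs n d).filter fun G => ∃ η : ℝ, K / n ≤ η ∧ η ≤ 1 ∧
      δ < eAvg G (fun u w =>
        if δ < bnorm (Blk (Res (Hm G 0 ω) (ze E η)) u w - Bclean d (ze E η)) then (1 : ℝ)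
          else 0)).card : ℝ) ≤ δ * (regularGraphs n d).card

open Classical in
/-- the general form (`s` and `ω` fixed, `|ω_v| ≤ 1`), over port-numbered graphs -/
theorem ports_blk (hd : 3 ≤ d) (h : SpecA.ThmA d) {A : ℝ} (hA : 0 < A)
    (hA2 : A ^ 2 < 4 * ((d : ℝ) - 1)) :
    ∃ rs C1 s0 : ℝ, 0 < rs ∧ 0 < C1 ∧ 0 < s0 ∧
      ∀ δ : ℝ, 0 < δ → ∃ K0 : ℝ, 0 < K0 ∧ ∀ K : ℝ, K0 ≤ K → ∃ N : ℕ, 1 ≤ N ∧ ∀ n : ℕ, N ≤ n →
        ∀ E s : ℝ, |E| ≤ A → |s| ≤ s0 → ∀ ω : Fin n → ℝ, (∀ v, |ω v| ≤ 1) → ∀ r : ℝ, 0 < r →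
          (((Ports n d).filter fun p => ∃ η : ℝ, K / n ≤ η ∧ η ≤ 1 ∧
            (C1 * s ^ 2 + δ) / thr rs r ^ 2 < eAvg (graphOf p) (fun u w =>
              if r < bnorm (Blk (Res (Hm (graphOf p) s ω) (ze E η)) u w - Bclean d (ze E η))
              then (1 : ℝ) else 0)).card : ℝ) ≤ δ * (Ports n d).card := by
  obtain ⟨rs, C1, s0, hrs, hC1, hs0, H⟩ := h A hA hA2
  refine ⟨rs, C1, s0, hrs, hC1, hs0, fun δ hδ => ?_⟩
  obtain ⟨K0, hK0, H⟩ := H δ hδ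
  refine ⟨K0, hK0, fun K hK => ?_⟩
  obtain ⟨N, H⟩ := H K hK
  refine ⟨max N 1, le_max_right _ _, fun n hn E s hE hs ω hω r hr => ?_⟩
  have hn1 : 1 ≤ n := (le_max_right _ _).trans hn
  have hn0 : (0 : ℝ) < n := by exact_mod_cast hn1
  refine le_trans ?_ (H n ((le_max_left _ _).trans hn) E s hE hs ω hω)
  refine Nat.cast_le.2 (Finset.card_le_card ?_)
  intro p hp
  rw [Finset.mem_filter] at hp ⊢
  obtain ⟨hp, η, h1, h2, h3⟩ := hp
  refine ⟨hp, η, h1, h2, ?_⟩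
  have hη : 0 < η := lt_of_lt_of_le (div_pos (hK0.trans_le hK) hn0) h1
  have h4 := eAvg_le hd (mem_Ports.1 hp) s ω (z := ze E η) (by rw [ze_im']; exact hη) hrs hr
  have h5 := h3.trans_le h4
  have ht : 0 < thr rs r ^ 2 := by have := thr_pos hrs hr; positivity
  exact (div_lt_div_iff_of_pos_right ht).1 h5

open Classical in
/-- **`BlkLaw0` from Theorem A** -/
theorem blkLaw0_of_thmA (hd : 3 ≤ d) (h : SpecA.ThmA d) {E : ℝ}
    (hE : E ^ 2 < 4 * ((d : ℝ) - 1)) : BlkLaw0 d E := by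
  obtain ⟨A, hA, hA2, hEA⟩ : ∃ A : ℝ, 0 < A ∧ A ^ 2 < 4 * ((d : ℝ) - 1) ∧ |E| ≤ A := by
    have hb := d_real hd
    refine ⟨max |E| 1, lt_max_of_lt_right one_pos, ?_, le_max_left _ _⟩
    rcases le_total |E| 1 with h1 | h1
    · rw [max_eq_right h1]; linarith
    · rw [max_eq_left h1, sq_abs]; exact hE
  obtain ⟨rs, C1, s0, hrs, hC1, hs0, H⟩ := ports_blk hd h hA hA2
  intro δ hδ
  have ht : 0 < thr rs δ ^ 2 := by have := thr_pos hrs hδ; positivity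
  set δ' : ℝ := min δ (δ * thr rs δ ^ 2) with hδ'
  have hδ'0 : 0 < δ' := lt_min hδ (by positivity)
  obtain ⟨K0, hK0, H⟩ := H δ' hδ'0
  refine ⟨K0, hK0, fun K hK => ?_⟩
  obtain ⟨N, hN1, H⟩ := H K hK
  refine ⟨N, fun n hn ω => ?_⟩
  apply card_le_of_Ports (P := fun G => ∃ η : ℝ, K / n ≤ η ∧ η ≤ 1 ∧
      δ < eAvg G (fun u w =>
        if δ < bnorm (Blk (Res (Hm G 0 ω) (ze E η)) u w - Bclean d (ze E η)) then (1 : ℝ)
          else 0))
  have h1 := H n hn E 0 hEA (by rw [abs_zero]; exact hs0.le) (fun _ => 0)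
    (fun v => by simp) δ hδ
  have h2 : δ' * ((Ports n d).card : ℝ) ≤ δ * (Ports n d).card :=
    mul_le_mul_of_nonneg_right (min_le_left _ _) (Nat.cast_nonneg _)
  refine le_trans ?_ (h1.trans h2)
  refine Nat.cast_le.2 (Finset.card_le_card ?_)
  intro p hp
  rw [Finset.mem_filter] at hp ⊢
  obtain ⟨hp, η, h3, h4, h5⟩ := hp
  refine ⟨hp, η, h3, h4, ?_⟩
  rw [Hm_zero (graphOf p) ω (fun _ => 0)] at h5
  refine lt_of_le_of_lt ?_ h5
  rw [div_le_iff₀ ht]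
  have : δ' ≤ δ * thr rs δ ^ 2 := min_le_right _ _
  simpa using this

end Crest.Agent.R166.BlkLaw355
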