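import Crest.Agent.R166.BlkLaw0_355
import Crest.Agent.R166.McClean_797

/-!
# R166, section 32 (helper355): Theorem A with random potentials, `NearClean` for small disorder

* `whp_V` : `V ≤ C1 s² + δ` at all the scales `η ∈ [K/n, 1]`, with high probability in `(G, ω)`
* `whp_blk` : the same for the fraction of blocks which are not `r`-close to the clean block
* `nearClean_small` : `NearClean d s E r` for `|E| ≤ A`, `|s| ≤ s1(A, r)`
-/

set_option autoImplicit false

open Matrix Finset MeasureTheory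

namespace Crest.Agent.R166.BlkLaw355

open Crest.Agent.R166 Crest.Agent.R166.Root355 Crest.Agent.R166.Stab269
  Crest.Agent.R166.ScaleV355 Crest.ProbabilityR.RandomMatrix

/-! ### continuity in the potential -/

lemma continuous_Hm {n : ℕ} (G : SimpleGraph (Fin n)) (s : ℝ) :
    Continuous fun ω : Fin n → ℝ => Hm G s ω := by
  classical
  unfold Hm
  refine continuous_const.add ?_
  refine Continuous.const_smul ?_ s
  exact Continuous.matrix_diagonal continuous_id

lemma continuous_Res {Ω V : Type*} [TopologicalSpace Ω] [Fintype V] [DecidableEq V]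
    {H : Ω → Matrix V V ℝ} (hc : Continuous H) (hs : ∀ ω, (H ω)ᵀ = H ω) {z : ℂ} (hz : 0 < z.im) :
    Continuous fun ω => Res789.Res (H ω) z := by
  have h1 : Continuous fun ω => Res789.cx (H ω) - z • (1 : Matrix V V ℂ) := by
    refine Continuous.sub ?_ continuous_const
    exact hc.matrix_map Complex.continuous_ofReal
  have h2 : ∀ ω, (Res789.cx (H ω) - z • (1 : Matrix V V ℂ)).det ≠ 0 := fun ω =>
    (Res789.isUnit_det_sub (hs ω) hz).ne_zero
  have h3 : (fun ω => Res789.Res (H ω) z) = fun ω =>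
      (Res789.cx (H ω) - z • (1 : Matrix V V ℂ)).det⁻¹ •
        (Res789.cx (H ω) - z • (1 : Matrix V V ℂ)).adjugate := by
    funext ω
    unfold Res789.Res
    rw [Matrix.inv_def, Ring.inverse_eq_inv']
    
  rw [h3]
  exact (h1.matrix_det.inv₀ h2).smul h1.matrix_adjugate

variable {n d : ℕ}

lemma continuous_bnorm : Continuous (bnorm : Matrix (Fin 2) (Fin 2) ℂ → ℝ) := by
  unfold bnorm
  have h : ∀ i j : Fin 2, Continuous fun B : Matrix (Fin 2) (Fin 2) ℂ => ‖B i j‖ := fun i j =>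
    (continuous_id.matrix_elem i j).norm
  exact ((h _ _).max (h _ _)).max ((h _ _).max (h _ _))

lemma continuous_dev {p : Equiv.Perm (HE n d)} (hp : IsPort p) (s : ℝ) {z : ℂ} (hz : 0 < z.im)
    (h : HE n d) : Continuous fun ω : Fin n → ℝ => SpecA.dev p s ω z h := by
  unfold SpecA.dev
  refine continuous_bnorm.comp (Continuous.sub ?_ continuous_const)
  have e : (fun ω : Fin n → ℝ => B0 p s ω z h) = fun ω =>
      (Res789.Res (H0m p s ω h) z).submatrix ![h.1, (p h).1] ![h.1, (p h).1] := by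
    funext ω
    exact B0_eq hp s ω hz h
  rw [e]
  refine Continuous.matrix_submatrix ?_ _ _
  refine continuous_Res ?_ (fun ω => H0m_symm p s ω h) hz
  unfold H0m
  exact (continuous_Hm _ s).add continuous_const

lemma continuous_Vp (rs : ℝ) {p : Equiv.Perm (HE n d)} (hp : IsPort p) (s : ℝ) {z : ℂ}
    (hz : 0 < z.im) : Continuous fun ω : Fin n → ℝ => SpecA.Vp rs p s ω z := by
  unfold SpecA.Vp SpecA.Dv
  refine Continuous.div_const ?_ _
  refine continuous_finsetSum _ fun h _ => ?_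
  exact (continuous_const.min (continuous_dev hp s hz h)).pow 2

/-- the bad event is open -/
lemma isOpen_bad (rs : ℝ) {p : Equiv.Perm (HE n d)} (hp : IsPort p) (s E c K : ℝ)
    (hK : 0 < K / n) :
    IsOpen {ω : Fin n → ℝ | ∃ η : ℝ, K / n ≤ η ∧ η ≤ 1 ∧ c < SpecA.Vp rs p s ω (ze E η)} := by
  have e : {ω : Fin n → ℝ | ∃ η : ℝ, K / n ≤ η ∧ η ≤ 1 ∧ c < SpecA.Vp rs p s ω (ze E η)} =
      ⋃ η ∈ Set.Icc (K / n) 1, {ω : Fin n → ℝ | c < SpecA.Vp rs p s ω (ze E η)} := by
    ext ω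
    simp only [Set.mem_ofPred_eq, Set.mem_iUnion, Set.mem_Icc, exists_prop, and_assoc]
  rw [e]
  refine isOpen_biUnion fun η hη => ?_
  have hη0 : 0 < η := hK.trans_le hη.1
  exact isOpen_lt continuous_const (continuous_Vp rs hp s (by rw [ze_im']; exact hη0))

/-! ### the potentials lie in `[-1,1]` -/

lemma ae_box (n : ℕ) : ∀ᵐ ω ∂potentialLaw n, ∀ v, |ω v| ≤ 1 := by
  have : IsProbabilityMeasure ((2⁻¹ : NNReal) • (volume.restrict (Set.Icc (-1 : ℝ) 1))) := by
    constructor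
    rw [Measure.smul_apply, Measure.restrict_apply_univ, Real.volume_Icc]
    have h2 : ENNReal.ofReal (1 - -1) = 2 := by
      norm_num
    rw [h2, ENNReal.smul_def, smul_eq_mul, ENNReal.coe_inv (by norm_num)]
    exact ENNReal.inv_mul_cancel (by norm_num) (by norm_num)
  unfold potentialLaw
  rw [ae_all_iff]
  intro v
  have h1 : ∀ᵐ x ∂((2⁻¹ : NNReal) • (volume.restrict (Set.Icc (-1 : ℝ) 1))), |x| ≤ 1 := by
    refine Measure.ae_smul_measure ?_ _
    filter_upwards [ae_restrict_mem measurableSet_Icc] with x hx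
    exact abs_le.2 hx
  exact (Measure.tendsto_eval_ae_ae (μ := fun _ : Fin n =>
    (2⁻¹ : NNReal) • (volume.restrict (Set.Icc (-1 : ℝ) 1))) (i := v)).eventually h1

open Classical in
/-- **Theorem A for random potentials** -/
theorem whp_V (h : SpecA.ThmA d) {A : ℝ} (hA : 0 < A)
    (hA2 : A ^ 2 < 4 * ((d : ℝ) - 1)) :
    ∃ rs C1 s0 : ℝ, 0 < rs ∧ 0 < C1 ∧ 0 < s0 ∧
      ∀ δ : ℝ, 0 < δ → ∃ K0 : ℝ, 0 < K0 ∧ ∀ K : ℝ, K0 ≤ K → ∃ N : ℕ, 1 ≤ N ∧ ∀ n : ℕ, N ≤ n →
        (regularGraphs n d).Nonempty → ∀ E s : ℝ, |E| ≤ A → |s| ≤ s0 →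
          ((Ports n d).card : ENNReal)⁻¹ * ∑ p ∈ Ports n d, (potentialLaw n) {ω |
            ∃ η : ℝ, K / n ≤ η ∧ η ≤ 1 ∧ C1 * s ^ 2 + δ < SpecA.Vp rs p s ω (ze E η)} ≤
              ENNReal.ofReal δ := by
  obtain ⟨rs, C1, s0, hrs, hC1, hs0, H⟩ := h A hA hA2
  refine ⟨rs, C1, s0, hrs, hC1, hs0, fun δ hδ => ?_⟩
  obtain ⟨K0, hK0, H⟩ := H δ hδ
  refine ⟨K0, hK0, fun K hK => ?_⟩
  obtain ⟨N, H⟩ := H K hK
  refine ⟨max N 1, le_max_right _ _, fun n hn hne E s hE hs => ?_⟩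
  have hn1 : 1 ≤ n := (le_max_right _ _).trans hn
  have hn0 : (0 : ℝ) < n := by exact_mod_cast hn1
  have hKn : 0 < K / n := div_pos (hK0.trans_le hK) hn0
  have hcard : 0 < (Ports n d).card := Finset.card_pos.2 (Ports_nonempty_iff.2 hne)
  set Bad : Equiv.Perm (HE n d) → Set (Fin n → ℝ) := fun p => {ω |
    ∃ η : ℝ, K / n ≤ η ∧ η ≤ 1 ∧ C1 * s ^ 2 + δ < SpecA.Vp rs p s ω (ze E η)} with hBad
  have hmeas : ∀ p ∈ Ports n d, MeasurableSet (Bad p) := fun p hp =>
    (isOpen_bad rs (mem_Ports.1 hp) s E _ K hKn).measurableSet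
  have h1 : ∑ p ∈ Ports n d, (potentialLaw n) (Bad p) ≤
      ENNReal.ofReal δ * ((Ports n d).card : ENNReal) := by
    calc ∑ p ∈ Ports n d, (potentialLaw n) (Bad p)
        = ∑ p ∈ Ports n d, ∫⁻ ω, (Bad p).indicator 1 ω ∂potentialLaw n := by
          refine Finset.sum_congr rfl fun p hp => ?_
          rw [lintegral_indicator_one (hmeas p hp)]
      _ = ∫⁻ ω, ∑ p ∈ Ports n d, (Bad p).indicator 1 ω ∂potentialLaw n := by
          rw [lintegral_finsetSum']
          intro p hp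
          exact (measurable_const.indicator (hmeas p hp)).aemeasurable
      _ ≤ ∫⁻ _ω, ENNReal.ofReal δ * ((Ports n d).card : ENNReal) ∂potentialLaw n := by
          refine lintegral_mono_ae ?_
          filter_upwards [ae_box n] with ω hω
          have h2 := H n ((le_max_left _ _).trans hn) E s hE hs ω hω
          have h3 : ∑ p ∈ Ports n d, (Bad p).indicator (1 : (Fin n → ℝ) → ENNReal) ω =
              (((Ports n d).filter fun p => ω ∈ Bad p).card : ENNReal) := by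
            rw [Finset.card_filter]
            push_cast
            refine Finset.sum_congr rfl fun p _ => ?_
            by_cases hp : ω ∈ Bad p
            · simp [hp]
            · simp [hp]
          rw [h3]
          have h4 : (((Ports n d).filter fun p => ω ∈ Bad p).card : ENNReal) =
              ENNReal.ofReal (((Ports n d).filter fun p => ω ∈ Bad p).card : ℝ) := by
            rw [ENNReal.ofReal_natCast]
          have h5 : ((Ports n d).card : ENNReal) = ENNReal.ofReal ((Ports n d).card : ℝ) := by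
            rw [ENNReal.ofReal_natCast]
          rw [h4, h5, ← ENNReal.ofReal_mul hδ.le]
          exact ENNReal.ofReal_le_ofReal h2
      _ = ENNReal.ofReal δ * ((Ports n d).card : ENNReal) := by
          rw [lintegral_const, measure_univ, mul_one]
  calc ((Ports n d).card : ENNReal)⁻¹ * ∑ p ∈ Ports n d, (potentialLaw n) (Bad p)
      ≤ ((Ports n d).card : ENNReal)⁻¹ * (ENNReal.ofReal δ * ((Ports n d).card : ENNReal)) :=
        mul_le_mul_right h1 _
    _ = ENNReal.ofReal δ := by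
        rw [mul_comm, mul_assoc, ENNReal.mul_inv_cancel, mul_one]
        · exact_mod_cast hcard.ne'
        · exact ENNReal.natCast_ne_top _

open Classical in
/-- fraction of the blocks which are `r`-far from the clean block, all scales, random potentials -/
theorem whp_blk (hd : 3 ≤ d) (h : SpecA.ThmA d) {A : ℝ} (hA : 0 < A)
    (hA2 : A ^ 2 < 4 * ((d : ℝ) - 1)) :
    ∃ rs C1 s0 : ℝ, 0 < rs ∧ 0 < C1 ∧ 0 < s0 ∧
      ∀ δ : ℝ, 0 < δ → ∃ K0 : ℝ, 0 < K0 ∧ ∀ K : ℝ, K0 ≤ K → ∃ N : ℕ, 1 ≤ N ∧ ∀ n : ℕ, N ≤ n →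
        (regularGraphs n d).Nonempty → ∀ E s : ℝ, |E| ≤ A → |s| ≤ s0 →
          Whp n d δ fun G ω => ∀ η : ℝ, K / n ≤ η → η ≤ 1 → ∀ r : ℝ, 0 < r →
            eAvg G (fun u w =>
              if r < bnorm (Blk (Res (Hm G s ω) (ze E η)) u w - Bclean d (ze E η))
              then (1 : ℝ) else 0) ≤ (C1 * s ^ 2 + δ) / thr rs r ^ 2 := by
  obtain ⟨rs, C1, s0, hrs, hC1, hs0, H⟩ := whp_V h hA hA2
  refine ⟨rs, C1, s0, hrs, hC1, hs0, fun δ hδ => ?_⟩
  obtain ⟨K0, hK0, H⟩ := H δ hδ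
  refine ⟨K0, hK0, fun K hK => ?_⟩
  obtain ⟨N, hN1, H⟩ := H K hK
  refine ⟨N, hN1, fun n hn hne E s hE hs => ?_⟩
  have hn1 : 1 ≤ n := hN1.trans hn
  have hn0 : (0 : ℝ) < n := by exact_mod_cast hn1
  have hKn : 0 < K / n := div_pos (hK0.trans_le hK) hn0
  rw [Whp_iff]
  refine le_trans (mul_le_mul_right (Finset.sum_le_sum fun p hp => measure_mono ?_) _)
    (H n hn hne E s hE hs)
  intro ω hω
  simp only [Set.mem_ofPred_eq] at hω ⊢
  push Not at hω
  obtain ⟨η, h1, h2, r, hr, h3⟩ := hω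
  refine ⟨η, h1, h2, ?_⟩
  have hη : 0 < η := hKn.trans_le h1
  have h4 := eAvg_le hd (mem_Ports.1 hp) s ω (z := ze E η) (by rw [ze_im']; exact hη) hrs hr
  have ht : 0 < thr rs r ^ 2 := by have := thr_pos hrs hr; positivity
  exact (div_lt_div_iff_of_pos_right ht).1 (h3.trans_le h4)

/-- the constant block comparison -/
lemma farsum_le {B B' C : Matrix (Fin 2) (Fin 2) ℂ} {r : ℝ} (h1 : bnorm (B' - C) ≤ r / 2)
    (h2 : bnorm (B - B') ≤ r / 2) : bnorm (B - C) ≤ r := by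
  have h3 := Stab269.bnorm_add_le (B - B') (B' - C)
  rw [sub_add_sub_cancel] at h3
  linarith

open Classical in
/-- **`NearClean` for small disorder** -/
theorem nearClean_small (hd : 3 ≤ d) (h : SpecA.ThmA d) {A : ℝ} (hA : 0 < A)
    (hA2 : A ^ 2 < 4 * ((d : ℝ) - 1)) {r : ℝ} (hr : 0 < r) :
    ∃ s1 : ℝ, 0 < s1 ∧ ∀ E s : ℝ, |E| ≤ A → |s| ≤ s1 → NearClean d s E r := by
  obtain ⟨rs, C1, s0, hrs, hC1, hs0, H⟩ := whp_blk hd h hA hA2
  set t : ℝ := thr rs (r / 2) with ht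
  have ht0 : 0 < t := thr_pos hrs (by linarith)
  refine ⟨min s0 (Real.sqrt (t ^ 2 / (8 * C1))), lt_min hs0 (Real.sqrt_pos.2 (by positivity)),
    fun E s hE hs => ?_⟩
  have hE2 : E ^ 2 < 4 * ((d : ℝ) - 1) := by
    refine lt_of_le_of_lt ?_ hA2
    rw [← sq_abs E]
    gcongr
  have hs2 : C1 * s ^ 2 ≤ t ^ 2 / 8 := by
    have h1 : |s| ≤ Real.sqrt (t ^ 2 / (8 * C1)) := hs.trans (min_le_right _ _)
    have h2 : s ^ 2 ≤ t ^ 2 / (8 * C1) := by
      rw [← sq_abs s]
      calc |s| ^ 2 ≤ Real.sqrt (t ^ 2 / (8 * C1)) ^ 2 := by gcongr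
        _ = t ^ 2 / (8 * C1) := Real.sq_sqrt (by positivity)
    calc C1 * s ^ 2 ≤ C1 * (t ^ 2 / (8 * C1)) := by gcongr
      _ = t ^ 2 / 8 := by field_simp
  set δ : ℝ := min (1 / 4) (t ^ 2 / 8) with hδ
  have hδ0 : 0 < δ := lt_min (by norm_num) (by positivity)
  obtain ⟨K0, hK0, H⟩ := H δ hδ0
  obtain ⟨N, hN1, H⟩ := H K0 le_rfl
  -- the clean block is continuous
  have hcont := McClean797.tendsto_bnorm_Bclean hd hE2
  have h1 : ∀ᶠ η in nhdsWithin (0 : ℝ) (Set.Ioi 0),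
      bnorm (Bclean d (ze E η) - Bclean d (E : ℂ)) < r / 2 :=
    (tendsto_order.1 hcont).2 _ (by linarith)
  obtain ⟨η0, hη0, h1⟩ := mem_nhdsGT_iff_exists_Ioo_subset.1 h1
  refine ⟨min 1 (η0 / 2), lt_min one_pos (half_pos hη0), fun η hη hηle => ?_⟩
  obtain ⟨N', hN'⟩ := exists_nat_gt (K0 / η)
  refine ⟨max N N', fun n hn hne => ?_⟩
  have hn1 : 1 ≤ n := hN1.trans ((le_max_left _ _).trans hn)
  have hn0 : (0 : ℝ) < n := by exact_mod_cast hn1
  have hKη : K0 / n ≤ η := by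
    have : (N' : ℝ) ≤ n := by exact_mod_cast (le_max_right _ _).trans hn
    rw [div_le_iff₀ hn0]
    rw [div_lt_iff₀ hη] at hN'
    nlinarith
  have h2 := H n ((le_max_left _ _).trans hn) hne E s hE (hs.trans (min_le_left _ _))
  unfold Whp at h2 ⊢
  refine (measure_mono ?_).trans (h2.trans (ENNReal.ofReal_le_ofReal (min_le_left _ _)))
  intro x hx
  simp only [Set.mem_ofPred_eq] at hx ⊢
  intro hcon
  apply hx
  have h3 := hcon η hKη (hηle.trans (min_le_left _ _)) (r / 2) (by linarith)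
  have hcl : bnorm (Bclean d (ze E η) - Bclean d (E : ℂ)) ≤ r / 2 := by
    have : η ∈ Set.Ioo (0 : ℝ) η0 := ⟨hη, lt_of_le_of_lt (hηle.trans (min_le_right _ _))
      (half_lt_self hη0)⟩
    exact (h1 this).le
  calc _ ≤ eAvg x.1 (fun u w =>
        if r / 2 < bnorm (Blk (Res (Hm x.1 s x.2) (ze E η)) u w - Bclean d (ze E η))
              then (1 : ℝ) else 0) := by
        unfold eAvg
        refine div_le_div_of_nonneg_right (Finset.sum_le_sum fun v _ => ?_) (Nat.cast_nonneg _)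
        beta_reduce
        by_cases hc : r / 2 < bnorm (Blk (Res (Hm x.1 s x.2) (ze E η)) v.1 v.2 -
            Bclean d (ze E η))
        · rw [if_pos hc]
          split_ifs <;> norm_num
        · rw [if_neg hc, if_pos (farsum_le hcl (not_lt.1 hc))]
    _ ≤ (C1 * s ^ 2 + δ) / t ^ 2 := h3
    _ ≤ 1 / 4 := by
        rw [div_le_iff₀ (by positivity)]
        have : δ ≤ t ^ 2 / 8 := min_le_right _ _
        linarith

end Crest.Agent.R166.BlkLaw355
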