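import Crest.Agent.R166.CMI_47

/-!
Row 166, section 40.10 (helper47): final statement at fixed `η`.
-/

set_option autoImplicit false

namespace Crest.Agent.R166.CMI47

open MeasureTheory Filter Topology Crest.Agent.R166.Words955 Crest.Agent.R166.Upp724
  Crest.Agent.R166.EntTree397 Crest.Agent.R166.Ent397 Crest.Agent.R166.Lim47
  Crest.Agent.R166.View47 Crest.Agent.R166.Lev47

variable {b k : ℕ} {T : Type}

section sigma2

variable {po : T → ℝ} {py : T → Fin k → ℝ}

/-- the environment and the two values at the root edge -/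
def Ced (b : ℕ) (po : T → ℝ) (py : T → Fin k → ℝ) :
    MeasurableSpace (Conf (b + 1) (Fin (b + 1) × T)) :=
  EnvC b po ⊔ (valC (b := b) py id ⊔ valC (b := b) py cross)

/-- the values at the outward words of length at most `R`, seen from `x` -/
def sideC (py : T → Fin k → ℝ)
    (x : Conf (b + 1) (Fin (b + 1) × T) → Conf (b + 1) (Fin (b + 1) × T)) (R : ℕ) :
    MeasurableSpace (Conf (b + 1) (Fin (b + 1) × T)) :=
  ⨆ w : {w : List ℕ // B2.OutW (b + 1) w ∧ w.length ≤ R},
    valC (b := b) py fun ξ => B2.wd cross (rotn 1) w.1 (x ξ)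

theorem comap_cross_EnvC : MeasurableSpace.comap cross (EnvC b po) ≤ EnvC b po := by
  have h1 : Measurable[EnvC b po] ((fun ξ : Conf (b + 1) (Fin (b + 1) × T) =>
      fun w : TW (b + 1) => ((ξ w).1, po (ξ w).2)) ∘ cross) :=
    @measurable_pi_lambda _ _ _ (EnvC b po) _ _ fun w => measurable_EnvC (po := po) (TW.cr w)
  rw [measurable_iff_comap_le, ← MeasurableSpace.comap_comp] at h1
  exact h1

theorem sg_pair_le {Ω : Type*} {α β : Type*} [Fintype α] [Fintype β] {M : MeasurableSpace Ω}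
    {X : Ω → α} {Y : Ω → β} (hX : sg X ≤ M) (hY : sg Y ≤ M) : sg (fun ω => (X ω, Y ω)) ≤ M := by
  refine @sg_le _ M _ _ _ (@FM.pair _ M _ _ _ _ ?_ ?_)
  · intro i; exact hX _ ⟨{i}, trivial, rfl⟩
  · intro i; exact hY _ ⟨{i}, trivial, rfl⟩

theorem sg_edge_le (a m : ℕ) :
    sg (fun ξ : Conf (b + 1) (Fin (b + 1) × T) => (cmC po py a m ξ, cmC po py a m (cross ξ))) ≤
      Ced b po py := by
  refine sg_pair_le ?_ ?_
  · refine (sg_cmC_le a m).trans ?_
    exact sup_le_sup_left le_sup_left _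
  · have h1 : sg (fun ξ : Conf (b + 1) (Fin (b + 1) × T) => cmC po py a m (cross ξ)) =
        MeasurableSpace.comap cross (sg (cmC po py a m)) := by
      rw [sg, sg, MeasurableSpace.comap_comp]; rfl
    rw [h1]
    refine (MeasurableSpace.comap_mono (sg_cmC_le a m)).trans ?_
    rw [MeasurableSpace.comap_sup]
    refine sup_le_sup comap_cross_EnvC ?_
    have h2 : MeasurableSpace.comap cross (valC (b := b) py id) = valC (b := b) py cross := by
      rw [valC, valC, MeasurableSpace.comap_comp]; rfl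
    rw [h2]
    exact le_sup_right

end sigma2

section final

variable [MeasurableSpace T] {po : T → ℝ} {py : T → Fin k → ℝ}

/-- the discrete conditional mutual information of the two sides at level `(a, m)` -/
noncomputable def cmi (P : Measure (Conf (b + 1) (Fin (b + 1) × T))) (po : T → ℝ)
    (py : T → Fin k → ℝ) (R a m : ℕ) : ℝ :=
  condMI P (fun ξ => (S (cmC po py a m) cross (rotn 1) R ξ : ST (CA b k a m) b R))
    (fun ξ => (S (cmC po py a m) cross (rotn 1) R (cross ξ) : ST (CA b k a m) b R))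
    (fun ξ => (cmC po py a m ξ, cmC po py a m (cross ξ)))

theorem stat_cmC {P : Measure (Conf (b + 1) (Fin (b + 1) × T))} (hP : Inv P)
    (hpo : Measurable po) (hpy : Measurable py) (a m : ℕ) :
    Stat P b (cmC po py a m) cross (rotn 1) :=
  EntBridge397.stat_conf hP measurable_rs (FM_cmC hpo hpy a m) (cmC_rot a m)

/-- approximate conditional independence at level `(a, m)` -/
theorem approxCI_level {P : Measure (Conf (b + 1) (Fin (b + 1) × T))} [IsProbabilityMeasure P]
    (hP : Inv P) (hpo : Measurable po) (hpy : Measurable py) (R a m : ℕ) :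
    ApproxCI P
      (sg fun ξ => ((S (cmC po py a m) cross (rotn 1) R ξ : ST (CA b k a m) b R),
        (cmC po py a m ξ, cmC po py a m (cross ξ))))
      (sg fun ξ => ((S (cmC po py a m) cross (rotn 1) R (cross ξ) : ST (CA b k a m) b R),
        (cmC po py a m ξ, cmC po py a m (cross ξ))))
      (sg fun ξ => (cmC po py a m ξ, cmC po py a m (cross ξ)))
      (2 * Real.sqrt (cmi P po py R a m)) := by
  have hs := stat_cmC hP hpo hpy a m
  have hX := hs.fmS R
  have hY := hs.fmSπ R
  have hc := hs.fm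
  have hcc : FM fun ξ => cmC po py a m (cross ξ) := hs.fm.comp_right hs.mpπ.measurable
  have hZ := hc.pair hcc
  refine approxCI_of_condMI (hX.pair hZ) (hY.pair hZ) hZ ?_
  have h1 := condMI_mono_left P hX (hX.pair hZ) (hY.pair hZ) hZ fun ω ω' e1 e2 => by
    rw [Prod.mk.injEq]; exact ⟨e1, e2⟩
  have h2 := condMI_mono_right P hX hY (hY.pair hZ) hZ fun ω ω' e1 e2 => by
    rw [Prod.mk.injEq]; exact ⟨e1, e2⟩
  exact h1.trans h2

/-- the entropy hypothesis: output of the counting argument (T) + (U) at fixed `η` -/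
def EntHyp (P : Measure (Conf (b + 1) (Fin (b + 1) × T))) (po : T → ℝ)
    (py : T → Fin k → ℝ) (R : ℕ) (B : ℝ) : Prop :=
  ∀ e : ℝ, 0 < e → ∃ᶠ m : ℕ in atTop, ∃ a0 : ℕ, ∀ a : ℕ, a0 ≤ a →
    EntTree397.Psi P b (cmC po py a m) cross (rotn 1) 0 -
      EntTree397.Psi P b (cmC po py a m) cross (rotn 1) R ≤ B + e

theorem exists_radii {P : Measure (Conf (b + 1) (Fin (b + 1) × T))} {R : ℕ} {B : ℝ}
    (hB : EntHyp P po py R B) : ∃ a : ℕ → ℕ, Monotone a ∧ (∀ m, m ≤ a m) ∧
      ∀ e : ℝ, 0 < e → ∃ᶠ m : ℕ in atTop,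
        EntTree397.Psi P b (cmC po py (a m) m) cross (rotn 1) 0 -
          EntTree397.Psi P b (cmC po py (a m) m) cross (rotn 1) R ≤ B + e := by
  classical
  set a0 : ℕ → ℕ → ℕ := fun m j => if h : ∃ a0 : ℕ, ∀ a : ℕ, a0 ≤ a →
    EntTree397.Psi P b (cmC po py a m) cross (rotn 1) 0 -
      EntTree397.Psi P b (cmC po py a m) cross (rotn 1) R ≤ B + 1 / ((j : ℝ) + 1) then h.choose
      else 0 with ha0
  set a : ℕ → ℕ := fun m => m + ∑ i ∈ Finset.range (m + 1), ∑ j ∈ Finset.range (i + 1), a0 i j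
    with ha
  have hmono : Monotone a := by
    refine monotone_nat_of_le_succ fun m => ?_
    simp only [ha]
    have h1 : ∑ i ∈ Finset.range (m + 1), ∑ j ∈ Finset.range (i + 1), a0 i j ≤
        ∑ i ∈ Finset.range (m + 1 + 1), ∑ j ∈ Finset.range (i + 1), a0 i j :=
      Finset.sum_le_sum_of_subset (Finset.range_mono (by omega))
    omega
  have hge : ∀ m j, j ≤ m → a0 m j ≤ a m := by
    intro m j hj
    have h1 : a0 m j ≤ ∑ j ∈ Finset.range (m + 1), a0 m j :=
      Finset.single_le_sum (f := fun j => a0 m j) (fun _ _ => Nat.zero_le _)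
        (Finset.mem_range.2 (by omega))
    have h2 : ∑ j ∈ Finset.range (m + 1), a0 m j ≤
        ∑ i ∈ Finset.range (m + 1), ∑ j ∈ Finset.range (i + 1), a0 i j :=
      Finset.single_le_sum (f := fun i => ∑ j ∈ Finset.range (i + 1), a0 i j)
        (fun _ _ => Nat.zero_le _) (Finset.mem_range.2 (by omega))
    simp only [ha]
    omega
  refine ⟨a, hmono, fun m => by simp only [ha]; omega, fun e he => ?_⟩
  obtain ⟨j, hj⟩ := exists_nat_one_div_lt he
  have h1 := hB (1 / ((j : ℝ) + 1)) (by positivity)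
  refine (h1.and_eventually (eventually_ge_atTop j)).mono fun m hm => ?_
  obtain ⟨h2, h3⟩ := hm
  have h4 : a0 m j = h2.choose := by simp only [ha0]; rw [dif_pos h2]
  have h5 := h2.choose_spec (a m) (by rw [← h4]; exact hge m j h3)
  linarith

/-- **Output at fixed `η`.** -/
theorem approxCI_fixed {P : Measure (Conf (b + 1) (Fin (b + 1) × T))} [IsProbabilityMeasure P]
    (hP : Inv P) (hpo : Measurable po) (hpo1 : ∀ t, po t ∈ Set.Icc (-1 : ℝ) 1)
    (hpy : Measurable py) (R : ℕ) (B : ℝ) (hB : EntHyp P po py R B) :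
    ApproxCI P (sideC (b := b) py id R ⊔ Ced b po py) (sideC (b := b) py cross R ⊔ Ced b po py)
      (Ced b po py) (2 * Real.sqrt (2 * sR b R * B)) := by
  obtain ⟨a, hmono, hma, hfreq⟩ := exists_radii hB
  have hat : Tendsto a atTop atTop := tendsto_atTop_mono hma tendsto_id
  -- the three sequences of σ-algebras
  set A : ℕ → MeasurableSpace (Conf (b + 1) (Fin (b + 1) × T)) := fun m =>
    sg fun ξ => ((S (cmC po py (a m) m) cross (rotn 1) R ξ : ST (CA b k (a m) m) b R),
        (cmC po py (a m) m ξ, cmC po py (a m) m (cross ξ))) with hA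
  set A' : ℕ → MeasurableSpace (Conf (b + 1) (Fin (b + 1) × T)) := fun m =>
    sg fun ξ => ((S (cmC po py (a m) m) cross (rotn 1) R (cross ξ) : ST (CA b k (a m) m) b R),
        (cmC po py (a m) m ξ, cmC po py (a m) m (cross ξ))) with hA'
  set C : ℕ → MeasurableSpace (Conf (b + 1) (Fin (b + 1) × T)) := fun m =>
    sg fun ξ => (cmC po py (a m) m ξ, cmC po py (a m) m (cross ξ)) with hC
  have href : ∀ {m m' : ℕ}, m ≤ m' → ∀ ξ ξ' : Conf (b + 1) (Fin (b + 1) × T),
      cmC po py (a m') m' ξ = cmC po py (a m') m' ξ' → cmC po py (a m) m ξ = cmC po py (a m) m ξ' :=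
    fun hm ξ ξ' h => cmC_ref (hmono hm) hm ξ ξ' h
  have hstat := fun m => stat_cmC (P := P) hP hpo hpy (a m) m
  have hfmc : ∀ m, FM (cmC po py (a m) m : Conf (b + 1) (Fin (b + 1) × T) → CA b k (a m) m) :=
    fun m => FM_cmC hpo hpy (a m) m
  have hfmcc : ∀ m, FM fun ξ : Conf (b + 1) (Fin (b + 1) × T) => cmC po py (a m) m (cross ξ) :=
    fun m => (hfmc m).comp_right measurable_cross
  have hAm : Monotone A := fun m m' hm => sg_mono_of_det fun ξ ξ' h => by
    rw [Prod.mk.injEq, Prod.mk.injEq] at h ⊢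
    exact ⟨S_ref (href hm) R _ _ h.1, href hm _ _ h.2.1, href hm _ _ h.2.2⟩
  have hA'm : Monotone A' := fun m m' hm => sg_mono_of_det fun ξ ξ' h => by
    rw [Prod.mk.injEq, Prod.mk.injEq] at h ⊢
    exact ⟨S_ref (href hm) R _ _ h.1, href hm _ _ h.2.1, href hm _ _ h.2.2⟩
  have hCm : Monotone C := fun m m' hm => sg_mono_of_det fun ξ ξ' h => by
    rw [Prod.mk.injEq] at h ⊢
    exact ⟨href hm _ _ h.1, href hm _ _ h.2⟩
  have hA0 : ∀ m, A m ≤ (inferInstance : MeasurableSpace (Conf (b + 1) (Fin (b + 1) × T))) :=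
    fun m => sg_le (((hstat m).fmS R).pair ((hfmc m).pair (hfmcc m)))
  have hA'0 : ∀ m, A' m ≤ (inferInstance : MeasurableSpace (Conf (b + 1) (Fin (b + 1) × T))) :=
    fun m => sg_le (((hstat m).fmSπ R).pair ((hfmc m).pair (hfmcc m)))
  have hC0 : ∀ m, C m ≤ (inferInstance : MeasurableSpace (Conf (b + 1) (Fin (b + 1) × T))) :=
    fun m => sg_le ((hfmc m).pair (hfmcc m))
  have key := levy_pass (P := P) A A' C hAm hA'm hCm hA0 hA'0 hC0
    (fun m => 2 * Real.sqrt (cmi P po py R (a m) m)) (2 * Real.sqrt (2 * sR b R * B)) ?_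
    (fun m => approxCI_level hP hpo hpy R (a m) m)
  · -- identify the limits
    have hcC : ∀ m, sg (cmC po py (a m) m) ≤ ⨆ n, C n := fun m =>
      (sg_mono_of_det fun ξ ξ' h => ((Prod.mk.injEq _ _ _ _).mp h).1).trans (le_iSup C m)
    have hccC : ∀ m, sg (fun ξ => cmC po py (a m) m (cross ξ)) ≤ ⨆ n, C n := fun m =>
      (sg_mono_of_det fun ξ ξ' h => ((Prod.mk.injEq _ _ _ _).mp h).2).trans (le_iSup C m)
    have hCeq : (⨆ n, C n) = Ced b po py := by
      apply le_antisymm
      · exact iSup_le fun m => sg_edge_le (a m) m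
      · refine sup_le (EnvC_le_iSup (py := py) hpo1 hat hcC) (sup_le ?_ ?_)
        · exact valC_le_iSup (po := po) id hcC
        · exact valC_le_iSup (po := po) cross hccC
    have hCA : (⨆ n, C n) ≤ ⨆ n, A n := iSup_mono fun m =>
      sg_mono_of_det fun ξ ξ' h => ((Prod.mk.injEq _ _ _ _).mp h).2
    have hCA' : (⨆ n, C n) ≤ ⨆ n, A' n := iSup_mono fun m =>
      sg_mono_of_det fun ξ ξ' h => ((Prod.mk.injEq _ _ _ _).mp h).2
    rw [hCeq] at key hCA hCA'
    refine key.mono (sup_le ?_ hCA) (sup_le ?_ hCA') le_rfl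
    · refine iSup_le fun w => valC_le_iSup (po := po) (a := a) _ fun m => ?_
      refine le_trans ?_ (le_iSup A m)
      refine sg_mono_of_det fun ξ ξ' h => ?_
      exact S_wd w.1 w.2.1 R w.2.2 _ _ ((Prod.mk.injEq _ _ _ _).mp h).1
    · refine iSup_le fun w => valC_le_iSup (po := po) (a := a) _ fun m => ?_
      refine le_trans ?_ (le_iSup A' m)
      refine sg_mono_of_det fun ξ ξ' h => ?_
      exact S_wd w.1 w.2.1 R w.2.2 _ _ ((Prod.mk.injEq _ _ _ _).mp h).1
  · -- the errors
    intro e he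
    have hcont : Tendsto (fun t : ℝ => 2 * Real.sqrt (2 * sR b R * (B + t))) (𝓝[>] 0)
        (𝓝 (2 * Real.sqrt (2 * sR b R * B))) := by
      have h1 : Continuous fun t : ℝ => 2 * Real.sqrt (2 * sR b R * (B + t)) := by fun_prop
      have h2 := (h1.tendsto 0).mono_left (nhdsWithin_le_nhds (s := Set.Ioi (0 : ℝ)))
      simpa using h2
    have hev := hcont.eventually (gt_mem_nhds (show 2 * Real.sqrt (2 * sR b R * B) <
      2 * Real.sqrt (2 * sR b R * B) + e by linarith))
    obtain ⟨t, ht, htpos⟩ := (hev.and self_mem_nhdsWithin).exists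
    refine (hfreq t htpos).mono fun m hm => ?_
    have h1 := condMI_le (hstat m) R
    have h2 : cmi P po py R (a m) m ≤ 2 * sR b R * (B + t) :=
      h1.trans (mul_le_mul_of_nonneg_left hm (mul_nonneg (by norm_num) (sR_nonneg b R)))
    have h3 := Real.sqrt_le_sqrt h2
    show 2 * Real.sqrt (cmi P po py R (a m) m) ≤ _
    linarith

end final

end Crest.Agent.R166.CMI47
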