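import Crest.Agent.R166.EntTree_397
import Crest.Agent.R166.UppView_724
import Crest.Agent.R166.Words_955
import Crest.Agent.R166.Count_674

/-!
Row 166, section 40.8, bridge (helper397).

Part 1: views with backtracking (`Upp724.viewOf`) versus the non-backtracking half-edge views
`EntTree397.S/Vw/Ed`: they carry the same information.
Part 2: uniform laws; entropy of stars and edges = `HV`, `HE`.
-/

set_option autoImplicit false

namespace Crest.Agent.R166.EntBridge397

open MeasureTheory Finset Crest.Agent.R166.Ent397 Crest.Agent.R166.EntTree397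
open Crest.Agent.R166.Upp724 (View viewOf starOf)

universe u v

/-! ### Rotations -/

section Rot

variable {Ω : Type v} {A : Type u} {m : ℕ} {c : Ω → A} {π ρ : Ω → Ω}

theorem rot_branch' (cyc : ∀ h, ρ^[m + 1] h = h) (j k : Fin (m + 1)) (h : Ω) :
    ρ^[k.val] (ρ^[j.val] h) = ρ^[(k + j : Fin (m + 1)).val] h := by
  rw [← Function.iterate_add_apply, Fin.val_add]
  have h1 : ∀ q, ρ^[(m + 1) * q] h = h := by
    intro q
    rw [Function.iterate_mul]
    have : (ρ^[m + 1]) = id := funext cyc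
    rw [this]; simp
  conv_lhs => rw [← Nat.mod_add_div (k.val + j.val) (m + 1)]
  rw [Function.iterate_add_apply, h1]

theorem colk' (col : ∀ h h', c (ρ h) = c (ρ h') ↔ c h = c h') (k : ℕ) (h h' : Ω) :
    c (ρ^[k] h) = c (ρ^[k] h') ↔ c h = c h' := by
  induction k generalizing h h' with
  | zero => exact Iff.rfl
  | succ k ih => rw [Function.iterate_succ_apply, Function.iterate_succ_apply, ih, col]

/-- rotating the root port does not change the information of the full view -/
theorem Vw_rot (cyc : ∀ h, ρ^[m + 1] h = h) (col : ∀ h h', c (ρ h) = c (ρ h') ↔ c h = c h')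
    (r : ℕ) (j : Fin (m + 1)) (h h' : Ω)
    (e : (Vw c π ρ r h : A × (Fin (m + 1) → ST A m r)) = Vw c π ρ r h') :
    (Vw c π ρ r (ρ^[j.val] h) : A × (Fin (m + 1) → ST A m r)) = Vw c π ρ r (ρ^[j.val] h') := by
  rw [Vw_eq_iff] at e ⊢
  refine ⟨(colk' col j.val h h').2 e.1, fun k => ?_⟩
  rw [rot_branch' cyc, rot_branch' cyc]
  exact e.2 _

theorem Vw_det (r : ℕ) (h h' : Ω)
    (e : (Vw c π ρ (r + 1) h : A × (Fin (m + 1) → ST A m (r + 1))) = Vw c π ρ (r + 1) h') :
    (Vw c π ρ r h : A × (Fin (m + 1) → ST A m r)) = Vw c π ρ r h' := by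
  rw [Vw_eq_iff] at e ⊢
  exact ⟨e.1, fun k => S_det c π ρ r _ _ (e.2 k)⟩

/-- the full view around a neighbour is determined by the larger full view -/
theorem Vw_nbr (cyc : ∀ h, ρ^[m + 1] h = h) (col : ∀ h h', c (ρ h) = c (ρ h') ↔ c h = c h')
    (invol : ∀ h, π (π h) = h) (r : ℕ) (j : Fin (m + 1)) (h h' : Ω)
    (e : (Vw c π ρ (r + 1) h : A × (Fin (m + 1) → ST A m (r + 1))) = Vw c π ρ (r + 1) h') :
    (Vw c π ρ r (π (ρ^[j.val] h)) : A × (Fin (m + 1) → ST A m r)) =
      Vw c π ρ r (π (ρ^[j.val] h')) := by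
  rw [← Vw_iff_pair, invol, invol]
  refine ⟨((Vw_eq_iff c π ρ (r + 1) h h').1 e).2 j, ?_⟩
  have e1 := Vw_rot cyc col r j h h' (Vw_det r h h' e)
  exact S_det c π ρ r _ _ ((Vw_iff_pair c π ρ r _ _).2 e1).1

end Rot

/-! ### Port graphs -/

section Port

variable {V T : Type} {m : ℕ}

/-- rotate the port -/
def rho (h : V × Fin (m + 1)) : V × Fin (m + 1) := (h.1, h.2 + 1)

/-- half-edge colour `(label, vertex colour)` -/
def lb (f : V → T) (h : V × Fin (m + 1)) : Fin (m + 1) × T := (h.2, f h.1)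

theorem rho_iter (k : ℕ) (h : V × Fin (m + 1)) :
    rho^[k] h = (h.1, h.2 + Fin.ofNat (m + 1) k) := by
  induction k with
  | zero =>
    have : Fin.ofNat (m + 1) 0 = 0 := rfl
    rw [this, add_zero]; rfl
  | succ k ih =>
    rw [Function.iterate_succ_apply', ih]
    have : Fin.ofNat (m + 1) (k + 1) = Fin.ofNat (m + 1) k + 1 := by
      apply Fin.ext
      simp [Fin.val_add, Fin.ofNat, Nat.add_mod]
    rw [this]
    simp only [rho, add_assoc]

theorem rho_iter_val (k : Fin (m + 1)) (h : V × Fin (m + 1)) : rho^[k.val] h = (h.1, h.2 + k) := by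
  rw [rho_iter]
  have : Fin.ofNat (m + 1) k.val = k := by
    apply Fin.ext
    simp [Fin.ofNat, Nat.mod_eq_of_lt k.isLt]
  rw [this]

theorem rho_cyc (h : V × Fin (m + 1)) : rho^[m + 1] h = h := by
  rw [rho_iter]
  have : Fin.ofNat (m + 1) (m + 1) = 0 := by
    apply Fin.ext
    simp [Fin.ofNat]
  rw [this, add_zero]

theorem lb_col (f : V → T) (h h' : V × Fin (m + 1)) :
    lb f (rho h) = lb f (rho h') ↔ lb f h = lb f h' := by
  simp [lb, rho]

variable {p : V × Fin (m + 1) → V × Fin (m + 1)} {f : V → T}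

/-- the one-sided view is determined by the label and the (backtracking) view -/
theorem S_of_view (R : ℕ) : ∀ h h' : V × Fin (m + 1), h.2 = h'.2 →
    viewOf p f R h.1 = viewOf p f R h'.1 →
    (S (lb f) p rho R h : ST (Fin (m + 1) × T) m R) = S (lb f) p rho R h' := by
  induction R with
  | zero =>
    intro h h' e1 e2
    exact Prod.ext e1 e2
  | succ R ih =>
    intro h h' e1 e2
    have e3 : f h.1 = f h'.1 := congrArg Prod.fst e2
    have e4 := fun i => congrFun (congrArg Prod.snd e2) i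
    rw [S_succ_eq_iff]
    refine ⟨Prod.ext e1 e3, fun k => ?_⟩
    rw [rho_iter, rho_iter, e1]
    have e5 := e4 (h'.2 + Fin.ofNat (m + 1) (k.val + 1))
    exact ih _ _ (congrArg Prod.fst e5) (congrArg Prod.snd e5)

/-- the (backtracking) view of radius `R+1` is determined by the full half-edge view -/
theorem view_of_Vw (hp : ∀ h, p (p h) = h) (R : ℕ) : ∀ h h' : V × Fin (m + 1),
    (Vw (lb f) p rho R h : (Fin (m + 1) × T) × (Fin (m + 1) → ST (Fin (m + 1) × T) m R)) =
      Vw (lb f) p rho R h' →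
    h.2 = h'.2 ∧ viewOf p f (R + 1) h.1 = viewOf p f (R + 1) h'.1 := by
  induction R with
  | zero =>
    intro h h' e
    obtain ⟨e0, e1⟩ := (Vw_eq_iff (lb f) p rho 0 h h').1 e
    have e2 : h.2 = h'.2 := congrArg Prod.fst e0
    refine ⟨e2, Prod.ext (congrArg Prod.snd e0) (funext fun i => ?_)⟩
    have e3 := e1 (i - h.2)
    rw [rho_iter_val, rho_iter_val, e2] at e3
    have e4 : h'.2 + (i - h'.2) = i := by abel
    rw [e4] at e3
    exact Prod.ext (congrArg Prod.fst e3) (congrArg Prod.snd e3)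
  | succ R ih =>
    intro h h' e
    obtain ⟨e0, e1⟩ := (Vw_eq_iff (lb f) p rho (R + 1) h h').1 e
    have e2 : h.2 = h'.2 := congrArg Prod.fst e0
    refine ⟨e2, Prod.ext (congrArg Prod.snd e0) (funext fun i => ?_)⟩
    have e3 := Vw_nbr (m := m) rho_cyc (lb_col f) hp R (i - h.2) h h' e
    rw [rho_iter_val, rho_iter_val] at e3
    have e4 : h'.2 + (i - h.2) = i := by rw [e2]; abel
    have e5 : h.2 + (i - h.2) = i := by abel
    rw [e4, e5] at e3
    obtain ⟨e6, e7⟩ := ih _ _ e3
    exact Prod.ext e6 e7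

theorem Vw_of_view (R : ℕ) (h h' : V × Fin (m + 1)) (e1 : h.2 = h'.2)
    (e2 : viewOf p f (R + 1) h.1 = viewOf p f (R + 1) h'.1) :
    (Vw (lb f) p rho R h : (Fin (m + 1) × T) × (Fin (m + 1) → ST (Fin (m + 1) × T) m R)) =
      Vw (lb f) p rho R h' := by
  have e3 : f h.1 = f h'.1 := congrArg Prod.fst e2
  have e4 := fun i => congrFun (congrArg Prod.snd e2) i
  rw [Vw_eq_iff]
  refine ⟨Prod.ext e1 e3, fun k => ?_⟩
  rw [rho_iter_val, rho_iter_val, e1]
  have e5 := e4 (h'.2 + k)
  exact S_of_view R _ _ (congrArg Prod.fst e5) (congrArg Prod.snd e5)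

/-- truncation of backtracking views -/
theorem viewOf_det (R : ℕ) (w w' : V) (e : viewOf p f (R + 1) w = viewOf p f (R + 1) w') :
    viewOf p f R w = viewOf p f R w' := by
  rw [← Upp724.vtr_viewOf p f R w, ← Upp724.vtr_viewOf p f R w', e]

/-- star types with view colours = larger views -/
theorem starOf_iff (R : ℕ) (w w' : V) :
    starOf p (viewOf p f R) w = starOf p (viewOf p f R) w' ↔
      viewOf p f (R + 1) w = viewOf p f (R + 1) w' := by
  constructor
  · intro e
    obtain ⟨e1, e3⟩ := Prod.mk_inj.1 e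
    have e2 : f w = f w' := by
      have := congrArg (Upp724.vroot R) e1
      simpa using this
    exact Prod.mk_inj.2 ⟨e2, e3⟩
  · intro e
    exact Prod.mk_inj.2 ⟨viewOf_det R w w' e, (Prod.mk_inj.1 e).2⟩

/-- `Vw R` at the half-edge `h` carries the same information as `(h.2, star of h.1)` -/
theorem Vw_iff_star (hp : ∀ h, p (p h) = h) (R : ℕ) (h h' : V × Fin (m + 1)) :
    (Vw (lb f) p rho R h : (Fin (m + 1) × T) × (Fin (m + 1) → ST (Fin (m + 1) × T) m R)) =
      Vw (lb f) p rho R h' ↔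
    (h.2, starOf p (viewOf p f R) h.1) = (h'.2, starOf p (viewOf p f R) h'.1) := by
  constructor
  · intro e
    obtain ⟨e1, e2⟩ := view_of_Vw hp R h h' e
    exact Prod.mk_inj.2 ⟨e1, (starOf_iff R _ _).2 e2⟩
  · intro e
    obtain ⟨e1, e2⟩ := Prod.mk_inj.1 e
    exact Vw_of_view R h h' e1 ((starOf_iff R _ _).1 e2)

/-- edge type of a half-edge for a vertex colouring -/
def edgeOf {Sg : Type} (p : V × Fin (m + 1) → V × Fin (m + 1)) (g : V → Sg)
    (h : V × Fin (m + 1)) : Sg × Fin (m + 1) × Fin (m + 1) × Sg :=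
  (g h.1, h.2, (p h).2, g (p h).1)

theorem view_of_Ed (hp : ∀ h, p (p h) = h) (R : ℕ) (h h' : V × Fin (m + 1))
    (e : (Ed (lb f) p rho R h : ST (Fin (m + 1) × T) m R × ST (Fin (m + 1) × T) m R) =
      Ed (lb f) p rho R h') : h.2 = h'.2 ∧ viewOf p f R h.1 = viewOf p f R h'.1 := by
  obtain ⟨e1, e2⟩ := Prod.mk_inj.1 e
  cases R with
  | zero => exact ⟨congrArg Prod.fst e1, congrArg Prod.snd e1⟩
  | succ R =>
    exact view_of_Vw hp R h h'
      ((Vw_iff_pair (lb f) p rho R h h').1 ⟨e1, S_det (lb f) p rho R _ _ e2⟩)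

theorem Ed_iff_edge (hp : ∀ h, p (p h) = h) (R : ℕ) (h h' : V × Fin (m + 1)) :
    (Ed (lb f) p rho R h : ST (Fin (m + 1) × T) m R × ST (Fin (m + 1) × T) m R) =
      Ed (lb f) p rho R h' ↔
    edgeOf p (viewOf p f R) h = edgeOf p (viewOf p f R) h' := by
  constructor
  · intro e
    obtain ⟨e1, e2⟩ := view_of_Ed hp R h h' e
    have e' : (Ed (lb f) p rho R (p h) : ST (Fin (m + 1) × T) m R × ST (Fin (m + 1) × T) m R) =
        Ed (lb f) p rho R (p h') := by
      obtain ⟨a1, a2⟩ := Prod.mk_inj.1 e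
      exact Prod.ext a2 (by rw [← hp h, ← hp h'] at a1; exact a1)
    obtain ⟨e3, e4⟩ := view_of_Ed hp R _ _ e'
    unfold edgeOf
    rw [e1, e2, e3, e4]
  · intro e
    unfold edgeOf at e
    obtain ⟨e1, e⟩ := Prod.mk_inj.1 e
    obtain ⟨e2, e⟩ := Prod.mk_inj.1 e
    obtain ⟨e3, e4⟩ := Prod.mk_inj.1 e
    exact Prod.ext (S_of_view R _ _ e2 e1) (S_of_view R _ _ e3 e4)

end Port

/-! ### Uniform laws -/

section Unif

variable {X : Type*} [Fintype X] [MeasurableSpace X] [MeasurableSingletonClass X]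

/-- uniform law on a finite type -/
noncomputable def unif (X : Type*) [Fintype X] [MeasurableSpace X] : Measure X :=
  ((Fintype.card X : ENNReal)⁻¹) • ∑ x : X, Measure.dirac x

theorem fm_any {α : Type*} (g : X → α) : FM g := fun _ => (Set.toFinite _).measurableSet

theorem unif_apply (s : Set X) [DecidablePred (· ∈ s)] :
    unif X s = (Fintype.card X : ENNReal)⁻¹ * ((univ.filter fun x => x ∈ s).card : ENNReal) := by
  have hs : MeasurableSet s := (Set.toFinite s).measurableSet
  unfold unif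
  rw [Measure.smul_apply, Measure.finsetSum_apply, smul_eq_mul]
  congr 1
  simp only [Measure.dirac_apply' _ hs, Set.indicator_apply, Pi.one_apply]
  rw [Finset.sum_ite, Finset.sum_const_zero, add_zero, Finset.sum_const, nsmul_eq_mul, mul_one]

instance instProbUnif [Nonempty X] : IsProbabilityMeasure (unif X) := ⟨by
  classical
  rw [unif_apply Set.univ]
  have : (univ.filter fun x : X => x ∈ (Set.univ : Set X)) = univ := by ext; simp
  rw [this, Finset.card_univ]
  exact ENNReal.inv_mul_cancel (by simp) (by simp)⟩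

theorem lw_unif {α : Type*} [DecidableEq α] (g : X → α) (a : α) :
    lw (unif X) g a = ((univ.filter fun x => g x = a).card : ℝ) / Fintype.card X := by
  classical
  unfold lw
  rw [measureReal_def, unif_apply]
  simp only [Set.mem_preimage, Set.mem_singleton_iff, ENNReal.toReal_mul, ENNReal.toReal_inv,
    ENNReal.toReal_natCast]
  rw [div_eq_mul_inv, mul_comm]

theorem mp_unif (e : X ≃ X) : MeasurePreserving e (unif X) (unif X) := by
  classical
  have hm : Measurable e := fun s _ => (Set.toFinite _).measurableSet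
  refine ⟨hm, Measure.ext fun s hs => ?_⟩
  rw [Measure.map_apply hm hs, unif_apply, unif_apply]
  congr 2
  refine Finset.card_bij (fun x _ => e x) (fun x hx => ?_) (fun x _ y _ h => e.injective h)
    fun y hy => ⟨e.symm y, ?_, by simp⟩
  · simpa using hx
  · simpa using hy

theorem H_unif {α : Type*} [Fintype α] [DecidableEq α] (g : X → α) :
    H (unif X) g =
      ∑ a, Real.negMulLog (((univ.filter fun x => g x = a).card : ℝ) / Fintype.card X) := by
  unfold H
  exact Finset.sum_congr rfl fun a _ => by rw [lw_unif]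

/-- entropy of `(uniform label, g)` -/
theorem H_unif_prod {V I α : Type*} [Fintype V] [Fintype I] [Nonempty V] [Nonempty I]
    [MeasurableSpace V] [MeasurableSpace I] [MeasurableSingletonClass V]
    [MeasurableSingletonClass I] [Fintype α] (g : V → α) :
    H (unif (V × I)) (fun h => (h.2, g h.1)) = Real.log (Fintype.card I) + H (unif V) g := by
  classical
  have hI : (0 : ℝ) < Fintype.card I := by exact_mod_cast Fintype.card_pos
  have hV : (0 : ℝ) < Fintype.card V := by exact_mod_cast Fintype.card_pos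
  have h1 : ∀ (i : I) (a : α), lw (unif (V × I)) (fun h => (h.2, g h.1)) (i, a) =
      (Fintype.card I : ℝ)⁻¹ * lw (unif V) g a := by
    intro i a
    rw [lw_unif, lw_unif]
    have : (univ.filter fun x : V × I => (x.2, g x.1) = (i, a)).card =
        (univ.filter fun x : V => g x = a).card := by
      refine Finset.card_bij (fun x _ => x.1) (fun x hx => ?_) (fun x hx y hy e => ?_)
        fun y hy => ⟨(y, i), ?_, rfl⟩
      · simp only [mem_filter, mem_univ, true_and, Prod.mk.injEq] at hx ⊢; exact hx.2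
      · simp only [mem_filter, mem_univ, true_and, Prod.mk.injEq] at hx hy
        exact Prod.ext e (hx.1.trans hy.1.symm)
      · simp only [mem_filter, mem_univ, true_and] at hy ⊢; rw [hy]
    rw [this, Fintype.card_prod]
    push_cast
    field_simp
  unfold H
  rw [Fintype.sum_prod_type]
  have h2 : ∀ (i : I) (a : α), Real.negMulLog (lw (unif (V × I)) (fun h => (h.2, g h.1)) (i, a)) =
      (Fintype.card I : ℝ)⁻¹ * (lw (unif V) g a * Real.log (Fintype.card I) +
        Real.negMulLog (lw (unif V) g a)) := by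
    intro i a
    rw [h1]
    rcases eq_or_ne (lw (unif V) g a) 0 with h | h
    · rw [h]; simp
    · simp only [Real.negMulLog]
      rw [Real.log_mul (by positivity) h, Real.log_inv]
      ring
  simp only [h2, Finset.sum_const, Finset.card_univ, nsmul_eq_mul]
  rw [← Finset.mul_sum, Finset.sum_add_distrib, ← Finset.sum_mul, sum_lw _ (fm_any g)]
  field_simp

end Unif

/-! ### Entropies of stars and edges -/

section Bridge

variable {V T : Type} [Fintype V] [Nonempty V] [MeasurableSpace V] [MeasurableSingletonClass V]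
  [Fintype T] {m : ℕ} (p : V × Fin (m + 1) → V × Fin (m + 1)) (f : V → T)

theorem stat_port (hp : ∀ h, p (p h) = h) :
    Stat (unif (V × Fin (m + 1))) m (lb f) p rho where
  fm := fm_any _
  mpπ := mp_unif ⟨p, p, hp, hp⟩
  mpρ := mp_unif ⟨rho, fun h => (h.1, h.2 - 1), fun h => by simp [rho], fun h => by simp [rho]⟩
  invol := hp
  cyc := rho_cyc
  col := lb_col f

/-- `HV R = log d + H(star types with the colours viewOf p f R)` -/
theorem HV_eq_star (hp : ∀ h, p (p h) = h) (R : ℕ) :
    HV (unif (V × Fin (m + 1))) m (lb f) p rho R =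
      Real.log (m + 1) + H (unif V) (starOf p (viewOf p f R)) := by
  have h1 := H_unif_prod (V := V) (I := Fin (m + 1)) (starOf p (viewOf p f R))
  rw [Fintype.card_fin] at h1
  push_cast at h1
  rw [← h1]
  exact H_eq_of_det _ (fm_any _) (fm_any _) fun h h' => (Vw_iff_star hp R h h').symm

/-- `HE R = H(edge types with the colours viewOf p f R)` -/
theorem HE_eq_edge (hp : ∀ h, p (p h) = h) (R : ℕ) :
    HE (unif (V × Fin (m + 1))) m (lb f) p rho R =
      H (unif (V × Fin (m + 1))) (edgeOf p (viewOf p f R)) :=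
  H_eq_of_det _ (fm_any _) (fm_any _) fun h h' => (Ed_iff_edge hp R h h').symm

/-- `Psi` of the star/edge counts -/
theorem Psi_eq (hp : ∀ h, p (p h) = h) (R : ℕ) :
    EntTree397.Psi (unif (V × Fin (m + 1))) m (lb f) p rho R =
      Real.log (m + 1) + (H (unif V) (starOf p (viewOf p f R)) -
        ((m : ℝ) + 1) / 2 * H (unif (V × Fin (m + 1))) (edgeOf p (viewOf p f R))) := by
  unfold EntTree397.Psi
  rw [HV_eq_star p f hp, HE_eq_edge p f hp]
  ring

end Bridge

/-! ### The counting functional of `Count_674` -/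

section Count

variable {V : Type} [Fintype V] [DecidableEq V] [Nonempty V] [MeasurableSpace V]
  [MeasurableSingletonClass V] {m : ℕ}

theorem Psi_count {Sg : Type} [Fintype Sg] [DecidableEq Sg] (p : Equiv.Perm (V × Fin (m + 1)))
    (g : V → Sg) :
    Count674.Psi (Fintype.card V) (Count674.starCnt p g) =
      H (unif V) (starOf p g) -
        ((m : ℝ) + 1) / 2 * H (unif (V × Fin (m + 1))) (edgeOf p g) := by
  classical
  have h1 : (∑ s, Real.negMulLog ((Count674.starCnt p g s : ℝ) / Fintype.card V)) =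
      H (unif V) (starOf p g) := by
    rw [H_unif]
    refine Finset.sum_congr rfl fun s _ => ?_
    have : Count674.starCnt p g s = (univ.filter fun v => starOf p g v = s).card := by
      unfold Count674.starCnt
      congr 1
    rw [this]
  have h2 : (∑ t, Real.negMulLog ((Count674.edgeCnt (Count674.starCnt p g) t : ℝ) /
      (Fintype.card V * ((m + 1 : ℕ) : ℝ)))) = H (unif (V × Fin (m + 1))) (edgeOf p g) := by
    rw [H_unif]
    refine Finset.sum_congr rfl fun t _ => ?_
    rw [Count674.edgeCnt_starCnt, Fintype.card_prod, Fintype.card_fin]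
    have : (univ.filter fun h : V × Fin (m + 1) => (g h.1, h.2, (p h).2, g (p h).1) = t).card =
        (univ.filter fun h => edgeOf p g h = t).card := by
      congr 1
    rw [this]
    push_cast
    rfl
  unfold Count674.Psi
  rw [h1, h2]
  push_cast
  rfl

/-- (B1) the counting functional of `Count_674` at the views of radius `R` is `EntTree397.Psi`
of the uniform law, up to `log d` -/
theorem Psi_eq_count {T : Type} [Fintype T] (p : Equiv.Perm (V × Fin (m + 1))) (f : V → T)
    (hp : ∀ h, p (p h) = h) (R : ℕ) :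
    EntTree397.Psi (unif (V × Fin (m + 1))) m (lb f) p rho R =
      Real.log (m + 1) +
        Count674.Psi (Fintype.card V) (Count674.starCnt p (viewOf p f R)) := by
  rw [Psi_eq p f hp, Psi_count]

end Count

/-! ### Factor maps -/

section Factor

universe w

variable {Ω : Type v} {Ω' : Type w} {A : Type u} {m : ℕ} {c : Ω → A} {π ρ : Ω → Ω}
  {π' ρ' : Ω' → Ω'} {θ : Ω' → Ω}

theorem iter_factor (hρ : ∀ h, θ (ρ' h) = ρ (θ h)) (k : ℕ) (h : Ω') :
    θ (ρ'^[k] h) = ρ^[k] (θ h) := by
  induction k generalizing h with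
  | zero => rfl
  | succ k ih => rw [Function.iterate_succ_apply, Function.iterate_succ_apply, ih, hρ]

theorem S_factor (hπ : ∀ h, θ (π' h) = π (θ h)) (hρ : ∀ h, θ (ρ' h) = ρ (θ h)) (r : ℕ) :
    ∀ h : Ω', (S c π ρ r (θ h) : ST A m r) = S (fun h => c (θ h)) π' ρ' r h := by
  induction r with
  | zero => intro h; rfl
  | succ r ih =>
    intro h
    rw [S_succ, S_succ]
    congr 1
    funext k
    rw [← iter_factor hρ, ← hπ, ih]

theorem Vw_factor (hπ : ∀ h, θ (π' h) = π (θ h)) (hρ : ∀ h, θ (ρ' h) = ρ (θ h)) (r : ℕ)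
    (h : Ω') : (Vw c π ρ r (θ h) : A × (Fin (m + 1) → ST A m r)) =
      Vw (fun h => c (θ h)) π' ρ' r h := by
  unfold Vw
  congr 1
  funext k
  rw [← iter_factor hρ, ← hπ, S_factor hπ hρ]

theorem Ed_factor (hπ : ∀ h, θ (π' h) = π (θ h)) (hρ : ∀ h, θ (ρ' h) = ρ (θ h)) (r : ℕ)
    (h : Ω') : (Ed c π ρ r (θ h) : ST A m r × ST A m r) = Ed (fun h => c (θ h)) π' ρ' r h := by
  unfold Ed
  rw [← hπ, S_factor hπ hρ, S_factor hπ hρ]

variable [MeasurableSpace Ω] [MeasurableSpace Ω'] {μ : Measure Ω} {μ' : Measure Ω'}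

theorem lw_factor {α : Type*} (hθ : MeasurePreserving θ μ' μ) {X : Ω → α} (hX : FM X) (a : α) :
    lw μ' (fun h => X (θ h)) a = lw μ X a := by
  unfold lw
  rw [measureReal_def, measureReal_def, ← hθ.measure_preimage (hX a).nullMeasurableSet]
  rfl

theorem H_factor {α : Type*} [Fintype α] (hθ : MeasurePreserving θ μ' μ) {X : Ω → α} (hX : FM X) :
    H μ' (fun h => X (θ h)) = H μ X := by
  unfold H
  exact Finset.sum_congr rfl fun a _ => by rw [lw_factor hθ hX]

variable [Fintype A]

theorem fmS' (hc : FM c) (hπ : Measurable π) (hρ : Measurable ρ) (r : ℕ) :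
    FM (S c π ρ r : Ω → ST A m r) := by
  induction r with
  | zero => exact hc
  | succ r ih =>
    exact FM.pair hc (FM.pi fun k => ih.comp_right (hπ.comp (hρ.iterate (k.val + 1))))

theorem fmVw' (hc : FM c) (hπ : Measurable π) (hρ : Measurable ρ) (r : ℕ) :
    FM (Vw c π ρ r : Ω → A × (Fin (m + 1) → ST A m r)) :=
  hc.pair (FM.pi fun k => (fmS' hc hπ hρ r).comp_right (hπ.comp (hρ.iterate k.val)))

theorem fmEd' (hc : FM c) (hπ : Measurable π) (hρ : Measurable ρ) (r : ℕ) :
    FM (Ed c π ρ r : Ω → ST A m r × ST A m r) :=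
  (fmS' hc hπ hρ r).pair ((fmS' hc hπ hρ r).comp_right hπ)

theorem HV_factor (hθ : MeasurePreserving θ μ' μ) (hc : FM c) (mπ : Measurable π)
    (mρ : Measurable ρ) (hπ : ∀ h, θ (π' h) = π (θ h)) (hρ : ∀ h, θ (ρ' h) = ρ (θ h)) (r : ℕ) :
    HV μ m c π ρ r = HV μ' m (fun h => c (θ h)) π' ρ' r := by
  unfold HV
  rw [← H_factor hθ (fmVw' hc mπ mρ r)]
  congr 1
  funext h
  exact Vw_factor hπ hρ r h

theorem HE_factor (hθ : MeasurePreserving θ μ' μ) (hc : FM c) (mπ : Measurable π)
    (mρ : Measurable ρ) (hπ : ∀ h, θ (π' h) = π (θ h)) (hρ : ∀ h, θ (ρ' h) = ρ (θ h)) (r : ℕ) :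
    HE μ m c π ρ r = HE μ' m (fun h => c (θ h)) π' ρ' r := by
  unfold HE
  rw [← H_factor hθ (fmEd' hc mπ mρ r)]
  congr 1
  funext h
  exact Ed_factor hπ hρ r h

/-- (B3) `Psi` of a factor -/
theorem Psi_factor (hθ : MeasurePreserving θ μ' μ) (hc : FM c) (mπ : Measurable π)
    (mρ : Measurable ρ) (hπ : ∀ h, θ (π' h) = π (θ h)) (hρ : ∀ h, θ (ρ' h) = ρ (θ h)) (r : ℕ) :
    EntTree397.Psi μ m c π ρ r = EntTree397.Psi μ' m (fun h => c (θ h)) π' ρ' r := by
  unfold EntTree397.Psi
  rw [HV_factor hθ hc mπ mρ hπ hρ, HE_factor hθ hc mπ mρ hπ hρ]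

end Factor

/-! ### Continuity -/

section Cont

open Filter Topology

variable {A : Type u} {m : ℕ}

/-- truncation of one-sided views -/
def trS : ∀ r, ST A m (r + 1) → ST A m r
  | 0, x => x.1
  | r + 1, x => (x.1, fun k => trS r (x.2 k))

theorem trS_S {Ω : Type v} (c : Ω → A) (π ρ : Ω → Ω) (r : ℕ) : ∀ h : Ω,
    trS r (S c π ρ (r + 1) h : ST A m (r + 1)) = S c π ρ r h := by
  induction r with
  | zero => intro h; rfl
  | succ r ih =>
    intro h
    show ((c h, fun k : Fin m => trS r (S c π ρ (r + 1) (π (ρ^[k.val + 1] h)))) :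
      A × (Fin m → ST A m r)) = _
    simp only [ih]
    rfl

/-- the edge view as a function of the full view -/
def edOf (r : ℕ) (x : A × (Fin (m + 1) → ST A m r)) : ST A m r × ST A m r :=
  (trS r ((x.1, fun k : Fin m => x.2 k.succ) : A × (Fin m → ST A m r)), x.2 0)

theorem edOf_Vw {Ω : Type v} (c : Ω → A) (π ρ : Ω → Ω) (r : ℕ) (h : Ω) :
    edOf r (Vw c π ρ r h : A × (Fin (m + 1) → ST A m r)) = Ed c π ρ r h := by
  have h1 : ((c h, fun k : Fin m => S c π ρ r (π (ρ^[k.succ.val] h))) : ST A m (r + 1)) =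
      S c π ρ (r + 1) h := rfl
  unfold edOf Vw Ed
  exact Prod.ext ((congrArg (trS r) h1).trans (trS_S c π ρ r h)) rfl

theorem tendsto_H_of_lw {ι : Type*} {l : Filter ι} {α : Type*} [Fintype α] {Ω : Type v}
    [MeasurableSpace Ω] {μ : Measure Ω} {X : Ω → α} {Ωs : ι → Type*}
    [∀ j, MeasurableSpace (Ωs j)] {μs : ∀ j, Measure (Ωs j)} {Xs : ∀ j, Ωs j → α}
    (h : ∀ a, Tendsto (fun j => lw (μs j) (Xs j) a) l (𝓝 (lw μ X a))) :
    Tendsto (fun j => H (μs j) (Xs j)) l (𝓝 (H μ X)) :=
  tendsto_finsetSum _ fun a _ => (Real.continuous_negMulLog.tendsto _).comp (h a)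

theorem tendsto_lw_comp {ι : Type*} {l : Filter ι} {α β : Type*} [Fintype α] {Ω : Type v}
    [MeasurableSpace Ω] {μ : Measure Ω} [IsFiniteMeasure μ] {X : Ω → α} {Ωs : ι → Type*}
    [∀ j, MeasurableSpace (Ωs j)] {μs : ∀ j, Measure (Ωs j)} [∀ j, IsFiniteMeasure (μs j)]
    {Xs : ∀ j, Ωs j → α} (hX : FM X) (hXs : ∀ j, FM (Xs j))
    (h : ∀ a, Tendsto (fun j => lw (μs j) (Xs j) a) l (𝓝 (lw μ X a))) (g : α → β) (b : β) :
    Tendsto (fun j => lw (μs j) (fun ω => g (Xs j ω)) b) l (𝓝 (lw μ (fun ω => g (X ω)) b)) := by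
  classical
  simp only [lw_comp _ hX g, lw_comp _ (hXs _) g]
  exact tendsto_finsetSum _ fun a _ => h a

/-- (B4) convergence of the laws of the full views gives convergence of `Psi` -/
theorem tendsto_Psi {ι : Type*} {l : Filter ι} [Fintype A] {Ω : Type v}
    [MeasurableSpace Ω] {μ : Measure Ω} [IsFiniteMeasure μ] {c : Ω → A} {π ρ : Ω → Ω}
    {Ωs : ι → Type*} [∀ j, MeasurableSpace (Ωs j)] {μs : ∀ j, Measure (Ωs j)}
    [∀ j, IsFiniteMeasure (μs j)] {cs : ∀ j, Ωs j → A} {πs ρs : ∀ j, Ωs j → Ωs j} (r : ℕ)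
    (hX : FM (Vw c π ρ r : Ω → A × (Fin (m + 1) → ST A m r)))
    (hXs : ∀ j, FM (Vw (cs j) (πs j) (ρs j) r : Ωs j → A × (Fin (m + 1) → ST A m r)))
    (h : ∀ a : A × (Fin (m + 1) → ST A m r),
      Tendsto (fun j => lw (μs j) (Vw (cs j) (πs j) (ρs j) r) a) l (𝓝 (lw μ (Vw c π ρ r) a))) :
    Tendsto (fun j => EntTree397.Psi (μs j) m (cs j) (πs j) (ρs j) r) l
      (𝓝 (EntTree397.Psi μ m c π ρ r)) := by
  unfold EntTree397.Psi HV HE
  refine (tendsto_H_of_lw h).sub ((tendsto_H_of_lw fun b => ?_).const_mul _)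
  have := tendsto_lw_comp hX hXs h (edOf r) b
  simp only [edOf_Vw] at this
  exact this

end Cont

/-! ### Configurations on the tree -/

section ConfSec

open Crest.Agent.R166.Words955

variable {m : ℕ} {Sg : Type*} [MeasurableSpace Sg] [PortAct (m + 1) Sg]

theorem rotn_iter (k : ℕ) (ξ : Conf (m + 1) Sg) :
    (rotn 1)^[k] ξ = rotn (Fin.ofNat (m + 1) k) ξ := by
  induction k with
  | zero =>
    have : Fin.ofNat (m + 1) 0 = 0 := rfl
    rw [this, rotn_zero]; rfl
  | succ k ih =>
    rw [Function.iterate_succ_apply', ih, rotn_rotn]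
    have : Fin.ofNat (m + 1) (k + 1) = 1 + Fin.ofNat (m + 1) k := by
      apply Fin.ext
      simp [Fin.val_add, Fin.ofNat, Nat.add_mod, add_comm]
    rw [this]

theorem rotn_cyc (ξ : Conf (m + 1) Sg) : (rotn 1)^[m + 1] ξ = ξ := by
  rw [rotn_iter]
  have : Fin.ofNat (m + 1) (m + 1) = 0 := by
    apply Fin.ext
    simp [Fin.ofNat]
  rw [this, rotn_zero]

/-- (B2) an invariant law on configurations and an equivariant finite colour give `Stat` -/
theorem stat_conf {A : Type*} {P : Measure (Conf (m + 1) Sg)} (hP : Inv P)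
    (hr : ∀ i : Fin (m + 1), Measurable (PortAct.rs i : Sg → Sg))
    {C : Conf (m + 1) Sg → A} (hC : FM C)
    (col : ∀ ξ ξ', C (rotn 1 ξ) = C (rotn 1 ξ') ↔ C ξ = C ξ') :
    Stat P m C cross (rotn 1) where
  fm := hC
  mpπ := ⟨measurable_cross, hP.1⟩
  mpρ := ⟨measurable_rotn hr 1, hP.2 1⟩
  invol := cross_cross
  cyc := rotn_cyc
  col := col

variable {V : Type} [Fintype V] [MeasurableSpace V] [MeasurableSingletonClass V]

omit [PortAct (m + 1) Sg] in
theorem emp_eq_map (p : V × Fin (m + 1) → V × Fin (m + 1)) (c : V × Fin (m + 1) → Sg) :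
    emp p c = (unif (V × Fin (m + 1))).map (conf p c) := by
  have hm : Measurable (conf p c) := fun s _ => (Set.toFinite _).measurableSet
  ext s hs
  rw [Measure.map_apply hm hs]
  unfold emp unif
  rw [Measure.smul_apply, Measure.smul_apply, Measure.finsetSum_apply, Measure.finsetSum_apply]
  congr 1
  refine Finset.sum_congr rfl fun h _ => ?_
  rw [Measure.dirac_apply' _ hs, Measure.dirac_apply' _ (hm hs)]
  rfl

omit [PortAct (m + 1) Sg] in
theorem mp_conf (p : V × Fin (m + 1) → V × Fin (m + 1)) (c : V × Fin (m + 1) → Sg) :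
    MeasurePreserving (conf p c) (unif (V × Fin (m + 1))) (emp p c) :=
  ⟨fun _ _ => (Set.toFinite _).measurableSet, (emp_eq_map p c).symm⟩

/-- (B3) laws on `Conf` versus laws at the finite level -/
theorem Psi_emp {A : Type*} [Fintype A] (p : V × Fin (m + 1) → V × Fin (m + 1))
    (hp : ∀ h, p (p h) = h) (c : V × Fin (m + 1) → Sg)
    (hc : ∀ v l i, c (v, l + i) = PortAct.rs i (c (v, l)))
    (hr : ∀ i : Fin (m + 1), Measurable (PortAct.rs i : Sg → Sg))
    {C : Conf (m + 1) Sg → A} (hC : FM C) (R : ℕ) :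
    EntTree397.Psi (emp p c) m C cross (rotn 1) R =
      EntTree397.Psi (unif (V × Fin (m + 1))) m (fun h => C (conf p c h)) p rho R :=
  Psi_factor (mp_conf p c) hC measurable_cross (measurable_rotn hr 1)
    (fun h => conf_flip p hp c h) (fun h => conf_rot p c hc h 1) R

end ConfSec

end Crest.Agent.R166.EntBridge397
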