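import Crest.Agent.R166.Lev_47
import Crest.Agent.R166.EntBridge_397

/-!
Row 166, section 40.10 (helper47): approximate conditional independence of the two sides of the
root edge given the environment and the two values at the edge, at fixed `η`.

`d = b + 1`.  `T` = vertex data, `po : T → ℝ` = potential, `py : T → Fin k → ℝ` = the noised values.
-/

set_option autoImplicit false

namespace Crest.Agent.R166.CMI47

open MeasureTheory Filter Topology Crest.Agent.R166.Words955 Crest.Agent.R166.Upp724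
  Crest.Agent.R166.EntTree397 Crest.Agent.R166.Ent397 Crest.Agent.R166.Lim47
  Crest.Agent.R166.View47 Crest.Agent.R166.Lev47

variable {b k : ℕ} {T : Type}

/-- the colour alphabet of level `(a, m)` -/
abbrev CA (b k a m : ℕ) : Type :=
  Fin (b + 1) × (View (Fin (2 ^ m)) (Fin (b + 1)) a × (Fin k → Fin (2 * 16 ^ m)))

/-- the colour of level `(a, m)` -/
noncomputable def cmC (po : T → ℝ) (py : T → Fin k → ℝ) (a m : ℕ)
    (ξ : Conf (b + 1) (Fin (b + 1) × T)) : CA b k a m :=
  (lb ξ, (vview a (mapC (fun t => oq m (po t)) ξ), fun κ => yq m (py (dt ξ) κ)))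

/-- σ-algebra of the environment: labels and potential -/
def EnvC (b : ℕ) (po : T → ℝ) : MeasurableSpace (Conf (b + 1) (Fin (b + 1) × T)) :=
  MeasurableSpace.comap (fun ξ => fun w : TW (b + 1) => ((ξ w).1, po (ξ w).2))
    (inferInstance : MeasurableSpace (TW (b + 1) → Fin (b + 1) × ℝ))

/-- σ-algebra of the values at a vertex `x ξ` -/
def valC (py : T → Fin k → ℝ)
    (x : Conf (b + 1) (Fin (b + 1) × T) → Conf (b + 1) (Fin (b + 1) × T)) :
    MeasurableSpace (Conf (b + 1) (Fin (b + 1) × T)) :=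
  MeasurableSpace.comap (fun ξ => py (dt (x ξ))) inferInstance

section refine

variable {po : T → ℝ} {py : T → Fin k → ℝ}

theorem cmC_ref {a a' m m' : ℕ} (ha : a ≤ a') (hm : m ≤ m')
    (ξ ξ' : Conf (b + 1) (Fin (b + 1) × T)) (h : cmC po py a' m' ξ = cmC po py a' m' ξ') :
    cmC po py a m ξ = cmC po py a m ξ' := by
  simp only [cmC, Prod.mk.injEq] at h ⊢
  obtain ⟨h1, h2, h3⟩ := h
  refine ⟨h1, ?_, ?_⟩
  · exact vview_ref ha _ (fun t => oq m' (po t)) (fun x x' hx => refQ_o.ref_le hm _ _ hx) h1 h2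
  · funext κ
    exact refQ_y.ref_le hm _ _ (congrFun h3 κ)

theorem cmC_rot (a m : ℕ) (ξ ξ' : Conf (b + 1) (Fin (b + 1) × T)) :
    cmC po py a m (rotn 1 ξ) = cmC po py a m (rotn 1 ξ') ↔ cmC po py a m ξ = cmC po py a m ξ' := by
  simp only [cmC, Prod.mk.injEq, lb_rotn, mapC_rotn, vview_rotn, dt_rotn, add_left_inj]

theorem FM_cmC [MeasurableSpace T] (hpo : Measurable po) (hpy : Measurable py) (a m : ℕ) :
    FM (cmC po py a m : Conf (b + 1) (Fin (b + 1) × T) → CA b k a m) := by
  refine FM.pair FM_lb (FM.pair ?_ ?_)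
  · exact FM_vview a ((refQ_o.fm m).comp_right hpo)
  · refine FM.pi fun κ => ?_
    exact (refQ_y.fm m).comp_right ((measurable_pi_apply κ).comp (hpy.comp measurable_dt))

end refine

section sigma

variable {po : T → ℝ} {py : T → Fin k → ℝ}

theorem measurable_EnvC (w : TW (b + 1)) :
    Measurable[EnvC b po] fun ξ : Conf (b + 1) (Fin (b + 1) × T) => ((ξ w).1, po (ξ w).2) := by
  have h1 : Measurable[EnvC b po] fun ξ : Conf (b + 1) (Fin (b + 1) × T) =>
      fun w : TW (b + 1) => ((ξ w).1, po (ξ w).2) := comap_measurable _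
  exact (measurable_pi_apply w).comp h1

theorem EnvC_le [MeasurableSpace T] (hpo : Measurable po) :
    EnvC b po ≤ (inferInstance : MeasurableSpace (Conf (b + 1) (Fin (b + 1) × T))) := by
  rw [EnvC, ← measurable_iff_comap_le]
  exact measurable_pi_lambda _ fun w => (measurable_fst.comp (measurable_pi_apply w)).prodMk
    (hpo.comp (measurable_snd.comp (measurable_pi_apply w)))

/-- a σ-algebra contains the environment as soon as it contains all labels and potentials -/
theorem EnvC_le_of {M : MeasurableSpace (Conf (b + 1) (Fin (b + 1) × T))}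
    (h1 : ∀ w : TW (b + 1), Measurable[M] fun ξ => (ξ w).1)
    (h2 : ∀ w : TW (b + 1), Measurable[M] fun ξ => po (ξ w).2) : EnvC b po ≤ M := by
  rw [EnvC, ← measurable_iff_comap_le]
  exact measurable_pi_lambda _ fun w => (h1 w).prodMk (h2 w)

/-- labels are measurable w.r.t. a colour with a deep view -/
theorem label_sg (a m : ℕ) (w : TW (b + 1)) (hw : w.len ≤ a) :
    Measurable[sg (cmC po py a m)] fun ξ : Conf (b + 1) (Fin (b + 1) × T) => (ξ w).1 := by
  have h : (fun ξ : Conf (b + 1) (Fin (b + 1) × T) => (ξ w).1) =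
      (fun x : CA b k a m => (nav a x.1 x.2.1 w.1).1) ∘ cmC po py a m := by
    funext ξ
    simp only [Function.comp, cmC]
    have := nav_vview_TW a w hw (mapC (fun t => oq m (po t)) ξ)
    rw [lb_mapC] at this
    rw [this]
    rfl
  rw [h]
  exact @Measurable.comp _ _ _ (sg (cmC po py a m)) ⊤ _ _ _ (fun _ _ => trivial)
    (comap_measurable _)

theorem pot_sg (a m : ℕ) (w : TW (b + 1)) (hw : w.len ≤ a) :
    ∀ B : Set (Conf (b + 1) (Fin (b + 1) × T)),
      (∃ s : Set (Fin (2 ^ m)), B = (fun ξ => oq m (po (ξ w).2)) ⁻¹' s) →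
      MeasurableSet[sg (cmC po py a m)] B := by
  rintro B ⟨s, rfl⟩
  have h : (fun ξ : Conf (b + 1) (Fin (b + 1) × T) => oq m (po (ξ w).2)) =
      (fun x : CA b k a m => (nav a x.1 x.2.1 w.1).2) ∘ cmC po py a m := by
    funext ξ
    simp only [Function.comp, cmC]
    have := nav_vview_TW a w hw (mapC (fun t => oq m (po t)) ξ)
    rw [lb_mapC] at this
    rw [this]
    rfl
  rw [h, Set.preimage_comp]
  exact ⟨_, trivial, rfl⟩

/-- the environment is contained in the limit of the colour σ-algebras -/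
theorem EnvC_le_iSup (hpo1 : ∀ t, po t ∈ Set.Icc (-1 : ℝ) 1) {a : ℕ → ℕ}
    (ha : Tendsto a atTop atTop) {M : MeasurableSpace (Conf (b + 1) (Fin (b + 1) × T))}
    (hM : ∀ m, sg (cmC po py (a m) m) ≤ M) : EnvC b po ≤ M := by
  refine EnvC_le_of (fun w => ?_) (fun w => ?_)
  · obtain ⟨m, hm⟩ := (ha.eventually (eventually_ge_atTop w.len)).exists
    exact (label_sg (a m) m w hm).mono (hM m) le_rfl
  · obtain ⟨m0, hm0⟩ := eventually_atTop.1 (ha.eventually (eventually_ge_atTop w.len))
    refine @RefQ.measurable _ _ _ _ _ refQ_o _ M (fun ξ => po (ξ w).2) (fun ξ => hpo1 _) m0 ?_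
    intro m hm i
    exact hM m _ (pot_sg (a m) m w (hm0 m hm) _ ⟨{i}, rfl⟩)

/-- the colour is measurable w.r.t. the environment and the value at the root -/
theorem sg_cmC_le (a m : ℕ) : sg (cmC po py a m) ≤ EnvC b po ⊔ valC (b := b) py id := by
  set M : MeasurableSpace (Conf (b + 1) (Fin (b + 1) × T)) := EnvC b po ⊔ valC (b := b) py id
    with hM
  have hE : EnvC b po ≤ M := le_sup_left
  have hV : valC (b := b) py id ≤ M := le_sup_right
  have h1 : @FM _ M _ (lb : Conf (b + 1) (Fin (b + 1) × T) → Fin (b + 1)) := by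
    intro i
    have h := (measurable_EnvC (po := po) (TW.nil : TW (b + 1))).fst
    exact hE _ (h (measurableSet_singleton i))
  have h2 : @FM _ M _ fun ξ : Conf (b + 1) (Fin (b + 1) × T) =>
      vview a (mapC (fun t => oq m (po t)) ξ) := by
    have h3 : (fun ξ : Conf (b + 1) (Fin (b + 1) × T) => vview a (mapC (fun t => oq m (po t)) ξ)) =
        (fun ζ : Conf (b + 1) (Fin (b + 1) × ℝ) => vview a (mapC (oq m) ζ)) ∘
        (fun ξ => fun w : TW (b + 1) => ((ξ w).1, po (ξ w).2)) := rfl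
    intro x
    rw [h3, Set.preimage_comp]
    exact hE _ ⟨_, FM_vview a (refQ_o.fm m) x, rfl⟩
  have h3 : @FM _ M _ fun ξ : Conf (b + 1) (Fin (b + 1) × T) =>
      fun κ => yq m (py (dt ξ) κ) := by
    refine @FM.pi _ M _ _ _ _ fun κ => ?_
    intro i
    refine hV _ ⟨(fun y : Fin k → ℝ => yq m (y κ)) ⁻¹' {i}, ?_, rfl⟩
    exact ((refQ_y.fm m).comp_right (measurable_pi_apply κ)) i
  exact @sg_le _ M _ _ _ (@FM.pair _ M _ _ _ _ h1 (@FM.pair _ M _ _ _ _ h2 h3))

/-- the value at the root is contained in the limit -/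
theorem valC_le_iSup {a : ℕ → ℕ} (x : Conf (b + 1) (Fin (b + 1) × T) → Conf (b + 1) (Fin (b + 1) × T))
    {M : MeasurableSpace (Conf (b + 1) (Fin (b + 1) × T))}
    (hM : ∀ m, sg (fun ξ => cmC po py (a m) m (x ξ)) ≤ M) : valC (b := b) py x ≤ M := by
  rw [valC, ← measurable_iff_comap_le]
  refine measurable_pi_lambda _ fun κ => ?_
  refine @RefQ.measurable _ _ _ _ _ refQ_y _ M (fun ξ => py (dt (x ξ)) κ) (fun ξ => trivial) 0 ?_
  intro m _ i
  refine hM m _ ⟨{c | c.2.2 κ = i}, trivial, ?_⟩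
  rfl

end sigma

end Crest.Agent.R166.CMI47
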