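import Mathlib

/-!
Row 166, section 51 (COE lemma): averaging over a compact group.
-/

set_option autoImplicit false

namespace Crest.Agent.R166.COE682

open MeasureTheory Topology Filter MeasureTheory.Measure

section haar

variable (G : Type*) [Group G] [TopologicalSpace G] [IsTopologicalGroup G] [CompactSpace G]
  [MeasurableSpace G] [BorelSpace G]

/-- the whole group as a positive compact -/
noncomputable def topPC : TopologicalSpace.PositiveCompacts G where
  carrier := Set.univ
  isCompact' := isCompact_univ
  interior_nonempty' := by simp

/-- Haar probability measure on a compact group -/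
noncomputable def hp : Measure G := haarMeasure (topPC G)

instance hp_prob : IsProbabilityMeasure (hp G) :=
  ⟨by
    have h := haarMeasure_self (K₀ := topPC G)
    exact h⟩

instance hp_haar : IsHaarMeasure (hp G) := isHaarMeasure_haarMeasure _

lemma hp_left (g : G) : (hp G).map (g * ·) = hp G := map_mul_left_eq_self _ g

lemma hp_right (g : G) : (hp G).map (· * g) = hp G := by
  have hm : Measurable fun x : G => x * g := (continuous_mul_const g).measurable
  have : IsProbabilityMeasure ((hp G).map (· * g)) := isProbabilityMeasure_map hm.aemeasurable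
  have h := isMulInvariant_eq_smul_of_compactSpace ((hp G).map (· * g)) (hp G)
  have h2 : ((hp G).map (· * g)) Set.univ =
      (haarScalarFactor ((hp G).map (· * g)) (hp G) • (hp G)) Set.univ := by rw [← h]
  rw [measure_univ, Measure.smul_apply, measure_univ] at h2
  have h3 : haarScalarFactor ((hp G).map (· * g)) (hp G) = 1 := by
    have h4 : ((haarScalarFactor ((hp G).map (· * g)) (hp G) : NNReal) : ENNReal) = 1 := by
      rw [h2]
      simp [ENNReal.smul_def]
    exact_mod_cast h4
  rw [h, h3, one_smul]

end haar

section avg

variable {G : Type*} [Group G] [TopologicalSpace G] [IsTopologicalGroup G] [CompactSpace G]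
  [MeasurableSpace G] [BorelSpace G] [SecondCountableTopology G]
  {X : Type*} [TopologicalSpace X] [MeasurableSpace X] [BorelSpace X] [SecondCountableTopology X]
  [MulAction G X] [ContinuousSMul G X]

/-- average of `f` over the orbit -/
noncomputable def avg (G : Type*) [Group G] [TopologicalSpace G] [IsTopologicalGroup G]
    [CompactSpace G] [MeasurableSpace G] [BorelSpace G] {X : Type*} [MulAction G X]
    (f : X → ℂ) (x : X) : ℂ := ∫ g : G, f (g • x) ∂(hp G)

lemma avg_smul (f : X → ℂ) (h : G) (x : X) : avg G f (h • x) = avg G f x := by
  unfold avg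
  conv_rhs => rw [← hp_right G h]
  have he : MeasurableEmbedding fun x : G => x * h :=
    (Homeomorph.mulRight h).measurableEmbedding
  rw [he.integral_map]
  simp only [mul_smul]

/-- averaging a function with `f (h • x) = f' x` -/
lemma avg_comp (f : X → ℂ) (h : G) (x : X) : avg G (fun x => f (h • x)) x = avg G f x := by
  unfold avg
  conv_rhs => rw [← hp_left G h]
  have he : MeasurableEmbedding fun x : G => h * x :=
    (Homeomorph.mulLeft h).measurableEmbedding
  rw [he.integral_map]
  simp only [mul_smul]

lemma avg_mul_invariant {f k : X → ℂ} (hk : ∀ (g : G) x, k (g • x) = k x) (x : X) :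
    avg G (fun x => k x * f x) x = k x * avg G f x := by
  unfold avg
  simp only [hk]
  rw [integral_const_mul]

lemma norm_avg_le {f : X → ℂ} {C : ℝ} (hf : ∀ x, ‖f x‖ ≤ C) (x : X) : ‖avg G f x‖ ≤ C := by
  unfold avg
  refine (norm_integral_le_of_norm_le_const (C := C) (Eventually.of_forall fun g => hf _)).trans ?_
  simp

lemma measurable_smul_pair : Measurable fun p : G × X => p.1 • p.2 :=
  continuous_smul.measurable

lemma measurable_avg {f : X → ℂ} (hf : Measurable f) : Measurable (avg G f) := by
  have h : StronglyMeasurable fun p : X × G => f (p.2 • p.1) :=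
    (hf.comp (measurable_smul_pair.comp measurable_swap)).stronglyMeasurable
  exact (h.integral_prod_right' (ν := hp G)).measurable

/-- **averaging**: for a `G`-invariant probability measure, `∫ f = ∫ avg f`. -/
theorem integral_eq_integral_avg (P : Measure X) [IsProbabilityMeasure P]
    (hP : ∀ g : G, P.map (g • ·) = P) {f : X → ℂ} (hf : Measurable f) {C : ℝ}
    (hC : ∀ x, ‖f x‖ ≤ C) : ∫ x, f x ∂P = ∫ x, avg G f x ∂P := by
  have h1 : ∀ g : G, ∫ x, f (g • x) ∂P = ∫ x, f x ∂P := by
    intro g
    have he : MeasurableEmbedding fun x : X => g • x := (Homeomorph.smul g).measurableEmbedding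
    conv_rhs => rw [← hP g]
    rw [he.integral_map]
  have h2 : ∫ x, avg G f x ∂P = ∫ g : G, ∫ x, f (g • x) ∂P ∂(hp G) := by
    unfold avg
    rw [integral_integral_swap]
    refine Integrable.of_bound (C := C) ?_ (Eventually.of_forall fun p => hC _)
    exact (hf.comp (measurable_smul_pair.comp measurable_swap)).aestronglyMeasurable
  rw [h2]
  simp only [h1]
  simp

end avg

end Crest.Agent.R166.COE682
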