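import Crest.Agent.R166.COElim_682
import Crest.Agent.R166.Spine_419

/-!
Row 166, section 51 (COE lemma): Cayley transform of real symmetric matrices and the corner
identity `cl (Cay C) = Cay (corner of C)`.
-/

set_option autoImplicit false

namespace Crest.Agent.R166.COE682

open Matrix MeasureTheory Topology Filter

open Crest.Agent.R166.Gen85 (toC toC_mul toC_transpose toC_conjTranspose toC_one)

open Crest.Agent.R166 (Cay)

open scoped ComplexOrder

variable {m : ℕ}

/-- `C + i` -/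
noncomputable def ac (C : Matrix (Fin m) (Fin m) ℝ) : MM m := toC C + Complex.I • (1 : MM m)

lemma ac_conj {C : Matrix (Fin m) (Fin m) ℝ} (hC : Cᵀ = C) :
    (ac C)ᴴ = toC C - Complex.I • (1 : MM m) := by
  unfold ac
  rw [conjTranspose_add, toC_conjTranspose, hC, conjTranspose_smul, conjTranspose_one]
  rw [show star Complex.I = -Complex.I from Complex.conj_I, neg_smul, sub_eq_add_neg]

lemma ac_mul {C : Matrix (Fin m) (Fin m) ℝ} (hC : Cᵀ = C) :
    (ac C)ᴴ * ac C = (toC C)ᴴ * toC C + 1 := by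
  rw [ac_conj hC, toC_conjTranspose, hC]
  unfold ac
  rw [Matrix.sub_mul, Matrix.mul_add, Matrix.mul_add, Matrix.smul_mul, Matrix.one_mul,
    Matrix.mul_smul, Matrix.mul_one, Matrix.smul_mul, Matrix.one_mul, smul_smul, Complex.I_mul_I]
  rw [neg_one_smul]
  abel

lemma det_ac_ne {C : Matrix (Fin m) (Fin m) ℝ} (hC : Cᵀ = C) : (ac C).det ≠ 0 := by
  intro h
  have h1 : ((ac C)ᴴ * ac C).PosDef := by
    rw [ac_mul hC]
    exact Matrix.PosDef.posSemidef_add (Matrix.posSemidef_conjTranspose_mul_self _)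
      Matrix.PosDef.one
  have h2 := h1.det_pos
  rw [det_mul, h, mul_zero] at h2
  exact lt_irrefl _ h2

lemma isUnit_ac {C : Matrix (Fin m) (Fin m) ℝ} (hC : Cᵀ = C) : IsUnit (ac C).det :=
  isUnit_iff_ne_zero.2 (det_ac_ne hC)

/-- `U = 1 - 2 i (C + i)⁻¹` -/
lemma Cay_eq {C : Matrix (Fin m) (Fin m) ℝ} (hC : Cᵀ = C) :
    Cay C = 1 - (2 * Complex.I) • (ac C)⁻¹ := by
  have h1 : Cay C = (toC C - Complex.I • (1 : MM m)) * (ac C)⁻¹ := rfl
  have h2 : toC C - Complex.I • (1 : MM m) = ac C - (2 * Complex.I) • (1 : MM m) := by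
    unfold ac
    rw [two_mul, add_smul]; abel
  rw [h1, h2, Matrix.sub_mul, Matrix.mul_nonsing_inv _ (isUnit_ac hC), Matrix.smul_mul,
    Matrix.one_mul]

lemma ac_transpose {C : Matrix (Fin m) (Fin m) ℝ} (hC : Cᵀ = C) : (ac C)ᵀ = ac C := by
  unfold ac
  rw [transpose_add, ← toC_transpose, hC, transpose_smul, transpose_one]

lemma good_Cay {C : Matrix (Fin m) (Fin m) ℝ} (hC : Cᵀ = C) : Good (Cay C) := by
  have hu := isUnit_ac hC
  have hS := Matrix.mul_nonsing_inv _ hu
  have hS' := Matrix.nonsing_inv_mul _ hu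
  refine ⟨?_, ?_, ?_⟩
  · rw [Cay_eq hC, transpose_sub, transpose_one, transpose_smul, transpose_nonsing_inv,
      ac_transpose hC]
  · rw [mem_unitaryGroup_iff, Cay_eq hC]
    set S := (ac C)⁻¹ with hSdef
    have h1 : S - Sᴴ = -((2 * Complex.I) • (S * Sᴴ)) := by
      have e1 : Sᴴ * (ac C)ᴴ = 1 := by
        rw [← conjTranspose_mul, hS, conjTranspose_one]
      have e1' : (ac C)ᴴ * Sᴴ = 1 := by
        rw [← conjTranspose_mul, hS', conjTranspose_one]
      have e2 : (ac C)ᴴ - ac C = -((2 * Complex.I) • (1 : MM m)) := by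
        rw [ac_conj hC]; unfold ac; rw [two_mul, add_smul]; abel
      calc S - Sᴴ = S * ((ac C)ᴴ * Sᴴ) - (S * ac C) * Sᴴ := by
            rw [e1', hS', Matrix.mul_one, Matrix.one_mul]
        _ = S * (((ac C)ᴴ - ac C) * Sᴴ) := by
            rw [Matrix.sub_mul, Matrix.mul_sub, Matrix.mul_assoc]
        _ = _ := by
            rw [e2, Matrix.neg_mul, Matrix.smul_mul, Matrix.one_mul, Matrix.mul_neg,
              Matrix.mul_smul]
    rw [star_sub, star_one, star_smul, Matrix.star_eq_conjTranspose]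
    have hI : star (2 * Complex.I) = -(2 * Complex.I) := by
      apply Complex.ext <;> simp
    rw [hI, neg_smul, sub_neg_eq_add, Matrix.sub_mul, Matrix.one_mul, Matrix.mul_add,
      Matrix.mul_one, Matrix.smul_mul, Matrix.mul_smul, smul_smul]
    have h2 : (2 * Complex.I) • Sᴴ = (2 * Complex.I) • S + ((2 * Complex.I) * (2 * Complex.I)) • (S * Sᴴ) := by
      have : Sᴴ = S - (S - Sᴴ) := by abel
      conv_lhs => rw [this, h1]
      rw [sub_neg_eq_add, smul_add, smul_smul]
    rw [h2]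
    abel
  · rw [Cay_eq hC, sub_sub_cancel, det_smul, det_nonsing_inv]
    refine mul_ne_zero (pow_ne_zero _ (by simp)) ?_
    rw [Ring.inverse_eq_inv']
    exact inv_ne_zero (det_ac_ne hC)

/-- the corner of `C` -/
def corner (C : Matrix (Fin (m + 1)) (Fin (m + 1)) ℝ) : Matrix (Fin m) (Fin m) ℝ :=
  C.submatrix Fin.succ Fin.succ

lemma corner_symm {C : Matrix (Fin (m + 1)) (Fin (m + 1)) ℝ} (hC : Cᵀ = C) :
    (corner C)ᵀ = corner C := by
  unfold corner
  rw [transpose_submatrix, hC]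

/-- Schur complement of the inverse -/
noncomputable def schurT (S : MM (m + 1)) : MM m :=
  fun i j => S i.succ j.succ - S i.succ 0 * S 0 j.succ / S 0 0

lemma schurT_apply (S : MM (m + 1)) (i j : Fin m) :
    schurT S i j = S i.succ j.succ - S i.succ 0 * S 0 j.succ / S 0 0 := rfl

/-- **corner identity** -/
theorem cl_Cay {C : Matrix (Fin (m + 1)) (Fin (m + 1)) ℝ} (hC : Cᵀ = C) :
    cl (Cay C) = Cay (corner C) := by
  have hgood := good_Cay hC
  have hu1 := hgood.u_ne
  set S := (ac C)⁻¹ with hS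
  have hU : ∀ i j, Cay C i j = (1 : MM (m + 1)) i j - (2 * Complex.I) * S i j := by
    intro i j
    rw [Cay_eq hC]; rfl
  have hS00 : S 0 0 ≠ 0 := by
    intro h
    apply hu1
    rw [hU, h, mul_zero, sub_zero, Matrix.one_apply_eq]
  have hAS := Matrix.mul_nonsing_inv _ (isUnit_ac hC)
  rw [← hS] at hAS
  -- Schur complement
  have hinv : (ac (corner C))⁻¹ = schurT S := by
    apply Matrix.inv_eq_right_inv
    ext i j
    have hac : ∀ i l : Fin m, ac (corner C) i l = ac C i.succ l.succ := by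
      intro i l
      unfold ac corner
      simp [Matrix.add_apply, Matrix.smul_apply, Matrix.one_apply]
    have h1 := congrFun (congrFun hAS i.succ) j.succ
    have h2 := congrFun (congrFun hAS i.succ) 0
    rw [Matrix.mul_apply, Fin.sum_univ_succ] at h1 h2
    rw [Matrix.one_apply_ne (Fin.succ_ne_zero i)] at h2
    have h3 : (1 : MM (m + 1)) i.succ j.succ = (1 : MM m) i j := by
      simp [Matrix.one_apply]
    rw [h3] at h1
    rw [Matrix.mul_apply, ← h1]
    simp only [hac, schurT_apply]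
    have h4 : ∑ l : Fin m, ac C i.succ l.succ * (S l.succ j.succ - S l.succ 0 * S 0 j.succ / S 0 0) =
        ∑ l : Fin m, ac C i.succ l.succ * S l.succ j.succ -
          (∑ l : Fin m, ac C i.succ l.succ * S l.succ 0) * (S 0 j.succ / S 0 0) := by
      rw [Finset.sum_mul, ← Finset.sum_sub_distrib]
      refine Finset.sum_congr rfl fun l _ => ?_
      ring
    rw [h4]
    have h5 : ∑ l : Fin m, ac C i.succ l.succ * S l.succ 0 = -(ac C i.succ 0 * S 0 0) := by
      linear_combination h2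
    rw [h5]
    field_simp
    ring
  ext i j
  rw [Cay_eq (corner_symm hC), hinv, Matrix.sub_apply, Matrix.smul_apply, smul_eq_mul,
    schurT_apply]
  unfold cl
  rw [hU, hU, hU, hU, Matrix.one_apply_ne (Fin.succ_ne_zero i),
    Matrix.one_apply_ne (Fin.succ_ne_zero j).symm, Matrix.one_apply_eq]
  have h3 : (1 : MM (m + 1)) i.succ j.succ = (1 : MM m) i j := by
    simp [Matrix.one_apply]
  rw [h3]
  have hI : (2 * Complex.I) ≠ 0 := by simp
  have h6 : (1 : ℂ) - (1 - 2 * Complex.I * S 0 0) = 2 * Complex.I * S 0 0 := by ring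
  rw [h6]
  field_simp
  ring

/-- symmetrised Cayley transform, a total map into `SymU` -/
noncomputable def cayT (C : Matrix (Fin m) (Fin m) ℝ) : SymU m :=
  SymU.mk (Cay ((1 / 2 : ℝ) • (C + Cᵀ))) (by
    have h : ((1 / 2 : ℝ) • (C + Cᵀ))ᵀ = (1 / 2 : ℝ) • (C + Cᵀ) := by
      rw [transpose_smul, transpose_add, transpose_transpose, add_comm]
    exact ⟨(good_Cay h).symm, (good_Cay h).unit⟩)

lemma val_cayT {C : Matrix (Fin m) (Fin m) ℝ} (hC : Cᵀ = C) : (cayT C).val = Cay C := by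
  have : (1 / 2 : ℝ) • (C + Cᵀ) = C := by
    rw [hC, ← two_smul ℝ C, smul_smul]; norm_num
  show Cay ((1 / 2 : ℝ) • (C + Cᵀ)) = Cay C
  rw [this]

lemma close_cayT {C : Matrix (Fin (m + 1)) (Fin (m + 1)) ℝ} (hC : Cᵀ = C) :
    SymU.close (cayT C) = cayT (corner C) := by
  apply SymU.ext
  rw [SymU.val_close, val_cayT hC, val_cayT (corner_symm hC), cl_Cay hC]

lemma continuous_cayT : Continuous (cayT : Matrix (Fin m) (Fin m) ℝ → SymU m) := by
  rw [SymU.continuous_iff]
  have hsym : ∀ C : Matrix (Fin m) (Fin m) ℝ, ((1 / 2 : ℝ) • (C + Cᵀ))ᵀ = (1 / 2 : ℝ) • (C + Cᵀ) := by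
    intro C
    rw [transpose_smul, transpose_add, transpose_transpose, add_comm]
  have h1 : (fun C : Matrix (Fin m) (Fin m) ℝ => (cayT C).val) = fun C =>
      1 - (2 * Complex.I) • ((ac ((1 / 2 : ℝ) • (C + Cᵀ))).det⁻¹ •
        (ac ((1 / 2 : ℝ) • (C + Cᵀ))).adjugate) := by
    ext1 C
    show Cay ((1 / 2 : ℝ) • (C + Cᵀ)) = _
    rw [Cay_eq (hsym C), Matrix.inv_def, Ring.inverse_eq_inv']
  rw [h1]
  have h2 : Continuous fun C : Matrix (Fin m) (Fin m) ℝ => ac ((1 / 2 : ℝ) • (C + Cᵀ)) := by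
    unfold ac
    have h3 : Continuous fun C : Matrix (Fin m) (Fin m) ℝ => (1 / 2 : ℝ) • (C + Cᵀ) := by
      fun_prop
    have h4 : Continuous fun C : Matrix (Fin m) (Fin m) ℝ => toC C :=
      Continuous.matrix_map continuous_id Complex.continuous_ofReal
    exact (h4.comp h3).add continuous_const
  have h5 : Continuous fun C : Matrix (Fin m) (Fin m) ℝ =>
      (ac ((1 / 2 : ℝ) • (C + Cᵀ))).det⁻¹ • (ac ((1 / 2 : ℝ) • (C + Cᵀ))).adjugate :=
    (h2.matrix_det.inv₀ fun C => det_ac_ne (hsym C)).smul h2.matrix_adjugate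
  have h6 : Continuous fun C : Matrix (Fin m) (Fin m) ℝ =>
      (2 * Complex.I) • ((ac ((1 / 2 : ℝ) • (C + Cᵀ))).det⁻¹ •
        (ac ((1 / 2 : ℝ) • (C + Cᵀ))).adjugate) := h5.const_smul (2 * Complex.I)
  exact continuous_const.sub h6

end Crest.Agent.R166.COE682
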