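import Crest.Agent.R166.COEmom_682

/-!
Row 166, section 51 (COE lemma): the exact uniqueness theorem.
-/

set_option autoImplicit false
set_option linter.unusedSectionVars false

namespace Crest.Agent.R166.COE682

open Matrix MeasureTheory Topology Filter

/-! ### Laws on the circle are determined by their moments -/

section circle

open AddCircle

instance factOne : Fact (0 < (1 : ℝ)) := ⟨one_pos⟩

lemma integral_circle_eq {X : Type*} [MeasurableSpace X] [TopologicalSpace X] [BorelSpace X]
    (P Q : Measure X)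
    [IsProbabilityMeasure P] [IsProbabilityMeasure Q] (D : X → Circle) (hD : Continuous D)
    (h : ∀ k : ℕ, ∫ x, (D x : ℂ) ^ (k + 1) ∂P = ∫ x, (D x : ℂ) ^ (k + 1) ∂Q)
    (φ : Circle → ℂ) (hφ : Continuous φ) : ∫ x, φ (D x) ∂P = ∫ x, φ (D x) ∂Q := by
  set e : AddCircle (1 : ℝ) ≃ₜ Circle := homeomorphCircle one_ne_zero with he
  -- integrability
  have hint : ∀ (ν : Measure X) [IsProbabilityMeasure ν] (g : C(AddCircle (1 : ℝ), ℂ)),
      Integrable (fun x => g (e.symm (D x))) ν := by
    intro ν _ g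
    refine Integrable.of_bound (C := ‖g‖) ?_ (Eventually.of_forall fun x => g.norm_coe_le_norm _)
    exact ((g.continuous.comp e.symm.continuous).comp hD).measurable.aestronglyMeasurable
  -- all integer powers
  have hz : ∀ n : ℤ, ∫ x, (fourier n (e.symm (D x)) : ℂ) ∂P =
      ∫ x, (fourier n (e.symm (D x)) : ℂ) ∂Q := by
    have hf : ∀ (n : ℕ) (x : X), (fourier (n : ℤ) (e.symm (D x)) : ℂ) = (D x : ℂ) ^ n := by
      intro n x
      rw [fourier_apply, natCast_zsmul, toCircle_nsmul, ← homeomorphCircle_apply one_ne_zero,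
        ← he, Homeomorph.apply_symm_apply, Circle.coe_pow]
    have hn : ∀ n : ℕ, ∫ x, (fourier (n : ℤ) (e.symm (D x)) : ℂ) ∂P =
        ∫ x, (fourier (n : ℤ) (e.symm (D x)) : ℂ) ∂Q := by
      intro n
      simp only [hf]
      cases n with
      | zero => simp
      | succ n => exact h n
    intro n
    obtain ⟨k, rfl | rfl⟩ := n.eq_nat_or_neg
    · exact hn k
    · simp only [fourier_neg]
      rw [integral_conj, integral_conj, hn k]
  -- span
  have hs : ∀ g ∈ Submodule.span ℂ (Set.range (@fourier (1 : ℝ))),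
      ∫ x, (g (e.symm (D x)) : ℂ) ∂P = ∫ x, (g (e.symm (D x)) : ℂ) ∂Q := by
    intro g hg
    induction hg using Submodule.span_induction with
    | mem g hg => obtain ⟨n, rfl⟩ := hg; exact hz n
    | zero => simp
    | add f g _ _ hf hg =>
      simp only [ContinuousMap.add_apply]
      rw [integral_add (hint P f) (hint P g), integral_add (hint Q f) (hint Q g), hf, hg]
    | smul c g _ hg =>
      simp only [ContinuousMap.smul_apply]
      rw [integral_smul, integral_smul, hg]
  -- density
  set ψ : C(AddCircle (1 : ℝ), ℂ) := ⟨fun x => φ (e x), hφ.comp e.continuous⟩ with hψ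
  have hψ1 : ∀ x, φ (D x) = ψ (e.symm (D x)) := fun x => by simp [hψ]
  simp only [hψ1]
  have hdense : ψ ∈ closure
      (Submodule.span ℂ (Set.range (@fourier (1 : ℝ))) : Set C(AddCircle (1 : ℝ), ℂ)) := by
    rw [← Submodule.topologicalClosure_coe, span_fourier_closure_eq_top]
    trivial
  have hb : ∀ (ν : Measure X) [IsProbabilityMeasure ν] (f g : C(AddCircle (1 : ℝ), ℂ)),
      ‖(∫ x, f (e.symm (D x)) ∂ν) - ∫ x, g (e.symm (D x)) ∂ν‖ ≤ ‖f - g‖ := by
    intro ν _ f g
    rw [← integral_sub (hint ν f) (hint ν g)]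
    refine (norm_integral_le_of_norm_le_const (C := ‖f - g‖)
      (Eventually.of_forall fun x => ?_)).trans (by simp)
    exact (f - g).norm_coe_le_norm _
  rw [← sub_eq_zero, ← norm_eq_zero]
  refine le_antisymm (le_of_forall_pos_le_add fun ε hε => ?_) (norm_nonneg _)
  obtain ⟨g, hg, hgε⟩ := Metric.mem_closure_iff.1 hdense (ε / 2) (by positivity)
  have h1 := hb P ψ g
  have h2 := hb Q ψ g
  have h3 := hs g hg
  rw [dist_eq_norm] at hgε
  have h4 : (∫ x, ψ (e.symm (D x)) ∂P) - ∫ x, ψ (e.symm (D x)) ∂Q =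
      ((∫ x, ψ (e.symm (D x)) ∂P) - ∫ x, g (e.symm (D x)) ∂P) -
      ((∫ x, ψ (e.symm (D x)) ∂Q) - ∫ x, g (e.symm (D x)) ∂Q) := by rw [h3]; ring
  rw [h4]
  refine (norm_sub_le _ _).trans ?_
  linarith

end circle

variable {m : ℕ}

/-- invariant laws are determined by the law of the determinant -/
theorem eq_of_moments (P Q : Measure (SymU (m + 1))) [IsProbabilityMeasure P]
    [IsProbabilityMeasure Q] (hP : Inv P) (hQ : Inv Q)
    (h : ∀ k : ℕ, ∫ U, U.val.det ^ (k + 1) ∂P = ∫ U, U.val.det ^ (k + 1) ∂Q) : P = Q := by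
  refine ext_of_forall_integral_eq_of_IsFiniteMeasure fun f => ?_
  set f' : SymU (m + 1) → ℂ := fun U => ((f U : ℝ) : ℂ) with hf'
  have hf'c : Continuous f' := Complex.continuous_ofReal.comp f.continuous
  have hf'b : ∀ U, ‖f' U‖ ≤ ‖f‖ := fun U => by
    rw [hf', Complex.norm_real]; exact f.norm_coe_le_norm U
  set F := avg (SG (m + 1)) f' with hF
  have hinv : ∀ (V : SG (m + 1)) U, F (V • U) = F U := fun V U => avg_smul _ V U
  have hFd := eq_of_invariant hinv
  have hcont : Continuous fun z : Circle => F (dgS m z) := by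
    rw [hF]
    unfold avg
    refine continuous_of_dominated (bound := fun _ => ‖f‖) ?_ ?_ ?_ ?_
    · intro z
      have : Continuous fun g : SG (m + 1) => f' (g • dgS m z) :=
        hf'c.comp (continuous_id.smul continuous_const)
      exact this.measurable.aestronglyMeasurable
    · exact fun z => Eventually.of_forall fun g => hf'b _
    · exact integrable_const _
    · exact Eventually.of_forall fun g =>
        hf'c.comp (continuous_const.smul continuous_dgS)
  have key : ∀ (ν : Measure (SymU (m + 1))) [IsProbabilityMeasure ν], Inv ν →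
      ((∫ U, f U ∂ν : ℝ) : ℂ) = ∫ U, F (dgS m (detC U)) ∂ν := by
    intro ν _ hν
    rw [← integral_complex_ofReal]
    have := integral_eq_integral_avg (G := SG (m + 1)) ν hν hf'c.measurable hf'b
    rw [← hF] at this
    refine Eq.trans this ?_
    exact integral_congr_ae (Eventually.of_forall fun U => hFd U)
  have h2 := integral_circle_eq P Q (detC : SymU (m + 1) → Circle) continuous_detC
    (fun k => by simpa using h k) (fun z => F (dgS m z)) hcont
  have h3 := (key P hP).trans (h2.trans (key Q hQ).symm)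
  exact_mod_cast h3

/-! ### `U 0 0 ≠ 1` almost surely -/

lemma ae_ne_one (P : Measure (SymU (m + 2))) [IsProbabilityMeasure P] (hP : Inv P) :
    ∀ᵐ U ∂P, U.val 0 0 ≠ 1 := by
  have h01 : (0 : Fin (m + 2)) ≠ 1 := by simp
  set A : Circle → Set (SymU (m + 2)) := fun z => {U | U.val 0 0 = (z : ℂ)} with hA
  have hAm : ∀ z, MeasurableSet (A z) := fun z =>
    (isClosed_eq (SymU.continuous_entry 0 0) continuous_const).measurableSet
  have hPA : ∀ z, P (A z) = P (A 1) := by
    intro z
    obtain ⟨w, hw, hw1⟩ := exists_sqrt (z : ℂ) z.norm_coe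
    have hpre : (phs h01 w hw1 • · : SymU (m + 2) → SymU (m + 2)) ⁻¹' (A z) = A 1 := by
      ext U
      simp only [hA, Set.mem_preimage, Set.mem_ofPred_eq, phs_smul_apply, phd, if_true,
        Circle.coe_one]
      constructor
      · intro h
        have h2 : (z : ℂ) * (U.val 0 0) = z * 1 := by rw [← hw, mul_one]; rw [← hw] at h; linear_combination h
        exact mul_left_cancel₀ z.coe_ne_zero h2
      · intro h
        rw [h, ← hw]; ring
    have hm : Measurable (phs h01 w hw1 • · : SymU (m + 2) → SymU (m + 2)) :=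
      (continuous_const_smul _).measurable
    conv_lhs => rw [← hP (phs h01 w hw1), Measure.map_apply hm (hAm z), hpre]
  have hdisj : Pairwise (Function.onFun Disjoint A) := by
    intro z w hzw
    refine Set.disjoint_left.2 fun U h1 h2 => hzw ?_
    apply Circle.ext
    exact (show U.val 0 0 = (z : ℂ) from h1).symm.trans h2
  by_contra hne
  have hpos : 0 < P (A 1) := by
    rw [pos_iff_ne_zero]
    intro h0
    apply hne
    rw [ae_iff]
    convert h0 using 2
    ext U
    simp [hA]
  have hfin := Measure.finite_const_le_meas_of_disjoint_iUnion P hpos hAm hdisj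
    (measure_ne_top _ _)
  have : {i : Circle | P (A 1) ≤ P (A i)} = Set.univ := by
    ext z; simp [hPA z]
  rw [this] at hfin
  have hinf : Infinite Circle := by
    have hI : Infinite (Set.Ioo (0 : ℝ) 1) := (Set.Ioo_infinite one_pos).to_subtype
    have : Function.Injective (fun t : Set.Ioo (0 : ℝ) 1 => Circle.exp (t : ℝ)) := by
      intro s t hst
      have h1 := Circle.arg_exp (x := (s : ℝ)) (by linarith [s.2.1, Real.pi_pos])
        (by linarith [s.2.2, Real.pi_gt_three])
      have h2 := Circle.arg_exp (x := (t : ℝ)) (by linarith [t.2.1, Real.pi_pos])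
        (by linarith [t.2.2, Real.pi_gt_three])
      simp only at hst
      rw [hst, h2] at h1
      exact Subtype.ext h1.symm
    exact Infinite.of_injective _ this
  exact Set.infinite_univ hfin

/-! ### The recursion -/

lemma measurable_gph : Measurable gph := by
  unfold gph
  exact (measurable_const.sub continuous_star.measurable).div (measurable_const.sub measurable_id)

/-- the recursion for the moments of the determinant -/
lemma moment_rec (P : Measure (SymU (m + 2))) [IsProbabilityMeasure P] (hP : Inv P) (k : ℕ) :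
    ∫ U, U.val.det ^ k ∂(P.map SymU.close) =
      (-1) ^ k * ((∫ U, U.val.det ^ k ∂P) * ∫ U, gph (U.val 0 0) ^ k ∂P) := by
  have hm0 : Measurable fun U : SymU (m + 1) => U.val.det ^ k :=
    (continuous_det.pow k).measurable
  rw [integral_map SymU.measurable_close.aemeasurable hm0.aestronglyMeasurable]
  have h1 : ∫ U : SymU (m + 2), (SymU.close U).val.det ^ k ∂P =
      ∫ U : SymU (m + 2), (-1) ^ k * (U.val.det ^ k * gph (U.val 0 0) ^ k) ∂P := by
    refine integral_congr_ae ?_
    filter_upwards [ae_ne_one P hP] with U hU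
    rw [SymU.val_close, det_cl U.unit hU]
    unfold gph
    rw [neg_eq_neg_one_mul, mul_pow, mul_pow]
  rw [h1, integral_const_mul]
  congr 1
  exact integral_det_mul P hP (fun z => z ^ k) (measurable_id.pow_const k) 1
    (fun U => by rw [norm_pow, norm_det, one_pow]) (fun z => gph z ^ k)
    (measurable_gph.pow_const k) 1
    (fun z => by rw [norm_pow]; exact pow_le_one₀ (norm_nonneg _) (norm_gph_le z))

lemma norm_gamma_le_one (P : Measure (SymU m)) [IsProbabilityMeasure P] (k : ℕ) (F : SymU m → ℂ) :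
    ‖∫ U, gph (F U) ^ k ∂P‖ ≤ 1 := by
  refine (norm_integral_le_of_norm_le_const (C := 1) (Eventually.of_forall fun U => ?_)).trans
    (by simp)
  rw [norm_pow]; exact pow_le_one₀ (norm_nonneg _) (norm_gph_le _)

lemma norm_moment_le_one (P : Measure (SymU m)) [IsProbabilityMeasure P] (k : ℕ) :
    ‖∫ U, U.val.det ^ k ∂P‖ ≤ 1 := by
  refine (norm_integral_le_of_norm_le_const (C := 1) (Eventually.of_forall fun U => ?_)).trans
    (by simp)
  rw [norm_pow, norm_det, one_pow]

/-- divergence of the harmonic series kills the moments -/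
lemma seq_zero (b : ℕ → ℝ) (M : ℕ) (c : ℝ) (hc : 0 < c) (h0 : ∀ m, 0 ≤ b m) (h1 : ∀ m, b m ≤ 1)
    (hb : ∀ m, M ≤ m → b m ≤ (1 - c / (m + 2)) * b (m + 1)) (m : ℕ) (hm : M ≤ m) : b m = 0 := by
  by_contra hne
  have hpos : 0 < b m := lt_of_le_of_ne (h0 m) (Ne.symm hne)
  -- monotone
  have hstep : ∀ n, M ≤ n → b n + c / (n + 2) * b (n + 1) ≤ b (n + 1) := by
    intro n hn
    have := hb n hn
    linarith
  have hmono : ∀ N : ℕ, b m ≤ b (m + N) := by
    intro N
    induction N with
    | zero => simp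
    | succ N ih =>
      have h2 := hstep (m + N) (by omega)
      have h3 : 0 ≤ c / (((m + N : ℕ) : ℝ) + 2) * b (m + N + 1) :=
        mul_nonneg (by positivity) (h0 _)
      rw [← add_assoc]
      linarith
  have hsum : ∀ N : ℕ, b m + c * b m / (m + 2) * ∑ i ∈ Finset.range N, 1 / ((i : ℝ) + 1) ≤
      b (m + N) := by
    intro N
    induction N with
    | zero => simp
    | succ N ih =>
      have h2 := hstep (m + N) (by omega)
      have h3 := hmono (N + 1)
      rw [← add_assoc] at h3
      rw [Finset.sum_range_succ, mul_add, ← add_assoc, ← add_assoc]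
      refine le_trans (add_le_add_left ih _ ) (le_trans ?_ h2)
      refine add_le_add_right ?_ _
      have h4 : c / (((m + N : ℕ) : ℝ) + 2) * b m ≤ c / (((m + N : ℕ) : ℝ) + 2) * b (m + N + 1) :=
        mul_le_mul_of_nonneg_left h3 (by positivity)
      refine le_trans ?_ h4
      have h5 : c * b m / ((m : ℝ) + 2) * (1 / ((N : ℝ) + 1)) =
          c * b m * (1 / (((m : ℝ) + 2) * (N + 1))) := by
        field_simp
      have h6 : c / (((m + N : ℕ) : ℝ) + 2) * b m = c * b m * (1 / (((m + N : ℕ) : ℝ) + 2)) := by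
        ring
      rw [h5, h6]
      refine mul_le_mul_of_nonneg_left ?_ (by positivity)
      apply one_div_le_one_div_of_le (by positivity)
      push_cast
      nlinarith [mul_nonneg (Nat.cast_nonneg (α := ℝ) m) (Nat.cast_nonneg (α := ℝ) N),
        Nat.cast_nonneg (α := ℝ) N, Nat.cast_nonneg (α := ℝ) m]
  have htend := Real.tendsto_sum_range_one_div_nat_succ_atTop
  have hK : 0 < c * b m / ((m : ℝ) + 2) := by positivity
  obtain ⟨N, hN⟩ := (htend.eventually_ge_atTop ((1 : ℝ) / (c * b m / ((m : ℝ) + 2)))).exists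
  have h7 := hsum N
  have h8 : 1 ≤ c * b m / ((m : ℝ) + 2) * ∑ i ∈ Finset.range N, 1 / ((i : ℝ) + 1) := by
    rw [div_le_iff₀' hK] at hN
    exact hN
  linarith [h1 (m + N)]

/-- all moments of the determinant vanish -/
theorem moment_zero (P : (m : ℕ) → Measure (SymU m)) [∀ m, IsProbabilityMeasure (P m)] (m0 : ℕ)
    (hm0 : 1 ≤ m0) (hinv : ∀ m, m0 ≤ m → Inv (P m))
    (hcl : ∀ m, m0 ≤ m → (P (m + 1)).map SymU.close = P m) (k : ℕ) (m : ℕ) (hm : m0 ≤ m) :
    ∫ U, U.val.det ^ (k + 1) ∂(P m) = 0 := by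
  set b : ℕ → ℝ := fun m => ‖∫ U, U.val.det ^ (k + 1) ∂(P m)‖ with hb
  -- one step
  have hstep : ∀ n, m0 ≤ n → b n ≤ ‖∫ U : SymU (n + 1), gph (U.val 0 0) ^ (k + 1) ∂(P (n + 1))‖ *
      b (n + 1) := by
    intro n hn
    obtain ⟨j, rfl⟩ : ∃ j, n = j + 1 := ⟨n - 1, by omega⟩
    have h1 := moment_rec (P (j + 2)) (hinv _ (by omega)) (k + 1)
    have h2 := hcl (j + 1) hn
    have h3 : b (j + 1) = ‖∫ U, U.val.det ^ (k + 1) ∂((P (j + 2)).map SymU.close)‖ := by
      rw [hb]; simp only; rw [h2]
    rw [h3, h1, norm_mul, norm_mul, norm_pow, norm_neg, norm_one, one_pow, one_mul, mul_comm]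
  -- large sizes
  set M : ℕ := max (m0 + 2) (576 * (k + 1) ^ 2) with hM
  have hlarge : ∀ n, M ≤ n → b n ≤ (1 - (1 / 8) / (n + 2)) * b (n + 1) := by
    intro n hn
    have hn1 : m0 + 2 ≤ n := le_trans (le_max_left _ _) hn
    have hn2 : 576 * (k + 1) ^ 2 ≤ n := le_trans (le_max_right _ _) hn
    refine (hstep n (by omega)).trans (mul_le_mul_of_nonneg_right ?_ (norm_nonneg _))
    obtain ⟨j, rfl⟩ : ∃ j, n = j + 2 := ⟨n - 2, by omega⟩
    have h1 := norm_gamma_le (P (j + 3)) (hinv _ (by omega)) k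
    refine h1.trans ?_
    have hn3 : (576 : ℝ) * (k + 1) ^ 2 ≤ (j : ℝ) + 2 := by
      have h := (Nat.cast_le (α := ℝ)).2 hn2
      push_cast at h
      exact h
    have h2 : (72 : ℝ) * (k + 1) ^ 2 / (((j : ℝ) + 4) * (j + 6)) ≤ 1 / (8 * ((j : ℝ) + 4)) := by
      rw [div_le_div_iff₀ (by positivity) (by positivity)]
      have hj : (0 : ℝ) ≤ (j : ℝ) + 4 := by positivity
      have h5 : (576 : ℝ) * (k + 1) ^ 2 ≤ (j : ℝ) + 6 := by linarith
      have h6 := mul_le_mul_of_nonneg_left h5 hj
      clear_value M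
      linear_combination h6
    have h3 : (1 : ℝ) / (4 * ((j : ℝ) + 4)) = 2 * (1 / (8 * ((j : ℝ) + 4))) := by
      field_simp; norm_num
    have h4 : (1 / 8 : ℝ) / (((j + 2 : ℕ) : ℝ) + 2) = 1 / (8 * ((j : ℝ) + 4)) := by
      push_cast
      field_simp
      ring
    rw [h3, h4]
    linarith
  have hz : ∀ n, M ≤ n → b n = 0 := seq_zero b M (1 / 8) (by norm_num) (fun _ => norm_nonneg _)
    (fun n => norm_moment_le_one (P n) (k + 1)) hlarge
  -- descend
  have hall : ∀ j n, m0 ≤ n → M ≤ n + j → b n = 0 := by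
    intro j
    induction j with
    | zero => intro n _ hn; exact hz n hn
    | succ j ih =>
      intro n hn hn2
      have h1 := ih (n + 1) (by omega) (by omega)
      have h2 := hstep n hn
      rw [h1, mul_zero] at h2
      exact le_antisymm h2 (norm_nonneg _)
  exact norm_eq_zero.1 (hall M m hm (by omega))

/-- **COE lemma, exact form** -/
theorem coe_exact (P Q : (m : ℕ) → Measure (SymU m)) [∀ m, IsProbabilityMeasure (P m)]
    [∀ m, IsProbabilityMeasure (Q m)] (m0 : ℕ) (hm0 : 1 ≤ m0)
    (hPi : ∀ m, m0 ≤ m → Inv (P m)) (hPc : ∀ m, m0 ≤ m → (P (m + 1)).map SymU.close = P m)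
    (hQi : ∀ m, m0 ≤ m → Inv (Q m)) (hQc : ∀ m, m0 ≤ m → (Q (m + 1)).map SymU.close = Q m)
    (m : ℕ) (hm : m0 ≤ m) : P m = Q m := by
  obtain ⟨j, rfl⟩ : ∃ j, m = j + 1 := ⟨m - 1, by omega⟩
  refine eq_of_moments _ _ (hPi _ hm) (hQi _ hm) fun k => ?_
  rw [moment_zero P m0 hm0 hPi hPc k _ hm, moment_zero Q m0 hm0 hQi hQc k _ hm]

end Crest.Agent.R166.COE682
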