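import Crest.Agent.R166.COEtop_682
import Crest.Agent.R166.COEavg_682
import Crest.Agent.R166.Gen_85

/-!
Row 166, section 51 (COE lemma): the special unitary group `SG m` acting on `SymU m`,
plane blocks, transitivity on determinant fibres.
-/

set_option autoImplicit false

namespace Crest.Agent.R166.COE682

open Matrix MeasureTheory Topology Filter

open Crest.Agent.R166.Gen85 (toC E2 PP PP_orth E2_mul E2_one E2_star takagi)

/-- the special unitary group as a type -/
def SG (m : ℕ) : Type := specialUnitaryGroup (Fin m) ℂ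

namespace SG

variable {m : ℕ}

/-- the matrix -/
def val (V : SG m) : MM m := Subtype.val V

noncomputable instance : Group (SG m) := inferInstanceAs (Group (specialUnitaryGroup (Fin m) ℂ))

noncomputable instance : TopologicalSpace (SG m) := instTopologicalSpaceSubtype

lemma mem (V : SG m) : V.val ∈ specialUnitaryGroup (Fin m) ℂ := Subtype.property V

/-- constructor -/
def mk (V : MM m) (h : V ∈ specialUnitaryGroup (Fin m) ℂ) : SG m := ⟨V, h⟩

@[simp] lemma val_mk (V : MM m) (h : V ∈ specialUnitaryGroup (Fin m) ℂ) : (mk V h).val = V := rfl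

@[ext] lemma ext {U V : SG m} (h : U.val = V.val) : U = V := Subtype.ext h

lemma unit (V : SG m) : V.val ∈ unitaryGroup (Fin m) ℂ := (mem_specialUnitaryGroup_iff.1 V.mem).1

lemma det_eq (V : SG m) : V.val.det = 1 := (mem_specialUnitaryGroup_iff.1 V.mem).2

@[simp] lemma val_mul (V W : SG m) : (V * W).val = V.val * W.val := rfl

@[simp] lemma val_one : (1 : SG m).val = 1 := rfl

@[simp] lemma val_inv (V : SG m) : (V⁻¹).val = star V.val := rfl

lemma continuous_val : Continuous (val : SG m → MM m) := continuous_subtype_val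

lemma continuous_iff {X : Type*} [TopologicalSpace X] {f : X → SG m} :
    Continuous f ↔ Continuous fun x => (f x).val := continuous_induced_rng

instance : IsTopologicalGroup (SG m) where
  continuous_mul := by
    rw [continuous_iff]
    exact (continuous_val.comp continuous_fst).mul (continuous_val.comp continuous_snd)
  continuous_inv := by
    rw [continuous_iff]
    exact continuous_star.comp continuous_val

lemma isCompact_SG : IsCompact ((specialUnitaryGroup (Fin m) ℂ : Submonoid (MM m)) : Set (MM m)) := by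
  have hK : IsCompact (Set.univ.pi fun _ : Fin m => Set.univ.pi fun _ : Fin m =>
      Metric.closedBall (0 : ℂ) 1) :=
    isCompact_univ_pi fun _ => isCompact_univ_pi fun _ => isCompact_closedBall 0 1
  have h1 : IsClosed {U : MM m | star U * U = 1} := isClosed_eq (by fun_prop) (by fun_prop)
  have h2 : IsClosed {U : MM m | U.det = 1} :=
    isClosed_eq (Continuous.matrix_det continuous_id) continuous_const
  have h3 : ((specialUnitaryGroup (Fin m) ℂ : Submonoid (MM m)) : Set (MM m)) =
      {U : MM m | star U * U = 1} ∩ {U : MM m | U.det = 1} := by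
    ext U
    simp only [SetLike.mem_coe, mem_specialUnitaryGroup_iff, mem_unitaryGroup_iff',
      Set.mem_inter_iff, Set.mem_ofPred_eq]
  refine IsCompact.of_isClosed_subset hK (by rw [h3]; exact h1.inter h2) ?_
  intro U hU i _ j _
  rw [mem_closedBall_zero_iff]
  exact norm_entry_le (mem_specialUnitaryGroup_iff.1 hU).1 i j

instance : CompactSpace (SG m) := isCompact_iff_compactSpace.1 isCompact_SG

noncomputable instance : MeasurableSpace (SG m) := borel _

instance : BorelSpace (SG m) := ⟨rfl⟩

instance : SecondCountableTopology (SG m) :=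
  TopologicalSpace.Subtype.secondCountableTopology
    ((specialUnitaryGroup (Fin m) ℂ : Submonoid (MM m)) : Set (MM m))

/-- as an element of the unitary group -/
def toU (V : SG m) : unitaryGroup (Fin m) ℂ := ⟨V.val, V.unit⟩

noncomputable instance : MulAction (SG m) (SymU m) where
  smul V U := V.toU • U
  one_smul U := one_smul (unitaryGroup (Fin m) ℂ) U
  mul_smul V W U := mul_smul V.toU W.toU U

@[simp] lemma val_smul (V : SG m) (U : SymU m) : (V • U).val = V.val * U.val * V.valᵀ := rfl

instance : ContinuousSMul (SG m) (SymU m) where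
  continuous_smul := by
    rw [SymU.continuous_iff]
    show Continuous fun p : SG m × SymU m => p.1.val * p.2.val * p.1.valᵀ
    have h1 : Continuous fun p : SG m × SymU m => p.1.val := continuous_val.comp continuous_fst
    have h2 : Continuous fun p : SG m × SymU m => p.2.val :=
      SymU.continuous_val.comp continuous_snd
    exact (h1.mul h2).mul h1.matrix_transpose

lemma det_smul (V : SG m) (U : SymU m) : (V • U).val.det = U.val.det := by
  rw [val_smul, det_mul, det_mul, det_transpose, V.det_eq, one_mul, mul_one]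

end SG

/-! ### Plane blocks -/

section blocks

variable {m : ℕ}

lemma det_E2 {a b : Fin m} (hab : a ≠ b) (M : Matrix (Fin 2) (Fin 2) ℂ) :
    (E2 a b M).det = M.det := by
  unfold E2
  rw [det_one_add_mul_comm, ← Matrix.mul_assoc, PP_orth hab, Matrix.one_mul]
  congr 1
  abel

lemma E2_mem {a b : Fin m} (hab : a ≠ b) {M : Matrix (Fin 2) (Fin 2) ℂ} (h : M * Mᴴ = 1)
    (hd : M.det = 1) : E2 a b M ∈ specialUnitaryGroup (Fin m) ℂ := by
  rw [mem_specialUnitaryGroup_iff]
  refine ⟨?_, by rw [det_E2 hab, hd]⟩
  rw [mem_unitaryGroup_iff]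
  show E2 a b M * (E2 a b M)ᴴ = 1
  rw [E2_star, E2_mul hab, h, E2_one]

lemma E2_mul_apply {a b : Fin m} (hab : a ≠ b) (M : Matrix (Fin 2) (Fin 2) ℂ) (A : MM m)
    (i j : Fin m) :
    (E2 a b M * A : MM m) i j = if i = a then M 0 0 * A a j + M 0 1 * A b j
      else if i = b then M 1 0 * A a j + M 1 1 * A b j else A i j := by
  unfold E2
  have hP : ∀ k : Fin 2, ((PP a b)ᵀ * A : Matrix (Fin 2) (Fin m) ℂ) k j = A (![a, b] k) j := by
    intro k
    rw [Matrix.mul_apply]
    simp [PP, Matrix.transpose_apply]
  rw [Matrix.add_mul, Matrix.one_mul, Matrix.mul_assoc, Matrix.mul_assoc, Matrix.add_apply,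
    Matrix.mul_apply, Fin.sum_univ_two, Matrix.mul_apply, Matrix.mul_apply, Fin.sum_univ_two,
    Fin.sum_univ_two, hP, hP]
  by_cases hia : i = a
  · subst hia
    simp [PP, hab]
    ring
  · by_cases hib : i = b
    · subst hib
      simp [PP, hia]
      ring
    · simp [PP, hia, hib]

lemma mul_E2_transpose_apply {a b : Fin m} (hab : a ≠ b) (M : Matrix (Fin 2) (Fin 2) ℂ) (A : MM m)
    (i j : Fin m) :
    (A * (E2 a b M)ᵀ : MM m) i j = if j = a then M 0 0 * A i a + M 0 1 * A i b
      else if j = b then M 1 0 * A i a + M 1 1 * A i b else A i j := by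
  have h : (A * (E2 a b M)ᵀ : MM m) = (E2 a b M * Aᵀ)ᵀ := by
    rw [Matrix.transpose_mul, Matrix.transpose_transpose]
  rw [h, Matrix.transpose_apply, E2_mul_apply hab]
  rfl

/-- plane block as a group element -/
noncomputable def blk {a b : Fin m} (hab : a ≠ b) (M : Matrix (Fin 2) (Fin 2) ℂ) (h : M * Mᴴ = 1)
    (hd : M.det = 1) : SG m := SG.mk (E2 a b M) (E2_mem hab h hd)

/-- action of a plane block, entrywise -/
lemma blk_smul_apply {a b : Fin m} (hab : a ≠ b) (M : Matrix (Fin 2) (Fin 2) ℂ) (h : M * Mᴴ = 1)
    (hd : M.det = 1) (U : SymU m) (i j : Fin m) :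
    (blk hab M h hd • U).val i j =
      if j = a then M 0 0 * (if i = a then M 0 0 * U.val a a + M 0 1 * U.val b a
          else if i = b then M 1 0 * U.val a a + M 1 1 * U.val b a else U.val i a) +
        M 0 1 * (if i = a then M 0 0 * U.val a b + M 0 1 * U.val b b
          else if i = b then M 1 0 * U.val a b + M 1 1 * U.val b b else U.val i b)
      else if j = b then M 1 0 * (if i = a then M 0 0 * U.val a a + M 0 1 * U.val b a
          else if i = b then M 1 0 * U.val a a + M 1 1 * U.val b a else U.val i a) +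
        M 1 1 * (if i = a then M 0 0 * U.val a b + M 0 1 * U.val b b
          else if i = b then M 1 0 * U.val a b + M 1 1 * U.val b b else U.val i b)
      else (if i = a then M 0 0 * U.val a j + M 0 1 * U.val b j
          else if i = b then M 1 0 * U.val a j + M 1 1 * U.val b j else U.val i j) := by
  rw [SG.val_smul]
  show (E2 a b M * U.val * (E2 a b M)ᵀ : MM m) i j = _
  rw [mul_E2_transpose_apply hab, E2_mul_apply hab, E2_mul_apply hab, E2_mul_apply hab]

/-- phase element `diag(τ, τ̄)` in the plane `a,b` -/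
noncomputable def phs {a b : Fin m} (hab : a ≠ b) (τ : ℂ) (hτ : ‖τ‖ = 1) : SG m :=
  blk hab (diagonal ![τ, star τ]) (by
    have h1 : τ * star τ = 1 := by
      rw [RCLike.star_def, Complex.mul_conj, Complex.normSq_eq_norm_sq, hτ]; simp
    have h2 : star τ * τ = 1 := by rw [mul_comm]; exact h1
    ext i j
    fin_cases i <;> fin_cases j <;>
      simp [Matrix.mul_apply, Fin.sum_univ_two, Matrix.diagonal, Matrix.conjTranspose_apply] <;>
      first | exact h1 | exact h2) (by
    have h1 : τ * star τ = 1 := by
      rw [RCLike.star_def, Complex.mul_conj, Complex.normSq_eq_norm_sq, hτ]; simp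
    rw [det_diagonal, Fin.prod_univ_two]
    exact h1)

/-- the phase vector of `phs` -/
noncomputable def phd (a b : Fin m) (τ : ℂ) (i : Fin m) : ℂ :=
  if i = a then τ else if i = b then star τ else 1

lemma phs_smul_apply {a b : Fin m} (hab : a ≠ b) (τ : ℂ) (hτ : ‖τ‖ = 1) (U : SymU m)
    (i j : Fin m) : (phs hab τ hτ • U).val i j = phd a b τ i * U.val i j * phd a b τ j := by
  unfold phs phd
  rw [blk_smul_apply]
  simp only [Matrix.diagonal_apply_eq, Matrix.diagonal, Matrix.of_apply]
  by_cases hja : j = a
  · subst hja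
    by_cases hia : i = j
    · subst hia; simp [hab]; ring
    · by_cases hib : i = b
      · subst hib; simp [hia]; ring
      · simp [hia, hib]; ring
  · by_cases hjb : j = b
    · subst hjb
      by_cases hia : i = a
      · subst hia; simp [hab.symm]; ring
      · by_cases hib : i = j
        · subst hib; simp [hia]; ring
        · simp [hia, hib, hja]; ring
    · by_cases hia : i = a
      · subst hia; simp [hja, hjb]
      · by_cases hib : i = b
        · subst hib; simp [hia, hja, hjb]
        · simp [hia, hib, hja, hjb]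

/-- signed swap in the plane `a,b` -/
noncomputable def swp {a b : Fin m} (hab : a ≠ b) : SG m :=
  blk hab !![0, 1; -1, 0] (by
    ext i j
    fin_cases i <;> fin_cases j <;>
      simp [Matrix.mul_apply, Fin.sum_univ_two, Matrix.conjTranspose_apply]) (by
    simp [Matrix.det_fin_two])

/-- rotation by 45 degrees in the plane `a,b` -/
noncomputable def rt {a b : Fin m} (hab : a ≠ b) : SG m :=
  blk hab !![((Real.sqrt 2)⁻¹ : ℝ), ((Real.sqrt 2)⁻¹ : ℝ); (-(Real.sqrt 2)⁻¹ : ℝ), ((Real.sqrt 2)⁻¹ : ℝ)]
    (by
      have h : ((Real.sqrt 2)⁻¹ : ℝ) * (Real.sqrt 2)⁻¹ = 1 / 2 := by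
        rw [← mul_inv, Real.mul_self_sqrt (by norm_num)]; norm_num
      have h' : ((((Real.sqrt 2)⁻¹ : ℝ) : ℂ)) * (((Real.sqrt 2)⁻¹ : ℝ) : ℂ) = 1 / 2 := by
        rw [← Complex.ofReal_mul, h]; norm_num
      have hs : star (((Real.sqrt 2)⁻¹ : ℝ) : ℂ) = (((Real.sqrt 2)⁻¹ : ℝ) : ℂ) :=
        Complex.conj_ofReal _
      rw [Complex.ofReal_neg]
      generalize (((Real.sqrt 2)⁻¹ : ℝ) : ℂ) = c at *
      ext i j
      rw [Matrix.mul_apply, Fin.sum_univ_two, Matrix.conjTranspose_apply, Matrix.conjTranspose_apply]
      fin_cases i <;> fin_cases j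
      · show c * star c + c * star c = 1
        rw [hs, h']; norm_num
      · show c * star (-c) + c * star c = 0
        rw [star_neg, hs]; ring
      · show -c * star c + c * star c = 0
        rw [hs]; ring
      · show -c * star (-c) + c * star c = 1
        rw [star_neg, hs, neg_mul_neg, h']; norm_num) (by
      have h : ((Real.sqrt 2)⁻¹ : ℝ) * (Real.sqrt 2)⁻¹ = 1 / 2 := by
        rw [← mul_inv, Real.mul_self_sqrt (by norm_num)]; norm_num
      have h' : ((((Real.sqrt 2)⁻¹ : ℝ) : ℂ)) * (((Real.sqrt 2)⁻¹ : ℝ) : ℂ) = 1 / 2 := by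
        rw [← Complex.ofReal_mul, h]; norm_num
      rw [Matrix.det_fin_two, Complex.ofReal_neg]
      generalize (((Real.sqrt 2)⁻¹ : ℝ) : ℂ) = c at *
      show c * c - c * -c = 1
      rw [mul_neg, h']; norm_num)

end blocks

end Crest.Agent.R166.COE682
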