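import Mathlib

/-!
Row 166, section 51 (COE lemma): the elementary inequality for the phase factor.
-/

set_option autoImplicit false

namespace Crest.Agent.R166.COE682

/-- the phase factor of closing a port -/
noncomputable def gph (u : ℂ) : ℂ := (1 - star u) / (1 - u)

lemma norm_gph_le (u : ℂ) : ‖gph u‖ ≤ 1 := by
  unfold gph
  have h : ‖1 - star u‖ = ‖1 - u‖ := by
    have : (1 : ℂ) - star u = star (1 - u) := by simp
    rw [this, norm_star]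
  rw [norm_div, h]
  by_cases h0 : ‖1 - u‖ = 0
  · simp [h0]
  · rw [div_self h0]

lemma norm_gph {u : ℂ} (hu : u ≠ 1) : ‖gph u‖ = 1 := by
  unfold gph
  have h : ‖1 - star u‖ = ‖1 - u‖ := by
    have : (1 : ℂ) - star u = star (1 - u) := by simp
    rw [this, norm_star]
  rw [norm_div, h, div_self]
  rw [norm_ne_zero_iff]
  exact sub_ne_zero.2 hu.symm

lemma pow_sub_pow_approx (p q : ℂ) (hp : ‖p‖ = 1) (hq : ‖q‖ = 1) (k : ℕ) :
    ‖p ^ (k + 1) - q ^ (k + 1) - (k + 1) * (p - q) * q ^ k‖ ≤ (k * (k + 1) / 2) * ‖p - q‖ ^ 2 := by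
  induction k with
  | zero => simp
  | succ k ih =>
    have h1 : p ^ (k + 1 + 1) - q ^ (k + 1 + 1) - ((k + 1 : ℕ) + 1) * (p - q) * q ^ (k + 1) =
        p * (p ^ (k + 1) - q ^ (k + 1) - (k + 1) * (p - q) * q ^ k) +
        (k + 1) * (p - q) * q ^ k * (p - q) := by
      push_cast; ring
    rw [h1]
    refine (norm_add_le _ _).trans ?_
    rw [norm_mul, hp, one_mul]
    have h2 : ‖((k : ℂ) + 1) * (p - q) * q ^ k * (p - q)‖ = (k + 1) * ‖p - q‖ ^ 2 := by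
      rw [norm_mul, norm_mul, norm_mul, norm_pow, hq, one_pow, mul_one]
      have : ‖(k : ℂ) + 1‖ = k + 1 := by
        have : (k : ℂ) + 1 = ((k + 1 : ℕ) : ℂ) := by push_cast; ring
        rw [this, Complex.norm_natCast]; push_cast; ring
      rw [this]; ring
    rw [h2]
    push_cast
    nlinarith [ih]

/-- lower bound for the difference of powers of nearby unimodular numbers -/
lemma half_le_norm_pow_sub_pow (p q : ℂ) (hp : ‖p‖ = 1) (hq : ‖q‖ = 1) (k : ℕ)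
    (h : (k + 1 : ℝ) * ‖p - q‖ ≤ 1) : ‖p - q‖ / 2 ≤ ‖p ^ (k + 1) - q ^ (k + 1)‖ := by
  have h1 := pow_sub_pow_approx p q hp hq k
  have h2 : ‖((k : ℂ) + 1) * (p - q) * q ^ k‖ = (k + 1) * ‖p - q‖ := by
    rw [norm_mul, norm_mul, norm_pow, hq, one_pow, mul_one]
    have : ‖(k : ℂ) + 1‖ = k + 1 := by
      have : (k : ℂ) + 1 = ((k + 1 : ℕ) : ℂ) := by push_cast; ring
      rw [this, Complex.norm_natCast]; push_cast; ring
    rw [this]
  have h3 : ‖((k : ℂ) + 1) * (p - q) * q ^ k‖ ≤ ‖p ^ (k + 1) - q ^ (k + 1)‖ +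
      ‖p ^ (k + 1) - q ^ (k + 1) - (k + 1) * (p - q) * q ^ k‖ := by
    have : ((k : ℂ) + 1) * (p - q) * q ^ k = (p ^ (k + 1) - q ^ (k + 1)) -
      (p ^ (k + 1) - q ^ (k + 1) - (k + 1) * (p - q) * q ^ k) := by ring
    conv_lhs => rw [this]
    exact norm_sub_le _ _
  rw [h2] at h3
  have h0 : 0 ≤ ‖p - q‖ := norm_nonneg _
  have hk : (0 : ℝ) ≤ k := Nat.cast_nonneg k
  have h4 : (k * (k + 1) / 2 : ℝ) * ‖p - q‖ ^ 2 ≤ (k / 2) * ‖p - q‖ := by
    have : (k * (k + 1) / 2 : ℝ) * ‖p - q‖ ^ 2 = (k / 2) * ‖p - q‖ * ((k + 1) * ‖p - q‖) := by ring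
    rw [this]
    exact mul_le_of_le_one_right (by positivity) h
  nlinarith [mul_nonneg hk h0]

lemma parallelogram_unit (x y : ℂ) (hx : ‖x‖ = 1) (hy : ‖y‖ = 1) :
    ‖x + y‖ ^ 2 = 4 - ‖x - y‖ ^ 2 := by
  have h := parallelogram_law_with_norm ℝ x y
  rw [hx, hy] at h
  nlinarith [h]

lemma gph_sub (u : ℂ) (h1 : u ≠ 1) (h2 : u ≠ -1) :
    gph u - gph (-u) = (2 * (u - star u)) / (1 - u ^ 2) := by
  unfold gph
  have e1 : (1 - u) ≠ 0 := sub_ne_zero.2 h1.symm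
  have e2 : (1 + u) ≠ 0 := by
    intro h
    exact h2 (eq_neg_of_add_eq_zero_right h)
  have e3 : (1 - u ^ 2) ≠ 0 := by
    have : 1 - u ^ 2 = (1 - u) * (1 + u) := by ring
    rw [this]
    exact mul_ne_zero e1 e2
  have e4 : (1 - -u) ≠ 0 := by simpa [sub_neg_eq_add] using e2
  rw [star_neg]
  field_simp
  ring

/-- **key inequality** -/
theorem key_ineq (k : ℕ) (u : ℂ) :
    ‖(gph u ^ (k + 1) + gph (-u) ^ (k + 1)) / 2‖ ≤
      1 - u.im ^ 2 / 4 + 9 * (k + 1) ^ 2 * ‖u‖ ^ 4 := by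
  have hle : ‖(gph u ^ (k + 1) + gph (-u) ^ (k + 1)) / 2‖ ≤ 1 := by
    rw [norm_div, Complex.norm_ofNat]
    have h1 : ‖gph u ^ (k + 1)‖ ≤ 1 := by
      rw [norm_pow]; exact pow_le_one₀ (norm_nonneg _) (norm_gph_le u)
    have h2 : ‖gph (-u) ^ (k + 1)‖ ≤ 1 := by
      rw [norm_pow]; exact pow_le_one₀ (norm_nonneg _) (norm_gph_le (-u))
    have h3 := norm_add_le (gph u ^ (k + 1)) (gph (-u) ^ (k + 1))
    rw [div_le_one (by norm_num)]
    linarith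
  have him : |u.im| ≤ ‖u‖ := Complex.abs_im_le_norm u
  have him2 : u.im ^ 2 ≤ ‖u‖ ^ 2 := by
    rw [← sq_abs]; exact pow_le_pow_left₀ (abs_nonneg _) him 2
  have hk : (0 : ℝ) ≤ k := Nat.cast_nonneg k
  by_cases hu : 6 * (k + 1) * ‖u‖ ≤ 1
  · have hn : ‖u‖ ≤ 1 / 6 := by nlinarith [norm_nonneg u, mul_nonneg hk (norm_nonneg u)]
    have hu1 : u ≠ 1 := by
      rintro rfl; rw [norm_one] at hn; linarith
    have hu2 : -u ≠ 1 := by
      intro h
      have : ‖-u‖ = 1 := by rw [h, norm_one]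
      rw [norm_neg] at this; linarith
    have hu3 : u ≠ -1 := fun h => hu2 (by rw [h]; ring)
    set p := gph u with hp
    set q := gph (-u) with hq
    have hp1 : ‖p‖ = 1 := norm_gph hu1
    have hq1 : ‖q‖ = 1 := norm_gph hu2
    have hd : ‖p - q‖ = 4 * |u.im| / ‖1 - u ^ 2‖ := by
      rw [hp, hq, gph_sub u hu1 hu3, norm_div]
      congr 1
      have : (2 : ℂ) * (u - star u) = ((4 * u.im : ℝ) : ℂ) * Complex.I := by
        have : u - star u = ((2 * u.im : ℝ) : ℂ) * Complex.I := Complex.sub_conj u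
        rw [this]; push_cast; ring
      rw [this, norm_mul, Complex.norm_I, mul_one, Complex.norm_real, Real.norm_eq_abs, abs_mul]
      norm_num
    have hu4 : ‖u ^ 2‖ ≤ 1 / 36 := by
      rw [norm_pow]; nlinarith [norm_nonneg u]
    have hA : 35 / 36 ≤ ‖1 - u ^ 2‖ := by
      have := norm_sub_norm_le (1 : ℂ) (u ^ 2)
      rw [norm_one] at this; linarith
    have hB : ‖1 - u ^ 2‖ ≤ 37 / 36 := by
      have := norm_sub_le (1 : ℂ) (u ^ 2)
      rw [norm_one] at this; linarith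
    have hd1 : ‖p - q‖ ≤ 6 * ‖u‖ := by
      rw [hd, div_le_iff₀ (by linarith)]
      nlinarith [abs_nonneg u.im, norm_nonneg u]
    have hd2 : 3 * |u.im| ≤ ‖p - q‖ := by
      rw [hd, le_div_iff₀ (by linarith)]
      nlinarith [abs_nonneg u.im]
    have hkd : (k + 1 : ℝ) * ‖p - q‖ ≤ 1 := by nlinarith
    have h5 := half_le_norm_pow_sub_pow p q hp1 hq1 k hkd
    have h6 := parallelogram_unit (p ^ (k + 1)) (q ^ (k + 1)) (by rw [norm_pow, hp1, one_pow])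
      (by rw [norm_pow, hq1, one_pow])
    have h7 : ‖p ^ (k + 1) + q ^ (k + 1)‖ ^ 2 ≤ 4 - 9 / 4 * u.im ^ 2 := by
      rw [h6]
      have : 3 * |u.im| / 2 ≤ ‖p ^ (k + 1) - q ^ (k + 1)‖ := by linarith
      have h8 : (3 * |u.im| / 2) ^ 2 ≤ ‖p ^ (k + 1) - q ^ (k + 1)‖ ^ 2 :=
        pow_le_pow_left₀ (by positivity) this 2
      have h9 : (3 * |u.im| / 2) ^ 2 = 9 / 4 * u.im ^ 2 := by
        rw [div_pow, mul_pow, sq_abs]; ring
      linarith
    rw [norm_div, Complex.norm_ofNat]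
    have h10 : 0 ≤ 9 * ((k : ℝ) + 1) ^ 2 * ‖u‖ ^ 4 := by positivity
    have him3 : u.im ^ 2 ≤ 1 / 36 := by nlinarith [norm_nonneg u]
    have h11 : ‖p ^ (k + 1) + q ^ (k + 1)‖ ≤ 2 * (1 - u.im ^ 2 / 4) := by
      have hb : (0 : ℝ) ≤ 2 * (1 - u.im ^ 2 / 4) := by nlinarith
      refine (pow_le_pow_iff_left₀ (norm_nonneg _) hb two_ne_zero).1 ?_
      nlinarith [sq_nonneg (u.im ^ 2)]
    rw [div_le_iff₀ (by norm_num)]
    nlinarith
  · push Not at hu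
    have h12 : ‖u‖ ^ 2 / 4 ≤ 9 * (k + 1) ^ 2 * ‖u‖ ^ 4 := by
      have : 1 ≤ (6 * (k + 1) * ‖u‖) ^ 2 := one_le_pow₀ hu.le
      nlinarith [sq_nonneg ‖u‖]
    linarith

end Crest.Agent.R166.COE682
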