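import Crest.Agent.R166.COEexact_682

/-!
Row 166, section 51 (COE lemma): the asymptotic form, along an arbitrary filter.
-/

set_option autoImplicit false
set_option linter.unusedSectionVars false

namespace Crest.Agent.R166.COE682

open Matrix MeasureTheory Topology Filter

variable {m : ℕ}

/-- cut-off near `U 0 0 = 1` -/
noncomputable def chi (j : ℕ) (U : SymU (m + 1)) : ℝ := min 1 (j * ‖U.val 0 0 - 1‖)

lemma continuous_chi (j : ℕ) : Continuous (chi (m := m) j) :=
  continuous_const.min (continuous_const.mul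
    ((SymU.continuous_entry 0 0).sub continuous_const).norm)

lemma chi_nonneg (j : ℕ) (U : SymU (m + 1)) : 0 ≤ chi j U := le_min zero_le_one (by positivity)

lemma chi_le (j : ℕ) (U : SymU (m + 1)) : chi j U ≤ 1 := min_le_left _ _

lemma tendsto_chi {U : SymU (m + 1)} (h : U.val 0 0 ≠ 1) :
    Tendsto (fun j => chi j U) atTop (𝓝 1) := by
  have h1 : 0 < ‖U.val 0 0 - 1‖ := norm_pos_iff.2 (sub_ne_zero.2 h)
  refine tendsto_const_nhds.congr' ?_
  obtain ⟨N, hN⟩ := exists_nat_gt (1 / ‖U.val 0 0 - 1‖)
  filter_upwards [eventually_ge_atTop N] with j hj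
  have h2 : 1 ≤ (j : ℝ) * ‖U.val 0 0 - 1‖ := by
    rw [div_lt_iff₀ h1] at hN
    have : (N : ℝ) ≤ j := by exact_mod_cast hj
    nlinarith
  exact (min_eq_left h2).symm

/-- `χ_j · (f ∘ close)` is continuous -/
lemma continuous_chi_close (j : ℕ) (f : C(SymU m, ℝ)) :
    Continuous fun U : SymU (m + 1) => chi j U * f (SymU.close U) := by
  rw [continuous_iff_continuousAt]
  intro U
  by_cases h : U.val 0 0 = 1
  · have h0 : chi j U = 0 := by simp [chi, h]
    have h1 : Tendsto (fun V : SymU (m + 1) => chi j V * ‖f‖) (𝓝 U) (𝓝 0) := by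
      have hc : Continuous fun V : SymU (m + 1) => chi j V * ‖f‖ :=
        (continuous_chi (m := m) j).mul continuous_const
      have := hc.tendsto U
      rw [h0, zero_mul] at this
      exact this
    rw [ContinuousAt, h0, zero_mul]
    refine squeeze_zero_norm (fun V => ?_) h1
    rw [norm_mul, Real.norm_of_nonneg (chi_nonneg j V)]
    exact mul_le_mul_of_nonneg_left (f.norm_coe_le_norm _) (chi_nonneg j V)
  · exact (continuous_chi j).continuousAt.mul
      (f.continuous.continuousAt.comp (SymU.continuousAt_close h))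

/-- **COE lemma, asymptotic form.** -/
theorem coe_limit {ι : Type*} (l : Filter ι) (P Q : ι → (m : ℕ) → ProbabilityMeasure (SymU m))
    (m0 : ℕ) (hm0 : 1 ≤ m0)
    (hPi : ∀ m, m0 ≤ m → ∀ (V : SG m) (f : C(SymU m, ℝ)),
      Tendsto (fun i => ∫ U, f (V • U) ∂(P i m : Measure (SymU m)) -
        ∫ U, f U ∂(P i m : Measure (SymU m))) l (𝓝 0))
    (hPc : ∀ m, m0 ≤ m → ∀ (f : C(SymU m, ℝ)),
      Tendsto (fun i => ∫ U, f (SymU.close U) ∂(P i (m + 1) : Measure (SymU (m + 1))) -
        ∫ U, f U ∂(P i m : Measure (SymU m))) l (𝓝 0))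
    (hQi : ∀ m, m0 ≤ m → ∀ (V : SG m) (f : C(SymU m, ℝ)),
      Tendsto (fun i => ∫ U, f (V • U) ∂(Q i m : Measure (SymU m)) -
        ∫ U, f U ∂(Q i m : Measure (SymU m))) l (𝓝 0))
    (hQc : ∀ m, m0 ≤ m → ∀ (f : C(SymU m, ℝ)),
      Tendsto (fun i => ∫ U, f (SymU.close U) ∂(Q i (m + 1) : Measure (SymU (m + 1))) -
        ∫ U, f U ∂(Q i m : Measure (SymU m))) l (𝓝 0))
    (m : ℕ) (hm : m0 ≤ m) (f : C(SymU m, ℝ)) :
    Tendsto (fun i => ∫ U, f U ∂(P i m : Measure (SymU m)) -
      ∫ U, f U ∂(Q i m : Measure (SymU m))) l (𝓝 0) := by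
  rw [tendsto_iff_ultrafilter]
  intro g hg
  -- limits along the ultrafilter
  have hlim : ∀ (R : ι → (m : ℕ) → ProbabilityMeasure (SymU m)) (m : ℕ),
      ∃ S : ProbabilityMeasure (SymU m), ∀ f : C(SymU m, ℝ),
        Tendsto (fun i => ∫ U, f U ∂(R i m : Measure (SymU m))) g
          (𝓝 (∫ U, f U ∂(S : Measure (SymU m)))) := by
    intro R m
    obtain ⟨S, -, hS⟩ := isCompact_univ.ultrafilter_le_nhds (g.map fun i => R i m) (by simp)
    refine ⟨S, fun f => ?_⟩
    have h1 : Tendsto (fun i => R i m) g (𝓝 S) := hS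
    rw [ProbabilityMeasure.tendsto_iff_forall_integral_tendsto] at h1
    exact h1 (BoundedContinuousFunction.mkOfCompact f)
  -- the limit families satisfy the exact hypotheses
  have hexact : ∀ (R : ι → (m : ℕ) → ProbabilityMeasure (SymU m))
      (S : (m : ℕ) → ProbabilityMeasure (SymU m))
      (_ : ∀ m, ∀ f : C(SymU m, ℝ), Tendsto (fun i => ∫ U, f U ∂(R i m : Measure (SymU m))) g
          (𝓝 (∫ U, f U ∂(S m : Measure (SymU m)))))
      (_ : ∀ m, m0 ≤ m → ∀ (V : SG m) (f : C(SymU m, ℝ)),
        Tendsto (fun i => ∫ U, f (V • U) ∂(R i m : Measure (SymU m)) -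
          ∫ U, f U ∂(R i m : Measure (SymU m))) l (𝓝 0))
      (_ : ∀ m, m0 ≤ m → ∀ (f : C(SymU m, ℝ)),
        Tendsto (fun i => ∫ U, f (SymU.close U) ∂(R i (m + 1) : Measure (SymU (m + 1))) -
          ∫ U, f U ∂(R i m : Measure (SymU m))) l (𝓝 0)),
      (∀ m, m0 ≤ m → Inv (S m : Measure (SymU m))) ∧
      (∀ m, m0 ≤ m → ((S (m + 1) : Measure (SymU (m + 1)))).map SymU.close = S m) := by
    intro R S hS hI hC
    have hInv : ∀ m, m0 ≤ m → Inv (S m : Measure (SymU m)) := by
      intro m hm V
      have hcV : Continuous fun U : SymU m => V • U := continuous_const_smul V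
      have : IsProbabilityMeasure ((S m : Measure (SymU m)).map (V • ·)) :=
        Measure.isProbabilityMeasure_map hcV.measurable.aemeasurable
      refine ext_of_forall_integral_eq_of_IsFiniteMeasure fun f => ?_
      rw [integral_map hcV.measurable.aemeasurable f.continuous.measurable.aestronglyMeasurable]
      set f' : C(SymU m, ℝ) := ⟨f, f.continuous⟩ with hf'
      set fV : C(SymU m, ℝ) := ⟨fun U => f (V • U), f.continuous.comp hcV⟩ with hfV
      have h1 := (hS m fV).sub (hS m f')
      have h2 := (hI m hm V f').mono_left hg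
      have h3 := tendsto_nhds_unique h1 h2
      exact sub_eq_zero.1 h3
    refine ⟨hInv, fun m hm => ?_⟩
    have : IsProbabilityMeasure ((S (m + 1) : Measure (SymU (m + 1))).map SymU.close) :=
      Measure.isProbabilityMeasure_map SymU.measurable_close.aemeasurable
    refine ext_of_forall_integral_eq_of_IsFiniteMeasure fun f => ?_
    rw [integral_map SymU.measurable_close.aemeasurable
      f.continuous.measurable.aestronglyMeasurable]
    set f' : C(SymU m, ℝ) := ⟨f, f.continuous⟩ with hf'
    set ν : Measure (SymU (m + 1)) := (S (m + 1) : Measure (SymU (m + 1))) with hν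
    have hfb : ∀ U, ‖f U‖ ≤ ‖f'‖ := fun U => f'.norm_coe_le_norm U
    have hfm : Measurable fun U : SymU (m + 1) => f (SymU.close U) :=
      f.continuous.measurable.comp SymU.measurable_close
    have hne : ∀ᵐ U ∂ν, U.val 0 0 ≠ 1 := by
      obtain ⟨j, rfl⟩ : ∃ j, m = j + 1 := ⟨m - 1, by omega⟩
      exact ae_ne_one _ (hInv (j + 2) (by omega))
    -- integrable facts
    have iclose : ∀ (ρ : Measure (SymU (m + 1))) [IsProbabilityMeasure ρ],
        Integrable (fun U : SymU (m + 1) => f (SymU.close U)) ρ := fun ρ _ =>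
      Integrable.of_bound hfm.aestronglyMeasurable ‖f'‖ (Eventually.of_forall fun U => hfb _)
    have key : ∀ j : ℕ, |∫ U, f U ∂(S m : Measure (SymU m)) -
        ∫ U, chi j U * f (SymU.close U) ∂ν| ≤ ‖f'‖ * ∫ U, (1 - chi j U) ∂ν := by
      intro j
      set hj : C(SymU (m + 1), ℝ) := ⟨_, continuous_chi_close j f'⟩ with hhj
      set cj : C(SymU (m + 1), ℝ) := ⟨fun U => 1 - chi j U,
        continuous_const.sub (continuous_chi j)⟩ with hcj
      have t1 := (hS m f').sub (hS (m + 1) hj)
      have t2 := (hS (m + 1) cj).const_mul ‖f'‖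
      have t3 := ((hC m hm f').mono_left hg).abs
      rw [abs_zero] at t3
      have t4 := t3.add t2
      rw [zero_add] at t4
      refine le_of_tendsto_of_tendsto t1.abs t4 (Eventually.of_forall fun i => ?_)
      simp only
      set ρ : Measure (SymU (m + 1)) := (R i (m + 1) : Measure (SymU (m + 1))) with hρ
      have e1 : ∫ U, f (SymU.close U) ∂ρ - ∫ U, hj U ∂ρ = ∫ U, (1 - chi j U) * f (SymU.close U) ∂ρ := by
        rw [← integral_sub (iclose ρ) (integ hj.continuous)]
        refine integral_congr_ae (Eventually.of_forall fun U => ?_)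
        simp only [hhj, hf', ContinuousMap.coe_mk]
        ring
      have e2 : |∫ U, (1 - chi j U) * f (SymU.close U) ∂ρ| ≤ ‖f'‖ * ∫ U, cj U ∂ρ := by
        rw [← integral_const_mul]
        refine (abs_integral_le_integral_abs).trans ?_
        refine integral_mono_of_nonneg (Eventually.of_forall fun U => abs_nonneg _)
          (integ (continuous_const.mul cj.continuous)) (Eventually.of_forall fun U => ?_)
        simp only [hcj, ContinuousMap.coe_mk]
        have h1 : 0 ≤ 1 - chi j U := by linarith [chi_le j U]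
        rw [abs_mul, abs_of_nonneg h1, mul_comm]
        exact mul_le_mul_of_nonneg_right (hfb _) h1
      have e3 : ∫ U, f' U ∂(R i m : Measure (SymU m)) - ∫ U, hj U ∂ρ =
          -(∫ U, f' (SymU.close U) ∂ρ - ∫ U, f' U ∂(R i m : Measure (SymU m))) +
          (∫ U, f (SymU.close U) ∂ρ - ∫ U, hj U ∂ρ) := by
        have : ∫ U, f' (SymU.close U) ∂ρ = ∫ U, f (SymU.close U) ∂ρ := rfl
        rw [this]; ring
      rw [e3, e1]
      refine (abs_add_le _ _).trans ?_
      rw [abs_neg]
      exact add_le_add le_rfl e2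
    -- pass to the limit `j → ∞`
    have l1 : Tendsto (fun j : ℕ => ∫ U, chi j U * f (SymU.close U) ∂ν) atTop
        (𝓝 (∫ U, f (SymU.close U) ∂ν)) := by
      refine tendsto_integral_of_dominated_convergence (fun _ => ‖f'‖) ?_ (integrable_const _) ?_ ?_
      · exact fun j => ((continuous_chi j).measurable.mul hfm).aestronglyMeasurable
      · intro j
        refine Eventually.of_forall fun U => ?_
        rw [norm_mul, Real.norm_of_nonneg (chi_nonneg j U)]
        calc chi j U * ‖f (SymU.close U)‖ ≤ 1 * ‖f'‖ :=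
              mul_le_mul (chi_le j U) (hfb _) (norm_nonneg _) zero_le_one
          _ = ‖f'‖ := one_mul _
      · filter_upwards [hne] with U hU
        have := (tendsto_chi hU).mul_const (f (SymU.close U))
        rw [one_mul] at this
        exact this
    have l2 : Tendsto (fun j : ℕ => ∫ U, (1 - chi j U) ∂ν) atTop (𝓝 0) := by
      have : Tendsto (fun j : ℕ => ∫ U, (1 - chi j U) ∂ν) atTop (𝓝 (∫ _, (0 : ℝ) ∂ν)) := by
        refine tendsto_integral_of_dominated_convergence (fun _ => 1) ?_ (integrable_const _) ?_ ?_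
        · exact fun j => (measurable_const.sub (continuous_chi j).measurable).aestronglyMeasurable
        · intro j
          refine Eventually.of_forall fun U => ?_
          rw [Real.norm_of_nonneg (by linarith [chi_le j U])]
          linarith [chi_nonneg j U]
        · filter_upwards [hne] with U hU
          have := (tendsto_const_nhds (x := (1 : ℝ))).sub (tendsto_chi hU)
          rw [sub_self] at this
          exact this
      simpa using this
    have l3 := ((tendsto_const_nhds (x := ∫ U, f U ∂(S m : Measure (SymU m)))).sub l1).abs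
    have l4 := l2.const_mul ‖f'‖
    rw [mul_zero] at l4
    have l5 := le_of_tendsto_of_tendsto' l3 l4 key
    have l6 := abs_nonpos_iff.1 l5
    linarith [sub_eq_zero.1 l6]
  choose SP hSP using hlim P
  choose SQ hSQ using hlim Q
  obtain ⟨a1, a2⟩ := hexact P SP hSP hPi hPc
  obtain ⟨b1, b2⟩ := hexact Q SQ hSQ hQi hQc
  have hEq := coe_exact (fun m => (SP m : Measure (SymU m))) (fun m => (SQ m : Measure (SymU m)))
    m0 hm0 a1 a2 b1 b2 m hm
  have h1 := (hSP m f).sub (hSQ m f)
  rw [hEq, sub_self] at h1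
  exact h1

end Crest.Agent.R166.COE682
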