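import Crest.Agent.R166.Spine_419
import Crest.Agent.R166.Gen_85

/-!
# Row 166, section 51: the closing map and the Cayley transform

* `cl U` : closing the last port, `A + b (1-d)⁻¹ bᵀ`.
* `Cay_symm`, `Cay_unitary` : the Cayley transform of a real symmetric matrix is a symmetric
  unitary.
* `cl_Cay` : `cl (Cay C)` is the Cayley transform of the principal corner of `C`.
-/

set_option autoImplicit false

noncomputable section

namespace Crest.Agent.R166.Cl85

open Matrix Gen85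

/-- closing the last port -/
def cl {m : ℕ} (U : Matrix (Fin (m + 1)) (Fin (m + 1)) ℂ) : Matrix (Fin m) (Fin m) ℂ :=
  fun i j => U i.castSucc j.castSucc +
    U i.castSucc (Fin.last m) * (1 - U (Fin.last m) (Fin.last m))⁻¹ * U (Fin.last m) j.castSucc

section Cay

variable {m : ℕ}

lemma quad_im {C : Matrix (Fin m) (Fin m) ℝ} (hC : Cᵀ = C) (v : Fin m → ℂ) :
    (star v ⬝ᵥ (toC C *ᵥ v)).im = 0 := by
  have h3 : star (star v ⬝ᵥ (toC C *ᵥ v)) = star v ⬝ᵥ (toC C *ᵥ v) := by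
    have hH : (toC C)ᴴ = toC C := by rw [toC_conjTranspose, hC]
    calc star (star v ⬝ᵥ (toC C *ᵥ v)) = star (toC C *ᵥ v) ⬝ᵥ v := by
          rw [Matrix.star_dotProduct, star_star, dotProduct_comm]
      _ = star v ⬝ᵥ (toC C *ᵥ v) := by
          rw [Matrix.star_mulVec, hH, ← Matrix.dotProduct_mulVec]
  exact Complex.conj_eq_iff_im.mp h3

lemma quad_one (v : Fin m → ℂ) : (star v ⬝ᵥ v) = ((∑ i, ‖v i‖ ^ 2 : ℝ) : ℂ) := by
  simp only [dotProduct, Pi.star_apply, RCLike.star_def]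
  push_cast
  refine Finset.sum_congr rfl fun i _ => ?_
  rw [mul_comm, Complex.mul_conj, Complex.normSq_eq_norm_sq]
  push_cast; rfl

lemma quad_shift_im {C : Matrix (Fin m) (Fin m) ℝ} (hC : Cᵀ = C) (t : ℝ) (v : Fin m → ℂ) :
    (star v ⬝ᵥ ((toC C + ((t : ℂ) * Complex.I) • (1 : Matrix (Fin m) (Fin m) ℂ)) *ᵥ v)).im =
      t * ∑ i, ‖v i‖ ^ 2 := by
  rw [Matrix.add_mulVec, dotProduct_add, Matrix.smul_mulVec, Matrix.one_mulVec,
    dotProduct_smul, Complex.add_im, quad_im hC, zero_add, quad_one, smul_eq_mul]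
  generalize (∑ i, ‖v i‖ ^ 2 : ℝ) = S
  simp

lemma eq_zero_of_norm_sum {v : Fin m → ℂ} (h : ∑ i, ‖v i‖ ^ 2 = 0) : v = 0 := by
  ext i
  have h8 := (Finset.sum_eq_zero_iff_of_nonneg (fun i _ => by positivity)).mp h i
    (Finset.mem_univ i)
  simpa using h8

lemma isUnit_shift {C : Matrix (Fin m) (Fin m) ℝ} (hC : Cᵀ = C) {t : ℝ} (ht : t ≠ 0) :
    IsUnit (toC C + ((t : ℂ) * Complex.I) • (1 : Matrix (Fin m) (Fin m) ℂ)).det := by
  rw [isUnit_iff_ne_zero]
  intro h0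
  obtain ⟨v, hv, hv0⟩ := Matrix.exists_mulVec_eq_zero_iff.mpr h0
  have h1 := quad_shift_im hC t v
  rw [hv0] at h1
  simp only [dotProduct_zero, Complex.zero_im] at h1
  exact hv (eq_zero_of_norm_sum ((mul_eq_zero.mp h1.symm).resolve_left ht))

/-- `(C + i)⁻¹` -/
def Wi (C : Matrix (Fin m) (Fin m) ℝ) : Matrix (Fin m) (Fin m) ℂ :=
  (toC C + Complex.I • (1 : Matrix (Fin m) (Fin m) ℂ))⁻¹

lemma isUnit_plus {C : Matrix (Fin m) (Fin m) ℝ} (hC : Cᵀ = C) :
    IsUnit (toC C + Complex.I • (1 : Matrix (Fin m) (Fin m) ℂ)).det := by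
  have := isUnit_shift hC (one_ne_zero (α := ℝ))
  simpa using this

lemma isUnit_minus {C : Matrix (Fin m) (Fin m) ℝ} (hC : Cᵀ = C) :
    IsUnit (toC C - Complex.I • (1 : Matrix (Fin m) (Fin m) ℂ)).det := by
  have := isUnit_shift hC (t := -1) (by norm_num)
  simpa [sub_eq_add_neg] using this

lemma mul_Wi {C : Matrix (Fin m) (Fin m) ℝ} (hC : Cᵀ = C) :
    (toC C + Complex.I • (1 : Matrix (Fin m) (Fin m) ℂ)) * Wi C = 1 :=
  Matrix.mul_nonsing_inv _ (isUnit_plus hC)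

lemma Wi_mul {C : Matrix (Fin m) (Fin m) ℝ} (hC : Cᵀ = C) :
    Wi C * (toC C + Complex.I • (1 : Matrix (Fin m) (Fin m) ℂ)) = 1 :=
  Matrix.nonsing_inv_mul _ (isUnit_plus hC)

lemma Cay_def (C : Matrix (Fin m) (Fin m) ℝ) :
    Cay C = (toC C - Complex.I • (1 : Matrix (Fin m) (Fin m) ℂ)) * Wi C := rfl

lemma Cay_eq {C : Matrix (Fin m) (Fin m) ℝ} (hC : Cᵀ = C) :
    Cay C = 1 - (2 * Complex.I) • Wi C := by
  rw [Cay_def]
  have h : toC C - Complex.I • (1 : Matrix (Fin m) (Fin m) ℂ) =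
      (toC C + Complex.I • (1 : Matrix (Fin m) (Fin m) ℂ)) - (2 * Complex.I) • 1 := by
    rw [two_mul, add_smul]; abel
  rw [h, Matrix.sub_mul, mul_Wi hC, Matrix.smul_mul, Matrix.one_mul]

lemma Wi_symm {C : Matrix (Fin m) (Fin m) ℝ} (hC : Cᵀ = C) : (Wi C)ᵀ = Wi C := by
  unfold Wi
  rw [Matrix.transpose_nonsing_inv, Matrix.transpose_add, Matrix.transpose_smul,
    Matrix.transpose_one, ← toC_transpose, hC]

theorem Cay_symm {C : Matrix (Fin m) (Fin m) ℝ} (hC : Cᵀ = C) : (Cay C)ᵀ = Cay C := by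
  rw [Cay_eq hC, Matrix.transpose_sub, Matrix.transpose_smul, Wi_symm hC, Matrix.transpose_one]

lemma Wi_comm {C : Matrix (Fin m) (Fin m) ℝ} (hC : Cᵀ = C) :
    Wi C * (toC C - Complex.I • (1 : Matrix (Fin m) (Fin m) ℂ)) =
      (toC C - Complex.I • (1 : Matrix (Fin m) (Fin m) ℂ)) * Wi C := by
  have h : toC C - Complex.I • (1 : Matrix (Fin m) (Fin m) ℂ) =
      (toC C + Complex.I • (1 : Matrix (Fin m) (Fin m) ℂ)) - (2 * Complex.I) • 1 := by
    rw [two_mul, add_smul]; abel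
  rw [h, Matrix.sub_mul, Matrix.mul_sub, mul_Wi hC, Wi_mul hC, Matrix.smul_mul, Matrix.mul_smul,
    Matrix.one_mul, Matrix.mul_one]

theorem Cay_unitary {C : Matrix (Fin m) (Fin m) ℝ} (hC : Cᵀ = C) :
    Cay C ∈ unitaryGroup (Fin m) ℂ := by
  rw [mem_unitaryGroup_iff, star_eq_conjTranspose]
  have hH : (toC C)ᴴ = toC C := by rw [toC_conjTranspose, hC]
  have h1 : (toC C + Complex.I • (1 : Matrix (Fin m) (Fin m) ℂ))ᴴ =
      toC C - Complex.I • (1 : Matrix (Fin m) (Fin m) ℂ) := by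
    rw [conjTranspose_add, conjTranspose_smul, conjTranspose_one, hH]
    simp [sub_eq_add_neg]
  have h2 : (toC C - Complex.I • (1 : Matrix (Fin m) (Fin m) ℂ))ᴴ =
      toC C + Complex.I • (1 : Matrix (Fin m) (Fin m) ℂ) := by
    rw [conjTranspose_sub, conjTranspose_smul, conjTranspose_one, hH]
    simp [sub_eq_add_neg]
  have h3 : (Wi C)ᴴ * (toC C - Complex.I • (1 : Matrix (Fin m) (Fin m) ℂ)) = 1 := by
    rw [← h1, ← conjTranspose_mul, mul_Wi hC, conjTranspose_one]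
  rw [Cay_def, conjTranspose_mul, h2]
  calc (toC C - Complex.I • (1 : Matrix (Fin m) (Fin m) ℂ)) * Wi C *
        ((Wi C)ᴴ * (toC C + Complex.I • (1 : Matrix (Fin m) (Fin m) ℂ)))
      = (toC C - Complex.I • (1 : Matrix (Fin m) (Fin m) ℂ)) * (Wi C * (Wi C)ᴴ) *
        (toC C + Complex.I • (1 : Matrix (Fin m) (Fin m) ℂ)) := by simp only [Matrix.mul_assoc]
    _ = 1 := by
      have h4 : (toC C - Complex.I • (1 : Matrix (Fin m) (Fin m) ℂ)) * (Wi C)ᴴ = 1 :=
        mul_eq_one_comm.mp h3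
      have h5 : Wi C * (Wi C)ᴴ = (Wi C)ᴴ * Wi C := by
        have e1 : (toC C - Complex.I • (1 : Matrix (Fin m) (Fin m) ℂ)) * (Wi C * (Wi C)ᴴ) =
            Wi C := by
          rw [← Matrix.mul_assoc, ← Wi_comm hC, Matrix.mul_assoc, h4, Matrix.mul_one]
        calc Wi C * (Wi C)ᴴ = ((Wi C)ᴴ * (toC C - Complex.I • (1 : Matrix (Fin m) (Fin m) ℂ))) *
              (Wi C * (Wi C)ᴴ) := by rw [h3, Matrix.one_mul]
          _ = (Wi C)ᴴ * Wi C := by rw [Matrix.mul_assoc, e1]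
      rw [h5, ← Matrix.mul_assoc, h4, Matrix.one_mul, Wi_mul hC]

end Cay

/-! ### The corner identity -/

section Corner

variable {m : ℕ}

/-- principal corner of a matrix -/
def crn {R : Type*} (C : Matrix (Fin (m + 1)) (Fin (m + 1)) R) : Matrix (Fin m) (Fin m) R :=
  C.submatrix Fin.castSucc Fin.castSucc

lemma crn_symm {C : Matrix (Fin (m + 1)) (Fin (m + 1)) ℝ} (hC : Cᵀ = C) :
    (crn C)ᵀ = crn C := by
  unfold crn
  rw [Matrix.transpose_submatrix, hC]

lemma Wi_last_ne {C : Matrix (Fin (m + 1)) (Fin (m + 1)) ℝ} (hC : Cᵀ = C) :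
    Wi C (Fin.last m) (Fin.last m) ≠ 0 := by
  intro h0
  set v : Fin (m + 1) → ℂ := fun i => Wi C i (Fin.last m) with hv
  have h1 : (toC C + Complex.I • (1 : Matrix (Fin (m + 1)) (Fin (m + 1)) ℂ)) *ᵥ v =
      Pi.single (Fin.last m) 1 := by
    ext i
    have h2 := congrFun (congrFun (mul_Wi hC) i) (Fin.last m)
    rw [Matrix.mul_apply] at h2
    rw [Matrix.mulVec, dotProduct, h2, Matrix.one_apply, Pi.single_apply]
  have h3 := quad_shift_im hC 1 v
  rw [Complex.ofReal_one, one_mul, h1] at h3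
  rw [dotProduct_single] at h3
  simp only [Pi.star_apply, hv, h0, star_zero, zero_mul, Complex.zero_im, one_mul] at h3
  have h4 := eq_zero_of_norm_sum (v := v) (by rw [hv]; exact h3.symm)
  rw [h4] at h1
  have h5 := congrFun h1 (Fin.last m)
  simp at h5

/-- the Schur complement -/
def WS (C : Matrix (Fin (m + 1)) (Fin (m + 1)) ℝ) : Matrix (Fin m) (Fin m) ℂ :=
  Matrix.of fun i j => Wi C i.castSucc j.castSucc - Wi C i.castSucc (Fin.last m) *
      (Wi C (Fin.last m) (Fin.last m))⁻¹ * Wi C (Fin.last m) j.castSucc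

lemma Wi_crn {C : Matrix (Fin (m + 1)) (Fin (m + 1)) ℝ} (hC : Cᵀ = C) :
    Wi (crn C) = WS C := by
  have hω := Wi_last_ne hC
  have key : (toC (crn C) + Complex.I • (1 : Matrix (Fin m) (Fin m) ℂ)) * WS C = 1 := by
    ext i j
    rw [Matrix.mul_apply]
    simp only [WS, Matrix.of_apply]
    set ω := Wi C (Fin.last m) (Fin.last m) with hωd
    have hZ : ∀ a b : Fin m, (toC (crn C) + Complex.I • (1 : Matrix (Fin m) (Fin m) ℂ)) a b =
        (toC C + Complex.I • (1 : Matrix (Fin (m + 1)) (Fin (m + 1)) ℂ)) a.castSucc b.castSucc := by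
      intro a b
      simp only [Matrix.add_apply, toC_apply, crn, Matrix.submatrix_apply, Matrix.smul_apply,
        Matrix.one_apply, Fin.castSucc_inj]
    simp_rw [hZ]
    have e1 := congrFun (congrFun (mul_Wi hC) i.castSucc) j.castSucc
    have e2 := congrFun (congrFun (mul_Wi hC) i.castSucc) (Fin.last m)
    rw [Matrix.mul_apply, Fin.sum_univ_castSucc, Matrix.one_apply] at e1 e2
    have e3 : (if i.castSucc = Fin.last m then (1 : ℂ) else 0) = 0 :=
      if_neg (Fin.castSucc_lt_last i).ne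
    rw [e3, ← hωd] at e2
    rw [Matrix.one_apply]
    have e4 : (if i = j then (1 : ℂ) else 0) = if i.castSucc = j.castSucc then (1 : ℂ) else 0 := by
      simp only [Fin.castSucc_inj]
    rw [e4, ← e1]
    have e5 : ∑ k : Fin m, (toC C + Complex.I • (1 : Matrix (Fin (m + 1)) (Fin (m + 1)) ℂ))
        i.castSucc k.castSucc * (Wi C k.castSucc j.castSucc - Wi C k.castSucc (Fin.last m) *
          ω⁻¹ * Wi C (Fin.last m) j.castSucc) =
        ∑ k : Fin m, (toC C + Complex.I • (1 : Matrix (Fin (m + 1)) (Fin (m + 1)) ℂ))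
          i.castSucc k.castSucc * Wi C k.castSucc j.castSucc -
        (∑ k : Fin m, (toC C + Complex.I • (1 : Matrix (Fin (m + 1)) (Fin (m + 1)) ℂ))
          i.castSucc k.castSucc * Wi C k.castSucc (Fin.last m)) *
          (ω⁻¹ * Wi C (Fin.last m) j.castSucc) := by
      rw [Finset.sum_mul, ← Finset.sum_sub_distrib]
      refine Finset.sum_congr rfl fun k _ => ?_
      ring
    rw [e5]
    have e6 : ∑ k : Fin m, (toC C + Complex.I • (1 : Matrix (Fin (m + 1)) (Fin (m + 1)) ℂ))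
          i.castSucc k.castSucc * Wi C k.castSucc (Fin.last m) =
        -((toC C + Complex.I • (1 : Matrix (Fin (m + 1)) (Fin (m + 1)) ℂ))
          i.castSucc (Fin.last m) * ω) := by
      linear_combination e2
    rw [e6]
    field_simp
    ring
  have h2 := mul_Wi (crn_symm hC)
  have h3 := Wi_mul (crn_symm hC)
  calc Wi (crn C) = Wi (crn C) * ((toC (crn C) + Complex.I • (1 : Matrix (Fin m) (Fin m) ℂ)) *
      WS C) := by rw [key, Matrix.mul_one]
    _ = _ := by rw [← Matrix.mul_assoc, h3, Matrix.one_mul]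

/-- `1 - U_mm ≠ 0` for a Cayley transform. -/
lemma one_sub_Cay_ne {C : Matrix (Fin (m + 1)) (Fin (m + 1)) ℝ} (hC : Cᵀ = C) :
    1 - Cay C (Fin.last m) (Fin.last m) ≠ 0 := by
  rw [Cay_eq hC]
  simp only [Matrix.sub_apply, Matrix.smul_apply, Matrix.one_apply_eq, smul_eq_mul,
    sub_sub_cancel]
  exact mul_ne_zero (mul_ne_zero two_ne_zero Complex.I_ne_zero) (Wi_last_ne hC)

/-- **the corner identity** -/
theorem cl_Cay {C : Matrix (Fin (m + 1)) (Fin (m + 1)) ℝ} (hC : Cᵀ = C) :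
    cl (Cay C) = Cay (crn C) := by
  have hω := Wi_last_ne hC
  have hI := Complex.I_ne_zero
  rw [Cay_eq hC, Cay_eq (crn_symm hC), Wi_crn hC]
  ext i j
  unfold cl
  have h1 : ¬ (i.castSucc = Fin.last m) := (Fin.castSucc_lt_last i).ne
  have h2 : ¬ (Fin.last m = j.castSucc) := (Fin.castSucc_lt_last j).ne'
  simp only [Matrix.sub_apply, Matrix.smul_apply, Matrix.one_apply, smul_eq_mul, Fin.castSucc_inj,
    h1, h2, if_true, if_false, WS, Matrix.of_apply]
  have h3 : (1 - (1 - 2 * Complex.I * Wi C (Fin.last m) (Fin.last m)))⁻¹ =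
      (2 * Complex.I)⁻¹ * (Wi C (Fin.last m) (Fin.last m))⁻¹ := by
    rw [sub_sub_cancel, mul_inv]
  rw [h3]
  field_simp
  ring

end Corner

end Crest.Agent.R166.Cl85
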