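import Crest.Agent.R166.Spine_419
import Crest.Agent.R166.Cl_85

/-!
# Row 166: measurability and Fubini toolkit for `TestVal`, `EG`, `EO`

Instance-free entrywise measurability `EM` of random matrices.
-/

set_option autoImplicit false
set_option linter.unusedSectionVars false

noncomputable section

namespace Crest.Agent.R166.Meas85

open Matrix MeasureTheory ProbabilityTheory Crest.ProbabilityR.RandomMatrix Gen85 Cl85

variable {Ω : Type*} [MeasurableSpace Ω]

/-- entrywise measurability of a random matrix -/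
def EM {m n R : Type*} [MeasurableSpace R] (H : Ω → Matrix m n R) : Prop :=
  ∀ i j, Measurable fun w => H w i j

section General

variable {m n k R : Type*} [MeasurableSpace R]

lemma EM.const (A : Matrix m n R) : EM (fun _ : Ω => A) := fun _ _ => measurable_const

lemma EM.comp {Ω' : Type*} [MeasurableSpace Ω'] {H : Ω → Matrix m n R} (h : EM H) {φ : Ω' → Ω}
    (hφ : Measurable φ) : EM (fun w => H (φ w)) := fun i j => (h i j).comp hφ

lemma EM.transpose {H : Ω → Matrix m n R} (h : EM H) : EM (fun w => (H w)ᵀ) :=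
  fun i j => h j i

lemma EM.submatrix {m' n' : Type*} {H : Ω → Matrix m n R} (h : EM H) (e : m' → m) (e' : n' → n) :
    EM (fun w => (H w).submatrix e e') := fun i j => h (e i) (e' j)

lemma EM.map {R' : Type*} [MeasurableSpace R'] {H : Ω → Matrix m n R} (h : EM H) {φ : R → R'}
    (hφ : Measurable φ) : EM (fun w => (H w).map φ) := fun i j => hφ.comp (h i j)

lemma EM.of_fun {g : Ω → m → n → R} (h : ∀ i j, Measurable fun w => g w i j) :
    EM (fun w => Matrix.of (g w)) := h

variable [CommRing R] [MeasurableAdd₂ R] [MeasurableMul₂ R] [MeasurableSub₂ R]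

lemma EM.add {H H' : Ω → Matrix m n R} (h : EM H) (h' : EM H') : EM (fun w => H w + H' w) :=
  fun i j => (h i j).add (h' i j)

lemma EM.sub {H H' : Ω → Matrix m n R} (h : EM H) (h' : EM H') : EM (fun w => H w - H' w) :=
  fun i j => (h i j).sub (h' i j)

lemma EM.smul {c : Ω → R} (hc : Measurable c) {H : Ω → Matrix m n R} (h : EM H) :
    EM (fun w => c w • H w) := fun i j => hc.mul (h i j)

lemma EM.mul [Fintype n] {H : Ω → Matrix m n R} {H' : Ω → Matrix n k R} (h : EM H) (h' : EM H') :
    EM (fun w => H w * H' w) := fun i j => by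
  simp only [Matrix.mul_apply]
  exact Finset.measurable_sum _ fun l _ => (h i l).mul (h' l j)

lemma EM.det [Fintype n] [DecidableEq n] {H : Ω → Matrix n n R} (h : EM H) :
    Measurable fun w => (H w).det := by
  simp only [Matrix.det_apply']
  refine Finset.measurable_sum _ fun σ _ => ?_
  exact measurable_const.mul (Finset.measurable_prod _ fun i _ => h (σ i) i)

lemma EM.trace [Fintype n] {H : Ω → Matrix n n R} (h : EM H) :
    Measurable fun w => (H w).trace := by
  simp only [Matrix.trace, Matrix.diag_apply]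
  exact Finset.measurable_sum _ fun i _ => h i i

lemma EM.adjugate [Fintype n] [DecidableEq n] {H : Ω → Matrix n n R} (h : EM H) :
    EM (fun w => (H w).adjugate) := fun i j => by
  simp only [Matrix.adjugate_apply]
  refine EM.det (fun a b => ?_)
  simp only [Matrix.updateRow_apply]
  by_cases hab : a = j
  · simp only [hab, if_true]; exact measurable_const
  · simp only [hab, if_false]; exact h a b

end General

section Field

variable {n R : Type*} [Fintype n] [DecidableEq n] [MeasurableSpace R] [Field R]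
  [MeasurableAdd₂ R] [MeasurableMul₂ R] [MeasurableSub₂ R] [MeasurableInv R]

lemma EM.inv {H : Ω → Matrix n n R} (h : EM H) : EM (fun w => (H w)⁻¹) := fun i j => by
  simp only [Matrix.inv_def, Ring.inverse_eq_inv', Matrix.smul_apply, smul_eq_mul]
  exact h.det.inv.mul (h.adjugate i j)

end Field

/-- a continuous function of an entrywise measurable matrix is measurable. -/
lemma EM.measurable_of_continuous {m n R β : Type*} [Countable m] [Countable n]
    [TopologicalSpace R] [MeasurableSpace R] [BorelSpace R] [SecondCountableTopology R]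
    [TopologicalSpace β] [MeasurableSpace β] [BorelSpace β]
    {H : Ω → Matrix m n R} (h : EM H) {f : Matrix m n R → β} (hf : Continuous f) :
    Measurable fun w => f (H w) := by
  have h1 : @Measurable Ω (m → n → R) _ _ (fun w => H w) :=
    measurable_pi_iff.mpr fun i => measurable_pi_iff.mpr fun j => h i j
  have hf' : @Continuous (m → n → R) β _ _ f := hf
  have h2 : @Measurable (m → n → R) β _ _ f := hf'.measurable
  exact h2.comp h1

/-! ### The objects of the spine -/

lemma EM_toC {m n : Type*} {H : Ω → Matrix m n ℝ} (h : EM H) : EM (fun w => toC (H w)) :=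
  h.map Complex.measurable_ofReal

lemma EM_Hm (n : ℕ) (s : ℝ) :
    EM (fun p : SimpleGraph (Fin n) × (Fin n → ℝ) => Hm p.1 s p.2) := fun i j => by
  classical
  have h1 : Measurable fun p : SimpleGraph (Fin n) × (Fin n → ℝ) =>
      (if p.1.Adj i j then (1 : ℝ) else 0) := by
    have : Measurable fun G : SimpleGraph (Fin n) => (if G.Adj i j then (1 : ℝ) else 0) :=
      measurable_from_top
    exact this.comp measurable_fst
  have h2 : Measurable fun p : SimpleGraph (Fin n) × (Fin n → ℝ) =>
      s * (if i = j then p.2 i else 0) := by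
    by_cases hij : i = j
    · simp only [hij, if_true]
      exact measurable_const.mul ((measurable_pi_apply j).comp measurable_snd)
    · simp only [hij, if_false]; exact measurable_const
  have h3 : (fun p : SimpleGraph (Fin n) × (Fin n → ℝ) => Hm p.1 s p.2 i j) =
      fun p => (if p.1.Adj i j then (1 : ℝ) else 0) + s * (if i = j then p.2 i else 0) := by
    funext p
    simp only [Hm, Matrix.add_apply, SimpleGraph.adjMatrix_apply, Matrix.smul_apply,
      Matrix.diagonal_apply, smul_eq_mul]
  rw [h3]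
  exact h1.add h2

lemma EM_goe (n : ℕ) : EM (fun g : GOEDisorder n => goeMatrix g) := fun i j => by
  unfold goeMatrix
  have h : ∀ a b : Fin n, Measurable fun g : GOEDisorder n => g a b := fun a b =>
    (measurable_pi_apply b).comp (measurable_pi_apply a)
  by_cases h1 : i = j
  · simp only [h1, if_true]
    exact ((measurable_const.mul (h j j)).div_const _)
  · by_cases h2 : i < j
    · simp only [h1, h2, if_true, if_false]
      exact (h i j).div_const _
    · simp only [h1, h2, if_false]
      exact (h j i).div_const _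

lemma EM_Res {ι : Type*} [Fintype ι] [DecidableEq ι] {H : Ω → Matrix ι ι ℝ} (h : EM H)
    {z : Ω → ℂ} (hz : Measurable z) : EM (fun w => Res (H w) (z w)) := by
  unfold Res
  exact ((h.map Complex.measurable_ofReal).sub (EM.smul hz (EM.const 1))).inv

lemma measurable_mn {n : ℕ} {H : Ω → Matrix (Fin n) (Fin n) ℝ} (h : EM H)
    {z : Ω → ℂ} (hz : Measurable z) : Measurable (fun w => mn (H w) (z w)) :=
  (EM_Res h hz).trace.div_const _

lemma EM_testArr {n m : ℕ} {H : Ω → Matrix (Fin n) (Fin n) ℝ} (h : EM H) {e : Ω → ℝ}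
    (he : Measurable e) {g : Ω → Fin n → Fin m → ℝ} (hg : ∀ i j, Measurable fun w => g w i j) :
    EM (fun w => testArr (H w) (e w) (g w)) := by
  unfold testArr
  have hg' : EM (fun w => Matrix.of (g w)) := hg
  have h1 : EM (fun w => (H w - e w • (1 : Matrix (Fin n) (Fin n) ℝ))⁻¹) :=
    (h.sub (EM.smul he (EM.const 1))).inv
  exact EM.smul measurable_const ((hg'.transpose.mul h1).mul hg')

lemma EM_Cay {m : ℕ} {C : Ω → Matrix (Fin m) (Fin m) ℝ} (h : EM C) :
    EM (fun w => Cay (C w)) := by
  unfold Cay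
  exact ((h.map Complex.measurable_ofReal).sub (EM.const _)).mul
    ((h.map Complex.measurable_ofReal).add (EM.const _)).inv

lemma EM_uOf {n m : ℕ} {H : Ω → Matrix (Fin n) (Fin n) ℝ} (h : EM H) (E ρ K : ℝ) {x : Ω → ℝ}
    (hx : Measurable x) {g : Ω → Fin n → Fin m → ℝ} (hg : ∀ i j, Measurable fun w => g w i j) :
    EM (fun w => uOf (H w) E ρ K (x w) (g w)) := by
  unfold uOf
  refine EM_Cay (EM.smul measurable_const (EM.sub ?_ ?_))
  · exact EM_testArr h (measurable_const.add (hx.div_const _)) hg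
  · exact EM.smul (Complex.measurable_re.comp (measurable_mn h measurable_const)) (EM.const 1)

/-! ### Symmetry, unitarity, bounds -/

lemma testArr_symm {n m : ℕ} {H : Matrix (Fin n) (Fin n) ℝ} (hH : Hᵀ = H) (e : ℝ)
    (g : Fin n → Fin m → ℝ) : (testArr H e g)ᵀ = testArr H e g := by
  unfold testArr
  rw [Matrix.transpose_smul, Matrix.transpose_mul, Matrix.transpose_mul, Matrix.transpose_transpose,
    Matrix.transpose_nonsing_inv, Matrix.transpose_sub, Matrix.transpose_smul, Matrix.transpose_one,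
    hH, Matrix.mul_assoc]

lemma arg_symm {n m : ℕ} {H : Matrix (Fin n) (Fin n) ℝ} (hH : Hᵀ = H) (E ρ K x : ℝ)
    (g : Fin n → Fin m → ℝ) :
    ((1 / (Real.pi * ρ)) • (testArr H (E + x / n) g -
      (mn H (zz E K n)).re • (1 : Matrix (Fin m) (Fin m) ℝ)))ᵀ =
    (1 / (Real.pi * ρ)) • (testArr H (E + x / n) g -
      (mn H (zz E K n)).re • (1 : Matrix (Fin m) (Fin m) ℝ)) := by
  rw [Matrix.transpose_smul, Matrix.transpose_sub, Matrix.transpose_smul, Matrix.transpose_one,
    testArr_symm hH]

theorem uOf_unitary {n m : ℕ} {H : Matrix (Fin n) (Fin n) ℝ} (hH : Hᵀ = H) (E ρ K x : ℝ)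
    (g : Fin n → Fin m → ℝ) : uOf H E ρ K x g ∈ unitaryGroup (Fin m) ℂ :=
  Cay_unitary (arg_symm hH E ρ K x g)

theorem uOf_symm {n m : ℕ} {H : Matrix (Fin n) (Fin n) ℝ} (hH : Hᵀ = H) (E ρ K x : ℝ)
    (g : Fin n → Fin m → ℝ) : (uOf H E ρ K x g)ᵀ = uOf H E ρ K x g :=
  Cay_symm (arg_symm hH E ρ K x g)

lemma Hm_symm {n : ℕ} (G : SimpleGraph (Fin n)) (s : ℝ) (ω : Fin n → ℝ) :
    (Hm G s ω)ᵀ = Hm G s ω := by
  classical
  unfold Hm
  rw [Matrix.transpose_add, Matrix.transpose_smul, Matrix.diagonal_transpose,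
    SimpleGraph.transpose_adjMatrix]

lemma goe_symm {n : ℕ} (g : GOEDisorder n) : (goeMatrix g)ᵀ = goeMatrix g := by
  ext i j
  simp only [Matrix.transpose_apply, goeMatrix]
  by_cases h : i = j
  · subst h; rfl
  · have h' : ¬ j = i := fun e => h e.symm
    simp only [h, h', if_false]
    by_cases hlt : i < j
    · have : ¬ j < i := not_lt.2 hlt.le
      simp [hlt, this]
    · have : j < i := lt_of_le_of_ne (not_lt.1 hlt) h'
      simp [hlt, this]

/-- continuous functions are bounded on the unitary group. -/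
theorem exists_bound {m : ℕ} {f : Matrix (Fin m) (Fin m) ℂ → ℝ} (hf : Continuous f) :
    ∃ M : ℝ, 0 ≤ M ∧ ∀ U ∈ unitaryGroup (Fin m) ℂ, |f U| ≤ M := by
  have hc : IsCompact (Set.pi Set.univ fun _ : Fin m => Set.pi Set.univ fun _ : Fin m =>
      Metric.closedBall (0 : ℂ) 1) :=
    isCompact_univ_pi fun _ => isCompact_univ_pi fun _ => isCompact_closedBall _ _
  obtain ⟨M, hM⟩ := hc.exists_bound_of_continuousOn (f := (f : (Fin m → Fin m → ℂ) → ℝ))
    (Continuous.continuousOn hf)
  refine ⟨max M 0, le_max_right _ _, fun U hU => ?_⟩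
  have h1 := hM U (fun i _ j _ => by
    rw [Metric.mem_closedBall, dist_zero_right]
    exact entry_norm_bound_of_unitary hU i j)
  exact h1.trans (le_max_left _ _)

/-! ### Probability measures -/

instance instProbPot (n : ℕ) : IsProbabilityMeasure (potentialLaw n) := by
  unfold potentialLaw
  have : IsProbabilityMeasure ((2⁻¹ : NNReal) • (volume : Measure ℝ).restrict (Set.Icc (-1 : ℝ) 1)) := by
    constructor
    rw [Measure.smul_apply, Measure.restrict_apply MeasurableSet.univ, Set.univ_inter,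
      Real.volume_Icc]
    have h1 : (1 : ℝ) - -1 = 2 := by norm_num
    rw [h1]
    rw [ENNReal.smul_def, smul_eq_mul]
    rw [ENNReal.coe_inv (by norm_num), ENNReal.ofReal_ofNat]
    exact ENNReal.inv_mul_cancel (by norm_num) (by norm_num)
  infer_instance

instance instProbGauss (n m : ℕ) : IsProbabilityMeasure (gaussM n m) := by
  unfold gaussM; infer_instance

instance instProbGoe (n : ℕ) : IsProbabilityMeasure (goeDisorderLaw n) := by
  unfold goeDisorderLaw; infer_instance

/-- the uniform law on `(0, δ]` -/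
def tauM (δ : ℝ) : Measure ℝ := (ENNReal.ofReal δ)⁻¹ • volume.restrict (Set.Ioc 0 δ)

lemma isProb_tauM {δ : ℝ} (hδ : 0 < δ) : IsProbabilityMeasure (tauM δ) := by
  constructor
  unfold tauM
  rw [Measure.smul_apply, Measure.restrict_apply MeasurableSet.univ, Set.univ_inter,
    Real.volume_Ioc, sub_zero, smul_eq_mul]
  exact ENNReal.inv_mul_cancel (by simpa using hδ) ENNReal.ofReal_ne_top

lemma isFinite_tauM (δ : ℝ) : IsFiniteMeasure (tauM δ) := by
  rcases lt_or_ge 0 δ with h | h
  · have := isProb_tauM h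
    infer_instance
  · unfold tauM
    have : Set.Ioc (0 : ℝ) δ = ∅ := Set.Ioc_eq_empty (not_lt.mpr h)
    rw [this, Measure.restrict_empty, smul_zero]
    infer_instance

lemma isProb_gLaw {n d : ℕ} (h : (regularGraphs n d).Nonempty) : IsProbabilityMeasure (gLaw n d) := by
  constructor
  unfold gLaw
  rw [Measure.smul_apply, Measure.finsetSum_apply]
  simp only [measure_univ, Finset.sum_const, nsmul_eq_mul, mul_one, smul_eq_mul]
  refine ENNReal.inv_mul_cancel ?_ (by simp)
  simpa using h.ne_empty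

lemma isProb_law {n d : ℕ} (h : (regularGraphs n d).Nonempty) : IsProbabilityMeasure (law n d) := by
  have := isProb_gLaw h
  unfold law
  infer_instance

lemma isFinite_gLaw (n d : ℕ) : IsFiniteMeasure (gLaw n d) := by
  by_cases h : (regularGraphs n d).Nonempty
  · have := isProb_gLaw h; infer_instance
  · rw [Finset.not_nonempty_iff_eq_empty] at h
    unfold gLaw
    rw [h]
    simp only [Finset.sum_empty, smul_zero]
    infer_instance

instance instFinGLaw (n d : ℕ) : IsFiniteMeasure (gLaw n d) := isFinite_gLaw n d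

instance instFinLaw (n d : ℕ) : IsFiniteMeasure (law n d) := by
  unfold law; infer_instance

instance instFinTau (δ : ℝ) : IsFiniteMeasure (tauM δ) := isFinite_tauM δ

/-! ### TestVal -/

/-- the integrand is bounded by a constant -/
lemma abs_f_uOf_le {n m : ℕ} {f : Matrix (Fin m) (Fin m) ℂ → ℝ} {M : ℝ}
    (hM : ∀ U ∈ unitaryGroup (Fin m) ℂ, |f U| ≤ M) {H : Matrix (Fin n) (Fin n) ℝ} (hH : Hᵀ = H)
    (E ρ K x : ℝ) (g : Fin n → Fin m → ℝ) : |f (uOf H E ρ K x g)| ≤ M :=
  hM _ (uOf_unitary hH E ρ K x g)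

lemma measurable_entry' {α : Type*} [MeasurableSpace α] {n m : ℕ} {φ : α → Fin n → Fin m → ℝ}
    (h : Measurable φ) (i : Fin n) (j : Fin m) : Measurable fun a => φ a i j :=
  (measurable_pi_apply j).comp ((measurable_pi_apply i).comp h)

/-- joint measurability of `f ∘ uOf`. -/
theorem measurable_f_uOf {n m : ℕ} {H : Ω → Matrix (Fin n) (Fin n) ℝ} (h : EM H) (E ρ K : ℝ)
    {f : Matrix (Fin m) (Fin m) ℂ → ℝ} (hf : Continuous f) :
    Measurable fun p : Ω × (ℝ × (Fin n → Fin m → ℝ)) => f (uOf (H p.1) E ρ K p.2.1 p.2.2) := by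
  have h1 : EM (fun p : Ω × (ℝ × (Fin n → Fin m → ℝ)) => uOf (H p.1) E ρ K p.2.1 p.2.2) := by
    refine EM_uOf (h.comp measurable_fst) E ρ K (measurable_fst.comp measurable_snd) ?_
    intro i j
    exact measurable_entry' (measurable_snd.comp measurable_snd) i j
  exact h1.measurable_of_continuous hf

/-- `TestVal` as an integral over a finite measure -/
theorem TestVal_eq {n m : ℕ} {H : Matrix (Fin n) (Fin n) ℝ} (hH : Hᵀ = H) (E ρ K : ℝ) {δ : ℝ}
    (hδ : 0 < δ) {f : Matrix (Fin m) (Fin m) ℂ → ℝ} (hf : Continuous f) :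
    TestVal H E ρ K δ m f =
      ∫ p, f (uOf H E ρ K p.1 p.2) ∂((tauM δ).prod (gaussM n m)) := by
  obtain ⟨M, hM0, hM⟩ := exists_bound hf
  have hmeas : Measurable fun p : ℝ × (Fin n → Fin m → ℝ) => f (uOf H E ρ K p.1 p.2) := by
    have h1 : EM (fun p : ℝ × (Fin n → Fin m → ℝ) => uOf H E ρ K p.1 p.2) :=
      EM_uOf (EM.const H) E ρ K measurable_fst (fun i j => measurable_entry' measurable_snd i j)
    exact h1.measurable_of_continuous hf
  have hint : Integrable (fun p : ℝ × (Fin n → Fin m → ℝ) => f (uOf H E ρ K p.1 p.2))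
      ((tauM δ).prod (gaussM n m)) := by
    refine Integrable.of_bound hmeas.aestronglyMeasurable M ?_
    exact Filter.Eventually.of_forall fun p => by
      rw [Real.norm_eq_abs]; exact abs_f_uOf_le hM hH E ρ K p.1 p.2
  rw [integral_prod _ hint]
  unfold TestVal tauM
  rw [integral_smul_measure, intervalIntegral.integral_of_le hδ.le]
  congr 1
  rw [ENNReal.toReal_inv, ENNReal.toReal_ofReal hδ.le]

theorem abs_TestVal_le {n m : ℕ} {H : Matrix (Fin n) (Fin n) ℝ} (hH : Hᵀ = H) (E ρ K : ℝ) {δ : ℝ}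
    (hδ : 0 < δ) {f : Matrix (Fin m) (Fin m) ℂ → ℝ} (hf : Continuous f) {M : ℝ}
    (hM : ∀ U ∈ unitaryGroup (Fin m) ℂ, |f U| ≤ M) : |TestVal H E ρ K δ m f| ≤ M := by
  rw [TestVal_eq hH E ρ K hδ hf]
  have := isProb_tauM hδ
  have h1 := norm_integral_le_of_norm_le_const (μ := (tauM δ).prod (gaussM n m))
    (f := fun p : ℝ × (Fin n → Fin m → ℝ) => f (uOf H E ρ K p.1 p.2)) (C := M)
    (Filter.Eventually.of_forall fun p => by
      rw [Real.norm_eq_abs]; exact abs_f_uOf_le hM hH E ρ K p.1 p.2)
  rw [Real.norm_eq_abs] at h1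
  simpa using h1

/-- measurability of `TestVal` in the matrix -/
theorem measurable_TestVal {n m : ℕ} {H : Ω → Matrix (Fin n) (Fin n) ℝ} (h : EM H)
    (hH : ∀ w, (H w)ᵀ = H w) (E ρ K : ℝ) {δ : ℝ} (hδ : 0 < δ)
    {f : Matrix (Fin m) (Fin m) ℂ → ℝ} (hf : Continuous f) :
    Measurable fun w => TestVal (H w) E ρ K δ m f := by
  have h1 := measurable_f_uOf h E ρ K hf
  have h2 : StronglyMeasurable fun w => ∫ p, f (uOf (H w) E ρ K p.1 p.2)
      ∂((tauM δ).prod (gaussM n m)) := h1.stronglyMeasurable.integral_prod_right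
  have h3 : (fun w => TestVal (H w) E ρ K δ m f) = fun w => ∫ p, f (uOf (H w) E ρ K p.1 p.2)
      ∂((tauM δ).prod (gaussM n m)) := by
    funext w; exact TestVal_eq (hH w) E ρ K hδ hf
  rw [h3]
  exact h2.measurable

/-! ### EG -/

/-- integration against the uniform law on regular graphs -/
theorem integral_gLaw (n d : ℕ) (F : SimpleGraph (Fin n) → ℝ) :
    ∫ G, F G ∂(gLaw n d) = regularAverage n d F := by
  unfold gLaw regularAverage
  rw [integral_smul_measure, integral_finsetSum_measure]
  · simp only [integral_dirac, ENNReal.toReal_inv, ENNReal.toReal_natCast, smul_eq_mul]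
    rw [div_eq_inv_mul]
  · intro G _
    exact integrable_dirac (by simp)

/-- `EG` as an integral over the joint law. -/
theorem EG_eq (n d : ℕ) (s : ℝ) {Φ : Matrix (Fin n) (Fin n) ℝ → ℝ}
    (hΦ : Measurable fun p : SimpleGraph (Fin n) × (Fin n → ℝ) => Φ (Hm p.1 s p.2)) {M : ℝ}
    (hM : ∀ G ω, |Φ (Hm G s ω)| ≤ M) :
    EG n d s Φ = ∫ p, Φ (Hm p.1 s p.2) ∂(law n d) := by
  unfold EG law
  rw [integral_prod, integral_gLaw]
  refine Integrable.of_bound hΦ.aestronglyMeasurable M ?_
  exact Filter.Eventually.of_forall fun p => by rw [Real.norm_eq_abs]; exact hM p.1 p.2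

/-- `EG` of a test value as one integral -/
theorem EG_TestVal_eq (n d : ℕ) (s E ρ K : ℝ) {δ : ℝ} (hδ : 0 < δ) {m : ℕ}
    {f : Matrix (Fin m) (Fin m) ℂ → ℝ} (hf : Continuous f) :
    EG n d s (fun H => TestVal H E ρ K δ m f) =
      ∫ p, f (uOf (Hm p.1.1 s p.1.2) E ρ K p.2.1 p.2.2)
        ∂((law n d).prod ((tauM δ).prod (gaussM n m))) := by
  obtain ⟨M, hM0, hM⟩ := exists_bound hf
  have hmeas := measurable_f_uOf (EM_Hm n s) (m := m) E ρ K hf
  rw [EG_eq n d s (M := M)
    (measurable_TestVal (EM_Hm n s) (fun w => Hm_symm _ _ _) E ρ K hδ hf)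
    (fun G ω => abs_TestVal_le (Hm_symm G s ω) E ρ K hδ hf hM), integral_prod]
  · refine integral_congr_ae (Filter.Eventually.of_forall fun p => ?_)
    exact TestVal_eq (Hm_symm _ _ _) E ρ K hδ hf
  · refine Integrable.of_bound hmeas.aestronglyMeasurable M ?_
    exact Filter.Eventually.of_forall fun p => by
      rw [Real.norm_eq_abs]; exact abs_f_uOf_le hM (Hm_symm _ _ _) E ρ K _ _

/-- `EO` of a test value as one integral -/
theorem EO_TestVal_eq (n : ℕ) (E ρ K : ℝ) {δ : ℝ} (hδ : 0 < δ) {m : ℕ}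
    {f : Matrix (Fin m) (Fin m) ℂ → ℝ} (hf : Continuous f) :
    EO n (fun H => TestVal H E ρ K δ m f) =
      ∫ p, f (uOf (goeMatrix p.1) E ρ K p.2.1 p.2.2)
        ∂((goeDisorderLaw n).prod ((tauM δ).prod (gaussM n m))) := by
  obtain ⟨M, hM0, hM⟩ := exists_bound hf
  have hmeas := measurable_f_uOf (EM_goe n) (m := m) E ρ K hf
  unfold EO
  rw [integral_prod]
  · refine integral_congr_ae (Filter.Eventually.of_forall fun p => ?_)
    exact TestVal_eq (goe_symm _) E ρ K hδ hf
  · refine Integrable.of_bound hmeas.aestronglyMeasurable M ?_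
    exact Filter.Eventually.of_forall fun p => by
      rw [Real.norm_eq_abs]; exact abs_f_uOf_le hM (goe_symm _) E ρ K _ _

end Crest.Agent.R166.Meas85
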