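import Crest.Agent.R166.COEcay_682
import Crest.Agent.R166.Meas_85

/-!
Row 166, section 51: `COEStatement`, i.e. the comparison of the two models from the asymptotic
`SU(m)`-invariance of the test arrays.
-/

set_option autoImplicit false
set_option linter.unusedSectionVars false

namespace Crest.Agent.R166.COE682

open Matrix MeasureTheory Topology Filter
open Crest.ProbabilityR.RandomMatrix

open Crest.Agent.R166.Meas85

/-! ### The array and its corner -/

section arrays

variable {n m : ℕ}

/-- the normalised real test array -/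
noncomputable def arr (H : Matrix (Fin n) (Fin n) ℝ) (E ρ K x : ℝ) (g : Fin n → Fin m → ℝ) :
    Matrix (Fin m) (Fin m) ℝ :=
  (1 / (Real.pi * ρ)) • (testArr H (E + x / n) g -
    (mn H (zz E K n)).re • (1 : Matrix (Fin m) (Fin m) ℝ))

lemma uOf_eq (H : Matrix (Fin n) (Fin n) ℝ) (E ρ K x : ℝ) (g : Fin n → Fin m → ℝ) :
    uOf H E ρ K x g = Cay (arr H E ρ K x g) := rfl

lemma arr_symm {H : Matrix (Fin n) (Fin n) ℝ} (hH : Hᵀ = H) (E ρ K x : ℝ)
    (g : Fin n → Fin m → ℝ) : (arr H E ρ K x g)ᵀ = arr H E ρ K x g :=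
  arg_symm hH E ρ K x g

/-- dropping the first column -/
def drop (g : Fin n → Fin (m + 1) → ℝ) : Fin n → Fin m → ℝ := fun a i => g a i.succ

lemma corner_arr (H : Matrix (Fin n) (Fin n) ℝ) (E ρ K x : ℝ) (g : Fin n → Fin (m + 1) → ℝ) :
    corner (arr H E ρ K x g) = arr H E ρ K x (drop g) := by
  ext i j
  have h1 : (1 : Matrix (Fin (m + 1)) (Fin (m + 1)) ℝ) i.succ j.succ =
      (1 : Matrix (Fin m) (Fin m) ℝ) i j := by
    simp [Matrix.one_apply]
  unfold corner arr testArr
  simp only [Matrix.submatrix_apply, Matrix.smul_apply, Matrix.sub_apply, h1, smul_eq_mul]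
  rfl

end arrays

/-! ### The law of the test array on `SymU m` -/

section laws

variable {Ω : Type*} [MeasurableSpace Ω] {n : ℕ}

/-- the random symmetric unitary -/
noncomputable def toSym (H : Ω → Matrix (Fin n) (Fin n) ℝ) (E ρ K : ℝ) (m : ℕ)
    (p : Ω × (ℝ × (Fin n → Fin m → ℝ))) : SymU m :=
  cayT (arr (H p.1) E ρ K p.2.1 p.2.2)

lemma measurable_toSym {H : Ω → Matrix (Fin n) (Fin n) ℝ} (h : EM H) (E ρ K : ℝ) (m : ℕ) :
    Measurable (toSym H E ρ K m) := by
  have h1 : EM (fun p : Ω × (ℝ × (Fin n → Fin m → ℝ)) => arr (H p.1) E ρ K p.2.1 p.2.2) := by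
    unfold arr
    refine EM.smul measurable_const (EM.sub ?_ ?_)
    · refine EM_testArr (h.comp measurable_fst) ?_ ?_
      · exact measurable_const.add ((measurable_fst.comp measurable_snd).div_const _)
      · exact fun i j => measurable_entry' (measurable_snd.comp measurable_snd) i j
    · refine EM.smul ?_ (EM.const 1)
      exact Complex.measurable_re.comp (measurable_mn (h.comp measurable_fst) measurable_const)
  exact h1.measurable_of_continuous continuous_cayT

/-- the law of the test array -/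
noncomputable def lawS (μ : Measure Ω) (H : Ω → Matrix (Fin n) (Fin n) ℝ) (E ρ K δ : ℝ) (m : ℕ) :
    Measure (SymU m) :=
  (μ.prod ((tauM δ).prod (gaussM n m))).map (toSym H E ρ K m)

lemma isProb_lawS (μ : Measure Ω) [IsProbabilityMeasure μ] {H : Ω → Matrix (Fin n) (Fin n) ℝ}
    (h : EM H) (E ρ K : ℝ) {δ : ℝ} (hδ : 0 < δ) (m : ℕ) :
    IsProbabilityMeasure (lawS μ H E ρ K δ m) := by
  have := isProb_tauM hδ
  exact Measure.isProbabilityMeasure_map (measurable_toSym h E ρ K m).aemeasurable

lemma integral_lawS (μ : Measure Ω) {H : Ω → Matrix (Fin n) (Fin n) ℝ}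
    (h : EM H) (hH : ∀ w, (H w)ᵀ = H w) (E ρ K δ : ℝ) (m : ℕ)
    {F : Matrix (Fin m) (Fin m) ℂ → ℝ} (hF : Continuous F) :
    ∫ U, F U.val ∂(lawS μ H E ρ K δ m) =
      ∫ p, F (uOf (H p.1) E ρ K p.2.1 p.2.2) ∂(μ.prod ((tauM δ).prod (gaussM n m))) := by
  unfold lawS
  have hm : Measurable fun U : SymU m => F U.val := (hF.comp SymU.continuous_val).measurable
  rw [integral_map (measurable_toSym h E ρ K m).aemeasurable hm.aestronglyMeasurable]
  refine integral_congr_ae (Eventually.of_forall fun p => ?_)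
  simp only [toSym]
  rw [val_cayT (arr_symm (hH p.1) E ρ K _ _), uOf_eq]

lemma gaussM_drop (n m : ℕ) : (gaussM n (m + 1)).map drop = gaussM n m := by
  have hrow : (Measure.pi fun _ : Fin (m + 1) => ProbabilityTheory.gaussianReal 0 1).map
      (fun (y : Fin (m + 1) → ℝ) (i : Fin m) => y i.succ) =
      Measure.pi fun _ : Fin m => ProbabilityTheory.gaussianReal 0 1 := by
    have h1 := measurePreserving_piFinSuccAbove
      (fun _ : Fin (m + 1) => ProbabilityTheory.gaussianReal 0 1) 0
    have h2 := (measurePreserving_snd (μ := ProbabilityTheory.gaussianReal 0 1)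
      (ν := Measure.pi fun _ : Fin m => ProbabilityTheory.gaussianReal 0 1)).comp h1
    exact h2.map_eq
  unfold gaussM
  have hm : Measurable (fun (y : Fin (m + 1) → ℝ) (i : Fin m) => y i.succ) :=
    measurable_pi_iff.2 fun i => measurable_pi_apply _
  have h3 : IsProbabilityMeasure ((Measure.pi fun _ : Fin (m + 1) =>
      ProbabilityTheory.gaussianReal 0 1).map
      (fun (y : Fin (m + 1) → ℝ) (i : Fin m) => y i.succ)) :=
    Measure.isProbabilityMeasure_map hm.aemeasurable
  have h4 := Measure.pi_map_pi (ι := Fin n)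
    (μ := fun _ : Fin n => Measure.pi fun _ : Fin (m + 1) => ProbabilityTheory.gaussianReal 0 1)
    (f := fun _ (y : Fin (m + 1) → ℝ) (i : Fin m) => y i.succ) (fun _ => hm.aemeasurable)
  simp only [hrow] at h4
  exact h4

lemma close_lawS (μ : Measure Ω) [IsFiniteMeasure μ] {H : Ω → Matrix (Fin n) (Fin n) ℝ}
    (h : EM H) (hH : ∀ w, (H w)ᵀ = H w) (E ρ K δ : ℝ) (m : ℕ) :
    (lawS μ H E ρ K δ (m + 1)).map SymU.close = lawS μ H E ρ K δ m := by
  unfold lawS
  have hd : Measurable (drop : (Fin n → Fin (m + 1) → ℝ) → (Fin n → Fin m → ℝ)) :=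
    measurable_pi_iff.2 fun a => measurable_pi_iff.2 fun i =>
      (measurable_pi_apply _).comp (measurable_pi_apply _)
  rw [Measure.map_map SymU.measurable_close (measurable_toSym h E ρ K (m + 1))]
  have h1 : SymU.close ∘ toSym H E ρ K (m + 1) =
      toSym H E ρ K m ∘ (Prod.map id (Prod.map id drop)) := by
    ext1 p
    simp only [Function.comp_apply, toSym]
    rw [close_cayT (arr_symm (hH p.1) E ρ K _ _), corner_arr]
    rfl
  rw [h1, ← Measure.map_map (measurable_toSym h E ρ K m)
    (measurable_id.prodMap (measurable_id.prodMap hd))]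
  congr 1
  rw [← Measure.map_prod_map _ _ measurable_id (measurable_id.prodMap hd),
    ← Measure.map_prod_map _ _ measurable_id hd, Measure.map_id, Measure.map_id, gaussM_drop]

end laws

/-! ### The comparison -/

/-- a probability measure from a measure (junk value if it is not one) -/
noncomputable def mkM {m : ℕ} (μ : Measure (SymU m)) : Measure (SymU m) := by
  classical exact
    if IsProbabilityMeasure μ then μ else Measure.dirac (Classical.arbitrary _)

lemma isProb_mkM {m : ℕ} (μ : Measure (SymU m)) : IsProbabilityMeasure (mkM μ) := by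
  unfold mkM
  split_ifs with h
  · exact h
  · infer_instance

/-- a probability measure from a measure (junk value if it is not one) -/
noncomputable def mkP {m : ℕ} (μ : Measure (SymU m)) : ProbabilityMeasure (SymU m) :=
  ⟨mkM μ, isProb_mkM μ⟩

lemma coe_mkP {m : ℕ} {μ : Measure (SymU m)} (h : IsProbabilityMeasure μ) :
    (mkP μ : Measure (SymU m)) = μ := by
  show mkM μ = μ
  unfold mkM
  rw [if_pos h]

/-- the index filter: first `n → ∞` (in a set `S`), then `K → ∞` -/
def fil (S : Set ℕ) : Filter (ℝ × ℕ) := (atTop : Filter ℝ).curry ((atTop : Filter ℕ) ⊓ 𝓟 S)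

lemma tendsto_fil {S : Set ℕ} {F : ℝ × ℕ → ℝ} :
    Tendsto F (fil S) (𝓝 0) ↔ ∀ ε : ℝ, 0 < ε → ∃ K0 : ℝ, 0 < K0 ∧ ∀ K : ℝ, K0 ≤ K →
      ∃ N : ℕ, ∀ n : ℕ, N ≤ n → n ∈ S → |F (K, n)| ≤ ε := by
  rw [Metric.tendsto_nhds]
  unfold fil
  constructor
  · intro h ε hε
    have h1 := h ε hε
    rw [eventually_curry_iff] at h1
    obtain ⟨K1, hK1⟩ := eventually_atTop.1 h1
    refine ⟨max K1 1, by positivity, fun K hK => ?_⟩
    have h2 := hK1 K (le_trans (le_max_left _ _) hK)
    rw [eventually_inf_principal] at h2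
    obtain ⟨N, hN⟩ := eventually_atTop.1 h2
    refine ⟨N, fun n hn hS => ?_⟩
    have h3 := hN n hn hS
    rw [Real.dist_eq, sub_zero] at h3
    exact h3.le
  · intro h ε hε
    rw [eventually_curry_iff]
    obtain ⟨K0, -, hK0⟩ := h (ε / 2) (by positivity)
    filter_upwards [eventually_ge_atTop K0] with K hK
    obtain ⟨N, hN⟩ := hK0 K hK
    rw [eventually_inf_principal]
    filter_upwards [eventually_ge_atTop N] with n hn hS
    rw [Real.dist_eq, sub_zero]
    linarith [hN n hn hS]

lemma eventually_fil {S : Set ℕ} {p : ℝ × ℕ → Prop} (h : ∀ K n, n ∈ S → p (K, n)) :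
    ∀ᶠ i in fil S, p i := by
  unfold fil
  rw [eventually_curry_iff]
  refine Eventually.of_forall fun K => ?_
  rw [eventually_inf_principal]
  exact Eventually.of_forall fun n hn => h K n hn

lemma exists_extension {m : ℕ} (f : C(SymU m, ℝ)) :
    ∃ F : MM m → ℝ, Continuous F ∧ ∀ U : SymU m, F U.val = f U := by
  have he : IsClosedEmbedding (SymU.val : SymU m → MM m) :=
    (SymU.isClosed_Sy (m := m)).isClosedEmbedding_subtypeVal
  obtain ⟨g, hg⟩ := f.exists_extension he
  exact ⟨g, g.continuous, fun U => congrFun (congrArg DFunLike.coe hg) U⟩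

/-- **COE statement** -/
theorem coeStatement (d : ℕ) (s E ρ : ℝ) : COEStatement d s E ρ := by
  intro hG hO m hm f hf δ hδ
  set S : Set ℕ := {n | (regularGraphs n d).Nonempty} with hS
  -- the two families
  set P : ℝ × ℕ → (m : ℕ) → ProbabilityMeasure (SymU m) := fun i m =>
    mkP (lawS (law i.2 d) (fun p => Hm p.1 s p.2) E ρ i.1 δ m) with hP
  set Q : ℝ × ℕ → (m : ℕ) → ProbabilityMeasure (SymU m) := fun i m =>
    mkP (lawS (goeDisorderLaw i.2) (fun g => goeMatrix g) 0 (1 / Real.pi) i.1 δ m) with hQ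
  have hPc : ∀ i m, i.2 ∈ S → (P i m : Measure (SymU m)) =
      lawS (law i.2 d) (fun p => Hm p.1 s p.2) E ρ i.1 δ m := by
    intro i m hi
    have := isProb_law hi
    exact coe_mkP (isProb_lawS _ (EM_Hm i.2 s) E ρ i.1 hδ m)
  have hQc : ∀ i m, (Q i m : Measure (SymU m)) =
      lawS (goeDisorderLaw i.2) (fun g => goeMatrix g) 0 (1 / Real.pi) i.1 δ m := by
    intro i m
    exact coe_mkP (isProb_lawS _ (EM_goe i.2) 0 (1 / Real.pi) i.1 hδ m)
  have hPint : ∀ i m, i.2 ∈ S → ∀ F : MM m → ℝ, Continuous F →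
      ∫ U, F U.val ∂(P i m : Measure (SymU m)) =
        EG i.2 d s (fun H => TestVal H E ρ i.1 δ m F) := by
    intro i m hi F hF
    rw [hPc i m hi, integral_lawS _ (EM_Hm i.2 s) (fun p => Hm_symm p.1 s p.2) E ρ i.1 δ m hF,
      EG_TestVal_eq i.2 d s E ρ i.1 hδ hF]
  have hQint : ∀ i m, ∀ F : MM m → ℝ, Continuous F →
      ∫ U, F U.val ∂(Q i m : Measure (SymU m)) =
        EO i.2 (fun H => TestVal H 0 (1 / Real.pi) i.1 δ m F) := by
    intro i m F hF
    rw [hQc i m, integral_lawS _ (EM_goe i.2) (fun g => goe_symm g) 0 (1 / Real.pi) i.1 δ m hF,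
      EO_TestVal_eq i.2 0 (1 / Real.pi) i.1 hδ hF]
  have main := coe_limit (fil S) P Q 4 (by norm_num) ?_ ?_ ?_ ?_ m hm
    ⟨fun U => f U.val, hf.comp SymU.continuous_val⟩
  · intro ε hε
    obtain ⟨K0, hK0, h⟩ := tendsto_fil.1 main ε hε
    refine ⟨K0, hK0, fun K hK => ?_⟩
    obtain ⟨N, hN⟩ := h K hK
    refine ⟨N, fun n hn hne => ?_⟩
    have h1 := hN n hn hne
    simp only [ContinuousMap.coe_mk] at h1
    rw [hPint (K, n) m hne f hf, hQint (K, n) m f hf] at h1
    exact h1
  · -- invariance, graph side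
    intro m hm V g
    obtain ⟨F, hFc, hF⟩ := exists_extension g
    have hFV : Continuous fun U : MM m => F (V.val * U * V.valᵀ) := by
      refine hFc.comp ?_
      exact (continuous_const.mul continuous_id).mul continuous_const
    have h1 : Tendsto (fun i : ℝ × ℕ => EG i.2 d s (fun H => TestVal H E ρ i.1 δ m
        fun U => F (V.val * U * V.valᵀ)) - EG i.2 d s (fun H => TestVal H E ρ i.1 δ m F))
        (fil S) (𝓝 0) := by
      rw [tendsto_fil]
      intro ε hε
      exact hG m hm V.val V.unit V.det_eq F hFc δ hδ ε hε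
    refine h1.congr' (eventually_fil fun K n hn => ?_)
    simp only
    rw [← hPint (K, n) m hn _ hFV, ← hPint (K, n) m hn F hFc]
    congr 1
    · refine integral_congr_ae (Eventually.of_forall fun U => ?_)
      simp only
      rw [← hF (V • U), SG.val_smul]
    · refine integral_congr_ae (Eventually.of_forall fun U => ?_)
      simp only
      rw [hF]
  · -- consistency, graph side
    intro m hm g
    refine tendsto_const_nhds.congr' (eventually_fil fun K n hn => ?_)
    simp only
    rw [hPc (K, n) m hn, ← close_lawS _ (EM_Hm n s) (fun p => Hm_symm p.1 s p.2) E ρ K δ m,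
      ← hPc (K, n) (m + 1) hn, integral_map SymU.measurable_close.aemeasurable
      g.continuous.measurable.aestronglyMeasurable, sub_self]
  · -- invariance, GOE side
    intro m hm V g
    obtain ⟨F, hFc, hF⟩ := exists_extension g
    have hFV : Continuous fun U : MM m => F (V.val * U * V.valᵀ) := by
      refine hFc.comp ?_
      exact (continuous_const.mul continuous_id).mul continuous_const
    have h1 : Tendsto (fun i : ℝ × ℕ => EO i.2 (fun H => TestVal H 0 (1 / Real.pi) i.1 δ m
        fun U => F (V.val * U * V.valᵀ)) - EO i.2 (fun H => TestVal H 0 (1 / Real.pi) i.1 δ m F))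
        (fil S) (𝓝 0) := by
      rw [tendsto_fil]
      intro ε hε
      obtain ⟨K0, hK0, h⟩ := hO m hm V.val V.unit V.det_eq F hFc δ hδ ε hε
      refine ⟨K0, hK0, fun K hK => ?_⟩
      obtain ⟨N, hN⟩ := h K hK
      exact ⟨N, fun n hn _ => hN n hn⟩
    refine h1.congr' (Eventually.of_forall fun i => ?_)
    simp only
    rw [← hQint i m _ hFV, ← hQint i m F hFc]
    congr 1
    · refine integral_congr_ae (Eventually.of_forall fun U => ?_)
      simp only
      rw [← hF (V • U), SG.val_smul]
    · refine integral_congr_ae (Eventually.of_forall fun U => ?_)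
      simp only
      rw [hF]
  · -- consistency, GOE side
    intro m hm g
    refine tendsto_const_nhds.congr' (Eventually.of_forall fun i => ?_)
    simp only
    rw [hQc i m, ← close_lawS _ (EM_goe i.2) (fun g => goe_symm g) 0 (1 / Real.pi) i.1 δ m,
      ← hQc i (m + 1), integral_map SymU.measurable_close.aemeasurable
      g.continuous.measurable.aestronglyMeasurable, sub_self]

end Crest.Agent.R166.COE682
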