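import Crest.Agent.R166.COEtrans_682
import Crest.Agent.R166.COEineq_682

/-!
Row 166, section 51 (COE lemma): second and fourth moments of `U 0 0` for invariant measures.
-/

set_option autoImplicit false
set_option linter.unusedSectionVars false

namespace Crest.Agent.R166.COE682

open Matrix MeasureTheory Topology Filter

variable {m : ℕ}

/-- squared modulus of an entry -/
noncomputable def nsq (i j : Fin m) (U : SymU m) : ℝ := Complex.normSq (U.val i j)

lemma continuous_nsq (i j : Fin m) : Continuous (nsq i j) :=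
  Complex.continuous_normSq.comp (SymU.continuous_entry i j)

lemma nsq_symm (i j : Fin m) (U : SymU m) : nsq i j U = nsq j i U := by
  unfold nsq; rw [U.entry_symm]

lemma integ {P : Measure (SymU m)} [IsProbabilityMeasure P] {f : SymU m → ℝ}
    (hf : Continuous f) : Integrable f P :=
  hf.integrable_of_hasCompactSupport (HasCompactSupport.of_compactSpace f)

lemma nsq_swp {a b : Fin m} (hab : a ≠ b) (U : SymU m) (i j : Fin m) :
    nsq i j (swp hab • U) = nsq (Equiv.swap a b i) (Equiv.swap a b j) U := by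
  unfold nsq swp
  rw [blk_smul_apply]
  by_cases hja : j = a
  · subst hja
    by_cases hia : i = j
    · subst hia; simp
    · by_cases hib : i = b
      · subst hib; simp [hia]
      · simp [hia, hib, Equiv.swap_apply_of_ne_of_ne]
  · by_cases hjb : j = b
    · subst hjb
      by_cases hia : i = a
      · subst hia; simp [hja]
      · by_cases hib : i = j
        · subst hib; simp [hia]
        · simp [hia, hib, hja, Equiv.swap_apply_of_ne_of_ne]
    · by_cases hia : i = a
      · subst hia; simp [hja, hjb, Equiv.swap_apply_of_ne_of_ne]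
      · by_cases hib : i = b
        · subst hib; simp [hia, hja, hjb, Equiv.swap_apply_of_ne_of_ne]
        · simp [hia, hib, hja, hjb, Equiv.swap_apply_of_ne_of_ne]

lemma rt_smul_00 {a b : Fin m} (hab : a ≠ b) (U : SymU m) :
    (rt hab • U).val a a = (U.val a a + 2 * U.val a b + U.val b b) / 2 := by
  unfold rt
  rw [blk_smul_apply]
  have h : ((Real.sqrt 2)⁻¹ : ℝ) * (Real.sqrt 2)⁻¹ = 1 / 2 := by
    rw [← mul_inv, Real.mul_self_sqrt (by norm_num)]; norm_num
  have h' : ((((Real.sqrt 2)⁻¹ : ℝ) : ℂ)) * (((Real.sqrt 2)⁻¹ : ℝ) : ℂ) = 1 / 2 := by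
    rw [← Complex.ofReal_mul, h]; norm_num
  have hs := U.entry_symm b a
  generalize hc : (((Real.sqrt 2)⁻¹ : ℝ) : ℂ) = c at *
  simp only [if_true, Matrix.of_apply, Matrix.cons_val', Matrix.cons_val_zero, Matrix.cons_val_one]
  rw [hs]
  linear_combination (U.val a a + 2 * U.val a b + U.val b b) * h'

lemma rt_smul_01 {a b : Fin m} (hab : a ≠ b) (U : SymU m) :
    (rt hab • U).val a b = (U.val b b - U.val a a) / 2 := by
  unfold rt
  rw [blk_smul_apply]
  have h : ((Real.sqrt 2)⁻¹ : ℝ) * (Real.sqrt 2)⁻¹ = 1 / 2 := by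
    rw [← mul_inv, Real.mul_self_sqrt (by norm_num)]; norm_num
  have h' : ((((Real.sqrt 2)⁻¹ : ℝ) : ℂ)) * (((Real.sqrt 2)⁻¹ : ℝ) : ℂ) = 1 / 2 := by
    rw [← Complex.ofReal_mul, h]; norm_num
  have hs := U.entry_symm b a
  rw [Complex.ofReal_neg]
  generalize hc : (((Real.sqrt 2)⁻¹ : ℝ) : ℂ) = c at *
  simp only [if_true, hab.symm, if_false, Matrix.of_apply, Matrix.cons_val', Matrix.cons_val_zero,
    Matrix.cons_val_one]
  rw [hs]
  linear_combination (U.val b b - U.val a a) * h'

section moments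

variable (P : Measure (SymU (m + 3))) [IsProbabilityMeasure P] (hP : Inv P)

include hP

/-- phases: `(a,b,c) ↦ (τ² a, τ b, c)` -/
lemma int_phase (F : ℂ → ℂ → ℂ → ℝ) (τ : ℂ) (hτ : ‖τ‖ = 1) :
    ∫ U, F (U.val 0 0) (U.val 0 1) (U.val 1 1) ∂P =
      ∫ U, F (τ * τ * U.val 0 0) (τ * U.val 0 1) (U.val 1 1) ∂P := by
  have h02 : (0 : Fin (m + 3)) ≠ 2 := by
    simp [Fin.ext_iff, Fin.val_ofNat, Nat.mod_eq_of_lt (show 2 < m + 3 by omega)]
  have h12 : (1 : Fin (m + 3)) ≠ 2 := by
    simp [Fin.ext_iff, Fin.val_ofNat, Nat.mod_eq_of_lt (show 2 < m + 3 by omega)]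
  have h10 : (1 : Fin (m + 3)) ≠ 0 := by
    intro h; have := congrArg Fin.val h; simp at this
  rw [← hP.integral_smul (phs h02 τ hτ)]
  refine integral_congr_ae (Eventually.of_forall fun U => ?_)
  simp only [phs_smul_apply, phd, if_true, h10, h12, if_false, mul_one, one_mul]
  congr 1
  ring

lemma int_swap (F : SymU (m + 3) → ℝ) {a b : Fin (m + 3)} (hab : a ≠ b) :
    ∫ U, F (swp hab • U) ∂P = ∫ U, F U ∂P := hP.integral_smul _ _

lemma int_nsq_11 : ∫ U, nsq 1 1 U ∂P = ∫ U, nsq 0 0 U ∂P := by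
  have h01 : (0 : Fin (m + 3)) ≠ 1 := by
    intro h; have := congrArg Fin.val h; simp at this
  rw [← int_swap P hP (nsq 0 0) h01]
  simp only [nsq_swp, Equiv.swap_apply_left]

lemma int_nsq_0j (j : Fin (m + 3)) (hj : j ≠ 0) : ∫ U, nsq 0 j U ∂P = ∫ U, nsq 0 1 U ∂P := by
  have h01 : (0 : Fin (m + 3)) ≠ 1 := by
    intro h; have := congrArg Fin.val h; simp at this
  by_cases h : j = 1
  · rw [h]
  · rw [← int_swap P hP (nsq 0 1) h]
    simp only [nsq_swp, Equiv.swap_apply_right, Equiv.swap_apply_of_ne_of_ne (Ne.symm hj) h01]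

lemma int_nsq_00_0j (j : Fin (m + 3)) (hj : j ≠ 0) :
    ∫ U, nsq 0 0 U * nsq 0 j U ∂P = ∫ U, nsq 0 0 U * nsq 0 1 U ∂P := by
  have h01 : (0 : Fin (m + 3)) ≠ 1 := by
    intro h; have := congrArg Fin.val h; simp at this
  by_cases h : j = 1
  · rw [h]
  · rw [← int_swap P hP (fun U => nsq 0 0 U * nsq 0 1 U) h]
    simp only [nsq_swp, Equiv.swap_apply_right, Equiv.swap_apply_of_ne_of_ne (Ne.symm hj) h01]

lemma int_nsq_01_11 : ∫ U, nsq 0 1 U * nsq 1 1 U ∂P = ∫ U, nsq 0 0 U * nsq 0 1 U ∂P := by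
  have h01 : (0 : Fin (m + 3)) ≠ 1 := by
    intro h; have := congrArg Fin.val h; simp at this
  rw [← int_swap P hP (fun U => nsq 0 0 U * nsq 0 1 U) h01]
  simp only [nsq_swp, Equiv.swap_apply_left, Equiv.swap_apply_right]
  refine integral_congr_ae (Eventually.of_forall fun U => ?_)
  simp only
  rw [nsq_symm 1 0, mul_comm]

lemma int_nsq_11_sq : ∫ U, nsq 1 1 U ^ 2 ∂P = ∫ U, nsq 0 0 U ^ 2 ∂P := by
  have h01 : (0 : Fin (m + 3)) ≠ 1 := by
    intro h; have := congrArg Fin.val h; simp at this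
  rw [← int_swap P hP (fun U => nsq 0 0 U ^ 2) h01]
  simp only [nsq_swp, Equiv.swap_apply_left]

omit hP in
lemma sum_nsq (U : SymU (m + 3)) : nsq 0 0 U + ∑ j : Fin (m + 2), nsq 0 j.succ U = 1 := by
  have h := sum_normSq_row U.unit 0
  rw [Fin.sum_univ_succ] at h
  exact h

/-- average over the four phases -/
lemma int_four (F : ℂ → ℂ → ℂ → ℝ) (hF : Continuous fun p : ℂ × ℂ × ℂ => F p.1 p.2.1 p.2.2) :
    4 * ∫ U, F (U.val 0 0) (U.val 0 1) (U.val 1 1) ∂P =
      ∫ U, (F (U.val 0 0) (U.val 0 1) (U.val 1 1) +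
        F (-U.val 0 0) (Complex.I * U.val 0 1) (U.val 1 1) +
        F (U.val 0 0) (-U.val 0 1) (U.val 1 1) +
        F (-U.val 0 0) (-(Complex.I * U.val 0 1)) (U.val 1 1)) ∂P := by
  have hc : ∀ x y : ℂ, Continuous fun U : SymU (m + 3) =>
      F (x * U.val 0 0) (y * U.val 0 1) (U.val 1 1) := by
    intro x y
    have : Continuous fun U : SymU (m + 3) => (x * U.val 0 0, y * U.val 0 1, U.val 1 1) := by
      refine (continuous_const.mul (SymU.continuous_entry _ _)).prodMk
        ((continuous_const.mul (SymU.continuous_entry _ _)).prodMk (SymU.continuous_entry _ _))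
    exact hF.comp this
  have e1 := int_phase P hP F Complex.I Complex.norm_I
  have e2 := int_phase P hP F (-1) (by simp)
  have e3 := int_phase P hP F (-Complex.I) (by simp)
  have i0 : Integrable (fun U : SymU (m + 3) => F (U.val 0 0) (U.val 0 1) (U.val 1 1)) P :=
    integ (by simpa using hc 1 1)
  have i1 : Integrable (fun U : SymU (m + 3) =>
      F (-U.val 0 0) (Complex.I * U.val 0 1) (U.val 1 1)) P :=
    integ (by simpa using hc (-1) Complex.I)
  have i2 : Integrable (fun U : SymU (m + 3) =>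
      F (U.val 0 0) (-U.val 0 1) (U.val 1 1)) P :=
    integ (by simpa using hc 1 (-1))
  have i3 : Integrable (fun U : SymU (m + 3) =>
      F (-U.val 0 0) (-(Complex.I * U.val 0 1)) (U.val 1 1)) P :=
    integ (by simpa using hc (-1) (-Complex.I))
  have i01 : Integrable (fun U : SymU (m + 3) => F (U.val 0 0) (U.val 0 1) (U.val 1 1) +
      F (-U.val 0 0) (Complex.I * U.val 0 1) (U.val 1 1)) P := i0.add i1
  have i02 : Integrable (fun U : SymU (m + 3) => F (U.val 0 0) (U.val 0 1) (U.val 1 1) +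
      F (-U.val 0 0) (Complex.I * U.val 0 1) (U.val 1 1) +
      F (U.val 0 0) (-U.val 0 1) (U.val 1 1)) P := i01.add i2
  rw [integral_add i02 i3, integral_add i01 i2, integral_add i0 i1]
  simp only [Complex.I_mul_I, neg_mul, one_mul, mul_neg, neg_neg] at e1 e2 e3
  linarith

/-- second moments -/
lemma int_q : 2 * ∫ U, nsq 0 1 U ∂P = ∫ U, nsq 0 0 U ∂P := by
  have h01 : (0 : Fin (m + 3)) ≠ 1 := by
    intro h; have := congrArg Fin.val h; simp at this
  have h1 : ∫ U, nsq 0 0 U ∂P =
      ∫ U, Complex.normSq ((U.val 0 0 + 2 * U.val 0 1 + U.val 1 1) / 2) ∂P := by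
    rw [← hP.integral_smul (rt h01)]
    refine integral_congr_ae (Eventually.of_forall fun U => ?_)
    simp only [nsq, rt_smul_00]
  have h2 := int_four P hP (fun a b c => Complex.normSq ((a + 2 * b + c) / 2))
    (Complex.continuous_normSq.comp (by fun_prop))
  rw [← h1] at h2
  have h3 : ∫ U : SymU (m + 3), (Complex.normSq ((U.val 0 0 + 2 * U.val 0 1 + U.val 1 1) / 2) +
        Complex.normSq ((-U.val 0 0 + 2 * (Complex.I * U.val 0 1) + U.val 1 1) / 2) +
        Complex.normSq ((U.val 0 0 + 2 * (-U.val 0 1) + U.val 1 1) / 2) +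
        Complex.normSq ((-U.val 0 0 + 2 * (-(Complex.I * U.val 0 1)) + U.val 1 1) / 2)) ∂P =
      ∫ U, (nsq 0 0 U + 4 * nsq 0 1 U + nsq 1 1 U) ∂P := by
    refine integral_congr_ae (Eventually.of_forall fun U => ?_)
    simp only [nsq, Complex.normSq_div]
    simp only [Complex.normSq_apply, Complex.add_re, Complex.add_im,
      Complex.mul_re, Complex.mul_im, Complex.I_re, Complex.I_im, Complex.neg_re, Complex.neg_im,
      Complex.re_ofNat, Complex.im_ofNat]
    ring
  rw [h3, integral_add, integral_add, integral_const_mul, int_nsq_11 P hP] at h2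
  · linarith
  · exact integ (continuous_nsq _ _)
  · exact integ (continuous_const.mul (continuous_nsq _ _))
  · exact (integ (continuous_nsq _ _)).add (integ (continuous_const.mul (continuous_nsq _ _)))
  · exact integ (continuous_nsq _ _)

theorem int_s : ∫ U, nsq 0 0 U ∂P = 2 / ((m : ℝ) + 4) := by
  have h1 : ∫ U, (nsq 0 0 U + ∑ j : Fin (m + 2), nsq 0 j.succ U) ∂P = 1 := by
    simp only [sum_nsq]; simp
  rw [integral_add (integ (continuous_nsq _ _))
    (integrable_finsetSum _ fun j _ => integ (continuous_nsq _ _)),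
    integral_finsetSum _ (fun j _ => integ (continuous_nsq _ _))] at h1
  have h2 : ∀ j : Fin (m + 2), ∫ U, nsq 0 j.succ U ∂P = (∫ U, nsq 0 0 U ∂P) / 2 := by
    intro j
    rw [int_nsq_0j P hP _ (Fin.succ_ne_zero j), ← int_q P hP]
    ring
  rw [Finset.sum_congr rfl fun j _ => h2 j, Finset.sum_const, Finset.card_univ, Fintype.card_fin,
    nsmul_eq_mul] at h1
  push_cast at h1
  have h3 : ((m : ℝ) + 4) ≠ 0 := by positivity
  field_simp
  linarith

/-- fourth moments -/
lemma int_A : 4 * ∫ U, nsq 0 0 U * nsq 0 1 U ∂P = ∫ U, nsq 0 0 U ^ 2 ∂P := by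
  have h01 : (0 : Fin (m + 3)) ≠ 1 := by
    intro h; have := congrArg Fin.val h; simp at this
  have h1 : ∫ U, nsq 0 0 U * nsq 0 1 U ∂P =
      ∫ U, Complex.normSq ((U.val 0 0 + 2 * U.val 0 1 + U.val 1 1) / 2) *
        Complex.normSq ((U.val 1 1 - U.val 0 0) / 2) ∂P := by
    rw [← hP.integral_smul (rt h01)]
    refine integral_congr_ae (Eventually.of_forall fun U => ?_)
    simp only [nsq, rt_smul_00, rt_smul_01]
  have h2 := int_four P hP (fun a b c => Complex.normSq ((a + 2 * b + c) / 2) *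
    Complex.normSq ((c - a) / 2))
    ((Complex.continuous_normSq.comp (by fun_prop)).mul
      (Complex.continuous_normSq.comp (by fun_prop)))
  rw [← h1] at h2
  set R : SymU (m + 3) → ℝ := fun U => Complex.normSq (U.val 1 1 ^ 2 - U.val 0 0 ^ 2) with hR
  set S : SymU (m + 3) → ℝ := fun U => Complex.normSq (U.val 1 1 ^ 2 + U.val 0 0 ^ 2) with hS
  have hRc : Continuous R := Complex.continuous_normSq.comp
    (((SymU.continuous_entry 1 1).pow 2).sub ((SymU.continuous_entry 0 0).pow 2))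
  have hSc : Continuous S := Complex.continuous_normSq.comp
    (((SymU.continuous_entry 1 1).pow 2).add ((SymU.continuous_entry 0 0).pow 2))
  have h3 : ∫ U : SymU (m + 3), (Complex.normSq ((U.val 0 0 + 2 * U.val 0 1 + U.val 1 1) / 2) *
          Complex.normSq ((U.val 1 1 - U.val 0 0) / 2) +
        Complex.normSq ((-U.val 0 0 + 2 * (Complex.I * U.val 0 1) + U.val 1 1) / 2) *
          Complex.normSq ((U.val 1 1 - -U.val 0 0) / 2) +
        Complex.normSq ((U.val 0 0 + 2 * (-U.val 0 1) + U.val 1 1) / 2) *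
          Complex.normSq ((U.val 1 1 - U.val 0 0) / 2) +
        Complex.normSq ((-U.val 0 0 + 2 * (-(Complex.I * U.val 0 1)) + U.val 1 1) / 2) *
          Complex.normSq ((U.val 1 1 - -U.val 0 0) / 2)) ∂P =
      ∫ U, ((1 / 4) * R U + nsq 0 1 U * nsq 1 1 U + nsq 0 0 U * nsq 0 1 U) ∂P := by
    refine integral_congr_ae (Eventually.of_forall fun U => ?_)
    simp only [nsq, hR, Complex.normSq_div]
    simp only [Complex.normSq_apply, Complex.add_re, Complex.add_im,
      Complex.mul_re, Complex.mul_im, Complex.I_re, Complex.I_im, Complex.neg_re, Complex.neg_im,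
      Complex.re_ofNat, Complex.im_ofNat, Complex.sub_re, Complex.sub_im, pow_two]
    ring
  have i1 : Integrable (fun U => (1 / 4) * R U) P := integ (continuous_const.mul hRc)
  have i2 : Integrable (fun U => nsq 0 1 U * nsq 1 1 U) P :=
    integ ((continuous_nsq 0 1).mul (continuous_nsq 1 1))
  have i3 : Integrable (fun U => nsq 0 0 U * nsq 0 1 U) P :=
    integ ((continuous_nsq 0 0).mul (continuous_nsq 0 1))
  have i12 : Integrable (fun U => (1 / 4) * R U + nsq 0 1 U * nsq 1 1 U) P := i1.add i2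
  rw [h3, integral_add i12 i3, integral_add i1 i2, integral_const_mul,
    int_nsq_01_11 P hP] at h2
  -- the square terms
  obtain ⟨τ, hτ, hτ1⟩ := exists_sqrt Complex.I Complex.norm_I
  have h4 : ∫ U, R U ∂P = ∫ U, S U ∂P := by
    rw [hR, int_phase P hP (fun a _ c => Complex.normSq (c ^ 2 - a ^ 2)) τ hτ1]
    refine integral_congr_ae (Eventually.of_forall fun U => ?_)
    simp only [hS, hτ]
    congr 1
    rw [mul_pow, Complex.I_sq]; ring
  have h5 : ∫ U, (R U + S U) ∂P = ∫ U, (2 * nsq 0 0 U ^ 2 + 2 * nsq 1 1 U ^ 2) ∂P := by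
    refine integral_congr_ae (Eventually.of_forall fun U => ?_)
    simp only [nsq, hR, hS, Complex.normSq_apply, Complex.add_re, Complex.add_im,
      Complex.mul_re, Complex.mul_im, Complex.sub_re, Complex.sub_im, pow_two]
    ring
  have i6 : Integrable (fun U : SymU (m + 3) => 2 * nsq 0 0 U ^ 2) P :=
    integ (continuous_const.mul ((continuous_nsq _ _).pow 2))
  have i7 : Integrable (fun U : SymU (m + 3) => 2 * nsq 1 1 U ^ 2) P :=
    integ (continuous_const.mul ((continuous_nsq _ _).pow 2))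
  rw [integral_add (integ hRc) (integ hSc), integral_add i6 i7, integral_const_mul,
    integral_const_mul, int_nsq_11_sq P hP, ← h4] at h5
  linarith

theorem int_M : ∫ U, nsq 0 0 U ^ 2 ∂P = 8 / (((m : ℝ) + 4) * (m + 6)) := by
  have h1 : ∫ U, nsq 0 0 U * (nsq 0 0 U + ∑ j : Fin (m + 2), nsq 0 j.succ U) ∂P =
      2 / ((m : ℝ) + 4) := by
    simp only [sum_nsq, mul_one]
    exact int_s P hP
  have h2 : ∫ U, nsq 0 0 U * (nsq 0 0 U + ∑ j : Fin (m + 2), nsq 0 j.succ U) ∂P =
      ∫ U, (nsq 0 0 U ^ 2 + ∑ j : Fin (m + 2), nsq 0 0 U * nsq 0 j.succ U) ∂P := by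
    refine integral_congr_ae (Eventually.of_forall fun U => ?_)
    simp only [mul_add, Finset.mul_sum, pow_two]
  have i1 : Integrable (fun U : SymU (m + 3) => nsq 0 0 U ^ 2) P :=
    integ ((continuous_nsq _ _).pow 2)
  have i2 : ∀ j : Fin (m + 2), Integrable (fun U : SymU (m + 3) => nsq 0 0 U * nsq 0 j.succ U) P :=
    fun j => integ ((continuous_nsq _ _).mul (continuous_nsq _ _))
  rw [h2, integral_add i1 (integrable_finsetSum _ fun j _ => i2 j),
    integral_finsetSum _ (fun j _ => i2 j)] at h1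
  have h3 : ∀ j : Fin (m + 2), ∫ U, nsq 0 0 U * nsq 0 j.succ U ∂P =
      (∫ U, nsq 0 0 U ^ 2 ∂P) / 4 := by
    intro j
    rw [int_nsq_00_0j P hP _ (Fin.succ_ne_zero j), ← int_A P hP]
    ring
  rw [Finset.sum_congr rfl fun j _ => h3 j, Finset.sum_const, Finset.card_univ, Fintype.card_fin,
    nsmul_eq_mul] at h1
  push_cast at h1
  have h4 : ((m : ℝ) + 4) ≠ 0 := by positivity
  have h5 : ((m : ℝ) + 6) ≠ 0 := by positivity
  field_simp at h1 ⊢
  linarith

lemma int_im : ∫ U : SymU (m + 3), (U.val 0 0).im ^ 2 ∂P = 1 / ((m : ℝ) + 4) := by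
  obtain ⟨τ, hτ, hτ1⟩ := exists_sqrt Complex.I Complex.norm_I
  have h1 := int_phase P hP (fun a _ _ => a.im ^ 2) τ hτ1
  simp only [hτ] at h1
  have h2 : ∫ U : SymU (m + 3), ((U.val 0 0).im ^ 2 + (Complex.I * U.val 0 0).im ^ 2) ∂P =
      ∫ U, nsq 0 0 U ∂P := by
    refine integral_congr_ae (Eventually.of_forall fun U => ?_)
    simp only [nsq, Complex.normSq_apply, Complex.mul_im, Complex.I_re, Complex.I_im]
    ring
  have c1 : Continuous fun U : SymU (m + 3) => (U.val 0 0).im ^ 2 :=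
    (Complex.continuous_im.comp (SymU.continuous_entry 0 0)).pow 2
  have c2 : Continuous fun U : SymU (m + 3) => (Complex.I * U.val 0 0).im ^ 2 :=
    (Complex.continuous_im.comp (continuous_const.mul (SymU.continuous_entry 0 0))).pow 2
  rw [integral_add (integ c1) (integ c2), ← h1, int_s P hP] at h2
  have h4 : ((m : ℝ) + 4) ≠ 0 := by positivity
  field_simp at h2 ⊢
  linarith

/-- the phase factor -/
theorem norm_gamma_le (k : ℕ) :
    ‖∫ U : SymU (m + 3), gph (U.val 0 0) ^ (k + 1) ∂P‖ ≤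
      1 - 1 / (4 * ((m : ℝ) + 4)) + 72 * (k + 1) ^ 2 / (((m : ℝ) + 4) * (m + 6)) := by
  have h01 : (0 : Fin (m + 3)) ≠ 1 := by
    intro h; have := congrArg Fin.val h; simp at this
  have hgm : Measurable gph := by
    unfold gph
    exact (measurable_const.sub continuous_star.measurable).div (measurable_const.sub measurable_id)
  have hm : ∀ c : ℂ, Measurable fun U : SymU (m + 3) => gph (c * U.val 0 0) ^ (k + 1) := fun c =>
    (hgm.comp (measurable_const.mul (SymU.continuous_entry 0 0).measurable)).pow_const _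
  have hb : ∀ z, ‖gph z ^ (k + 1)‖ ≤ 1 := fun z => by
    rw [norm_pow]; exact pow_le_one₀ (norm_nonneg _) (norm_gph_le z)
  have i1 : Integrable (fun U : SymU (m + 3) => gph (U.val 0 0) ^ (k + 1)) P :=
    Integrable.of_bound (by simpa using (hm 1).aestronglyMeasurable) 1
      (Eventually.of_forall fun U => hb _)
  have i2 : Integrable (fun U : SymU (m + 3) => gph (-U.val 0 0) ^ (k + 1)) P :=
    Integrable.of_bound (by simpa using (hm (-1)).aestronglyMeasurable) 1
      (Eventually.of_forall fun U => hb _)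
  have h1 : ∫ U : SymU (m + 3), gph (U.val 0 0) ^ (k + 1) ∂P =
      ∫ U : SymU (m + 3), gph (-U.val 0 0) ^ (k + 1) ∂P := by
    rw [← hP.integral_smul (phs h01 Complex.I Complex.norm_I)]
    refine integral_congr_ae (Eventually.of_forall fun U => ?_)
    simp only [phs_smul_apply, phd, if_true]
    congr 2
    rw [mul_comm, ← mul_assoc, Complex.I_mul_I]; ring
  have h2 : ∫ U : SymU (m + 3), gph (U.val 0 0) ^ (k + 1) ∂P =
      ∫ U : SymU (m + 3), (gph (U.val 0 0) ^ (k + 1) + gph (-U.val 0 0) ^ (k + 1)) / 2 ∂P := by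
    rw [integral_div, integral_add i1 i2, ← h1]; ring
  rw [h2]
  have c1 : Continuous fun U : SymU (m + 3) => (U.val 0 0).im ^ 2 :=
    (Complex.continuous_im.comp (SymU.continuous_entry 0 0)).pow 2
  have i3 : Integrable (fun U : SymU (m + 3) => (1 : ℝ) - (U.val 0 0).im ^ 2 / 4) P :=
    integ (continuous_const.sub (c1.div_const 4))
  have i4 : Integrable (fun U : SymU (m + 3) => 9 * ((k : ℝ) + 1) ^ 2 * nsq 0 0 U ^ 2) P :=
    integ (continuous_const.mul ((continuous_nsq 0 0).pow 2))
  calc ‖∫ U : SymU (m + 3), (gph (U.val 0 0) ^ (k + 1) + gph (-U.val 0 0) ^ (k + 1)) / 2 ∂P‖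
      ≤ ∫ U : SymU (m + 3), ‖(gph (U.val 0 0) ^ (k + 1) + gph (-U.val 0 0) ^ (k + 1)) / 2‖ ∂P :=
        norm_integral_le_integral_norm _
    _ ≤ ∫ U : SymU (m + 3), (1 - (U.val 0 0).im ^ 2 / 4 + 9 * ((k : ℝ) + 1) ^ 2 * nsq 0 0 U ^ 2) ∂P := by
        refine integral_mono ((i1.add i2).div_const 2).norm (i3.add i4) fun U => ?_
        have h3 := key_ineq k (U.val 0 0)
        have h4 : nsq 0 0 U ^ 2 = ‖U.val 0 0‖ ^ 4 := by
          unfold nsq; rw [Complex.normSq_eq_norm_sq]; ring
        simp only [h4]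
        exact h3
    _ = _ := by
        rw [integral_add i3 i4, integral_sub (integrable_const _) (integ (c1.div_const 4)),
          integral_div, integral_const_mul, int_im P hP, int_M P hP]
        simp only [integral_const, probReal_univ, smul_eq_mul, mul_one]
        have h4 : ((m : ℝ) + 4) ≠ 0 := by positivity
        have h5 : ((m : ℝ) + 6) ≠ 0 := by positivity
        field_simp
        ring

end moments

end Crest.Agent.R166.COE682
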