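import Crest.Agent.R166.COEalg_682

/-!
Row 166, section 51 (COE lemma), topology/measure set-up: the compact space `SymU m` of
symmetric unitary matrices, the action of the unitary group, closing a port.
-/

set_option autoImplicit false

namespace Crest.Agent.R166.COE682

open Matrix MeasureTheory Topology Filter

/-- The type of symmetric unitary `m × m` matrices. -/
def SymU (m : ℕ) : Type := {U : MM m // U ∈ Sy m}

namespace SymU

variable {m : ℕ}

/-- the underlying matrix -/
def val (U : SymU m) : MM m := Subtype.val U

lemma mem (U : SymU m) : U.val ∈ Sy m := Subtype.property U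

lemma symm (U : SymU m) : U.valᵀ = U.val := U.mem.1

lemma unit (U : SymU m) : U.val ∈ unitaryGroup (Fin m) ℂ := U.mem.2

@[ext] lemma ext {U V : SymU m} (h : U.val = V.val) : U = V := Subtype.ext h

/-- constructor -/
def mk (U : MM m) (h : U ∈ Sy m) : SymU m := ⟨U, h⟩

@[simp] lemma val_mk (U : MM m) (h : U ∈ Sy m) : (mk U h).val = U := rfl

noncomputable instance : TopologicalSpace (SymU m) := instTopologicalSpaceSubtype

lemma continuous_val : Continuous (val : SymU m → MM m) := continuous_subtype_val

lemma continuous_iff {X : Type*} [TopologicalSpace X] {f : X → SymU m} :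
    Continuous f ↔ Continuous fun x => (f x).val := continuous_induced_rng

lemma continuousAt_iff {X : Type*} [TopologicalSpace X] {f : X → SymU m} {x : X} :
    ContinuousAt f x ↔ ContinuousAt (fun x => (f x).val) x :=
  Topology.IsInducing.subtypeVal.continuousAt_iff

lemma continuous_entry (i j : Fin m) : Continuous fun U : SymU m => U.val i j :=
  (continuous_apply_apply i j).comp continuous_val

instance : T2Space (SymU m) := inferInstanceAs (T2Space {U : MM m // U ∈ Sy m})

instance : SecondCountableTopology (MM m) :=
  inferInstanceAs (SecondCountableTopology (Fin m → Fin m → ℂ))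

instance : SecondCountableTopology (SymU m) :=
  inferInstanceAs (SecondCountableTopology {U : MM m // U ∈ Sy m})

instance : TopologicalSpace.MetrizableSpace (MM m) :=
  inferInstanceAs (TopologicalSpace.MetrizableSpace (Fin m → Fin m → ℂ))

instance : TopologicalSpace.MetrizableSpace (SymU m) :=
  inferInstanceAs (TopologicalSpace.MetrizableSpace {U : MM m // U ∈ Sy m})

lemma isClosed_Sy : IsClosed (Sy m) := by
  have h1 : IsClosed {U : MM m | Uᵀ = U} := isClosed_eq (by fun_prop) (by fun_prop)
  have h2 : IsClosed {U : MM m | star U * U = 1} := isClosed_eq (by fun_prop) (by fun_prop)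
  have : Sy m = {U : MM m | Uᵀ = U} ∩ {U : MM m | star U * U = 1} := by
    ext U
    simp only [Sy, Set.mem_ofPred_eq, Set.mem_inter_iff, mem_unitaryGroup_iff']
  rw [this]
  exact h1.inter h2

lemma isCompact_Sy : IsCompact (Sy m) := by
  have hK : IsCompact (Set.univ.pi fun _ : Fin m => Set.univ.pi fun _ : Fin m =>
      Metric.closedBall (0 : ℂ) 1) :=
    isCompact_univ_pi fun _ => isCompact_univ_pi fun _ => isCompact_closedBall 0 1
  refine IsCompact.of_isClosed_subset hK isClosed_Sy ?_
  intro U hU i _ j _
  rw [mem_closedBall_zero_iff]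
  exact norm_entry_le hU.2 i j

instance : CompactSpace (SymU m) := isCompact_iff_compactSpace.1 isCompact_Sy

noncomputable instance : MeasurableSpace (SymU m) := borel _

instance : BorelSpace (SymU m) := ⟨rfl⟩

instance : Nonempty (SymU m) := ⟨mk 1 ⟨Matrix.transpose_one, one_mem _⟩⟩

lemma norm_entry_le (U : SymU m) (i j : Fin m) : ‖U.val i j‖ ≤ 1 :=
  COE682.norm_entry_le U.unit i j

lemma entry_symm (U : SymU m) (i j : Fin m) : U.val i j = U.val j i := by
  conv_lhs => rw [← U.symm]
  rfl

/-- closing port `0` -/
noncomputable def close (U : SymU (m + 1)) : SymU m := mk (cl U.val) (cl_mem U.mem)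

@[simp] lemma val_close (U : SymU (m + 1)) : (close U).val = cl U.val := rfl

lemma continuousAt_close {U : SymU (m + 1)} (hu : U.val 0 0 ≠ 1) : ContinuousAt close U := by
  rw [continuousAt_iff]
  refine continuousAt_pi.2 fun i => continuousAt_pi.2 fun j => ?_
  simp only [val_close, cl]
  have h1 : (1 - U.val 0 0) ≠ 0 := sub_ne_zero.2 (Ne.symm hu)
  refine ContinuousAt.add (continuous_entry _ _).continuousAt (ContinuousAt.mul
    (ContinuousAt.mul (continuous_entry _ _).continuousAt (ContinuousAt.inv₀ ?_ h1))
    (continuous_entry _ _).continuousAt)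
  exact (continuous_const.sub (continuous_entry 0 0)).continuousAt

lemma measurable_close : Measurable (close : SymU (m + 1) → SymU m) := by
  let _ : MeasurableSpace (MM m) := MeasurableSpace.pi
  have _ : BorelSpace (MM m) := inferInstanceAs (BorelSpace (Fin m → Fin m → ℂ))
  have hc : Measurable fun U : SymU (m + 1) => (close U).val := by
    refine measurable_pi_iff.2 fun i => measurable_pi_iff.2 fun j => ?_
    simp only [val_close, cl]
    have h : ∀ i j, Measurable fun U : SymU (m + 1) => U.val i j :=
      fun i j => (continuous_entry i j).measurable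
    exact (h _ _).add (((h _ _).mul ((measurable_const.sub (h _ _)).inv)).mul (h _ _))
  have hind : Topology.IsInducing (val : SymU m → MM m) := Topology.IsInducing.subtypeVal
  have h3 : borel (SymU m) =
      MeasurableSpace.comap val (MeasurableSpace.pi : MeasurableSpace (MM m)) := by
    rw [hind.eq_induced, borel_comap]
    have hb : (MeasurableSpace.pi : MeasurableSpace (Fin m → Fin m → ℂ)) = borel _ :=
      BorelSpace.measurable_eq
    exact congrArg (MeasurableSpace.comap (val : SymU m → (Fin m → Fin m → ℂ))) hb.symm
  intro s hs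
  have hs' : MeasurableSet[borel (SymU m)] s := hs
  rw [h3] at hs'
  obtain ⟨t, ht, rfl⟩ := hs'
  exact hc ht

/-- the action `U ↦ V U Vᵀ` of the unitary group -/
instance : MulAction (unitaryGroup (Fin m) ℂ) (SymU m) where
  smul V U := mk (V.1 * U.val * V.1ᵀ) ⟨by
      rw [Matrix.transpose_mul, Matrix.transpose_mul, Matrix.transpose_transpose, U.symm,
        Matrix.mul_assoc], by
      have hV : V.1ᵀ ∈ unitaryGroup (Fin m) ℂ := by
        rw [mem_unitaryGroup_iff]
        have h := mem_unitaryGroup_iff'.1 V.2
        have h2 := congrArg Matrix.transpose h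
        rw [Matrix.transpose_mul, Matrix.transpose_one] at h2
        exact h2
      exact mul_mem (mul_mem V.2 U.unit) hV⟩
  one_smul U := by
    apply ext
    show (1 : MM m) * U.val * (1 : MM m)ᵀ = U.val
    simp
  mul_smul V W U := by
    apply ext
    show (V.1 * W.1) * U.val * (V.1 * W.1)ᵀ = V.1 * (W.1 * U.val * W.1ᵀ) * V.1ᵀ
    rw [Matrix.transpose_mul]
    simp only [Matrix.mul_assoc]

@[simp] lemma val_smul (V : unitaryGroup (Fin m) ℂ) (U : SymU m) :
    (V • U).val = V.1 * U.val * V.1ᵀ := rfl

instance : ContinuousSMul (unitaryGroup (Fin m) ℂ) (SymU m) where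
  continuous_smul := by
    rw [continuous_iff]
    show Continuous fun p : unitaryGroup (Fin m) ℂ × SymU m => p.1.1 * p.2.val * p.1.1ᵀ
    have h1 : Continuous fun p : unitaryGroup (Fin m) ℂ × SymU m => p.1.1 :=
      continuous_subtype_val.comp continuous_fst
    have h2 : Continuous fun p : unitaryGroup (Fin m) ℂ × SymU m => p.2.val :=
      continuous_val.comp continuous_snd
    exact (h1.mul h2).mul h1.matrix_transpose

end SymU

end Crest.Agent.R166.COE682
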