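import Crest.Agent.R166.COEgrp_682

/-!
Row 166, section 51 (COE lemma): transitivity of `SU(m)` on the determinant fibres, and
independence of `det U` and `U 0 0` for invariant measures.
-/

set_option autoImplicit false

namespace Crest.Agent.R166.COE682

open Matrix MeasureTheory Topology Filter

open Crest.Agent.R166.Gen85 (toC E2 PP PP_orth E2_mul E2_one E2_star takagi toC_mem toC_det orth_det)

variable {m : ℕ}

/-- `diag (z, 1, …, 1)` -/
noncomputable def dg (m : ℕ) (z : ℂ) : MM (m + 1) := diagonal fun i => if i = 0 then z else 1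

lemma dg_mem {z : ℂ} (hz : ‖z‖ = 1) : dg m z ∈ Sy (m + 1) := by
  refine ⟨diagonal_transpose _, ?_⟩
  unfold dg
  apply Crest.Agent.R166.Gen85.diag_unitary
  intro i
  by_cases h : i = 0 <;> simp [h, hz]

/-- `diag (z, 1, …, 1)` as a symmetric unitary -/
noncomputable def dgS (m : ℕ) (z : Circle) : SymU (m + 1) := SymU.mk (dg m z) (dg_mem z.norm_coe)

lemma continuous_dgS : Continuous (dgS m) := by
  rw [SymU.continuous_iff]
  show Continuous fun z : Circle => dg m (z : ℂ)
  unfold dg
  refine Continuous.matrix_diagonal ?_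
  refine continuous_pi fun i => ?_
  by_cases h : i = 0
  · simp only [h, if_true]; exact continuous_subtype_val
  · simp only [h, if_false]; exact continuous_const

lemma norm_det (U : SymU m) : ‖U.val.det‖ = 1 := by
  have h := mem_unitaryGroup_iff.1 U.unit
  have h2 := congrArg Matrix.det h
  rw [det_mul, det_one, Matrix.star_eq_conjTranspose, det_conjTranspose] at h2
  have h3 := congrArg norm h2
  rw [norm_mul, norm_star, norm_one] at h3
  nlinarith [norm_nonneg U.val.det]

/-- a unimodular number as a point of the circle -/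
noncomputable def mkC (w : ℂ) (hw : ‖w‖ = 1) : Circle := ⟨w, mem_sphere_zero_iff_norm.2 hw⟩

@[simp] lemma coe_mkC (w : ℂ) (hw : ‖w‖ = 1) : (mkC w hw : ℂ) = w := rfl

/-- the determinant as a point of the circle -/
noncomputable def detC (U : SymU m) : Circle := mkC U.val.det (norm_det U)

@[simp] lemma coe_detC (U : SymU m) : (detC U : ℂ) = U.val.det := rfl

lemma continuous_det : Continuous fun U : SymU m => U.val.det :=
  Continuous.matrix_det SymU.continuous_val

lemma continuous_detC : Continuous (detC : SymU m → Circle) :=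
  continuous_induced_rng.2 continuous_det

lemma exists_sqrt (z : ℂ) (hz : ‖z‖ = 1) : ∃ w : ℂ, w * w = z ∧ ‖w‖ = 1 := by
  obtain ⟨w, hw⟩ := IsAlgClosed.exists_pow_nat_eq z (n := 2) (by norm_num)
  refine ⟨w, by rw [← hw]; ring, ?_⟩
  have := congrArg norm hw
  rw [norm_pow, hz] at this
  nlinarith [norm_nonneg w]

/-- **transitivity** -/
theorem exists_rep (U : SymU (m + 1)) :
    ∃ V : SG (m + 1), V • dgS m (detC U) = U := by
  obtain ⟨O, hO, δ, hδ, hU⟩ := takagi U.unit U.symm
  choose ε hε hε1 using fun i => exists_sqrt (δ i) (hδ i)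
  have hOdet : ((O.det : ℝ) : ℂ) * ((O.det : ℝ) : ℂ) = 1 := by
    rcases orth_det hO with h | h <;> rw [h] <;> norm_num
  set p : ℂ := ((O.det : ℝ) : ℂ) * ∏ i : Fin m, ε i.succ with hp
  have hpn : ‖p‖ = 1 := by
    rw [hp, norm_mul, norm_prod]
    simp only [hε1, Finset.prod_const_one, mul_one]
    rcases orth_det hO with h | h <;> rw [h] <;> norm_num
  have hp0 : p ≠ 0 := by
    intro h; rw [h, norm_zero] at hpn; exact zero_ne_one hpn
  -- the phases
  set e : Fin (m + 1) → ℂ := fun i => if i = 0 then p⁻¹ else ε i with he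
  have he1 : ∀ i, ‖e i‖ = 1 := by
    intro i
    by_cases h : i = 0
    · simp [he, h, hpn]
    · simp [he, h, hε1]
  have hdU : U.val.det = ∏ i, δ i := by
    rw [hU, det_mul, det_mul, det_diagonal, det_transpose, toC_det]
    rw [mul_comm ((O.det : ℝ) : ℂ), mul_assoc, hOdet, mul_one]
  have hVu : toC O * diagonal e ∈ unitaryGroup (Fin (m + 1)) ℂ :=
    mul_mem (toC_mem hO) (Crest.Agent.R166.Gen85.diag_unitary he1)
  have hVd : (toC O * diagonal e).det = 1 := by
    rw [det_mul, det_diagonal, toC_det, Fin.prod_univ_succ]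
    have h1 : ∏ i : Fin m, e i.succ = ∏ i : Fin m, ε i.succ :=
      Finset.prod_congr rfl fun i _ => by simp [he, Fin.succ_ne_zero]
    rw [h1]
    have h2 : e 0 = p⁻¹ := by simp [he]
    rw [h2]
    have h3 : ((O.det : ℝ) : ℂ) * (p⁻¹ * ∏ i : Fin m, ε i.succ) = p⁻¹ * p := by
      rw [hp]; ring
    rw [h3, inv_mul_cancel₀ hp0]
  refine ⟨SG.mk (toC O * diagonal e) (mem_specialUnitaryGroup_iff.2 ⟨hVu, hVd⟩), ?_⟩
  apply SymU.ext
  rw [SG.val_smul, SG.val_mk]
  show toC O * diagonal e * dg m U.val.det * (toC O * diagonal e)ᵀ = U.val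
  rw [Matrix.transpose_mul, diagonal_transpose]
  have h4 : diagonal e * dg m U.val.det * diagonal e = diagonal δ := by
    unfold dg
    rw [diagonal_mul_diagonal, diagonal_mul_diagonal]
    congr 1
    ext i
    refine Fin.cases ?_ (fun i => ?_) i
    · have h5 : ∏ i : Fin m, δ i.succ = p * p := by
        have : p * p = (((O.det : ℝ) : ℂ) * ((O.det : ℝ) : ℂ)) *
            ((∏ i : Fin m, ε i.succ) * ∏ i : Fin m, ε i.succ) := by rw [hp]; ring
        rw [this, hOdet, one_mul, ← Finset.prod_mul_distrib]
        exact Finset.prod_congr rfl fun i _ => (hε _).symm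
      simp only [he, if_true]
      rw [hdU, Fin.prod_univ_succ, h5]
      field_simp
    · simp only [he, Fin.succ_ne_zero, if_false, mul_one]
      exact hε _
  calc toC O * diagonal e * dg m U.val.det * (diagonal e * (toC O)ᵀ)
      = toC O * (diagonal e * dg m U.val.det * diagonal e) * (toC O)ᵀ := by
        simp only [Matrix.mul_assoc]
    _ = U.val := by rw [h4, ← hU]

/-- invariant functions only depend on the determinant -/
lemma eq_of_invariant {F : SymU (m + 1) → ℂ} (hF : ∀ (V : SG (m + 1)) U, F (V • U) = F U)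
    (U : SymU (m + 1)) : F U = F (dgS m (detC U)) := by
  obtain ⟨V, hV⟩ := exists_rep U
  conv_lhs => rw [← hV]
  exact hF _ _

/-- invariance of a measure under `SU(m)` -/
def Inv (P : Measure (SymU m)) : Prop := ∀ V : SG m, P.map (V • ·) = P

lemma Inv.integral_smul {E : Type*} [NormedAddCommGroup E] [NormedSpace ℝ E]
    {P : Measure (SymU m)} (h : Inv P) (V : SG m)
    (f : SymU m → E) : ∫ U, f (V • U) ∂P = ∫ U, f U ∂P := by
  have he : MeasurableEmbedding fun x : SymU m => V • x := (Homeomorph.smul V).measurableEmbedding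
  conv_rhs => rw [← h V]
  rw [he.integral_map]

/-- scalar multiplication by a phase -/
noncomputable def scal (c : Circle) (U : SymU m) : SymU m :=
  SymU.mk ((c : ℂ) • U.val) ⟨by rw [transpose_smul, U.symm], by
    rw [mem_unitaryGroup_iff, star_smul, smul_mul_smul_comm, mem_unitaryGroup_iff.1 U.unit]
    have : (c : ℂ) * star (c : ℂ) = 1 := by
      rw [RCLike.star_def, Complex.mul_conj, Circle.normSq_coe]; norm_num
    rw [this, one_smul]⟩

@[simp] lemma scal_apply (c : Circle) (U : SymU m) (i j : Fin m) :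
    (scal c U).val i j = (c : ℂ) * U.val i j := rfl

lemma det_scal (c : Circle) (U : SymU m) : (scal c U).val.det = (c : ℂ) ^ m * U.val.det := by
  show ((c : ℂ) • U.val).det = _
  rw [det_smul, Fintype.card_fin]

lemma smul_scal (V : SG m) (c : Circle) (U : SymU m) : V • scal c U = scal c (V • U) := by
  apply SymU.ext
  show V.val * ((c : ℂ) • U.val) * V.valᵀ = (c : ℂ) • (V.val * U.val * V.valᵀ)
  rw [Matrix.mul_smul, Matrix.smul_mul]

/-- the average of a function of `U 0 0` is constant (size at least two) -/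
lemma avg_const (g : ℂ → ℂ) (hg : Measurable g) (U W : SymU (m + 2)) :
    avg (SG (m + 2)) (fun U : SymU (m + 2) => g (U.val 0 0)) U =
      avg (SG (m + 2)) (fun U : SymU (m + 2) => g (U.val 0 0)) W := by
  set F := avg (SG (m + 2)) (fun U : SymU (m + 2) => g (U.val 0 0)) with hF
  have hinv : ∀ (V : SG (m + 2)) U, F (V • U) = F U := fun V U => avg_smul _ V U
  have h01 : (0 : Fin (m + 2)) ≠ 1 := by simp
  -- invariance under phases
  have hsc : ∀ (c : Circle) (U : SymU (m + 2)), F (scal c U) = F U := by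
    intro c U
    obtain ⟨w, hw, hw1⟩ := exists_sqrt (c : ℂ) c.norm_coe
    have h1 : F U = avg (SG (m + 2)) (fun U : SymU (m + 2) =>
        g (((phs h01 w hw1) • U).val 0 0)) U := (avg_comp _ (phs h01 w hw1) U).symm
    rw [h1, hF]
    unfold avg
    refine integral_congr_ae (Eventually.of_forall fun V => ?_)
    simp only
    rw [phs_smul_apply, smul_scal, scal_apply]
    congr 1
    simp only [phd, if_true]
    rw [← hw]; ring
  -- adjust the determinant
  have hone : ∀ U : SymU (m + 2), F U = F (dgS (m + 1) 1) := by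
    intro U
    obtain ⟨w, hw⟩ := IsAlgClosed.exists_pow_nat_eq (star U.val.det) (n := m + 2) (by omega)
    have hw1 : ‖w‖ = 1 := by
      have := congrArg norm hw
      rw [norm_pow, norm_star, norm_det] at this
      exact (pow_eq_one_iff_of_nonneg (norm_nonneg _) (by omega)).1 this
    have h1 := hsc (mkC w hw1) U
    rw [← h1, eq_of_invariant hinv]
    congr 2
    apply Circle.ext
    rw [coe_detC, det_scal, coe_mkC, hw, Circle.coe_one, mul_comm, RCLike.star_def,
      Complex.mul_conj, Complex.normSq_eq_norm_sq, norm_det]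
    norm_num
  rw [hone U, hone W]

/-- **independence** of `det U` and `U 0 0` -/
theorem integral_det_mul (P : Measure (SymU (m + 2))) [IsProbabilityMeasure P] (hP : Inv P)
    (h : ℂ → ℂ) (hh : Measurable h) (Ch : ℝ) (hCh : ∀ U : SymU (m + 2), ‖h U.val.det‖ ≤ Ch)
    (g : ℂ → ℂ) (hg : Measurable g) (Cg : ℝ) (hCg : ∀ z, ‖g z‖ ≤ Cg) :
    ∫ U, h U.val.det * g (U.val 0 0) ∂P = (∫ U, h U.val.det ∂P) * ∫ U, g (U.val 0 0) ∂P := by
  have hm1 : Measurable fun U : SymU (m + 2) => h U.val.det := hh.comp continuous_det.measurable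
  have hm2 : Measurable fun U : SymU (m + 2) => g (U.val 0 0) :=
    hg.comp (SymU.continuous_entry 0 0).measurable
  have hCh0 : 0 ≤ Ch := (norm_nonneg _).trans (hCh (Classical.arbitrary _))
  set F := avg (SG (m + 2)) (fun U : SymU (m + 2) => g (U.val 0 0)) with hF
  set γ : ℂ := F (dgS (m + 1) 1) with hγ
  have hFγ : ∀ U, F U = γ := fun U => avg_const g hg U _
  have h1 : ∫ U, h U.val.det * g (U.val 0 0) ∂P = ∫ U, h U.val.det * γ ∂P := by
    have hm3 : Measurable fun U : SymU (m + 2) => h U.val.det * g (U.val 0 0) := hm1.mul hm2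
    rw [integral_eq_integral_avg (G := SG (m + 2)) P hP hm3 (C := Ch * Cg)]
    · refine integral_congr_ae (Eventually.of_forall fun U => ?_)
      have := avg_mul_invariant (G := SG (m + 2)) (f := fun U : SymU (m + 2) => g (U.val 0 0))
        (k := fun U : SymU (m + 2) => h U.val.det) (fun V U => by simp only [SG.det_smul]) U
      rw [← hF, hFγ] at this
      exact this
    · intro U
      rw [norm_mul]
      exact mul_le_mul (hCh U) (hCg _) (norm_nonneg _) hCh0
  have h2 : ∫ U, g (U.val 0 0) ∂P = γ := by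
    rw [integral_eq_integral_avg (G := SG (m + 2)) P hP hm2 (C := Cg) (fun U => hCg _)]
    have : (fun U => avg (SG (m + 2)) (fun U : SymU (m + 2) => g (U.val 0 0)) U) = fun _ => γ := by
      ext U; exact hFγ U
    rw [this]
    simp
  rw [h1, h2, integral_mul_const]

end Crest.Agent.R166.COE682
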