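import Crest.Agent.R166.L2B_942

/-!
Row 166, sections 42.1-42.3 (helper942): the bridge from the limit process (`Spec_B2_385`) to the
words of `L2_942`, in the form asked for by helper663.
-/

set_option autoImplicit false

noncomputable section

open MeasureTheory ProbabilityTheory Filter Topology

namespace Crest.Agent.R166.Cav942

open Crest.Agent.R166.B2 Crest.Agent.R166.L2_942

variable {Ω : Type*} {d : ℕ}

/-- nonzero letters -/
abbrev KK (d : ℕ) := {k : ZMod d // k ≠ 0}

/-- the half-edge at the end of the word `w` (newest letter first) -/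
def pos (pp rr : Ω → Ω) : List (KK d) → Ω → Ω
  | [], h => h
  | k :: w, h => mv pp rr k.1.val (pos pp rr w h)

/-- cavity numbers along the words -/
def cw (pp rr : Ω → Ω) (cav : Ω → ℂ) (h : Ω) : List (KK d) → ℂ := fun w => cav (pos pp rr w h)

/-- the word in the form of `Spec_B2_385` -/
def word (w : List (KK d)) : List ℕ := (w.map (fun k => k.1.val)).reverse

/-- (C3) -/
theorem pos_eq_wd (pp rr : Ω → Ω) (w : List (KK d)) (h : Ω) :
    pos pp rr w h = wd pp rr (word w) h := by
  induction w with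
  | nil => rfl
  | cons k w ih =>
    have h1 : word (k :: w) = word w ++ [k.1.val] := by simp [word]
    rw [pos, ih, h1, wd_append]
    rfl

/-- (C3) -/
theorem outW_word [NeZero d] (w : List (KK d)) : OutW d (word w) := by
  intro j hj
  rw [word, List.mem_reverse, List.mem_map] at hj
  obtain ⟨k, _, rfl⟩ := hj
  refine ⟨?_, ZMod.val_lt _⟩
  rw [Nat.one_le_iff_ne_zero, Ne, ZMod.val_eq_zero]
  exact k.2

theorem sum_KK [NeZero d] {M : Type*} [AddCommMonoid M] (f : ℕ → M) :
    ∑ k : KK d, f k.1.val = ∑ j ∈ Finset.range (d - 1), f (j + 1) := by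
  classical
  refine Finset.sum_bij' (fun k _ => k.1.val - 1)
    (fun j hj => (⟨((j + 1 : ℕ) : ZMod d), ?_⟩ : KK d)) ?_ ?_ ?_ ?_ ?_
  · rw [Finset.mem_range] at hj
    intro h0
    rw [ZMod.natCast_eq_zero_iff] at h0
    have := Nat.le_of_dvd (by omega) h0
    omega
  · intro k _
    have h1 : k.1.val < d := ZMod.val_lt _
    have h2 : k.1.val ≠ 0 := fun h => k.2 ((ZMod.val_eq_zero _).1 h)
    rw [Finset.mem_range]; omega
  · intro j _; exact Finset.mem_univ _
  · intro k _
    have h2 : k.1.val ≠ 0 := fun h => k.2 ((ZMod.val_eq_zero _).1 h)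
    apply Subtype.ext
    simp only
    have h3 : k.1.val - 1 + 1 = k.1.val := by omega
    rw [h3, ZMod.natCast_zmod_val]
  · intro j hj
    rw [Finset.mem_range] at hj
    simp only
    rw [ZMod.val_natCast_of_lt (by omega)]
    omega
  · intro k _
    have h2 : k.1.val ≠ 0 := fun h => k.2 ((ZMod.val_eq_zero _).1 h)
    congr 1
    omega

theorem cw_eq (pp rr : Ω → Ω) (cav : Ω → ℂ) (h : Ω) :
    (cw pp rr cav h : List (KK d) → ℂ) =
      fun w => cN pp rr cav h (w.map (fun k => k.1.val)) := by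
  funext w
  rw [cw, cN, pos_eq_wd]
  rfl

theorem l1c_cw (pp rr : Ω → Ω) (cav : Ω → ℂ) (h : Ω) (w : List (KK d)) :
    l1c (cw pp rr cav h) w = l1c (cN pp rr cav h) (w.map (fun k => k.1.val)) := by
  rw [cw_eq]
  exact l1c_map _ _ _

theorem l2c_cw (pp rr : Ω → Ω) (cav : Ω → ℂ) (h : Ω) (w : List (KK d)) :
    l2c (cw pp rr cav h) w = l2c (cN pp rr cav h) (w.map (fun k => k.1.val)) := by
  rw [cw_eq]
  exact l2c_map _ _ _

section lim

variable {Env FX : MeasurableSpace Ω} [mΩ : MeasurableSpace Ω]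
    {k : ℕ} {s E t ρ : ℝ} {P : Measure Ω} {pp rr : Ω → Ω} {om : Ω → ℝ} {cav : Ω → ℂ}
    {X Z : Ω → Fin k → ℝ}

theorem mp_mv (L : LimProc Env FX d k s E t ρ P pp rr om cav X Z) (j : ℕ) :
    MeasurePreserving (mv pp rr j) P P :=
  L.pp_mp.comp (L.rr_mp.iterate j)

theorem mp_pos (L : LimProc Env FX d k s E t ρ P pp rr om cav X Z) (w : List (KK d)) :
    MeasurePreserving (pos pp rr w) P P := by
  induction w with
  | nil => exact MeasurePreserving.id P
  | cons k w ih => exact (mp_mv L _).comp ih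

theorem countable_KK [NeZero d] : Countable (List (KK d)) := by infer_instance

theorem ae_pos [NeZero d] (L : LimProc Env FX d k s E t ρ P pp rr om cav X Z) {p : Ω → Prop}
    (hp : ∀ᵐ h ∂P, p h) : ∀ᵐ h ∂P, ∀ w : List (KK d), p (pos pp rr w h) := by
  rw [ae_all_iff]
  intro w
  exact (mp_pos L w).quasiMeasurePreserving.ae hp

theorem ae_pp (L : LimProc Env FX d k s E t ρ P pp rr om cav X Z) {p : Ω → Prop}
    (hp : ∀ᵐ h ∂P, p h) : ∀ᵐ h ∂P, p (pp h) :=
  L.pp_mp.quasiMeasurePreserving.ae hp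

theorem ae_mv (L : LimProc Env FX d k s E t ρ P pp rr om cav X Z) {p : Ω → Prop}
    (hp : ∀ᵐ h ∂P, p h) : ∀ᵐ h ∂P, ∀ j : ℕ, p (mv pp rr j h) := by
  rw [ae_all_iff]
  intro j
  exact (mp_mv L j).quasiMeasurePreserving.ae hp

theorem ae_rr (L : LimProc Env FX d k s E t ρ P pp rr om cav X Z) {p : Ω → Prop}
    (hp : ∀ᵐ h ∂P, p h) : ∀ᵐ h ∂P, ∀ j : ℕ, p (rr^[j] h) := by
  rw [ae_all_iff]
  intro j
  exact (L.rr_mp.iterate j).quasiMeasurePreserving.ae hp

/-- (C1) -/
theorem C1 [NeZero d] (L : LimProc Env FX d k s E t ρ P pp rr om cav X Z) :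
    ∀ᵐ h ∂P, ∀ a b : ℝ, (Summable fun w : List (KK d) =>
      (l1c (cw pp rr cav h) w * a + l2c (cw pp rr cav h) w * b) ^ 2) → a = 0 ∧ b = 0 := by
  obtain ⟨η, c, hη, hη0, hcm, hc, hlim⟩ := L.cav_lim
  filter_upwards [ae_pos L (ae_all_iff.2 hc), ae_pos L hlim, ae_pos L L.cav_im] with h h1 h2 h3
  intro a b hs
  refine hD (E := E) (V := fun w => s * om (pos pp rr w h)) (eta := η)
    (c := fun i => cw pp rr (c i) h) (c0 := cw pp rr cav h) hη hη0 ?_ (fun w => h2 w)
    (fun w => h3 w) a b hs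
  intro i w
  refine ⟨(h1 w i).1, ?_⟩
  have h4 := (h1 w i).2.2
  have h5 : ∑ k : KK d, cw pp rr (c i) h (k :: w) =
      ∑ j ∈ Finset.range (d - 1), c i (mv pp rr (j + 1) (pos pp rr w h)) :=
    sum_KK (fun j => c i (mv pp rr j (pos pp rr w h)))
  rw [h5]
  simp only [cw]
  push_cast
  exact h4

/-- (C2) -/
theorem C2 [NeZero d] (L : LimProc Env FX d k s E t ρ P pp rr om cav X Z) :
    ∀ᵐ h ∂P, ∀ (w : List (KK d)) (a : St d),
      (Go pp rr d s E om cav (word w) h a).im =
        l1c (cw pp rr cav (pp h)) w *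
          (Gs pp rr d s E om cav h (some ⟨0, NeZero.pos d⟩) a).im +
        l2c (cw pp rr cav (pp h)) w * (Gs pp rr d s E om cav h none a).im := by
  filter_upwards [L.cav_im, ae_pp L L.cav_im, L.cav_rec, ae_pp L L.cav_rec] with h h1 h2 h3 h4
  intro w a
  rw [l1c_cw, l2c_cw, word]
  exact Go_im_eq (NeZero.one_le) (L.pp_pp h) h1 h2 h3 h4 _ _ rfl a

omit mΩ in
/-- (C4) symmetry -/
theorem Gs_symm (h : Ω) (a b : St d) :
    Gs pp rr d s E om cav h a b = Gs pp rr d s E om cav h b a := by
  match a, b with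
  | none, none => rfl
  | none, some i => rfl
  | some i, none => rfl
  | some i, some j =>
    simp only [Gs]
    by_cases hij : i = j
    · subst hij; simp
    · rw [if_neg hij, if_neg (Ne.symm hij)]
      ring

theorem meas_mv (L : LimProc Env FX d k s E t ρ P pp rr om cav X Z) (j : ℕ) :
    Measurable[Env, Env] (mv pp rr j) := by
  have h1 : Measurable[Env, Env] (rr^[j]) := L.rr_Env.iterate j
  exact L.pp_Env.comp h1

theorem meas_pos (L : LimProc Env FX d k s E t ρ P pp rr om cav X Z) (w : List (KK d)) :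
    Measurable[Env, Env] (pos pp rr w) := by
  induction w with
  | nil => exact measurable_id
  | cons k w ih => exact (meas_mv L _).comp ih

/-- (C4) -/
theorem meas_Gd (L : LimProc Env FX d k s E t ρ P pp rr om cav X Z) :
    Measurable[Env] (Gd pp rr d s E om cav) := by
  have h1 : Measurable[Env] (fun h => (E : ℂ) - s * om h +
      ∑ i ∈ Finset.range d, cav (mv pp rr i h)) := by
    refine Measurable.add ?_ ?_
    · refine measurable_const.sub (measurable_const.mul ?_)
      exact Complex.measurable_ofReal.comp L.om_meas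
    · exact Finset.measurable_fun_sum _ fun i _ => L.cav_meas.comp (meas_mv L i)
  exact h1.const_div (-1)

/-- (C4) -/
theorem meas_Gs (L : LimProc Env FX d k s E t ρ P pp rr om cav X Z) (a b : St d) :
    Measurable[Env] (fun h => Gs pp rr d s E om cav h a b) := by
  have hG := meas_Gd L
  have hm : ∀ i : ℕ, Measurable[Env] (fun h => cav (mv pp rr i h)) :=
    fun i => L.cav_meas.comp (meas_mv L i)
  match a, b with
  | none, none => exact hG
  | none, some i => exact hG.mul (hm i).neg
  | some i, none => exact hG.mul (hm i).neg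
  | some i, some j =>
    refine ((hG.mul (hm i)).mul (hm j)).add ?_
    by_cases hij : i = j
    · simp only [hij, if_true]; exact hm j
    · simp only [hij, if_false]; exact measurable_const

theorem meas_tr (L : LimProc Env FX d k s E t ρ P pp rr om cav X Z) (w : List ℕ) :
    Measurable[Env] (tr pp rr cav w) := by
  induction w with
  | nil => exact measurable_const
  | cons j w ih =>
    show Measurable[Env] (fun h => (-cav (mv pp rr j h)) * tr pp rr cav w (mv pp rr j h))
    exact (L.cav_meas.comp (meas_mv L j)).neg.mul (ih.comp (meas_mv L j))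

/-- (C4) -/
theorem meas_Go (L : LimProc Env FX d k s E t ρ P pp rr om cav X Z) (w : List ℕ) (a : St d) :
    Measurable[Env] (fun h => Go pp rr d s E om cav w h a) := by
  have hG := meas_Gd L
  have hm : ∀ i : ℕ, Measurable[Env] (fun h => cav (mv pp rr i h)) :=
    fun i => L.cav_meas.comp (meas_mv L i)
  have hp : Measurable[Env] (fun h => cav (pp h)) := L.cav_meas.comp L.pp_Env
  have ht : Measurable[Env] (fun h => tr pp rr cav w (pp h)) := (meas_tr L w).comp L.pp_Env
  match a with
  | none => exact ht.mul (hG.mul hp.neg)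
  | some i =>
    simp only [Go]
    refine ht.mul ?_
    by_cases hi : (i : ℕ) = 0
    · simp only [hi, if_true]; exact hG.comp L.pp_Env
    · simp only [hi, if_false]; exact (hG.mul hp.neg).mul (hm i).neg

theorem meas_rat (L : LimProc Env FX d k s E t ρ P pp rr om cav X Z) (w : List (KK d)) :
    Measurable[Env] (fun h => rat (cw pp rr cav h) w) := by
  induction w with
  | nil => exact measurable_const
  | cons j w ih =>
    show Measurable[Env] (fun h => -cw pp rr cav h (j :: w) * rat (cw pp rr cav h) w)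
    exact (L.cav_meas.comp (meas_pos L (j :: w))).neg.mul ih

/-- (C4) -/
theorem meas_l2c (L : LimProc Env FX d k s E t ρ P pp rr om cav X Z) (w : List (KK d)) :
    Measurable[Env] (fun h => l2c (cw pp rr cav h) w) := by
  have h2 : Measurable[Env] (fun h => (-1 / cw (d := d) pp rr cav h [])) :=
    L.cav_meas.const_div (-1)
  exact (Complex.measurable_im.comp (meas_rat L w)).div (Complex.measurable_im.comp h2)

/-- (C4) -/
theorem meas_l1c (L : LimProc Env FX d k s E t ρ P pp rr om cav X Z) (w : List (KK d)) :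
    Measurable[Env] (fun h => l1c (cw pp rr cav h) w) := by
  have h2 : Measurable[Env] (fun h => (-1 / cw (d := d) pp rr cav h [])) :=
    L.cav_meas.const_div (-1)
  exact (Complex.measurable_re.comp (meas_rat L w)).sub
    ((meas_l2c L w).mul (Complex.measurable_re.comp h2))

omit mΩ in
/-- rotation invariance of the sum over all neighbours -/
theorem sum_mv_rr (hrr : ∀ h, rr^[d] h = h) {M : Type*} [AddCommMonoid M] (f : Ω → M) (h : Ω) :
    ∑ i ∈ Finset.range d, f (mv pp rr i (rr h)) = ∑ i ∈ Finset.range d, f (mv pp rr i h) := by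
  have h1 : ∀ i, mv pp rr i (rr h) = mv pp rr (i + 1) h := by
    intro i; rfl
  simp only [h1]
  cases d with
  | zero => simp
  | succ e =>
    rw [Finset.sum_range_succ, Finset.sum_range_succ' _ e]
    congr 1
    have : rr^[e + 1] h = rr^[0] h := hrr h
    rw [mv, this]
    rfl

theorem Gd_rr (L : LimProc Env FX d k s E t ρ P pp rr om cav X Z) :
    ∀ᵐ h ∂P, ∀ j : ℕ, Gd pp rr d s E om cav (rr^[j] h) = Gd pp rr d s E om cav h := by
  have h0 : ∀ᵐ h ∂P, om (rr h) = om h := by
    first
      | exact L.om_rr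
      | exact Filter.Eventually.of_forall L.om_rr
  filter_upwards [ae_rr L h0] with h h1
  intro j
  induction j with
  | zero => rfl
  | succ j ih =>
    rw [Function.iterate_succ_apply', ← ih, Gd, Gd, sum_mv_rr L.rr_d, h1 j]

/-- (C5) -/
theorem C5_im (L : LimProc Env FX d k s E t ρ P pp rr om cav X Z) :
    ∀ᵐ h ∂P, 0 < (Gd pp rr d s E om cav h).im := by
  filter_upwards [ae_mv L L.cav_im] with h h1
  rw [Gd]
  apply neg_inv_im_pos
  have hd : 0 < d := by have := L.hd; omega
  have h2 : ((E : ℂ) - s * om h + ∑ i ∈ Finset.range d, cav (mv pp rr i h)).im =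
      ∑ i ∈ Finset.range d, (cav (mv pp rr i h)).im := by
    simp
  rw [h2]
  exact Finset.sum_pos (fun i _ => h1 i) ⟨0, Finset.mem_range.2 hd⟩

/-- (C5) `1 - cav h * cav (pp h) ≠ 0`, `Gd h = cav h / (1 - cav h * cav (pp h))` -/
theorem C5_edge (L : LimProc Env FX d k s E t ρ P pp rr om cav X Z) :
    ∀ᵐ h ∂P, 1 - cav h * cav (pp h) ≠ 0 ∧
      Gd pp rr d s E om cav h = cav h / (1 - cav h * cav (pp h)) ∧
      Gd pp rr d s E om cav (pp h) = cav (pp h) / (1 - cav h * cav (pp h)) := by
  have hd : 1 ≤ d := by have := L.hd; omega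
  filter_upwards [L.cav_im, ae_pp L L.cav_im, L.cav_rec, ae_pp L L.cav_rec] with h h1 h2 h3 h4
  obtain ⟨e1, e2⟩ := Gd_eq (s := s) (E := E) (om := om) hd h1 h2 h3
  obtain ⟨e3, e4⟩ := Gd_eq (s := s) (E := E) (om := om) (h := pp h) hd h2
    (by rw [L.pp_pp]; exact h1) h4
  rw [L.pp_pp] at e3 e4
  refine ⟨e1, e2, ?_⟩
  rw [e4, mul_comm (cav (pp h)) (cav h)]

/-- (C5) -/
theorem C5_Gs (L : LimProc Env FX d k s E t ρ P pp rr om cav X Z) :
    ∀ᵐ h ∂P, ∀ i : Fin d,
      Gd pp rr d s E om cav (mv pp rr i h) = Gs pp rr d s E om cav h (some i) (some i) := by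
  filter_upwards [ae_rr L (C5_edge L), Gd_rr L] with h h1 h2
  intro i
  obtain ⟨e1, e2, e3⟩ := h1 i
  have h3 : mv pp rr i h = pp (rr^[(i : ℕ)] h) := rfl
  simp only [Gs, if_true]
  rw [h3, ← h2 i, e3, e2]
  generalize cav (rr^[(i : ℕ)] h) = a at e1 ⊢
  generalize cav (pp (rr^[(i : ℕ)] h)) = b at e1 ⊢
  rw [div_mul_eq_mul_div, div_mul_eq_mul_div, div_add' _ _ _ e1]
  congr 1
  ring

end lim

end Crest.Agent.R166.Cav942
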