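import Crest.Agent.R166.InvDefs_988
import Crest.Agent.R166.CayDet_93

/-!
# R166 / CayG_424 (helper424)

Calculus of the Cayley transform `CayG` over an arbitrary finite index type (leaf L2 of section C):
transport of the facts on `Cay` (`CayDet_93`) along an equivalence `Fin m ≃ ι`; uniform continuity.
-/

set_option autoImplicit false
set_option linter.unusedSectionVars false

open Matrix
open scoped BigOperators

namespace Crest.Agent.R166.CayG424

open Crest.Agent.R166 Crest.Agent.R166.Inv988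

variable {ι κ : Type*} [Fintype ι] [DecidableEq ι] [Fintype κ] [DecidableEq κ]

lemma sub_smul_one (A : Matrix ι ι ℂ) (c : ℂ) (e : κ ≃ ι) :
    (A - c • (1 : Matrix ι ι ℂ)).submatrix e e = A.submatrix e e - c • (1 : Matrix κ κ ℂ) := by
  ext i j
  simp only [Matrix.submatrix_apply, Matrix.sub_apply, Matrix.smul_apply, Matrix.one_apply,
    e.injective.eq_iff]

lemma add_smul_one (A : Matrix ι ι ℂ) (c : ℂ) (e : κ ≃ ι) :
    (A + c • (1 : Matrix ι ι ℂ)).submatrix e e = A.submatrix e e + c • (1 : Matrix κ κ ℂ) := by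
  ext i j
  simp only [Matrix.submatrix_apply, Matrix.add_apply, Matrix.smul_apply, Matrix.one_apply,
    e.injective.eq_iff]

/-- `CayG` commutes with reindexing -/
theorem CayG_submatrix (C : Matrix ι ι ℝ) (e : κ ≃ ι) :
    CayG (C.submatrix e e) = (CayG C).submatrix e e := by
  unfold CayG
  have h1 : (C.submatrix e e).map (fun x : ℝ => (x : ℂ)) - Complex.I • (1 : Matrix κ κ ℂ) =
      (C.map (fun x : ℝ => (x : ℂ)) - Complex.I • (1 : Matrix ι ι ℂ)).submatrix e e := by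
    rw [sub_smul_one]; rfl
  have h2 : (C.submatrix e e).map (fun x : ℝ => (x : ℂ)) + Complex.I • (1 : Matrix κ κ ℂ) =
      (C.map (fun x : ℝ => (x : ℂ)) + Complex.I • (1 : Matrix ι ι ℂ)).submatrix e e := by
    rw [add_smul_one]; rfl
  rw [h1, h2, Matrix.inv_submatrix_equiv, Matrix.submatrix_mul_equiv]

/-- the equivalence used for the transport -/
noncomputable def eqv (ι : Type*) [Fintype ι] : Fin (Fintype.card ι) ≃ ι :=
  (Fintype.equivFin ι).symm

/-- transported matrix -/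
noncomputable def tr {R : Type*} (C : Matrix ι ι R) :
    Matrix (Fin (Fintype.card ι)) (Fin (Fintype.card ι)) R := C.submatrix (eqv ι) (eqv ι)

lemma tr_apply {R : Type*} (C : Matrix ι ι R) (i j : Fin (Fintype.card ι)) :
    tr C i j = C (eqv ι i) (eqv ι j) := rfl

lemma apply_eq_tr {R : Type*} (C : Matrix ι ι R) (i j : ι) :
    C i j = tr C ((eqv ι).symm i) ((eqv ι).symm j) := by
  simp [tr]

lemma tr_inj {R : Type*} {A B : Matrix ι ι R} (h : tr A = tr B) : A = B := by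
  ext i j
  rw [apply_eq_tr A, apply_eq_tr B, h]

lemma tr_mul {R : Type*} [NonUnitalNonAssocSemiring R] (A B : Matrix ι ι R) :
    tr (A * B) = tr A * tr B := by
  unfold tr; rw [Matrix.submatrix_mul_equiv]

lemma tr_one {R : Type*} [Zero R] [One R] : tr (1 : Matrix ι ι R) = 1 := by
  unfold tr; rw [Matrix.submatrix_one_equiv]

lemma tr_transpose {R : Type*} (A : Matrix ι ι R) : tr Aᵀ = (tr A)ᵀ := rfl

lemma tr_conjTranspose (A : Matrix ι ι ℂ) : tr Aᴴ = (tr A)ᴴ := rfl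

lemma tr_symm {C : Matrix ι ι ℝ} (hC : Cᵀ = C) : (tr C)ᵀ = tr C := by
  rw [← tr_transpose, hC]

lemma tr_CayG (C : Matrix ι ι ℝ) : tr (CayG C) = Cay (tr C) := by
  rw [Cay_eq]; exact (CayG_submatrix C (eqv ι)).symm

/-- `CayG C` is unitary for symmetric `C` -/
theorem CayG_conj_mul {C : Matrix ι ι ℝ} (hC : Cᵀ = C) : (CayG C)ᴴ * CayG C = 1 := by
  apply tr_inj
  rw [tr_mul, tr_conjTranspose, tr_CayG, tr_one]
  exact CayDet93.Cay_conj_mul _ (tr_symm hC)

theorem CayG_mem_unitary {C : Matrix ι ι ℝ} (hC : Cᵀ = C) :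
    CayG C ∈ Matrix.unitaryGroup ι ℂ :=
  Matrix.mem_unitaryGroup_iff'.mpr (CayG_conj_mul hC)

theorem norm_CayG_le {C : Matrix ι ι ℝ} (hC : Cᵀ = C) (i j : ι) : ‖CayG C i j‖ ≤ 1 :=
  entry_norm_bound_of_unitary (CayG_mem_unitary hC) i j

/-- `CayG C = 1 - 2 i (C + i)⁻¹` -/
theorem CayG_eq_one_sub {C : Matrix ι ι ℝ} (hC : Cᵀ = C) :
    CayG C = 1 - (2 * Complex.I) •
      (C.map (fun x : ℝ => (x : ℂ)) + Complex.I • (1 : Matrix ι ι ℂ))⁻¹ := by
  have hu : IsUnit (C.map (fun x : ℝ => (x : ℂ)) + Complex.I • (1 : Matrix ι ι ℂ)) := by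
    have h := CayDet93.isUnit_add_I (tr C) (tr_symm hC)
    have h2 : CayDet93.cx (tr C) + Complex.I •
        (1 : Matrix (Fin (Fintype.card ι)) (Fin (Fintype.card ι)) ℂ) =
        (C.map (fun x : ℝ => (x : ℂ)) + Complex.I • (1 : Matrix ι ι ℂ)).submatrix
          (eqv ι) (eqv ι) := by
      rw [add_smul_one]; rfl
    rw [h2] at h
    exact (Matrix.isUnit_submatrix_equiv _ _).1 h
  have h3 := Matrix.mul_nonsing_inv _ ((Matrix.isUnit_iff_isUnit_det _).1 hu)
  unfold CayG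
  have h4 : C.map (fun x : ℝ => (x : ℂ)) - Complex.I • (1 : Matrix ι ι ℂ) =
      (C.map (fun x : ℝ => (x : ℂ)) + Complex.I • (1 : Matrix ι ι ℂ)) -
        (2 * Complex.I) • (1 : Matrix ι ι ℂ) := by
    rw [two_mul, add_smul]; abel
  rw [h4, Matrix.sub_mul, h3, Matrix.smul_mul, Matrix.one_mul]

/-- `CayG C` is symmetric for symmetric `C` -/
theorem CayG_symm {C : Matrix ι ι ℝ} (hC : Cᵀ = C) : (CayG C)ᵀ = CayG C := by
  rw [CayG_eq_one_sub hC, Matrix.transpose_sub, Matrix.transpose_one, Matrix.transpose_smul,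
    Matrix.transpose_nonsing_inv, Matrix.transpose_add, Matrix.transpose_smul,
    Matrix.transpose_one]
  have : (C.map (fun x : ℝ => (x : ℂ)))ᵀ = C.map (fun x : ℝ => (x : ℂ)) := by
    rw [← Matrix.transpose_map, hC]
  rw [this]

/-- `CayG` is Lipschitz for additive symmetric perturbations (entrywise form) -/
theorem norm_CayG_sub_le {C C' : Matrix ι ι ℝ} (hC : Cᵀ = C) (hC' : C'ᵀ = C') {η : ℝ}
    (hη : ∀ i j, |C i j - C' i j| ≤ η) (i j : ι) :
    ‖CayG C i j - CayG C' i j‖ ≤ 2 * (Fintype.card ι * (Fintype.card ι * η)) := by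
  rw [apply_eq_tr (CayG C), apply_eq_tr (CayG C'), tr_CayG, tr_CayG]
  exact CayDet93.norm_Cay_sub_le _ _ (tr_symm hC) (tr_symm hC')
    (fun i j => hη (eqv ι i) (eqv ι j)) _ _

/-- closeness of `CayG (Sᵀ C S)` and `CayG C` when `S ≈ 1`, uniformly in `C` -/
theorem norm_CayG_congr_le {C S R : Matrix ι ι ℝ} (hC : Cᵀ = C) (hSR : Sᵀ * R = 1)
    {η : ℝ} (hη1 : η ≤ 1)
    (hS : ∀ i j, |S i j - (1 : Matrix ι ι ℝ) i j| ≤ η)
    (hR : ∀ i j, |S i j - R i j| ≤ η) (i j : ι) :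
    ‖CayG (Sᵀ * C * S) i j - CayG C i j‖
      ≤ 2 * ((Fintype.card ι : ℝ) * η + (Fintype.card ι : ℝ) * ((Fintype.card ι : ℝ) * 2 * η) +
        (Fintype.card ι : ℝ) * ((Fintype.card ι : ℝ) * ((Fintype.card ι : ℝ) * η) * 2)) := by
  rw [apply_eq_tr (CayG (Sᵀ * C * S)), apply_eq_tr (CayG C), tr_CayG, tr_CayG, tr_mul, tr_mul,
    tr_transpose]
  have h1 : (tr S)ᵀ * tr R = 1 := by rw [← tr_transpose, ← tr_mul, hSR, tr_one]
  refine CayDet93.norm_Cay_congr_le (tr C) (tr S) (tr R) (tr_symm hC) h1 hη1 ?_ ?_ _ _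
  · intro i j
    have h2 := hS (eqv ι i) (eqv ι j)
    have h3 : (1 : Matrix ι ι ℝ) (eqv ι i) (eqv ι j) =
        (1 : Matrix (Fin (Fintype.card ι)) (Fin (Fintype.card ι)) ℝ) i j := by
      simp only [Matrix.one_apply, (eqv ι).injective.eq_iff]
    rw [h3] at h2
    exact h2
  · intro i j
    exact hR (eqv ι i) (eqv ι j)

/-- conjugation by real orthogonal matrices -/
theorem CayG_conj {C O : Matrix ι ι ℝ} (hC : Cᵀ = C) (hO : O * Oᵀ = 1) :
    CayG (O * C * Oᵀ) = O.map (fun x : ℝ => (x : ℂ)) * CayG C *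
      (O.map (fun x : ℝ => (x : ℂ)))ᵀ := by
  apply tr_inj
  rw [tr_CayG, tr_mul, tr_mul, tr_mul, tr_mul, tr_transpose, tr_transpose, tr_CayG]
  have h1 : tr O * (tr O)ᵀ = 1 := by rw [← tr_transpose, ← tr_mul, hO, tr_one]
  rw [CayDet93.Cay_conj (tr C) (tr O) (tr_symm hC) h1]
  rfl

/-! ### uniform continuity -/

/-- a continuous function of a matrix is uniformly continuous on the matrices with entries in the
unit disc -/
theorem unif_cont {f : Matrix ι ι ℂ → ℝ} (hf : Continuous f) {ε : ℝ} (hε : 0 < ε) :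
    ∃ δ : ℝ, 0 < δ ∧ ∀ U U' : Matrix ι ι ℂ, (∀ i j, ‖U i j‖ ≤ 1) → (∀ i j, ‖U' i j‖ ≤ 1) →
      (∀ i j, ‖U i j - U' i j‖ ≤ δ) → |f U - f U'| ≤ ε := by
  classical
  let g : (ι → ι → ℂ) → ℝ := fun U => f (Matrix.of U)
  have hg : Continuous g := hf.comp (by exact continuous_id)
  let s : Set (ι → ι → ℂ) := Set.pi Set.univ fun _ => Set.pi Set.univ fun _ =>
    Metric.closedBall (0 : ℂ) 1
  have hs : IsCompact s :=
    isCompact_univ_pi fun _ => isCompact_univ_pi fun _ => isCompact_closedBall 0 1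
  have hu : UniformContinuousOn g s := hs.uniformContinuousOn_of_continuous hg.continuousOn
  rw [Metric.uniformContinuousOn_iff_le] at hu
  obtain ⟨δ, hδ, h⟩ := hu ε hε
  refine ⟨δ, hδ, fun U U' hU hU' hd => ?_⟩
  have hmem : ∀ W : Matrix ι ι ℂ, (∀ i j, ‖W i j‖ ≤ 1) → (fun i j => W i j) ∈ s := by
    intro W hW i _ j _
    simpa using hW i j
  have h2 := h (fun i j => U i j) (hmem U hU) (fun i j => U' i j) (hmem U' hU') (by
    rw [dist_pi_le_iff hδ.le]
    intro i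
    rw [dist_pi_le_iff hδ.le]
    intro j
    rw [dist_eq_norm]
    exact hd i j)
  rw [Real.dist_eq] at h2
  exact h2

/-- a continuous function is bounded on the matrices with entries in the unit disc -/
theorem exists_bound {f : Matrix ι ι ℂ → ℝ} (hf : Continuous f) :
    ∃ B : ℝ, 0 ≤ B ∧ ∀ U : Matrix ι ι ℂ, (∀ i j, ‖U i j‖ ≤ 1) → |f U| ≤ B := by
  classical
  let g : (ι → ι → ℂ) → ℝ := fun U => f (Matrix.of U)
  have hg : Continuous g := hf.comp (by exact continuous_id)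
  let s : Set (ι → ι → ℂ) := Set.pi Set.univ fun _ => Set.pi Set.univ fun _ =>
    Metric.closedBall (0 : ℂ) 1
  have hs : IsCompact s :=
    isCompact_univ_pi fun _ => isCompact_univ_pi fun _ => isCompact_closedBall 0 1
  obtain ⟨B, hB⟩ := hs.exists_bound_of_continuousOn hg.continuousOn
  refine ⟨max B 0, le_max_right _ _, fun U hU => le_trans ?_ (le_max_left _ _)⟩
  have hmem : (fun i j => U i j) ∈ s := by
    intro i _ j _
    simpa using hU i j
  exact hB _ hmem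

/-- `f ∘ CayG` is bounded on symmetric matrices -/
theorem exists_bound_CayG {f : Matrix ι ι ℂ → ℝ} (hf : Continuous f) :
    ∃ B : ℝ, 0 ≤ B ∧ ∀ C : Matrix ι ι ℝ, Cᵀ = C → |f (CayG C)| ≤ B := by
  obtain ⟨B, hB, h⟩ := exists_bound hf
  exact ⟨B, hB, fun C hC => h _ (norm_CayG_le hC)⟩

/-- `f ∘ CayG` is uniformly continuous on symmetric matrices (entrywise) -/
theorem unif_cont_CayG {f : Matrix ι ι ℂ → ℝ} (hf : Continuous f) {ε : ℝ} (hε : 0 < ε) :
    ∃ δ : ℝ, 0 < δ ∧ ∀ C C' : Matrix ι ι ℝ, Cᵀ = C → C'ᵀ = C' →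
      (∀ i j, |C i j - C' i j| ≤ δ) → |f (CayG C) - f (CayG C')| ≤ ε := by
  obtain ⟨δ, hδ, h⟩ := unif_cont hf hε
  set c : ℝ := 2 * (Fintype.card ι * Fintype.card ι) + 1 with hc
  have hc0 : 0 < c := by positivity
  refine ⟨δ / c, by positivity, fun C C' hC hC' hd => ?_⟩
  refine h _ _ (norm_CayG_le hC) (norm_CayG_le hC') fun i j => ?_
  refine (norm_CayG_sub_le hC hC' hd i j).trans ?_
  have h1 : 2 * ((Fintype.card ι : ℝ) * ((Fintype.card ι : ℝ) * (δ / c))) ≤ c * (δ / c) := by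
    have : 0 ≤ δ / c := by positivity
    nlinarith
  rwa [mul_div_cancel₀ _ hc0.ne'] at h1

/-- `f (CayG (Sᵀ C S))` is close to `f (CayG C)` uniformly in the symmetric matrix `C` when
`S` is close to `1` and to its inverse transpose `R` -/
theorem unif_cont_CayG_congr {f : Matrix ι ι ℂ → ℝ} (hf : Continuous f) {ε : ℝ} (hε : 0 < ε) :
    ∃ δ : ℝ, 0 < δ ∧ ∀ C S R : Matrix ι ι ℝ, Cᵀ = C → Sᵀ * R = 1 →
      (∀ i j, |S i j - (1 : Matrix ι ι ℝ) i j| ≤ δ) → (∀ i j, |S i j - R i j| ≤ δ) →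
      |f (CayG (Sᵀ * C * S)) - f (CayG C)| ≤ ε := by
  obtain ⟨δ, hδ, h⟩ := unif_cont hf hε
  set N : ℝ := (Fintype.card ι : ℝ) with hN
  have hN0 : 0 ≤ N := by positivity
  set c : ℝ := 2 * (N + N * (N * 2) + N * (N * N * 2)) + 1 with hc
  have hc0 : 0 < c := by positivity
  refine ⟨min 1 (δ / c), lt_min one_pos (by positivity), fun C S R hC hSR hS hR => ?_⟩
  have hCs : (Sᵀ * C * S)ᵀ = Sᵀ * C * S := by
    rw [Matrix.transpose_mul, Matrix.transpose_mul, Matrix.transpose_transpose, hC,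
      Matrix.mul_assoc]
  refine h _ _ (norm_CayG_le hCs) (norm_CayG_le hC) fun i j => ?_
  refine (norm_CayG_congr_le hC hSR (min_le_left _ _) hS hR i j).trans ?_
  have h0 : 0 ≤ min 1 (δ / c) := le_min zero_le_one (by positivity)
  have h1 : min 1 (δ / c) ≤ δ / c := min_le_right _ _
  rw [← hN]
  calc 2 * (N * min 1 (δ / c) + N * (N * 2 * min 1 (δ / c)) +
        N * (N * (N * min 1 (δ / c)) * 2))
      = (2 * (N + N * (N * 2) + N * (N * N * 2))) * min 1 (δ / c) := by ring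
    _ ≤ c * min 1 (δ / c) := by
        apply mul_le_mul_of_nonneg_right _ h0
        rw [hc]; linarith
    _ ≤ c * (δ / c) := mul_le_mul_of_nonneg_left h1 hc0.le
    _ = δ := mul_div_cancel₀ _ hc0.ne'

end Crest.Agent.R166.CayG424
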