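import Crest.Agent.R166.LimLaw_980

/-!
# Row 166, (L1) (helper831): finitely many rational characters control the law

`E` Polish, `Φ : E → T → ℝ` a closed embedding (`T` countable; e.g. `T` finite, `E = T → ℝ`,
`Φ = id`), `P` a probability measure on `E`.

* `Cls Φ M` : laws with uniformly tight coordinates (`M t k` = level at precision `1/(k+1)`).
* `tendsto_of_char` : on `Cls Φ M`, convergence of the rational characters implies weak convergence.
* `approx_bcf`, `approx_set` : deterministic approximation by finitely many characters.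
* `approx_bcf_sq`, `approx_set_sq` : the same with second moments instead of `Cls`.
* `inProb_bcf`, `inProb_set` : convergence in probability of random laws.
* `exists_limit_inProb` : existence of the limit law of random laws.
-/

set_option autoImplicit false

namespace Crest.Agent.R166.CharApprox831

open MeasureTheory Filter Topology BoundedContinuousFunction Crest.Agent.R166.LimLaw980

variable {T : Type*} {E : Type*} [TopologicalSpace E] [MeasurableSpace E]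

/-- laws whose coordinates are uniformly tight -/
def Cls (Φ : E → T → ℝ) (M : T → ℕ → ℝ) (ν : Measure E) : Prop :=
  ∀ t, ∀ k : ℕ, ν {ξ | M t k < |Φ ξ t|} ≤ ENNReal.ofReal (1 / ((k : ℝ) + 1))

/-- the rational characteristic function of `ν` -/
noncomputable def chf (Φ : E → T → ℝ) (ν : Measure E) (q : T →₀ ℚ) : ℂ :=
  ∫ ξ, Complex.exp (Complex.I * ((phase q (Φ ξ) : ℝ) : ℂ)) ∂ν

omit [TopologicalSpace E] in
theorem cls_tight {Φ : E → T → ℝ} {M : T → ℕ → ℝ} (t : T) (ε : ENNReal) (hε : 0 < ε) :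
    ∃ L : ℝ, ∀ ν : Measure E, Cls Φ M ν → ν {ξ | L < |Φ ξ t|} ≤ ε := by
  obtain ⟨k, hk⟩ : ∃ k : ℕ, ENNReal.ofReal (1 / ((k : ℝ) + 1)) ≤ ε := by
    by_cases h : ε = ⊤
    · exact ⟨0, by simp [h]⟩
    · have h1 : 0 < ε.toReal := ENNReal.toReal_pos hε.ne' h
      obtain ⟨k, hk⟩ := exists_nat_one_div_lt h1
      refine ⟨k, ?_⟩
      rw [← ENNReal.ofReal_toReal h]
      exact ENNReal.ofReal_le_ofReal hk.le
  exact ⟨M t k, fun ν hν => (hν t k).trans hk⟩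

section main

variable [BorelSpace E] [PolishSpace E] [Countable T]

/-- on `Cls Φ M`, weak convergence follows from the convergence of the rational characters -/
theorem tendsto_of_char (Φ : E → T → ℝ) (hΦ : IsClosedEmbedding Φ) {M : T → ℕ → ℝ}
    {A : Type*} (l : Filter A) (μ : A → ProbabilityMeasure E)
    (hM : ∀ a, Cls Φ M (μ a : Measure E)) (P : ProbabilityMeasure E)
    (hc : ∀ q, Tendsto (fun a => chf Φ (μ a : Measure E) q) l (𝓝 (chf Φ (P : Measure E) q))) :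
    Tendsto μ l (𝓝 P) := by
  rcases l.eq_or_neBot with hl | hl
  · simp [hl]
  obtain ⟨P', hP'⟩ := exists_limit Φ hΦ l μ
    (fun t ε hε => by
      obtain ⟨L, hL⟩ := cls_tight (Φ := Φ) (M := M) t ε hε
      exact ⟨L, fun a => hL _ (hM a)⟩) (fun q => chf Φ (P : Measure E) q) hc
  have hPP : P' = P := by
    apply ProbabilityMeasure.toMeasure_injective
    refine ext_of_ech Φ hΦ.continuous hΦ.injective fun q => ?_
    have h1 : Tendsto (fun a => ∫ ξ, ech Φ hΦ.continuous q ξ ∂(μ a : Measure E)) l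
        (𝓝 (∫ ξ, ech Φ hΦ.continuous q ξ ∂(P' : Measure E))) :=
      ((continuous_integral_bcf (ech Φ hΦ.continuous q)).tendsto P').comp hP'
    exact tendsto_nhds_unique h1 (hc q)
  rwa [← hPP]

/-- the type of laws in the class -/
abbrev ClsT (Φ : E → T → ℝ) (M : T → ℕ → ℝ) : Type _ :=
  {ν : ProbabilityMeasure E // Cls Φ M (ν : Measure E)}

theorem tendsto_of_comap (Φ : E → T → ℝ) (hΦ : IsClosedEmbedding Φ) (M : T → ℕ → ℝ)
    (P : ProbabilityMeasure E) :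
    Tendsto (fun ν : ClsT Φ M => (ν : ProbabilityMeasure E))
      (comap (fun ν : ClsT Φ M => fun q => chf Φ (ν.1 : Measure E) q)
        (𝓝 (fun q => chf Φ (P : Measure E) q))) (𝓝 P) := by
  refine tendsto_of_char Φ hΦ (M := M) _ _ (fun ν => ν.2) P fun q => ?_
  have h1 : Tendsto (fun ν : ClsT Φ M => fun q => chf Φ (ν.1 : Measure E) q)
      (comap (fun ν : ClsT Φ M => fun q => chf Φ (ν.1 : Measure E) q)
        (𝓝 (fun q => chf Φ (P : Measure E) q))) (𝓝 (fun q => chf Φ (P : Measure E) q)) :=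
    Filter.tendsto_comap
  exact (tendsto_pi_nhds.1 h1) q

/-- every neighbourhood of `P` contains the laws of the class with finitely many close
characters -/
theorem approx_nhds (Φ : E → T → ℝ) (hΦ : IsClosedEmbedding Φ) (M : T → ℕ → ℝ)
    (P : ProbabilityMeasure E) {V : Set (ProbabilityMeasure E)} (hV : V ∈ 𝓝 P) :
    ∃ (S : Finset (T →₀ ℚ)) (δ : ℝ), 0 < δ ∧ ∀ ν : ProbabilityMeasure E,
      Cls Φ M (ν : Measure E) →
      (∀ q ∈ S, ‖chf Φ (ν : Measure E) q - chf Φ (P : Measure E) q‖ ≤ δ) → ν ∈ V := by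
  have h1 := tendsto_of_comap Φ hΦ M P hV
  rw [mem_map, mem_comap] at h1
  obtain ⟨W, hW, hsub⟩ := h1
  rw [nhds_pi, Filter.mem_pi] at hW
  obtain ⟨I, hI, t, ht, hIt⟩ := hW
  choose r hr hrt using fun q => Metric.mem_nhds_iff.1 (ht q)
  obtain ⟨δ, hδ, hδr⟩ : ∃ δ : ℝ, 0 < δ ∧ ∀ q ∈ hI.toFinset, δ < r q := by
    rcases hI.toFinset.eq_empty_or_nonempty with h0 | h0
    · exact ⟨1, one_pos, by simp [h0]⟩
    · obtain ⟨q0, hq0, hmin⟩ := hI.toFinset.exists_min_image r h0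
      exact ⟨r q0 / 2, by have := hr q0; positivity, fun q hq => by
        have := hmin q hq; have := hr q0; linarith⟩
  refine ⟨hI.toFinset, δ, hδ, fun ν hν hS => ?_⟩
  have h2 : (⟨ν, hν⟩ : ClsT Φ M) ∈ (fun ν : ClsT Φ M => fun q => chf Φ (ν.1 : Measure E) q) ⁻¹' W :=
    hIt fun q hq => hrt q (by
      rw [Metric.mem_ball, dist_eq_norm]
      exact (hS q (hI.mem_toFinset.2 hq)).trans_lt (hδr q (hI.mem_toFinset.2 hq)))
  exact hsub h2

/-- **(L1) for a bounded continuous function.** -/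
theorem approx_bcf (Φ : E → T → ℝ) (hΦ : IsClosedEmbedding Φ) (M : T → ℕ → ℝ)
    (P : Measure E) [hP : IsProbabilityMeasure P] (φ : E → ℝ) (hφ : Continuous φ)
    (hb : ∃ C, ∀ ξ, |φ ξ| ≤ C) {ε : ℝ} (hε : 0 < ε) :
    ∃ (S : Finset (T →₀ ℚ)) (δ : ℝ), 0 < δ ∧ ∀ ν : Measure E, IsProbabilityMeasure ν →
      Cls Φ M ν → (∀ q ∈ S, ‖chf Φ ν q - chf Φ P q‖ ≤ δ) →
        |∫ ξ, φ ξ ∂ν - ∫ ξ, φ ξ ∂P| ≤ ε := by
  obtain ⟨C, hC⟩ := hb
  let f : E →ᵇ ℝ := BoundedContinuousFunction.ofNormedAddCommGroup φ hφ C hC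
  let P0 : ProbabilityMeasure E := ⟨P, hP⟩
  have hc : Tendsto (fun ν : ProbabilityMeasure E => ∫ ξ, f ξ ∂(ν : Measure E)) (𝓝 P0)
      (𝓝 (∫ ξ, f ξ ∂(P0 : Measure E))) :=
    ProbabilityMeasure.tendsto_iff_forall_integral_tendsto.1 tendsto_id f
  have hV := hc (Metric.closedBall_mem_nhds _ hε)
  obtain ⟨S, δ, hδ, h⟩ := approx_nhds Φ hΦ M P0 (mem_map.1 hV)
  refine ⟨S, δ, hδ, fun ν hν hcl hq => ?_⟩
  have h1 := h ⟨ν, hν⟩ hcl hq
  have h2 := Metric.mem_closedBall.1 (Set.mem_preimage.1 h1)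
  rw [Real.dist_eq] at h2
  exact h2

/-- **(L1) for a continuity set.** -/
theorem approx_set (Φ : E → T → ℝ) (hΦ : IsClosedEmbedding Φ) (M : T → ℕ → ℝ)
    (P : Measure E) [hP : IsProbabilityMeasure P] (B : Set E) (hB : P (frontier B) = 0)
    {ε : ℝ} (hε : 0 < ε) :
    ∃ (S : Finset (T →₀ ℚ)) (δ : ℝ), 0 < δ ∧ ∀ ν : Measure E, IsProbabilityMeasure ν →
      Cls Φ M ν → (∀ q ∈ S, ‖chf Φ ν q - chf Φ P q‖ ≤ δ) →
        |ν.real B - P.real B| ≤ ε := by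
  let _ := TopologicalSpace.upgradeIsCompletelyMetrizable E
  let P0 : ProbabilityMeasure E := ⟨P, hP⟩
  have hc : Tendsto (fun ν : ProbabilityMeasure E => (ν : Measure E) B) (𝓝 P0)
      (𝓝 ((P0 : Measure E) B)) :=
    ProbabilityMeasure.tendsto_measure_of_null_frontier_of_tendsto' tendsto_id hB
  have hc' : Tendsto (fun ν : ProbabilityMeasure E => (ν : Measure E).real B) (𝓝 P0)
      (𝓝 ((P0 : Measure E).real B)) :=
    (ENNReal.tendsto_toReal (measure_ne_top _ _)).comp hc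
  have hV := hc' (Metric.closedBall_mem_nhds _ hε)
  obtain ⟨S, δ, hδ, h⟩ := approx_nhds Φ hΦ M P0 (mem_map.1 hV)
  refine ⟨S, δ, hδ, fun ν hν hcl hq => ?_⟩
  have h1 := h ⟨ν, hν⟩ hcl hq
  have h2 := Metric.mem_closedBall.1 (Set.mem_preimage.1 h1)
  rw [Real.dist_eq] at h2
  exact h2

/-! ### Second moments -/

/-- the levels for the second moment bounds `C t` -/
noncomputable def sqM (C : T → ℝ) (t : T) (k : ℕ) : ℝ := Real.sqrt (max (C t) 1 * (k + 1))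

omit [BorelSpace E] [PolishSpace E] [Countable T] in
theorem cls_of_lintegral {Φ : E → T → ℝ} (C : T → ℝ) {ν : Measure E}
    (hmeas : ∀ t, Measurable fun ξ => ENNReal.ofReal ((Φ ξ t) ^ 2))
    (h : ∀ t, ∫⁻ ξ, ENNReal.ofReal ((Φ ξ t) ^ 2) ∂ν ≤ ENNReal.ofReal (C t)) :
    Cls Φ (sqM C) ν := by
  intro t k
  have hC : 0 < max (C t) 1 := lt_of_lt_of_le one_pos (le_max_right _ _)
  have hk : (0 : ℝ) < (k : ℝ) + 1 := by positivity
  have hpos : 0 < max (C t) 1 * ((k : ℝ) + 1) := by positivity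
  have hsub : {ξ | sqM C t k < |Φ ξ t|} ⊆
      {ξ | ENNReal.ofReal (max (C t) 1 * ((k : ℝ) + 1)) ≤ ENNReal.ofReal ((Φ ξ t) ^ 2)} := by
    intro ξ hξ
    have h1 : sqM C t k < |Φ ξ t| := hξ
    refine ENNReal.ofReal_le_ofReal ?_
    have h2 : sqM C t k ^ 2 ≤ |Φ ξ t| ^ 2 :=
      pow_le_pow_left₀ (Real.sqrt_nonneg _) h1.le 2
    rwa [sqM, Real.sq_sqrt hpos.le, sq_abs] at h2
  calc ν {ξ | sqM C t k < |Φ ξ t|} ≤ _ := measure_mono hsub
    _ ≤ (∫⁻ ξ, ENNReal.ofReal ((Φ ξ t) ^ 2) ∂ν) /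
        ENNReal.ofReal (max (C t) 1 * ((k : ℝ) + 1)) := by
      have hm : AEMeasurable (fun ξ => ENNReal.ofReal ((Φ ξ t) ^ 2)) ν :=
        (hmeas t).aemeasurable
      rw [ENNReal.le_div_iff_mul_le (Or.inl (by simpa using hpos))
        (Or.inl ENNReal.ofReal_ne_top), mul_comm]
      exact mul_meas_ge_le_lintegral₀ hm _
    _ ≤ ENNReal.ofReal (C t) / ENNReal.ofReal (max (C t) 1 * ((k : ℝ) + 1)) := by
      gcongr; exact h t
    _ ≤ ENNReal.ofReal (1 / ((k : ℝ) + 1)) := by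
      rw [← ENNReal.ofReal_div_of_pos hpos]
      refine ENNReal.ofReal_le_ofReal ?_
      rw [div_le_div_iff₀ hpos hk]
      have := le_max_left (C t) 1
      nlinarith

/-- (L1) for a bounded continuous function, second moments -/
theorem approx_bcf_sq (Φ : E → T → ℝ) (hΦ : IsClosedEmbedding Φ) (C : T → ℝ)
    (P : Measure E) [hP : IsProbabilityMeasure P] (φ : E → ℝ) (hφ : Continuous φ)
    (hb : ∃ C, ∀ ξ, |φ ξ| ≤ C) {ε : ℝ} (hε : 0 < ε) :
    ∃ (S : Finset (T →₀ ℚ)) (δ : ℝ), 0 < δ ∧ ∀ ν : Measure E, IsProbabilityMeasure ν →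
      (∀ t, ∫⁻ ξ, ENNReal.ofReal ((Φ ξ t) ^ 2) ∂ν ≤ ENNReal.ofReal (C t)) →
      (∀ q ∈ S, ‖chf Φ ν q - chf Φ P q‖ ≤ δ) →
        |∫ ξ, φ ξ ∂ν - ∫ ξ, φ ξ ∂P| ≤ ε := by
  obtain ⟨S, δ, hδ, h⟩ := approx_bcf Φ hΦ (sqM C) P φ hφ hb hε
  have hmeas : ∀ t, Measurable fun ξ => ENNReal.ofReal ((Φ ξ t) ^ 2) := fun t =>
    (((continuous_apply t).comp hΦ.continuous).pow 2).measurable.ennreal_ofReal
  exact ⟨S, δ, hδ, fun ν hν hC hq => h ν hν (cls_of_lintegral C hmeas hC) hq⟩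

/-- (L1) for a continuity set, second moments -/
theorem approx_set_sq (Φ : E → T → ℝ) (hΦ : IsClosedEmbedding Φ) (C : T → ℝ)
    (P : Measure E) [hP : IsProbabilityMeasure P] (B : Set E) (hB : P (frontier B) = 0)
    {ε : ℝ} (hε : 0 < ε) :
    ∃ (S : Finset (T →₀ ℚ)) (δ : ℝ), 0 < δ ∧ ∀ ν : Measure E, IsProbabilityMeasure ν →
      (∀ t, ∫⁻ ξ, ENNReal.ofReal ((Φ ξ t) ^ 2) ∂ν ≤ ENNReal.ofReal (C t)) →
      (∀ q ∈ S, ‖chf Φ ν q - chf Φ P q‖ ≤ δ) →
        |ν.real B - P.real B| ≤ ε := by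
  obtain ⟨S, δ, hδ, h⟩ := approx_set Φ hΦ (sqM C) P B hB hε
  have hmeas : ∀ t, Measurable fun ξ => ENNReal.ofReal ((Φ ξ t) ^ 2) := fun t =>
    (((continuous_apply t).comp hΦ.continuous).pow 2).measurable.ennreal_ofReal
  exact ⟨S, δ, hδ, fun ν hν hC hq => h ν hν (cls_of_lintegral C hmeas hC) hq⟩

/-- (L1) in finite dimension: `Φ = id` -/
theorem approx_set_fin {A : Type*} [Fintype A] (C : ℝ) (μ : Measure (A → ℝ))
    [IsProbabilityMeasure μ] (B : Set (A → ℝ)) (hB : μ (frontier B) = 0) {ε : ℝ} (hε : 0 < ε) :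
    ∃ (S : Finset (A →₀ ℚ)) (δ : ℝ), 0 < δ ∧ ∀ ν : Measure (A → ℝ), IsProbabilityMeasure ν →
      ∫⁻ x, ENNReal.ofReal (∑ a, (x a) ^ 2) ∂ν ≤ ENNReal.ofReal C →
      (∀ q ∈ S, ‖chf id ν q - chf id μ q‖ ≤ δ) → |ν.real B - μ.real B| ≤ ε := by
  obtain ⟨S, δ, hδ, h⟩ := approx_set_sq (id : (A → ℝ) → A → ℝ) IsClosedEmbedding.id
    (fun _ => C) μ B hB hε
  refine ⟨S, δ, hδ, fun ν hν hC hq => h ν hν (fun t => le_trans ?_ hC) hq⟩
  refine lintegral_mono fun x => ENNReal.ofReal_le_ofReal ?_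
  exact Finset.single_le_sum (f := fun a => (x a) ^ 2) (fun a _ => sq_nonneg _)
    (Finset.mem_univ t)

/-! ### Random laws -/

/-- convergence in probability of random laws: bounded continuous functions.
`gm a` = law of the randomness at the index `a`. -/
theorem inProb_bcf (Φ : E → T → ℝ) (hΦ : IsClosedEmbedding Φ) {A : Type*} {l : Filter A}
    {Ω : A → Type*} [∀ a, MeasurableSpace (Ω a)] (gm : ∀ a, Measure (Ω a))
    (ν : ∀ a, Ω a → Measure E) (hν : ∀ a ω, IsProbabilityMeasure (ν a ω))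
    (P : Measure E) [IsProbabilityMeasure P]
    (hM : ∀ ε : ℝ, 0 < ε → ∃ M : T → ℕ → ℝ, ∀ᶠ a in l,
      gm a {ω | ¬ Cls Φ M (ν a ω)} ≤ ENNReal.ofReal ε)
    (hc : ∀ q, ∀ ε : ℝ, 0 < ε → ∀ᶠ a in l,
      gm a {ω | ε < ‖chf Φ (ν a ω) q - chf Φ P q‖} ≤ ENNReal.ofReal ε)
    (φ : E → ℝ) (hφ : Continuous φ) (hb : ∃ C, ∀ ξ, |φ ξ| ≤ C) {ε : ℝ} (hε : 0 < ε) :
    ∀ᶠ a in l, gm a {ω | ε < |∫ ξ, φ ξ ∂(ν a ω) - ∫ ξ, φ ξ ∂P|} ≤ ENNReal.ofReal ε := by
  classical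
  obtain ⟨M, hM⟩ := hM (ε / 2) (by positivity)
  obtain ⟨S, δ, hδ, h⟩ := approx_bcf Φ hΦ M P φ hφ hb hε
  set ε1 : ℝ := min δ (ε / (2 * (S.card + 1))) with hε1
  have hε1p : 0 < ε1 := lt_min hδ (by positivity)
  have hev : ∀ᶠ a in l, ∀ q ∈ S,
      gm a {ω | ε1 < ‖chf Φ (ν a ω) q - chf Φ P q‖} ≤ ENNReal.ofReal ε1 := by
    rw [Filter.eventually_all_finset]
    exact fun q _ => hc q ε1 hε1p
  filter_upwards [hM, hev] with a h1 h2
  have hsub : {ω | ε < |∫ ξ, φ ξ ∂(ν a ω) - ∫ ξ, φ ξ ∂P|} ⊆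
      {ω | ¬ Cls Φ M (ν a ω)} ∪
        ⋃ q ∈ S, {ω | ε1 < ‖chf Φ (ν a ω) q - chf Φ P q‖} := by
    intro ω hω
    by_contra hcon
    simp only [Set.mem_union, Set.mem_setOf_eq, Set.mem_iUnion, not_or, not_exists, not_not,
      not_lt] at hcon
    have h3 := h (ν a ω) (hν a ω) hcon.1 fun q hq => (hcon.2 q hq).trans (min_le_left _ _)
    exact absurd hω (not_lt.2 h3)
  calc gm a {ω | ε < |∫ ξ, φ ξ ∂(ν a ω) - ∫ ξ, φ ξ ∂P|}
      ≤ gm a ({ω | ¬ Cls Φ M (ν a ω)} ∪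
        ⋃ q ∈ S, {ω | ε1 < ‖chf Φ (ν a ω) q - chf Φ P q‖}) := measure_mono hsub
    _ ≤ gm a {ω | ¬ Cls Φ M (ν a ω)} +
        gm a (⋃ q ∈ S, {ω | ε1 < ‖chf Φ (ν a ω) q - chf Φ P q‖}) := measure_union_le _ _
    _ ≤ ENNReal.ofReal (ε / 2) + ∑ q ∈ S, gm a {ω | ε1 < ‖chf Φ (ν a ω) q - chf Φ P q‖} :=
        add_le_add h1 (measure_biUnion_finset_le _ _)
    _ ≤ ENNReal.ofReal (ε / 2) + ∑ _q ∈ S, ENNReal.ofReal ε1 := by
        gcongr with q hq
        exact h2 q hq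
    _ = ENNReal.ofReal (ε / 2) + ENNReal.ofReal (S.card * ε1) := by
        rw [Finset.sum_const, nsmul_eq_mul, ENNReal.ofReal_mul (by positivity),
          ENNReal.ofReal_natCast]
    _ = ENNReal.ofReal (ε / 2 + S.card * ε1) :=
        (ENNReal.ofReal_add (by positivity) (by positivity)).symm
    _ ≤ ENNReal.ofReal ε := by
        refine ENNReal.ofReal_le_ofReal ?_
        have h3 : (S.card : ℝ) * ε1 ≤ S.card * (ε / (2 * (S.card + 1))) := by
          gcongr; exact min_le_right _ _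
        have h4 : (S.card : ℝ) * (ε / (2 * (S.card + 1))) ≤ ε / 2 := by
          rw [← mul_div_assoc, div_le_div_iff₀ (by positivity) (by positivity)]
          have : (0 : ℝ) ≤ S.card := by positivity
          nlinarith
        linarith

/-- convergence in probability of random laws: continuity sets -/
theorem inProb_set (Φ : E → T → ℝ) (hΦ : IsClosedEmbedding Φ) {A : Type*} {l : Filter A}
    {Ω : A → Type*} [∀ a, MeasurableSpace (Ω a)] (gm : ∀ a, Measure (Ω a))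
    (ν : ∀ a, Ω a → Measure E) (hν : ∀ a ω, IsProbabilityMeasure (ν a ω))
    (P : Measure E) [IsProbabilityMeasure P]
    (hM : ∀ ε : ℝ, 0 < ε → ∃ M : T → ℕ → ℝ, ∀ᶠ a in l,
      gm a {ω | ¬ Cls Φ M (ν a ω)} ≤ ENNReal.ofReal ε)
    (hc : ∀ q, ∀ ε : ℝ, 0 < ε → ∀ᶠ a in l,
      gm a {ω | ε < ‖chf Φ (ν a ω) q - chf Φ P q‖} ≤ ENNReal.ofReal ε)
    (B : Set E) (hB : P (frontier B) = 0) {ε : ℝ} (hε : 0 < ε) :
    ∀ᶠ a in l, gm a {ω | ε < |(ν a ω).real B - P.real B|} ≤ ENNReal.ofReal ε := by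
  classical
  obtain ⟨M, hM⟩ := hM (ε / 2) (by positivity)
  obtain ⟨S, δ, hδ, h⟩ := approx_set Φ hΦ M P B hB hε
  set ε1 : ℝ := min δ (ε / (2 * (S.card + 1))) with hε1
  have hε1p : 0 < ε1 := lt_min hδ (by positivity)
  have hev : ∀ᶠ a in l, ∀ q ∈ S,
      gm a {ω | ε1 < ‖chf Φ (ν a ω) q - chf Φ P q‖} ≤ ENNReal.ofReal ε1 := by
    rw [Filter.eventually_all_finset]
    exact fun q _ => hc q ε1 hε1p
  filter_upwards [hM, hev] with a h1 h2
  have hsub : {ω | ε < |(ν a ω).real B - P.real B|} ⊆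
      {ω | ¬ Cls Φ M (ν a ω)} ∪
        ⋃ q ∈ S, {ω | ε1 < ‖chf Φ (ν a ω) q - chf Φ P q‖} := by
    intro ω hω
    by_contra hcon
    simp only [Set.mem_union, Set.mem_setOf_eq, Set.mem_iUnion, not_or, not_exists, not_not,
      not_lt] at hcon
    have h3 := h (ν a ω) (hν a ω) hcon.1 fun q hq => (hcon.2 q hq).trans (min_le_left _ _)
    exact absurd hω (not_lt.2 h3)
  calc gm a {ω | ε < |(ν a ω).real B - P.real B|}
      ≤ gm a ({ω | ¬ Cls Φ M (ν a ω)} ∪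
        ⋃ q ∈ S, {ω | ε1 < ‖chf Φ (ν a ω) q - chf Φ P q‖}) := measure_mono hsub
    _ ≤ gm a {ω | ¬ Cls Φ M (ν a ω)} +
        gm a (⋃ q ∈ S, {ω | ε1 < ‖chf Φ (ν a ω) q - chf Φ P q‖}) := measure_union_le _ _
    _ ≤ ENNReal.ofReal (ε / 2) + ∑ q ∈ S, gm a {ω | ε1 < ‖chf Φ (ν a ω) q - chf Φ P q‖} :=
        add_le_add h1 (measure_biUnion_finset_le _ _)
    _ ≤ ENNReal.ofReal (ε / 2) + ∑ _q ∈ S, ENNReal.ofReal ε1 := by
        gcongr with q hq
        exact h2 q hq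
    _ = ENNReal.ofReal (ε / 2) + ENNReal.ofReal (S.card * ε1) := by
        rw [Finset.sum_const, nsmul_eq_mul, ENNReal.ofReal_mul (by positivity),
          ENNReal.ofReal_natCast]
    _ = ENNReal.ofReal (ε / 2 + S.card * ε1) :=
        (ENNReal.ofReal_add (by positivity) (by positivity)).symm
    _ ≤ ENNReal.ofReal ε := by
        refine ENNReal.ofReal_le_ofReal ?_
        have h3 : (S.card : ℝ) * ε1 ≤ S.card * (ε / (2 * (S.card + 1))) := by
          gcongr; exact min_le_right _ _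
        have h4 : (S.card : ℝ) * (ε / (2 * (S.card + 1))) ≤ ε / 2 := by
          rw [← mul_div_assoc, div_le_div_iff₀ (by positivity) (by positivity)]
          have : (0 : ℝ) ≤ S.card := by positivity
          nlinarith
        linarith

end main

end Crest.Agent.R166.CharApprox831
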