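import Crest.Agent.R166.GDens_793

/-!
Row 166, section 40.10 (helper47): conditional characteristic functions in integrated form.

`CharId Q P x U v` : `E_Q[φ(x) exp(i U)] = E_P[φ exp(-v/2)]` for all bounded measurable `φ`
(so `P` is the law of `x` under `Q` and `exp(-v(x)/2)` is the conditional characteristic function
of `U` given `x`).
-/

set_option autoImplicit false

noncomputable section

namespace Crest.Agent.R166.CharId47

open MeasureTheory Filter Topology

section defs

variable {Ω B : Type*} {mΩ : MeasurableSpace Ω} [MeasurableSpace B]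

/-- integrated form of the conditional characteristic function -/
def CharId (Q : Measure Ω) (P : Measure B) (x : Ω → B) (U : Ω → ℝ) (v : B → ℝ) : Prop :=
  ∀ φ : B → ℝ, Measurable φ → (∀ y, |φ y| ≤ 1) →
    (∫ ω, φ (x ω) * Real.cos (U ω) ∂Q = ∫ y, φ y * Real.exp (-v y / 2) ∂P) ∧
    ∫ ω, φ (x ω) * Real.sin (U ω) ∂Q = 0

variable {Q : Measure Ω} {P : Measure B} [IsProbabilityMeasure Q] [IsProbabilityMeasure P]
  {x : Ω → B} {U : Ω → ℝ} {v : B → ℝ}

theorem abs_mul_le_one {a b : ℝ} (ha : |a| ≤ 1) (hb : |b| ≤ 1) : |a * b| ≤ 1 := by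
  rw [abs_mul]; exact mul_le_one₀ ha (abs_nonneg _) hb

theorem int_bdd [IsFiniteMeasure Q] {f : Ω → ℝ} (hf : Measurable f) {C : ℝ}
    (hb : ∀ ω, |f ω| ≤ C) : Integrable f Q :=
  Integrable.of_bound hf.aestronglyMeasurable C (ae_of_all _ fun ω => by
    rw [Real.norm_eq_abs]; exact hb ω)

theorem abs_exp_neg_le_one {t : ℝ} (ht : 0 ≤ t) : |Real.exp (-t / 2)| ≤ 1 := by
  rw [Real.abs_exp, Real.exp_le_one_iff]
  linarith

/-- the complex form -/
theorem charId_iff_complex (hx : Measurable x) (hU : Measurable U) (hv : Measurable v)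
    (hv0 : ∀ y, 0 ≤ v y) : CharId Q P x U v ↔
    ∀ φ : B → ℝ, Measurable φ → (∀ y, |φ y| ≤ 1) →
      ∫ ω, (φ (x ω) : ℂ) * Complex.exp ((U ω : ℝ) * Complex.I) ∂Q =
        ((∫ y, φ y * Real.exp (-v y / 2) ∂P : ℝ) : ℂ) := by
  unfold CharId
  refine forall_congr' fun φ => forall_congr' fun hφ => forall_congr' fun hb => ?_
  have i1 : Integrable (fun ω => φ (x ω) * Real.cos (U ω)) Q :=
    int_bdd ((hφ.comp hx).mul (Real.measurable_cos.comp hU)) fun ω =>
      abs_mul_le_one (hb _) (Real.abs_cos_le_one _)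
  have i2 : Integrable (fun ω => φ (x ω) * Real.sin (U ω)) Q :=
    int_bdd ((hφ.comp hx).mul (Real.measurable_sin.comp hU)) fun ω =>
      abs_mul_le_one (hb _) (Real.abs_sin_le_one _)
  have e : ∫ ω, (φ (x ω) : ℂ) * Complex.exp ((U ω : ℝ) * Complex.I) ∂Q =
      ((∫ ω, φ (x ω) * Real.cos (U ω) ∂Q : ℝ) : ℂ) +
        ((∫ ω, φ (x ω) * Real.sin (U ω) ∂Q : ℝ) : ℂ) * Complex.I := by
    have e1 : ∫ ω, ((φ (x ω) * Real.cos (U ω) : ℝ) : ℂ) ∂Q =
        ((∫ ω, φ (x ω) * Real.cos (U ω) ∂Q : ℝ) : ℂ) := integral_ofReal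
    have e2 : ∫ ω, ((φ (x ω) * Real.sin (U ω) : ℝ) : ℂ) ∂Q =
        ((∫ ω, φ (x ω) * Real.sin (U ω) ∂Q : ℝ) : ℂ) := integral_ofReal
    rw [← e1, ← e2, ← integral_mul_const, ← integral_add i1.ofReal (i2.ofReal.mul_const _)]
    refine integral_congr_ae (ae_of_all _ fun ω => ?_)
    simp only
    rw [Complex.exp_mul_I]
    push_cast
    ring
  rw [e]
  constructor
  · rintro ⟨h1, h2⟩
    rw [h1, h2]; simp
  · intro h
    have h1 := congrArg Complex.re h
    have h2 := congrArg Complex.im h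
    simp only [Complex.add_re, Complex.ofReal_re, Complex.mul_re, Complex.I_re, mul_zero,
      Complex.ofReal_im, Complex.I_im, mul_one, sub_self, add_zero] at h1
    simp only [Complex.add_im, Complex.ofReal_im, Complex.mul_im, Complex.ofReal_re,
      Complex.I_im, mul_one, Complex.I_re, mul_zero, add_zero, zero_add] at h2
    exact ⟨h1, h2⟩

/-- two real weights with the same bounded continuous moments have the same bounded measurable
moments -/
theorem ext_weight [TopologicalSpace B] [BorelSpace B] [HasOuterApproxClosed B]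
    (hx : Measurable x) {a : Ω → ℝ} {c : B → ℝ} (ha : Measurable a) (hc : Measurable c)
    (ha0 : ∀ ω, 0 ≤ a ω) (hc0 : ∀ y, 0 ≤ c y) {M : ℝ} (haM : ∀ ω, |a ω| ≤ M)
    (hcM : ∀ y, |c y| ≤ M)
    (h : ∀ φ : B → ℝ, Continuous φ → (∀ y, |φ y| ≤ 1) →
      ∫ ω, φ (x ω) * a ω ∂Q = ∫ y, φ y * c y ∂P)
    {φ : B → ℝ} (hφ : Measurable φ) : ∫ ω, φ (x ω) * a ω ∂Q = ∫ y, φ y * c y ∂P := by
  have iaQ : Integrable a Q := int_bdd ha haM
  have icP : Integrable c P := int_bdd hc hcM
  have f1 : IsFiniteMeasure (Q.withDensity fun ω => ENNReal.ofReal (a ω)) :=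
    isFiniteMeasure_withDensity_ofReal iaQ.2
  have f2 : IsFiniteMeasure (P.withDensity fun y => ENNReal.ofReal (c y)) :=
    isFiniteMeasure_withDensity_ofReal icP.2
  have k1 : ∀ ψ : B → ℝ, Measurable ψ →
      ∫ y, ψ y ∂((Q.withDensity fun ω => ENNReal.ofReal (a ω)).map x) =
        ∫ ω, ψ (x ω) * a ω ∂Q := by
    intro ψ hψ
    rw [integral_map hx.aemeasurable hψ.aestronglyMeasurable,
      Lim793.integral_withDensity_ofReal' Q iaQ ha]
    refine integral_congr_ae (ae_of_all _ fun ω => ?_)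
    simp only
    rw [max_eq_left (ha0 ω), mul_comm]
  have k2 : ∀ ψ : B → ℝ, Measurable ψ →
      ∫ y, ψ y ∂(P.withDensity fun y => ENNReal.ofReal (c y)) = ∫ y, ψ y * c y ∂P := by
    intro ψ hψ
    rw [Lim793.integral_withDensity_ofReal' P icP hc]
    refine integral_congr_ae (ae_of_all _ fun y => ?_)
    simp only
    rw [max_eq_left (hc0 y), mul_comm]
  have hmeas : (Q.withDensity fun ω => ENNReal.ofReal (a ω)).map x =
      P.withDensity fun y => ENNReal.ofReal (c y) := by
    refine ext_of_forall_integral_eq_of_IsFiniteMeasure fun ψ => ?_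
    rw [k1 ψ ψ.continuous.measurable, k2 ψ ψ.continuous.measurable]
    set C : ℝ := ‖ψ‖ + 1 with hC
    have hCpos : 0 < C := by positivity
    have h1 := h (fun y => ψ y / C) (ψ.continuous.div_const _) fun y => by
      rw [abs_div, abs_of_pos hCpos, div_le_one hCpos]
      have := ψ.norm_coe_le_norm y
      rw [Real.norm_eq_abs] at this
      linarith
    have e1 : ∀ ω, ψ (x ω) / C * a ω = (ψ (x ω) * a ω) / C := fun ω => by ring
    have e2 : ∀ y, ψ y / C * c y = (ψ y * c y) / C := fun y => by ring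
    simp only [e1, e2, integral_div] at h1
    field_simp at h1
    exact h1
  rw [← k1 φ hφ, ← k2 φ hφ, hmeas]

/-- it is enough to test with bounded continuous functions -/
theorem charId_of_continuous [TopologicalSpace B] [BorelSpace B] [HasOuterApproxClosed B]
    (hx : Measurable x) (hU : Measurable U) (hv : Measurable v) (hv0 : ∀ y, 0 ≤ v y)
    (hmap : ∀ φ : B → ℝ, Continuous φ → (∀ y, |φ y| ≤ 1) → ∫ ω, φ (x ω) ∂Q = ∫ y, φ y ∂P)
    (hcos : ∀ φ : B → ℝ, Continuous φ → (∀ y, |φ y| ≤ 1) →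
      ∫ ω, φ (x ω) * Real.cos (U ω) ∂Q = ∫ y, φ y * Real.exp (-v y / 2) ∂P)
    (hsin : ∀ φ : B → ℝ, Continuous φ → (∀ y, |φ y| ≤ 1) →
      ∫ ω, φ (x ω) * Real.sin (U ω) ∂Q = 0) : CharId Q P x U v := by
  intro φ hφ hb
  have hmc := Real.measurable_cos.comp hU
  have hms := Real.measurable_sin.comp hU
  have hme : Measurable fun y => Real.exp (-v y / 2) := (hv.neg.div_const 2).exp
  have ic : ∀ {ψ : B → ℝ}, Measurable ψ → (∀ y, |ψ y| ≤ 1) →
      Integrable (fun ω => ψ (x ω) * Real.cos (U ω)) Q := fun hψ hψb =>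
    int_bdd ((hψ.comp hx).mul hmc) fun ω => abs_mul_le_one (hψb _) (Real.abs_cos_le_one _)
  have is : ∀ {ψ : B → ℝ}, Measurable ψ → (∀ y, |ψ y| ≤ 1) →
      Integrable (fun ω => ψ (x ω) * Real.sin (U ω)) Q := fun hψ hψb =>
    int_bdd ((hψ.comp hx).mul hms) fun ω => abs_mul_le_one (hψb _) (Real.abs_sin_le_one _)
  have i0 : ∀ {ψ : B → ℝ}, Measurable ψ → (∀ y, |ψ y| ≤ 1) →
      Integrable (fun ω => ψ (x ω)) Q := fun hψ hψb =>
    int_bdd (hψ.comp hx) fun ω => hψb _
  have i1 : ∀ {ψ : B → ℝ}, Measurable ψ → (∀ y, |ψ y| ≤ 1) →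
      Integrable (fun y => ψ y) P := fun hψ hψb => int_bdd hψ hψb
  have ie : ∀ {ψ : B → ℝ}, Measurable ψ → (∀ y, |ψ y| ≤ 1) →
      Integrable (fun y => ψ y * Real.exp (-v y / 2)) P := fun hψ hψb =>
    int_bdd (hψ.mul hme) fun y => abs_mul_le_one (hψb _) (abs_exp_neg_le_one (hv0 y))
  -- the law of `x`
  have h0 : ∫ ω, φ (x ω) ∂Q = ∫ y, φ y ∂P := by
    have := ext_weight (Q := Q) (P := P) hx (a := fun _ => 1) (c := fun _ => 1)
      measurable_const measurable_const (fun _ => zero_le_one) (fun _ => zero_le_one) (M := 1)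
      (fun _ => by simp) (fun _ => by simp) (fun ψ hψ hψb => by simpa using hmap ψ hψ hψb) hφ
    simpa using this
  have h1 := ext_weight (Q := Q) (P := P) hx (a := fun ω => 1 + Real.cos (U ω))
    (c := fun y => 1 + Real.exp (-v y / 2)) (measurable_const.add hmc)
    (measurable_const.add hme) (fun ω => by linarith [Real.neg_one_le_cos (U ω)])
    (fun y => by positivity) (M := 2)
    (fun ω => (abs_add_le _ _).trans (by rw [abs_one]; linarith [Real.abs_cos_le_one (U ω)]))
    (fun y => (abs_add_le _ _).trans (by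
      rw [abs_one]; linarith [abs_exp_neg_le_one (hv0 y)]))
    (fun ψ hψ hψb => by
      simp only [mul_add, mul_one]
      rw [integral_add (i0 hψ.measurable hψb) (ic hψ.measurable hψb),
        integral_add (i1 hψ.measurable hψb) (ie hψ.measurable hψb), hmap ψ hψ hψb,
        hcos ψ hψ hψb]) hφ
  have h2 := ext_weight (Q := Q) (P := P) hx (a := fun ω => 1 + Real.sin (U ω))
    (c := fun y => 1) (measurable_const.add hms)
    measurable_const (fun ω => by linarith [Real.neg_one_le_sin (U ω)])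
    (fun y => by positivity) (M := 2)
    (fun ω => (abs_add_le _ _).trans (by rw [abs_one]; linarith [Real.abs_sin_le_one (U ω)]))
    (fun y => by rw [abs_one]; norm_num)
    (fun ψ hψ hψb => by
      simp only [mul_add, mul_one]
      rw [integral_add (i0 hψ.measurable hψb) (is hψ.measurable hψb), hmap ψ hψ hψb,
        hsin ψ hψ hψb, add_zero]) hφ
  simp only [mul_add, mul_one] at h1 h2
  rw [integral_add (i0 hφ hb) (ic hφ hb), integral_add (i1 hφ hb) (ie hφ hb), h0] at h1
  rw [integral_add (i0 hφ hb) (is hφ hb), h0] at h2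
  exact ⟨by linarith, by linarith⟩

end defs

end Crest.Agent.R166.CharId47
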