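import Mathlib

/-!
# R166, 30.7/30.8: quenched inequality and multiscale induction, abstract finite form (helper383)

`Gr` is a finite set of states (graphs / simple pairings) with `ω` FIXED; `V η G`, `gV η G` are
`V_G` and `E[D̃² | G]` at the scale `η`, `μ`, `gμ` the truncated means; `κ = 1/(nη)`.
-/

set_option autoImplicit false

open Finset

namespace Crest.Agent.R166.Multi383

variable {Γ : Type*}

/-- hypotheses at one scale (`κ = 1/(nη)`); `err G` is a scale-independent error (number of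
non-tree-like centres divided by `n`), `0 ≤ err`. -/
structure Step (Gr : Finset Γ) (V gV : Γ → ℝ) (μ gμ : Γ → ℂ) (err : Γ → ℝ) (a : ℂ)
    (C c θ κ s : ℝ) : Prop where
  nonneg : ∀ G ∈ Gr, 0 ≤ V G
  one : ∀ G ∈ Gr, gV G ≤ θ * V G + C * (‖μ G‖ ^ 2 + V G ^ 2 + (κ + err G) + s ^ 2)
  mean : ∀ G ∈ Gr, ‖gμ G - a * μ G‖ ≤ C * (V G + |s| + Real.sqrt (κ + err G))
  res : c ≤ ‖1 - a‖
  sm1 : ∑ G ∈ Gr, (V G - gV G) ^ 2 ≤ C * κ * Gr.card
  sm2 : ∑ G ∈ Gr, ‖μ G - gμ G‖ ^ 2 ≤ C * κ * Gr.card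

/-- the constant `A = C + 4 C³/c²`; `C1 = 2 A` -/
noncomputable def cA (C c : ℝ) : ℝ := C + 4 * C ^ 3 / c ^ 2

/-- the constant `B = 4 C/c²` -/
noncomputable def cB (C c : ℝ) : ℝ := 4 * C / c ^ 2

lemma cA_pos {C c : ℝ} (hC : 0 < C) (hc : 0 < c) : 0 < cA C c := by unfold cA; positivity

lemma cB_pos {C c : ℝ} (hC : 0 < C) (hc : 0 < c) : 0 < cB C c := by unfold cB; positivity

/-- bound of the mean by the non-resonance condition -/
lemma Step.mean_sq {Gr : Finset Γ} {V gV : Γ → ℝ} {μ gμ : Γ → ℂ} {err : Γ → ℝ} {a : ℂ}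
    {C c θ κ s : ℝ} (h : Step Gr V gV μ gμ err a C c θ κ s) (hc : 0 < c)
    {G : Γ} (hκ : 0 ≤ κ + err G) (hG : G ∈ Gr) :
    ‖μ G‖ ^ 2 ≤ 4 / c ^ 2 * (‖μ G - gμ G‖ ^ 2 + C ^ 2 * (V G ^ 2 + s ^ 2 + (κ + err G))) := by
  have h1 : c * ‖μ G‖ ≤ ‖μ G - gμ G‖ + C * (V G + |s| + Real.sqrt (κ + err G)) := by
    have e : (1 - a) * μ G = (μ G - gμ G) + (gμ G - a * μ G) := by ring
    calc c * ‖μ G‖ ≤ ‖1 - a‖ * ‖μ G‖ := by
          exact mul_le_mul_of_nonneg_right h.res (norm_nonneg _)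
      _ = ‖(1 - a) * μ G‖ := (norm_mul _ _).symm
      _ ≤ ‖μ G - gμ G‖ + ‖gμ G - a * μ G‖ := by rw [e]; exact norm_add_le _ _
      _ ≤ _ := by linarith [h.mean G hG]
  have h0 : 0 ≤ c * ‖μ G‖ := by positivity
  have h2 : (c * ‖μ G‖) ^ 2 ≤ (‖μ G - gμ G‖ + C * (V G + |s| + Real.sqrt (κ + err G))) ^ 2 :=
    pow_le_pow_left₀ h0 h1 2
  have hs : |s| ^ 2 = s ^ 2 := sq_abs s
  have hk : Real.sqrt (κ + err G) ^ 2 = κ + err G := Real.sq_sqrt hκ
  have h3 : (‖μ G - gμ G‖ + C * (V G + |s| + Real.sqrt (κ + err G))) ^ 2 ≤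
      4 * (‖μ G - gμ G‖ ^ 2 + C ^ 2 * (V G ^ 2 + s ^ 2 + (κ + err G))) := by
    have key : ∀ x y z w : ℝ, (x + (y + z + w)) ^ 2 ≤ 4 * (x ^ 2 + (y ^ 2 + z ^ 2 + w ^ 2)) := by
      intro x y z w
      nlinarith [sq_nonneg (x - y), sq_nonneg (x - z), sq_nonneg (x - w), sq_nonneg (y - z),
        sq_nonneg (y - w), sq_nonneg (z - w)]
    have := key ‖μ G - gμ G‖ (C * V G) (C * |s|) (C * Real.sqrt (κ + err G))
    have e1 : C * (V G + |s| + Real.sqrt (κ + err G)) = C * V G + C * |s| + C * Real.sqrt (κ + err G) := by ring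
    rw [e1]
    refine this.trans (le_of_eq ?_)
    rw [mul_pow, mul_pow, mul_pow, hs, hk]; ring
  have h4 : c ^ 2 * ‖μ G‖ ^ 2 ≤ 4 * (‖μ G - gμ G‖ ^ 2 + C ^ 2 * (V G ^ 2 + s ^ 2 + (κ + err G))) := by
    rw [← mul_pow]; exact h2.trans h3
  have hc2 : 0 < c ^ 2 := by positivity
  rw [div_mul_eq_mul_div, le_div_iff₀ hc2]
  linarith

/-- the quenched inequality (30.7) -/
theorem Step.quenched {Gr : Finset Γ} {V gV : Γ → ℝ} {μ gμ : Γ → ℂ} {err : Γ → ℝ} {a : ℂ}
    {C c θ κ s v0 : ℝ} (h : Step Gr V gV μ gμ err a C c θ κ s) (hC : 0 < C) (hc : 0 < c)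
    (hθ : θ ≤ 1 / 4) (hv0 : cA C c * v0 ≤ 1 / 4) {G : Γ} (hκ : 0 ≤ κ + err G) (hG : G ∈ Gr) (hV : V G ≤ v0) :
    V G ≤ 2 * cA C c * (s ^ 2 + (κ + err G)) + 2 * cB C c * ‖μ G - gμ G‖ ^ 2 + 2 * |V G - gV G| := by
  have h0 := h.nonneg G hG
  have h1 := h.one G hG
  have h2 := h.mean_sq hc hκ hG
  have h3 : V G ≤ gV G + |V G - gV G| := by linarith [le_abs_self (V G - gV G)]
  have h4 : C * ‖μ G‖ ^ 2 ≤ C * (4 / c ^ 2 * (‖μ G - gμ G‖ ^ 2 + C ^ 2 * (V G ^ 2 + s ^ 2 + (κ + err G)))) :=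
    mul_le_mul_of_nonneg_left h2 hC.le
  have h5 : C * (4 / c ^ 2 * (‖μ G - gμ G‖ ^ 2 + C ^ 2 * (V G ^ 2 + s ^ 2 + (κ + err G)))) =
      cB C c * ‖μ G - gμ G‖ ^ 2 + (4 * C ^ 3 / c ^ 2) * (V G ^ 2 + s ^ 2 + (κ + err G)) := by
    unfold cB; ring
  have h6 : V G ≤ θ * V G + cB C c * ‖μ G - gμ G‖ ^ 2 + cA C c * (V G ^ 2 + s ^ 2 + (κ + err G)) +
      |V G - gV G| := by
    have : cA C c * (V G ^ 2 + s ^ 2 + (κ + err G)) = C * (V G ^ 2 + (κ + err G) + s ^ 2) +
      (4 * C ^ 3 / c ^ 2) * (V G ^ 2 + s ^ 2 + (κ + err G)) := by unfold cA; ring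
    rw [this]
    nlinarith [h1, h3, h4, h5]
  have h7 : cA C c * V G ^ 2 ≤ 1 / 4 * V G := by
    have hA := (cA_pos hC hc).le
    calc cA C c * V G ^ 2 = (cA C c * V G) * V G := by ring
      _ ≤ (cA C c * v0) * V G := by
          exact mul_le_mul_of_nonneg_right (mul_le_mul_of_nonneg_left hV hA) h0
      _ ≤ 1 / 4 * V G := mul_le_mul_of_nonneg_right hv0 h0
  have h8 : θ * V G ≤ 1 / 4 * V G := mul_le_mul_of_nonneg_right hθ h0
  nlinarith [h6, h7, h8]

/-- finite Markov inequality -/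
lemma markov_card (Gr : Finset Γ) (f : Γ → ℝ) (hf : ∀ G ∈ Gr, 0 ≤ f G) {t M : ℝ} (ht : 0 < t)
    (hM : ∑ G ∈ Gr, f G ≤ M) (P : Γ → Prop) [DecidablePred P] (hP : ∀ G ∈ Gr, P G → t ≤ f G) :
    ((Gr.filter P).card : ℝ) ≤ M / t := by
  rw [le_div_iff₀ ht]
  calc ((Gr.filter P).card : ℝ) * t = ∑ G ∈ Gr.filter P, t := by
        rw [Finset.sum_const, nsmul_eq_mul]
    _ ≤ ∑ G ∈ Gr.filter P, f G := Finset.sum_le_sum fun G hG => by
        rw [Finset.mem_filter] at hG
        exact hP G hG.1 hG.2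
    _ ≤ ∑ G ∈ Gr, f G := Finset.sum_le_sum_of_subset_of_nonneg (Finset.filter_subset _ _)
        fun G hG _ => hf G hG
    _ ≤ M := hM

/-- the constant in the one-scale probability bound -/
noncomputable def cD (C c δ : ℝ) : ℝ := (6 * cB C c / δ + 36 / δ ^ 2) * C

lemma cD_nonneg {C c δ : ℝ} (hC : 0 < C) (hc : 0 < c) (hδ : 0 < δ) : 0 ≤ cD C c δ := by
  have := cB_pos hC hc
  unfold cD; positivity

/-- (30.7) probability that `V` lies in the forbidden interval at one scale -/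
theorem Step.card_bad {Gr : Finset Γ} {V gV : Γ → ℝ} {μ gμ : Γ → ℂ} {err : Γ → ℝ} {a : ℂ}
    {C c θ κ s v0 δ : ℝ}
    (h : Step Gr V gV μ gμ err a C c θ κ s) (hC : 0 < C) (hc : 0 < c) (hθ : θ ≤ 1 / 4)
    (hκ : 0 ≤ κ) (herr : ∀ G ∈ Gr, 0 ≤ err G)
    (hv0 : cA C c * v0 ≤ 1 / 4) (hδ : 0 < δ) (hκδ : 12 * cA C c * κ ≤ δ)
    [DecidablePred fun G => 12 * cA C c * err G ≤ δ ∧ 2 * cA C c * s ^ 2 + δ < V G ∧ V G ≤ v0] :
    ((Gr.filter fun G => 12 * cA C c * err G ≤ δ ∧
      2 * cA C c * s ^ 2 + δ < V G ∧ V G ≤ v0).card : ℝ) ≤ cD C c δ * κ * Gr.card := by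
  classical
  have hB := cB_pos hC hc
  have hsub : (Gr.filter fun G => 12 * cA C c * err G ≤ δ ∧
      2 * cA C c * s ^ 2 + δ < V G ∧ V G ≤ v0) ⊆
      (Gr.filter fun G => δ / (6 * cB C c) ≤ ‖μ G - gμ G‖ ^ 2) ∪
        (Gr.filter fun G => δ ^ 2 / 36 ≤ (V G - gV G) ^ 2) := by
    intro G hG
    rw [Finset.mem_filter] at hG
    obtain ⟨hG, h3, h1, h2⟩ := hG
    have hq := h.quenched hC hc hθ hv0 (by linarith [herr G hG]) hG h2
    rw [Finset.mem_union, Finset.mem_filter, Finset.mem_filter]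
    by_contra hcon
    push Not at hcon
    have c1 := hcon.1 hG
    have c2 := hcon.2 hG
    have c1' : 2 * cB C c * ‖μ G - gμ G‖ ^ 2 < δ / 3 := by
      rw [lt_div_iff₀ (by positivity)] at c1
      linarith
    have c2' : |V G - gV G| < δ / 6 := by
      apply abs_lt_of_sq_lt_sq _ (by positivity)
      calc (V G - gV G) ^ 2 < δ ^ 2 / 36 := c2
        _ = (δ / 6) ^ 2 := by ring
    nlinarith
  calc ((Gr.filter fun G => 12 * cA C c * err G ≤ δ ∧
      2 * cA C c * s ^ 2 + δ < V G ∧ V G ≤ v0).card : ℝ)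
      ≤ (((Gr.filter fun G => δ / (6 * cB C c) ≤ ‖μ G - gμ G‖ ^ 2) ∪
        (Gr.filter fun G => δ ^ 2 / 36 ≤ (V G - gV G) ^ 2)).card : ℝ) := by
          exact_mod_cast Finset.card_le_card hsub
    _ ≤ ((Gr.filter fun G => δ / (6 * cB C c) ≤ ‖μ G - gμ G‖ ^ 2).card : ℝ) +
        ((Gr.filter fun G => δ ^ 2 / 36 ≤ (V G - gV G) ^ 2).card : ℝ) := by
          exact_mod_cast Finset.card_union_le _ _
    _ ≤ (C * κ * Gr.card) / (δ / (6 * cB C c)) + (C * κ * Gr.card) / (δ ^ 2 / 36) := by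
          refine add_le_add ?_ ?_
          · exact markov_card Gr (fun G => ‖μ G - gμ G‖ ^ 2) (fun _ _ => by positivity)
              (by positivity) h.sm2 _ (fun _ _ hP => hP)
          · exact markov_card Gr (fun G => (V G - gV G) ^ 2) (fun _ _ => by positivity)
              (by positivity) h.sm1 _ (fun _ _ hP => hP)
    _ = cD C c δ * κ * Gr.card := by
          unfold cD
          field_simp

/-- (30.8) multiscale induction: THEOREM A in abstract form. -/
theorem multiscale (Gr : Finset Γ) (n C0 : ℝ) (V gV : ℝ → Γ → ℝ) (μ gμ : ℝ → Γ → ℂ) (err : Γ → ℝ)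
    (a : ℝ → ℂ) {C c θ s v0 δ Ce : ℝ} (hn : 0 < n) (hC0 : 0 < C0) (hC : 0 < C) (hc : 0 < c) (hθ : θ ≤ 1 / 4)
    (hstep : ∀ η, 0 < η → η ≤ C0 →
      Step Gr (V η) (gV η) (μ η) (gμ η) err (a η) C c θ (1 / (n * η)) s)
    (herr : ∀ G ∈ Gr, 0 ≤ err G) (hsum : ∑ G ∈ Gr, err G ≤ Ce * Gr.card)
    (hlip : ∀ G ∈ Gr, ∀ η η', 0 < η → η ≤ η' → η' ≤ 2 * η → η' ≤ C0 →
      V η G ≤ V η' G + C * (η' / η - 1))
    (htop : ∀ G ∈ Gr, 12 * cA C c * err G ≤ δ → V C0 G ≤ v0)
    (hv0 : cA C c * v0 ≤ 1 / 4) (hδ : 0 < δ) (hδv : 2 * cA C c * s ^ 2 + 2 * δ ≤ v0)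
    {K : ℝ} (hK : 0 < K) (hKδ : 12 * cA C c ≤ δ * K)
    [DecidablePred fun G => ∃ η, K / n ≤ η ∧ η ≤ C0 ∧ 2 * cA C c * s ^ 2 + 2 * δ < V η G] :
    ((Gr.filter fun G => ∃ η, K / n ≤ η ∧ η ≤ C0 ∧
        2 * cA C c * s ^ 2 + 2 * δ < V η G).card : ℝ) ≤
      (cD C c δ * (1 + min 1 (δ / C)) / min 1 (δ / C)) / K * Gr.card +
        12 * cA C c * Ce / δ * Gr.card := by
  classical
  have hApos : 0 < cA C c := cA_pos hC hc
  set ε : ℝ := min 1 (δ / C) with hε
  have hε0 : 0 < ε := lt_min one_pos (by positivity)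
  have hε1 : ε ≤ 1 := min_le_left _ _
  have hεC : C * ε ≤ δ := by
    have : ε ≤ δ / C := min_le_right _ _
    rw [le_div_iff₀ hC] at this
    linarith
  set q : ℝ := 1 + ε with hq
  have hq1 : 1 < q := by linarith
  have hq0 : 0 < q := by linarith
  have hq2 : q ≤ 2 := by linarith
  -- the grid
  set e : ℕ → ℝ := fun j => C0 / q ^ j with he
  have hepos : ∀ j, 0 < e j := fun j => by simp only [he]; positivity
  have hele : ∀ j, e j ≤ C0 := fun j => by
    simp only [he]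
    exact div_le_self hC0.le (one_le_pow₀ hq1.le)
  have hesucc : ∀ j, e j = q * e (j + 1) := fun j => by
    simp only [he]; rw [pow_succ]; field_simp
  -- the bad events
  let Bad : ℕ → Finset Γ := fun j =>
    Gr.filter fun G => 12 * cA C c * err G ≤ δ ∧
      2 * cA C c * s ^ 2 + δ < V (e j) G ∧ V (e j) G ≤ v0
  have hgood : ∀ G ∈ Gr, 12 * cA C c * err G ≤ δ → ∀ j : ℕ, (∀ i ≤ j, G ∉ Bad i) →
      V (e j) G ≤ 2 * cA C c * s ^ 2 + δ := by
    intro G hG hGe j
    induction j with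
    | zero =>
        intro hb
        have h0 := hb 0 le_rfl
        by_contra hcon
        push Not at hcon
        apply h0
        rw [Finset.mem_filter]
        refine ⟨hG, hGe, hcon, ?_⟩
        have : e 0 = C0 := by simp [he]
        rw [this]; exact htop G hG hGe
    | succ j ih =>
        intro hb
        have h1 := ih (fun i hi => hb i (by omega))
        have h2 := hlip G hG (e (j + 1)) (e j) (hepos _) (by rw [hesucc j]; nlinarith [hepos (j+1)])
          (by rw [hesucc j]; nlinarith [hepos (j+1)]) (hele j)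
        have h3 : e j / e (j + 1) = q := by
          rw [hesucc j]; field_simp [(hepos (j + 1)).ne']
        rw [h3] at h2
        have h4 : V (e (j + 1)) G ≤ v0 := by
          have : C * (q - 1) = C * ε := by rw [hq]; ring
          rw [this] at h2
          linarith
        by_contra hcon
        push Not at hcon
        apply hb (j + 1) le_rfl
        rw [Finset.mem_filter]
        exact ⟨hG, hGe, hcon, h4⟩
  -- the scale-independent exceptional set
  have hEx : ((Gr.filter fun G => δ / (12 * cA C c) < err G).card : ℝ) ≤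
      12 * cA C c * Ce / δ * Gr.card := by
    have := markov_card Gr err herr (t := δ / (12 * cA C c)) (by positivity) hsum
      (fun G => δ / (12 * cA C c) < err G) (fun _ _ hP => hP.le)
    refine this.trans (le_of_eq ?_)
    rw [div_div_eq_mul_div]; ring
  suffices hmain : ((Gr.filter fun G => 12 * cA C c * err G ≤ δ ∧ ∃ η, K / n ≤ η ∧ η ≤ C0 ∧
        2 * cA C c * s ^ 2 + 2 * δ < V η G).card : ℝ) ≤
      (cD C c δ * q / ε) / K * Gr.card by
    refine le_trans ?_ (add_le_add hmain hEx)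
    rw [← Nat.cast_add]
    refine Nat.cast_le.2 (le_trans (Finset.card_le_card ?_) (Finset.card_union_le _ _))
    intro G hG
    rw [Finset.mem_filter] at hG
    rw [Finset.mem_union, Finset.mem_filter, Finset.mem_filter]
    by_cases hGe : 12 * cA C c * err G ≤ δ
    · exact Or.inl ⟨hG.1, hGe, hG.2⟩
    · refine Or.inr ⟨hG.1, ?_⟩
      rw [div_lt_iff₀ (by positivity)]
      push Not at hGe
      linarith
  -- the number of scales
  by_cases hKn : C0 * n / K < 1
  · -- no scale at all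
    have hempty : (Gr.filter fun G => 12 * cA C c * err G ≤ δ ∧ ∃ η, K / n ≤ η ∧ η ≤ C0 ∧
        2 * cA C c * s ^ 2 + 2 * δ < V η G) = ∅ := by
      rw [Finset.filter_eq_empty_iff]
      rintro G - ⟨-, η, h1, h2, -⟩
      rw [div_lt_one hK] at hKn
      have : K / n ≤ C0 := h1.trans h2
      rw [div_le_iff₀ hn] at this
      linarith
    rw [hempty, Finset.card_empty, Nat.cast_zero]
    have hD := cD_nonneg hC hc hδ
    exact mul_nonneg (div_nonneg (div_nonneg (mul_nonneg hD hq0.le) hε0.le) hK.le)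
      (Nat.cast_nonneg _)
  push Not at hKn
  obtain ⟨J, hJ1, hJ2⟩ := exists_nat_pow_near hKn hq1
  -- every bad graph is in some Bad j with j ≤ J
  have hcover : (Gr.filter fun G => 12 * cA C c * err G ≤ δ ∧ ∃ η, K / n ≤ η ∧ η ≤ C0 ∧
      2 * cA C c * s ^ 2 + 2 * δ < V η G) ⊆ (Finset.range (J + 1)).biUnion Bad := by
    intro G hG
    rw [Finset.mem_filter] at hG
    obtain ⟨hG, hGe, η, h1, h2, h3⟩ := hG
    by_contra hcon
    have hηpos : 0 < η := lt_of_lt_of_le (by positivity) h1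
    have hcη : 1 ≤ C0 / η := by rwa [one_le_div hηpos]
    obtain ⟨j, hj1, hj2⟩ := exists_nat_pow_near hcη hq1
    have hjJ : j ≤ J := by
      by_contra hlt
      push Not at hlt
      have hpow : q ^ (J + 1) ≤ q ^ j := pow_le_pow_right₀ hq1.le hlt
      have : C0 / η ≤ C0 * n / K := by
        rw [div_le_div_iff₀ hηpos hK]
        rw [div_le_iff₀ hn] at h1
        nlinarith
      linarith
    have hV := hgood G hG hGe j (fun i hi hbad => hcon (by
      rw [Finset.mem_biUnion]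
      exact ⟨i, Finset.mem_range.2 (by omega), hbad⟩))
    have hqj : 0 < q ^ j := by positivity
    have he1 : η ≤ e j := by
      simp only [he]
      rw [le_div_iff₀ hqj]
      rw [le_div_iff₀ hηpos] at hj1
      linarith
    have he2 : e j / η ≤ q := by
      simp only [he]
      rw [div_div, div_le_iff₀ (by positivity)]
      rw [div_lt_iff₀ hηpos, pow_succ] at hj2
      nlinarith
    have he3 : e j ≤ 2 * η := by
      rw [div_le_iff₀ hηpos] at he2
      nlinarith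
    have hL := hlip G hG η (e j) hηpos he1 he3 (hele j)
    have : C * (e j / η - 1) ≤ C * ε := by
      apply mul_le_mul_of_nonneg_left _ hC.le
      linarith
    linarith
  -- one-scale bounds
  have hone : ∀ j ∈ Finset.range (J + 1), ((Bad j).card : ℝ) ≤
      cD C c δ * (q ^ j / (n * C0)) * Gr.card := by
    intro j hj
    rw [Finset.mem_range] at hj
    have hκ : 1 / (n * e j) = q ^ j / (n * C0) := by
      simp only [he]; field_simp
    have hpow : q ^ j ≤ q ^ J := pow_le_pow_right₀ hq1.le (by omega)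
    have hκK : 1 / (n * e j) ≤ 1 / K := by
      rw [hκ, div_le_div_iff₀ (by positivity) hK]
      have : q ^ J * K ≤ C0 * n := by
        rw [le_div_iff₀ hK] at hJ1; exact hJ1
      nlinarith
    have := (hstep (e j) (hepos j) (hele j)).card_bad hC hc hθ
      (by have := hepos j; positivity) herr hv0 hδ (by
        have h6 : 12 * cA C c * (1 / (n * e j)) ≤ 12 * cA C c * (1 / K) :=
          mul_le_mul_of_nonneg_left hκK (by positivity)
        have h7 : 12 * cA C c * (1 / K) ≤ δ := by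
          rw [mul_one_div, div_le_iff₀ hK]; linarith
        exact h6.trans h7)
    rw [hκ] at this
    exact this
  have hgeom : ∑ j ∈ Finset.range (J + 1), q ^ j ≤ q ^ (J + 1) / ε := by
    rw [le_div_iff₀ hε0]
    have := geom_sum_mul q (J + 1)
    have hqe : q - 1 = ε := by rw [hq]; ring
    rw [hqe] at this
    rw [this]; linarith
  calc ((Gr.filter fun G => 12 * cA C c * err G ≤ δ ∧ ∃ η, K / n ≤ η ∧ η ≤ C0 ∧
        2 * cA C c * s ^ 2 + 2 * δ < V η G).card : ℝ)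
      ≤ (((Finset.range (J + 1)).biUnion Bad).card : ℝ) := by
        exact_mod_cast Finset.card_le_card hcover
    _ ≤ ∑ j ∈ Finset.range (J + 1), ((Bad j).card : ℝ) := by
        exact_mod_cast Finset.card_biUnion_le
    _ ≤ ∑ j ∈ Finset.range (J + 1), cD C c δ * (q ^ j / (n * C0)) * Gr.card :=
        Finset.sum_le_sum hone
    _ = cD C c δ * ((∑ j ∈ Finset.range (J + 1), q ^ j) / (n * C0)) * Gr.card := by
        rw [← Finset.sum_mul, ← Finset.mul_sum, Finset.sum_div]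
    _ ≤ cD C c δ * ((q ^ (J + 1) / ε) / (n * C0)) * Gr.card := by
        have hD := cD_nonneg hC hc hδ
        refine mul_le_mul_of_nonneg_right (mul_le_mul_of_nonneg_left ?_ hD) (Nat.cast_nonneg _)
        exact div_le_div_of_nonneg_right hgeom (mul_pos hn hC0).le
    _ ≤ cD C c δ * ((q / ε) / K) * Gr.card := by
        have hD := cD_nonneg hC hc hδ
        have hkey : (q ^ (J + 1) / ε) / (n * C0) ≤ (q / ε) / K := by
          rw [div_div, div_div, div_le_div_iff₀ (by positivity) (by positivity)]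
          have : q ^ J * K ≤ C0 * n := by
            rw [le_div_iff₀ hK] at hJ1; exact hJ1
          rw [pow_succ]
          have h1 : q ^ J * K * (q * ε) ≤ C0 * n * (q * ε) :=
            mul_le_mul_of_nonneg_right this (mul_pos hq0 hε0).le
          linarith
        exact mul_le_mul_of_nonneg_right (mul_le_mul_of_nonneg_left hkey hD) (Nat.cast_nonneg _)
    _ = (cD C c δ * q / ε) / K * Gr.card := by ring

end Crest.Agent.R166.Multi383
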