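import Crest.Agent.R166.Clean_566
import Crest.Agent.R166.Sec_269
import Crest.Agent.R166.Multi_383

/-!
Row 166, section 31.1 (helper566): `E[V 1_{V ≤ v}] ≤ C κ`, `κ = 1/K`, from the one-step inequality
(`Multi383.Step`, `s = 0`) and the first order transfer property `TrV` of the moves.
-/

set_option autoImplicit false
set_option linter.unusedSectionVars false

open Finset

namespace Crest.Agent.R166.Clean566

variable {Γ M E : Type*}

/-- first order transfer: `|E[(V - gV) F(V)]| ≤ C ℓ κ` for every `ℓ`-Lipschitz `F` -/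
def TrV (Gr : Finset Γ) (V gV : Γ → ℝ) (C κ : ℝ) : Prop :=
  ∀ (F : ℝ → ℝ) (ℓ : ℝ), (∀ x y, |F x - F y| ≤ ℓ * |x - y|) →
    |∑ G ∈ Gr, (V G - gV G) * F (V G)| ≤ C * ℓ * κ * Gr.card

/-- `TrV` for a move system (Sec269): `V = nuAvg`, `gV = gAvg` -/
theorem trV_of_moves {Gr : Finset Γ} {Mv : Finset M} {Ed : Finset E} {ctr : M → E} {q : ℕ}
    {sw : Γ → M → Γ × M} (h : Sec269.MoveSystem Gr Mv Ed ctr q sw) (hM : Mv.Nonempty)
    (f : Γ → E → ℝ) {B : ℝ} (hf : ∀ p ∈ Gr, ∀ e ∈ Ed, |f p e| ≤ B) {C κ : ℝ}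
    (hstab : ∀ p ∈ Gr, ∀ m ∈ Mv, B * |Sec269.nuAvg Ed f (sw p m).1 - Sec269.nuAvg Ed f p| ≤ C * κ) :
    TrV Gr (fun p => Sec269.nuAvg Ed f p) (fun p => Sec269.gAvg Mv ctr sw f p) C κ := by
  intro F ℓ hF
  have hMpos : (0 : ℝ) < Mv.card := by exact_mod_cast hM.card_pos
  set V := fun p => Sec269.nuAvg Ed f p with hV
  have h1 := Sec269.sum_gAvg_mul h hM f (fun p => F (V p))
  have h2 := Sec269.sum_nuAvg_mul h hM f (fun p => F (V p))
  have h3 : (Mv.card : ℝ) * ∑ p ∈ Gr, (V p - Sec269.gAvg Mv ctr sw f p) * F (V p) =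
      ∑ p ∈ Gr, ∑ m ∈ Mv, f p (ctr m) * (F (V p) - F (V (sw p m).1)) := by
    simp only [sub_mul, Finset.sum_sub_distrib, mul_sub]
    rw [← h1, ← h2]
  have hℓ : ∀ p ∈ Gr, ∀ m ∈ Mv, |f p (ctr m) * (F (V p) - F (V (sw p m).1))| ≤ C * ℓ * κ := by
    intro p hp m hm
    rw [abs_mul]
    have h4 := hF (V p) (V (sw p m).1)
    have h5 := hf p hp _ (h.ctr_mem m hm)
    have h6 := hstab p hp m hm
    have hB : 0 ≤ B := (abs_nonneg _).trans h5
    have hℓ0 : 0 ≤ ℓ := by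
      have := hF 0 1
      have h7 := abs_nonneg (F 0 - F 1)
      norm_num at this
      linarith
    calc |f p (ctr m)| * |F (V p) - F (V (sw p m).1)|
        ≤ B * (ℓ * |V p - V (sw p m).1|) := mul_le_mul h5 h4 (abs_nonneg _) hB
      _ = ℓ * (B * |V (sw p m).1 - V p|) := by rw [abs_sub_comm]; ring
      _ ≤ ℓ * (C * κ) := mul_le_mul_of_nonneg_left h6 hℓ0
      _ = _ := by ring
  have h8 : |(Mv.card : ℝ) * ∑ p ∈ Gr, (V p - Sec269.gAvg Mv ctr sw f p) * F (V p)| ≤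
      (Mv.card : ℝ) * (C * ℓ * κ * Gr.card) := by
    rw [h3]
    refine (Finset.abs_sum_le_sum_abs _ _).trans ?_
    calc ∑ p ∈ Gr, |∑ m ∈ Mv, f p (ctr m) * (F (V p) - F (V (sw p m).1))|
        ≤ ∑ p ∈ Gr, (Mv.card : ℝ) * (C * ℓ * κ) := by
          refine Finset.sum_le_sum fun p hp => ?_
          refine (Finset.abs_sum_le_sum_abs _ _).trans ?_
          rw [← nsmul_eq_mul]
          exact Finset.sum_le_card_nsmul _ _ _ fun m hm => hℓ p hp m hm
      _ = _ := by rw [Finset.sum_const, nsmul_eq_mul]; ring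
  rw [abs_mul, abs_of_pos hMpos] at h8
  exact le_of_mul_le_mul_left h8 hMpos

lemma cut_lip {v : ℝ} (hv : 0 < v) (x y : ℝ) : |cut v x - cut v y| ≤ 1 / v * |x - y| := by
  rw [abs_le]
  have h1 := cut_le_add (x := x) (y := y) hv
  have h2 := cut_le_add (x := y) (y := x) hv
  rw [abs_sub_comm y x] at h2
  have h3 : |x - y| / v = 1 / v * |x - y| := by ring
  rw [h3] at h1 h2
  constructor <;> linarith

/-- the constant in (31.1) -/
noncomputable def e1c (θ C c v : ℝ) : ℝ :=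
  2 / (1 - θ) * (C * (1 + 4 * C ^ 2 / c ^ 2) * (1 + C) + 4 * C ^ 2 / c ^ 2 + C / v)

lemma e1c_pos {θ C c v : ℝ} (hθ : θ < 1) (hC : 0 < C) (hc : 0 < c) (hv : 0 < v) :
    0 < e1c θ C c v := by
  unfold e1c
  have : 0 < 1 - θ := by linarith
  positivity

/-- **(31.1)** -/
theorem EV_of_step {Gr : Finset Γ} {V gV : Γ → ℝ} {μ gμ : Γ → ℂ} {err : Γ → ℝ} {a : ℂ}
    {C c θ κ : ℝ} (h : Multi383.Step Gr V gV μ gμ err a C c θ κ 0) (htr : TrV Gr V gV C κ)
    (hθ : θ < 1) (hC : 0 < C) (hc : 0 < c) (hκ : 0 < κ) (herr0 : ∀ G, 0 ≤ err G)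
    (herr : ∑ G ∈ Gr, err G ≤ C * κ * Gr.card) {v : ℝ} (hv : 0 < v)
    (hv1 : 2 * (C * (1 + 4 * C ^ 2 / c ^ 2)) * v ≤ (1 - θ) / 2) :
    ∑ G ∈ Gr, (if V G ≤ v then V G else 0) ≤ e1c θ C c v * κ * Gr.card := by
  set A : ℝ := C * (1 + 4 * C ^ 2 / c ^ 2) with hA
  have hA0 : 0 < A := by positivity
  set S : ℝ := ∑ G ∈ Gr, V G * cut v (V G) with hS
  have h1 : ∑ G ∈ Gr, (if V G ≤ v then V G else 0) ≤ S := by
    refine Finset.sum_le_sum fun G hG => ?_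
    split_ifs with hle
    · rw [cut_eq_one hv hle, mul_one]
    · exact mul_nonneg (h.nonneg G hG) (cut_nonneg _ _)
  have h2 := htr (cut v) (1 / v) (cut_lip hv)
  have h3 : S ≤ ∑ G ∈ Gr, gV G * cut v (V G) + C * (1 / v) * κ * Gr.card := by
    have h4 := (abs_le.1 h2).2
    have h5 : ∑ G ∈ Gr, (V G - gV G) * cut v (V G) = S - ∑ G ∈ Gr, gV G * cut v (V G) := by
      rw [hS, ← Finset.sum_sub_distrib]
      refine Finset.sum_congr rfl fun G _ => by ring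
    rw [h5] at h4
    linarith
  have h6 : ∀ G ∈ Gr, gV G * cut v (V G) ≤ (θ + 2 * A * v) * (V G * cut v (V G)) +
      (A * κ + A * err G + 4 * C / c ^ 2 * ‖μ G - gμ G‖ ^ 2) := by
    intro G hG
    have hV := h.nonneg G hG
    have hc0 := cut_nonneg v (V G)
    have hc1 := cut_le_one v (V G)
    have he := herr0 G
    have h7 := h.one G hG
    have h8 := h.mean_sq hc (by linarith) hG
    have h9 : gV G ≤ θ * V G + A * V G ^ 2 +
        (A * κ + A * err G + 4 * C / c ^ 2 * ‖μ G - gμ G‖ ^ 2) := by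
      calc gV G ≤ θ * V G + C * (‖μ G‖ ^ 2 + V G ^ 2 + (κ + err G) + 0 ^ 2) := h7
        _ ≤ θ * V G + C * (4 / c ^ 2 * (‖μ G - gμ G‖ ^ 2 + C ^ 2 *
            (V G ^ 2 + 0 ^ 2 + (κ + err G))) + V G ^ 2 + (κ + err G) + 0 ^ 2) := by gcongr
        _ = _ := by rw [hA]; ring
    have h10 : cut v (V G) * V G ^ 2 ≤ 2 * v * (V G * cut v (V G)) := by
      rcases le_or_gt (V G) (2 * v) with hh | hh
      · nlinarith [mul_nonneg hc0 hV, mul_nonneg (mul_nonneg hc0 hV) (sub_nonneg.2 hh)]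
      · rw [cut_eq_zero hv hh.le]; simp
    have hR : 0 ≤ A * κ + A * err G + 4 * C / c ^ 2 * ‖μ G - gμ G‖ ^ 2 := by positivity
    calc gV G * cut v (V G) ≤ (θ * V G + A * V G ^ 2 +
        (A * κ + A * err G + 4 * C / c ^ 2 * ‖μ G - gμ G‖ ^ 2)) * cut v (V G) :=
          mul_le_mul_of_nonneg_right h9 hc0
      _ = θ * (V G * cut v (V G)) + A * (cut v (V G) * V G ^ 2) +
        (A * κ + A * err G + 4 * C / c ^ 2 * ‖μ G - gμ G‖ ^ 2) * cut v (V G) := by ring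
      _ ≤ θ * (V G * cut v (V G)) + A * (2 * v * (V G * cut v (V G))) +
        (A * κ + A * err G + 4 * C / c ^ 2 * ‖μ G - gμ G‖ ^ 2) * 1 := by gcongr
      _ = _ := by ring
  have h11 : ∑ G ∈ Gr, gV G * cut v (V G) ≤ (θ + 2 * A * v) * S +
      (A * κ * Gr.card + A * (C * κ * Gr.card) + 4 * C / c ^ 2 * (C * κ * Gr.card)) := by
    refine (Finset.sum_le_sum h6).trans ?_
    rw [Finset.sum_add_distrib, ← Finset.mul_sum, Finset.sum_add_distrib, Finset.sum_add_distrib,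
      Finset.sum_const, nsmul_eq_mul, ← Finset.mul_sum, ← Finset.mul_sum]
    have h12 := h.sm2
    have h13 : 0 ≤ 4 * C / c ^ 2 := by positivity
    have h14 : A * ∑ G ∈ Gr, err G ≤ A * (C * κ * Gr.card) := by gcongr
    have h15 : 4 * C / c ^ 2 * ∑ G ∈ Gr, ‖μ G - gμ G‖ ^ 2 ≤ 4 * C / c ^ 2 * (C * κ * Gr.card) :=
      mul_le_mul_of_nonneg_left h12 h13
    linarith
  have hS0 : 0 ≤ S := Finset.sum_nonneg fun G hG => mul_nonneg (h.nonneg G hG) (cut_nonneg _ _)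
  have h16 : (1 - θ) / 2 * S ≤ (A * (1 + C) + 4 * C ^ 2 / c ^ 2 + C / v) * κ * Gr.card := by
    have h17 : (θ + 2 * A * v) * S ≤ (1 - (1 - θ) / 2) * S :=
      mul_le_mul_of_nonneg_right (by linarith) hS0
    have h18 : S ≤ (1 - (1 - θ) / 2) * S + (A * κ * Gr.card + A * (C * κ * Gr.card) +
        4 * C / c ^ 2 * (C * κ * Gr.card)) + C * (1 / v) * κ * Gr.card := by linarith
    have h19 : (A * κ * Gr.card + A * (C * κ * Gr.card) +
        4 * C / c ^ 2 * (C * κ * Gr.card)) + C * (1 / v) * κ * Gr.card =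
        (A * (1 + C) + 4 * C ^ 2 / c ^ 2 + C / v) * κ * Gr.card := by ring
    linarith
  have h20 : 0 < 1 - θ := by linarith
  refine h1.trans ?_
  have h21 : S = 2 / (1 - θ) * ((1 - θ) / 2 * S) := by field_simp
  rw [h21]
  calc 2 / (1 - θ) * ((1 - θ) / 2 * S) ≤
      2 / (1 - θ) * ((A * (1 + C) + 4 * C ^ 2 / c ^ 2 + C / v) * κ * Gr.card) :=
        mul_le_mul_of_nonneg_left h16 (by positivity)
    _ = _ := by unfold e1c; rw [hA]; ring

end Crest.Agent.R166.Clean566
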