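import Crest.Agent.R166.Clean_566

/-!
Row 166, section 31.3/31.4 (helper566): multiscale event and no mass escape (abstract form).

Scales `K_j = K0 * 2^j`, `j ≤ J`; thresholds `t_j = 1/√K_j`.
-/

set_option autoImplicit false
set_option linter.unusedSectionVars false

open Finset

namespace Crest.Agent.R166.Clean566

lemma sqrt_two_facts : (0 : ℝ) < (Real.sqrt 2)⁻¹ ∧ (Real.sqrt 2)⁻¹ ≤ 3 / 4 := by
  have h0 : (0 : ℝ) < Real.sqrt 2 := Real.sqrt_pos.2 (by norm_num)
  refine ⟨inv_pos.2 h0, ?_⟩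
  rw [inv_le_comm₀ h0 (by norm_num)]
  apply Real.le_sqrt_of_sq_le
  norm_num

/-- `√(K 2^j) = √K √2^j` -/
lemma sqrt_scale {K : ℝ} (hK : 0 < K) (j : ℕ) :
    Real.sqrt (K * 2 ^ j) = Real.sqrt K * Real.sqrt 2 ^ j := by
  rw [Real.sqrt_mul hK.le]
  congr 1
  rw [← Real.sqrt_sq (by positivity : (0 : ℝ) ≤ Real.sqrt 2 ^ j)]
  congr 1
  rw [← pow_mul, mul_comm, pow_mul, Real.sq_sqrt (by norm_num)]

lemma geom_le (n : ℕ) : ∑ j ∈ range n, ((Real.sqrt 2)⁻¹) ^ j ≤ 4 := by
  obtain ⟨h0, h1⟩ := sqrt_two_facts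
  have h2 : ∑ j ∈ range n, ((Real.sqrt 2)⁻¹) ^ j ≤ ∑ j ∈ range n, ((3 / 4 : ℝ)) ^ j :=
    Finset.sum_le_sum fun j _ => pow_le_pow_left₀ h0.le h1 j
  refine h2.trans ?_
  rw [geom_sum_eq (by norm_num)]
  have h3 : (0 : ℝ) ≤ (3 / 4) ^ n := by positivity
  rw [div_le_iff_of_neg (by norm_num)]
  linarith

section main

variable {Om HE M : Type*} [Fintype Om] [Fintype HE] [Fintype M]
  [Nonempty Om] [Nonempty HE] [Nonempty M]

/-- the constant of (31.3) -/
noncomputable def c2 (C e1 r1 : ℝ) : ℝ := 4 * C * (2 * e1 / r1 ^ 4 + 1)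

lemma c2_pos {C e1 r1 : ℝ} (hC : 0 < C) (he : 0 < e1) (hr1 : 0 < r1) : 0 < c2 C e1 r1 := by
  unfold c2
  positivity

/-- the good event: `V ≤ 1/√K_j` at all scales -/
def Good (D : ℕ → Om → HE → ℝ) (K0 : ℝ) (J : ℕ) (G : Om) : Prop :=
  ∀ j, j ≤ J → VV (D j) G ≤ 1 / Real.sqrt (K0 * 2 ^ j)

open Classical in
/-- probability of the complement of the good event -/
theorem prob_not_good {D : ℕ → Om → HE → ℝ} {K0 : ℝ} {J : ℕ} {v e1 : ℝ} (hK : 0 < K0)
    (he1 : 0 ≤ e1)
    (hEV : ∀ j, j ≤ J → (av fun G => if VV (D j) G ≤ v then VV (D j) G else 0) ≤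
      e1 / (K0 * 2 ^ j)) :
    (av fun G => if Good D K0 J G then (0 : ℝ) else 1) ≤
      (av fun G => if ∀ j, j ≤ J → VV (D j) G ≤ v then (0 : ℝ) else 1) +
        4 * e1 / Real.sqrt K0 := by
  have h1 : (av fun G => if Good D K0 J G then (0 : ℝ) else 1) ≤
      av fun G => ((if ∀ j, j ≤ J → VV (D j) G ≤ v then (0 : ℝ) else 1) +
        ∑ j ∈ range (J + 1), if 1 / Real.sqrt (K0 * 2 ^ j) < VV (D j) G ∧ VV (D j) G ≤ v
          then (1 : ℝ) else 0) := by
    apply av_mono; intro G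
    have hs : 0 ≤ ∑ j ∈ range (J + 1), (if 1 / Real.sqrt (K0 * 2 ^ j) < VV (D j) G ∧
        VV (D j) G ≤ v then (1 : ℝ) else 0) :=
      Finset.sum_nonneg fun j _ => by split_ifs <;> norm_num
    by_cases hg : Good D K0 J G
    · rw [if_pos hg]
      have : (0 : ℝ) ≤ (if ∀ j, j ≤ J → VV (D j) G ≤ v then (0 : ℝ) else 1) := by
        split_ifs <;> norm_num
      linarith
    · rw [if_neg hg]
      by_cases hA : ∀ j, j ≤ J → VV (D j) G ≤ v
      · rw [if_pos hA, zero_add]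
        unfold Good at hg
        push Not at hg
        obtain ⟨j, hj, hlt⟩ := hg
        have h2 : (1 : ℝ) ≤ (if 1 / Real.sqrt (K0 * 2 ^ j) < VV (D j) G ∧
            VV (D j) G ≤ v then (1 : ℝ) else 0) := by
          rw [if_pos ⟨hlt, hA j hj⟩]
        refine h2.trans ?_
        exact Finset.single_le_sum (f := fun j => (if 1 / Real.sqrt (K0 * 2 ^ j) < VV (D j) G ∧
            VV (D j) G ≤ v then (1 : ℝ) else 0)) (fun i _ => by split_ifs <;> norm_num)
            (Finset.mem_range.2 (by omega))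
      · rw [if_neg hA]
        linarith
  refine h1.trans ?_
  rw [av_add, av_sum]
  apply add_le_add le_rfl
  have h3 : ∀ j ∈ range (J + 1), (av fun G => if 1 / Real.sqrt (K0 * 2 ^ j) < VV (D j) G ∧
      VV (D j) G ≤ v then (1 : ℝ) else 0) ≤
      e1 / Real.sqrt K0 * ((Real.sqrt 2)⁻¹) ^ j := by
    intro j hj
    have hj' : j ≤ J := by have := Finset.mem_range.1 hj; omega
    have hKj : 0 < K0 * 2 ^ j := by positivity
    have hs : 0 < Real.sqrt (K0 * 2 ^ j) := Real.sqrt_pos.2 hKj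
    have := prob_mid (VV_nonneg (D j)) (hEV j hj') (t := 1 / Real.sqrt (K0 * 2 ^ j))
      (by positivity)
    refine this.trans (le_of_eq ?_)
    rw [div_div]
    have h4 : K0 * 2 ^ j * (1 / Real.sqrt (K0 * 2 ^ j)) = Real.sqrt (K0 * 2 ^ j) := by
      rw [mul_one_div, div_eq_iff hs.ne', Real.mul_self_sqrt hKj.le]
    rw [h4, sqrt_scale hK, inv_pow]
    have h5 : 0 < Real.sqrt K0 := Real.sqrt_pos.2 hK
    have h6 : 0 < Real.sqrt 2 := Real.sqrt_pos.2 (by norm_num)
    field_simp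
  refine (Finset.sum_le_sum h3).trans ?_
  rw [← Finset.mul_sum]
  have h7 : 0 ≤ e1 / Real.sqrt K0 := div_nonneg he1 (Real.sqrt_nonneg _)
  calc e1 / Real.sqrt K0 * ∑ i ∈ range (J + 1), (Real.sqrt 2)⁻¹ ^ i
      ≤ e1 / Real.sqrt K0 * 4 := mul_le_mul_of_nonneg_left (geom_le _) h7
    _ = _ := by ring

open Classical in
/-- (31.3) at scale `K` in the form `c2 / (K √K)` -/
theorem Epne_scale {D : Om → HE → ℝ} {sw : Om → HE → M → Om} {valid : Om → HE → M → Prop}
    {ne : Om → HE → Prop} {C r r1 K : ℝ} (H : Hyp3 D sw valid ne C r r1 (1 / K))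
    (hC : 0 < C) (hr1 : 0 < r1) {v e1 : ℝ} (hv : 0 < v) (he1 : 0 ≤ e1)
    (hEV : (av fun G => if VV D G ≤ v then VV D G else 0) ≤ e1 / K)
    (hK1 : 1 ≤ K) (hK2 : 4 / v ^ 2 ≤ K) (hK3 : C ^ 2 ≤ K) :
    (av fun G => if VV D G ≤ 1 / Real.sqrt K then pne D ne r G else 0) ≤
      c2 C e1 r1 / (K * Real.sqrt K) := by
  have hK : 0 < K := by linarith
  have hs : 0 < Real.sqrt K := Real.sqrt_pos.2 hK
  have hss : Real.sqrt K * Real.sqrt K = K := Real.mul_self_sqrt hK.le
  have h1 : 2 / v ≤ Real.sqrt K := by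
    apply Real.le_sqrt_of_sq_le
    calc (2 / v) ^ 2 = 4 / v ^ 2 := by ring
      _ ≤ K := hK2
  have h2 : C ≤ Real.sqrt K := Real.le_sqrt_of_sq_le hK3
  have h3 : 1 ≤ Real.sqrt K := Real.le_sqrt_of_sq_le (by simpa using hK1)
  have h4 := Epne H hC (by positivity) hr1 hEV (t := 1 / Real.sqrt K) (by positivity)
    (by rw [mul_one_div, div_le_iff₀ hs]; rw [div_le_iff₀ hv] at h1; linarith)
    (by rw [mul_one_div, div_le_div_iff₀ hK hs, one_mul]
        calc C * Real.sqrt K ≤ Real.sqrt K * Real.sqrt K := by gcongr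
          _ = K := hss)
  refine h4.trans ?_
  have h5 : (1 / K) ^ 2 ≤ 1 / (K * Real.sqrt K) := by
    rw [one_div_pow]
    apply one_div_le_one_div_of_le (by positivity)
    rw [sq]
    gcongr
    calc Real.sqrt K = Real.sqrt K * 1 := by ring
      _ ≤ Real.sqrt K * Real.sqrt K := by gcongr
      _ = K := hss
  calc 4 * C * (2 * (1 / Real.sqrt K) * (e1 / K) / r1 ^ 4 + (1 / K) ^ 2)
      ≤ 4 * C * (2 * (1 / Real.sqrt K) * (e1 / K) / r1 ^ 4 + 1 / (K * Real.sqrt K)) := by gcongr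
    _ = c2 C e1 r1 / (K * Real.sqrt K) := by
        unfold c2
        field_simp

/-- dyadic pigeonhole: for `M < q ≤ M 2^(N+1)` there is `j ≤ N` with `M 2^j < q ≤ M 2^(j+1)` -/
lemma dyadic {A q : ℝ} (N : ℕ) (h1 : A < q) (h2 : q ≤ A * 2 ^ (N + 1)) :
    ∃ j, j ≤ N ∧ A * 2 ^ j < q ∧ q ≤ A * 2 ^ (j + 1) := by
  induction N with
  | zero => exact ⟨0, le_rfl, by simpa using h1, h2⟩
  | succ N ih =>
    by_cases h : q ≤ A * 2 ^ (N + 1)
    · obtain ⟨j, hj, h3, h4⟩ := ih h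
      exact ⟨j, by omega, h3, h4⟩
    · exact ⟨N + 1, le_rfl, not_le.1 h, h2⟩

open Classical in
/-- (31.4) no mass escape, abstract form. `q` is `|R_vv|` at the basic scale `K0`; if
`q > M0 2^a 2^j` then the half edge is `r`-bad at the scale `K_{j+a}`. -/
theorem escape {D : ℕ → Om → HE → ℝ} {ne : Om → HE → Prop} {r K0 c : ℝ} {J : ℕ}
    (hK0 : 0 < K0) (hc : 0 ≤ c)
    (hP : ∀ j, j ≤ J → (av fun G => if VV (D j) G ≤ 1 / Real.sqrt (K0 * 2 ^ j) then
      pne (D j) ne r G else 0) ≤ c / (K0 * 2 ^ j * Real.sqrt (K0 * 2 ^ j)))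
    (q : Om → HE → ℝ) {M0 : ℝ} (hM0 : 0 < M0) {a : ℕ} (haJ : a ≤ J)
    (hqm : ∀ G e, q G e ≤ M0 * 2 ^ (J + 1))
    (hbad : ∀ G e j, j + a ≤ J → M0 * 2 ^ (j + a) < q G e → r < D (j + a) G e) :
    (av fun G => if Good D K0 J G then (av fun e => if ne G e ∧ M0 * 2 ^ a < q G e then
      q G e else 0) else 0) ≤
      8 * M0 * c / (K0 * Real.sqrt K0) * ((Real.sqrt 2)⁻¹) ^ a := by
  -- pointwise bound
  have h1 : (av fun G => if Good D K0 J G then (av fun e => if ne G e ∧ M0 * 2 ^ a < q G e then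
      q G e else 0) else 0) ≤
      av fun G => ∑ j ∈ range (J - a + 1), M0 * 2 ^ (j + a + 1) *
        (if VV (D (j + a)) G ≤ 1 / Real.sqrt (K0 * 2 ^ (j + a)) then
          pne (D (j + a)) ne r G else 0) := by
    apply av_mono; intro G
    have hnn : 0 ≤ ∑ j ∈ range (J - a + 1), M0 * 2 ^ (j + a + 1) *
        (if VV (D (j + a)) G ≤ 1 / Real.sqrt (K0 * 2 ^ (j + a)) then
          pne (D (j + a)) ne r G else 0) := by
      refine Finset.sum_nonneg fun j _ => mul_nonneg (by positivity) ?_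
      split_ifs
      · exact pne_nonneg _ _ _ _
      · exact le_rfl
    by_cases hg : Good D K0 J G
    · rw [if_pos hg]
      have h2 : (av fun e => if ne G e ∧ M0 * 2 ^ a < q G e then q G e else 0) ≤
          av fun e => ∑ j ∈ range (J - a + 1), M0 * 2 ^ (j + a + 1) *
            (if ne G e ∧ r < D (j + a) G e then 1 else 0) := by
        apply av_mono; intro e
        have hnn' : ∀ j ∈ range (J - a + 1), 0 ≤ M0 * 2 ^ (j + a + 1) *
            (if ne G e ∧ r < D (j + a) G e then (1 : ℝ) else 0) := fun j _ =>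
          mul_nonneg (by positivity) (by split_ifs <;> norm_num)
        by_cases hc : ne G e ∧ M0 * 2 ^ a < q G e
        · rw [if_pos hc]
          have h3 : q G e ≤ M0 * 2 ^ a * 2 ^ (J - a + 1) := by
            refine (hqm G e).trans (le_of_eq ?_)
            rw [mul_assoc, ← pow_add]
            congr 2
            omega
          obtain ⟨j, hj, h4, h5⟩ := dyadic (J - a) hc.2 h3
          have h6 : r < D (j + a) G e := by
            apply hbad G e j (by omega)
            calc M0 * 2 ^ (j + a) = M0 * 2 ^ a * 2 ^ j := by ring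
              _ < q G e := h4
          have h7 : q G e ≤ M0 * 2 ^ (j + a + 1) *
              (if ne G e ∧ r < D (j + a) G e then (1 : ℝ) else 0) := by
            rw [if_pos ⟨hc.1, h6⟩, mul_one]
            refine h5.trans (le_of_eq ?_)
            ring
          exact h7.trans (Finset.single_le_sum (f := fun j => M0 * 2 ^ (j + a + 1) *
            (if ne G e ∧ r < D (j + a) G e then (1 : ℝ) else 0)) hnn'
            (Finset.mem_range.2 (by omega)))
        · rw [if_neg hc]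
          exact Finset.sum_nonneg hnn'
      refine h2.trans (le_of_eq ?_)
      rw [av_sum]
      refine Finset.sum_congr rfl fun j hj => ?_
      rw [if_pos (hg (j + a) (by have := Finset.mem_range.1 hj; omega)), av_mul_left]
      rfl
    · rw [if_neg hg]
      exact hnn
  refine h1.trans ?_
  rw [av_sum]
  have h8 : ∀ j ∈ range (J - a + 1), (av fun G : Om => M0 * 2 ^ (j + a + 1) *
        (if VV (D (j + a)) G ≤ 1 / Real.sqrt (K0 * 2 ^ (j + a)) then
          pne (D (j + a)) ne r G else 0)) ≤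
      2 * M0 * c / (K0 * Real.sqrt K0) * ((Real.sqrt 2)⁻¹) ^ a *
        ((Real.sqrt 2)⁻¹) ^ j := by
    intro j hj
    have hj' : j + a ≤ J := by have := Finset.mem_range.1 hj; omega
    rw [av_mul_left]
    have h9 := hP (j + a) hj'
    refine (mul_le_mul_of_nonneg_left h9 (by positivity)).trans (le_of_eq ?_)
    rw [sqrt_scale hK0, inv_pow, inv_pow]
    have h5 : 0 < Real.sqrt K0 := Real.sqrt_pos.2 hK0
    have h6 : 0 < Real.sqrt 2 := Real.sqrt_pos.2 (by norm_num)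
    rw [pow_add (Real.sqrt 2) j a, pow_succ (2 : ℝ) (j + a)]
    field_simp
  refine (Finset.sum_le_sum h8).trans ?_
  rw [← Finset.mul_sum]
  have h10 : 0 ≤ 2 * M0 * c / (K0 * Real.sqrt K0) * ((Real.sqrt 2)⁻¹) ^ a := by
    have h0 := sqrt_two_facts.1
    positivity
  calc _ ≤ 2 * M0 * c / (K0 * Real.sqrt K0) * ((Real.sqrt 2)⁻¹) ^ a * 4 :=
        mul_le_mul_of_nonneg_left (geom_le _) h10
    _ = _ := by ring

end main

end Crest.Agent.R166.Clean566
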