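import Crest.Agent.R166.CleanOut2_501
import Crest.Agent.R166.McClean_797

/-!
Row 166, section 31 (helper501): final form of the outputs of the clean case and the transfer from
port-numbered graphs to graphs.
-/

set_option autoImplicit false

namespace Crest.Agent.R166.Out501

open Finset Classical MeasureTheory Crest.ProbabilityR.RandomMatrix Crest.Agent.R166
open Crest.Agent.R166.Exc501 (bl nb EL NM)

noncomputable section

theorem cleanFacts {d : ℕ} (hd : 3 ≤ d) {E : ℝ} (hE : E ^ 2 < 4 * ((d : ℝ) - 1)) :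
    CleanFacts d E (kestenMcKayDensity d E) where
  cont := by
    intro δ hδ
    have h := McClean797.tendsto_bnorm_Bclean hd hE
    have h1 := (Metric.tendsto_nhds.1 h) δ hδ
    rw [eventually_nhdsWithin_iff, Metric.eventually_nhds_iff] at h1
    obtain ⟨ε, hε, h2⟩ := h1
    refine ⟨ε / 2, by positivity, fun η hη hηε => ?_⟩
    have h3 := h2 (y := η) (by
      rw [Real.dist_eq, sub_zero, abs_of_pos hη]; linarith) hη
    rw [Real.dist_eq, sub_zero] at h3
    exact (le_abs_self _).trans h3.le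
  im := McClean797.Bclean_im_real hd hE
  pd := by
    have h1 := McClean797.mc_root hd (McClean797.dom_real hE)
    refine ⟨(mc d (E : ℂ)).im / 4, by have := h1.im_pos; positivity, fun x => ?_⟩
    exact McClean797.quad_ge hd (McClean797.dom_real hE) x

/-- transfer of fractions from port-numbered graphs to graphs -/
theorem fracLe_of_ports {n d : ℕ} {ε : ℝ} {Q : SimpleGraph (Fin n) → Prop}
    (h : (((Ports n d).filter fun p => ¬ Q (graphOf p)).card : ℝ) ≤ ε * (Ports n d).card) :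
    FracLe n d ε Q := by
  unfold FracLe
  have hpos : (0:ℝ) < ((d.factorial ^ n : ℕ) : ℝ) := by
    exact_mod_cast pow_pos (Nat.factorial_pos d) n
  have h1 : (((Ports n d).filter fun p => ¬ Q (graphOf p)).card : ℝ) =
      ((d.factorial ^ n : ℕ) : ℝ) * (((regularGraphs n d).filter fun G => ¬ Q G).card : ℝ) := by
    have h2 := sum_Ports (n := n) (d := d) (fun G => if ¬ Q G then (1:ℝ) else 0)
    rw [← Finset.sum_filter, ← Finset.sum_filter, Finset.sum_const, Finset.sum_const] at h2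
    simpa only [nsmul_eq_mul, mul_one] using h2
  have h3 : ((Ports n d).card : ℝ) =
      ((d.factorial ^ n : ℕ) : ℝ) * ((regularGraphs n d).card : ℝ) := by
    rw [card_Ports]; push_cast; rfl
  rw [h1, h3] at h
  have h4 : ((d.factorial ^ n : ℕ) : ℝ) * (((regularGraphs n d).filter fun G => ¬ Q G).card : ℝ) ≤
      ((d.factorial ^ n : ℕ) : ℝ) * (ε * ((regularGraphs n d).card : ℝ)) := by
    linarith
  exact le_of_mul_le_mul_left h4 hpos

/-- output of 31.4 on port-numbered graphs. -/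
def UIp (d : ℕ) (E : ℝ) : Prop :=
  ∃ L : ℕ, ∀ κ : ℝ, 0 < κ → ∀ ε : ℝ, 0 < ε → ∃ M : ℝ, ∀ K : ℝ, κ ≤ K → ∃ N : ℕ, ∀ n : ℕ, N ≤ n →
    (((Ports n d).filter fun p => ε < tailT (graphOf p) E K M L).card : ℝ) ≤ ε * (Ports n d).card

theorem ui0_of_uip {d : ℕ} {E : ℝ} (h : UIp d E) : UI0 d E := by
  obtain ⟨L, hL⟩ := h
  refine ⟨L, fun κ hκ ε hε => ?_⟩
  obtain ⟨M, hM⟩ := hL κ hκ ε hε
  refine ⟨M, fun K hK => ?_⟩
  obtain ⟨N, hN⟩ := hM K hK
  refine ⟨N, fun n hn _ => fracLe_of_ports ?_⟩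
  refine le_trans (le_of_eq ?_) (hN n hn)
  congr 2
  apply Finset.filter_congr
  intro p _
  exact not_le

/-- **Outputs of the clean case** from Theorem A (block law) and 31.4. -/
theorem clean_outputs {d : ℕ} (hd : 3 ≤ d) {E : ℝ} (hE : E ^ 2 < 4 * ((d : ℝ) - 1))
    (hB : BlkLaw0 d E) (hU : UIp d E) :
    ImLim d 0 E (kestenMcKayDensity d E) ∧ ImFix d 0 E (kestenMcKayDensity d E) ∧
      LocLim d 0 E ∧ NoEsc d 0 E ∧ NonDeg d 0 E ∧ ∀ r : ℝ, 0 < r → NearClean d 0 E r := by
  have hF := cleanFacts hd hE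
  have hUI := uif_of_ui0 hd (ui0_of_uip hU)
  exact ⟨imLim_clean (by omega) hB hUI hF, imFix_clean (by omega) hB hF, locLim_clean hB hF,
    noEsc_of_uif hUI, nonDeg_clean hB hF, fun r hr => nearClean_clean hB hF hr⟩

end

end Crest.Agent.R166.Out501
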