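import Crest.Agent.R166.DecP4_789
import Crest.Agent.R166.MuU_395
import Crest.Agent.R166.BlkLaw0_355
import Crest.Agent.R166.McClean_797
import Crest.Agent.R166.Dec5_598

/-!
# R166, section 30.4 (helper789): facts at good half-edges, couplings, the one-leaf form

* (G1) `qf_ge` : `Dv < rs`, `rs ≤ y00 / 800` imply `(y00/8) |y|² ≤ y^* (Im BE) y`
* (G2) `im_ge`, `off_le` : `y00/2 ≤ Im B0_ii`, `|B0_ij| ≤ Dv`
* (G3) `cE_le` : `cE ≤ CE * cEs`
* (G4) `S0t_eq` : `S0t p h0 L = Sv (L+1) p h0`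
* `dec_T` : the decoupling at the level of the tree; `gen1` : one arbitrary leaf
-/

set_option autoImplicit false
set_option linter.unusedSectionVars false

open Matrix Finset

namespace Crest.Agent.R166.GoodE789

open Crest.Agent.R166 Crest.Agent.R166.Stab269
open Crest.Agent.R166.SwP470 (BVal bv TL BI NZ NZw wd rt tau ab np)
open Crest.Agent.R166.TreeT327 Crest.Agent.R166.DecP789 Crest.Agent.R166.Spec30
open Crest.Agent.R166.Rev811 (cpl cpl2 GA cpl_nonneg cpl2_nonneg)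
open Crest.Agent.R166.MuU395 (y00 y00_pos adm_of)

/-! ## the range of `rs` -/

/-- admissible cut-off -/
structure RsOK (d : ℕ) (A rs : ℝ) : Prop where
  pos : 0 < rs
  le : rs ≤ y00 d A / 800

variable {n d : ℕ} {A rs : ℝ}

lemma y00_le_one (hd : 3 ≤ d) (_hA : A ^ 2 < 4 * ((d : ℝ) - 1)) : y00 d A ≤ 1 := by
  have hd' : (3 : ℝ) ≤ d := by exact_mod_cast hd
  unfold y00
  rw [div_le_one (by linarith)]
  have : 0 ≤ A ^ 2 / (4 * ((d : ℝ) - 1)) := by
    apply div_nonneg (sq_nonneg _); linarith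
  linarith

lemma RsOK.le_one (h : RsOK d A rs) (hd : 3 ≤ d) (hA : A ^ 2 < 4 * ((d : ℝ) - 1)) : rs ≤ 1 := by
  have := h.le
  have := y00_le_one hd hA
  linarith

lemma rsOK_self (hd : 3 ≤ d) (hA : A ^ 2 < 4 * ((d : ℝ) - 1)) : RsOK d A (y00 d A / 800) :=
  ⟨by have := y00_pos (by omega : 2 ≤ d) hA; positivity, le_rfl⟩

/-! ## (G1), (G2) -/

lemma qf_ge_of_real {Y : Matrix (Fin 2) (Fin 2) ℝ} {c : ℝ}
    (h : ∀ x : Fin 2 → ℝ, c * (x 0 ^ 2 + x 1 ^ 2) ≤ ∑ a, ∑ b, x a * Y a b * x b)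
    (y : Fin 2 → ℂ) : c * ∑ i, ‖y i‖ ^ 2 ≤ Res598.qf Y y := by
  have e1 : ∀ x : Fin 2 → ℝ, x ⬝ᵥ (Y *ᵥ x) = ∑ a, ∑ b, x a * Y a b * x b := by
    intro x
    simp only [dotProduct, Matrix.mulVec, Finset.mul_sum, mul_assoc]
  have h1 := h (Res598.vre y)
  have h2 := h (Res598.vim y)
  unfold Res598.qf
  rw [e1, e1, Fin.sum_univ_two]
  have e2 : ∀ i, ‖y i‖ ^ 2 = Res598.vre y i ^ 2 + Res598.vim y i ^ 2 := by
    intro i
    rw [← Complex.normSq_eq_norm_sq, Complex.normSq_apply]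
    unfold Res598.vre Res598.vim
    ring
  rw [e2, e2]
  linarith

lemma dev_lt {p : Equiv.Perm (HE n d)} {s : ℝ} {ω : Fin n → ℝ} {z : ℂ} {h : HE n d}
    (hg : SpecA.Dv rs p s ω z h < rs) : SpecA.dev p s ω z h = SpecA.Dv rs p s ω z h := by
  unfold SpecA.Dv at hg ⊢
  rcases min_lt_iff.1 hg with h1 | h1
  · exact absurd h1 (lt_irrefl _)
  · exact (min_eq_right h1.le).symm

/-- **(G1)** -/
theorem qf_ge (hd : 3 ≤ d) (hA : A ^ 2 < 4 * ((d : ℝ) - 1)) (hrs : RsOK d A rs)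
    {p : Equiv.Perm (HE n d)} (hp : IsPort p) {E η s : ℝ} {ω : Fin n → ℝ} (hE : |E| ≤ A)
    (hη : 0 < η) (hη1 : η ≤ 1) {h : HE n d} (hg : SpecA.Dv rs p s ω (ze E η) h < rs)
    (y : Fin 2 → ℂ) :
    y00 d A / 8 * ∑ i, ‖y i‖ ^ 2 ≤ Res598.qf (Res598.imM (BE p s ω (ze E η) h)) y := by
  have hadm := adm_of hd hA hE hη hη1
  have hzi : (ze E η).im = η := by simp [ze]
  have hz : 0 < (ze E η).im := by rw [hzi]; exact hη
  have hy0 := y00_pos (by omega : 2 ≤ d) hA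
  have hy1 := y00_le_one hd hA
  have h1 : SpecA.dev p s ω (ze E η) h < rs := by rw [dev_lt hg]; exact hg
  have h2 : SpecA.dev p s ω (ze E η) h ≤ 1 / 14 := by
    have := hrs.le
    linarith
  have h3 := BlkLaw355.bnorm_sub_le hd hp s ω hz h h2
  have h4 : bnorm (BE p s ω (ze E η) h - Bclean d (ze E η)) ≤ (mc d (ze E η)).im / 16 := by
    have := hrs.le
    have := hadm.him
    linarith
  refine le_trans ?_ (qf_ge_of_real (c := (mc d (ze E η)).im / 8) (fun x => ?_) y)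
  · apply mul_le_mul_of_nonneg_right _ (Finset.sum_nonneg fun _ _ => sq_nonneg _)
    have := hadm.him
    linarith
  · exact McClean797.quad_ge_of_near hd (Or.inl hz) h4 x

lemma entry_sub_le {p : Equiv.Perm (HE n d)} {s : ℝ} {ω : Fin n → ℝ} {z : ℂ} {h : HE n d}
    (hg : SpecA.Dv rs p s ω z h < rs) (i : Fin 2) :
    ‖B0 p s ω z h i i - mc d z‖ ≤ SpecA.Dv rs p s ω z h := by
  rw [← dev_lt hg]
  rw [← Shape395.sub_smul_entry (B := B0 p s ω z h) (m := mc d z) i]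
  exact Shape395.entry_le_bnorm _ _ _

/-- **(G2)** the imaginary parts -/
theorem im_ge (hd : 3 ≤ d) (hA : A ^ 2 < 4 * ((d : ℝ) - 1)) (hrs : RsOK d A rs)
    {p : Equiv.Perm (HE n d)} {E η s : ℝ} {ω : Fin n → ℝ} (hE : |E| ≤ A)
    (hη : 0 < η) (hη1 : η ≤ 1) {h : HE n d} (hg : SpecA.Dv rs p s ω (ze E η) h < rs) (i : Fin 2) :
    y00 d A / 2 ≤ (B0 p s ω (ze E η) h i i).im := by
  have hadm := adm_of hd hA hE hη hη1
  have hy0 := y00_pos (by omega : 2 ≤ d) hA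
  have h1 := entry_sub_le hg i
  have h2 := (abs_le.1 ((Complex.abs_im_le_norm _).trans h1)).1
  rw [Complex.sub_im] at h2
  have := hrs.le
  have := hadm.him
  linarith

/-- **(G2)** the off-diagonal entries -/
theorem off_le {p : Equiv.Perm (HE n d)} {s : ℝ} {ω : Fin n → ℝ} {z : ℂ} {h : HE n d}
    (hg : SpecA.Dv rs p s ω z h < rs) {i j : Fin 2} (hij : i ≠ j) :
    ‖B0 p s ω z h i j‖ ≤ SpecA.Dv rs p s ω z h :=
  Shape395.off_le_dv (rs := rs) (m := mc d z) hg hij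

/-! ## (G4), (G3) -/

variable [NeZero d]

/-- **(G4)** -/
theorem S0t_eq (p : Equiv.Perm (HE n d)) (h0 : HE n d) (L : ℕ) : S0t p h0 L = Sv (L + 1) p h0 := by
  classical
  ext v
  unfold S0t S0 Sv
  simp only [Finset.mem_union, Finset.mem_image, Finset.mem_univ, true_and, Finset.mem_filter]
  constructor
  · rintro (⟨x, hx⟩ | ⟨i, hi⟩)
    · obtain ⟨s, w, h1, h2, h3⟩ := (phi_range (p := p) (h0 := h0) (L := L + 1) v).1 ⟨x, hx⟩
      exact ⟨s, w, h1, h2.le, h3⟩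
    · exact ⟨i.1, wd i.2, SwP470.wd_NZw i.2, (SwP470.wd_length i.2).le, hi⟩
  · rintro ⟨s, w, h1, h2, h3⟩
    rcases Nat.lt_or_ge w.length (L + 1) with h4 | h4
    · obtain ⟨x, hx⟩ := (phi_range (p := p) (h0 := h0) (L := L + 1) v).2 ⟨s, w, h1, h4, h3⟩
      exact Or.inl ⟨x, hx⟩
    · obtain ⟨f, hf⟩ := SwP470.exists_wd h1 (L := L + 1) (by omega)
      refine Or.inr ⟨(s, f), ?_⟩
      rw [← h3, ← hf]
      rfl

/-- the constant of (G3) -/
noncomputable def CEc (c : ℝ) : ℝ := max (2 / Real.sqrt c) (1 / c)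

lemma CEc_pos {c : ℝ} (hc : 0 < c) : 0 < CEc c :=
  lt_of_lt_of_le (by positivity) (le_max_right _ _)

lemma cEs_nonneg (L : ℕ) (p : Equiv.Perm (HE n d)) (s : ℝ) (ω : Fin n → ℝ) (z : ℂ) (h0 : HE n d)
    (A : Finset (BI d L)) (b : BI d L → HE n d) : 0 ≤ cEs L p s ω z h0 A b :=
  add_nonneg (Finset.sum_nonneg fun _ _ => Real.sqrt_nonneg _)
    (Finset.sum_nonneg fun _ _ => Real.sqrt_nonneg _)

lemma cE_nonneg {ι : Type*} [Fintype ι] [DecidableEq ι] (S : Finset (Fin n))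
    (R : Matrix (Fin n) (Fin n) ℂ) (p : Equiv.Perm (HE n d)) (b : ι → HE n d) (A : Finset ι)
    {c : ℝ} (hc : 0 < c) : 0 ≤ cE S R p b A c := by
  unfold cE
  have h1 : 0 ≤ ∑ j ∈ Aᶜ, Real.sqrt (cpl (GA S p A b) R p (b j)) :=
    Finset.sum_nonneg fun _ _ => Real.sqrt_nonneg _
  have h2 : 0 ≤ ∑ jk ∈ (Aᶜ).offDiag, Real.sqrt (cpl2 R p (b jk.1) (b jk.2)) :=
    Finset.sum_nonneg fun _ _ => Real.sqrt_nonneg _
  positivity

/-- **(G3)** -/
theorem cE_le {c : ℝ} (_hc : 0 < c) (p : Equiv.Perm (HE n d)) (h0 : HE n d) (L : ℕ)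
    (b : BI d (L + 1) → HE n d) (A : Finset (BI d (L + 1))) (s : ℝ) (ω : Fin n → ℝ) (z : ℂ) :
    cE (S0t p h0 L) (Res789.Res (Hm (graphOf p) s ω) z) p b A c ≤
      CEc c * cEs (L + 1) p s ω z h0 A b := by
  rw [S0t_eq]
  unfold cE cEs
  have h1 : 0 ≤ ∑ j ∈ Aᶜ, Real.sqrt (cpl (GA (Sv (L + 1) p h0) p A b) (Rr p s ω z) p (b j)) :=
    Finset.sum_nonneg fun _ _ => Real.sqrt_nonneg _
  have h2 : 0 ≤ ∑ jk ∈ (Aᶜ).offDiag, Real.sqrt (cpl2 (Rr p s ω z) p (b jk.1) (b jk.2)) :=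
    Finset.sum_nonneg fun _ _ => Real.sqrt_nonneg _
  have h3 : 2 / Real.sqrt c ≤ CEc c := le_max_left _ _
  have h4 : 1 / c ≤ CEc c := le_max_right _ _
  rw [mul_add]
  refine add_le_add ?_ ?_
  · calc _ = 2 / Real.sqrt c *
          ∑ j ∈ Aᶜ, Real.sqrt (cpl (GA (Sv (L + 1) p h0) p A b) (Rr p s ω z) p (b j)) := by ring
      _ ≤ _ := mul_le_mul_of_nonneg_right h3 h1
  · calc _ = 1 / c * ∑ jk ∈ (Aᶜ).offDiag, Real.sqrt (cpl2 (Rr p s ω z) p (b jk.1) (b jk.2)) := by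
          ring
      _ ≤ _ := mul_le_mul_of_nonneg_right h4 h2

/-- the couplings are small on the admissible event -/
theorem cEs_le_of_adm {L : ℕ} {ε : ℝ} (hε : 0 ≤ ε) {p : Equiv.Perm (HE n d)} {s : ℝ}
    {ω : Fin n → ℝ} {z : ℂ} {h0 : HE n d} {A : Finset (BI d L)} {b : BI d L → HE n d}
    (h : AdmP L rs ε p s ω z h0 A b) :
    cEs L p s ω z h0 A b ≤ ((Fintype.card (BI d L) : ℝ) + (Fintype.card (BI d L) : ℝ) ^ 2) * ε := by
  unfold cEs
  rw [add_mul]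
  refine add_le_add ?_ ?_
  · calc (∑ j ∈ Aᶜ, Real.sqrt (cpl (GA (Sv L p h0) p A b) (Rr p s ω z) p (b j)))
        ≤ ∑ _j ∈ Aᶜ, ε := by
          refine Finset.sum_le_sum fun j hj => ?_
          have h1 := h.1 j (Finset.mem_compl.1 hj)
          have h2 : ¬ ε ^ 2 < cpl (GA (Sv L p h0) p A b) (Rr p s ω z) p (b j) :=
            fun h3 => h1 (Or.inr h3)
          exact Real.sqrt_le_iff.2 ⟨hε, not_lt.1 h2⟩
      _ = (Aᶜ).card * ε := by rw [Finset.sum_const, nsmul_eq_mul]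
      _ ≤ _ := by
          apply mul_le_mul_of_nonneg_right _ hε
          exact_mod_cast Finset.card_le_univ _
  · calc (∑ jk ∈ (Aᶜ).offDiag, Real.sqrt (cpl2 (Rr p s ω z) p (b jk.1) (b jk.2)))
        ≤ ∑ _jk ∈ (Aᶜ).offDiag, ε := by
          refine Finset.sum_le_sum fun jk hjk => ?_
          obtain ⟨h1, h2, h3⟩ := Finset.mem_offDiag.1 hjk
          have h4 := h.2 jk.1 jk.2 (Finset.mem_compl.1 h1) (Finset.mem_compl.1 h2) h3
          exact Real.sqrt_le_iff.2 ⟨hε, not_lt.1 h4⟩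
      _ = ((Aᶜ).offDiag).card * ε := by rw [Finset.sum_const, nsmul_eq_mul]
      _ ≤ _ := by
          apply mul_le_mul_of_nonneg_right _ hε
          have h5 : ((Aᶜ).offDiag).card ≤ (Fintype.card (BI d L)) ^ 2 := by
            rw [Finset.offDiag_card]
            have h6 : (Aᶜ).card ≤ Fintype.card (BI d L) := Finset.card_le_univ _
            calc (Aᶜ).card * (Aᶜ).card - (Aᶜ).card ≤ (Aᶜ).card * (Aᶜ).card := Nat.sub_le _ _
              _ ≤ Fintype.card (BI d L) * Fintype.card (BI d L) := Nat.mul_le_mul h6 h6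
              _ = _ := (sq _).symm
          exact_mod_cast h5

/-- good half-edges outside `A` on the admissible event -/
lemma good_of_adm {L : ℕ} {ε : ℝ} {p : Equiv.Perm (HE n d)} {s : ℝ}
    {ω : Fin n → ℝ} {z : ℂ} {h0 : HE n d} {A : Finset (BI d L)} {b : BI d L → HE n d}
    (h : AdmP L rs ε p s ω z h0 A b) {j : BI d L} (hj : j ∉ A) :
    SpecA.Dv rs p s ω z (b j) < rs := by
  have h1 := h.1 j hj
  exact not_le.1 fun h2 => h1 (Or.inl h2)

/-! ## the decoupling at the level of the tree -/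

set_option synthInstance.maxSize 4000
set_option synthInstance.maxHeartbeats 400000
set_option maxHeartbeats 1000000

open Crest.Agent.R166.Dec598 (treeOut leafXi)

/-- **30.3 at the level of the tree** (before taking the root corner) -/
theorem dec_T {L : ℕ} {p : Equiv.Perm (HE n d)} (hp : IsPort p) {h0 : HE n d}
    {b : BI d (L + 1) → HE n d} (h : BVal (L + 1) p h0 b)
    (A : Finset (BI d (L + 1))) (s : ℝ) (ω : Fin n → ℝ) {z : ℂ} (hz : 0 < z.im) {c : ℝ}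
    (hc : 0 < c)
    (hB : ∀ j, j ∉ A → ∀ y : Fin 2 → ℂ,
      c * ∑ i, ‖y i‖ ^ 2 ≤ Res598.qf (Res598.imM (BE p s ω z (b j))) y)
    (hlt : cE (S0t p h0 L) (Res789.Res (Hm (graphOf p) s ω) z) p b A c < 1) :
    ∃ M : Matrix (Tr Bool (NZ d) (L + 1)) (Tr Bool (NZ d) (L + 1)) ℂ,
      M.submatrix ![root L false, root L true] ![root L false, root L true] =
        B0 (np p h0 b) s ω z h0 ∧
      Res598.Near (cE (S0t p h0 L) (Res789.Res (Hm (graphOf p) s ω) z) p b A c /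
          (1 - cE (S0t p h0 L) (Res789.Res (Hm (graphOf p) s ω) z) p b A c))
        (treeOut (Res789.Res (hTree (Vt p h0 (L + 1) s ω)) z) (tt (leafT L) A)
          (XiP p h0 L b A s ω z)) M := by
  have hD := dat_tree hp h
  have key := dec_port hD A s ω (UR_symm (root L false) (root L true)) hz hc hB hlt
  have h1 : hT p (phi p h0 (L + 1)) s ω (UR (root L false) (root L true)) =
      hTree (Vt p h0 (L + 1) s ω) := hT_eq hp h.tl s ω
  rw [h1] at key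
  exact ⟨_, root_corner (h.isPort (Nat.succ_le_succ (Nat.zero_le L)) hp) s ω hz
    (phi_root_false hp) (by rw [np_root hp h]; exact phi_root_true), key⟩

/-- the index equivalence -/
def sg {ι : Type*} [DecidableEq ι] (A : Finset ι) : At A ⊕ Jt A ≃ ι :=
  Equiv.sumCompl (fun i => i ∈ A)

lemma tt_sg {ι T : Type*} [DecidableEq ι] (A : Finset ι) (t : ι → T) : t ∘ sg A = tt t A := by
  funext x
  rcases x with a | j <;> rfl

lemma sg_inr {ι : Type*} [DecidableEq ι] (A : Finset ι) (j : Jt A) : sg A (Sum.inr j) = j.1 := rfl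

/-- **general form**: arbitrary inputs on `A`, diagonal inputs elsewhere -/
theorem gen {L : ℕ} {p : Equiv.Perm (HE n d)} (hp : IsPort p) {h0 : HE n d}
    {b : BI d (L + 1) → HE n d} (h : BVal (L + 1) p h0 b)
    (A : Finset (BI d (L + 1))) (s : ℝ) (ω : Fin n → ℝ) {z : ℂ} (hz : 0 < z.im) {c : ℝ}
    (hc : 0 < c)
    (hB : ∀ j, j ∉ A → ∀ y : Fin 2 → ℂ,
      c * ∑ i, ‖y i‖ ^ 2 ≤ Res598.qf (Res598.imM (BE p s ω z (b j))) y)
    {κ : ℝ} (hκ : cE (S0t p h0 L) (Res789.Res (Hm (graphOf p) s ω) z) p b A c ≤ κ)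
    (hκ2 : κ ≤ 1 / 2) {ρ : ℝ} (hρ0 : 0 ≤ ρ) (hρ : ρ ≤ 1 / 4)
    (ho : ∀ j, j ∉ A → ‖B0 p s ω z (b j) 0 1‖ ≤
      ρ * (Real.sqrt (B0 p s ω z (b j) 0 0).im * Real.sqrt (B0 p s ω z (b j) 1 1).im)) :
    ∃ Ξ : Matrix (BI d (L + 1)) (BI d (L + 1)) ℂ, Res598.Siegel Ξ ∧
      (∀ j, j ∉ A → ∀ k, Ξ j k = if k = j then B0 p s ω z (b j) 0 0 else 0) ∧
      Res598.Near (4 * ρ + 4 * κ)
        ((treeOut (Res789.Res (hTree (Vt p h0 (L + 1) s ω)) z) (leafT L) Ξ).submatrix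
          ![root L false, root L true] ![root L false, root L true])
        (B0 (np p h0 b) s ω z h0) := by
  have hk0 := cE_nonneg (S0t p h0 L) (Res789.Res (Hm (graphOf p) s ω) z) p b A hc
  obtain ⟨M, hM, hN⟩ := dec_T hp h A s ω hz hc hB (by linarith)
  have hN' := hN.mono (le_trans (Dec598.div_one_sub_le hk0 (by linarith))
    (by linarith : 2 * cE (S0t p h0 L) (Res789.Res (Hm (graphOf p) s ω) z) p b A c ≤ 2 * κ))
  have hRT : Res598.Siegel (Res789.Res (hTree (Vt p h0 (L + 1) s ω)) z) :=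
    (Res789.Res_sieg (hTree_symm _) hz).siegel
  rw [← tt_sg A (leafT L)] at hN'
  obtain ⟨Ξ, h1, h2, h3⟩ := Dec598.form_gen (sg A) hRT (leafT L)
    (siegel_SgB (dat_tree hp h) A s ω (UR_symm _ _) hz)
    (C := fun j : Jt A => B0 p s ω z (b j.1))
    (fun j => by
      rw [← B0_bridge hp s ω hz]
      exact Dec598.siegel_B0 (sieg_BE hp s ω hz _).siegel) (aJ A) (uA_injective A)
    hρ0 hρ (fun j => ho j.1 j.2) (by linarith : 0 ≤ 2 * κ) hN'
  refine ⟨Ξ, h1, fun j hj k => h2 ⟨j, hj⟩ k, ?_⟩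
  have h4 := h3.sub ![root L false, root L true] (Dec598.siegel_treeOut hRT (leafT L) h1)
  rw [hM] at h4
  exact h4.mono (by nlinarith)

end Crest.Agent.R166.GoodE789
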