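import Crest.Agent.R166.Spec30_395
import Crest.Agent.R166.MuU_395
import Crest.Agent.R166.SwInv_356

/-!
# Row 166, section 30.4 (helper269): ingredients of (H1), (H2)

* `norm_block_le`: if the cavity block is within `1/16` of `m I` then the block is bounded by `7`;
* `im_good`: at a good half-edge (`rs ≤ 1/16`) the imaginary parts of the two diagonal entries of
  the resolvent sum to at most `14` (the constant `M` of `Rev811.hyp_ward`);
* `card_Sv`: the ball of depth `1` has at most `2 d` vertices;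
* `pr_inv_le`: the fraction of the invalid choices;
* `pr1_nonTL`, `sum_offDiag`.
-/

set_option autoImplicit false

open Finset

namespace Crest.Agent.R166.H2a

open Crest.Agent.R166 Stab269 SwP470 Rev811 Shape395 TreeDet350

attribute [local instance] Matrix.linftyOpNormedAddCommGroup Matrix.linftyOpNormedSpace
  Matrix.linftyOpNormedRing Matrix.linftyOpNormedAlgebra

variable {n d : ℕ}

/-! ### boundedness of the resolvent block at good half-edges -/

/-- `B = B⁰ - B W B⁰` -/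
theorem block_eq {B : Matrix (Fin 2) (Fin 2) ℂ} (hB : RegB B) :
    B = cavB B - B * W2 * cavB B := by
  have h1 : (B⁻¹ - W2) * cavB B = 1 := Matrix.mul_nonsing_inv _ hB.det0
  have h2 : B * B⁻¹ = 1 := Matrix.mul_nonsing_inv _ hB.det
  have h3 : B * ((B⁻¹ - W2) * cavB B) = B := by rw [h1, mul_one]
  have h4 : B * ((B⁻¹ - W2) * cavB B) = cavB B - B * W2 * cavB B := by
    rw [← mul_assoc, mul_sub, h2, sub_mul, one_mul]
  rw [← h4, h3]

theorem norm_block_le {B : Matrix (Fin 2) (Fin 2) ℂ} (hB : RegB B) {m : ℂ} (hm : ‖m‖ ≤ 3 / 4)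
    {r : ℝ} (hr : r ≤ 1 / 16) (hd : bnorm (cavB B - m • 1) ≤ r) : ‖B‖ ≤ 7 := by
  set X := cavB B with hX
  set E := X - m • (1 : Matrix (Fin 2) (Fin 2) ℂ) with hE
  have hEn : ‖E‖ ≤ 1 / 8 := (norm_le_two_bnorm E).trans (by linarith)
  have hXE : X = m • (1 : Matrix (Fin 2) (Fin 2) ℂ) + E := by rw [hE]; abel
  have h0 : B = X - B * W2 * X := block_eq hB
  -- the inverse of `1 + m W`
  set J : Matrix (Fin 2) (Fin 2) ℂ := (1 - m ^ 2)⁻¹ • (1 - m • W2) with hJ
  have hWW : W2 * W2 = 1 := by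
    ext i j
    fin_cases i <;> fin_cases j <;> simp [W2, Matrix.mul_apply, Fin.sum_univ_two]
  have hm2 : ‖m ^ 2‖ ≤ 9 / 16 := by
    rw [norm_pow]
    have := norm_nonneg m
    nlinarith
  have hden : 7 / 16 ≤ ‖1 - m ^ 2‖ := by
    have h1 := norm_sub_norm_le (1 : ℂ) (m ^ 2)
    rw [norm_one] at h1
    linarith
  have hne : (1 : ℂ) - m ^ 2 ≠ 0 := by
    intro h
    rw [h, norm_zero] at hden
    norm_num at hden
  have hJ1 : (1 + m • W2) * J = 1 := by
    rw [hJ, mul_smul_comm]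
    have : (1 + m • W2) * (1 - m • W2) = (1 - m ^ 2) • (1 : Matrix (Fin 2) (Fin 2) ℂ) := by
      rw [add_mul, one_mul, mul_sub, mul_one, smul_mul_smul_comm, hWW]
      rw [sub_smul, one_smul, sq]
      abel
    rw [this, smul_smul, inv_mul_cancel₀ hne, one_smul]
  have hJn : ‖J‖ ≤ 4 := by
    rw [hJ, norm_smul, norm_inv]
    have h1 : ‖(1 : Matrix (Fin 2) (Fin 2) ℂ) - m • W2‖ ≤ 1 + ‖m‖ := by
      refine (norm_sub_le _ _).trans ?_
      rw [norm_smul]
      have h2 : ‖m‖ * ‖W2‖ ≤ ‖m‖ * 1 := mul_le_mul_of_nonneg_left norm_W2_le (norm_nonneg _)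
      have h3 : ‖(1 : Matrix (Fin 2) (Fin 2) ℂ)‖ ≤ 1 := le_of_eq norm_one
      linarith
    have h4 : ‖1 - m ^ 2‖⁻¹ ≤ (7 / 16)⁻¹ := inv_anti₀ (by norm_num) hden
    calc ‖1 - m ^ 2‖⁻¹ * ‖(1 : Matrix (Fin 2) (Fin 2) ℂ) - m • W2‖
        ≤ (7 / 16)⁻¹ * (1 + 3 / 4) :=
          mul_le_mul h4 (by linarith) (norm_nonneg _) (by norm_num)
      _ = 4 := by norm_num
  -- `B = X J - B W E J`
  have h1 : B * (1 + m • W2) = X - B * W2 * E := by
    have e1 : B + B * W2 * X = X := by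
      nth_rewrite 1 [h0]; abel
    have e2 : B * W2 * X = m • (B * W2) + B * W2 * E := by
      nth_rewrite 1 [hXE]
      rw [mul_add, mul_smul_comm, mul_one]
    rw [e2] at e1
    rw [mul_add, mul_one, mul_smul_comm]
    exact eq_sub_of_add_eq (by rw [add_assoc]; exact e1)
  have h2 : B = X * J - B * W2 * E * J := by
    calc B = B * ((1 + m • W2) * J) := by rw [hJ1, mul_one]
      _ = (B * (1 + m • W2)) * J := by rw [mul_assoc]
      _ = _ := by rw [h1, sub_mul]
  have h3 : ‖B‖ ≤ ‖X * J‖ + ‖B * W2 * E * J‖ := by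
    calc ‖B‖ = ‖X * J - B * W2 * E * J‖ := by rw [← h2]
      _ ≤ _ := norm_sub_le _ _
  have hXn : ‖X‖ ≤ 7 / 8 := by
    rw [hXE]
    refine (norm_add_le _ _).trans ?_
    rw [norm_smul, norm_one, mul_one]
    linarith
  have h4 : ‖X * J‖ ≤ 7 / 8 * 4 :=
    (norm_mul_le _ _).trans (mul_le_mul hXn hJn (norm_nonneg _) (by norm_num))
  have h5 : ‖B * W2 * E * J‖ ≤ ‖B‖ * 1 * (1 / 8) * 4 := by
    refine (norm_mul_le _ _).trans (mul_le_mul ?_ hJn (norm_nonneg _) (by positivity))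
    refine (norm_mul_le _ _).trans (mul_le_mul ?_ hEn (norm_nonneg _) (by positivity))
    exact (norm_mul_le _ _).trans (mul_le_mul_of_nonneg_left norm_W2_le (norm_nonneg _))
  linarith

/-- good half-edges have a bounded block -/
theorem im_good {A E η s : ℝ} (hd : 3 ≤ d) (hA2 : A ^ 2 < 4 * ((d : ℝ) - 1)) (hE : |E| ≤ A)
    (hη : 0 < η) (hη1 : η ≤ 1) {rs : ℝ} (hrs : rs ≤ 1 / 16) {ω : Fin n → ℝ}
    {p : Equiv.Perm (HE n d)} (hp : IsPort p) (x : HE n d)
    (hx : ¬ rs ≤ SpecA.Dv rs p s ω (ze E η) x) :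
    (Res789.Res (Hm (graphOf p) s ω) (ze E η) x.1 x.1).im +
      (Res789.Res (Hm (graphOf p) s ω) (ze E η) (p x).1 (p x).1).im ≤ 14 := by
  have hz : 0 < (ze E η).im := by simpa [ze] using hη
  have hadm := MuU395.adm_of hd hA2 hE hη hη1
  have hreg := regB_BE hp s ω hz x
  have hdv : bnorm (cavB (BE p s ω (ze E η) x) - mc d (ze E η) • 1) ≤ rs := by
    by_contra hcon
    push Not at hcon
    exact hx (le_min le_rfl hcon.le)
  have hn := norm_block_le hreg hadm.norm_le hrs hdv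
  have h0 := (entry_le_norm (BE p s ω (ze E η) x) 0 0).trans hn
  have h1 := (entry_le_norm (BE p s ω (ze E η) x) 1 1).trans hn
  have e0 : BE p s ω (ze E η) x 0 0 = Res789.Res (Hm (graphOf p) s ω) (ze E η) x.1 x.1 := rfl
  have e1 : BE p s ω (ze E η) x 1 1 =
    Res789.Res (Hm (graphOf p) s ω) (ze E η) (p x).1 (p x).1 := rfl
  rw [e0] at h0
  rw [e1] at h1
  have h2 := Complex.im_le_norm (Res789.Res (Hm (graphOf p) s ω) (ze E η) x.1 x.1)
  have h3 := Complex.im_le_norm (Res789.Res (Hm (graphOf p) s ω) (ze E η) (p x).1 (p x).1)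
  linarith

open Classical in
/-- the ball of depth `1` -/
theorem card_Sv [NeZero d] (p : Equiv.Perm (HE n d)) (h0 : HE n d) :
    (Spec30.Sv 1 p h0).card ≤ 2 * (d + 1) := by
  have h1 : Spec30.Sv 1 p h0 ⊆ (Finset.univ : Finset (Bool × Option (Fin d))).image
      fun q => bv p h0 q.1 (q.2.elim [] fun k => [k]) := by
    intro v hv
    unfold Spec30.Sv at hv
    rw [Finset.mem_filter] at hv
    obtain ⟨_, s, w, hw, hl, rfl⟩ := hv
    rw [Finset.mem_image]
    match w, hl with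
    | [], _ => exact ⟨(s, none), Finset.mem_univ _, rfl⟩
    | [k], _ => exact ⟨(s, some k), Finset.mem_univ _, rfl⟩
    | _ :: _ :: _, hl => simp at hl
  refine (Finset.card_le_card h1).trans (Finset.card_image_le.trans ?_)
  rw [Finset.card_univ, Fintype.card_prod, Fintype.card_option]
  simp

/-- the fraction of invalid choices -/
theorem pr_inv_le [NeZero d] {L : ℕ} (hn : 0 < n) {p : Equiv.Perm (HE n d)} (hp : IsPort p)
    {h0 : HE n d} (htl : TL L p h0) :
    pr (fun b : BI d L → HE n d => ¬ BVal L p h0 b) ≤ (SwInv356.Cinv d L : ℝ) / n := by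
  classical
  have hne : Nonempty (HE n d) := ⟨(⟨0, hn⟩, ⟨0, Nat.pos_of_ne_zero (NeZero.ne d)⟩)⟩
  have h := SwInv356.card_inv_le hn hp htl
  have hc : (0 : ℝ) < Fintype.card (BI d L → HE n d) := by exact_mod_cast Fintype.card_pos
  unfold pr av
  rw [div_le_iff₀ hc]
  refine le_trans (le_of_eq ?_) h
  rw [Finset.natCast_card_filter]
  refine Finset.sum_congr rfl fun b _ => ?_
  by_cases hb : BVal L p h0 b <;> simp [hb]

end Crest.Agent.R166.H2a
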