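import Crest.Agent.R166.ShapeT_598
import Crest.Agent.R166.GoodE_789
import Crest.Agent.R166.H2a_269
import Crest.Agent.R166.H1_811
import Crest.Agent.R166.Spec31_501

/-!
# Row 166, section 31.3 (helper811): at most two bad inputs

* `E2F d` : the tree estimate (31.2) with an arbitrary block on at most two leaves (helper263);
* `s2p_of` : `E2F d → Spec31.S2P d`;
* `quad_np` : the quadratic bound for the probability of a bad output.
-/

set_option autoImplicit false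
set_option linter.unusedSectionVars false

open Matrix Finset

namespace Crest.Agent.R166.S2P811

open Crest.Agent.R166 Crest.Agent.R166.Stab269 Crest.Agent.R166.TreeT327
open Crest.Agent.R166.SwP470 (BVal TL BI NZ np)
open Crest.Agent.R166.Dec598 (treeOut)
open Crest.Agent.R166.DecP789 (leafT)
open Crest.Agent.R166.Res598 (Siegel Near)
open Crest.Agent.R166.MuU395 (y00 y00_pos adm_of)
open Crest.Agent.R166.Rev811

set_option synthInstance.maxSize 4000
set_option synthInstance.maxHeartbeats 400000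
set_option maxHeartbeats 1000000

/-- **(31.2)** the tree with an arbitrary Siegel block on at most two leaves -/
def E2F (d : ℕ) [NeZero d] : Prop :=
  ∀ y0 : ℝ, 0 < y0 → ∃ C : ℝ, 0 < C ∧ ∃ L0 : ℕ, ∀ L : ℕ, L0 ≤ L → ∃ CL r0 : ℝ, 0 < CL ∧ 0 < r0 ∧
    ∀ z m : ℂ, 0 < z.im → TreeDet350.Adm (d - 1) y0 z m →
      ∀ (V : Tr Bool (NZ d) (L + 1) → ℝ) (sg : ℝ), (∀ x, |V x| ≤ sg) → sg ≤ r0 →
        ∀ A : Finset (Lay Bool (NZ d) (L + 1)), A.card ≤ 2 →
          ∀ Ξ : Matrix (Lay Bool (NZ d) (L + 1)) (Lay Bool (NZ d) (L + 1)) ℂ, Siegel Ξ →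
            (∀ j, j ∉ A → ∀ k, Ξ j k = if k = j then Ξ j j else 0) →
            (∀ j, j ∉ A → ‖Ξ j j - m‖ ≤ r0) → ∀ r r' : Bool,
              ‖treeOut (Res789.Res (hTree V) z) (par L) Ξ (root L r) (root L r') -
                (if r = r' then m else 0)‖ ≤
                C * ‖m‖ ^ (2 * L) + CL * (∑ j ∈ Aᶜ, ‖Ξ j j - m‖ + sg)

section entry

/-- a block near a block with entries close to `m I` -/
lemma bnorm_lt_of_near {m : ℂ} (hm : ‖m‖ ≤ 1) {κ e : ℝ} (hκ : 0 ≤ κ) (he : 0 ≤ e)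
    {Bt B : Matrix (Fin 2) (Fin 2) ℂ} (hN : Near κ Bt B)
    (hB : ∀ i j, ‖Bt i j - (if i = j then m else 0)‖ ≤ e) :
    bnorm (B - m • (1 : Matrix (Fin 2) (Fin 2) ℂ)) ≤ e + κ * (1 + e) := by
  have him : ∀ i, (Bt i i).im ≤ 1 + e := by
    intro i
    have h1 := hB i i
    rw [if_pos rfl] at h1
    have h2 : ‖Bt i i‖ ≤ ‖Bt i i - m‖ + ‖m‖ := by
      have := norm_add_le (Bt i i - m) m
      rwa [sub_add_cancel] at this
    have h3 := Complex.im_le_norm (Bt i i)
    linarith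
  refine Shape395.bnorm_le fun i j => ?_
  have h1 := Shape395.near_entry hN i j
  have h2 : Real.sqrt (Bt i i).im * Real.sqrt (Bt j j).im ≤ 1 + e := by
    have h3 : Real.sqrt (Bt i i).im ≤ Real.sqrt (1 + e) := Real.sqrt_le_sqrt (him i)
    have h4 : Real.sqrt (Bt j j).im ≤ Real.sqrt (1 + e) := Real.sqrt_le_sqrt (him j)
    calc Real.sqrt (Bt i i).im * Real.sqrt (Bt j j).im
        ≤ Real.sqrt (1 + e) * Real.sqrt (1 + e) :=
          mul_le_mul h3 h4 (Real.sqrt_nonneg _) (Real.sqrt_nonneg _)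
      _ = 1 + e := Real.mul_self_sqrt (by linarith)
  have h3 : ‖B i j - Bt i j‖ ≤ κ * (1 + e) := by
    refine h1.trans ?_
    rw [mul_assoc]
    exact mul_le_mul_of_nonneg_left h2 hκ
  have h4 : (B - m • (1 : Matrix (Fin 2) (Fin 2) ℂ)) i j =
      (B i j - Bt i j) + (Bt i j - (if i = j then m else 0)) := by
    rw [Matrix.sub_apply, Matrix.smul_apply, Matrix.one_apply]
    by_cases h : i = j
    · rw [if_pos h, if_pos h, smul_eq_mul, mul_one]; ring
    · rw [if_neg h, if_neg h, smul_zero]; ring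
  rw [h4]
  refine (norm_add_le _ _).trans ?_
  have h5 := hB i j
  linarith

end entry

variable {n d : ℕ} [NeZero d]

/-- reindexing of (31.2) to the leaves `BI d (L+1)` -/
lemma e2_bi {L : ℕ} {C CL r0 : ℝ} {z m : ℂ} {e0 : ℝ}
    (h : ∀ (V : Tr Bool (NZ d) (L + 1) → ℝ) (sg : ℝ), (∀ x, |V x| ≤ sg) → sg ≤ r0 →
        ∀ A : Finset (Lay Bool (NZ d) (L + 1)), A.card ≤ 2 →
          ∀ Ξ : Matrix (Lay Bool (NZ d) (L + 1)) (Lay Bool (NZ d) (L + 1)) ℂ, Siegel Ξ →
            (∀ j, j ∉ A → ∀ k, Ξ j k = if k = j then Ξ j j else 0) →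
            (∀ j, j ∉ A → ‖Ξ j j - m‖ ≤ r0) → ∀ r r' : Bool,
              ‖treeOut (Res789.Res (hTree V) z) (par L) Ξ (root L r) (root L r') -
                (if r = r' then m else 0)‖ ≤
                C * ‖m‖ ^ (2 * L) + CL * (∑ j ∈ Aᶜ, ‖Ξ j j - m‖ + sg))
    (hz : 0 < z.im) (V : Tr Bool (NZ d) (L + 1) → ℝ) (sg : ℝ) (hV : ∀ x, |V x| ≤ sg)
    (hsg : sg ≤ r0) (A : Finset (BI d (L + 1))) (hA : A.card ≤ 2)
    (Ξ : Matrix (BI d (L + 1)) (BI d (L + 1)) ℂ) (hΞ : Siegel Ξ) (hCL : 0 ≤ CL)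
    (hd : ∀ j, j ∉ A → ∀ k, Ξ j k = if k = j then Ξ j j else 0)
    (hr : ∀ j, j ∉ A → ‖Ξ j j - m‖ ≤ r0)
    (he : ∀ j, j ∉ A → ‖Ξ j j - m‖ ≤ e0) (he0 : 0 ≤ e0) (r r' : Bool) :
    ‖treeOut (Res789.Res (hTree V) z) (leafT L) Ξ (root L r) (root L r') -
      (if r = r' then m else 0)‖ ≤
      C * ‖m‖ ^ (2 * L) + CL * (Fintype.card (BI d (L + 1)) * e0 + sg) := by
  classical
  -- the equivalence of the leaves
  set σ : BI d (L + 1) ≃ Lay Bool (NZ d) (L + 1) := layE (L + 1) with hσ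
  have hRT : Siegel (Res789.Res (hTree V) z) := (Res789.Res_sieg (hTree_symm _) hz).siegel
  have hΞ' : Siegel (Ξ.submatrix σ.symm σ.symm) := hΞ.sub σ.symm.injective
  have e1 := Dec598.treeOut_reindex σ hRT (par L) hΞ'
  have e2 : (Ξ.submatrix σ.symm σ.symm).submatrix σ σ = Ξ := by
    ext i j; simp
  rw [e2] at e1
  have e3 : (par L ∘ σ : BI d (L + 1) → Tr Bool (NZ d) (L + 1)) = leafT L := rfl
  rw [e3] at e1
  have key := h V sg hV hsg (A.map σ.toEmbedding) (by rw [Finset.card_map]; exact hA)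
    (Ξ.submatrix σ.symm σ.symm) hΞ' (by
      intro j hj k
      have hj' : σ.symm j ∉ A := fun hc => hj (Finset.mem_map.2 ⟨_, hc, by simp⟩)
      rw [Matrix.submatrix_apply, Matrix.submatrix_apply, hd _ hj']
      by_cases hk : k = j
      · subst hk; simp
      · rw [if_neg hk, if_neg (fun hc => hk (σ.symm.injective hc))]) (by
      intro j hj
      have hj' : σ.symm j ∉ A := fun hc => hj (Finset.mem_map.2 ⟨_, hc, by simp⟩)
      exact hr _ hj') r r'
  rw [e1]
  refine key.trans ?_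
  have hsum : ∑ j ∈ (A.map σ.toEmbedding)ᶜ, ‖(Ξ.submatrix σ.symm σ.symm) j j - m‖ ≤
      Fintype.card (BI d (L + 1)) * e0 := by
    calc ∑ j ∈ (A.map σ.toEmbedding)ᶜ, ‖(Ξ.submatrix σ.symm σ.symm) j j - m‖
        ≤ ∑ _j ∈ (A.map σ.toEmbedding)ᶜ, e0 := by
          refine Finset.sum_le_sum fun j hj => ?_
          have hj' : σ.symm j ∉ A := fun hc => (Finset.mem_compl.1 hj)
            (Finset.mem_map.2 ⟨_, hc, by simp⟩)
          exact he _ hj'
      _ = ((A.map σ.toEmbedding)ᶜ).card * e0 := by rw [Finset.sum_const, nsmul_eq_mul]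
      _ ≤ _ := by
          apply mul_le_mul_of_nonneg_right _ he0
          have h5 : ((A.map σ.toEmbedding)ᶜ).card ≤ Fintype.card (Lay Bool (NZ d) (L + 1)) :=
            Finset.card_le_univ _
          rw [← Fintype.card_congr σ] at h5
          exact_mod_cast h5
  have : CL * (∑ j ∈ (A.map σ.toEmbedding)ᶜ, ‖(Ξ.submatrix σ.symm σ.symm) j j - m‖ + sg) ≤
      CL * (Fintype.card (BI d (L + 1)) * e0 + sg) :=
    mul_le_mul_of_nonneg_left (by linarith) hCL
  linarith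

/-- **(S2)** -/
theorem s2p_of (hd : 3 ≤ d) (hE2 : E2F d) : Spec31.S2P d := by
  classical
  intro A hA0 hA r hr
  have hy0 : 0 < y00 d A := y00_pos (by omega) hA
  have hy1 : y00 d A ≤ 1 := GoodE789.y00_le_one hd hA
  obtain ⟨C, hC, L0, hL0⟩ := hE2 (y00 d A) hy0
  -- the depth
  obtain ⟨l1, hl1⟩ : ∃ l1 : ℕ, C * ((9 / 16 : ℝ)) ^ l1 ≤ r / 8 := by
    have h1 := tendsto_pow_atTop_nhds_zero_of_lt_one (r := (9 / 16 : ℝ)) (by norm_num) (by norm_num)
    have h2 : 0 < r / 8 / C := by positivity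
    have h3 := h1.eventually (gt_mem_nhds h2)
    obtain ⟨l1, h4⟩ := h3.exists
    refine ⟨l1, ?_⟩
    rw [lt_div_iff₀ hC] at h4
    linarith
  refine ⟨max L0 l1 + 1, fun L' hL' _ => ?_⟩
  obtain ⟨L, rfl⟩ : ∃ L, L' = L + 1 := ⟨L' - 1, by omega⟩
  have hLL0 : L0 ≤ L := (le_max_left L0 l1).trans (by omega)
  have hLl1 : l1 ≤ L := (le_max_right L0 l1).trans (by omega)
  obtain ⟨CL, r0, hCL, hr0, key⟩ := hL0 L hLL0
  set N : ℝ := (Fintype.card (BI d (L + 1)) : ℝ) with hN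
  have hN0 : 0 ≤ N := Nat.cast_nonneg _
  set y0 := y00 d A with hy0def
  have hCE := GoodE789.CEc_pos (c := y0 / 8) (by positivity)
  set CE := GoodE789.CEc (y0 / 8) with hCEdef
  -- small total error
  set τ : ℝ := min (1 / 8) (r / (32 * (1 + r))) with hτ
  have hτ0 : 0 < τ := lt_min (by norm_num) (by positivity)
  have hτ1 : τ ≤ 1 / 8 := min_le_left _ _
  have hτ2 : τ * (32 * (1 + r)) ≤ r := by
    have := min_le_right (1 / 8) (r / (32 * (1 + r)))
    rwa [← hτ, le_div_iff₀ (by positivity)] at this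
  set r1 : ℝ := min (min (y0 / 800) r0) (min (τ * y0 / 2) (r / (16 * CL * (N + 1)))) with hr1
  have hr1pos : 0 < r1 := lt_min (lt_min (by positivity) hr0) (lt_min (by positivity) (by positivity))
  have hr1a : r1 ≤ y0 / 800 := (min_le_left _ _).trans (min_le_left _ _)
  have hr1b : r1 ≤ r0 := (min_le_left _ _).trans (min_le_right _ _)
  have hr1c : r1 ≤ τ * y0 / 2 := (min_le_right _ _).trans (min_le_left _ _)
  have hr1d : r1 * (16 * CL * (N + 1)) ≤ r := by
    have := (min_le_right (min (y0 / 800) r0) (min (τ * y0 / 2) (r / (16 * CL * (N + 1))))).trans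
      (min_le_right _ _)
    rwa [← hr1, le_div_iff₀ (by positivity)] at this
  set ε : ℝ := τ / (CE * (N + N ^ 2 + 1)) with hε
  have hε0 : 0 < ε := by positivity
  have hε1 : CE * ((N + N ^ 2) * ε) ≤ τ := by
    have h1 : ε * (CE * (N + N ^ 2 + 1)) = τ := by
      rw [hε]; field_simp
    have h2 : 0 ≤ CE * ε := by positivity
    nlinarith
  set s1 : ℝ := min r0 (r / (16 * CL)) with hs1
  have hs1pos : 0 < s1 := lt_min hr0 (by positivity)
  have hs1a : s1 ≤ r0 := min_le_left _ _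
  have hs1b : s1 * (16 * CL) ≤ r := by
    have := min_le_right r0 (r / (16 * CL))
    rwa [← hs1, le_div_iff₀ (by positivity)] at this
  refine ⟨r1, ε, s1, hr1pos, hε0, hs1pos, ?_⟩
  intro n E s η ω hR hs p hp h0 b hb S hS hadmP
  have hz : 0 < (ze E η).im := by simpa [ze] using hR.η0
  have hadm := adm_of hd hA hR.E hR.η0 hR.η1
  have hm34 := hadm.norm_le
  set z := ze E η with hzdef
  set m := mc d z with hm
  have hrs : GoodE789.RsOK d A r1 := ⟨hr1pos, hr1a⟩
  have hgood : ∀ j, j ∉ S → SpecA.Dv r1 p s ω z (b j) < r1 := fun j hj =>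
    GoodE789.good_of_adm hadmP hj
  -- decoupling
  have hκ : DecP789.cE (DecP789.S0t p h0 L) (ShapeT598.RR p s ω z) p b S (y0 / 8) ≤ τ := by
    refine (GoodE789.cE_le (by positivity) p h0 L b S s ω z).trans ?_
    refine le_trans ?_ hε1
    exact mul_le_mul_of_nonneg_left (GoodE789.cEs_le_of_adm hε0.le hadmP) hCE.le
  obtain ⟨Ξ, g1, g2, g3⟩ := ShapeT598.tree_gen hp hb S s ω hz (c := y0 / 8) (by positivity)
    (fun j hj y => GoodE789.qf_ge hd hA hrs hp hR.E hR.η0 hR.η1 (hgood j hj) y)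
    (ρ := τ) hτ0.le (by linarith) (by
      intro j hj
      have h1 := GoodE789.off_le (hgood j hj) (i := 0) (j := 1) (by decide)
      have h2 := GoodE789.im_ge hd hA hrs hR.E hR.η0 hR.η1 (hgood j hj) 0
      have h3 := GoodE789.im_ge hd hA hrs hR.E hR.η0 hR.η1 (hgood j hj) 1
      have h4 : y0 / 2 ≤ Real.sqrt (B0 p s ω z (b j) 0 0).im *
          Real.sqrt (B0 p s ω z (b j) 1 1).im := by
        calc y0 / 2 = Real.sqrt (y0 / 2) * Real.sqrt (y0 / 2) :=
              (Real.mul_self_sqrt (by positivity)).symm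
          _ ≤ _ := mul_le_mul (Real.sqrt_le_sqrt h2) (Real.sqrt_le_sqrt h3)
              (Real.sqrt_nonneg _) (Real.sqrt_nonneg _)
      have h5 := (hgood j hj).le
      calc ‖B0 p s ω z (b j) 0 1‖ ≤ r1 := h1.trans h5
        _ ≤ τ * (y0 / 2) := by linarith
        _ ≤ _ := mul_le_mul_of_nonneg_left h4 hτ0.le) hκ (by linarith)
  -- the tree
  have hΞd : ∀ j, j ∉ S → Ξ j j = B0 p s ω z (b j) 0 0 := by
    intro j hj
    rw [g2 j hj j, if_pos rfl]
  have hdev : ∀ j, j ∉ S → ‖Ξ j j - m‖ ≤ r1 := by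
    intro j hj
    rw [hΞd j hj]
    exact (GoodE789.entry_sub_le (hgood j hj) 0).trans (hgood j hj).le
  have htree := fun r' r'' => e2_bi (key z m hz hadm) hz (DecP789.Vt p h0 (L + 1) s ω) s1
    (fun x => by
      unfold DecP789.Vt
      rw [abs_mul]
      calc |s| * |ω (DecP789.phi p h0 (L + 1) x)| ≤ |s| * 1 :=
            mul_le_mul_of_nonneg_left (hR.ω _) (abs_nonneg _)
        _ ≤ s1 := by rw [mul_one]; exact hs) hs1a S hS Ξ g1 hCL.le
    (fun j hj k => by rw [g2 j hj k, g2 j hj j, if_pos rfl])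
    (fun j hj => (hdev j hj).trans hr1b) hdev hr1pos.le r' r''
  set e : ℝ := C * ‖m‖ ^ (2 * L) + CL * (N * r1 + s1) with he
  have he0 : 0 ≤ e := by positivity
  have he1 : e ≤ r / 4 := by
    have h1 : C * ‖m‖ ^ (2 * L) ≤ r / 8 := by
      refine le_trans (mul_le_mul_of_nonneg_left ?_ hC.le) hl1
      calc ‖m‖ ^ (2 * L) = (‖m‖ ^ 2) ^ L := by rw [pow_mul]
        _ ≤ (9 / 16 : ℝ) ^ L := by
            apply pow_le_pow_left₀ (sq_nonneg _)
            calc ‖m‖ ^ 2 ≤ (3 / 4 : ℝ) ^ 2 := pow_le_pow_left₀ (norm_nonneg _) hm34 2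
              _ = 9 / 16 := by norm_num
        _ ≤ (9 / 16 : ℝ) ^ l1 := pow_le_pow_of_le_one (by norm_num) (by norm_num) hLl1
    have h2 : CL * (N * r1) ≤ r / 16 := by
      have h3 : 0 ≤ r1 * CL := by positivity
      nlinarith
    have h4 : CL * s1 ≤ r / 16 := by nlinarith
    rw [he]
    linarith
  have hfin := bnorm_lt_of_near (m := m) (hm34.trans (by norm_num)) (κ := 4 * τ + 4 * τ)
    (by positivity) he0 g3 (by
      intro i j
      have h1 : ∀ x : Fin 2, (![root L false, root L true] x : Tr Bool (NZ d) (L + 1)) =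
          root L (if x = 0 then false else true) := by
        intro x; fin_cases x <;> rfl
      rw [Matrix.submatrix_apply, h1, h1]
      have h2 := htree (if i = 0 then false else true) (if j = 0 then false else true)
      have h3 : ((if i = 0 then false else true) = (if j = 0 then false else true)) ↔ i = j := by
        fin_cases i <;> fin_cases j <;> simp
      simp only [h3] at h2
      exact h2)
  have hlast : e + (4 * τ + 4 * τ) * (1 + e) < r := by
    have h1 : (4 * τ + 4 * τ) * (1 + e) ≤ (8 * τ) * (1 + r) := by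
      have : e ≤ r := by linarith
      nlinarith
    nlinarith
  unfold SpecA.dev
  exact lt_of_le_of_lt hfin hlast

/-- number of ball vertices -/
def nS (d L : ℕ) [NeZero d] : ℕ :=
  Fintype.card (Tr Bool (NZ d) (L + 1)) + Fintype.card (BI d (L + 1))

lemma card_Sv_le (p : Equiv.Perm (HE n d)) (h0 : HE n d) (L : ℕ) :
    (Spec30.Sv (L + 1) p h0).card ≤ nS d L := by
  rw [← GoodE789.S0t_eq]
  exact DecP789.card_S0_le _ _ _

/-- admissibility is monotone in the threshold -/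
lemma admP_mono {L : ℕ} {r1 r2 ε : ℝ} (h12 : r1 ≤ r2) {p : Equiv.Perm (HE n d)} {s : ℝ}
    {ω : Fin n → ℝ} {z : ℂ} {h0 : HE n d} {A : Finset (BI d L)} {b : BI d L → HE n d}
    (h : Spec30.AdmP L r1 ε p s ω z h0 A b) : Spec30.AdmP L r2 ε p s ω z h0 A b := by
  refine ⟨fun j hj hw => ?_, h.2⟩
  apply h.1 j hj
  rcases hw with hw | hw
  · left
    have h1 : r2 ≤ min r2 (SpecA.dev p s ω z (b j)) := hw
    have h2 : r2 ≤ SpecA.dev p s ω z (b j) := (le_min_iff.1 h1).2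
    exact le_min le_rfl (h12.trans h2)
  · exact Or.inr hw

/-- **(31.3)** the quadratic bound for the probability of a bad output -/
theorem quad_np (hd : 3 ≤ d) (h : Spec31.S2P d) :
    ∀ A : ℝ, 0 < A → A ^ 2 < 4 * ((d : ℝ) - 1) → ∀ r : ℝ, 0 < r →
      ∃ L0 : ℕ, ∀ L : ℕ, L0 ≤ L → 1 ≤ L → ∃ r1 s1 C : ℝ, 0 < r1 ∧ 0 < s1 ∧ 0 < C ∧
        ∀ (n : ℕ) (E s η : ℝ) (ω : Fin n → ℝ), Spec30.Rng A n E s η ω → |s| ≤ s1 →
          ∀ p : Equiv.Perm (HE n d), IsPort p → ∀ h0 : HE n d,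
            pr (fun b : BI d L → HE n d => BVal L p h0 b ∧
              r ≤ SpecA.dev (np p h0 b) s ω (ze E η) h0) ≤
              C * (pr1 (fun x : HE n d => r1 ≤ SpecA.dev p s ω (ze E η) x) + 1 / (n * η)) ^ 2 := by
  classical
  intro A hA0 hA r hr
  obtain ⟨L0, hL0⟩ := h A hA0 hA r hr
  refine ⟨L0, fun L' hL' hL1 => ?_⟩
  obtain ⟨r2, ε, s1, hr2, hε, hs1, key⟩ := hL0 L' hL' hL1
  obtain ⟨L, rfl⟩ : ∃ L, L' = L + 1 := ⟨L' - 1, by omega⟩
  set r1 : ℝ := min r2 (1 / 16) with hr1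
  have hr1pos : 0 < r1 := lt_min hr2 (by norm_num)
  set N := Fintype.card (BI d (L + 1)) with hN
  set q : ℝ := (2 * ((nS d L : ℝ) + 4) + 2 * 14) / ε ^ 2 with hq
  have hq0 : 0 < q := by positivity
  refine ⟨r1, s1, 4 * (N : ℝ) ^ 4 * (1 + q) ^ 2 + 1, hr1pos, hs1, by positivity, ?_⟩
  intro n E s η ω hR hs p hp h0
  have hn := hR.n0
  have hη := hR.η0
  have hnR : (0 : ℝ) < n := by exact_mod_cast hn
  have hz : 0 < (ze E η).im := by simpa [ze] using hR.η0
  have hzi : (ze E η).im = η := by simp [ze]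
  set Dt : (BI d (L + 1) → HE n d) → ℝ := fun b =>
    if BVal (L + 1) p h0 b then SpecA.dev (np p h0 b) s ω (ze E η) h0 else 0 with hDt
  have h1 := pr_bad_le (N := N) (s0 := nS d L) (M := 14) (r := r) (r1 := r1) (ε := ε)
    (by norm_num) hε rfl (by omega : 0 < d) (Hm_symm (graphOf p) s ω) hz hn p
    (Spec30.Sv (L + 1) p h0) (card_Sv_le p h0 L) (fun x => SpecA.Dv r1 p s ω (ze E η) x)
    (fun x hx => H2a.im_good hd hA hR.E hR.η0 hR.η1 (min_le_right _ _) hp x hx) Dt (by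
      intro b S hS hadm
      simp only [hDt]
      by_cases hb : BVal (L + 1) p h0 b
      · rw [if_pos hb]
        exact key n E s η ω hR hs p hp h0 b hb S hS (admP_mono (min_le_left _ _) hadm)
      · rw [if_neg hb]; exact hr)
  have h2 : pr (fun b : BI d (L + 1) → HE n d => BVal (L + 1) p h0 b ∧
      r ≤ SpecA.dev (np p h0 b) s ω (ze E η) h0) ≤ pr (fun e => r ≤ Dt e) := by
    apply pr_mono
    intro b hb
    simp only [hDt]
    rw [if_pos hb.1]
    exact hb.2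
  have h3 : pr1 (fun x => r1 ≤ SpecA.Dv r1 p s ω (ze E η) x) ≤
      pr1 (fun x : HE n d => r1 ≤ SpecA.dev p s ω (ze E η) x) := by
    apply pr1_mono
    intro x hx
    exact (le_min_iff.1 hx).2
  have h30 := pr1_nonneg (fun x : HE n d => r1 ≤ SpecA.Dv r1 p s ω (ze E η) x)
  set P := pr1 (fun x : HE n d => r1 ≤ SpecA.dev p s ω (ze E η) x) with hP
  have hP0 : 0 ≤ P := h30.trans h3
  rw [hzi] at h1
  have hk : 0 ≤ 1 / ((n : ℝ) * η) := by positivity
  have h4 : (pr1 (fun x => r1 ≤ SpecA.Dv r1 p s ω (ze E η) x) + q / (n * η)) ^ 2 ≤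
      ((1 + q) * (P + 1 / (n * η))) ^ 2 := by
    apply pow_le_pow_left₀ (by positivity)
    have h5 : q / (n * η) = q * (1 / (n * η)) := by ring
    rw [h5]
    nlinarith [mul_nonneg hq0.le hP0]
  calc _ ≤ _ := h2
    _ ≤ _ := h1
    _ ≤ 4 * (N : ℝ) ^ 4 * ((1 + q) * (P + 1 / (n * η))) ^ 2 :=
        mul_le_mul_of_nonneg_left h4 (by positivity)
    _ = 4 * (N : ℝ) ^ 4 * (1 + q) ^ 2 * (P + 1 / (n * η)) ^ 2 := by ring
    _ ≤ _ := mul_le_mul_of_nonneg_right (by linarith) (sq_nonneg _)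

end Crest.Agent.R166.S2P811
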