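import Crest.Agent.R166.CleanOut4_501
import Crest.Agent.R166.Quad_566
import Crest.Agent.R166.StepAll_269
import Crest.Agent.R166.S2P_811
import Crest.Agent.R166.TreeE2_263

/-!
Row 166, section 31 (helper501): all the outputs of the clean case, unconditional.
-/

set_option autoImplicit false

namespace Crest.Agent.R166.Out501

open Finset MeasureTheory Crest.ProbabilityR.RandomMatrix Crest.Agent.R166
open Crest.Agent.R166.Exc501 (bl nb EL NM)

/-- (31.2) -/
theorem s2p {d : ℕ} [NeZero d] (hd : 3 ≤ d) : Spec31.S2P d :=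
  S2P811.s2p_of hd (TreeE2263.e2 d)


/-- **all the outputs of the clean case `s = 0`** -/
theorem outputs_clean {d : ℕ} [NeZero d] (hd : 3 ≤ d) {E : ℝ} (hE : E ^ 2 < 4 * ((d : ℝ) - 1)) :
    ImLim d 0 E (kestenMcKayDensity d E) ∧ ImFix d 0 E (kestenMcKayDensity d E) ∧
      LocLim d 0 E ∧ NoEsc d 0 E ∧ NonDeg d 0 E ∧ ∀ r : ℝ, 0 < r → NearClean d 0 E r := by
  obtain ⟨L, _, h⟩ := Clean566.uniEscTL hd hE (StepAll.stepL hd) (s2p hd) (StepAll.thmA hd)
  refine clean_outputs hd hE (BlkLaw355.out_blkLaw0 hd (StepAll.thmA hd) hE) ?_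
  refine uip_of_uniEsc (L := L + 1) (fun n p hp v he => ?_) h
  exact excTL_EL (by omega) L hp ⟨0, he 0⟩

end Crest.Agent.R166.Out501
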