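import Crest.Agent.R166.ExcC_501
import Crest.Agent.R166.Spine_419
import Crest.Agent.R166.Ports_269

/-!
Row 166, section 31 (helper501): outputs of the clean case, part 1: from the tail bound on tree-like
vertices (`UI0`) to the full uniform integrability (`UIf`) and `NoEsc d 0 E`.
-/

set_option autoImplicit false

namespace Crest.Agent.R166.Out501

open Finset Classical MeasureTheory Crest.ProbabilityR.RandomMatrix Crest.Agent.R166
open Crest.Agent.R166.Exc501 (bl nb EL NM)

noncomputable section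

/-- "the fraction of regular graphs violating `Q` is at most `ε`". -/
def FracLe (n d : ℕ) (ε : ℝ) (Q : SimpleGraph (Fin n) → Prop) : Prop :=
  (((regularGraphs n d).filter fun G => ¬ Q G).card : ℝ) ≤ ε * (regularGraphs n d).card

lemma FracLe.mono {n d : ℕ} {ε ε' : ℝ} {Q Q' : SimpleGraph (Fin n) → Prop}
    (h : FracLe n d ε Q) (hε : ε ≤ ε') (hQ : ∀ G ∈ regularGraphs n d, Q G → Q' G) :
    FracLe n d ε' Q' := by
  unfold FracLe at *
  calc (((regularGraphs n d).filter fun G => ¬ Q' G).card : ℝ) ≤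
        (((regularGraphs n d).filter fun G => ¬ Q G).card : ℝ) := by
        exact_mod_cast Finset.card_le_card (by
          intro G hG
          rw [Finset.mem_filter] at hG ⊢
          exact ⟨hG.1, fun h' => hG.2 (hQ G hG.1 h')⟩)
    _ ≤ ε * (regularGraphs n d).card := h
    _ ≤ ε' * (regularGraphs n d).card := by gcongr

lemma FracLe.and_of {n d : ℕ} {ε ε' : ℝ} {Q Q' Q'' : SimpleGraph (Fin n) → Prop}
    (h : FracLe n d ε Q) (h' : FracLe n d ε' Q') (hQ : ∀ G ∈ regularGraphs n d, Q G → Q' G → Q'' G) :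
    FracLe n d (ε + ε') Q'' := by
  unfold FracLe at *
  have hsub : ((regularGraphs n d).filter fun G => ¬ Q'' G) ⊆
      ((regularGraphs n d).filter fun G => ¬ Q G) ∪ ((regularGraphs n d).filter fun G => ¬ Q' G) := by
    intro G hG
    rw [Finset.mem_filter] at hG
    rw [Finset.mem_union, Finset.mem_filter, Finset.mem_filter]
    by_cases hq : Q G
    · exact Or.inr ⟨hG.1, fun hq' => hG.2 (hQ G hG.1 hq hq')⟩
    · exact Or.inl ⟨hG.1, hq⟩
  have h1 : (((regularGraphs n d).filter fun G => ¬ Q'' G).card : ℝ) ≤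
      (((regularGraphs n d).filter fun G => ¬ Q G).card : ℝ) +
      (((regularGraphs n d).filter fun G => ¬ Q' G).card : ℝ) := by
    exact_mod_cast (Finset.card_le_card hsub).trans (Finset.card_union_le _ _)
  refine h1.trans ?_
  rw [add_mul]
  exact add_le_add h h'

lemma FracLe.and {n d : ℕ} {ε ε' : ℝ} {Q Q' : SimpleGraph (Fin n) → Prop}
    (h : FracLe n d ε Q) (h' : FracLe n d ε' Q') : FracLe n d (ε + ε') (fun G => Q G ∧ Q' G) :=
  h.and_of h' fun _ _ h1 h2 => ⟨h1, h2⟩

/-- Markov inequality for graph functionals -/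
lemma fracLe_of_sum_le {n d : ℕ} {C T : ℝ} (hT : 0 < T) (f : SimpleGraph (Fin n) → ℝ)
    (hf : ∀ G, 0 ≤ f G)
    (h : ∑ G ∈ regularGraphs n d, f G ≤ C * (regularGraphs n d).card) :
    FracLe n d (C / T) (fun G => f G ≤ T) := by
  unfold FracLe
  have h1 : (((regularGraphs n d).filter fun G => ¬ (f G ≤ T)).card : ℝ) * T ≤
      ∑ G ∈ regularGraphs n d, f G := by
    calc (((regularGraphs n d).filter fun G => ¬ (f G ≤ T)).card : ℝ) * T
        = ∑ _G ∈ (regularGraphs n d).filter fun G => ¬ (f G ≤ T), T := by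
          rw [Finset.sum_const, nsmul_eq_mul]
      _ ≤ ∑ G ∈ (regularGraphs n d).filter fun G => ¬ (f G ≤ T), f G := by
          refine Finset.sum_le_sum fun G hG => ?_
          rw [Finset.mem_filter] at hG
          exact (not_le.1 hG.2).le
      _ ≤ ∑ G ∈ regularGraphs n d, f G :=
          Finset.sum_le_sum_of_subset_of_nonneg (Finset.filter_subset _ _) fun G _ _ => hf G
  rw [div_mul_eq_mul_div, le_div_iff₀ hT]
  linarith

/-- from fractions of graphs to `Whp`. -/
theorem whp_of_fracLe {n d : ℕ} {ε : ℝ} (hne : (regularGraphs n d).Nonempty)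
    {Q : SimpleGraph (Fin n) → Prop} {P : SimpleGraph (Fin n) → (Fin n → ℝ) → Prop}
    (h : FracLe n d ε Q) (hQP : ∀ G ∈ regularGraphs n d, Q G → ∀ ω, P G ω) : Whp n d ε P := by
  unfold Whp law
  have hcard : (0 : ℝ) < (regularGraphs n d).card := by exact_mod_cast Finset.card_pos.2 hne
  -- bad graphs
  have hsub : {x : SimpleGraph (Fin n) × (Fin n → ℝ) | ¬ P x.1 x.2} ⊆
      {G | G ∉ regularGraphs n d ∨ ¬ Q G} ×ˢ (Set.univ : Set (Fin n → ℝ)) := by
    intro x hx
    rw [Set.mem_prod]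
    refine ⟨?_, Set.mem_univ _⟩
    by_contra hcon
    simp only [Set.mem_ofPred_eq, not_or, not_not] at hcon
    exact hx (hQP x.1 hcon.1 hcon.2 x.2)
  refine (measure_mono hsub).trans ?_
  rw [Measure.prod_prod, measure_univ, mul_one]
  unfold gLaw
  rw [Measure.smul_apply, Measure.finsetSum_apply, smul_eq_mul]
  have h1 : ∑ G ∈ regularGraphs n d,
      (Measure.dirac G) {G : SimpleGraph (Fin n) | G ∉ regularGraphs n d ∨ ¬ Q G} =
      (((regularGraphs n d).filter fun G => ¬ Q G).card : ENNReal) := by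
    rw [Finset.card_filter]
    push_cast
    refine Finset.sum_congr rfl fun G hG => ?_
    rw [Measure.dirac_apply]
    by_cases hq : Q G
    · simp [hq, hG]
    · simp [hq]
  rw [h1]
  have h2 : (((regularGraphs n d).card : ENNReal))⁻¹ *
      (((regularGraphs n d).filter fun G => ¬ Q G).card : ENNReal) =
      ENNReal.ofReal ((((regularGraphs n d).filter fun G => ¬ Q G).card : ℝ) /
        (regularGraphs n d).card) := by
    rw [ENNReal.ofReal_div_of_pos hcard, ENNReal.ofReal_natCast, ENNReal.ofReal_natCast,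
      ENNReal.div_eq_inv_mul]
  rw [h2]
  apply ENNReal.ofReal_le_ofReal
  rw [div_le_iff₀ hcard]
  exact h

variable {n : ℕ}

/-- adjacency matrix in the form `Hm G 0 0` -/
abbrev A0 (G : SimpleGraph (Fin n)) : Matrix (Fin n) (Fin n) ℝ := Hm G 0 (fun _ => 0)

lemma Hm_zero (G : SimpleGraph (Fin n)) (ω : Fin n → ℝ) : Hm G 0 ω = A0 G := by
  unfold A0 Hm
  simp

lemma A0_apply (G : SimpleGraph (Fin n)) (x y : Fin n) :
    A0 G x y = (if G.Adj x y then 1 else 0) + (if x = y then (0 : ℝ) else 0) := by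
  unfold A0 Hm
  simp [SimpleGraph.adjMatrix_apply]

lemma A0_symm (G : SimpleGraph (Fin n)) : (A0 G).transpose = A0 G := by
  ext x y
  rw [Matrix.transpose_apply, A0_apply, A0_apply]
  simp [G.adj_comm]

lemma mem_regularGraphs {d : ℕ} {G : SimpleGraph (Fin n)} :
    G ∈ regularGraphs n d ↔ Exc501.Reg G d := by
  unfold regularGraphs Exc501.Reg nb
  rw [Finset.mem_filter]
  simp

lemma zz_im {E K : ℝ} : (zz E K n).im = K / n := by
  simp [zz]

lemma zz_re {E K : ℝ} : (zz E K n).re = E := by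
  simp [zz]

/-- tail of the diagonal entries on the tree-like vertices (`¬ EL`). -/
def tailT (G : SimpleGraph (Fin n)) (E K M : ℝ) (L : ℕ) : ℝ :=
  vAvg fun v => if ¬ EL G L v ∧ M < ‖Res (A0 G) (zz E K n) v v‖ then
    ‖Res (A0 G) (zz E K n) v v‖ else 0

/-- tail of all the diagonal entries. -/
def tailA (G : SimpleGraph (Fin n)) (E K M : ℝ) : ℝ :=
  vAvg fun v => if M < ‖Res (A0 G) (zz E K n) v v‖ then
    ‖Res (A0 G) (zz E K n) v v‖ else 0

/-- output of 31.4. -/
def UI0 (d : ℕ) (E : ℝ) : Prop :=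
  ∃ L : ℕ, ∀ κ : ℝ, 0 < κ → ∀ ε : ℝ, 0 < ε → ∃ M : ℝ, ∀ K : ℝ, κ ≤ K → ∃ N : ℕ, ∀ n : ℕ, N ≤ n →
    (regularGraphs n d).Nonempty → FracLe n d ε (fun G => tailT G E K M L ≤ ε)

/-- full uniform integrability, uniformly in `K ≥ κ`. -/
def UIf (d : ℕ) (E : ℝ) : Prop :=
  ∀ κ : ℝ, 0 < κ → ∀ ε : ℝ, 0 < ε → ∃ M : ℝ, ∀ K : ℝ, κ ≤ K → ∃ N : ℕ, ∀ n : ℕ, N ≤ n →
    (regularGraphs n d).Nonempty → FracLe n d ε (fun G => tailA G E K M ≤ ε)

lemma vAvg_mono {f g : Fin n → ℝ} (h : ∀ v, f v ≤ g v) : vAvg f ≤ vAvg g := by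
  unfold vAvg
  exact div_le_div_of_nonneg_right (Finset.sum_le_sum fun v _ => h v) (Nat.cast_nonneg _)

lemma tailT_antitone {G : SimpleGraph (Fin n)} {E K M M' : ℝ} {L : ℕ} (h : M ≤ M') :
    tailT G E K M' L ≤ tailT G E K M L := by
  unfold tailT
  refine vAvg_mono fun v => ?_
  split_ifs with h1 h2 h2
  · exact le_rfl
  · exact absurd ⟨h1.1, h.trans_lt h1.2⟩ h2
  · positivity
  · exact le_rfl

/-- deterministic step: bound of `‖R_vv‖` at an exceptional vertex. -/
theorem exc_vertex_bound {d L M0 : ℕ} (hd3 : 3 ≤ d) {G : SimpleGraph (Fin n)}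
    (hG : G ∈ regularGraphs n d) (hNM : NM G M0) (hM1 : (d+1)^(2*L+1) ≤ M0)
    (hM2 : 2*(d+1)^L + 1 ≤ M0) {E K M ε : ℝ} (hn : 0 < n) (hK : 0 < K) (hM : 0 ≤ M) (hε : 0 ≤ ε)
    (htail : tailT G E K M L ≤ ε) {v : Fin n} (hv : EL G L v) :
    ‖Res (A0 G) (zz E K n) v v‖ ≤
      (|E| + d + 1)^(2*L+1) * (Real.sqrt ((M + n * ε) / (K / n)) + 2) := by
  have hreg := mem_regularGraphs.1 hG
  have hnR : (0:ℝ) < n := by exact_mod_cast hn
  have hz : 0 < (zz E K n).im := by rw [zz_im]; positivity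
  have hB : ∀ w : Fin n, ¬ EL G L w → ‖Res (A0 G) (zz E K n) w w‖ ≤ M + n * ε := by
    intro w hw
    by_cases hlt : M < ‖Res (A0 G) (zz E K n) w w‖
    · have h1 : ‖Res (A0 G) (zz E K n) w w‖ / n ≤ tailT G E K M L := by
        unfold tailT vAvg
        refine div_le_div_of_nonneg_right ?_ (Nat.cast_nonneg _)
        have h5 := Finset.single_le_sum (s := (Finset.univ : Finset (Fin n))) (f := fun v =>
          if ¬ EL G L v ∧ M < ‖Res (A0 G) (zz E K n) v v‖ then
            ‖Res (A0 G) (zz E K n) v v‖ else 0) (fun v _ => by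
              split_ifs <;> positivity) (Finset.mem_univ w)
        refine le_trans (le_of_eq ?_) h5
        rw [if_pos ⟨hw, hlt⟩]
      have h2 := h1.trans htail
      rw [div_le_iff₀ hnR] at h2
      linarith
    · have : 0 ≤ n * ε := by positivity
      linarith [not_lt.1 hlt]
  have key := Exc501.res_center_le (v := v) (r := 2*L) hreg hd3 hM1 hNM
    (H := A0 G) (q := fun _ => 0) (fun x y => A0_apply G x y) hz (E0 := |E|) (B := M + n * ε)
    (by intro x; simp [zz_re]) (by
      intro w hw hw'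
      have hwn : ¬ EL G L w := Exc501.not_EL_of_annulus hreg hM2 hNM hv
        (by simpa using hw) hw'
      exact (Complex.im_le_norm _).trans (hB w hwn))
  rw [zz_im] at key
  exact key

/-- number of exceptional vertices -/
def nExc (G : SimpleGraph (Fin n)) (L : ℕ) : ℝ := ((Finset.univ.filter fun v => EL G L v).card : ℝ)

theorem uif_of_ui0 {d : ℕ} (hd3 : 3 ≤ d) {E : ℝ} (h : UI0 d E) : UIf d E := by
  obtain ⟨L, hL⟩ := h
  intro κ hκ ε hε
  set M0 : ℕ := (d+1)^(2*L+1) + (2*(d+1)^L + 1) with hM0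
  -- bound on the number of exceptional vertices
  set CEE : ℝ := Exc501.CE d ((d+1)^L) with hCEE
  have hCE0 : 0 ≤ CEE := by rw [hCEE]; unfold Exc501.CE; positivity
  set T : ℝ := 4 * (CEE + 1) / ε with hT
  have hT0 : 0 < T := by rw [hT]; positivity
  set C : ℝ := (|E| + d + 1)^(2*L+1) with hC
  have hC0 : 0 < C := by rw [hC]; positivity
  -- choice of ε1
  set x : ℝ := ε / (8 * T * C) with hx
  have hx0 : 0 < x := by rw [hx]; positivity
  set ε1 : ℝ := min (ε / 4) (κ * x ^ 2 / 2) with hε1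
  have hε1' : 0 < ε1 := by rw [hε1]; positivity
  obtain ⟨M, hM⟩ := hL κ hκ ε1 hε1'
  refine ⟨max M 0, fun K hK => ?_⟩
  obtain ⟨N1, hN1⟩ := hM K hK
  -- thresholds on n
  obtain ⟨N2, hN2⟩ := exists_nat_ge (4 * Sw798.CM d M0 / ε)
  obtain ⟨N3, hN3⟩ := exists_nat_ge (2 * (max M 0) / (κ * x ^ 2))
  obtain ⟨N4, hN4⟩ := exists_nat_ge (16 * T * C / ε)
  refine ⟨max (max N1 N2) (max (max N3 N4) 1), fun n hn hne => ?_⟩
  have hn1 : N1 ≤ n := le_trans (le_max_left _ _) (le_trans (le_max_left _ _) hn)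
  have hn2 : N2 ≤ n := le_trans (le_max_right _ _) (le_trans (le_max_left _ _) hn)
  have hn3 : N3 ≤ n := le_trans (le_max_left _ _) (le_trans (le_max_left _ _)
    (le_trans (le_max_right _ _) hn))
  have hn4 : N4 ≤ n := le_trans (le_max_right _ _) (le_trans (le_max_left _ _)
    (le_trans (le_max_right _ _) hn))
  have hn5 : 1 ≤ n := le_trans (le_max_right _ _) (le_trans (le_max_right _ _) hn)
  have hnR : (0:ℝ) < n := by exact_mod_cast hn5
  have hKpos : 0 < K := hκ.trans_le hK
  have f1 := hN1 n hn1 hne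
  have f2 : FracLe n d (ε / 4) (fun G => NM G M0) := by
    unfold FracLe
    have h1 := Exc501.card_not_NM_le (V := Fin n) (d := d) (by omega) M0
    rw [← Sw798.regularGraphs_eq] at h1
    refine h1.trans ?_
    refine mul_le_mul_of_nonneg_right ?_ (Nat.cast_nonneg _)
    rw [Fintype.card_fin, div_le_iff₀ hnR]
    have h2 : 4 * Sw798.CM d M0 / ε ≤ n := hN2.trans (by exact_mod_cast hn2)
    rw [div_le_iff₀ hε] at h2
    linarith
  have f3 : FracLe n d (ε / 4) (fun G => nExc G L ≤ T) := by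
    have h1 := Exc501.sum_card_EL_le (V := Fin n) (d := d) (by omega) L
    rw [← Sw798.regularGraphs_eq] at h1
    have h2 := fracLe_of_sum_le (n := n) (d := d) (C := CEE) hT0 (fun G => nExc G L)
      (fun G => Nat.cast_nonneg _) h1
    refine h2.mono ?_ (fun _ _ h => h)
    rw [hT]
    rw [div_div_eq_mul_div, div_le_div_iff₀ (by positivity) (by norm_num)]
    nlinarith
  refine ((f1.and f2).and f3).mono ?_ ?_
  · have : ε1 ≤ ε / 4 := min_le_left _ _
    linarith
  · rintro G hG ⟨⟨h1, h2⟩, h3⟩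
    have h1' : tailT G E K (max M 0) L ≤ ε1 := (tailT_antitone (le_max_left _ _)).trans h1
    have hbd : ∀ v, EL G L v → ‖Res (A0 G) (zz E K n) v v‖ ≤
        C * (Real.sqrt ((max M 0 + n * ε1) / (K / n)) + 2) := by
      intro v hv
      exact exc_vertex_bound hd3 hG h2 (by omega) (by omega) (by omega) hKpos
        (le_max_right _ _) hε1'.le h1' hv
    -- the square root
    have hsq : Real.sqrt ((max M 0 + n * ε1) / (K / n)) ≤ n * x := by
      apply Real.sqrt_le_iff.2
      refine ⟨by positivity, ?_⟩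
      rw [div_le_iff₀ (by positivity)]
      have e1 : max M 0 ≤ n * (κ * x ^ 2 / 2) := by
        have : 2 * (max M 0) / (κ * x ^ 2) ≤ n := hN3.trans (by exact_mod_cast hn3)
        rw [div_le_iff₀ (by positivity)] at this
        linarith
      have e2 : ε1 ≤ κ * x ^ 2 / 2 := min_le_right _ _
      have e3 : (n:ℝ) * ε1 ≤ n * (κ * x ^ 2 / 2) := by gcongr
      calc max M 0 + n * ε1 ≤ n * (κ * x ^ 2) := by linarith
        _ ≤ n * (K * x ^ 2) := by gcongr
        _ = (n * x) ^ 2 * (K / n) := by field_simp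
    have hsplit : tailA G E K (max M 0) ≤ tailT G E K (max M 0) L +
        nExc G L * (C * (n * x + 2)) / n := by
      unfold tailA tailT vAvg nExc
      rw [← add_div]
      gcongr
      rw [Finset.card_filter]
      push_cast
      rw [Finset.sum_mul, ← Finset.sum_add_distrib]
      refine Finset.sum_le_sum fun v _ => ?_
      by_cases hv : EL G L v
      · have hb := hbd v hv
        have hb2 : ‖Res (A0 G) (zz E K n) v v‖ ≤ C * (n * x + 2) := hb.trans (by gcongr)
        have hb3 : 0 ≤ C * (n * x + 2) := by positivity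
        simp only [hv, not_true_eq_false, false_and, if_false, if_true, one_mul, zero_add]
        split_ifs
        · exact hb2
        · exact hb3
      · simp [hv]
    have hfin : nExc G L * (C * (n * x + 2)) / n ≤ ε / 4 := by
      have e1 : nExc G L * (C * (n * x + 2)) ≤ T * (C * (n * x + 2)) := by gcongr
      have e2 : T * (C * (n * x)) = n * (ε / 8) := by
        rw [hx]; field_simp
      have e3 : T * (C * 2) ≤ n * (ε / 8) := by
        have : 16 * T * C / ε ≤ n := hN4.trans (by exact_mod_cast hn4)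
        rw [div_le_iff₀ hε] at this
        linarith
      rw [div_le_iff₀ hnR]
      calc nExc G L * (C * (n * x + 2)) ≤ T * (C * (n * x + 2)) := e1
        _ = T * (C * (n * x)) + T * (C * 2) := by ring
        _ ≤ ε / 4 * n := by linarith
    have : ε1 ≤ ε / 4 := min_le_left _ _
    linarith

/-- no mass escape in the clean case. -/
theorem noEsc_of_uif {d : ℕ} {E : ℝ} (h : UIf d E) : NoEsc d 0 E := by
  intro K hK ε hε
  obtain ⟨M, hM⟩ := h K hK ε hε
  obtain ⟨N, hN⟩ := hM K le_rfl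
  refine ⟨M, max N 1, fun n hn hne => ?_⟩
  have hnN : N ≤ n := le_trans (le_max_left _ _) hn
  have hn1 : 1 ≤ n := le_trans (le_max_right _ _) hn
  have hnR : (0:ℝ) < n := by exact_mod_cast hn1
  refine whp_of_fracLe hne (hN n hnN hne) ?_
  intro G _ hQ ω
  rw [Hm_zero]
  refine le_trans ?_ hQ
  unfold tailA
  refine vAvg_mono fun v => ?_
  have h1 : (Res (A0 G) (zz E K n) v v).im ≤ ‖Res (A0 G) (zz E K n) v v‖ := Complex.im_le_norm _
  split_ifs with h2 h3 h3
  · exact h1
  · exact absurd (h2.trans_le h1) h3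
  · positivity
  · exact le_rfl

end

end Crest.Agent.R166.Out501
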