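import Mathlib

/-!
Row 166, section 31.1, 31.3, 31.4 (helper566): abstract finite bookkeeping.

`Om` = finite set of graphs (port numbered), `HE` = half edges (fixed finite set), `M` = resampling
choices, `sw G e m` = resampled graph (centre `e`), `valid` = admissible moves, `ne G e` = "the
neighbourhood of `e` is a tree", `D G e ∈ [0,1]` = deviation of the cavity block at the scale `K`.
All averages are uniform averages over finite types.
-/

set_option autoImplicit false
set_option linter.unusedSectionVars false

open Finset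

namespace Crest.Agent.R166.Clean566

section av

variable {α β : Type*} [Fintype α] [Fintype β]

/-- uniform average over a finite type -/
noncomputable def av (f : α → ℝ) : ℝ := (∑ a, f a) / Fintype.card α

lemma av_mono {f g : α → ℝ} (h : ∀ a, f a ≤ g a) : av f ≤ av g := by
  unfold av
  exact div_le_div_of_nonneg_right (Finset.sum_le_sum fun a _ => h a) (Nat.cast_nonneg _)

lemma av_nonneg {f : α → ℝ} (h : ∀ a, 0 ≤ f a) : 0 ≤ av f :=
  div_nonneg (Finset.sum_nonneg fun a _ => h a) (Nat.cast_nonneg _)

lemma av_add (f g : α → ℝ) : av (fun a => f a + g a) = av f + av g := by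
  unfold av
  rw [Finset.sum_add_distrib, add_div]

lemma av_sub (f g : α → ℝ) : av (fun a => f a - g a) = av f - av g := by
  unfold av
  rw [Finset.sum_sub_distrib, sub_div]

lemma av_mul_left (c : ℝ) (f : α → ℝ) : av (fun a => c * f a) = c * av f := by
  unfold av
  rw [← Finset.mul_sum, mul_div_assoc]

lemma av_mul_right (c : ℝ) (f : α → ℝ) : av (fun a => f a * c) = av f * c := by
  unfold av
  rw [← Finset.sum_mul, div_mul_eq_mul_div]

lemma av_const [Nonempty α] (c : ℝ) : av (fun _ : α => c) = c := by
  unfold av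
  rw [Finset.sum_const, Finset.card_univ, nsmul_eq_mul]
  have : (Fintype.card α : ℝ) ≠ 0 := by
    exact_mod_cast Fintype.card_ne_zero
  field_simp

lemma av_const_le (c : ℝ) (hc : 0 ≤ c) : av (fun _ : α => c) ≤ c := by
  unfold av
  rw [Finset.sum_const, Finset.card_univ, nsmul_eq_mul]
  rcases Nat.eq_zero_or_pos (Fintype.card α) with h | h
  · rw [h]; simpa using hc
  · have : (0 : ℝ) < Fintype.card α := by exact_mod_cast h
    rw [mul_div_assoc, mul_div_cancel₀]
    exact this.ne'

lemma av_le_of_le {f : α → ℝ} {c : ℝ} (hc : 0 ≤ c) (h : ∀ a, f a ≤ c) : av f ≤ c :=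
  (av_mono h).trans (av_const_le c hc)

lemma av_sum {ι : Type*} (s : Finset ι) (f : ι → α → ℝ) :
    av (fun a => ∑ i ∈ s, f i a) = ∑ i ∈ s, av (f i) := by
  unfold av
  rw [Finset.sum_comm, Finset.sum_div]

lemma av_comm (f : α → β → ℝ) :
    av (fun a => av (fun b => f a b)) = av (fun b => av (fun a => f a b)) := by
  unfold av
  simp only [← Finset.sum_div]
  rw [Finset.sum_comm]
  rw [div_div, div_div, mul_comm]

end av

/-- the piecewise linear cutoff: `1` on `(-∞, v]`, `0` on `[2v, ∞)` -/
noncomputable def cut (v x : ℝ) : ℝ := max 0 (min 1 (2 - x / v))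

lemma cut_nonneg (v x : ℝ) : 0 ≤ cut v x := le_max_left _ _

lemma cut_le_one (v x : ℝ) : cut v x ≤ 1 := max_le zero_le_one (min_le_left _ _)

lemma cut_eq_one {v x : ℝ} (hv : 0 < v) (hx : x ≤ v) : cut v x = 1 := by
  unfold cut
  have : x / v ≤ 1 := by rw [div_le_one hv]; exact hx
  rw [min_eq_left (by linarith), max_eq_right zero_le_one]

lemma cut_eq_zero {v x : ℝ} (hv : 0 < v) (hx : 2 * v ≤ x) : cut v x = 0 := by
  unfold cut
  have : 2 ≤ x / v := by rw [le_div_iff₀ hv]; exact hx
  apply max_eq_left
  exact (min_le_right _ _).trans (by linarith)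

lemma cut_le_add {v x y : ℝ} (hv : 0 < v) : cut v x ≤ cut v y + |x - y| / v := by
  unfold cut
  have h0 : 0 ≤ |x - y| / v := div_nonneg (abs_nonneg _) hv.le
  have h1 : y / v - x / v ≤ |x - y| / v := by
    rw [← sub_div]
    apply div_le_div_of_nonneg_right _ hv.le
    rw [abs_sub_comm]
    exact le_abs_self _
  apply max_le
  · have := le_max_left 0 (min 1 (2 - y / v))
    linarith
  · have h2 : min 1 (2 - x / v) ≤ min 1 (2 - y / v) + |x - y| / v := by
      rcases min_cases 1 (2 - y / v) with ⟨h, _⟩ | ⟨h, _⟩
      · rw [h]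
        have := min_le_left 1 (2 - x / v)
        linarith
      · rw [h]
        have := min_le_right 1 (2 - x / v)
        linarith
    have h3 := le_max_right 0 (min 1 (2 - y / v))
    linarith

section main

variable {Om HE M : Type*} [Fintype Om] [Fintype HE] [Fintype M]

/-- the mean square deviation -/
noncomputable def VV (D : Om → HE → ℝ) (G : Om) : ℝ := av fun e => D G e ^ 2

/-- the fraction of `r`-bad half edges -/
noncomputable def pp (D : Om → HE → ℝ) (r : ℝ) (G : Om) : ℝ := by
  classical exact av fun e => if r < D G e then 1 else 0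

/-- the fraction of `r`-bad half edges among the non exceptional ones -/
noncomputable def pne (D : Om → HE → ℝ) (ne : Om → HE → Prop) (r : ℝ) (G : Om) : ℝ := by
  classical exact av fun e => if ne G e ∧ r < D G e then 1 else 0

lemma VV_nonneg (D : Om → HE → ℝ) (G : Om) : 0 ≤ VV D G := av_nonneg fun _ => sq_nonneg _

lemma pp_nonneg (D : Om → HE → ℝ) (r : ℝ) (G : Om) : 0 ≤ pp D r G := by
  classical
  unfold pp
  exact av_nonneg fun _ => by split_ifs <;> norm_num

lemma pne_nonneg (D : Om → HE → ℝ) (ne : Om → HE → Prop) (r : ℝ) (G : Om) :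
    0 ≤ pne D ne r G := by
  classical
  unfold pne
  exact av_nonneg fun _ => by split_ifs <;> norm_num

lemma pne_le_one (D : Om → HE → ℝ) (ne : Om → HE → Prop) (r : ℝ) (G : Om) :
    pne D ne r G ≤ 1 := by
  classical
  unfold pne
  exact av_le_of_le zero_le_one fun _ => by split_ifs <;> norm_num

/-- Chebyshev -/
lemma pp_le (D : Om → HE → ℝ) {r : ℝ} (hr : 0 < r) (G : Om) : pp D r G ≤ VV D G / r ^ 2 := by
  classical
  unfold pp VV
  rw [div_eq_mul_inv, ← av_mul_right]
  apply av_mono
  intro e
  split_ifs with h
  · rw [← div_eq_mul_inv, le_div_iff₀ (by positivity), one_mul]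
    exact pow_le_pow_left₀ hr.le h.le 2
  · positivity

/-- the hypotheses of (31.3) at one scale, `κ = 1/(n η) = 1/K` -/
structure Hyp3 (D : Om → HE → ℝ) (sw : Om → HE → M → Om) (valid : Om → HE → M → Prop)
    (ne : Om → HE → Prop) (C r r1 κ : ℝ) : Prop where
  /-- measure preservation on valid moves -/
  trv : ∀ F : Om → HE → ℝ, (∀ G e, 0 ≤ F G e) → by
    classical exact (∑ G, ∑ e, ∑ m : M, if valid G e m then F (sw G e m) e else 0) =
      ∑ G, ∑ e, ∑ m : M, if valid G e m then F G e else 0
  /-- most moves are valid at a non exceptional centre -/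
  many : ∀ G e, ne G e → by
    classical exact (1 / 2 : ℝ) ≤ av fun m : M => if valid G e m then (1 : ℝ) else 0
  /-- valid moves do not change whether the centre is exceptional -/
  neq : ∀ G e m, valid G e m → ne (sw G e m) e → ne G e
  /-- stability (30.5) -/
  stab : ∀ G e m, valid G e m → |VV D (sw G e m) - VV D G| ≤ C * κ
  /-- quadratic bound for the probability of a bad centre (30.3 + 31.2) -/
  quad : ∀ G e, ne G e → by
    classical exact (av fun m : M => if valid G e m ∧ r < D (sw G e m) e then (1 : ℝ) else 0) ≤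
      C * (pp D r1 G + κ) ^ 2

variable [Nonempty Om] [Nonempty HE] [Nonempty M]

open Classical in
/-- Markov: probability that `V` is in `(t, v]` -/
theorem prob_mid {V : Om → ℝ} (hV0 : ∀ G, 0 ≤ V G) {v e1 t : ℝ}
    (hEV : (av fun G => if V G ≤ v then V G else 0) ≤ e1) (ht : 0 < t) :
    (av fun G => if t < V G ∧ V G ≤ v then (1 : ℝ) else 0) ≤ e1 / t := by
  have h1 : (av fun G => if t < V G ∧ V G ≤ v then (1 : ℝ) else 0) ≤
      av fun G => t⁻¹ * (if V G ≤ v then V G else 0) := by
    apply av_mono; intro G
    by_cases h : t < V G ∧ V G ≤ v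
    · rw [if_pos h, if_pos h.2]
      rw [← div_eq_inv_mul, le_div_iff₀ ht, one_mul]
      exact h.1.le
    · rw [if_neg h]
      split_ifs
      · exact mul_nonneg (inv_nonneg.2 ht.le) (hV0 _)
      · simp
  rw [av_mul_left] at h1
  refine h1.trans ?_
  rw [div_eq_inv_mul]
  exact mul_le_mul_of_nonneg_left hEV (inv_nonneg.2 ht.le)

open Classical in
/-- (31.3): the sharp bound for the fraction of bad non exceptional half edges -/
theorem Epne {D : Om → HE → ℝ} {sw : Om → HE → M → Om} {valid : Om → HE → M → Prop}
    {ne : Om → HE → Prop} {C r r1 κ : ℝ} (H : Hyp3 D sw valid ne C r r1 κ)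
    (hC : 0 < C) (hκ : 0 < κ) (hr1 : 0 < r1) {v e1 : ℝ}
    (hEV : (av fun G => if VV D G ≤ v then VV D G else 0) ≤ e1)
    {t : ℝ} (ht : 0 < t) (htv : 2 * t ≤ v) (htK : C * κ ≤ t) :
    (av fun G => if VV D G ≤ t then pne D ne r G else 0) ≤
      4 * C * (2 * t * e1 / r1 ^ 4 + κ ^ 2) := by
  -- step A: introduce valid moves
  have hA : (av fun G => if VV D G ≤ t then pne D ne r G else 0) ≤
      2 * av fun G => av fun e => av fun m => if valid G e m then
        (if (ne G e ∧ r < D G e) ∧ VV D G ≤ t then (1 : ℝ) else 0) else 0 := by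
    rw [← av_mul_left]
    apply av_mono; intro G
    rw [← av_mul_left]
    by_cases hV : VV D G ≤ t
    · rw [if_pos hV]
      unfold pne
      apply av_mono; intro e
      by_cases h : ne G e ∧ r < D G e
      · rw [if_pos h]
        have hm := H.many G e h.1
        have : (av fun m : M => if valid G e m then
            (if (ne G e ∧ r < D G e) ∧ VV D G ≤ t then (1 : ℝ) else 0) else 0) =
            av fun m : M => if valid G e m then (1 : ℝ) else 0 := by
          congr 1; funext m
          rw [if_pos (show (ne G e ∧ r < D G e) ∧ VV D G ≤ t from ⟨h, hV⟩)]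
        rw [this]
        linarith
      · rw [if_neg h]
        refine mul_nonneg (by norm_num) (av_nonneg fun m => ?_)
        split_ifs <;> norm_num
    · rw [if_neg hV]
      refine av_nonneg fun e => mul_nonneg (by norm_num) (av_nonneg fun m => ?_)
      split_ifs <;> norm_num
  -- step B: transfer
  have hB : (av fun G => av fun e => av fun m => if valid G e m then
        (if (ne G e ∧ r < D G e) ∧ VV D G ≤ t then (1 : ℝ) else 0) else 0) =
      av fun G => av fun e => av fun m => if valid G e m then
        (if (ne (sw G e m) e ∧ r < D (sw G e m) e) ∧ VV D (sw G e m) ≤ t then (1 : ℝ) else 0)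
        else 0 := by
    unfold av
    simp only [← Finset.sum_div]
    congr 3
    have := H.trv (fun G e => if (ne G e ∧ r < D G e) ∧ VV D G ≤ t then (1 : ℝ) else 0)
      (fun G e => by split_ifs <;> norm_num)
    convert this.symm
  -- step C: pointwise bound
  have hC' : (av fun G => av fun e => av fun m => if valid G e m then
        (if (ne (sw G e m) e ∧ r < D (sw G e m) e) ∧ VV D (sw G e m) ≤ t then (1 : ℝ) else 0)
        else 0) ≤ av fun G => (if VV D G ≤ 2 * t then C * (pp D r1 G + κ) ^ 2 else 0) := by
    apply av_mono; intro G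
    by_cases hV : VV D G ≤ 2 * t
    · rw [if_pos hV]
      apply av_le_of_le (by positivity)
      intro e
      by_cases hn : ne G e
      · refine le_trans (av_mono fun m => ?_) (H.quad G e hn)
        by_cases h1 : valid G e m
        · rw [if_pos h1]
          by_cases h2 : r < D (sw G e m) e
          · rw [if_pos (⟨h1, h2⟩ : valid G e m ∧ r < D (sw G e m) e)]
            split_ifs <;> norm_num
          · rw [if_neg (fun h => h2 h.1.2)]
            split_ifs <;> norm_num
        · rw [if_neg h1]
          split_ifs <;> norm_num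
      · have : (av fun m => if valid G e m then
            (if (ne (sw G e m) e ∧ r < D (sw G e m) e) ∧ VV D (sw G e m) ≤ t then (1 : ℝ) else 0)
            else 0) ≤ 0 := by
          apply av_le_of_le le_rfl
          intro m
          by_cases h1 : valid G e m
          · rw [if_pos h1, if_neg]
            intro h
            exact hn (H.neq G e m h1 h.1.1)
          · rw [if_neg h1]
        exact this.trans (by positivity)
    · rw [if_neg hV]
      apply av_le_of_le le_rfl
      intro e
      apply av_le_of_le le_rfl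
      intro m
      by_cases h1 : valid G e m
      · rw [if_pos h1, if_neg]
        intro h
        have hs := H.stab G e m h1
        rw [abs_le] at hs
        have := h.2
        apply hV
        linarith [hs.1]
      · rw [if_neg h1]
  -- step D: bound by `E V^2`
  have hD : (av fun G => (if VV D G ≤ 2 * t then C * (pp D r1 G + κ) ^ 2 else 0)) ≤
      av fun G => 2 * C * (2 * t / r1 ^ 4 * (if VV D G ≤ v then VV D G else 0) + κ ^ 2) := by
    apply av_mono; intro G
    have hV0 := VV_nonneg D G
    by_cases hV : VV D G ≤ 2 * t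
    · rw [if_pos hV, if_pos (hV.trans htv)]
      have h1 := pp_le D hr1 G
      have h2 := pp_nonneg D r1 G
      have h3 : (pp D r1 G + κ) ^ 2 ≤ 2 * (pp D r1 G ^ 2 + κ ^ 2) := by
        nlinarith [sq_nonneg (pp D r1 G - κ)]
      have h4 : pp D r1 G ^ 2 ≤ 2 * t / r1 ^ 4 * VV D G := by
        calc pp D r1 G ^ 2 ≤ (VV D G / r1 ^ 2) ^ 2 := pow_le_pow_left₀ h2 h1 2
          _ = VV D G * VV D G / r1 ^ 4 := by ring
          _ ≤ (2 * t) * VV D G / r1 ^ 4 := by gcongr
          _ = _ := by ring
      calc C * (pp D r1 G + κ) ^ 2 ≤ C * (2 * (pp D r1 G ^ 2 + κ ^ 2)) := by gcongr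
        _ ≤ C * (2 * (2 * t / r1 ^ 4 * VV D G + κ ^ 2)) := by gcongr
        _ = _ := by ring
    · rw [if_neg hV]
      split_ifs
      · positivity
      · positivity
  have hE : (av fun G => 2 * C * (2 * t / r1 ^ 4 * (if VV D G ≤ v then VV D G else 0) +
      κ ^ 2)) = 2 * C * (2 * t / r1 ^ 4 * (av fun G => if VV D G ≤ v then VV D G else 0) +
      κ ^ 2) := by
    rw [av_mul_left, av_add, av_mul_left, av_const]
  calc (av fun G => if VV D G ≤ t then pne D ne r G else 0) ≤ _ := hA
    _ = _ := by rw [hB]
    _ ≤ _ := mul_le_mul_of_nonneg_left (hC'.trans hD) (by norm_num)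
    _ = _ := by rw [hE]
    _ ≤ 2 * (2 * C * (2 * t / r1 ^ 4 * e1 + κ ^ 2)) := by gcongr
    _ = _ := by ring

end main

end Crest.Agent.R166.Clean566
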