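import Crest.Agent.R166.FineStab_798
import Crest.Agent.R166.TreeT6_350

/-!
# Row 166, section 32 (graph half, helper798): one-step bounds for the cost and the mean difference

* `gV_le` : `g_V(p) ≤ 1.1025 ((3/4+1/1000) V + C1 |D|² + C2 P V) + 3 C6 ε + C3 β(p)`;
* `gD_le` : `|g_D(p) - b m² D|² ≤ ...`;
* `closeV` : the closed inequality, state by state.
-/

set_option autoImplicit false
set_option linter.unusedSectionVars false

open Finset

namespace Crest.Agent.R166.Close798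

open Crest.Agent.R166 Crest.Agent.R166.Stab269 Crest.Agent.R166.TreeDet350
  Crest.Agent.R166.AvgCon798 Crest.Agent.R166.Rev811 Crest.Agent.R166.MeanEq269
  Crest.Agent.R166.FineStab798 Crest.Agent.R166.SpecF3
open Crest.Agent.R166.SwP470 (BI NZ bsw)
open Crest.Agent.R166.TreeT6350 (rho_comm rho_triangle cost_change C6 C6_pos)

section det

variable {b : ℕ} {y0 : ℝ} {z m : ℂ}

lemma cost_symm (M : ℝ) (m x y : ℂ) : cost M m (x, y) = cost M m (y, x) := by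
  unfold cost
  simp only
  rw [rho_comm x y]
  ring

/-- change of both arguments -/
theorem cost_move (h : Adm b y0 z m) {x y X Y : ℂ} (hx : 0 < x.im) (hy : 0 < y.im)
    (hX : 0 < X.im) (hY : 0 < Y.im) {ε : ℝ} (h1 : rho x X ≤ ε) (h2 : rho y Y ≤ ε) :
    cost (Mc b y0) m (x, y) ≤ 441 / 400 * cost (Mc b y0) m (X, Y) + 3 * C6 b y0 * ε := by
  have hC := C6_pos h
  have a1 := cost_change h hx hy hY
  have a2 := cost_change h hY hx hX
  rw [cost_symm _ _ Y x, cost_symm _ _ Y X] at a2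
  have hε : 0 ≤ ε := (rho_nonneg _ _).trans h1
  have a3 := mul_le_mul_of_nonneg_left h1 hC.le
  have a4 := mul_le_mul_of_nonneg_left h2 hC.le
  have a5 : 0 ≤ C6 b y0 * ε := by positivity
  nlinarith

theorem cost_le_C3 (h : Adm b y0 z m) {x y : ℂ} (hx : 0 < x.im) (hy : 0 < y.im) :
    cost (Mc b y0) m (x, y) ≤ C3 b y0 := by
  have h1 := h.weight_le_C3 hx.le hy.le
  have h2 := rho_nonneg x y
  have h3 := rho_le_one hx hy
  have h4 := h.C3_pos
  have hM := h.Mc_pos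
  unfold cost
  simp only
  have h5 : rho x y ^ 2 ≤ 1 := pow_le_one₀ h2 h3
  calc rho x y ^ 2 * (1 + Mc b y0 * ‖uu m x‖ ^ 2 + Mc b y0 * ‖uu m y‖ ^ 2)
      ≤ 1 * (1 + Mc b y0 * ‖uu m x‖ ^ 2 + Mc b y0 * ‖uu m y‖ ^ 2) :=
        mul_le_mul_of_nonneg_right h5 (by positivity)
    _ ≤ C3 b y0 := by linarith

/-- change of the difference of the bounded coordinates -/
theorem diff_move (h : Adm b y0 z m) {x y X Y : ℂ} (hx : 0 < x.im) (hy : 0 < y.im)
    (hX : 0 < X.im) (hY : 0 < Y.im) {ε : ℝ} (h1 : rho x X ≤ ε) (h2 : rho y Y ≤ ε) :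
    ‖(uu m x - uu m y) - (uu m X - uu m Y)‖ ≤ 6 / y0 * ε := by
  have hy0 := h.hy
  have e : (uu m x - uu m y) - (uu m X - uu m Y) = (uu m x - uu m X) - (uu m y - uu m Y) := by
    ring
  rw [e]
  refine (norm_sub_le _ _).trans ?_
  have a1 := (h.uu_lip hx hX).trans (mul_le_mul_of_nonneg_left h1 (by positivity))
  have a2 := (h.uu_lip hy hY).trans (mul_le_mul_of_nonneg_left h2 (by positivity))
  have a3 : 6 / y0 * ε = 3 / y0 * ε + 3 / y0 * ε := by ring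
  linarith

theorem diff_le (h : Adm b y0 z m) {x y : ℂ} (hx : 0 < x.im) (hy : 0 < y.im) :
    ‖uu m x - uu m y‖ ≤ 2 * BB y0 := by
  refine (norm_sub_le _ _).trans ?_
  have := h.norm_uu_le hx.le
  have := h.norm_uu_le hy.le
  linarith

end det

section avg

lemma av1_prod {α ι Ω : Type*} [Fintype α] [Fintype ι] [DecidableEq ι] [Fintype Ω]
    (f : α × (ι → Ω) → ℝ) : av1 f = av1 fun a => av fun b => f (a, b) := by
  unfold av1 av
  rw [Fintype.card_prod, Fintype.sum_prod_type, ← Finset.sum_div, div_div]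
  push_cast
  rw [mul_comm (Fintype.card α : ℝ)]

lemma avc_prod {α ι Ω : Type*} [Fintype α] [Fintype ι] [DecidableEq ι] [Fintype Ω]
    (f : α × (ι → Ω) → ℂ) : avc f = avc fun a => avC fun b => f (a, b) := by
  unfold avc avC
  rw [Fintype.card_prod, Fintype.sum_prod_type, ← Finset.sum_div, div_div]
  push_cast
  rw [mul_comm (Fintype.card α : ℂ)]

end avg

section port

variable {n d : ℕ} [NeZero d]

/-- moves -/
abbrev Mv1 (n d : ℕ) [NeZero d] : Type := HE n d × (BI d 1 → HE n d)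

/-- the recursion at the energy `z` applied to a pair of families -/
noncomputable def Fc (z : ℂ) (s : ℝ) (ω : Fin n → ℝ) (P : HE n d → ℂ × ℂ) (mv : Mv1 n d) :
    ℂ × ℂ :=
  (cav z (s * ω mv.1.1) fun j : Fin (d - 1) => (P (mv.2 (kk d j))).1,
    cav z (s * ω mv.1.1) fun j : Fin (d - 1) => (P (mv.2 (kk d j))).2)

open Classical in
/-- fraction of bad moves -/
noncomputable def beta (ε : ℝ) (z z' : ℂ) (s : ℝ) (ω : Fin n → ℝ) (p : Equiv.Perm (HE n d)) : ℝ :=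
  ((Finset.univ.filter fun mv : Mv1 n d =>
      ¬ rho (B0 (bsw 1 p mv).1 s ω z' mv.1 0 0)
        (cav z (s * ω mv.1.1) fun j : Fin (d - 1) =>
          B0 p s ω z' (mv.2 (kk d j)) 0 0) ≤ ε).card : ℝ) / (Fintype.card (Mv1 n d) : ℝ)

lemma beta_nonneg (ε : ℝ) (z z' : ℂ) (s : ℝ) (ω : Fin n → ℝ) (p : Equiv.Perm (HE n d)) :
    0 ≤ beta ε z z' s ω p := by unfold beta; positivity

lemma beta_le_one (ε : ℝ) (z z' : ℂ) (s : ℝ) (ω : Fin n → ℝ) (p : Equiv.Perm (HE n d)) :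
    beta ε z z' s ω p ≤ 1 := by
  unfold beta
  apply div_le_one_of_le₀ _ (Nat.cast_nonneg _)
  exact_mod_cast Finset.card_le_univ _

open Classical in
/-- indicator of bad moves -/
noncomputable def bInd (ε : ℝ) (z z' : ℂ) (s : ℝ) (ω : Fin n → ℝ) (p : Equiv.Perm (HE n d))
    (mv : Mv1 n d) : ℝ :=
  if ¬ rho (B0 (bsw 1 p mv).1 s ω z' mv.1 0 0)
        (cav z (s * ω mv.1.1) fun j : Fin (d - 1) =>
          B0 p s ω z' (mv.2 (kk d j)) 0 0) ≤ ε then 1 else 0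

lemma bInd_nonneg (ε : ℝ) (z z' : ℂ) (s : ℝ) (ω : Fin n → ℝ) (p : Equiv.Perm (HE n d))
    (mv : Mv1 n d) : 0 ≤ bInd ε z z' s ω p mv := by
  unfold bInd; split_ifs <;> norm_num

lemma bInd_bad {ε : ℝ} {z z' : ℂ} {s : ℝ} {ω : Fin n → ℝ} {p : Equiv.Perm (HE n d)}
    {mv : Mv1 n d} (h : ¬ rho (B0 (bsw 1 p mv).1 s ω z' mv.1 0 0)
        (cav z (s * ω mv.1.1) fun j : Fin (d - 1) =>
          B0 p s ω z' (mv.2 (kk d j)) 0 0) ≤ ε) : bInd ε z z' s ω p mv = 1 := by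
  unfold bInd
  rw [if_pos h]

lemma av1_bInd (ε : ℝ) (z z' : ℂ) (s : ℝ) (ω : Fin n → ℝ) (p : Equiv.Perm (HE n d)) :
    av1 (bInd ε z z' s ω p) = beta ε z z' s ω p := by
  unfold av1 bInd beta
  rw [Finset.sum_ite, Finset.sum_const_zero, add_zero, Finset.sum_const, nsmul_eq_mul, mul_one]

variable {b : ℕ} {y0 : ℝ} {z m : ℂ}

/-- the one-step mean of the cost -/
noncomputable def gV (y0 : ℝ) (m : ℂ) (s : ℝ) (ω : Fin n → ℝ) (z z' : ℂ)
    (p : Equiv.Perm (HE n d)) : ℝ :=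
  Sec269.gAvg (Finset.univ : Finset (Mv1 n d)) Prod.fst (bsw 1)
    (fun p h => cost (Mc (d - 1) y0) m (PP p s ω z z' h)) p

/-- the mean of the cost -/
noncomputable def Vc (y0 : ℝ) (m : ℂ) (s : ℝ) (ω : Fin n → ℝ) (z z' : ℂ)
    (p : Equiv.Perm (HE n d)) : ℝ := VV (d - 1) y0 m (PP p s ω z z')

/-- the bad fraction -/
noncomputable def Pc (y0 : ℝ) (m : ℂ) (s : ℝ) (ω : Fin n → ℝ) (z z' : ℂ)
    (p : Equiv.Perm (HE n d)) : ℝ := pp (d - 1) y0 m (PP p s ω z z')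

/-- the mean difference -/
noncomputable def Dc (m : ℂ) (s : ℝ) (ω : Fin n → ℝ) (z z' : ℂ)
    (p : Equiv.Perm (HE n d)) : ℂ := DD m (PP p s ω z z')

theorem isPort_bsw {p : Equiv.Perm (HE n d)} (hp : IsPort p) (mv : Mv1 n d) :
    IsPort (bsw 1 p mv).1 :=
  mem_Ports.1 ((SwP470.moveSystem n d 1 le_rfl).mem_left p (mem_Ports.2 hp) mv
    (Finset.mem_univ _))

theorem gV_le (hn : 0 < n) (h : Adm (d - 1) y0 z m) (hz : 0 < z.im) {z' : ℂ} (hz' : 0 < z'.im)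
    {s : ℝ} {ω : Fin n → ℝ} (hs : |s| ≤ rr (d - 1) y0) (hω : ∀ v, |ω v| ≤ 1)
    {p : Equiv.Perm (HE n d)} (hp : IsPort p) {ε : ℝ} (hε : 0 ≤ ε) :
    gV y0 m s ω z z' p ≤ 441 / 400 * ((3 / 4 + 1 / 1000) * Vc y0 m s ω z z' p +
        C1 y0 * ‖Dc m s ω z z' p‖ ^ 2 +
        C2 (d - 1) y0 * (Pc y0 m s ω z z' p * Vc y0 m s ω z z' p)) +
      3 * C6 (d - 1) y0 * ε + C3 (d - 1) y0 * (beta ε z z s ω p + beta ε z z' s ω p) := by
  have : Nonempty (HE n d) := ⟨(⟨0, hn⟩, ⟨0, Nat.pos_of_ne_zero (NeZero.ne d)⟩)⟩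
  have hC3 := h.C3_pos
  have hC6 := C6_pos h
  have e0 : gV y0 m s ω z z' p = av1 fun mv : Mv1 n d =>
      cost (Mc (d - 1) y0) m (PP (bsw 1 p mv).1 s ω z z' mv.1) := by
    unfold gV Sec269.gAvg av1
    rw [Finset.card_univ]
  rw [e0]
  have hP1 : ∀ x, 0 < (PP p s ω z z' x).1.im := fun x => MuU395.im_B0_pos hp s ω hz x 0
  have hP2 : ∀ x, 0 < (PP p s ω z z' x).2.im := fun x => MuU395.im_B0_pos hp s ω hz' x 0
  have hpt : ∀ mv : Mv1 n d, cost (Mc (d - 1) y0) m (PP (bsw 1 p mv).1 s ω z z' mv.1) ≤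
      441 / 400 * cost (Mc (d - 1) y0) m (Fc z s ω (PP p s ω z z') mv) +
        (3 * C6 (d - 1) y0 * ε +
          C3 (d - 1) y0 * (bInd ε z z s ω p mv + bInd ε z z' s ω p mv)) := by
    intro mv
    have hp' := isPort_bsw hp mv
    have q1 := MuU395.im_B0_pos hp' s ω hz mv.1 0
    have q2 := MuU395.im_B0_pos hp' s ω hz' mv.1 0
    have q3 := h.cav_im_pos (s * ω mv.1.1) (fun j : Fin (d - 1) =>
      (PP p s ω z z' (mv.2 (kk d j))).1) fun j => hP1 _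
    have q4 := h.cav_im_pos (s * ω mv.1.1) (fun j : Fin (d - 1) =>
      (PP p s ω z z' (mv.2 (kk d j))).2) fun j => hP2 _
    have n0 : 0 ≤ 441 / 400 * cost (Mc (d - 1) y0) m (Fc z s ω (PP p s ω z z') mv) :=
      mul_nonneg (by norm_num) (cost_nonneg h.Mc_pos.le _)
    have n1 : 0 ≤ 3 * C6 (d - 1) y0 * ε := by positivity
    have n2 := bInd_nonneg ε z z s ω p mv
    have n3 := bInd_nonneg ε z z' s ω p mv
    have hle : cost (Mc (d - 1) y0) m (PP (bsw 1 p mv).1 s ω z z' mv.1) ≤ C3 (d - 1) y0 :=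
      cost_le_C3 h q1 q2
    by_cases h1 : rho (B0 (bsw 1 p mv).1 s ω z mv.1 0 0)
        (cav z (s * ω mv.1.1) fun j : Fin (d - 1) => B0 p s ω z (mv.2 (kk d j)) 0 0) ≤ ε
    · by_cases h2 : rho (B0 (bsw 1 p mv).1 s ω z' mv.1 0 0)
          (cav z (s * ω mv.1.1) fun j : Fin (d - 1) => B0 p s ω z' (mv.2 (kk d j)) 0 0) ≤ ε
      · have := cost_move h q1 q2 q3 q4 h1 h2
        have n4 : 0 ≤ C3 (d - 1) y0 * (bInd ε z z s ω p mv + bInd ε z z' s ω p mv) :=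
          mul_nonneg hC3.le (add_nonneg n2 n3)
        unfold Fc
        unfold PP at this ⊢
        linarith
      · have h3 : bInd ε z z' s ω p mv = 1 := bInd_bad h2
        have n4 : 0 ≤ C3 (d - 1) y0 * bInd ε z z s ω p mv := mul_nonneg hC3.le n2
        rw [h3]
        linarith
    · have h3 : bInd ε z z s ω p mv = 1 := bInd_bad h1
      have n4 : 0 ≤ C3 (d - 1) y0 * bInd ε z z' s ω p mv := mul_nonneg hC3.le n3
      rw [h3]
      linarith
  refine (av1_mono hpt).trans ?_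
  have hne : Nonempty (Mv1 n d) := inferInstance
  rw [av1_add, av1_const_mul, av1_add, av1_const, av1_const_mul, av1_add, av1_bInd, av1_bInd,
    av1_prod]
  have h5 : av1 (fun a : HE n d => av fun e : BI d 1 → HE n d =>
      cost (Mc (d - 1) y0) m (Fc z s ω (PP p s ω z z') (a, e))) ≤
      (3 / 4 + 1 / 1000) * Vc y0 m s ω z z' p + C1 y0 * ‖Dc m s ω z z' p‖ ^ 2 +
        C2 (d - 1) y0 * (Pc y0 m s ω z z' p * Vc y0 m s ω z z' p) := by
    refine (av1_mono fun a => ?_).trans (le_of_eq (av1_const _))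
    have ht : |s * ω a.1| ≤ rr (d - 1) y0 := by
      rw [abs_mul]
      calc |s| * |ω a.1| ≤ |s| * 1 := mul_le_mul_of_nonneg_left (hω _) (abs_nonneg _)
        _ ≤ rr (d - 1) y0 := by linarith
    have h6 := cost_avg h ht hP1 hP2
    rw [← av_comp (kk_injective d)] at h6
    exact h6
  have h7 := mul_le_mul_of_nonneg_left h5 (show (0 : ℝ) ≤ 441 / 400 by norm_num)
  linarith

theorem gD_le (hn : 0 < n) (h : Adm (d - 1) y0 z m) (hz : 0 < z.im) {z' : ℂ} (hz' : 0 < z'.im)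
    {s : ℝ} {ω : Fin n → ℝ} (hs : |s| ≤ rr (d - 1) y0) (hω : ∀ v, |ω v| ≤ 1)
    {p : Equiv.Perm (HE n d)} (hp : IsPort p) {ε : ℝ} (hε : 0 ≤ ε) (hε1 : ε ≤ 1) :
    ‖gD m s ω z z' p - ((d - 1 : ℕ) : ℂ) * m ^ 2 * Dc m s ω z z' p‖ ^ 2 ≤
      2 * (1 / 10 ^ 6 * y0 ^ 4 * Vc y0 m s ω z z' p +
        72 * ((d - 1 : ℕ) : ℝ) ^ 4 / y0 ^ 2 * (Pc y0 m s ω z z' p * Vc y0 m s ω z z' p)) +
      (144 / y0 ^ 2 * ε + 128 * BB y0 ^ 2 * (beta ε z z s ω p + beta ε z z' s ω p)) := by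
  have : Nonempty (HE n d) := ⟨(⟨0, hn⟩, ⟨0, Nat.pos_of_ne_zero (NeZero.ne d)⟩)⟩
  have hne : Nonempty (Mv1 n d) := inferInstance
  have hy := h.hy
  have hBB := BB_pos hy
  have hP1 : ∀ x, 0 < (PP p s ω z z' x).1.im := fun x => MuU395.im_B0_pos hp s ω hz x 0
  have hP2 : ∀ x, 0 < (PP p s ω z z' x).2.im := fun x => MuU395.im_B0_pos hp s ω hz' x 0
  have hV := VV_nonneg h (PP p s ω z z')
  have hpn := pp_nonneg (d - 1) y0 m (PP p s ω z z')
  set β := beta ε z z s ω p + beta ε z z' s ω p with hβ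
  have hβ0 : 0 ≤ β := add_nonneg (beta_nonneg _ _ _ _ _ _) (beta_nonneg _ _ _ _ _ _)
  have hβ2 : β ≤ 2 := by
    have := beta_le_one ε z z s ω p
    have := beta_le_one ε z z' s ω p
    rw [hβ]; linarith
  -- the recursion part
  set G : ℂ := avc fun mv : Mv1 n d => uu m (Fc z s ω (PP p s ω z z') mv).1 -
    uu m (Fc z s ω (PP p s ω z z') mv).2 with hG
  have e0 : gD m s ω z z' p = avc fun mv : Mv1 n d => fD m s ω z z' (bsw 1 p mv).1 mv.1 := by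
    unfold gD avc
    rw [Finset.card_univ]
  have t1 : ‖gD m s ω z z' p - G‖ ≤ 6 / y0 * ε + 4 * BB y0 * β := by
    rw [e0, hG, avc_sub]
    refine (norm_avc_le _).trans ?_
    have hpt : ∀ mv : Mv1 n d, ‖fD m s ω z z' (bsw 1 p mv).1 mv.1 -
        (uu m (Fc z s ω (PP p s ω z z') mv).1 - uu m (Fc z s ω (PP p s ω z z') mv).2)‖ ≤
        6 / y0 * ε + 4 * BB y0 * (bInd ε z z s ω p mv + bInd ε z z' s ω p mv) := by
      intro mv
      have hp' := isPort_bsw hp mv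
      have q1 := MuU395.im_B0_pos hp' s ω hz mv.1 0
      have q2 := MuU395.im_B0_pos hp' s ω hz' mv.1 0
      have q3 := h.cav_im_pos (s * ω mv.1.1) (fun j : Fin (d - 1) =>
        (PP p s ω z z' (mv.2 (kk d j))).1) fun j => hP1 _
      have q4 := h.cav_im_pos (s * ω mv.1.1) (fun j : Fin (d - 1) =>
        (PP p s ω z z' (mv.2 (kk d j))).2) fun j => hP2 _
      have n1 : 0 ≤ 6 / y0 * ε := by positivity
      have n2 := bInd_nonneg ε z z s ω p mv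
      have n3 := bInd_nonneg ε z z' s ω p mv
      have hle : ‖fD m s ω z z' (bsw 1 p mv).1 mv.1 -
        (uu m (Fc z s ω (PP p s ω z z') mv).1 - uu m (Fc z s ω (PP p s ω z z') mv).2)‖ ≤
          4 * BB y0 := by
        refine (norm_sub_le _ _).trans ?_
        have a1 := fD_le h hp' s ω hz hz' mv.1
        have a2 := diff_le h q3 q4
        unfold Fc
        linarith
      by_cases h1 : rho (B0 (bsw 1 p mv).1 s ω z mv.1 0 0)
          (cav z (s * ω mv.1.1) fun j : Fin (d - 1) => B0 p s ω z (mv.2 (kk d j)) 0 0) ≤ ε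
      · by_cases h2 : rho (B0 (bsw 1 p mv).1 s ω z' mv.1 0 0)
            (cav z (s * ω mv.1.1) fun j : Fin (d - 1) => B0 p s ω z' (mv.2 (kk d j)) 0 0) ≤ ε
        · have := diff_move h q1 q2 q3 q4 h1 h2
          have n4 : 0 ≤ 4 * BB y0 * (bInd ε z z s ω p mv + bInd ε z z' s ω p mv) :=
            mul_nonneg (by positivity) (add_nonneg n2 n3)
          unfold fD Fc
          unfold PP at this ⊢
          linarith
        · have h3 : bInd ε z z' s ω p mv = 1 := bInd_bad h2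
          have n4 : 0 ≤ 4 * BB y0 * bInd ε z z s ω p mv := mul_nonneg (by positivity) n2
          rw [h3]
          linarith
      · have h3 : bInd ε z z s ω p mv = 1 := bInd_bad h1
        have n4 : 0 ≤ 4 * BB y0 * bInd ε z z' s ω p mv := mul_nonneg (by positivity) n3
        rw [h3]
        linarith
    refine (av1_mono hpt).trans (le_of_eq ?_)
    rw [av1_add, av1_const, av1_const_mul, av1_add, av1_bInd, av1_bInd]
  have t2 : ‖G - ((d - 1 : ℕ) : ℂ) * m ^ 2 * Dc m s ω z z' p‖ ≤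
      4000 * ((d - 1 : ℕ) : ℝ) ^ 2 * rr (d - 1) y0 * Real.sqrt (Vc y0 m s ω z z' p) +
        6 / y0 * ((d - 1 : ℕ) : ℝ) ^ 2 *
          Real.sqrt (Pc y0 m s ω z z' p * Vc y0 m s ω z z' p) := by
    rw [hG, avc_prod]
    refine (Glue269.norm_avc_sub_le _ _).trans ?_
    refine (av1_mono fun a => ?_).trans (le_of_eq (av1_const _))
    have ht : |s * ω a.1| ≤ rr (d - 1) y0 := by
      rw [abs_mul]
      calc |s| * |ω a.1| ≤ |s| * 1 := mul_le_mul_of_nonneg_left (hω _) (abs_nonneg _)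
        _ ≤ rr (d - 1) y0 := by linarith
    have h6 := mean_avg h ht hP1 hP2
    rw [← avC_comp (kk_injective d)] at h6
    exact h6
  have t3 : ‖gD m s ω z z' p - ((d - 1 : ℕ) : ℂ) * m ^ 2 * Dc m s ω z z' p‖ ≤
      (6 / y0 * ε + 4 * BB y0 * β) +
      (4000 * ((d - 1 : ℕ) : ℝ) ^ 2 * rr (d - 1) y0 * Real.sqrt (Vc y0 m s ω z z' p) +
        6 / y0 * ((d - 1 : ℕ) : ℝ) ^ 2 *
          Real.sqrt (Pc y0 m s ω z z' p * Vc y0 m s ω z z' p)) := by
    have e : gD m s ω z z' p - ((d - 1 : ℕ) : ℂ) * m ^ 2 * Dc m s ω z z' p =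
        (gD m s ω z z' p - G) + (G - ((d - 1 : ℕ) : ℂ) * m ^ 2 * Dc m s ω z z' p) := by ring
    rw [e]
    exact (norm_add_le _ _).trans (add_le_add t1 t2)
  set S := Real.sqrt (Vc y0 m s ω z z' p) with hS
  set T := Real.sqrt (Pc y0 m s ω z z' p * Vc y0 m s ω z z' p) with hT
  have hS2 : S ^ 2 = Vc y0 m s ω z z' p := Real.sq_sqrt hV
  have hT2 : T ^ 2 = Pc y0 m s ω z z' p * Vc y0 m s ω z z' p :=
    Real.sq_sqrt (mul_nonneg hpn hV)
  have hr0 := h.rr_pos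
  have hy1 := h.y0_lt_one
  have h3 : 4000 * ((d - 1 : ℕ) : ℝ) ^ 2 * rr (d - 1) y0 ≤ 1 / 2000 * y0 ^ 2 := by
    have h4 := h.b_rr_le
    have h5 : y0 ^ 6 ≤ y0 ^ 2 := pow_le_pow_of_le_one hy.le hy1.le (by norm_num)
    nlinarith
  have h4 : (4000 * ((d - 1 : ℕ) : ℝ) ^ 2 * rr (d - 1) y0) ^ 2 ≤ (1 / 2000 * y0 ^ 2) ^ 2 :=
    pow_le_pow_left₀ (by positivity) h3 2
  have h5 : (4000 * ((d - 1 : ℕ) : ℝ) ^ 2 * rr (d - 1) y0) ^ 2 * S ^ 2 ≤
      1 / 4000000 * y0 ^ 4 * S ^ 2 := by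
    apply mul_le_mul_of_nonneg_right _ (sq_nonneg _)
    have e : (1 / 2000 * y0 ^ 2) ^ 2 = 1 / 4000000 * y0 ^ 4 := by ring
    rw [e] at h4
    exact h4
  set a1 := 6 / y0 * ε with ha1
  set a2 := 4 * BB y0 * β with ha2
  set a3 := 4000 * ((d - 1 : ℕ) : ℝ) ^ 2 * rr (d - 1) y0 * S with ha3
  set a4 := 6 / y0 * ((d - 1 : ℕ) : ℝ) ^ 2 * T with ha4
  have h6 : (a1 + a2 + (a3 + a4)) ^ 2 ≤ 4 * (a1 ^ 2 + a2 ^ 2 + a3 ^ 2 + a4 ^ 2) := by
    nlinarith [sq_nonneg (a1 - a2), sq_nonneg (a1 - a3), sq_nonneg (a1 - a4),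
      sq_nonneg (a2 - a3), sq_nonneg (a2 - a4), sq_nonneg (a3 - a4)]
  refine (pow_le_pow_left₀ (norm_nonneg _) t3 2).trans (h6.trans ?_)
  have b1 : a1 ^ 2 ≤ 36 / y0 ^ 2 * ε := by
    have e : a1 ^ 2 = 36 / y0 ^ 2 * (ε * ε) := by rw [ha1]; field_simp; ring
    rw [e]
    apply mul_le_mul_of_nonneg_left _ (by positivity)
    nlinarith
  have b2 : a2 ^ 2 ≤ 32 * BB y0 ^ 2 * β := by
    have e : a2 ^ 2 = 16 * BB y0 ^ 2 * (β * β) := by rw [ha2]; ring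
    rw [e]
    have e2 : 32 * BB y0 ^ 2 * β = 16 * BB y0 ^ 2 * (2 * β) := by ring
    rw [e2]
    apply mul_le_mul_of_nonneg_left _ (by positivity)
    nlinarith
  have b3 : a3 ^ 2 ≤ 1 / 4000000 * y0 ^ 4 * Vc y0 m s ω z z' p := by
    have e : a3 ^ 2 = (4000 * ((d - 1 : ℕ) : ℝ) ^ 2 * rr (d - 1) y0) ^ 2 * S ^ 2 := by
      rw [ha3]; ring
    rw [e, ← hS2]
    exact h5
  have b4 : a4 ^ 2 = 36 * ((d - 1 : ℕ) : ℝ) ^ 4 / y0 ^ 2 *
      (Pc y0 m s ω z z' p * Vc y0 m s ω z z' p) := by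
    rw [ha4, ← hT2]; field_simp; ring
  have b5 : 0 ≤ y0 ^ 4 * Vc y0 m s ω z z' p := by
    have : 0 ≤ Vc y0 m s ω z z' p := hV
    positivity
  have b6 : 144 / y0 ^ 2 * ε = 4 * (36 / y0 ^ 2 * ε) := by ring
  rw [b4, b6]
  have b7 : 4 * (36 * ((d - 1 : ℕ) : ℝ) ^ 4 / y0 ^ 2 *
      (Pc y0 m s ω z z' p * Vc y0 m s ω z z' p)) = 2 * (72 * ((d - 1 : ℕ) : ℝ) ^ 4 / y0 ^ 2 *
      (Pc y0 m s ω z z' p * Vc y0 m s ω z z' p)) := by ring
  linarith

end port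

end Crest.Agent.R166.Close798
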