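import Mathlib

/-!
Row 166, section 40.3 (asymptotics of the exact configuration-model count), helper289.

`phi x = x log x - x`.  `log k! = phi k + O(log (k+1))`, `log (m-1)!! = phi m / 2 + O(log (m+1))`
(`m` even), hence
`log (n! / ∏ N_s! * ∏_θ w_θ) - log (nd-1)!! = n (H(N/n) - (d/2) H(m/(nd))) + O(log n)`.
-/

set_option autoImplicit false

namespace Crest.Agent.R166.CntAsym289

open Finset Real
open scoped Nat

/-- `x log x - x` -/
noncomputable def phi (x : ℝ) : ℝ := x * Real.log x - x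

@[simp] lemma phi_zero : phi 0 = 0 := by simp [phi]

lemma phi_le_log_factorial (k : ℕ) : phi k ≤ Real.log (k ! : ℝ) := by
  rcases Nat.eq_zero_or_pos k with rfl | hk
  · simp
  have hk' : (0 : ℝ) < k := by exact_mod_cast hk
  have h := Real.pow_div_factorial_le_exp (k : ℝ) hk'.le k
  have hf : (0 : ℝ) < (k ! : ℝ) := by exact_mod_cast Nat.factorial_pos k
  have h2 : Real.log ((k : ℝ) ^ k / (k ! : ℝ)) ≤ k := by
    rw [Real.log_le_iff_le_exp (by positivity)]
    exact h
  rw [Real.log_div (by positivity) hf.ne', Real.log_pow] at h2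
  unfold phi
  linarith

lemma log_factorial_le_aux (k : ℕ) (hk : 1 ≤ k) :
    Real.log (k ! : ℝ) ≤ phi k + Real.log k + 1 := by
  induction k, hk using Nat.le_induction with
  | base => simp [phi]
  | succ k hk ih =>
    have hk' : (0 : ℝ) < k := by exact_mod_cast hk
    have hf : (0 : ℝ) < (k ! : ℝ) := by exact_mod_cast Nat.factorial_pos k
    rw [Nat.factorial_succ]
    push_cast
    rw [Real.log_mul (by positivity) hf.ne']
    have h1 : 1 - (1 + (1:ℝ) / k)⁻¹ ≤ Real.log (1 + 1 / k) :=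
      Real.one_sub_inv_le_log_of_pos (by positivity)
    have h2 : Real.log (1 + (1:ℝ) / k) = Real.log ((k : ℝ) + 1) - Real.log k := by
      rw [← Real.log_div (by positivity) hk'.ne']
      congr 1
      field_simp
    have h3 : 1 - (1 + (1:ℝ) / k)⁻¹ = 1 / ((k : ℝ) + 1) := by
      field_simp
      ring
    rw [h2, h3] at h1
    have h4 : 1 ≤ ((k : ℝ) + 1) * (Real.log ((k : ℝ) + 1) - Real.log k) := by
      have := mul_le_mul_of_nonneg_left h1 (by positivity : (0:ℝ) ≤ (k : ℝ) + 1)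
      have h5 : ((k : ℝ) + 1) * (1 / ((k : ℝ) + 1)) = 1 := by field_simp
      linarith
    unfold phi at *
    nlinarith [h4, ih]

/-- upper bound, all `k` -/
lemma log_factorial_le (k : ℕ) :
    Real.log (k ! : ℝ) ≤ phi k + Real.log ((k : ℝ) + 1) + 1 := by
  rcases Nat.eq_zero_or_pos k with rfl | hk
  · simp
  have hk' : (0 : ℝ) < k := by exact_mod_cast hk
  have h1 := log_factorial_le_aux k hk
  have h2 : Real.log (k : ℝ) ≤ Real.log ((k : ℝ) + 1) :=
    Real.log_le_log hk' (by linarith)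
  linarith

lemma abs_log_factorial_sub_phi (k : ℕ) :
    |Real.log (k ! : ℝ) - phi k| ≤ Real.log ((k : ℝ) + 1) + 1 := by
  have h1 := phi_le_log_factorial k
  have h2 := log_factorial_le k
  have h3 : 0 ≤ Real.log ((k : ℝ) + 1) := Real.log_nonneg (by
    have : (0 : ℝ) ≤ k := Nat.cast_nonneg k
    linarith)
  rw [abs_le]
  constructor <;> linarith

lemma factorial_two_mul (j : ℕ) : (2 * j)! = 2 ^ j * j ! * (2 * j - 1)‼ := by
  induction j with
  | zero => simp
  | succ j ih =>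
    have h1 : 2 * (j + 1) - 1 = 2 * j + 1 := by omega
    rw [h1, show 2 * (j + 1) = (2 * j + 1) + 1 by ring, Nat.factorial_succ, Nat.factorial_succ, ih,
      Nat.factorial_succ, pow_succ]
    rcases Nat.eq_zero_or_pos j with rfl | hj
    · simp
    · obtain ⟨i, rfl⟩ : ∃ i, j = i + 1 := ⟨j - 1, by omega⟩
      have h2 : 2 * (i + 1) - 1 = 2 * i + 1 := by omega
      have h3 : (2 * (i + 1) + 1)‼ = (2 * (i + 1) + 1) * (2 * i + 1)‼ := by
        rw [show 2 * (i + 1) + 1 = (2 * i + 1) + 2 by ring, Nat.doubleFactorial_add_two]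
      rw [h2, h3]
      ring

lemma doubleFactorial_pos' (k : ℕ) : 0 < (k‼ : ℝ) := by
  exact_mod_cast Nat.doubleFactorial_pos k

lemma half_phi_eq (j : ℕ) :
    phi ((2 * j : ℕ) : ℝ) - j * Real.log 2 - phi j = phi ((2 * j : ℕ) : ℝ) / 2 := by
  rcases Nat.eq_zero_or_pos j with rfl | hj
  · simp
  have hj' : (0 : ℝ) < j := by exact_mod_cast hj
  unfold phi
  push_cast
  rw [Real.log_mul (by norm_num) hj'.ne']
  ring

lemma abs_log_doubleFactorial_sub (j : ℕ) :
    |Real.log (((2 * j - 1)‼ : ℕ) : ℝ) - phi ((2 * j : ℕ) : ℝ) / 2| ≤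
      Real.log (((2 * j : ℕ) : ℝ) + 1) + 1 := by
  have hf := factorial_two_mul j
  have hfR : (((2 * j)! : ℕ) : ℝ) = 2 ^ j * (j ! : ℝ) * (((2 * j - 1)‼ : ℕ) : ℝ) := by
    exact_mod_cast hf
  have hj0 : (0 : ℝ) < (j ! : ℝ) := by exact_mod_cast Nat.factorial_pos j
  have hlog : Real.log (((2 * j)! : ℕ) : ℝ) =
      j * Real.log 2 + Real.log (j ! : ℝ) + Real.log (((2 * j - 1)‼ : ℕ) : ℝ) := by
    rw [hfR, Real.log_mul (by positivity) (doubleFactorial_pos' _).ne',
      Real.log_mul (by positivity) hj0.ne', Real.log_pow]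
  have h1 := phi_le_log_factorial (2 * j)
  have h2 := log_factorial_le (2 * j)
  have h3 := phi_le_log_factorial j
  have h4 := log_factorial_le j
  have h5 := half_phi_eq j
  have h6 : Real.log ((j : ℝ) + 1) ≤ Real.log (((2 * j : ℕ) : ℝ) + 1) := by
    apply Real.log_le_log (by positivity)
    push_cast
    have : (0 : ℝ) ≤ j := Nat.cast_nonneg j
    linarith
  rw [abs_le]
  constructor <;> linarith

lemma abs_log_doubleFactorial_sub' {m : ℕ} (hm : Even m) :
    |Real.log (((m - 1)‼ : ℕ) : ℝ) - phi m / 2| ≤ Real.log ((m : ℝ) + 1) + 1 := by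
  obtain ⟨j, hj⟩ := hm
  have : m = 2 * j := by omega
  subst this
  exact abs_log_doubleFactorial_sub j

/-- Shannon entropy of a vector of weights -/
noncomputable def Hent {S : Type*} [Fintype S] (q : S → ℝ) : ℝ := ∑ s, Real.negMulLog (q s)

lemma mul_Hent {S : Type*} [Fintype S] (N : S → ℕ) (n : ℕ) (hn : 0 < n) (hN : ∑ s, N s = n) :
    (n : ℝ) * Hent (fun s => (N s : ℝ) / n) = phi n - ∑ s, phi (N s) := by
  have hn' : (0 : ℝ) < n := by exact_mod_cast hn
  have hsum : ∑ s, (N s : ℝ) = n := by exact_mod_cast hN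
  unfold Hent phi
  rw [Finset.mul_sum, Finset.sum_sub_distrib, hsum]
  have hterm : ∀ s, (n : ℝ) * Real.negMulLog ((N s : ℝ) / n) =
      (N s : ℝ) * Real.log n - (N s : ℝ) * Real.log (N s) := by
    intro s
    rcases Nat.eq_zero_or_pos (N s) with h0 | hpos
    · simp [h0]
    · have hp : (0 : ℝ) < N s := by exact_mod_cast hpos
      rw [Real.negMulLog, Real.log_div hp.ne' hn'.ne']
      field_simp
      ring
  rw [Finset.sum_congr rfl (fun s _ => hterm s), Finset.sum_sub_distrib, ← Finset.sum_mul, hsum]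
  ring

/-- logarithm of the orbit-free edge weight: `(1/2) log m!` for a non-symmetric edge type
(its reverse contributes the other half), `log (m-1)!!` for a symmetric one -/
noncomputable def wE (sym : Prop) [Decidable sym] (m : ℕ) : ℝ :=
  if sym then Real.log (((m - 1)‼ : ℕ) : ℝ) else Real.log (m ! : ℝ) / 2

lemma abs_wE_sub (sym : Prop) [Decidable sym] (m : ℕ) (hm : sym → Even m) :
    |wE sym m - phi m / 2| ≤ Real.log ((m : ℝ) + 1) + 1 := by
  unfold wE
  split_ifs with h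
  · exact abs_log_doubleFactorial_sub' (hm h)
  · have h1 := abs_log_factorial_sub_phi m
    have h3 : 0 ≤ Real.log ((m : ℝ) + 1) := Real.log_nonneg (by
      have : (0 : ℝ) ≤ m := Nat.cast_nonneg m
      linarith)
    rw [abs_le] at h1 ⊢
    constructor <;> linarith [h1.1, h1.2]

/-- **Asymptotics of the exact count**, explicit error. -/
theorem count_asymp {St Th : Type*} [Fintype St] [Fintype Th]
    (sym : Th → Prop) [DecidablePred sym] (n d : ℕ) (hn : 0 < n) (hd : 0 < d)
    (N : St → ℕ) (hN : ∑ s, N s = n) (m : Th → ℕ) (hm : ∑ t, m t = n * d)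
    (hev : ∀ t, sym t → Even (m t)) (hnd : Even (n * d)) :
    |(Real.log (n ! : ℝ) - ∑ s, Real.log ((N s)! : ℝ) + ∑ t, wE (sym t) (m t)) -
        Real.log (((n * d - 1)‼ : ℕ) : ℝ) -
        n * (Hent (fun s => (N s : ℝ) / n) -
          (d : ℝ) / 2 * Hent (fun t => (m t : ℝ) / ((n * d : ℕ) : ℝ)))| ≤
      (Fintype.card St + 1) * (Real.log ((n : ℝ) + 1) + 1) +
      (Fintype.card Th + 1) * (Real.log (((n * d : ℕ) : ℝ) + 1) + 1) := by
  have hnd0 : 0 < n * d := Nat.mul_pos hn hd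
  have e1 := mul_Hent N n hn hN
  have e2 := mul_Hent m (n * d) hnd0 hm
  have b1 := abs_log_factorial_sub_phi n
  have b2 := abs_log_doubleFactorial_sub' hnd
  have b3 : |∑ s, (Real.log ((N s)! : ℝ) - phi (N s))| ≤
      (Fintype.card St) * (Real.log ((n : ℝ) + 1) + 1) := by
    refine (Finset.abs_sum_le_sum_abs _ _).trans ?_
    have : ∀ s ∈ (Finset.univ : Finset St), |Real.log ((N s)! : ℝ) - phi (N s)| ≤
        Real.log ((n : ℝ) + 1) + 1 := by
      intro s _
      refine (abs_log_factorial_sub_phi (N s)).trans ?_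
      have hle : N s ≤ n := by
        rw [← hN]; exact Finset.single_le_sum (fun _ _ => Nat.zero_le _) (Finset.mem_univ s)
      have hle' : (N s : ℝ) ≤ n := by exact_mod_cast hle
      have : Real.log ((N s : ℝ) + 1) ≤ Real.log ((n : ℝ) + 1) :=
        Real.log_le_log (by positivity) (by linarith)
      linarith
    refine (Finset.sum_le_sum this).trans ?_
    rw [Finset.sum_const, nsmul_eq_mul, Finset.card_univ]
  have b4 : |∑ t, (wE (sym t) (m t) - phi (m t) / 2)| ≤
      (Fintype.card Th) * (Real.log (((n * d : ℕ) : ℝ) + 1) + 1) := by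
    refine (Finset.abs_sum_le_sum_abs _ _).trans ?_
    have : ∀ t ∈ (Finset.univ : Finset Th), |wE (sym t) (m t) - phi (m t) / 2| ≤
        Real.log (((n * d : ℕ) : ℝ) + 1) + 1 := by
      intro t _
      refine (abs_wE_sub (sym t) (m t) (hev t)).trans ?_
      have hle : m t ≤ n * d := by
        rw [← hm]; exact Finset.single_le_sum (fun _ _ => Nat.zero_le _) (Finset.mem_univ t)
      have hle' : (m t : ℝ) ≤ ((n * d : ℕ) : ℝ) := by exact_mod_cast hle
      have : Real.log ((m t : ℝ) + 1) ≤ Real.log (((n * d : ℕ) : ℝ) + 1) :=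
        Real.log_le_log (by positivity) (by linarith)
      linarith
    refine (Finset.sum_le_sum this).trans ?_
    rw [Finset.sum_const, nsmul_eq_mul, Finset.card_univ]
  rw [Finset.sum_sub_distrib] at b3 b4
  have e3 : (n : ℝ) * ((d : ℝ) / 2 * Hent (fun t => (m t : ℝ) / ((n * d : ℕ) : ℝ))) =
      (phi ((n * d : ℕ) : ℝ) - ∑ t, phi (m t)) / 2 := by
    rw [← e2]; push_cast; ring
  have e4 : ∑ t, phi (m t : ℝ) / 2 = (∑ t, phi (m t : ℝ)) / 2 := by rw [Finset.sum_div]
  rw [mul_sub, e1, e3]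
  rw [e4] at b4
  rw [abs_le] at *
  constructor <;> nlinarith [b1.1, b1.2, b2.1, b2.2, b3.1, b3.2, b4.1, b4.2]

/-- the error in the form `C log (n+1)` -/
theorem err_le (a b n d : ℕ) (hn : 0 < n) :
    ((a : ℝ) + 1) * (Real.log ((n : ℝ) + 1) + 1) +
      ((b : ℝ) + 1) * (Real.log (((n * d : ℕ) : ℝ) + 1) + 1) ≤
    (3 * ((a : ℝ) + 1) + ((b : ℝ) + 1) * (3 + 2 * Real.log ((d : ℝ) + 1))) *
      Real.log ((n : ℝ) + 1) := by
  have hn' : (1 : ℝ) ≤ n := by exact_mod_cast hn
  have hl2 : (1 : ℝ) / 2 ≤ Real.log 2 := by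
    have := Real.log_two_gt_d9
    linarith
  have hln : Real.log 2 ≤ Real.log ((n : ℝ) + 1) := Real.log_le_log (by norm_num) (by linarith)
  have h1 : 1 ≤ 2 * Real.log ((n : ℝ) + 1) := by linarith
  have hd0 : 0 ≤ Real.log ((d : ℝ) + 1) := Real.log_nonneg (by
    have : (0 : ℝ) ≤ d := Nat.cast_nonneg d
    linarith)
  have h2 : Real.log (((n * d : ℕ) : ℝ) + 1) ≤ Real.log ((n : ℝ) + 1) + Real.log ((d : ℝ) + 1) := by
    rw [← Real.log_mul (by positivity) (by positivity)]
    apply Real.log_le_log (by positivity)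
    push_cast
    have : (0 : ℝ) ≤ d := Nat.cast_nonneg d
    nlinarith
  have h3 : Real.log ((d : ℝ) + 1) ≤ 2 * Real.log ((d : ℝ) + 1) * Real.log ((n : ℝ) + 1) := by
    nlinarith
  have ha : (0 : ℝ) ≤ (a : ℝ) + 1 := by positivity
  have hb : (0 : ℝ) ≤ (b : ℝ) + 1 := by positivity
  have h4 : Real.log ((n : ℝ) + 1) + 1 ≤ 3 * Real.log ((n : ℝ) + 1) := by linarith
  have h5 : Real.log (((n * d : ℕ) : ℝ) + 1) + 1 ≤
      (3 + 2 * Real.log ((d : ℝ) + 1)) * Real.log ((n : ℝ) + 1) := by nlinarith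
  calc ((a : ℝ) + 1) * (Real.log ((n : ℝ) + 1) + 1) +
      ((b : ℝ) + 1) * (Real.log (((n * d : ℕ) : ℝ) + 1) + 1)
      ≤ ((a : ℝ) + 1) * (3 * Real.log ((n : ℝ) + 1)) +
        ((b : ℝ) + 1) * ((3 + 2 * Real.log ((d : ℝ) + 1)) * Real.log ((n : ℝ) + 1)) :=
        add_le_add (mul_le_mul_of_nonneg_left h4 ha) (mul_le_mul_of_nonneg_left h5 hb)
    _ = _ := by ring

end Crest.Agent.R166.CntAsym289
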