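import Crest.Agent.R166.Sw_798

/-!
# R166, section 20: expected number of short cycles (helper798)
-/

set_option autoImplicit false
set_option linter.unusedSectionVars false

open Finset

namespace Crest.Agent.R166.Sw798

open Classical

variable {V : Type*} [Fintype V]

/-- labelled `k`-cycles of `G`: injective maps `c : ZMod k → V` with `c i ~ c (i+1)`; used for
`k ≥ 3` -/
noncomputable def cycs (G : SimpleGraph V) (k : ℕ) [NeZero k] : Finset (Fin k → V) :=
  Finset.univ.filter fun c => Function.Injective c ∧ ∀ i : Fin k, G.Adj (c i) (c (i + 1))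

lemma mem_cycs {G : SimpleGraph V} {k : ℕ} [NeZero k] {c : Fin k → V} :
    c ∈ cycs G k ↔ Function.Injective c ∧ ∀ i : Fin k, G.Adj (c i) (c (i + 1)) := by
  simp [cycs]

/-- the edge set of a labelled cycle -/
noncomputable def cycE {k : ℕ} [NeZero k] (c : Fin k → V) : Finset (Sym2 V) :=
  Finset.univ.image fun i : Fin k => s(c i, c (i + 1))

lemma card_cycE {k : ℕ} [NeZero k] (hk : 3 ≤ k) {c : Fin k → V} (hc : Function.Injective c) :
    (cycE c).card = k := by
  unfold cycE
  rw [Finset.card_image_of_injective, Finset.card_univ, Fintype.card_fin]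
  intro i j hij
  simp only [Sym2.eq_iff] at hij
  rcases hij with ⟨h1, _⟩ | ⟨h1, h2⟩
  · exact hc h1
  · exfalso
    have e1 := hc h1
    have e2 := hc h2
    rw [e1] at e2
    -- j + 1 + 1 = j
    have e3 : (1 + 1 : Fin k) = 0 := by
      have : j + (1 + 1) = j + 0 := by rw [← add_assoc, e2, add_zero]
      exact add_left_cancel this
    obtain ⟨m, rfl⟩ : ∃ m, k = m + 3 := ⟨k - 3, by omega⟩
    have e4 : ((1 + 1 : Fin (m + 3)) : ℕ) = ((0 : Fin (m + 3)) : ℕ) := congrArg Fin.val e3
    rw [Fin.val_add] at e4
    have e5 : ((1 : Fin (m + 3)) : ℕ) = 1 := by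
      rw [Fin.val_one']
      exact Nat.mod_eq_of_lt (by omega)
    rw [e5, Nat.mod_eq_of_lt (by omega)] at e4
    exact absurd e4 (by simp)

/-- **Short cycles.** The expected number of labelled `k`-cycles is at most `C^k`. -/
theorem sum_card_cycs_le {d : ℕ} (hd : 1 ≤ d) (k : ℕ) [NeZero k] (hk : 3 ≤ k) :
    (∑ G ∈ Reg V d, ((cycs G k).card : ℝ)) ≤ (6 * d + 8 + 4 * k : ℝ) ^ k * (Reg V d).card := by
  rcases Nat.eq_zero_or_pos (Fintype.card V) with h0 | hpos
  · have hV : IsEmpty V := Fintype.card_eq_zero_iff.1 h0
    have hz : ∀ G : SimpleGraph V, (cycs G k).card = 0 := by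
      intro G
      rw [Finset.card_eq_zero]
      ext c
      exact (hV.false (c 0)).elim
    simp only [hz, Nat.cast_zero, Finset.sum_const_zero]
    positivity
  have hnpos : (0 : ℝ) < Fintype.card V := by exact_mod_cast hpos
  have h1 : (∑ G ∈ Reg V d, ((cycs G k).card : ℝ)) =
      ∑ c ∈ (Finset.univ.filter fun c : Fin k → V => Function.Injective c),
        (((Reg V d).filter fun G => ∀ i : Fin k, G.Adj (c i) (c (i + 1))).card : ℝ) := by
    push_cast [cycs, Finset.card_filter]
    rw [Finset.sum_comm, Finset.sum_filter]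
    refine Finset.sum_congr rfl fun c _ => ?_
    by_cases hc : Function.Injective c
    · simp [hc]
    · simp [hc]
  rw [h1]
  calc (∑ c ∈ (Finset.univ.filter fun c : Fin k → V => Function.Injective c),
        (((Reg V d).filter fun G => ∀ i : Fin k, G.Adj (c i) (c (i + 1))).card : ℝ))
      ≤ ∑ c ∈ (Finset.univ.filter fun c : Fin k → V => Function.Injective c),
        ((6 * d + 8 + 4 * k : ℝ) / Fintype.card V) ^ k * (Reg V d).card := by
        refine Finset.sum_le_sum fun c hc => ?_
        have hci : Function.Injective c := by simpa using hc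
        have hcard := card_cycE hk hci
        have h2 := card_RegF_le (V := V) hd k (cycE c) hcard.le
        rw [hcard] at h2
        refine le_trans ?_ h2
        have : ((Reg V d).filter fun G => ∀ i : Fin k, G.Adj (c i) (c (i + 1))) ⊆
            RegF V d (cycE c) := by
          intro G hG
          simp only [Finset.mem_filter] at hG
          refine mem_RegF.2 ⟨hG.1, ?_⟩
          intro f hf
          simp only [cycE, Finset.mem_image, Finset.mem_univ, true_and] at hf
          obtain ⟨i, rfl⟩ := hf
          exact hG.2 i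
        exact_mod_cast Finset.card_le_card this
    _ = ((Finset.univ.filter fun c : Fin k → V => Function.Injective c).card : ℝ) *
        (((6 * d + 8 + 4 * k : ℝ) / Fintype.card V) ^ k * (Reg V d).card) := by
        rw [Finset.sum_const, nsmul_eq_mul]
    _ ≤ ((Fintype.card V : ℝ) ^ k) *
        (((6 * d + 8 + 4 * k : ℝ) / Fintype.card V) ^ k * (Reg V d).card) := by
        gcongr
        have : (Finset.univ.filter fun c : Fin k → V => Function.Injective c).card ≤
            (Fintype.card V) ^ k := by
          refine (Finset.card_filter_le _ _).trans ?_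
          rw [Finset.card_univ, Fintype.card_pi]
          simp
        exact_mod_cast this
    _ = _ := by
        rw [← mul_assoc, ← mul_pow, mul_div_cancel₀ _ hnpos.ne']

/-! ### small sets with excess at least one -/

/-- edges of `G` inside the vertex set `S` -/
noncomputable def eIn (G : SimpleGraph V) (S : Finset V) : Finset (Sym2 V) :=
  Finset.univ.filter fun f => f ∈ G.edgeSet ∧ ∀ v ∈ f, v ∈ S

lemma mem_eIn {G : SimpleGraph V} {S : Finset V} {f : Sym2 V} :
    f ∈ eIn G S ↔ f ∈ G.edgeSet ∧ ∀ v ∈ f, v ∈ S := by
  simp [eIn]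

/-- the constant in `card_excess_le` -/
noncomputable def CM (d M : ℕ) : ℝ :=
  (M + 1) * (2 ^ ((M + 1) ^ 2) * (6 * d + 8 + 4 * (M + 1) : ℝ) ^ (M + 1))

lemma CM_pos (d M : ℕ) : 0 < CM d M := by
  unfold CM; positivity

/-- **Small sets with excess.** The probability that some vertex set of size at most `M` spans more
edges than vertices is `O(1/n)`. -/
theorem card_excess_le {d : ℕ} (hd : 1 ≤ d) (M : ℕ) :
    (((Reg V d).filter fun G => ∃ S : Finset V, S.card ≤ M ∧ S.card + 1 ≤ (eIn G S).card).card : ℝ)
      ≤ CM d M / Fintype.card V * (Reg V d).card := by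
  set B := (Reg V d).filter fun G => ∃ S : Finset V, S.card ≤ M ∧ S.card + 1 ≤ (eIn G S).card
    with hB
  rcases Nat.eq_zero_or_pos (Fintype.card V) with h0 | hpos
  · have hV : IsEmpty V := Fintype.card_eq_zero_iff.1 h0
    have hBe : B = ∅ := by
      ext G
      simp only [hB, Finset.mem_filter, Finset.notMem_empty, iff_false, not_and, not_exists]
      rintro _ S _ h
      have : (eIn G S) = ∅ := by
        ext f
        induction f with
        | _ a b => exact (hV.false a).elim
      rw [this] at h
      simp at h
    rw [hBe]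
    simp only [Finset.card_empty, Nat.cast_zero]
    have := (CM_pos d M).le
    positivity
  have hnpos : (0 : ℝ) < Fintype.card V := by exact_mod_cast hpos
  have hn1 : (1 : ℝ) ≤ Fintype.card V := by exact_mod_cast hpos
  set C : ℝ := 6 * d + 8 + 4 * (M + 1) with hC
  have hC1 : 1 ≤ C := by
    have : (0 : ℝ) ≤ d := Nat.cast_nonneg d
    have : (0 : ℝ) ≤ M := Nat.cast_nonneg M
    rw [hC]; linarith
  have hsub : B ⊆ (Finset.range (M + 1)).biUnion fun k =>
      ((Finset.univ : Finset V).powersetCard k).biUnion fun S =>
        (S.sym2.powersetCard (k + 1)).biUnion fun F => RegF V d F := by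
    intro G hG
    simp only [hB, Finset.mem_filter] at hG
    obtain ⟨hGR, S, hS, hcard⟩ := hG
    obtain ⟨F, hF1, hF2⟩ := Finset.exists_subset_card_eq hcard
    simp only [Finset.mem_biUnion, Finset.mem_range, Finset.mem_powersetCard]
    refine ⟨S.card, by omega, S, ⟨Finset.subset_univ _, rfl⟩, F, ⟨?_, hF2⟩, ?_⟩
    · intro f hf
      rw [Finset.mem_sym2_iff]
      exact (mem_eIn.1 (hF1 hf)).2
    · exact mem_RegF.2 ⟨hGR, fun f hf => (mem_eIn.1 (hF1 hf)).1⟩
  have hbound : ∀ k ∈ Finset.range (M + 1), ∀ S ∈ (Finset.univ : Finset V).powersetCard k,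
      ((((S.sym2.powersetCard (k + 1)).biUnion fun F => RegF V d F).card : ℕ) : ℝ) ≤
        2 ^ ((M + 1) ^ 2) * ((C / Fintype.card V) ^ (k + 1) * (Reg V d).card) := by
    intro k hk S hS
    have hk' : k ≤ M := by simpa [Nat.lt_succ_iff] using hk
    have hScard : S.card = k := (Finset.mem_powersetCard.1 hS).2
    calc ((((S.sym2.powersetCard (k + 1)).biUnion fun F => RegF V d F).card : ℕ) : ℝ)
        ≤ ∑ F ∈ S.sym2.powersetCard (k + 1), ((RegF V d F).card : ℝ) := by
          exact_mod_cast Finset.card_biUnion_le
      _ ≤ ∑ F ∈ S.sym2.powersetCard (k + 1), ((C / Fintype.card V) ^ (k + 1) * (Reg V d).card) := by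
          refine Finset.sum_le_sum fun F hF => ?_
          have hF2 := (Finset.mem_powersetCard.1 hF).2
          have := card_RegF_le (V := V) hd (M + 1) F (by omega)
          rw [hF2] at this
          refine this.trans (le_of_eq ?_)
          rw [hC]; push_cast; ring
      _ = ((S.sym2.powersetCard (k + 1)).card : ℝ) *
          ((C / Fintype.card V) ^ (k + 1) * (Reg V d).card) := by
          rw [Finset.sum_const, nsmul_eq_mul]
      _ ≤ _ := by
          gcongr
          have h1 : (S.sym2.powersetCard (k + 1)).card ≤ 2 ^ ((M + 1) ^ 2) := by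
            rw [Finset.card_powersetCard]
            refine (Nat.choose_le_two_pow _ _).trans ?_
            apply Nat.pow_le_pow_right (by norm_num)
            rw [Finset.card_sym2, hScard]
            calc (k + 1).choose 2 ≤ (M + 1).choose 2 := Nat.choose_le_choose 2 (by omega)
              _ = (M + 1) * M / 2 := by rw [Nat.choose_two_right]; simp
              _ ≤ (M + 1) * M := Nat.div_le_self _ _
              _ ≤ (M + 1) ^ 2 := by nlinarith
          exact_mod_cast h1
  calc (B.card : ℝ) ≤ ∑ k ∈ Finset.range (M + 1), ∑ S ∈ (Finset.univ : Finset V).powersetCard k,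
        ((((S.sym2.powersetCard (k + 1)).biUnion fun F => RegF V d F).card : ℕ) : ℝ) := by
        have h1 := Finset.card_le_card hsub
        have h2 : ((Finset.range (M + 1)).biUnion fun k =>
            ((Finset.univ : Finset V).powersetCard k).biUnion fun S =>
              (S.sym2.powersetCard (k + 1)).biUnion fun F => RegF V d F).card ≤
            ∑ k ∈ Finset.range (M + 1), ∑ S ∈ (Finset.univ : Finset V).powersetCard k,
              ((S.sym2.powersetCard (k + 1)).biUnion fun F => RegF V d F).card := by
          refine Finset.card_biUnion_le.trans ?_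
          exact Finset.sum_le_sum fun k _ => Finset.card_biUnion_le
        exact_mod_cast h1.trans h2
    _ ≤ ∑ k ∈ Finset.range (M + 1), (C ^ (M + 1) * 2 ^ ((M + 1) ^ 2) / Fintype.card V) *
        (Reg V d).card := by
        refine Finset.sum_le_sum fun k hk => ?_
        have hk' : k ≤ M := by simpa [Nat.lt_succ_iff] using hk
        calc _ ≤ ∑ S ∈ (Finset.univ : Finset V).powersetCard k,
              2 ^ ((M + 1) ^ 2) * ((C / Fintype.card V) ^ (k + 1) * ((Reg V d).card : ℝ)) :=
              Finset.sum_le_sum fun S hS => hbound k hk S hS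
          _ = (((Finset.univ : Finset V).powersetCard k).card : ℝ) *
              (2 ^ ((M + 1) ^ 2) * ((C / Fintype.card V) ^ (k + 1) * ((Reg V d).card : ℝ))) := by
              rw [Finset.sum_const, nsmul_eq_mul]
          _ ≤ ((Fintype.card V : ℝ) ^ k) *
              (2 ^ ((M + 1) ^ 2) * ((C / Fintype.card V) ^ (k + 1) * ((Reg V d).card : ℝ))) := by
              gcongr
              rw [Finset.card_powersetCard, Finset.card_univ]
              exact_mod_cast Nat.choose_le_pow _ _
          _ = (C ^ (k + 1) * 2 ^ ((M + 1) ^ 2) / Fintype.card V) * (Reg V d).card := by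
              rw [div_pow, pow_succ (Fintype.card V : ℝ) k]
              field_simp
          _ ≤ _ := by
              gcongr
    _ = CM d M / Fintype.card V * (Reg V d).card := by
        rw [Finset.sum_const, nsmul_eq_mul, Finset.card_range, CM]
        push_cast
        rw [← hC]
        ring

end Crest.Agent.R166.Sw798
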