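import Crest.Agent.R166.Dec_598

/-!
# Row 166, section 30.3: deterministic decoupling, main theorem (helper598)
-/

set_option autoImplicit false
set_option linter.unusedSectionVars false

open Matrix

namespace Crest.Agent.R166.Dec598

open Crest.Agent.R166.Res598

section lifts

variable {α β κ : Type*} [Fintype α] [DecidableEq α] [Fintype β] [DecidableEq β]
  [Fintype κ] [DecidableEq κ]

lemma lift_inl_add_inr (U : Matrix α α ℝ) (V : Matrix β β ℝ) :
    lift (emb (Sum.inl : α → α ⊕ β)) U + lift (emb (Sum.inr : β → α ⊕ β)) V =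
      fromBlocks U 0 0 V := by
  ext (p | p) (q | q)
  · rw [Matrix.add_apply, lift_emb_apply Sum.inl_injective,
      lift_emb_left (f := (Sum.inr : β → α ⊕ β)) V (by simp)]
    simp
  · rw [Matrix.add_apply, lift_emb_left (f := (Sum.inr : β → α ⊕ β)) V (by simp),
      lift_emb_right (f := (Sum.inl : α → α ⊕ β)) U _ (by simp)]
    simp
  · rw [Matrix.add_apply, lift_emb_left (f := (Sum.inl : α → α ⊕ β)) U (by simp),
      lift_emb_right (f := (Sum.inr : β → α ⊕ β)) V _ (by simp)]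
    simp
  · rw [Matrix.add_apply, lift_emb_apply Sum.inr_injective,
      lift_emb_left (f := (Sum.inl : α → α ⊕ β)) U (by simp)]
    simp

lemma lift_submatrix (e : α ≃ β) (f : κ → β) (U : Matrix κ κ ℝ) :
    (lift (emb f) U).submatrix e e = lift (emb (e.symm ∘ f)) U := by
  ext x y
  rw [Matrix.submatrix_apply, lift_emb_entry, lift_emb_entry]
  refine Finset.sum_congr rfl fun a _ => Finset.sum_congr rfl fun b _ => ?_
  simp only [Function.comp_apply, Equiv.eq_symm_apply]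

lemma lift_neg (f : κ → β) (U : Matrix κ κ ℝ) : lift (emb f) (-U) = - lift (emb f) U := by
  simp [lift]

/-- the edges `(0,k) -- (1,k)` -/
lemma edgeM_pairs : edgeM (fun k : κ => ((0 : Fin 2), k)) (fun k => ((1 : Fin 2), k)) =
    blockDiagonal fun _ : κ => Wm := by
  ext ⟨i, k⟩ ⟨j, l⟩
  rw [edgeM_apply, blockDiagonal_apply]
  by_cases hkl : k = l
  · subst hkl
    rw [if_pos rfl, Finset.sum_eq_single k]
    · fin_cases i <;> fin_cases j <;> simp [Wm]
    · intro b _ hb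
      simp [hb.symm]
    · simp
  · rw [if_neg hkl]
    apply Finset.sum_eq_zero
    intro b _
    have h1 : ¬ ((i, k) = ((0 : Fin 2), b) ∧ (j, l) = ((1 : Fin 2), b)) := by
      rintro ⟨h1, h2⟩
      exact hkl (((Prod.mk.inj h1).2).trans ((Prod.mk.inj h2).2).symm)
    have h2 : ¬ ((i, k) = ((1 : Fin 2), b) ∧ (j, l) = ((0 : Fin 2), b)) := by
      rintro ⟨h1, h2⟩
      exact hkl (((Prod.mk.inj h1).2).trans ((Prod.mk.inj h2).2).symm)
    rw [if_neg h1, if_neg h2, add_zero]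

end lifts

section main

variable {T B A J : Type*} [Fintype T] [DecidableEq T] [Fintype B] [DecidableEq B]
  [Fintype A] [DecidableEq A] [Fintype J] [DecidableEq J]

lemma bd_grp_submatrix (Z : Matrix (Idx T B J) (Idx T B J) ℂ) :
    (bd grp Z).submatrix (Equiv.sumAssoc T B (Fin 2 × J)) (Equiv.sumAssoc T B (Fin 2 × J)) =
      fromBlocks (Z.submatrix sS sS) 0 0
        (blockDiagonal fun j => Z.submatrix (eJ j) (eJ j)) := by
  ext ((p | p) | ⟨i, p⟩) ((q | q) | ⟨j, q⟩) <;>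
    simp [bd, grp, sS, eJ, blockDiagonal_apply]
  all_goals
    split_ifs with h
    · subst h; rfl
    · rfl

/-- the first stage of the perturbation: everything inside the groups -/
def pert1 (U1 : Matrix (T ⊕ B) (T ⊕ B) ℝ) : Matrix (Idx T B J) (Idx T B J) ℝ :=
  lift (emb sS) U1 - edgeM (fun j : J => eJ j 0) (fun j => eJ j 1)

lemma pert1_symm {U1 : Matrix (T ⊕ B) (T ⊕ B) ℝ} (hU1 : U1ᵀ = U1) :
    (pert1 (J := J) U1)ᵀ = pert1 U1 := by
  rw [pert1, Matrix.transpose_sub, edgeM_symm, lift_symm _ hU1]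

lemma pert1_submatrix (U1 : Matrix (T ⊕ B) (T ⊕ B) ℝ) :
    (pert1 U1).submatrix (Equiv.sumAssoc T B (Fin 2 × J)) (Equiv.sumAssoc T B (Fin 2 × J)) =
      fromBlocks U1 0 0 (blockDiagonal fun _ : J => -Wm) := by
  have h1 : edgeM (fun j : J => (eJ j 0 : Idx T B J)) (fun j => eJ j 1) =
      lift (emb (fun q : Fin 2 × J => (Sum.inr (Sum.inr q) : Idx T B J)))
        (blockDiagonal fun _ : J => Wm) := by
    rw [← edgeM_pairs, lift_edgeM]
    rfl
  rw [pert1, h1, sub_eq_add_neg, ← lift_neg, ← lift_inl_add_inr]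
  have h2 : ∀ M N : Matrix (Idx T B J) (Idx T B J) ℝ, (M + N).submatrix
      (Equiv.sumAssoc T B (Fin 2 × J)) (Equiv.sumAssoc T B (Fin 2 × J)) =
      M.submatrix (Equiv.sumAssoc T B (Fin 2 × J)) (Equiv.sumAssoc T B (Fin 2 × J)) +
      N.submatrix (Equiv.sumAssoc T B (Fin 2 × J)) (Equiv.sumAssoc T B (Fin 2 × J)) :=
    fun M N => rfl
  rw [h2, lift_submatrix, lift_submatrix]
  have h3 : ((Equiv.sumAssoc T B (Fin 2 × J)).symm ∘ (sS : T ⊕ B → Idx T B J)) = Sum.inl := by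
    ext (x | x) <;> rfl
  have h4 : ((Equiv.sumAssoc T B (Fin 2 × J)).symm ∘
      fun q : Fin 2 × J => (Sum.inr (Sum.inr q) : Idx T B J)) = Sum.inr := by
    ext x; rfl
  rw [h3, h4]
  congr 2
  ext ⟨i, k⟩ ⟨j, l⟩
  simp only [Matrix.neg_apply, blockDiagonal_apply]
  split_ifs <;> simp

/-- stage 1: after the perturbation inside the groups -/
theorem mob_stage1 {Z : Matrix (Idx T B J) (Idx T B J) ℂ} (hZ : Siegel Z)
    {U1 : Matrix (T ⊕ B) (T ⊕ B) ℝ} (hU1 : U1ᵀ = U1)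
    {RT : Matrix T T ℂ} {Sg : Matrix B B ℂ}
    (hdec : mob U1 (Z.submatrix sS sS) = fromBlocks RT 0 0 Sg) :
    mob (pert1 U1) (bd grp Z) =
      fromBlocks RT 0 0 (fromBlocks Sg 0 0
        (blockDiagonal fun j : J => B0 (Z.submatrix (eJ j) (eJ j)))) := by
  have hbd : Siegel (bd grp Z) := hZ.bd grp
  have hBj : ∀ j : J, Siegel (Z.submatrix (eJ j) (eJ j)) := fun j => hZ.sub (eJ_injective j)
  have hSS : Siegel (Z.submatrix sS sS) := hZ.sub sS_injective
  have h1 := mob_reindex (Equiv.sumAssoc T B (Fin 2 × J)) hbd (pert1_symm (J := J) hU1)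
  rw [bd_grp_submatrix, pert1_submatrix, mob_fromBlocks hSS (siegel_blockDiagonal hBj) hU1
    (by rw [blockDiagonal_transpose]; congr 1; ext k : 1; exact neg_Wm_symm),
    mob_blockDiagonal hBj (fun _ => neg_Wm_symm), hdec] at h1
  have h2 : ∀ M N : Matrix (Idx T B J) (Idx T B J) ℂ, M.submatrix
      (Equiv.sumAssoc T B (Fin 2 × J)) (Equiv.sumAssoc T B (Fin 2 × J)) =
      N.submatrix (Equiv.sumAssoc T B (Fin 2 × J)) (Equiv.sumAssoc T B (Fin 2 × J)) → M = N := by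
    intro M N h
    ext x y
    have := congrFun (congrFun h ((Equiv.sumAssoc T B (Fin 2 × J)).symm x))
      ((Equiv.sumAssoc T B (Fin 2 × J)).symm y)
    simpa only [Matrix.submatrix_apply, Equiv.apply_symm_apply] using this
  apply h2
  rw [h1]
  ext ((p | p) | ⟨i, p⟩) ((q | q) | ⟨j, q⟩) <;> simp [B0]

lemma uI_injective {uA : A → B} (huA : Function.Injective uA) :
    Function.Injective (uI (J := J) uA) := by
  rintro (a | a) (b | b) h
  · simp only [uI, Sum.elim_inl] at h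
    exact congrArg Sum.inl (huA (Sum.inl_injective h))
  · simp [uI] at h
  · simp [uI] at h
  · simp only [uI, Sum.elim_inr] at h
    have := Sum.inr_injective h
    exact congrArg Sum.inr (Prod.mk.inj this).2

lemma siegel_leafXi {Sg : Matrix B B ℂ} (hSg : Siegel Sg) {C : J → Matrix (Fin 2) (Fin 2) ℂ}
    (hC : ∀ j, Siegel (C j)) (aJ : J → B) {uA : A → B} (huA : Function.Injective uA) :
    Siegel (leafXi Sg C aJ uA) :=
  (siegel_mob (siegel_fromBlocks hSg (siegel_blockDiagonal hC)) (edgeM_symm _ _)).sub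
    (uI_injective huA)

lemma pert_eq (U1 : Matrix (T ⊕ B) (T ⊕ B) ℝ) (aJ : J → B) (uA : A → B) (t : A ⊕ J → T) :
    pert U1 aJ uA t = pert1 U1 +
      edgeM (fun j : J => (Sum.inr (Sum.inl (aJ j)) : Idx T B J)) (fun j => eJ j 1) +
      edgeM (fun i : A ⊕ J => (Sum.inl (t i) : Idx T B J)) (fun i => Sum.inr (uI uA i)) := rfl

lemma pert_symm {U1 : Matrix (T ⊕ B) (T ⊕ B) ℝ} (hU1 : U1ᵀ = U1) (aJ : J → B) (uA : A → B)
    (t : A ⊕ J → T) : (pert U1 aJ uA t)ᵀ = pert U1 aJ uA t := by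
  rw [pert_eq, Matrix.transpose_add, Matrix.transpose_add, pert1_symm hU1, edgeM_symm, edgeM_symm]

/-- the tree corner of the decoupled system -/
theorem mob_pert_bd {Z : Matrix (Idx T B J) (Idx T B J) ℂ} (hZ : Siegel Z)
    {U1 : Matrix (T ⊕ B) (T ⊕ B) ℝ} (hU1 : U1ᵀ = U1)
    {RT : Matrix T T ℂ} (hRT : Siegel RT) {Sg : Matrix B B ℂ} (hSg : Siegel Sg)
    (hdec : mob U1 (Z.submatrix sS sS) = fromBlocks RT 0 0 Sg)
    (aJ : J → B) {uA : A → B} (huA : Function.Injective uA) (t : A ⊕ J → T) :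
    (mob (pert U1 aJ uA t) (bd grp Z)).submatrix Sum.inl Sum.inl =
      treeOut RT t (leafXi Sg (fun j => B0 (Z.submatrix (eJ j) (eJ j))) aJ uA) := by
  have hbd : Siegel (bd grp Z) := hZ.bd grp
  have hC : ∀ j : J, Siegel (B0 (Z.submatrix (eJ j) (eJ j))) :=
    fun j => siegel_B0 (hZ.sub (eJ_injective j))
  set C : J → Matrix (Fin 2) (Fin 2) ℂ := fun j => B0 (Z.submatrix (eJ j) (eJ j)) with hCdef
  set M0 : Matrix (B ⊕ (Fin 2 × J)) (B ⊕ (Fin 2 × J)) ℂ :=
    fromBlocks Sg 0 0 (blockDiagonal C) with hM0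
  have hM0s : Siegel M0 := siegel_fromBlocks hSg (siegel_blockDiagonal hC)
  have hD1 : Siegel (fromBlocks RT 0 0 M0) := siegel_fromBlocks hRT hM0s
  set E2 : Matrix (B ⊕ (Fin 2 × J)) (B ⊕ (Fin 2 × J)) ℝ :=
    edgeM (fun j : J => Sum.inl (aJ j)) (fun j => Sum.inr (1, j)) with hE2
  have hE2s : E2ᵀ = E2 := edgeM_symm _ _
  rw [pert_eq, mob_add hbd (by rw [Matrix.transpose_add, pert1_symm hU1, edgeM_symm])
    (edgeM_symm _ _), mob_add hbd (pert1_symm hU1) (edgeM_symm _ _), mob_stage1 hZ hU1 hdec]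
  have h2 : edgeM (fun j : J => (Sum.inr (Sum.inl (aJ j)) : Idx T B J)) (fun j => eJ j 1) =
      fromBlocks 0 0 0 E2 := by
    rw [hE2, ← edgeM_inr]; rfl
  rw [h2, mob_fromBlocks hRT hM0s (Matrix.transpose_zero) hE2s, mob_zero]
  set M1 := mob E2 M0 with hM1
  have hM1s : Siegel M1 := siegel_mob hM0s hE2s
  have hf : Function.Injective (Sum.map id (uI uA) : T ⊕ (A ⊕ J) → Idx T B J) :=
    Sum.map_injective.2 ⟨Function.injective_id, uI_injective huA⟩
  have h3 : edgeM (fun i : A ⊕ J => (Sum.inl (t i) : Idx T B J)) (fun i => Sum.inr (uI uA i)) =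
      lift (emb (Sum.map id (uI uA) : T ⊕ (A ⊕ J) → Idx T B J)) (edgeM (Sum.inl ∘ t) Sum.inr) := by
    rw [lift_edgeM]; rfl
  rw [h3]
  have h4 := cor_mob (inj_emb hf) (siegel_fromBlocks hRT hM1s)
    (edgeM_symm (Sum.inl ∘ t : A ⊕ J → T ⊕ (A ⊕ J)) Sum.inr)
  rw [cor_emb, cor_emb] at h4
  have h5 : (fromBlocks RT 0 0 M1 : Matrix (Idx T B J) (Idx T B J) ℂ).submatrix
      (Sum.map id (uI uA)) (Sum.map id (uI uA)) = fromBlocks RT 0 0 (leafXi Sg C aJ uA) := by
    ext (x | x) (y | y) <;> rfl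
  rw [h5] at h4
  have h6 := congrArg (fun M : Matrix (T ⊕ (A ⊕ J)) (T ⊕ (A ⊕ J)) ℂ =>
    M.submatrix Sum.inl Sum.inl) h4
  exact h6

/-- **(30.3), deterministic decoupling.** -/
theorem dec_main {Z : Matrix (Idx T B J) (Idx T B J) ℂ} (hZ : Siegel Z)
    {U1 : Matrix (T ⊕ B) (T ⊕ B) ℝ} (hU1 : U1ᵀ = U1)
    {RT : Matrix T T ℂ} (hRT : Siegel RT) {Sg : Matrix B B ℂ} (hSg : Siegel Sg)
    (hdec : mob U1 (Z.submatrix sS sS) = fromBlocks RT 0 0 Sg)
    (aJ : J → B) {uA : A → B} (huA : Function.Injective uA) (t : A ⊕ J → T)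
    {c : ℝ} (hc : 0 < c)
    (hB : ∀ j (y : Fin 2 → ℂ), c * ∑ i, ‖y i‖ ^ 2 ≤ qf (imM (Z.submatrix (eJ j) (eJ j))) y)
    (hlt : cT c Z < 1) :
    Near (cT c Z / (1 - cT c Z))
      (treeOut RT t (leafXi Sg (fun j => B0 (Z.submatrix (eJ j) (eJ j))) aJ uA))
      ((mob (pert U1 aJ uA t) Z).submatrix Sum.inl Sum.inl) := by
  have hbd : Siegel (bd grp Z) := hZ.bd grp
  have h0 : 0 ≤ cT c Z := by
    unfold cT
    have : 0 ≤ ∑ j : J, ∑ k : J, (if j = k then 0 else Real.sqrt (cP Z j k)) :=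
      Finset.sum_nonneg fun j _ => Finset.sum_nonneg fun k _ => by
        split_ifs
        · exact le_refl _
        · exact Real.sqrt_nonneg _
    positivity
  have h1 := (near_grp hZ hc hB).mob h0 hlt hbd (pert_symm hU1 aJ uA t)
  have h2 := h1.sub (Sum.inl : T → Idx T B J) (siegel_mob hbd (pert_symm hU1 aJ uA t))
  rw [mob_pert_bd hZ hU1 hRT hSg hdec aJ huA t] at h2
  exact h2

end main

end Crest.Agent.R166.Dec598
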