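import Crest.Agent.R166.Dec3_598

/-!
# Row 166, section 30.3: decoupling in vertex form (helper598)

`H` any real symmetric matrix on a finite type `V`; `φ : T → V` tree vertices, `a i`, `e i 0 = u i`,
`e i 1 = w i` (`i : ι`) the other sites, `A : Finset ι` the arbitrary inputs.
-/

set_option autoImplicit false
set_option linter.unusedSectionVars false

open Matrix

namespace Crest.Agent.R166.Dec598

open Crest.Agent.R166.Res598

section general

variable {V T κ μ ν : Type*} [Fintype V] [DecidableEq V] [Fintype T] [DecidableEq T]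
  [Fintype κ] [DecidableEq κ] [Fintype μ] [DecidableEq μ] [Fintype ν] [DecidableEq ν]

lemma emb_tmul_mul {α : Type*} [Fintype α] [DecidableEq α] (M : Matrix V V ℂ) (φ : T → V) :
    (cx (emb φ))ᵀ * M = M.submatrix φ id := emb_mul M φ

/-- if the rows `φ x` of `H` vanish outside the range of `φ`, the resolvent decouples -/
theorem Res_row_decoupled {H : Matrix V V ℝ} (hH : Hᵀ = H) {z : ℂ} (hz : 0 < z.im)
    {φ : T → V} (hφ : Function.Injective φ)
    (hrow : ∀ x v, (∀ y, v ≠ φ y) → H (φ x) v = 0) :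
    (Res789.Res H z).submatrix φ id =
      Res789.Res (H.submatrix φ φ) z * (cx (emb φ))ᵀ := by
  have hT : (H.submatrix φ φ)ᵀ = H.submatrix φ φ := by
    rw [Matrix.transpose_submatrix, hH]
  have h1 : (cx (emb φ))ᵀ * (Res789.cx H - z • (1 : Matrix V V ℂ)) =
      (Res789.cx (H.submatrix φ φ) - z • (1 : Matrix T T ℂ)) * (cx (emb φ))ᵀ := by
    rw [Matrix.mul_sub, Matrix.sub_mul]
    congr 1
    · rw [emb_mul]
      ext x v
      simp only [Matrix.submatrix_apply, id, Matrix.mul_apply, Matrix.transpose_apply,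
        Res789.cx_apply, cx_emb_apply]
      by_cases hv : ∃ y, v = φ y
      · obtain ⟨y, rfl⟩ := hv
        rw [Finset.sum_eq_single y]
        · simp
        · intro b _ hb
          rw [if_neg (fun h => hb (hφ h).symm), mul_zero]
        · simp
      · push Not at hv
        rw [hrow x v hv, Finset.sum_eq_zero]
        · simp
        · intro b _
          rw [if_neg (hv b), mul_zero]
    · rw [Matrix.mul_smul, Matrix.mul_one, Matrix.smul_mul, Matrix.one_mul]
  have h2 : Res789.Res (H.submatrix φ φ) z * ((cx (emb φ))ᵀ *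
      (Res789.cx H - z • (1 : Matrix V V ℂ))) * Res789.Res H z =
      (cx (emb φ))ᵀ * Res789.Res H z := by
    rw [h1, ← Matrix.mul_assoc, Res789.Res_mul_sub hT hz, Matrix.one_mul]
  rw [← emb_mul, ← h2, Matrix.mul_assoc, Matrix.mul_assoc, Res789.sub_mul_Res hH hz,
    Matrix.mul_one]

lemma Res_decoupled_apply {H : Matrix V V ℝ} (hH : Hᵀ = H) {z : ℂ} (hz : 0 < z.im)
    {φ : T → V} (hφ : Function.Injective φ)
    (hrow : ∀ x v, (∀ y, v ≠ φ y) → H (φ x) v = 0) (x y : T) :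
    Res789.Res H z (φ x) (φ y) = Res789.Res (H.submatrix φ φ) z x y := by
  have h := congrFun (congrFun (Res_row_decoupled hH hz hφ hrow) x) (φ y)
  rw [Matrix.submatrix_apply, Matrix.mul_apply, Finset.sum_eq_single y] at h
  · simpa [cx_emb_apply, -cx_apply] using h
  · intro b _ hb
    rw [Matrix.transpose_apply, cx_emb_apply, if_neg (fun h => hb (hφ h).symm), mul_zero]
  · simp

lemma Res_decoupled_zero {H : Matrix V V ℝ} (hH : Hᵀ = H) {z : ℂ} (hz : 0 < z.im)
    {φ : T → V} (hφ : Function.Injective φ)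
    (hrow : ∀ x v, (∀ y, v ≠ φ y) → H (φ x) v = 0) (x : T) {v : V} (hv : ∀ y, v ≠ φ y) :
    Res789.Res H z (φ x) v = 0 := by
  have h := congrFun (congrFun (Res_row_decoupled hH hz hφ hrow) x) v
  rw [Matrix.submatrix_apply, Matrix.mul_apply, Finset.sum_eq_zero] at h
  · exact h
  · intro b _
    rw [Matrix.transpose_apply, cx_emb_apply, if_neg (hv b), mul_zero]

lemma edgeM_split (A : Finset κ) (x y : κ → V) :
    edgeM x y = edgeM (fun k : {k // k ∈ A} => x k) (fun k => y k) +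
      edgeM (fun k : {k // ¬ k ∈ A} => x k) (fun k => y k) := by
  ext p q
  rw [Matrix.add_apply, edgeM_apply, edgeM_apply, edgeM_apply]
  have h := (Fintype.sum_subtype_add_sum_subtype (fun k => k ∈ A)
    (fun k => ((if p = x k ∧ q = y k then (1 : ℝ) else 0) +
      (if p = y k ∧ q = x k then 1 else 0)))).symm
  convert h using 2
  exact Finset.sum_congr (by ext; simp) fun _ _ => rfl

lemma edgeM_sum (x y : κ ⊕ μ → V) :
    edgeM x y = edgeM (x ∘ Sum.inl) (y ∘ Sum.inl) + edgeM (x ∘ Sum.inr) (y ∘ Sum.inr) := by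
  ext p q
  rw [Matrix.add_apply, edgeM_apply, edgeM_apply, edgeM_apply, Fintype.sum_sum_type]
  rfl

lemma lift_sub (f : κ → V) (U U' : Matrix κ κ ℝ) :
    lift (emb f) (U - U') = lift (emb f) U - lift (emb f) U' := by
  simp only [lift, Matrix.mul_sub, Matrix.sub_mul]

lemma lift_comp (f : κ → V) (g : μ → κ) (U : Matrix μ μ ℝ) :
    lift (emb f) (lift (emb g) U) = lift (emb (f ∘ g)) U := by
  rw [lift_lift, emb_comp]

/-- reindexing the leaves -/
theorem treeOut_reindex (σ : μ ≃ κ) {RT : Matrix T T ℂ} (hR : Siegel RT) (t : κ → T)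
    {Ξ : Matrix κ κ ℂ} (hΞ : Siegel Ξ) :
    treeOut RT (t ∘ σ) (Ξ.submatrix σ σ) = treeOut RT t Ξ := by
  rw [treeOut_eq hR _ (hΞ.sub σ.injective), treeOut_eq hR _ hΞ]
  congr 2
  have h1 : cx (leafM (t ∘ σ)) = (cx (leafM t)).submatrix σ id := rfl
  rw [h1, Matrix.transpose_submatrix, Matrix.submatrix_mul_equiv, Matrix.submatrix_mul_equiv,
    Matrix.submatrix_id_id]

end general

section vertex

variable {V T ι : Type*} [Fintype V] [DecidableEq V] [Fintype T] [DecidableEq T]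
  [Fintype ι] [DecidableEq ι]

/-- the total perturbation in vertex form -/
def PT (φ : T → V) (a : ι → V) (e : ι → Fin 2 → V) (t : ι → T) (W0 : Matrix T T ℝ) :
    Matrix V V ℝ :=
  lift (emb φ) W0 - edgeM (φ ∘ t) a - edgeM (fun i => e i 0) (fun i => e i 1) +
    edgeM (φ ∘ t) (fun i => e i 0) + edgeM a (fun i => e i 1)

variable (A : Finset ι)

/-- index type of the rest of the system -/
abbrev BB (A : Finset ι) := ι ⊕ (Fin 2 × {i // i ∈ A})

/-- sites of the whole system -/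
def Phi (φ : T → V) (a : ι → V) (e : ι → Fin 2 → V) : Idx T (BB A) {i // ¬ i ∈ A} → V :=
  Sum.elim φ (Sum.elim (Sum.elim a (fun q => e q.2 q.1)) (fun q => e q.2 q.1))

/-- the perturbation inside the system -/
def U1 (t : ι → T) (W0 : Matrix T T ℝ) : Matrix (T ⊕ BB A) (T ⊕ BB A) ℝ :=
  lift (emb Sum.inl) W0 - edgeM (fun i => Sum.inl (t i)) (fun i => Sum.inr (Sum.inl i)) -
    edgeM (fun i : {i // i ∈ A} => Sum.inr (Sum.inr (0, i))) (fun i => Sum.inr (Sum.inr (1, i))) +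
    edgeM (fun i : {i // i ∈ A} => Sum.inr (Sum.inl i.1)) (fun i => Sum.inr (Sum.inr (1, i)))

lemma U1_symm (t : ι → T) {W0 : Matrix T T ℝ} (hW : W0ᵀ = W0) : (U1 A t W0)ᵀ = U1 A t W0 := by
  rw [U1, Matrix.transpose_add, Matrix.transpose_sub, Matrix.transpose_sub, edgeM_symm,
    edgeM_symm, edgeM_symm, lift_symm _ hW]

/-- `a j` for the good inputs -/
def aJ (j : {i // ¬ i ∈ A}) : BB A := Sum.inl j.1

/-- `u i` for the arbitrary inputs -/
def uA (i : {i // i ∈ A}) : BB A := Sum.inr (0, i)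

lemma uA_injective : Function.Injective (uA A) := fun _ _ h =>
  (Prod.mk.inj (Sum.inr_injective h)).2

/-- the parents of the leaves -/
def tS (t : ι → T) : {i // i ∈ A} ⊕ {i // ¬ i ∈ A} → T := t ∘ Equiv.sumCompl (fun i => i ∈ A)

lemma lift_pert (φ : T → V) (a : ι → V) (e : ι → Fin 2 → V) (t : ι → T) (W0 : Matrix T T ℝ) :
    lift (emb (Phi A φ a e)) (pert (U1 A t W0) (aJ A) (uA A) (tS A t)) = PT φ a e t W0 := by
  rw [pert, lift_add, lift_add, lift_sub, lift_comp, lift_edgeM, lift_edgeM, lift_edgeM, U1,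
    lift_add, lift_sub, lift_sub, lift_comp, lift_edgeM, lift_edgeM, lift_edgeM, PT,
    edgeM_split A (fun i => e i 0) (fun i => e i 1),
    edgeM_split A (φ ∘ t) (fun i => e i 0),
    edgeM_split A a (fun i => e i 1)]
  have h1 : edgeM ((Phi A φ a e) ∘ fun i : {i // i ∈ A} ⊕ {i // ¬ i ∈ A} => Sum.inl (tS A t i))
      ((Phi A φ a e) ∘ fun i => Sum.inr (uI (uA A) i)) =
      edgeM (fun k : {k // k ∈ A} => (φ ∘ t) k) (fun k => e k 0) +
      edgeM (fun k : {k // ¬ k ∈ A} => (φ ∘ t) k) (fun k => e k 0) := by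
    rw [edgeM_sum]; rfl
  rw [h1]
  have h2 : edgeM ((Phi A φ a e) ∘ fun j : {i // ¬ i ∈ A} => eJ j 0)
      ((Phi A φ a e) ∘ fun j => eJ j 1) =
      edgeM (fun k : {k // ¬ k ∈ A} => e k 0) (fun k => e k 1) := rfl
  have h3 : edgeM ((Phi A φ a e) ∘ fun j : {i // ¬ i ∈ A} => Sum.inr (Sum.inl (aJ A j)))
      ((Phi A φ a e) ∘ fun j => eJ j 1) =
      edgeM (fun k : {k // ¬ k ∈ A} => a k) (fun k => e k 1) := rfl
  have h4 : edgeM (((Phi A φ a e) ∘ sS) ∘ fun i : ι => Sum.inl (t i))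
      (((Phi A φ a e) ∘ sS) ∘ fun i => Sum.inr (Sum.inl i)) = edgeM (φ ∘ t) a := rfl
  have h5 : edgeM (((Phi A φ a e) ∘ sS) ∘ fun i : {i // i ∈ A} => Sum.inr (Sum.inr (0, i)))
      (((Phi A φ a e) ∘ sS) ∘ fun i => Sum.inr (Sum.inr (1, i))) =
      edgeM (fun k : {k // k ∈ A} => e k 0) (fun k => e k 1) := rfl
  have h6 : edgeM (((Phi A φ a e) ∘ sS) ∘ fun i : {i // i ∈ A} => Sum.inr (Sum.inl i.1))
      (((Phi A φ a e) ∘ sS) ∘ fun i => Sum.inr (Sum.inr (1, i))) =
      edgeM (fun k : {k // k ∈ A} => a k) (fun k => e k 1) := rfl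
  have h7 : lift (emb (((Phi A φ a e) ∘ sS) ∘ Sum.inl)) W0 = lift (emb φ) W0 := rfl
  rw [h2, h3, h4, h5, h6, h7]
  abel

/-- the tree matrix: `H` restricted to the tree, plus `W0` -/
def hT (H : Matrix V V ℝ) (φ : T → V) (W0 : Matrix T T ℝ) : Matrix T T ℝ := H.submatrix φ φ + W0

/-- hypotheses on the sites -/
structure Sites (H : Matrix V V ℝ) (φ : T → V) (a : ι → V) (e : ι → Fin 2 → V) (t : ι → T) :
    Prop where
  symm : Hᵀ = H
  inj : Function.Injective
    (Sum.elim φ (Sum.elim a (fun q : Fin 2 × ι => e q.2 q.1)) : T ⊕ (ι ⊕ (Fin 2 × ι)) → V)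
  row : ∀ x v, (∀ y, v ≠ φ y) → H (φ x) v = ∑ i, if t i = x ∧ a i = v then (1 : ℝ) else 0

variable {H : Matrix V V ℝ} {φ : T → V} {a : ι → V} {e : ι → Fin 2 → V} {t : ι → T}

lemma Sites.phi_inj (h : Sites H φ a e t) : Function.Injective φ := fun x y hxy =>
  Sum.inl_injective (h.inj (by simpa using hxy))

lemma Sites.Phi_inj (h : Sites H φ a e t) : Function.Injective (Phi A φ a e) := by
  have key : Phi A φ a e = (Sum.elim φ (Sum.elim a (fun q : Fin 2 × ι => e q.2 q.1)) :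
      T ⊕ (ι ⊕ (Fin 2 × ι)) → V) ∘ (Sum.map id (Sum.elim (Sum.map id (Prod.map id Subtype.val))
        (fun q => Sum.inr (q.1, q.2.1)))) := by
    ext (x | (x | x) | x) <;> rfl
  rw [key]
  apply h.inj.comp
  apply Sum.map_injective.2 ⟨Function.injective_id, ?_⟩
  rintro ((x | ⟨i, x, hx⟩) | ⟨i, x, hx⟩) ((y | ⟨j, y, hy⟩) | ⟨j, y, hy⟩) hxy <;>
    simp only [Sum.elim_inl, Sum.elim_inr, Sum.map_inl, Sum.map_inr, Prod.map, id,
      Sum.inl.injEq, Sum.inr.injEq, Prod.mk.injEq, reduceCtorEq] at hxy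
  · rw [hxy]
  · obtain ⟨rfl, rfl⟩ := hxy; rfl
  · obtain ⟨rfl, rfl⟩ := hxy; exact absurd hx hy
  · obtain ⟨rfl, rfl⟩ := hxy; exact absurd hy hx
  · obtain ⟨rfl, rfl⟩ := hxy; rfl

/-- after removing the boundary edges the tree is disconnected from the rest -/
lemma Sites.row_zero (h : Sites H φ a e t) (W0 : Matrix T T ℝ) (x : T) (v : V)
    (hv : ∀ y, v ≠ φ y) :
    (H + lift (emb (Phi A φ a e ∘ sS)) (U1 A t W0)) (φ x) v = 0 := by
  have hinj := h.inj
  have ha : ∀ i y, a i ≠ φ y := fun i y hh => by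
    have := hinj (a₁ := Sum.inr (Sum.inl i)) (a₂ := Sum.inl y) (by simpa using hh)
    simp at this
  have he : ∀ i k y, e i k ≠ φ y := fun i k y hh => by
    have := hinj (a₁ := Sum.inr (Sum.inr (k, i))) (a₂ := Sum.inl y) (by simpa using hh)
    simp at this
  rw [U1, lift_add, lift_sub, lift_sub, lift_comp, lift_edgeM, lift_edgeM, lift_edgeM]
  simp only [Matrix.add_apply, Matrix.sub_apply]
  have h1 : lift (emb (((Phi A φ a e) ∘ sS) ∘ Sum.inl)) W0 (φ x) v = 0 :=
    lift_emb_right (f := ((Phi A φ a e) ∘ sS) ∘ Sum.inl) W0 _ hv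
  have h2 : edgeM (((Phi A φ a e) ∘ sS) ∘ fun i : ι => Sum.inl (t i))
      (((Phi A φ a e) ∘ sS) ∘ fun i => Sum.inr (Sum.inl i)) (φ x) v =
      ∑ i, if t i = x ∧ a i = v then (1 : ℝ) else 0 := by
    rw [edgeM_apply]
    refine Finset.sum_congr rfl fun i _ => ?_
    have e1 : (((Phi A φ a e) ∘ sS) ∘ fun i : ι => Sum.inl (t i)) i = φ (t i) := rfl
    have e2 : (((Phi A φ a e) ∘ sS) ∘ fun i : ι => Sum.inr (Sum.inl i)) i = a i := rfl
    rw [e1, e2]
    have e3 : ¬ (φ x = a i ∧ v = φ (t i)) := fun hh => ha i x hh.1.symm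
    rw [if_neg e3, add_zero]
    by_cases hh : t i = x ∧ a i = v
    · rw [if_pos hh, if_pos ⟨by rw [hh.1], hh.2.symm⟩]
    · rw [if_neg hh, if_neg]
      rintro ⟨h3, h4⟩
      exact hh ⟨h.phi_inj h3.symm, h4.symm⟩
  have h3 : edgeM (((Phi A φ a e) ∘ sS) ∘ fun i : {i // i ∈ A} => Sum.inr (Sum.inr (0, i)))
      (((Phi A φ a e) ∘ sS) ∘ fun i => Sum.inr (Sum.inr (1, i))) (φ x) v = 0 := by
    rw [edgeM_apply]
    apply Finset.sum_eq_zero
    intro i _
    have e1 : (((Phi A φ a e) ∘ sS) ∘ fun i : {i // i ∈ A} => Sum.inr (Sum.inr (0, i))) i =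
      e i 0 := rfl
    have e2 : (((Phi A φ a e) ∘ sS) ∘ fun i : {i // i ∈ A} => Sum.inr (Sum.inr (1, i))) i =
      e i 1 := rfl
    rw [e1, e2, if_neg (fun hh => he _ _ _ hh.1.symm), if_neg (fun hh => he _ _ _ hh.1.symm),
      add_zero]
  have h4 : edgeM (((Phi A φ a e) ∘ sS) ∘ fun i : {i // i ∈ A} => Sum.inr (Sum.inl i.1))
      (((Phi A φ a e) ∘ sS) ∘ fun i => Sum.inr (Sum.inr (1, i))) (φ x) v = 0 := by
    rw [edgeM_apply]
    apply Finset.sum_eq_zero
    intro i _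
    have e1 : (((Phi A φ a e) ∘ sS) ∘ fun i : {i // i ∈ A} => Sum.inr (Sum.inl i.1)) i =
      a i := rfl
    have e2 : (((Phi A φ a e) ∘ sS) ∘ fun i : {i // i ∈ A} => Sum.inr (Sum.inr (1, i))) i =
      e i 1 := rfl
    rw [e1, e2, if_neg (fun hh => ha _ _ hh.1.symm), if_neg (fun hh => he _ _ _ hh.1.symm),
      add_zero]
  rw [h1, h2, h3, h4, h.row x v hv]
  ring

lemma Sites.hT_eq (h : Sites H φ a e t) (W0 : Matrix T T ℝ) :
    (H + lift (emb (Phi A φ a e ∘ sS)) (U1 A t W0)).submatrix φ φ = hT H φ W0 := by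
  have hinj := h.inj
  have ha : ∀ i y, a i ≠ φ y := fun i y hh => by
    have := hinj (a₁ := Sum.inr (Sum.inl i)) (a₂ := Sum.inl y) (by simpa using hh)
    simp at this
  have he : ∀ i k y, e i k ≠ φ y := fun i k y hh => by
    have := hinj (a₁ := Sum.inr (Sum.inr (k, i))) (a₂ := Sum.inl y) (by simpa using hh)
    simp at this
  ext x y
  rw [Matrix.submatrix_apply, hT, Matrix.add_apply, Matrix.add_apply, Matrix.submatrix_apply]
  congr 1
  rw [U1, lift_add, lift_sub, lift_sub, lift_comp, lift_edgeM, lift_edgeM, lift_edgeM]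
  simp only [Matrix.add_apply, Matrix.sub_apply]
  have h1 : lift (emb (((Phi A φ a e) ∘ sS) ∘ Sum.inl)) W0 (φ x) (φ y) = W0 x y :=
    lift_emb_apply (f := φ) h.phi_inj W0 x y
  have h2 : edgeM (((Phi A φ a e) ∘ sS) ∘ fun i : ι => Sum.inl (t i))
      (((Phi A φ a e) ∘ sS) ∘ fun i => Sum.inr (Sum.inl i)) (φ x) (φ y) = 0 := by
    rw [edgeM_apply]
    apply Finset.sum_eq_zero
    intro i _
    have e2 : (((Phi A φ a e) ∘ sS) ∘ fun i : ι => Sum.inr (Sum.inl i)) i = a i := rfl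
    rw [e2, if_neg (fun hh => ha _ _ hh.2.symm), if_neg (fun hh => ha _ _ hh.1.symm), add_zero]
  have h3 : edgeM (((Phi A φ a e) ∘ sS) ∘ fun i : {i // i ∈ A} => Sum.inr (Sum.inr (0, i)))
      (((Phi A φ a e) ∘ sS) ∘ fun i => Sum.inr (Sum.inr (1, i))) (φ x) (φ y) = 0 := by
    rw [edgeM_apply]
    apply Finset.sum_eq_zero
    intro i _
    have e1 : (((Phi A φ a e) ∘ sS) ∘ fun i : {i // i ∈ A} => Sum.inr (Sum.inr (0, i))) i =
      e i 0 := rfl
    have e2 : (((Phi A φ a e) ∘ sS) ∘ fun i : {i // i ∈ A} => Sum.inr (Sum.inr (1, i))) i =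
      e i 1 := rfl
    rw [e1, e2, if_neg (fun hh => he _ _ _ hh.1.symm), if_neg (fun hh => he _ _ _ hh.1.symm),
      add_zero]
  have h4 : edgeM (((Phi A φ a e) ∘ sS) ∘ fun i : {i // i ∈ A} => Sum.inr (Sum.inl i.1))
      (((Phi A φ a e) ∘ sS) ∘ fun i => Sum.inr (Sum.inr (1, i))) (φ x) (φ y) = 0 := by
    rw [edgeM_apply]
    apply Finset.sum_eq_zero
    intro i _
    have e1 : (((Phi A φ a e) ∘ sS) ∘ fun i : {i // i ∈ A} => Sum.inr (Sum.inl i.1)) i =
      a i := rfl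
    have e2 : (((Phi A φ a e) ∘ sS) ∘ fun i : {i // i ∈ A} => Sum.inr (Sum.inr (1, i))) i =
      e i 1 := rfl
    rw [e1, e2, if_neg (fun hh => ha _ _ hh.1.symm), if_neg (fun hh => he _ _ _ hh.1.symm),
      add_zero]
  rw [h1, h2, h3, h4]
  ring

/-- the block of the system after the perturbation inside the system is decoupled -/
theorem Sites.hdec (h : Sites H φ a e t) {W0 : Matrix T T ℝ} (hW : W0ᵀ = W0) {z : ℂ}
    (hz : 0 < z.im) :
    ∃ Sg : Matrix (BB A) (BB A) ℂ, Siegel Sg ∧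
      mob (U1 A t W0) (((Res789.Res H z).submatrix (Phi A φ a e) (Phi A φ a e)).submatrix sS sS) =
        fromBlocks (Res789.Res (hT H φ W0) z) 0 0 Sg := by
  set f := Phi A φ a e ∘ (sS : T ⊕ BB A → _) with hf
  have hfinj : Function.Injective f := (h.Phi_inj A).comp sS_injective
  have hU := U1_symm A t hW
  have hH1 : (H + lift (emb f) (U1 A t W0))ᵀ = H + lift (emb f) (U1 A t W0) := by
    rw [Matrix.transpose_add, h.symm, lift_symm _ hU]
  have h1 := Res_lift h.symm hfinj hU hz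
  refine ⟨(Res789.Res (H + lift (emb f) (U1 A t W0)) z).submatrix (f ∘ Sum.inr) (f ∘ Sum.inr),
    (siegel_Res hH1 hz).sub (hfinj.comp Sum.inr_injective), ?_⟩
  have h2 : ((Res789.Res H z).submatrix (Phi A φ a e) (Phi A φ a e)).submatrix
      (sS : T ⊕ BB A → _) sS = (Res789.Res H z).submatrix f f := rfl
  rw [h2, ← h1]
  have hsymR : ∀ x y, Res789.Res (H + lift (emb f) (U1 A t W0)) z x y =
      Res789.Res (H + lift (emb f) (U1 A t W0)) z y x := fun x y => by
    have := congrFun (congrFun (Res789.Res_transpose hH1 hz) y) x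
    simpa using this
  have hne : ∀ (b : BB A) (y : T), f (Sum.inr b) ≠ φ y := by
    intro b y hh
    have : f (Sum.inr b) = f (Sum.inl y) := hh
    have := hfinj this
    simp at this
  ext (x | x) (y | y)
  · rw [fromBlocks_apply₁₁, ← h.hT_eq A W0]
    exact Res_decoupled_apply hH1 hz h.phi_inj (h.row_zero A W0) x y
  · rw [fromBlocks_apply₁₂, Matrix.zero_apply]
    exact Res_decoupled_zero hH1 hz h.phi_inj (h.row_zero A W0) x (hne y)
  · rw [fromBlocks_apply₂₁, Matrix.zero_apply, Matrix.submatrix_apply, hsymR]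
    exact Res_decoupled_zero hH1 hz h.phi_inj (h.row_zero A W0) y (hne x)
  · rfl

/-- total coupling in vertex form -/
noncomputable def kap (c : ℝ) (R : Matrix V V ℂ) (φ : T → V) (a : ι → V) (e : ι → Fin 2 → V) : ℝ :=
  cT c (R.submatrix (Phi A φ a e) (Phi A φ a e))

/-- **(30.3) in vertex form** -/
theorem dec_vertex (h : Sites H φ a e t) {W0 : Matrix T T ℝ} (hW : W0ᵀ = W0) {z : ℂ}
    (hz : 0 < z.im) {c : ℝ} (hc : 0 < c)
    (hB : ∀ j, j ∉ A → ∀ y : Fin 2 → ℂ, c * ∑ i, ‖y i‖ ^ 2 ≤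
      qf (imM ((Res789.Res H z).submatrix (e j) (e j))) y)
    (hlt : kap A c (Res789.Res H z) φ a e < 1) :
    ∃ Sg : Matrix (BB A) (BB A) ℂ, Siegel Sg ∧
      Near (kap A c (Res789.Res H z) φ a e / (1 - kap A c (Res789.Res H z) φ a e))
        (treeOut (Res789.Res (hT H φ W0) z) (tS A t)
          (leafXi Sg (fun j => B0 ((Res789.Res H z).submatrix (e j.1) (e j.1))) (aJ A) (uA A)))
        ((Res789.Res (H + PT φ a e t W0) z).submatrix φ φ) := by
  obtain ⟨Sg, hSg, hdec⟩ := h.hdec A hW hz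
  have hU := U1_symm A t hW
  have hZ : Siegel ((Res789.Res H z).submatrix (Phi A φ a e) (Phi A φ a e)) :=
    (siegel_Res h.symm hz).sub (h.Phi_inj A)
  have hTs : (hT H φ W0)ᵀ = hT H φ W0 := by
    rw [hT, Matrix.transpose_add, Matrix.transpose_submatrix, h.symm, hW]
  have key := dec_main hZ hU (siegel_Res hTs hz) hSg hdec (aJ A) (uA_injective A) (tS A t) hc
    (fun j y => hB j.1 j.2 y) hlt
  have h1 := Res_lift h.symm (h.Phi_inj A) (pert_symm hU (aJ A) (uA A) (tS A t)) hz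
  rw [lift_pert] at h1
  rw [← h1] at key
  exact ⟨Sg, hSg, key⟩

end vertex

end Crest.Agent.R166.Dec598
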