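import Crest.Agent.R166.Mob2_598

/-!
# Row 166, section 30.3: deterministic decoupling (helper598)

Index sets: `T` (tree vertices), `B` (rest of the "system" `S = T ⊕ B`), `Fin 2 × J`
(the good switched edges `e_j = (u_j,w_j)`).
-/

set_option autoImplicit false
set_option linter.unusedSectionVars false

open Matrix

namespace Crest.Agent.R166.Dec598

open Crest.Agent.R166.Res598

variable {ι κ μ : Type*} [Fintype ι] [DecidableEq ι] [Fintype κ] [DecidableEq κ]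
  [Fintype μ] [DecidableEq μ]

/-! ## edge matrices -/

/-- symmetric `0/1` matrix of a family of edges `x k -- y k` -/
def edgeM (x y : κ → ι) : Matrix ι ι ℝ := emb x * (emb y)ᵀ + emb y * (emb x)ᵀ

lemma edgeM_symm (x y : κ → ι) : (edgeM x y)ᵀ = edgeM x y := by
  rw [edgeM, Matrix.transpose_add, Matrix.transpose_mul, Matrix.transpose_mul,
    Matrix.transpose_transpose, Matrix.transpose_transpose, add_comm]

lemma edgeM_apply (x y : κ → ι) (p q : ι) :
    edgeM x y p q = ∑ k, ((if p = x k ∧ q = y k then 1 else 0) +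
      (if p = y k ∧ q = x k then 1 else 0)) := by
  simp only [edgeM, Matrix.add_apply, Matrix.mul_apply, Matrix.transpose_apply, emb,
    ← Finset.sum_add_distrib]
  refine Finset.sum_congr rfl fun k _ => ?_
  congr 1 <;> split_ifs <;> simp_all

lemma lift_edgeM (f : μ → ι) (x y : κ → μ) :
    lift (emb f) (edgeM x y) = edgeM (f ∘ x) (f ∘ y) := by
  rw [edgeM, edgeM, ← emb_comp, ← emb_comp, Matrix.transpose_mul, Matrix.transpose_mul, lift]
  simp only [Matrix.mul_add, Matrix.add_mul, Matrix.mul_assoc]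

/-! ## the tree output map -/

section tree

variable {T I : Type*} [Fintype T] [DecidableEq T] [Fintype I] [DecidableEq I]

/-- Attach a Siegel matrix `Ξ` on the leaves `I` (leaf `i` hangs at `t i`) to the tree. -/
noncomputable def treeOut (RT : Matrix T T ℂ) (t : I → T) (Ξ : Matrix I I ℂ) : Matrix T T ℂ :=
  (mob (edgeM (Sum.inl ∘ t) Sum.inr) (fromBlocks RT 0 0 Ξ)).submatrix Sum.inl Sum.inl

lemma siegel_treeOut {RT : Matrix T T ℂ} (hR : Siegel RT) (t : I → T) {Ξ : Matrix I I ℂ}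
    (hΞ : Siegel Ξ) : Siegel (treeOut RT t Ξ) :=
  (siegel_mob (siegel_fromBlocks hR hΞ) (edgeM_symm _ _)).sub Sum.inl_injective

theorem near_treeOut {ε : ℝ} (hε0 : 0 ≤ ε) (hε : ε < 1) {RT : Matrix T T ℂ} (hR : Siegel RT)
    (t : I → T) {Ξ Ξ' : Matrix I I ℂ} (hΞ : Siegel Ξ) (h : Near ε Ξ Ξ') :
    Near (ε / (1 - ε)) (treeOut RT t Ξ) (treeOut RT t Ξ') := by
  have h1 := near_fromBlocks hR hΞ hε0 (near_refl hε0 hR) h
  exact (h1.mob hε0 hε (siegel_fromBlocks hR hΞ) (edgeM_symm _ _)).sub Sum.inl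
    (siegel_mob (siegel_fromBlocks hR hΞ) (edgeM_symm _ _))

/-- leaf incidence matrix -/
def leafM (t : I → T) : Matrix I T ℝ := fun i s => if s = t i then 1 else 0

lemma edgeM_leaf (t : I → T) :
    edgeM (Sum.inl ∘ t) Sum.inr = (fromBlocks 0 (leafM t)ᵀ (leafM t) 0 : Matrix (T ⊕ I) (T ⊕ I) ℝ) := by
  ext (p | p) (q | q)
  · simp [edgeM_apply]
  · rw [edgeM_apply, Finset.sum_eq_single q]
    · simp [leafM]
    · intro b _ hb
      simp [hb.symm]
    · simp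
  · rw [edgeM_apply, Finset.sum_eq_single p]
    · simp [leafM]
    · intro b _ hb
      simp [hb.symm]
    · simp
  · simp [edgeM_apply]

theorem treeOut_inv {RT : Matrix T T ℂ} (hR : Siegel RT) (t : I → T) {Ξ : Matrix I I ℂ}
    (hΞ : Siegel Ξ) :
    (RT⁻¹ - (cx (leafM t))ᵀ * Ξ * cx (leafM t)) * treeOut RT t Ξ = 1 := by
  have hs := siegel_fromBlocks hR hΞ
  set M := mob (edgeM (Sum.inl ∘ t) Sum.inr) (fromBlocks RT 0 0 Ξ) with hM
  have hMs : Siegel M := siegel_mob hs (edgeM_symm _ _)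
  have h1 : (fromBlocks RT 0 0 Ξ)⁻¹ = fromBlocks RT⁻¹ 0 0 Ξ⁻¹ := by
    apply Matrix.inv_eq_right_inv
    rw [fromBlocks_multiply]
    simp [Matrix.mul_nonsing_inv _ hR.isUnit, Matrix.mul_nonsing_inv _ hΞ.isUnit]
  have h2 : M⁻¹ = fromBlocks RT⁻¹ (cx (leafM t))ᵀ (cx (leafM t)) Ξ⁻¹ := by
    rw [hM, mob_inv hs (edgeM_symm _ _), h1, edgeM_leaf, cx_fromBlocks, fromBlocks_add]
    simp [cx_zero', cx_transpose']
  have h3 : M⁻¹ * M = 1 := Matrix.nonsing_inv_mul _ hMs.isUnit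
  rw [h2, ← fromBlocks_toBlocks M, fromBlocks_multiply, ← fromBlocks_one, fromBlocks_inj] at h3
  obtain ⟨ha, -, hc, -⟩ := h3
  have h4 : M.toBlocks₂₁ = -(Ξ * cx (leafM t) * M.toBlocks₁₁) := by
    have h5 := congrArg (fun X => Ξ * X) hc
    simp only [Matrix.mul_add, Matrix.mul_zero] at h5
    rw [← Matrix.mul_assoc Ξ Ξ⁻¹, Matrix.mul_nonsing_inv _ hΞ.isUnit, Matrix.one_mul,
      ← Matrix.mul_assoc] at h5
    exact eq_neg_of_add_eq_zero_right h5
  rw [h4] at ha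
  have h6 : treeOut RT t Ξ = M.toBlocks₁₁ := rfl
  rw [h6, Matrix.sub_mul, ← ha, Matrix.mul_neg]
  simp only [Matrix.mul_assoc]
  abel

theorem treeOut_eq {RT : Matrix T T ℂ} (hR : Siegel RT) (t : I → T) {Ξ : Matrix I I ℂ}
    (hΞ : Siegel Ξ) :
    treeOut RT t Ξ = (RT⁻¹ - (cx (leafM t))ᵀ * Ξ * cx (leafM t))⁻¹ :=
  (Matrix.inv_eq_right_inv (treeOut_inv hR t hΞ)).symm

end tree

/-! ## two by two blocks of edges -/

/-- the edge matrix on two vertices -/
def Wm : Matrix (Fin 2) (Fin 2) ℝ := !![0, 1; 1, 0]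

lemma Wm_symm : Wmᵀ = Wm := by
  ext i j; fin_cases i <;> fin_cases j <;> rfl

lemma neg_Wm_symm : (-Wm)ᵀ = -Wm := by rw [Matrix.transpose_neg, Wm_symm]

/-- the cavity block `(B⁻¹ - W)⁻¹` -/
noncomputable def B0 (B : Matrix (Fin 2) (Fin 2) ℂ) : Matrix (Fin 2) (Fin 2) ℂ := mob (-Wm) B

lemma siegel_B0 {B : Matrix (Fin 2) (Fin 2) ℂ} (hB : Siegel B) : Siegel (B0 B) :=
  siegel_mob hB neg_Wm_symm

/-! ## lifts in coordinates -/

lemma lift_emb_entry (f : κ → ι) (U : Matrix κ κ ℝ) (x y : ι) :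
    lift (emb f) U x y = ∑ a, ∑ b, if x = f a ∧ y = f b then U a b else 0 := by
  simp only [lift, Matrix.mul_apply, Matrix.transpose_apply, emb, Finset.sum_mul]
  rw [Finset.sum_comm]
  refine Finset.sum_congr rfl fun a _ => Finset.sum_congr rfl fun b _ => ?_
  by_cases h1 : x = f a <;> by_cases h2 : y = f b <;> simp [h1, h2]

lemma lift_emb_apply {f : κ → ι} (hf : Function.Injective f) (U : Matrix κ κ ℝ) (a b : κ) :
    lift (emb f) U (f a) (f b) = U a b := by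
  rw [lift_emb_entry, Finset.sum_eq_single a, Finset.sum_eq_single b]
  · simp
  · intro c _ hc
    rw [if_neg]
    rintro ⟨_, h⟩
    exact hc (hf h).symm
  · simp
  · intro c _ hc
    apply Finset.sum_eq_zero
    intro b' _
    rw [if_neg]
    rintro ⟨h, _⟩
    exact hc (hf h).symm
  · simp

lemma lift_emb_left {f : κ → ι} (U : Matrix κ κ ℝ) {x : ι} (hx : ∀ a, x ≠ f a) (y : ι) :
    lift (emb f) U x y = 0 := by
  rw [lift_emb_entry]
  apply Finset.sum_eq_zero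
  intro a _
  apply Finset.sum_eq_zero
  intro b _
  rw [if_neg]
  rintro ⟨h, _⟩
  exact hx a h

lemma lift_emb_right {f : κ → ι} (U : Matrix κ κ ℝ) (x : ι) {y : ι} (hy : ∀ a, y ≠ f a) :
    lift (emb f) U x y = 0 := by
  rw [lift_emb_entry]
  apply Finset.sum_eq_zero
  intro a _
  apply Finset.sum_eq_zero
  intro b _
  rw [if_neg]
  rintro ⟨_, h⟩
  exact hy b h

lemma edgeM_inr {ν : Type*} [Fintype ν] [DecidableEq ν] (x y : κ → ν) :
    edgeM (fun k => (Sum.inr (x k) : ι ⊕ ν)) (fun k => Sum.inr (y k)) =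
      fromBlocks 0 0 0 (edgeM x y) := by
  ext (p | p) (q | q) <;> simp [edgeM_apply]

lemma restr_eq {f : μ → ι} (hf : Function.Injective f) (π : ι → κ) (a : κ)
    (h : ∀ i, π i = a ↔ ∃ m, f m = i) (x : ι → ℂ) :
    restr π a x = cx (emb f) *ᵥ (x ∘ f) := by
  ext i
  by_cases hi : π i = a
  · obtain ⟨m, rfl⟩ := (h i).1 hi
    rw [emb_mulVec_apply hf, restr, if_pos hi]
    rfl
  · rw [restr, if_neg hi, emb_mulVec]
    symm
    apply Finset.sum_eq_zero
    intro m _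
    rw [if_neg]
    intro him
    exact hi ((h i).2 ⟨m, him.symm⟩)

lemma cross_emb {κ₁ κ₂ : Type*} [Fintype κ₁] [DecidableEq κ₁] [Fintype κ₂] [DecidableEq κ₂]
    (f : κ₁ → ι) (g : κ₂ → ι) (Z : Matrix ι ι ℂ) (x : κ₁ → ℂ) (y : κ₂ → ℂ) :
    (cx (emb f) *ᵥ x) ⬝ᵥ (Z *ᵥ (cx (emb g) *ᵥ y)) = x ⬝ᵥ (Z.submatrix f g *ᵥ y) := by
  rw [Matrix.mulVec_mulVec, mul_emb, Matrix.dotProduct_mulVec, ← Matrix.mulVec_transpose,
    Matrix.mulVec_mulVec, ← Matrix.transpose_transpose (cx (emb f)), ← Matrix.transpose_mul,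
    emb_mul, Matrix.mulVec_transpose, ← Matrix.dotProduct_mulVec]
  rfl

lemma nq_emb (f : μ → ι) {Z : Matrix ι ι ℂ} (hZ : Siegel Z) (x : μ → ℂ) :
    nq (imM Z) (cx (emb f) *ᵥ x) = nq (imM (Z.submatrix f f)) x := by
  rw [← cor_emb, nq_cor _ hZ.symm]

/-- coupling of a general block with a block whose imaginary part is bounded below,
through the columns -/
lemma coup_col {κ₁ κ₂ : Type*} [Fintype κ₁] [DecidableEq κ₁] [Fintype κ₂] [DecidableEq κ₂]
    {Y : Matrix κ₁ κ₁ ℝ} (hY : Y.PosDef) {Y' : Matrix κ₂ κ₂ ℝ}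
    {c : ℝ} (hc : 0 < c) (hY' : ∀ y : κ₂ → ℂ, c * ∑ i, ‖y i‖ ^ 2 ≤ qf Y' y)
    (M : Matrix κ₁ κ₂ ℂ) (x : κ₁ → ℂ) (y : κ₂ → ℂ) :
    ‖x ⬝ᵥ (M *ᵥ y)‖ ≤ Real.sqrt (∑ i, qf Y⁻¹ (fun s => M s i)) / Real.sqrt c *
      nq Y x * nq Y' y := by
  have hinv : (Y⁻¹).PosSemidef := hY.inv.posSemidef
  have e1 : x ⬝ᵥ (M *ᵥ y) = ∑ i, (x ⬝ᵥ fun s => M s i) * y i := by
    simp only [dotProduct, Matrix.mulVec, Finset.mul_sum, Finset.sum_mul]
    rw [Finset.sum_comm]
    refine Finset.sum_congr rfl fun i _ => Finset.sum_congr rfl fun s _ => ?_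
    ring
  have e2 : ∀ i, ‖x ⬝ᵥ fun s => M s i‖ ≤ nq Y x * nq Y⁻¹ (fun s => M s i) := by
    intro i
    rw [dotProduct_comm, mul_comm]
    exact norm_dot_le hY _ _
  have e3 : Real.sqrt (∑ i, ‖y i‖ ^ 2) ≤ nq Y' y / Real.sqrt c := by
    rw [le_div_iff₀ (Real.sqrt_pos.2 hc), mul_comm, ← Real.sqrt_mul hc.le]
    exact Real.sqrt_le_sqrt (hY' y)
  calc ‖x ⬝ᵥ (M *ᵥ y)‖ ≤ ∑ i, nq Y x * (nq Y⁻¹ (fun s => M s i) * ‖y i‖) := by
        rw [e1]
        refine le_trans (norm_sum_le _ _) (Finset.sum_le_sum fun i _ => ?_)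
        rw [norm_mul, ← mul_assoc]
        exact mul_le_mul_of_nonneg_right (e2 i) (norm_nonneg _)
    _ = nq Y x * ∑ i, nq Y⁻¹ (fun s => M s i) * ‖y i‖ := by rw [Finset.mul_sum]
    _ ≤ nq Y x * (Real.sqrt (∑ i, nq Y⁻¹ (fun s => M s i) ^ 2) *
          Real.sqrt (∑ i, ‖y i‖ ^ 2)) :=
        mul_le_mul_of_nonneg_left (Real.sum_mul_le_sqrt_mul_sqrt _ _ _) (nq_nonneg _ _)
    _ ≤ nq Y x * (Real.sqrt (∑ i, nq Y⁻¹ (fun s => M s i) ^ 2) *
          (nq Y' y / Real.sqrt c)) :=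
        mul_le_mul_of_nonneg_left (mul_le_mul_of_nonneg_left e3 (Real.sqrt_nonneg _))
          (nq_nonneg _ _)
    _ = _ := by
        have : ∑ i, nq Y⁻¹ (fun s => M s i) ^ 2 = ∑ i, qf Y⁻¹ (fun s => M s i) :=
          Finset.sum_congr rfl fun i _ => nq_sq hinv _
        rw [this]
        ring

/-- coupling of two blocks whose imaginary parts are bounded below -/
lemma coup_ent {κ₁ κ₂ : Type*} [Fintype κ₁] [DecidableEq κ₁] [Fintype κ₂] [DecidableEq κ₂]
    {Y : Matrix κ₁ κ₁ ℝ} {Y' : Matrix κ₂ κ₂ ℝ}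
    {c : ℝ} (hc : 0 < c) (hY : ∀ y : κ₁ → ℂ, c * ∑ i, ‖y i‖ ^ 2 ≤ qf Y y)
    (hY' : ∀ y : κ₂ → ℂ, c * ∑ i, ‖y i‖ ^ 2 ≤ qf Y' y)
    (M : Matrix κ₁ κ₂ ℂ) (x : κ₁ → ℂ) (y : κ₂ → ℂ) :
    ‖x ⬝ᵥ (M *ᵥ y)‖ ≤ Real.sqrt (∑ i, ∑ k, ‖M i k‖ ^ 2) / c * nq Y x * nq Y' y := by
  have e3 : Real.sqrt (∑ i, ‖y i‖ ^ 2) ≤ nq Y' y / Real.sqrt c := by
    rw [le_div_iff₀ (Real.sqrt_pos.2 hc), mul_comm, ← Real.sqrt_mul hc.le]
    exact Real.sqrt_le_sqrt (hY' y)
  have e4 : Real.sqrt (∑ i, ‖x i‖ ^ 2) ≤ nq Y x / Real.sqrt c := by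
    rw [le_div_iff₀ (Real.sqrt_pos.2 hc), mul_comm, ← Real.sqrt_mul hc.le]
    exact Real.sqrt_le_sqrt (hY x)
  have e5 : ∀ i, ‖(M *ᵥ y) i‖ ≤ Real.sqrt (∑ k, ‖M i k‖ ^ 2) * Real.sqrt (∑ k, ‖y k‖ ^ 2) := by
    intro i
    calc ‖(M *ᵥ y) i‖ ≤ ∑ k, ‖M i k‖ * ‖y k‖ := by
          simp only [Matrix.mulVec, dotProduct]
          refine le_trans (norm_sum_le _ _) (Finset.sum_le_sum fun k _ => ?_)
          rw [norm_mul]
      _ ≤ _ := Real.sum_mul_le_sqrt_mul_sqrt _ _ _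
  have hs : Real.sqrt c * Real.sqrt c = c := Real.mul_self_sqrt hc.le
  calc ‖x ⬝ᵥ (M *ᵥ y)‖ ≤ ∑ i, ‖x i‖ * ‖(M *ᵥ y) i‖ := by
        simp only [dotProduct]
        refine le_trans (norm_sum_le _ _) (Finset.sum_le_sum fun k _ => ?_)
        rw [norm_mul]
    _ ≤ Real.sqrt (∑ i, ‖x i‖ ^ 2) * Real.sqrt (∑ i, ‖(M *ᵥ y) i‖ ^ 2) :=
        Real.sum_mul_le_sqrt_mul_sqrt _ _ _
    _ ≤ Real.sqrt (∑ i, ‖x i‖ ^ 2) * (Real.sqrt (∑ i, ∑ k, ‖M i k‖ ^ 2) *
          Real.sqrt (∑ k, ‖y k‖ ^ 2)) := by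
        apply mul_le_mul_of_nonneg_left _ (Real.sqrt_nonneg _)
        rw [← Real.sqrt_mul (Finset.sum_nonneg fun i _ => Finset.sum_nonneg fun k _ => by positivity)]
        apply Real.sqrt_le_sqrt
        rw [Finset.sum_mul]
        apply Finset.sum_le_sum
        intro i _
        have h1 := e5 i
        have h2 : ‖(M *ᵥ y) i‖ ^ 2 ≤
            (Real.sqrt (∑ k, ‖M i k‖ ^ 2) * Real.sqrt (∑ k, ‖y k‖ ^ 2)) ^ 2 :=
          pow_le_pow_left₀ (norm_nonneg _) h1 2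
        rwa [mul_pow, Real.sq_sqrt (Finset.sum_nonneg fun k _ => by positivity),
          Real.sq_sqrt (Finset.sum_nonneg fun k _ => by positivity)] at h2
    _ ≤ (nq Y x / Real.sqrt c) * (Real.sqrt (∑ i, ∑ k, ‖M i k‖ ^ 2) *
          (nq Y' y / Real.sqrt c)) := by
        apply mul_le_mul e4 _ (by positivity) (div_nonneg (nq_nonneg _ _) (Real.sqrt_nonneg _))
        exact mul_le_mul_of_nonneg_left e3 (Real.sqrt_nonneg _)
    _ = Real.sqrt (∑ i, ∑ k, ‖M i k‖ ^ 2) / (Real.sqrt c * Real.sqrt c) * nq Y x * nq Y' y := by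
        have hc' : Real.sqrt c ≠ 0 := (Real.sqrt_pos.2 hc).ne'
        field_simp
    _ = _ := by rw [hs]

/-! ## the main abstract decoupling theorem -/

section main

variable {T B A J : Type*} [Fintype T] [DecidableEq T] [Fintype B] [DecidableEq B]
  [Fintype A] [DecidableEq A] [Fintype J] [DecidableEq J]

/-- the index set of the whole system -/
abbrev Idx (T B J : Type*) := T ⊕ (B ⊕ (Fin 2 × J))

/-- embedding of the (possibly bad) system `S = T ⊕ B` -/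
def sS : T ⊕ B → Idx T B J := Sum.map id Sum.inl

/-- embedding of the good edge `j` -/
def eJ (j : J) (i : Fin 2) : Idx T B J := Sum.inr (Sum.inr (i, j))

/-- the groups -/
def grp : Idx T B J → Option J
  | Sum.inl _ => none
  | Sum.inr (Sum.inl _) => none
  | Sum.inr (Sum.inr p) => some p.2

lemma sS_injective : Function.Injective (sS : T ⊕ B → Idx T B J) :=
  Sum.map_injective.2 ⟨Function.injective_id, Sum.inl_injective⟩

lemma eJ_injective (j : J) : Function.Injective (eJ j : Fin 2 → Idx T B J) := by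
  intro a b h
  have := Sum.inr_injective (Sum.inr_injective h)
  exact (Prod.mk.inj this).1

lemma grp_none (i : Idx T B J) : grp i = none ↔ ∃ m, sS m = i := by
  rcases i with t | b | p
  · exact ⟨fun _ => ⟨Sum.inl t, rfl⟩, fun _ => rfl⟩
  · exact ⟨fun _ => ⟨Sum.inr b, rfl⟩, fun _ => rfl⟩
  · constructor
    · intro h; simp [grp] at h
    · rintro ⟨m | m, h⟩ <;> simp [sS] at h

lemma grp_some (j : J) (i : Idx T B J) : grp i = some j ↔ ∃ m, eJ j m = i := by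
  rcases i with t | b | ⟨p, k⟩
  · constructor
    · intro h; simp [grp] at h
    · rintro ⟨m, h⟩; simp [eJ] at h
  · constructor
    · intro h; simp [grp] at h
    · rintro ⟨m, h⟩; simp [eJ] at h
  · constructor
    · intro h
      simp only [grp, Option.some.injEq] at h
      subst h
      exact ⟨p, rfl⟩
    · rintro ⟨m, h⟩
      have := Sum.inr_injective (Sum.inr_injective h)
      simp only [grp, Option.some.injEq]
      exact ((Prod.mk.inj this).2).symm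

/-- sites of the leaves: `u_a` for `a ∈ A` inside the system, `u_j` for the good edges -/
def uI (uA : A → B) : A ⊕ J → B ⊕ (Fin 2 × J) :=
  Sum.elim (fun a => Sum.inl (uA a)) (fun j => Sum.inr (0, j))

/-- the perturbation: `U1` inside `S`, removal of the good edges, new edges `a_j w_j`
(`j` good), `t_i u_i` (all `i`). -/
def pert (U1 : Matrix (T ⊕ B) (T ⊕ B) ℝ) (aJ : J → B) (uA : A → B) (t : A ⊕ J → T) :
    Matrix (Idx T B J) (Idx T B J) ℝ :=
  lift (emb sS) U1 - edgeM (fun j : J => eJ j 0) (fun j => eJ j 1) +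
    edgeM (fun j : J => (Sum.inr (Sum.inl (aJ j)) : Idx T B J)) (fun j => eJ j 1) +
    edgeM (fun i : A ⊕ J => (Sum.inl (t i) : Idx T B J)) (fun i => Sum.inr (uI uA i))

/-- the leaf matrix seen by the tree when the groups are independent: `Sg` = matrix of the bad
system on `B`, `C j` = cavity blocks of the good edges -/
noncomputable def leafXi (Sg : Matrix B B ℂ) (C : J → Matrix (Fin 2) (Fin 2) ℂ) (aJ : J → B)
    (uA : A → B) : Matrix (A ⊕ J) (A ⊕ J) ℂ :=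
  (mob (edgeM (fun j => Sum.inl (aJ j)) (fun j => Sum.inr (1, j)))
    (fromBlocks Sg 0 0 (blockDiagonal C))).submatrix (uI uA) (uI uA)

/-- squared coupling between the system `S` and the good edge `j` -/
noncomputable def cS (Z : Matrix (Idx T B J) (Idx T B J) ℂ) (j : J) : ℝ :=
  ∑ i, qf (imM (Z.submatrix sS sS))⁻¹ (fun s => Z (sS s) (eJ j i))

/-- squared coupling between two good edges -/
noncomputable def cP (Z : Matrix (Idx T B J) (Idx T B J) ℂ) (j k : J) : ℝ :=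
  ∑ i, ∑ l, ‖Z (eJ j i) (eJ k l)‖ ^ 2

/-- total coupling -/
noncomputable def cT (c : ℝ) (Z : Matrix (Idx T B J) (Idx T B J) ℂ) : ℝ :=
  2 * (∑ j, Real.sqrt (cS Z j)) / Real.sqrt c +
    (∑ j, ∑ k, if j = k then 0 else Real.sqrt (cP Z j k)) / c

/-- **decoupling**: `Z` is close to its block diagonal part -/
theorem near_grp {Z : Matrix (Idx T B J) (Idx T B J) ℂ} (hZ : Siegel Z) {c : ℝ} (hc : 0 < c)
    (hB : ∀ j (y : Fin 2 → ℂ), c * ∑ i, ‖y i‖ ^ 2 ≤ qf (imM (Z.submatrix (eJ j) (eJ j))) y) :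
    Near (cT c Z) (bd grp Z) Z := by
  set ε : Option J → Option J → ℝ := fun a b => match a, b with
    | none, none => 0
    | none, some j => Real.sqrt (cS Z j) / Real.sqrt c
    | some j, none => Real.sqrt (cS Z j) / Real.sqrt c
    | some j, some k => Real.sqrt (cP Z j k) / c with hε
  have hsymZ : ∀ a b, Z a b = Z b a := fun a b => by
    have := congrFun (congrFun hZ.symm b) a
    simpa using this
  have hr0 : ∀ x : Idx T B J → ℂ, restr grp none x = cx (emb sS) *ᵥ (x ∘ sS) := fun x =>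
    restr_eq sS_injective grp none grp_none x
  have hr1 : ∀ (j : J) (x : Idx T B J → ℂ), restr grp (some j) x =
      cx (emb (eJ j)) *ᵥ (x ∘ eJ j) := fun j x =>
    restr_eq (eJ_injective j) grp (some j) (grp_some j) x
  have hS := (hZ.sub (f := (sS : T ⊕ B → Idx T B J)) sS_injective)
  have key := near_bd grp hZ ε (by
    intro a b
    rcases a with _ | a <;> rcases b with _ | b
    · exact le_refl _
    · exact div_nonneg (Real.sqrt_nonneg _) (Real.sqrt_nonneg _)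
    · exact div_nonneg (Real.sqrt_nonneg _) (Real.sqrt_nonneg _)
    · exact div_nonneg (Real.sqrt_nonneg _) hc.le) (by
    intro a b hab x y
    rcases a with _ | a <;> rcases b with _ | b
    · exact absurd rfl hab
    · rw [hr0, hr1, cross_emb, nq_emb _ hZ, nq_emb _ hZ]
      exact coup_col hS.pos hc (hB b) _ _ _
    · rw [hr0, hr1, cross_emb, nq_emb _ hZ, nq_emb _ hZ]
      have h1 := coup_col hS.pos hc (hB a) (Z.submatrix sS (eJ a)) (y ∘ sS) (x ∘ eJ a)
      have h2 : (x ∘ eJ a) ⬝ᵥ (Z.submatrix (eJ a) sS *ᵥ (y ∘ sS)) =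
          (y ∘ sS) ⬝ᵥ (Z.submatrix sS (eJ a) *ᵥ (x ∘ eJ a)) := by
        rw [Matrix.dotProduct_mulVec, dotProduct_comm, ← Matrix.mulVec_transpose]
        congr 2
        ext p q
        exact hsymZ _ _
      rw [h2]
      calc _ ≤ _ := h1
        _ = _ := by
          simp only [hε, cS, Matrix.submatrix_apply]
          ring
    · rw [hr1, hr1, cross_emb, nq_emb _ hZ, nq_emb _ hZ]
      exact coup_ent hc (hB a) (hB b) _ _ _)
  have e : (∑ a, ∑ b, if a = b then 0 else ε a b) = cT c Z := by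
    rw [Fintype.sum_option]
    simp only [Fintype.sum_option]
    simp only [hε, cT, reduceCtorEq, if_false, if_true, zero_add, Option.some.injEq,
      Finset.sum_add_distrib, ← Finset.sum_div]
    have h3 : ∀ a b : J, (if a = b then (0 : ℝ) else Real.sqrt (cP Z a b) / c) =
        (if a = b then 0 else Real.sqrt (cP Z a b)) / c := by
      intro a b
      split_ifs <;> simp
    simp only [h3, ← Finset.sum_div]
    ring
  rw [e] at key
  exact key

end main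

end Crest.Agent.R166.Dec598
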