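import Crest.Agent.R166.DecP_789
import Crest.Agent.R166.Dec_598
import Crest.Agent.R166.SwP2_470

/-!
# R166, section 30.3, port side, part 2 (helper789)

Abstract data `Dat` of a resampling move: tree vertices `φ : T → Fin n`, leaves `t : ι → T`,
boundary half-edges `τ i`, chosen half-edges `b i`, new pairing `p'`; `A` = the exceptional set.
* `Phi` : the index embedding of `Dec598.Idx T (Bt ι A) J`;
* `hpert` : the perturbation in the form of `Dec598.pert`;
* `hdec` : decoupling of the tree after the removal of the boundary edges.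
-/

set_option autoImplicit false
set_option linter.unusedSectionVars false

open Matrix Finset

namespace Crest.Agent.R166.DecP789

open Crest.Agent.R166 Crest.Agent.R166.Stab269
open Crest.Agent.R166.Dec598 (edgeM lift emb Idx sS eJ pert uI)

variable {n d : ℕ}

/-! ## edge matrices as sums -/

lemma edgeM_sum {κ : Type*} [Fintype κ] [DecidableEq κ] (x y : κ → Fin n) :
    edgeM x y = ∑ k, (E1 (x k) (y k) + E1 (y k) (x k)) := by
  ext a b
  rw [Dec598.edgeM_apply, Matrix.sum_apply]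
  rfl

lemma edgeM_EE {κ : Type*} [Fintype κ] [DecidableEq κ] (x y : κ → HE n d) :
    edgeM (fun k => (x k).1) (fun k => (y k).1) = ∑ k, EE (x k) (y k) := by
  rw [edgeM_sum]; rfl

/-- the data of a resampling move -/
structure Dat {T ι : Type*} (p p' : Equiv.Perm (HE n d)) (φ : T → Fin n) (t : ι → T)
    (τ b : ι → HE n d) : Prop where
  port : IsPort p
  port' : IsPort p'
  move : IsMove p p' τ b
  bdry : IsBdry p φ τ
  leaf : ∀ i, φ (t i) = (τ i).1
  aa : ∀ i j, (p (τ i)).1 = (p (τ j)).1 → i = j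
  uu : ∀ i j, (b i).1 = (b j).1 → i = j
  ww : ∀ i j, (p (b i)).1 = (p (b j)).1 → i = j
  au : ∀ i j, (p (τ i)).1 ≠ (b j).1
  aw : ∀ i j, (p (τ i)).1 ≠ (p (b j)).1
  uw : ∀ i j, (b i).1 ≠ (p (b j)).1
  phiu : ∀ x j, φ x ≠ (b j).1
  phiw : ∀ x j, φ x ≠ (p (b j)).1

section main

variable {T ι : Type*} [Fintype T] [DecidableEq T] [Fintype ι] [DecidableEq ι]

/-- exceptional choices -/
abbrev At (A : Finset ι) : Type _ := {i // i ∈ A}
/-- good choices -/
abbrev Jt (A : Finset ι) : Type _ := {i // i ∉ A}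
/-- the sites of the system besides the tree: `a_i` (all `i`), `u_i`, `w_i` (`i ∈ A`) -/
abbrev Bt (A : Finset ι) : Type _ := ι ⊕ (Fin 2 × At A)

/-- the two endpoints of a chosen half-edge -/
def endp (p : Equiv.Perm (HE n d)) (h : HE n d) (x : Fin 2) : Fin n := if x = 0 then h.1 else (p h).1

/-- sites of `B` -/
def PhiB (p : Equiv.Perm (HE n d)) (τ b : ι → HE n d) (A : Finset ι) : Bt A → Fin n :=
  Sum.elim (fun i => (p (τ i)).1) (fun x => endp p (b x.2.1) x.1)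

/-- the index embedding -/
def Phi (p : Equiv.Perm (HE n d)) (φ : T → Fin n) (τ b : ι → HE n d) (A : Finset ι) :
    Idx T (Bt A) (Jt A) → Fin n :=
  Sum.elim φ (Sum.elim (PhiB p τ b A) (fun x => endp p (b x.2.1) x.1))

/-- partner sites `a_j` of the good edges -/
def aJ (A : Finset ι) : Jt A → Bt A := fun j => Sum.inl j.1

/-- sites `u_a` of the exceptional edges -/
def uA (A : Finset ι) : At A → Bt A := fun a => Sum.inr (0, a)

/-- parents of the leaves -/
def tt (t : ι → T) (A : Finset ι) : At A ⊕ Jt A → T := Sum.elim (fun a => t a.1) (fun j => t j.1)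

/-- the perturbation inside the system `T ⊕ B` -/
def U1 (t : ι → T) (A : Finset ι) (UT : Matrix T T ℝ) : Matrix (T ⊕ Bt A) (T ⊕ Bt A) ℝ :=
  lift (emb (Sum.inl : T → T ⊕ Bt A)) UT -
    edgeM (fun i : ι => (Sum.inl (t i) : T ⊕ Bt A)) (fun i => Sum.inr (Sum.inl i)) -
    edgeM (fun a : At A => (Sum.inr (Sum.inr (0, a)) : T ⊕ Bt A)) (fun a => Sum.inr (Sum.inr (1, a)))
    + edgeM (fun a : At A => (Sum.inr (Sum.inl a.1) : T ⊕ Bt A)) (fun a => Sum.inr (Sum.inr (1, a)))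

lemma U1_symm (t : ι → T) (A : Finset ι) {UT : Matrix T T ℝ} (hU : UTᵀ = UT) :
    (U1 t A UT)ᵀ = U1 t A UT := by
  unfold U1
  rw [Matrix.transpose_add, Matrix.transpose_sub, Matrix.transpose_sub, Dec598.lift_symm _ hU,
    Dec598.edgeM_symm, Dec598.edgeM_symm, Dec598.edgeM_symm]

variable {p p' : Equiv.Perm (HE n d)} {φ : T → Fin n} {t : ι → T} {τ b : ι → HE n d}

lemma endp_zero (p : Equiv.Perm (HE n d)) (h : HE n d) : endp p h 0 = h.1 := rfl

lemma endp_one (p : Equiv.Perm (HE n d)) (h : HE n d) : endp p h 1 = (p h).1 := rfl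

lemma Dat.endp_inj (hD : Dat p p' φ t τ b) {i j : ι} {x y : Fin 2}
    (h : endp p (b i) x = endp p (b j) y) : i = j ∧ x = y := by
  fin_cases x <;> fin_cases y <;>
    simp only [Fin.zero_eta, Fin.mk_one, endp_zero, endp_one] at h ⊢
  · exact ⟨hD.uu _ _ h, trivial⟩
  · exact absurd h (hD.uw _ _)
  · exact absurd h.symm (hD.uw _ _)
  · exact ⟨hD.ww _ _ h, trivial⟩

lemma Dat.a_ne_endp (hD : Dat p p' φ t τ b) (i j : ι) (x : Fin 2) :
    (p (τ i)).1 ≠ endp p (b j) x := by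
  fin_cases x
  · exact hD.au i j
  · exact hD.aw i j

lemma Dat.phi_ne_endp (hD : Dat p p' φ t τ b) (s : T) (j : ι) (x : Fin 2) :
    φ s ≠ endp p (b j) x := by
  fin_cases x
  · exact hD.phiu s j
  · exact hD.phiw s j

lemma Dat.phi_ne_a (hD : Dat p p' φ t τ b) (s : T) (i : ι) : φ s ≠ (p (τ i)).1 :=
  fun h => hD.bdry.out i ⟨s, h⟩

theorem Dat.PhiB_injective (hD : Dat p p' φ t τ b) (A : Finset ι) :
    Function.Injective (PhiB p τ b A) := by
  rintro (i | ⟨x, i⟩) (j | ⟨y, j⟩) h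
  · simp only [PhiB, Sum.elim_inl] at h
    rw [hD.aa _ _ h]
  · simp only [PhiB, Sum.elim_inl, Sum.elim_inr] at h
    exact absurd h (hD.a_ne_endp _ _ _)
  · simp only [PhiB, Sum.elim_inl, Sum.elim_inr] at h
    exact absurd h.symm (hD.a_ne_endp _ _ _)
  · simp only [PhiB, Sum.elim_inr] at h
    obtain ⟨h1, h2⟩ := hD.endp_inj h
    rw [h2, Subtype.ext h1]

theorem Dat.Phi_injective (hD : Dat p p' φ t τ b) (A : Finset ι) :
    Function.Injective (Phi p φ τ b A) := by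
  rintro (s | x | ⟨x, i⟩) (s' | y | ⟨y, j⟩) h
  · simp only [Phi, Sum.elim_inl] at h
    rw [hD.bdry.inj h]
  · exfalso
    rcases y with y | ⟨y, j⟩
    · exact hD.phi_ne_a _ _ h
    · exact hD.phi_ne_endp _ _ _ h
  · exact absurd h (hD.phi_ne_endp _ _ _)
  · exfalso
    rcases x with x | ⟨x, j⟩
    · exact hD.phi_ne_a _ _ h.symm
    · exact hD.phi_ne_endp _ _ _ h.symm
  · have h1 : PhiB p τ b A x = PhiB p τ b A y := h
    rw [hD.PhiB_injective A h1]
  · exfalso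
    rcases x with x | ⟨x, i⟩
    · exact hD.a_ne_endp _ _ _ h
    · have := (hD.endp_inj (i := i.1) (j := j.1) h).1
      exact j.2 (this ▸ i.2)
  · exact absurd h.symm (hD.phi_ne_endp _ _ _)
  · exfalso
    rcases y with y | ⟨y, j⟩
    · exact hD.a_ne_endp _ _ _ h.symm
    · have := (hD.endp_inj (i := i.1) (j := j.1) h).1
      exact i.2 (this ▸ j.2)
  · obtain ⟨h1, h2⟩ := hD.endp_inj (i := i.1) (j := j.1) h
    have h2' : x = y := h2
    rw [h2', Subtype.ext h1]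

/-- sums over `ι` split into `A` and its complement -/
lemma sum_split {M : Type*} [AddCommMonoid M] (A : Finset ι) (F : ι → M) :
    ∑ i, F i = ∑ a : At A, F a.1 + ∑ j : Jt A, F j.1 := by
  have h := (Fintype.sum_subtype_add_sum_subtype (fun i => i ∈ A) F).symm
  convert h

/-- the lift of the inner perturbation -/
lemma lift_U1 (hD : Dat p p' φ t τ b) (A : Finset ι) (UT : Matrix T T ℝ) :
    lift (emb (Phi p φ τ b A ∘ sS)) (U1 t A UT) =
      lift (emb φ) UT - ∑ i, EE (τ i) (p (τ i)) -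
        ∑ a : At A, EE (b a.1) (p (b a.1)) + ∑ a : At A, EE (p (τ a.1)) (p (b a.1)) := by
  unfold U1
  rw [Dec598.lift_add, lift_sub, lift_sub, Dec598.lift_lift, Dec598.emb_comp, Dec598.lift_edgeM,
    Dec598.lift_edgeM, Dec598.lift_edgeM]
  have e1 : (Phi p φ τ b A ∘ sS) ∘ (Sum.inl : T → T ⊕ Bt A) = φ := rfl
  have e2 : edgeM ((Phi p φ τ b A ∘ sS) ∘ fun i : ι => (Sum.inl (t i) : T ⊕ Bt A))
      ((Phi p φ τ b A ∘ sS) ∘ fun i => Sum.inr (Sum.inl i)) = ∑ i, EE (τ i) (p (τ i)) := by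
    rw [← edgeM_EE]
    congr 1
    funext i
    exact hD.leaf i
  have e3 : edgeM ((Phi p φ τ b A ∘ sS) ∘ fun a : At A => (Sum.inr (Sum.inr (0, a)) : T ⊕ Bt A))
      ((Phi p φ τ b A ∘ sS) ∘ fun a => Sum.inr (Sum.inr (1, a))) =
      ∑ a : At A, EE (b a.1) (p (b a.1)) := by
    rw [← edgeM_EE]; rfl
  have e4 : edgeM ((Phi p φ τ b A ∘ sS) ∘ fun a : At A => (Sum.inr (Sum.inl a.1) : T ⊕ Bt A))
      ((Phi p φ τ b A ∘ sS) ∘ fun a => Sum.inr (Sum.inr (1, a))) =
      ∑ a : At A, EE (p (τ a.1)) (p (b a.1)) := by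
    rw [← edgeM_EE]; rfl
  rw [e1, e2, e3, e4]

/-- **(hpert)** the perturbation in the form of `Dec598.pert` -/
theorem hpert (hD : Dat p p' φ t τ b) (A : Finset ι) (UT : Matrix T T ℝ) (s : ℝ)
    (ω : Fin n → ℝ) :
    Hm (graphOf p') s ω + lift (emb φ) UT = Hm (graphOf p) s ω +
      lift (emb (Phi p φ τ b A)) (pert (U1 t A UT) (aJ A) (uA A) (tt t A)) := by
  have hmv := hD.move.Hm_move hD.port hD.port' s ω
  unfold pert
  rw [Dec598.lift_add, Dec598.lift_add, lift_sub, Dec598.lift_lift, Dec598.emb_comp,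
    Dec598.lift_edgeM, Dec598.lift_edgeM, Dec598.lift_edgeM, lift_U1 hD A UT]
  have e1 : edgeM ((Phi p φ τ b A) ∘ fun j : Jt A => eJ j 0) ((Phi p φ τ b A) ∘ fun j => eJ j 1) =
      ∑ j : Jt A, EE (b j.1) (p (b j.1)) := by
    rw [← edgeM_EE]; rfl
  have e2 : edgeM ((Phi p φ τ b A) ∘ fun j : Jt A => (Sum.inr (Sum.inl (aJ A j)) :
      Idx T (Bt A) (Jt A))) ((Phi p φ τ b A) ∘ fun j => eJ j 1) =
      ∑ j : Jt A, EE (p (τ j.1)) (p (b j.1)) := by
    rw [← edgeM_EE]; rfl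
  have e3 : edgeM ((Phi p φ τ b A) ∘ fun i : At A ⊕ Jt A => (Sum.inl (tt t A i) :
      Idx T (Bt A) (Jt A))) ((Phi p φ τ b A) ∘ fun i => Sum.inr (uI (uA A) i)) =
      ∑ i, EE (τ i) (b i) := by
    have h1 : edgeM ((Phi p φ τ b A) ∘ fun i : At A ⊕ Jt A => (Sum.inl (tt t A i) :
      Idx T (Bt A) (Jt A))) ((Phi p φ τ b A) ∘ fun i => Sum.inr (uI (uA A) i)) =
      edgeM (fun i : At A ⊕ Jt A => (Sum.elim (fun a : At A => τ a.1) (fun j : Jt A => τ j.1) i).1)
        (fun i : At A ⊕ Jt A => (Sum.elim (fun a : At A => b a.1) (fun j : Jt A => b j.1) i).1) := by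
      congr 1
      · funext i
        rcases i with a | j
        · exact hD.leaf a.1
        · exact hD.leaf j.1
      · funext i
        rcases i with a | j <;> rfl
    rw [h1, edgeM_EE, Fintype.sum_sum_type, sum_split A (fun i => EE (τ i) (b i))]
    rfl
  rw [e1, e2, e3, hmv]
  have s1 := sum_split A (fun i => EE (p (τ i)) (p (b i)))
  have s2 := sum_split A (fun i => EE (b i) (p (b i)))
  simp only [Finset.sum_sub_distrib, Finset.sum_add_distrib]
  rw [s1, s2]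
  abel

/-- the Hamiltonian of the tree -/
noncomputable def hT (p : Equiv.Perm (HE n d)) (φ : T → Fin n) (s : ℝ) (ω : Fin n → ℝ)
    (UT : Matrix T T ℝ) : Matrix T T ℝ := (Hm (graphOf p) s ω).submatrix φ φ + UT

lemma hT_symm (p : Equiv.Perm (HE n d)) (φ : T → Fin n) (s : ℝ) (ω : Fin n → ℝ)
    {UT : Matrix T T ℝ} (hU : UTᵀ = UT) : (hT p φ s ω UT)ᵀ = hT p φ s ω UT := by
  unfold hT
  rw [Matrix.transpose_add, Matrix.transpose_submatrix, Hm_symm, hU]

/-- the Hamiltonian after the inner perturbation -/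
noncomputable def H1 (p : Equiv.Perm (HE n d)) (φ : T → Fin n) (t : ι → T) (τ b : ι → HE n d)
    (A : Finset ι) (s : ℝ) (ω : Fin n → ℝ) (UT : Matrix T T ℝ) : Matrix (Fin n) (Fin n) ℝ :=
  Hm (graphOf p) s ω + lift (emb (Phi p φ τ b A ∘ sS)) (U1 t A UT)

lemma H1_eq (hD : Dat p p' φ t τ b) (A : Finset ι) (s : ℝ) (ω : Fin n → ℝ)
    (UT : Matrix T T ℝ) :
    H1 p φ t τ b A s ω UT = Hcut p τ s ω + lift (emb φ) UT +
      ∑ a : At A, (EE (p (τ a.1)) (p (b a.1)) - EE (b a.1) (p (b a.1))) := by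
  unfold H1 Hcut
  rw [lift_U1 hD A UT, Finset.sum_sub_distrib]
  abel

lemma E1_zero_left {x y a b : Fin n} (h : a ≠ x) : E1 x y a b = 0 := by
  unfold E1; rw [if_neg (fun h' => h h'.1)]

lemma E1_zero_right {x y a b : Fin n} (h : b ≠ y) : E1 x y a b = 0 := by
  unfold E1; rw [if_neg (fun h' => h h'.2)]

lemma EE_zero {h h' : HE n d} {x y : Fin n} (h1 : x ≠ h.1) (h2 : x ≠ h'.1) :
    EE h h' x y = 0 := by
  unfold EE
  rw [Matrix.add_apply, E1_zero_left h1, E1_zero_left h2, add_zero]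

lemma H1_row (hD : Dat p p' φ t τ b) (A : Finset ι) (s : ℝ) (ω : Fin n → ℝ)
    (UT : Matrix T T ℝ) (x : T) (y : Fin n) :
    H1 p φ t τ b A s ω UT (φ x) y = Hcut p τ s ω (φ x) y + lift (emb φ) UT (φ x) y := by
  rw [H1_eq hD, Matrix.add_apply, Matrix.add_apply, Matrix.sum_apply, Finset.sum_eq_zero, add_zero]
  intro a _
  rw [Matrix.sub_apply, EE_zero (hD.phi_ne_a x a.1) (hD.phiw x a.1),
    EE_zero (hD.phiu x a.1) (hD.phiw x a.1), sub_zero]

lemma H1_cross (hD : Dat p p' φ t τ b) (A : Finset ι) (s : ℝ) (ω : Fin n → ℝ)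
    (UT : Matrix T T ℝ) {x y : Fin n} (hx : x ∈ Set.range φ) (hy : y ∉ Set.range φ) :
    H1 p φ t τ b A s ω UT x y = 0 := by
  obtain ⟨x, rfl⟩ := hx
  rw [H1_row hD, Hcut_cross hD.port hD.bdry s ω ⟨x, rfl⟩ hy,
    Dec598.lift_emb_right UT (φ x) (fun a h => hy ⟨a, h.symm⟩), add_zero]

lemma H1_sub (hD : Dat p p' φ t τ b) (A : Finset ι) (s : ℝ) (ω : Fin n → ℝ)
    (UT : Matrix T T ℝ) :
    (H1 p φ t τ b A s ω UT).submatrix φ φ = hT p φ s ω UT := by
  ext x y
  rw [Matrix.submatrix_apply, H1_row hD, Hcut_inner hD.bdry s ω ⟨x, rfl⟩ ⟨y, rfl⟩,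
    Dec598.lift_emb_apply hD.bdry.inj]
  rfl

lemma H1_symm (p : Equiv.Perm (HE n d)) (φ : T → Fin n) (t : ι → T) (τ b : ι → HE n d)
    (A : Finset ι) (s : ℝ) (ω : Fin n → ℝ) {UT : Matrix T T ℝ} (hU : UTᵀ = UT) :
    (H1 p φ t τ b A s ω UT)ᵀ = H1 p φ t τ b A s ω UT := by
  unfold H1
  rw [Matrix.transpose_add, Hm_symm, Dec598.lift_symm _ (U1_symm t A hU)]

/-- the matrix of the rest of the system, after the removal of the boundary edges -/
noncomputable def SgB (p : Equiv.Perm (HE n d)) (φ : T → Fin n) (t : ι → T) (τ b : ι → HE n d)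
    (A : Finset ι) (s : ℝ) (ω : Fin n → ℝ) (UT : Matrix T T ℝ) (z : ℂ) :
    Matrix (Bt A) (Bt A) ℂ :=
  (Res789.Res (H1 p φ t τ b A s ω UT) z).submatrix (PhiB p τ b A) (PhiB p τ b A)

theorem siegel_SgB (hD : Dat p p' φ t τ b) (A : Finset ι) (s : ℝ) (ω : Fin n → ℝ)
    {UT : Matrix T T ℝ} (hU : UTᵀ = UT) {z : ℂ} (hz : 0 < z.im) :
    Res598.Siegel (SgB p φ t τ b A s ω UT z) :=
  ((Res789.Res_sieg (H1_symm p φ t τ b A s ω hU) hz).submatrix
    (hD.PhiB_injective A)).siegel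

lemma PhiS_injective (hD : Dat p p' φ t τ b) (A : Finset ι) :
    Function.Injective (Phi p φ τ b A ∘ sS) :=
  (hD.Phi_injective A).comp Dec598.sS_injective

/-- **(hdec)** decoupling of the tree -/
theorem hdec (hD : Dat p p' φ t τ b) (A : Finset ι) (s : ℝ) (ω : Fin n → ℝ)
    {UT : Matrix T T ℝ} (hU : UTᵀ = UT) {z : ℂ} (hz : 0 < z.im) :
    Res598.mob (U1 t A UT) ((Res789.Res (Hm (graphOf p) s ω) z).submatrix
      (Phi p φ τ b A ∘ sS) (Phi p φ τ b A ∘ sS)) =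
      fromBlocks (Res789.Res (hT p φ s ω UT) z) 0 0 (SgB p φ t τ b A s ω UT z) := by
  have h1 := Dec598.Res_lift (Hm_symm (graphOf p) s ω) (PhiS_injective hD A) (U1_symm t A hU) hz
  rw [← h1]
  obtain ⟨h2, h3⟩ := Res_decoupled_range (H1_symm p φ t τ b A s ω hU) hz hD.bdry.inj
    (fun x y hx hy => H1_cross hD A s ω UT hx hy)
  have h4 : Hm (graphOf p) s ω + lift (emb (Phi p φ τ b A ∘ sS)) (U1 t A UT) =
      H1 p φ t τ b A s ω UT := rfl
  rw [h4]
  have hns : ∀ y : Bt A, PhiB p τ b A y ∉ Set.range φ := by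
    rintro y ⟨x, hx⟩
    rcases y with y | ⟨y, j⟩
    · exact hD.phi_ne_a _ _ hx
    · exact hD.phi_ne_endp _ _ _ hx
  ext (x | x) (y | y)
  · have := congrFun (congrFun h3 x) y
    rw [H1_sub hD] at this
    exact this
  · exact h2 _ _ ⟨x, rfl⟩ (hns y)
  · have hsym := congrFun (congrFun (Res789.Res_transpose (H1_symm p φ t τ b A s ω hU) hz)
      (PhiB p τ b A x)) (φ y)
    rw [Matrix.transpose_apply] at hsym
    have := h2 _ _ ⟨y, rfl⟩ (hns x)
    rw [hsym] at this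
    exact this
  · rfl

end main

end Crest.Agent.R166.DecP789
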