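import Crest.Agent.R166.Rev_811
import Crest.Agent.R166.Res2_789
import Crest.Agent.R166.Ports_269

/-!
# Row 166, section 30.3: densities of strongly coupled half-edges (matrix Ward identity)

`cpl S R p x` = squared coupling `‖(Im R_S)^{-1/2} R_{S,{u,w}}‖²_HS` of the vertex set `S` with the
two endpoints `u = x.1`, `w = (p x).1` of the half-edge `x`.

* `sum_cpl`, `av1_cpl` : the average of `cpl S R p` over the half-edges is `2 |S| / (n η)`;
* `pr1_cpl` : `P(ε² < cpl) ≤ 2|S|/(n η ε²)`;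
* `cpl2` (pair of half-edges), `av1_cpl2`, `pr1_cpl2`;
* `hyp_ward` : the hypotheses `Rev811.Hyp` of the abstract revealing lemma;
* `av_Wk_cpl` : expectation of the couplings of the others on the event that `j` fails.
-/

set_option autoImplicit false

open Finset Matrix

namespace Crest.Agent.R166.Rev811

open Res789

/-- the two definitions of the resolvent agree -/
theorem Res_eq {V : Type*} [Fintype V] [DecidableEq V] (H : Matrix V V ℝ) (z : ℂ) :
    Res789.Res H z = Crest.Agent.R166.Res H z := rfl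

variable {n d : ℕ}

/-- squared coupling of the vertex `y` with the vertex set `S` -/
noncomputable def gS (S : Finset (Fin n)) (R : Matrix (Fin n) (Fin n) ℂ) (y : Fin n) : ℝ :=
  gam (fun x : S => x.1) R y ^ 2

lemma gS_nonneg (S : Finset (Fin n)) (R : Matrix (Fin n) (Fin n) ℂ) (y : Fin n) : 0 ≤ gS S R y :=
  sq_nonneg _

lemma sum_gS {H : Matrix (Fin n) (Fin n) ℝ} (hH : Hᵀ = H) {z : ℂ} (hz : 0 < z.im)
    (S : Finset (Fin n)) : ∑ y, gS S (Res789.Res H z) y = S.card / z.im := by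
  unfold gS
  rw [sum_gam_sq hH hz Subtype.val_injective, Fintype.card_coe]

/-- squared coupling of the half-edge `x` (both endpoints) with the vertex set `S` -/
noncomputable def cpl (S : Finset (Fin n)) (R : Matrix (Fin n) (Fin n) ℂ)
    (p : Equiv.Perm (HE n d)) (x : HE n d) : ℝ := gS S R x.1 + gS S R (p x).1

lemma cpl_nonneg (S : Finset (Fin n)) (R : Matrix (Fin n) (Fin n) ℂ)
    (p : Equiv.Perm (HE n d)) (x : HE n d) : 0 ≤ cpl S R p x :=
  add_nonneg (gS_nonneg _ _ _) (gS_nonneg _ _ _)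

/-- sums over half-edges of functions of the first endpoint -/
lemma sum_fst (f : Fin n → ℝ) : ∑ x : HE n d, f x.1 = d * ∑ v, f v := by
  rw [Fintype.sum_prod_type]
  simp only [Finset.sum_const, Finset.card_univ, Fintype.card_fin, nsmul_eq_mul]
  rw [← Finset.mul_sum]

/-- sums over half-edges of functions of the second endpoint -/
lemma sum_snd (p : Equiv.Perm (HE n d)) (f : Fin n → ℝ) :
    ∑ x : HE n d, f (p x).1 = d * ∑ v, f v := by
  rw [← sum_fst f]
  exact Equiv.sum_comp p (fun x : HE n d => f x.1)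

lemma sum_cpl {H : Matrix (Fin n) (Fin n) ℝ} (hH : Hᵀ = H) {z : ℂ} (hz : 0 < z.im)
    (S : Finset (Fin n)) (p : Equiv.Perm (HE n d)) :
    ∑ x, cpl S (Res789.Res H z) p x = 2 * d * S.card / z.im := by
  unfold cpl
  rw [Finset.sum_add_distrib, sum_fst, sum_snd, sum_gS hH hz]
  ring

lemma card_HE_real : (Fintype.card (HE n d) : ℝ) = n * d := by
  simp [HE]

lemma av1_cpl {H : Matrix (Fin n) (Fin n) ℝ} (hH : Hᵀ = H) {z : ℂ} (hz : 0 < z.im)
    (hd : 0 < d) (S : Finset (Fin n)) (p : Equiv.Perm (HE n d)) :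
    av1 (cpl S (Res789.Res H z) p) = 2 * S.card / (n * z.im) := by
  unfold av1
  rw [sum_cpl hH hz, card_HE_real]
  have hd' : (d : ℝ) ≠ 0 := by exact_mod_cast hd.ne'
  rcases Nat.eq_zero_or_pos n with h0 | h0
  · subst h0
    simp
  · have : (n : ℝ) ≠ 0 := by exact_mod_cast h0.ne'
    field_simp

/-- Markov's inequality -/
lemma pr1_le_of_av1 {Ω : Type*} [Fintype Ω] (f : Ω → ℝ) (hf : ∀ x, 0 ≤ f x) {t : ℝ} (ht : 0 < t) :
    pr1 (fun x => t < f x) ≤ av1 f / t := by
  rw [le_div_iff₀ ht, mul_comm]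
  unfold pr1
  rw [← av1_const_mul]
  apply av1_mono
  intro x
  by_cases h : t < f x
  · simp only [h, if_true, mul_one]; exact h.le
  · simp only [h, if_false, mul_zero]; exact hf x

lemma pr1_cpl {H : Matrix (Fin n) (Fin n) ℝ} (hH : Hᵀ = H) {z : ℂ} (hz : 0 < z.im)
    (hd : 0 < d) (S : Finset (Fin n)) (p : Equiv.Perm (HE n d)) {ε : ℝ} (hε : 0 < ε) :
    pr1 (fun x => ε ^ 2 < cpl S (Res789.Res H z) p x) ≤ 2 * S.card / (n * z.im * ε ^ 2) := by
  refine (pr1_le_of_av1 _ (cpl_nonneg _ _ _) (by positivity)).trans (le_of_eq ?_)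
  rw [av1_cpl hH hz hd, div_div]

/-- squared size of the 2x2 block of `R` between two half-edges -/
noncomputable def cpl2 (R : Matrix (Fin n) (Fin n) ℂ) (p : Equiv.Perm (HE n d))
    (x y : HE n d) : ℝ :=
  (‖R x.1 y.1‖ ^ 2 + ‖R (p x).1 y.1‖ ^ 2) + (‖R x.1 (p y).1‖ ^ 2 + ‖R (p x).1 (p y).1‖ ^ 2)

lemma cpl2_nonneg (R : Matrix (Fin n) (Fin n) ℂ) (p : Equiv.Perm (HE n d)) (x y : HE n d) :
    0 ≤ cpl2 R p x y := by unfold cpl2; positivity

/-- scalar Ward identity -/
lemma sum_norm_sq {H : Matrix (Fin n) (Fin n) ℝ} (hH : Hᵀ = H) {z : ℂ} (hz : 0 < z.im)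
    (u : Fin n) : ∑ y, ‖Res789.Res H z u y‖ ^ 2 = (Res789.Res H z u u).im / z.im := by
  have hw := congrFun (congrFun (ward hH hz) u) u
  simp only [cx_apply, imM_apply, Matrix.smul_apply, Matrix.mul_apply, smul_eq_mul,
      Matrix.conjTranspose_apply] at hw
  have hre := congrArg Complex.re hw
  rw [Complex.ofReal_re, Complex.re_ofReal_mul, Complex.re_sum] at hre
  rw [hre, mul_comm, mul_div_assoc, div_self hz.ne', mul_one]
  refine Finset.sum_congr rfl fun y _ => ?_
  rw [← Complex.normSq_eq_norm_sq, Complex.normSq_apply]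
  simp

lemma av1_cpl2 {H : Matrix (Fin n) (Fin n) ℝ} (hH : Hᵀ = H) {z : ℂ} (hz : 0 < z.im)
    (hd : 0 < d) (p : Equiv.Perm (HE n d)) (x : HE n d) :
    av1 (cpl2 (Res789.Res H z) p x) =
      2 * ((Res789.Res H z x.1 x.1).im + (Res789.Res H z (p x).1 (p x).1).im) / (n * z.im) := by
  unfold av1
  have h1 : ∑ y, cpl2 (Res789.Res H z) p x y =
      2 * d * (((Res789.Res H z x.1 x.1).im + (Res789.Res H z (p x).1 (p x).1).im) / z.im) := by
    unfold cpl2
    rw [Finset.sum_add_distrib,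
      sum_fst (fun v => ‖Res789.Res H z x.1 v‖ ^ 2 + ‖Res789.Res H z (p x).1 v‖ ^ 2),
      sum_snd p (fun v => ‖Res789.Res H z x.1 v‖ ^ 2 + ‖Res789.Res H z (p x).1 v‖ ^ 2),
      Finset.sum_add_distrib, sum_norm_sq hH hz, sum_norm_sq hH hz]
    ring
  rw [h1, card_HE_real]
  have hd' : (d : ℝ) ≠ 0 := by exact_mod_cast hd.ne'
  rcases Nat.eq_zero_or_pos n with h0 | h0
  · subst h0
    simp
  · have : (n : ℝ) ≠ 0 := by exact_mod_cast h0.ne'
    field_simp

lemma pr1_cpl2 {H : Matrix (Fin n) (Fin n) ℝ} (hH : Hᵀ = H) {z : ℂ} (hz : 0 < z.im)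
    (hd : 0 < d) (p : Equiv.Perm (HE n d)) (x : HE n d) {ε M : ℝ} (hε : 0 < ε)
    (hM : (Res789.Res H z x.1 x.1).im + (Res789.Res H z (p x).1 (p x).1).im ≤ M) :
    pr1 (fun y => ε ^ 2 < cpl2 (Res789.Res H z) p x y) ≤ 2 * M / (n * z.im * ε ^ 2) := by
  refine (pr1_le_of_av1 _ (cpl2_nonneg _ _ _) (by positivity)).trans ?_
  rw [av1_cpl2 hH hz hd, div_div]
  apply div_le_div_of_nonneg_right _ (by positivity)
  linarith

/-! ### the revealed vertex set -/

variable {ι : Type*} [Fintype ι] [DecidableEq ι]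

/-- vertices revealed when the choices in `A` are revealed -/
def GA (S0 : Finset (Fin n)) (p : Equiv.Perm (HE n d)) (A : Finset ι) (e : ι → HE n d) :
    Finset (Fin n) := S0 ∪ A.biUnion fun i => {(e i).1, (p (e i)).1}

lemma GA_update (S0 : Finset (Fin n)) (p : Equiv.Perm (HE n d)) (A : Finset ι)
    (e : ι → HE n d) (i : ι) (x : HE n d) (hi : i ∉ A) :
    GA S0 p A (Function.update e i x) = GA S0 p A e := by
  unfold GA
  congr 1
  refine Finset.biUnion_congr rfl fun j hj => ?_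
  have : j ≠ i := fun h => hi (h ▸ hj)
  rw [Function.update_of_ne this]

lemma card_GA (S0 : Finset (Fin n)) (p : Equiv.Perm (HE n d)) (A : Finset ι)
    (e : ι → HE n d) : (GA S0 p A e).card ≤ S0.card + 2 * A.card := by
  unfold GA
  refine (Finset.card_union_le _ _).trans (Nat.add_le_add_left ?_ _)
  refine Finset.card_biUnion_le.trans ?_
  refine (Finset.sum_le_sum fun j _ => Finset.card_le_two).trans ?_
  rw [Finset.sum_const, smul_eq_mul, mul_comm]

lemma GA_empty (S0 : Finset (Fin n)) (p : Equiv.Perm (HE n d)) (e : ι → HE n d) :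
    GA S0 p (∅ : Finset ι) e = S0 := by
  unfold GA; simp

/-- the coupling predicate of (30.3) -/
def CpW (S0 : Finset (Fin n)) (R : Matrix (Fin n) (Fin n) ℂ) (p : Equiv.Perm (HE n d)) (ε : ℝ)
    (A : Finset ι) (e : ι → HE n d) (x : HE n d) : Prop := ε ^ 2 < cpl (GA S0 p A e) R p x

/-- the pair predicate of (30.3) -/
def PrW (R : Matrix (Fin n) (Fin n) ℂ) (p : Equiv.Perm (HE n d)) (ε : ℝ) (x y : HE n d) : Prop :=
  ε ^ 2 < cpl2 R p x y

/-- **the hypotheses of the revealing lemma hold**, for every `H`, every root block `S0`.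
`M` bounds the imaginary parts of the diagonal entries at the good half-edges. -/
theorem hyp_ward {H : Matrix (Fin n) (Fin n) ℝ} (hH : Hᵀ = H) {z : ℂ} (hz : 0 < z.im)
    (hd : 0 < d) (p : Equiv.Perm (HE n d)) (S0 : Finset (Fin n)) (m : ℕ) {ε M : ℝ} (hε : 0 < ε)
    (Bad : HE n d → Prop)
    (hM : ∀ x, ¬ Bad x →
      (Res789.Res H z x.1 x.1).im + (Res789.Res H z (p x).1 (p x).1).im ≤ M) {q : ℝ}
    (hq0 : 0 ≤ q) (hq1 : 2 * (S0.card + 2 * m : ℝ) / (n * z.im * ε ^ 2) ≤ q)
    (hq2 : 2 * M / (n * z.im * ε ^ 2) ≤ q) :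
    Hyp (ι := ι) Bad (CpW S0 (Res789.Res H z) p ε) (PrW (Res789.Res H z) p ε) m (pr1 Bad) q where
  p0 := pr1_nonneg _
  q0 := hq0
  bad := le_rfl
  loc := by
    intro A e i x hi
    unfold CpW
    rw [GA_update S0 p A e i x hi]
  cp := by
    intro A e hA
    refine le_trans ?_ hq1
    refine (pr1_cpl hH hz hd _ p hε).trans ?_
    apply div_le_div_of_nonneg_right _ (by positivity)
    have h1 : ((GA S0 p A e).card : ℝ) ≤ S0.card + 2 * m := by
      have h2 := card_GA S0 p A e
      have h3 : (GA S0 p A e).card ≤ S0.card + 2 * m := by omega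
      exact_mod_cast h3
    linarith
  pair := by
    intro x hx
    exact (pr1_cpl2 hH hz hd p x hε (hM x hx)).trans hq2

/-- expected squared couplings with the root block -/
lemma av_sum_cpl [Nonempty (HE n d)] {H : Matrix (Fin n) (Fin n) ℝ} (hH : Hᵀ = H) {z : ℂ}
    (hz : 0 < z.im) (hd : 0 < d) (p : Equiv.Perm (HE n d)) (S : Finset (Fin n)) :
    av (fun e : ι → HE n d => ∑ i, cpl S (Res789.Res H z) p (e i)) =
      Fintype.card ι * (2 * S.card / (n * z.im)) := by
  rw [av_sum, Finset.sum_congr rfl fun i _ => av_coord i (cpl S (Res789.Res H z) p),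
    Finset.sum_const, av1_cpl hH hz hd, nsmul_eq_mul, Finset.card_univ]

/-- on an event not depending on coordinate `i`, the squared coupling of `e_i` with the revealed
block `G_A` (`i ∉ A`) has conditional expectation `≤ 2 (|S0| + 2|A|) / (n η)` -/
lemma av_mul_cpl [Nonempty (HE n d)] {H : Matrix (Fin n) (Fin n) ℝ} (hH : Hᵀ = H) {z : ℂ}
    (hz : 0 < z.im) (hd : 0 < d) (p : Equiv.Perm (HE n d)) (S0 : Finset (Fin n))
    (A : Finset ι) (i : ι) (hi : i ∉ A) (f : (ι → HE n d) → ℝ) (hf : ∀ e, 0 ≤ f e)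
    (hfi : ∀ e x, f (Function.update e i x) = f e) :
    av (fun e => f e * cpl (GA S0 p A e) (Res789.Res H z) p (e i)) ≤
      2 * (S0.card + 2 * A.card : ℝ) / (n * z.im) * av f := by
  refine av_mul_le i f _ _ hf hfi fun e => ?_
  have : (fun x => cpl (GA S0 p A (Function.update e i x)) (Res789.Res H z) p
      (Function.update e i x i)) = cpl (GA S0 p A e) (Res789.Res H z) p := by
    ext x
    rw [GA_update S0 p A e i x hi, Function.update_self]
  rw [this, av1_cpl hH hz hd]
  apply div_le_div_of_nonneg_right _ (by positivity)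
  have h2 := card_GA S0 p A e
  have h3 : ((GA S0 p A e).card : ℝ) ≤ S0.card + 2 * A.card := by exact_mod_cast h2
  linarith

/-- on the event that `j` fails, the expected sum of the squared couplings of the others with
`G_{j}` and the expected sum of any nonnegative one-site cost `c` of the others -/
lemma av_Wk_sum [Nonempty (HE n d)] {H : Matrix (Fin n) (Fin n) ℝ} (hH : Hᵀ = H) {z : ℂ}
    (hz : 0 < z.im) (hd : 0 < d) (p : Equiv.Perm (HE n d)) (S0 : Finset (Fin n))
    {Bad : HE n d → Prop} {ε : ℝ} {Pr : HE n d → HE n d → Prop} {m : ℕ} {pp q : ℝ}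
    (HY : Hyp (ι := ι) Bad (CpW S0 (Res789.Res H z) p ε) Pr m pp q) (j : ι)
    (c : HE n d → ℝ) (hc : ∀ x, 0 ≤ c x) :
    av (fun e : ι → HE n d => (by classical exact
        (if Wk Bad (CpW S0 (Res789.Res H z) p ε) ∅ e j then (1 : ℝ) else 0)) *
        ∑ i ∈ Finset.univ.erase j, (cpl (GA S0 p {j} e) (Res789.Res H z) p (e i) + c (e i))) ≤
      Fintype.card ι * ((2 * (S0.card + 2 : ℝ) / (n * z.im) + av1 c) * (pp + q)) := by
  classical
  set f : (ι → HE n d) → ℝ := fun e =>
    if Wk Bad (CpW S0 (Res789.Res H z) p ε) ∅ e j then (1 : ℝ) else 0 with hf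
  have hf0 : ∀ e, 0 ≤ f e := fun e => by rw [hf]; positivity
  have hfi : ∀ i, i ≠ j → ∀ e x, f (Function.update e i x) = f e := by
    intro i hij e x
    have : Wk Bad (CpW S0 (Res789.Res H z) p ε) ∅ (Function.update e i x) j ↔
        Wk Bad (CpW S0 (Res789.Res H z) p ε) ∅ e j := by
      unfold Wk
      rw [HY.loc ∅ e i x (by simp), Function.update_of_ne (Ne.symm hij)]
    simp only [hf, this]
  have hpr : av f ≤ pp + q := by
    have h1 := pr_Wk HY ∅ (by simp) j (by simp)
    exact le_trans (le_of_eq rfl) h1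
  have hav0 : 0 ≤ av f := av_nonneg hf0
  have hK : 0 ≤ 2 * (S0.card + 2 : ℝ) / (n * z.im) := by positivity
  have hc0 : 0 ≤ av1 c := av1_nonneg hc
  have h1 : (fun e : ι → HE n d => f e *
      ∑ i ∈ Finset.univ.erase j, (cpl (GA S0 p {j} e) (Res789.Res H z) p (e i) + c (e i))) =
      fun e => ∑ i ∈ Finset.univ.erase j,
        (f e * cpl (GA S0 p {j} e) (Res789.Res H z) p (e i) + f e * c (e i)) := by
    ext e
    rw [Finset.mul_sum]
    refine Finset.sum_congr rfl fun i _ => ?_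
    ring
  have h2 : av (fun e : ι → HE n d => f e *
      ∑ i ∈ Finset.univ.erase j, (cpl (GA S0 p {j} e) (Res789.Res H z) p (e i) + c (e i))) ≤
      ∑ i ∈ Finset.univ.erase j, (2 * (S0.card + 2 : ℝ) / (n * z.im) + av1 c) * (pp + q) := by
    rw [h1, av_sum]
    refine Finset.sum_le_sum fun i hi => ?_
    have hij : i ≠ j := Finset.ne_of_mem_erase hi
    have e1 := av_mul_cpl hH hz hd p S0 {j} i (by simpa using hij) f hf0 (hfi i hij)
    rw [Finset.card_singleton] at e1
    push_cast at e1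
    have e2 := av_mul_le i f (fun e => c (e i)) (av1 c) hf0 (hfi i hij) (fun e => by
      simp only [Function.update_self]; exact le_rfl)
    rw [av_add (fun e => f e * cpl (GA S0 p {j} e) (Res789.Res H z) p (e i))
      (fun e => f e * c (e i))]
    calc _ ≤ 2 * (S0.card + 2 * 1 : ℝ) / (n * z.im) * av f + av1 c * av f := add_le_add e1 e2
      _ = (2 * (S0.card + 2 : ℝ) / (n * z.im) + av1 c) * av f := by ring
      _ ≤ _ := mul_le_mul_of_nonneg_left hpr (by positivity)
  refine h2.trans ?_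
  rw [Finset.sum_const, nsmul_eq_mul]
  have hcard : ((Finset.univ.erase j : Finset ι).card : ℝ) ≤ Fintype.card ι := by
    exact_mod_cast (Finset.card_le_univ _)
  apply mul_le_mul_of_nonneg_right hcard
  have := HY.p0
  have := HY.q0
  positivity

end Crest.Agent.R166.Rev811
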