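import Crest.Agent.R166.DecP2_789
import Crest.Agent.R166.Dec2_598
import Crest.Agent.R166.Rev2_811
import Crest.Agent.R166.ScaleV_355

/-!
# R166, section 30.3, port side, part 3 (helper789)

* `dat_np` : the ball-boundary resampling `SwP470.np` gives a `Dat`;
* couplings: `cS = cpl (GA S0 p A b)`, `cP = cpl2` (811's quantities);
* `dec_port` : the deterministic decoupling theorem for port-numbered graphs;
* `root_corner` : the root corner is the cavity block `B0 p' s ω z h0`.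
-/

set_option autoImplicit false
set_option linter.unusedSectionVars false

open Matrix Finset

namespace Crest.Agent.R166.DecP789

open Crest.Agent.R166 Crest.Agent.R166.Stab269
open Crest.Agent.R166.Dec598 (edgeM lift Idx sS eJ pert uI treeOut leafXi cT cS cP)
open Crest.Agent.R166.SwP470 (BVal bv TL BI NZ NZw wd rt tau ab np)
open Crest.Agent.R166.Rev811 (GA cpl cpl2 gS)

variable {n d : ℕ}

/-! ## the resampling move as `Dat` -/

section np

variable [NeZero d] {p : Equiv.Perm (HE n d)} {h0 : HE n d} {L : ℕ} {b : BI d L → HE n d}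

theorem isMove_np (hL : 1 ≤ L) (hp : IsPort p) (h : BVal L p h0 b) :
    IsMove p (np p h0 b) (tau p h0) b := by
  have hV := h.val hL hp
  have hS := SwP470.isSP_of_isPort hp
  have hpab : ∀ i : BI d L, p (ab p h0 i) = tau p h0 i := fun i => hp.inv _
  refine ⟨?_, ?_, ?_, ?_, ?_, ?_, ?_, ?_, ?_⟩
  · intro i
    have := hV.cj_t hS i
    rw [hpab] at this
    exact this
  · intro i
    exact hV.cj_a i
  · intro x h1 h2 h3 h4
    have ho : SwP470.Out p (ab p h0) b x := by
      refine ⟨fun i => (h2 i).symm, fun i => (h3 i).symm, fun i => ?_, fun i => (h4 i).symm⟩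
      rw [hpab]; exact (h1 i).symm
    exact ho.cj hS
  · intro i j hij
    apply hV.aa
    change (p (tau p h0 i)).1 = (p (tau p h0 j)).1
    rw [hij]
  · intro i j hij
    exact hV.uu i j (by rw [hij])
  · intro i j hij
    have := hV.ta i j
    rw [hpab] at this
    exact this (by rw [hij]; rfl)
  · intro i j hij
    have := hV.tu i j
    rw [hpab] at this
    exact this (by rw [hij])
  · intro i j hij
    have := hV.tw i j
    rw [hpab] at this
    exact this (by rw [hij])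
  · intro i j hij
    exact hV.uw i j (by rw [hij])

variable {T : Type*} [Fintype T] [DecidableEq T] {φ : T → Fin n}

/-- the boundary of the interior ball -/
theorem isBdry_of_range (hL : 1 ≤ L) (hp : IsPort p) (htl : TL L p h0)
    (hφ : Function.Injective φ)
    (hr : ∀ x, x ∈ Set.range φ ↔ ∃ s w, NZw w ∧ w.length < L ∧ bv p h0 s w = x) :
    IsBdry p φ (tau p h0 : BI d L → HE n d) := by
  refine ⟨hφ, ?_, ?_, ?_, ?_⟩
  · intro i j hij
    have h1 : bv p h0 i.1 (wd i.2) = bv p h0 j.1 (wd j.2) := by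
      change (p (tau p h0 i)).1 = (p (tau p h0 j)).1
      rw [hij]
    have := htl _ _ _ _ (SwP470.wd_NZw i.2) (SwP470.wd_NZw j.2) (SwP470.wd_length i.2).le
      (SwP470.wd_length j.2).le h1
    exact Prod.ext this.1 (SwP470.wd_inj this.2)
  · intro i hi
    obtain ⟨s, w, hw, hl, he⟩ := (hr _).1 hi
    have h1 : bv p h0 s w = bv p h0 i.1 (wd i.2) := he
    have := htl _ _ _ _ hw (SwP470.wd_NZw i.2) hl.le (SwP470.wd_length i.2).le h1
    have h4 := congrArg List.length this.2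
    rw [SwP470.wd_length] at h4
    omega
  · intro h hh hnh
    obtain ⟨s, w, hw, hl, he⟩ := (hr _).1 hh
    -- `h` is a port of the vertex of `w`
    have hk : h = rot (h.2 - (p (desc p (rt p h0 s) w)).2) (p (desc p (rt p h0 s) w)) := by
      have he' : (p (desc p (rt p h0 s) w)).1 = h.1 := he
      refine Prod.ext he'.symm ?_
      simp [rot]
    set k := h.2 - (p (desc p (rt p h0 s) w)).2 with hkdef
    by_cases hk0 : k = 0
    · exfalso
      apply hnh
      rw [hk0, rot_zero] at hk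
      rw [hk, hp.inv]
      obtain ⟨s', w', hw', hl', he'⟩ := SwP470.desc_fst (p := p) (h0 := h0) hp s w hw
      exact (hr _).2 ⟨s', w', hw', by omega, he'.symm⟩
    · have hd1 : h = desc p (rt p h0 s) (w ++ [k]) := by
        rw [SwP470.desc_snoc]; exact hk
      have hNZ : NZw (w ++ [k]) := by
        intro x hx
        rw [List.mem_append] at hx
        rcases hx with hx | hx
        · exact hw x hx
        · rw [List.mem_singleton] at hx
          rw [hx]; exact hk0
      rcases Nat.lt_or_ge (w.length + 1) L with h1 | h1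
      · exfalso
        apply hnh
        rw [hd1]
        exact (hr _).2 ⟨s, w ++ [k], hNZ, by simpa using h1, rfl⟩
      · obtain ⟨f, hf⟩ := SwP470.exists_wd hNZ (L := L) (by simp; omega)
        exact ⟨(s, f), by rw [hd1, ← hf]; rfl⟩
  · intro i
    obtain ⟨w', h1, h2, h3⟩ := SwP470.tau_fst (p := p) (h0 := h0) hL i
    exact (hr _).2 ⟨i.1, w', h1, by omega, h3.symm⟩

/-- **the ball-boundary resampling as a `Dat`** -/
theorem dat_np (hL : 1 ≤ L) (hp : IsPort p) (h : BVal L p h0 b)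
    (hφ : Function.Injective φ)
    (hr : ∀ x, x ∈ Set.range φ ↔ ∃ s w, NZw w ∧ w.length < L ∧ bv p h0 s w = x)
    {t : BI d L → T} (ht : ∀ i, φ (t i) = (tau p h0 i).1) :
    Dat p (np p h0 b) φ t (tau p h0) b := by
  have hV := h.val hL hp
  refine ⟨hp, h.isPort hL hp, isMove_np hL hp h, isBdry_of_range hL hp h.tl hφ hr, ht,
    hV.aa, hV.uu, hV.ww, hV.au, hV.aw, hV.uw, ?_, ?_⟩
  · intro x j
    obtain ⟨s, w, hw, hl, he⟩ := (hr (φ x)).1 ⟨x, rfl⟩
    rw [← he]
    exact h.bu s w j hw hl.le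
  · intro x j
    obtain ⟨s, w, hw, hl, he⟩ := (hr (φ x)).1 ⟨x, rfl⟩
    rw [← he]
    exact h.bw s w j hw hl.le

end np

/-! ## couplings -/

section coupling

variable {V : Type*} [Fintype V] [DecidableEq V]
variable {P Q : Type*} [Fintype P] [DecidableEq P] [Fintype Q] [DecidableEq Q]

lemma qf_equiv (e : P ≃ Q) (Y : Matrix Q Q ℝ) (u : Q → ℂ) :
    Res789.qf (Y.submatrix e e) (u ∘ e) = Res789.qf Y u := by
  rw [Res789.qf_expand, Res789.qf_expand, ← Equiv.sum_comp e]
  refine Finset.sum_congr rfl fun i _ => ?_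
  rw [← Equiv.sum_comp e]
  rfl

lemma gam_equiv (e : P ≃ Q) (g : Q → V) (R : Matrix V V ℂ) (y : V) :
    Res789.gam (g ∘ e) R y = Res789.gam g R y := by
  unfold Res789.gam
  congr 1
  have h1 : (Res789.imM (R.submatrix (g ∘ e) (g ∘ e))) =
      (Res789.imM (R.submatrix g g)).submatrix e e := rfl
  rw [h1, Matrix.inv_submatrix_equiv, ← qf_equiv e]
  rfl

/-- the coupling only depends on the range -/
lemma gam_image {f : P → V} (hf : Function.Injective f) (S : Finset V)
    (hS : ∀ x, x ∈ S ↔ ∃ q, f q = x) (R : Matrix V V ℂ) (y : V) :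
    Res789.gam f R y = Res789.gam (fun x : S => x.1) R y := by
  let e : P ≃ S := Equiv.ofBijective (fun q => ⟨f q, (hS _).2 ⟨q, rfl⟩⟩) (by
    constructor
    · intro a b hab
      exact hf (congrArg Subtype.val hab)
    · rintro ⟨x, hx⟩
      obtain ⟨q, hq⟩ := (hS x).1 hx
      exact ⟨q, Subtype.ext hq⟩)
  rw [← gam_equiv e]
  rfl

lemma gam_sq {f : P → V} (hf : Function.Injective f) {R : Matrix V V ℂ} (hR : Res789.Sieg R)
    (y : V) : Res789.gam f R y ^ 2 =
      Res598.qf (Res598.imM (R.submatrix f f))⁻¹ (fun q => R (f q) y) := by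
  rw [Res789.qf_eq598, Res789.gam]
  exact Real.sq_sqrt (Res789.qf_inv_nonneg (hR.submatrix hf).posDef _)

end coupling

section main

variable {T ι : Type*} [Fintype T] [DecidableEq T] [Fintype ι] [DecidableEq ι]
variable {p p' : Equiv.Perm (HE n d)} {φ : T → Fin n} {t : ι → T} {τ b : ι → HE n d}

/-- the vertices of the tree and the outer boundary vertices `a_i` -/
def S0 (p : Equiv.Perm (HE n d)) (φ : T → Fin n) (τ : ι → HE n d) : Finset (Fin n) :=
  Finset.univ.image φ ∪ Finset.univ.image (fun i => (p (τ i)).1)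

lemma card_S0_le (p : Equiv.Perm (HE n d)) (φ : T → Fin n) (τ : ι → HE n d) :
    (S0 p φ τ).card ≤ Fintype.card T + Fintype.card ι := by
  unfold S0
  refine (Finset.card_union_le _ _).trans (add_le_add ?_ ?_)
  · exact Finset.card_image_le
  · exact Finset.card_image_le

/-- the block of `R` on the whole system -/
noncomputable def Zs (p : Equiv.Perm (HE n d)) (φ : T → Fin n) (τ b : ι → HE n d)
    (A : Finset ι) (s : ℝ) (ω : Fin n → ℝ) (z : ℂ) :
    Matrix (Idx T (Bt A) (Jt A)) (Idx T (Bt A) (Jt A)) ℂ :=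
  (Res789.Res (Hm (graphOf p) s ω) z).submatrix (Phi p φ τ b A) (Phi p φ τ b A)

lemma siegel_Zs (hD : Dat p p' φ t τ b) (A : Finset ι) (s : ℝ) (ω : Fin n → ℝ) {z : ℂ}
    (hz : 0 < z.im) : Res598.Siegel (Zs p φ τ b A s ω z) :=
  ((Res789.Res_sieg (Hm_symm _ s ω) hz).submatrix (hD.Phi_injective A)).siegel

lemma mem_GA (A : Finset ι) (x : Fin n) :
    x ∈ GA (S0 p φ τ) p A b ↔ ∃ q, (Phi p φ τ b A ∘ sS) q = x := by
  unfold GA S0
  simp only [Finset.mem_union, Finset.mem_image, Finset.mem_univ, true_and, Finset.mem_biUnion,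
    Finset.mem_insert, Finset.mem_singleton]
  constructor
  · rintro ((⟨a, rfl⟩ | ⟨i, rfl⟩) | ⟨i, hi, rfl | rfl⟩)
    · exact ⟨Sum.inl a, rfl⟩
    · exact ⟨Sum.inr (Sum.inl i), rfl⟩
    · exact ⟨Sum.inr (Sum.inr (0, ⟨i, hi⟩)), rfl⟩
    · exact ⟨Sum.inr (Sum.inr (1, ⟨i, hi⟩)), rfl⟩
  · rintro ⟨a | i | ⟨x, i⟩, rfl⟩
    · exact Or.inl (Or.inl ⟨a, rfl⟩)
    · exact Or.inl (Or.inr ⟨i, rfl⟩)
    · refine Or.inr ⟨i.1, i.2, ?_⟩
      fin_cases x
      · exact Or.inl rfl
      · exact Or.inr rfl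

/-- **the coupling of 598 is the coupling of 811** -/
theorem cS_eq (hD : Dat p p' φ t τ b) (A : Finset ι) (s : ℝ) (ω : Fin n → ℝ) {z : ℂ}
    (hz : 0 < z.im) (j : Jt A) :
    cS (Zs p φ τ b A s ω z) j =
      cpl (GA (S0 p φ τ) p A b) (Res789.Res (Hm (graphOf p) s ω) z) p (b j.1) := by
  unfold cS cpl gS
  rw [← gam_image (PhiS_injective hD A) _ (mem_GA A), ← gam_image (PhiS_injective hD A) _ (mem_GA A),
    gam_sq (PhiS_injective hD A) (Res789.Res_sieg (Hm_symm _ s ω) hz),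
    gam_sq (PhiS_injective hD A) (Res789.Res_sieg (Hm_symm _ s ω) hz), Fin.sum_univ_two]
  rfl

theorem cP_eq (A : Finset ι) (s : ℝ) (ω : Fin n → ℝ) (z : ℂ) (j k : Jt A) :
    cP (Zs p φ τ b A s ω z) j k =
      cpl2 (Res789.Res (Hm (graphOf p) s ω) z) p (b j.1) (b k.1) := by
  unfold cP cpl2
  rw [Fin.sum_univ_two, Fin.sum_univ_two, Fin.sum_univ_two]
  have e : ∀ x y : Fin 2, Zs p φ τ b A s ω z (eJ j x) (eJ k y) =
      Res789.Res (Hm (graphOf p) s ω) z (endp p (b j.1) x) (endp p (b k.1) y) := fun _ _ => rfl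
  simp only [e, endp_zero, endp_one]
  ring

/-- total coupling in the terms of 811 -/
noncomputable def cE (S : Finset (Fin n)) (R : Matrix (Fin n) (Fin n) ℂ)
    (p : Equiv.Perm (HE n d)) (b : ι → HE n d) (A : Finset ι) (c : ℝ) : ℝ :=
  2 * (∑ j ∈ Aᶜ, Real.sqrt (cpl (GA S p A b) R p (b j))) / Real.sqrt c +
    (∑ jk ∈ (Aᶜ).offDiag, Real.sqrt (cpl2 R p (b jk.1) (b jk.2))) / c

lemma sum_Jt (A : Finset ι) (F : ι → ℝ) : ∑ j : Jt A, F j.1 = ∑ j ∈ Aᶜ, F j := by
  have h1 := sum_split A F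
  have h2 := Finset.sum_add_sum_compl A F
  have h3 : ∑ a : At A, F a.1 = ∑ a ∈ A, F a := Finset.sum_coe_sort A F
  linarith

theorem cT_eq (hD : Dat p p' φ t τ b) (A : Finset ι) (s : ℝ) (ω : Fin n → ℝ) {z : ℂ}
    (hz : 0 < z.im) (c : ℝ) :
    cT c (Zs p φ τ b A s ω z) =
      cE (S0 p φ τ) (Res789.Res (Hm (graphOf p) s ω) z) p b A c := by
  unfold cT cE
  congr 2
  · congr 1
    rw [← sum_Jt A (fun j => Real.sqrt (cpl (GA (S0 p φ τ) p A b)
      (Res789.Res (Hm (graphOf p) s ω) z) p (b j)))]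
    refine Finset.sum_congr rfl fun j _ => ?_
    rw [cS_eq hD A s ω hz]
  · have h1 : ∀ j k : Jt A, (if j = k then (0 : ℝ) else Real.sqrt (cP (Zs p φ τ b A s ω z) j k)) =
        (if j.1 = k.1 then 0 else Real.sqrt (cpl2 (Res789.Res (Hm (graphOf p) s ω) z) p
          (b j.1) (b k.1))) := by
      intro j k
      rw [cP_eq]
      by_cases h : j = k
      · rw [if_pos h, if_pos (congrArg Subtype.val h)]
      · rw [if_neg h, if_neg (fun h' => h (Subtype.ext h'))]
    simp only [h1]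
    have h2 : ∀ j : Jt A, ∑ k : Jt A, (if j.1 = k.1 then (0 : ℝ) else
        Real.sqrt (cpl2 (Res789.Res (Hm (graphOf p) s ω) z) p (b j.1) (b k.1))) =
        ∑ k ∈ Aᶜ, (if j.1 = k then (0 : ℝ) else
        Real.sqrt (cpl2 (Res789.Res (Hm (graphOf p) s ω) z) p (b j.1) (b k))) := fun j =>
      sum_Jt A (fun k => if j.1 = k then (0 : ℝ) else
        Real.sqrt (cpl2 (Res789.Res (Hm (graphOf p) s ω) z) p (b j.1) (b k)))
    simp only [h2]
    rw [sum_Jt A (fun j => ∑ k ∈ Aᶜ, (if j = k then (0 : ℝ) else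
        Real.sqrt (cpl2 (Res789.Res (Hm (graphOf p) s ω) z) p (b j) (b k)))),
      ← Finset.sum_product']
    rw [← Finset.diag_union_offDiag, Finset.sum_union (Finset.disjoint_diag_offDiag _)]
    have h3 : ∑ x ∈ (Aᶜ).diag, (if x.1 = x.2 then (0 : ℝ) else
        Real.sqrt (cpl2 (Res789.Res (Hm (graphOf p) s ω) z) p (b x.1) (b x.2))) = 0 := by
      apply Finset.sum_eq_zero
      intro x hx
      rw [if_pos (Finset.mem_diag.1 hx).2]
    rw [h3, zero_add]
    refine Finset.sum_congr rfl fun x hx => ?_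
    rw [if_neg (Finset.mem_offDiag.1 hx).2.2]

/-- blocks of the good edges -/
lemma Zs_eJ (A : Finset ι) (s : ℝ) (ω : Fin n → ℝ) (z : ℂ) (j : Jt A) :
    (Zs p φ τ b A s ω z).submatrix (eJ j) (eJ j) = BE p s ω z (b j.1) := by
  ext x y
  fin_cases x <;> fin_cases y <;> rfl

/-- 598's cavity block is 269's -/
lemma B0_bridge (hp : IsPort p) (s : ℝ) (ω : Fin n → ℝ) {z : ℂ} (hz : 0 < z.im) (h : HE n d) :
    Dec598.B0 (BE p s ω z h) = B0 p s ω z h := by
  have h1 : Res598.Siegel (BE p s ω z h) := (sieg_BE hp s ω hz h).siegel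
  unfold Dec598.B0 B0 cavB
  have h2 := Res598.mob_inv h1 Dec598.neg_Wm_symm
  have h3 : Res598.cx (-Dec598.Wm) = -W2 := by
    ext i j
    fin_cases i <;> fin_cases j <;> simp [Dec598.Wm, W2]
  rw [h3, ← sub_eq_add_neg] at h2
  rw [← h2, Matrix.nonsing_inv_nonsing_inv _
    (Res598.siegel_mob h1 Dec598.neg_Wm_symm).isUnit]

lemma uA_injective (A : Finset ι) : Function.Injective (uA A) := by
  intro a a' h
  have := Sum.inr_injective h
  exact (Prod.mk.inj this).2

/-- **30.3, deterministic decoupling for port-numbered graphs** -/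
theorem dec_port (hD : Dat p p' φ t τ b) (A : Finset ι) (s : ℝ) (ω : Fin n → ℝ)
    {UT : Matrix T T ℝ} (hU : UTᵀ = UT) {z : ℂ} (hz : 0 < z.im) {c : ℝ} (hc : 0 < c)
    (hB : ∀ j, j ∉ A → ∀ y : Fin 2 → ℂ,
      c * ∑ i, ‖y i‖ ^ 2 ≤ Res598.qf (Res598.imM (BE p s ω z (b j))) y)
    (hlt : cE (S0 p φ τ) (Res789.Res (Hm (graphOf p) s ω) z) p b A c < 1) :
    Res598.Near (cE (S0 p φ τ) (Res789.Res (Hm (graphOf p) s ω) z) p b A c /
        (1 - cE (S0 p φ τ) (Res789.Res (Hm (graphOf p) s ω) z) p b A c))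
      (treeOut (Res789.Res (hT p φ s ω UT) z) (tt t A)
        (leafXi (SgB p φ t τ b A s ω UT z) (fun j : Jt A => B0 p s ω z (b j.1)) (aJ A) (uA A)))
      ((Res789.Res (Hm (graphOf p') s ω + lift (Dec598.emb φ) UT) z).submatrix φ φ) := by
  have hZ := siegel_Zs hD A s ω hz
  have hRT : Res598.Siegel (Res789.Res (hT p φ s ω UT) z) :=
    (Res789.Res_sieg (hT_symm p φ s ω hU) hz).siegel
  have hS1 : (Zs p φ τ b A s ω z).submatrix sS sS =
      (Res789.Res (Hm (graphOf p) s ω) z).submatrix (Phi p φ τ b A ∘ sS) (Phi p φ τ b A ∘ sS) :=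
    rfl
  have hd := hdec hD A s ω hU hz
  rw [← hS1] at hd
  have hB' : ∀ (j : Jt A) (y : Fin 2 → ℂ), c * ∑ i, ‖y i‖ ^ 2 ≤
      Res598.qf (Res598.imM ((Zs p φ τ b A s ω z).submatrix (eJ j) (eJ j))) y := by
    intro j y
    rw [Zs_eJ]
    exact hB j.1 j.2 y
  have key := Dec598.dec_main hZ (U1_symm t A hU) hRT (siegel_SgB hD A s ω hU hz) hd (aJ A)
    (uA_injective A) (tt t A) hc hB' (by rw [cT_eq hD A s ω hz]; exact hlt)
  rw [cT_eq hD A s ω hz] at key
  have e1 : (fun j : Jt A => Dec598.B0 ((Zs p φ τ b A s ω z).submatrix (eJ j) (eJ j))) =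
      fun j : Jt A => B0 p s ω z (b j.1) := by
    funext j
    rw [Zs_eJ, B0_bridge hD.port s ω hz]
  rw [e1] at key
  have e2 : (Res598.mob (pert (U1 t A UT) (aJ A) (uA A) (tt t A)) (Zs p φ τ b A s ω z)).submatrix
      Sum.inl Sum.inl =
      (Res789.Res (Hm (graphOf p') s ω + lift (Dec598.emb φ) UT) z).submatrix φ φ := by
    rw [hpert hD A UT s ω]
    have h1 := Dec598.Res_lift (Hm_symm (graphOf p) s ω) (hD.Phi_injective A)
      (Dec598.pert_symm (U1_symm t A hU) (aJ A) (uA A) (tt t A)) hz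
    have h2 := congrArg (fun M : Matrix (Idx T (Bt A) (Jt A)) (Idx T (Bt A) (Jt A)) ℂ =>
      M.submatrix Sum.inl Sum.inl) h1
    exact h2.symm
  rw [e2] at key
  exact key

/-! ## the root corner -/

/-- minus the root edge -/
def UR (r0 r1 : T) : Matrix T T ℝ := -edgeM (fun _ : Unit => r0) (fun _ => r1)

lemma UR_symm (r0 r1 : T) : (UR r0 r1)ᵀ = UR r0 r1 := by
  unfold UR
  rw [Matrix.transpose_neg, Dec598.edgeM_symm]

/-- **the root corner is the cavity block** -/
theorem root_corner (hp' : IsPort p') (s : ℝ) (ω : Fin n → ℝ) {z : ℂ} (hz : 0 < z.im)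
    {h0 : HE n d} {r0 r1 : T} (h0r : φ r0 = h0.1) (h1r : φ r1 = (p' h0).1) :
    ((Res789.Res (Hm (graphOf p') s ω + lift (Dec598.emb φ) (UR r0 r1)) z).submatrix φ φ).submatrix
      ![r0, r1] ![r0, r1] = B0 p' s ω z h0 := by
  rw [ScaleV355.B0_eq hp' s ω hz]
  have e1 : Hm (graphOf p') s ω + lift (Dec598.emb φ) (UR r0 r1) = ScaleV355.H0m p' s ω h0 := by
    unfold ScaleV355.H0m UR
    congr 1
    rw [Dec598.lift_neg, Dec598.lift_edgeM]
    have h1 : Res789.emb ![h0.1, (p' h0).1] (-ScaleV355.Wr) =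
        - (E1 h0.1 (p' h0).1 + E1 (p' h0).1 h0.1) := by
      have hne : h0.1 ≠ (p' h0).1 := (hp'.noloop h0).symm
      ext x y
      rw [Res789.emb_apply]
      simp only [Fin.sum_univ_two, ScaleV355.Wr, Matrix.neg_apply, Matrix.add_apply, E1]
      by_cases a1 : x = h0.1 <;> by_cases a2 : y = (p' h0).1 <;> by_cases a3 : x = (p' h0).1 <;>
        by_cases a4 : y = h0.1 <;>
        simp [a1, a2, a3, a4, hne, hne.symm, eq_comm]
    rw [h1, edgeM_sum]
    simp only [Finset.univ_unique, Finset.sum_singleton, Function.comp_apply, h0r, h1r]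
  rw [e1]
  ext x y
  have hφ : ∀ x : Fin 2, φ (![r0, r1] x) = ![h0.1, (p' h0).1] x := by
    intro x
    fin_cases x
    · exact h0r
    · exact h1r
  simp only [Matrix.submatrix_apply, hφ]

end main

end Crest.Agent.R166.DecP789
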