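import Crest.Agent.R166.Res3_789

/-!
# R166, section 10: resolvent toolkit, part 4 (helper789)

Vector form of (10.2), invariant couplings `Coup`, (10.7) cavity comparison, and (10.3) Schur
complement formulas.
-/

set_option autoImplicit false
set_option linter.unusedSectionVars false

open Matrix Complex

namespace Crest.Agent.R166.Res789

variable {V : Type*} [Fintype V] [DecidableEq V]
variable {P : Type*} [Fintype P] [DecidableEq P]
variable {Q : Type*} [Fintype Q] [DecidableEq Q]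

open Res598 (nq Near)

/-! ## vector form of (10.2) -/

/-- `‖(Im R_S)^{-1/2} R_{S·} x‖` -/
noncomputable def gamv (f : P → V) (R : Matrix V V ℂ) (x : V → ℂ) : ℝ :=
  nq (imM (R.submatrix f f))⁻¹ (R.submatrix f id *ᵥ x)

lemma gamv_nonneg (f : P → V) (R : Matrix V V ℂ) (x : V → ℂ) : 0 ≤ gamv f R x :=
  Res598.nq_nonneg _ _

lemma gamv_single (f : P → V) (R : Matrix V V ℂ) (y : V) :
    gamv f R (Pi.single y 1) = gam f R y := by
  unfold gamv gam
  rw [nq_eq598]
  congr 2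
  rw [Matrix.mulVec_single_one]
  rfl

theorem Res_emb_form {H : Matrix V V ℝ} (hH : Hᵀ = H) {z : ℂ} (hz : 0 < z.im) {f : P → V}
    (hf : Function.Injective f) {K : Matrix P P ℝ} (hK : Kᵀ = K) (x y : V → ℂ) :
    x ⬝ᵥ ((Res (H + emb f K) z - Res H z) *ᵥ y) =
      -(((Res H z).submatrix f id *ᵥ x) ⬝ᵥ
        (Qm ((Res H z).submatrix f f) K *ᵥ ((Res H z).submatrix f id *ᵥ y))) := by
  rw [Res_emb hH hz hf hK, sub_sub_cancel_left, Matrix.neg_mulVec, dotProduct_neg,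
    ← Matrix.mulVec_mulVec, ← Matrix.mulVec_mulVec, Matrix.dotProduct_mulVec x,
    ← Matrix.mulVec_transpose, Matrix.transpose_submatrix, Res_transpose hH hz]

/-- **(10.2)**, vector form -/
theorem norm_Res_emb_form_le {H : Matrix V V ℝ} (hH : Hᵀ = H) {z : ℂ} (hz : 0 < z.im)
    {f : P → V} (hf : Function.Injective f) {K : Matrix P P ℝ} (hK : Kᵀ = K) (x y : V → ℂ) :
    ‖x ⬝ᵥ ((Res (H + emb f K) z - Res H z) *ᵥ y)‖ ≤
      gamv f (Res H z) x * gamv f (Res H z) y := by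
  have hsZ : Sieg ((Res H z).submatrix f f) := (Res_sieg hH hz).submatrix hf
  rw [Res_emb_form hH hz hf hK, norm_neg]
  unfold gamv
  rw [nq_eq598, nq_eq598]
  exact hsZ.Qm_bound hK _ _

/-! ## invariant couplings -/

/-- the index sets `f`, `g` are `κ`-coupled:
`‖(Im R_f)^{-1/2} R_{fg} (Im R_g)^{-1/2}‖ ≤ κ` -/
def Coup (κ : ℝ) (f : P → V) (g : Q → V) (R : Matrix V V ℂ) : Prop :=
  ∀ (x : P → ℂ) (y : Q → ℂ), ‖x ⬝ᵥ (R.submatrix f g *ᵥ y)‖ ≤
    κ * nq (imM (R.submatrix f f)) x * nq (imM (R.submatrix g g)) y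

lemma Coup.symm {κ : ℝ} {f : P → V} {g : Q → V} {R : Matrix V V ℂ} (hR : Rᵀ = R)
    (h : Coup κ f g R) : Coup κ g f R := by
  intro x y
  have h1 := h y x
  have e : x ⬝ᵥ (R.submatrix g f *ᵥ y) = y ⬝ᵥ (R.submatrix f g *ᵥ x) := by
    rw [Matrix.dotProduct_mulVec x, ← Matrix.mulVec_transpose, Matrix.transpose_submatrix, hR,
      dotProduct_comm]
  rw [e]
  refine h1.trans (le_of_eq ?_)
  ring

lemma Coup.mono {κ κ' : ℝ} {f : P → V} {g : Q → V} {R : Matrix V V ℂ} (h : Coup κ f g R)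
    (hk : κ ≤ κ') : Coup κ' f g R := fun x y =>
  (h x y).trans (mul_le_mul_of_nonneg_right (mul_le_mul_of_nonneg_right hk
    (Res598.nq_nonneg _ _)) (Res598.nq_nonneg _ _))

lemma Coup.nq_inv_le {κ : ℝ} (hκ : 0 ≤ κ) {f : P → V} {g : Q → V} {R : Matrix V V ℂ}
    (hR : Sieg (R.submatrix f f)) (h : Coup κ f g R) (y : Q → ℂ) :
    nq (imM (R.submatrix f f))⁻¹ (R.submatrix f g *ᵥ y) ≤ κ * nq (imM (R.submatrix g g)) y := by
  apply Res598.nq_inv_le_of hR.posDef (mul_nonneg hκ (Res598.nq_nonneg _ _))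
  intro a
  refine (h a y).trans (le_of_eq ?_)
  ring

lemma coup_of_nq_inv_le {κ : ℝ} {f : P → V} {g : Q → V} {R : Matrix V V ℂ}
    (hR : Sieg (R.submatrix f f))
    (h : ∀ y, nq (imM (R.submatrix f f))⁻¹ (R.submatrix f g *ᵥ y) ≤
      κ * nq (imM (R.submatrix g g)) y) : Coup κ f g R := by
  intro x y
  have h1 := Res598.norm_dot_le (Y := imM (R.submatrix f f)) hR.posDef (R.submatrix f g *ᵥ y) x
  rw [dotProduct_comm]
  refine h1.trans ?_
  refine (mul_le_mul_of_nonneg_right (h y) (Res598.nq_nonneg _ _)).trans (le_of_eq ?_)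
  ring

lemma submatrix_id_ext0 (f : P → V) (g : Q → V) (R : Matrix V V ℂ) (y : Q → ℂ) :
    R.submatrix f id *ᵥ ext0 g y = R.submatrix f g *ᵥ y := by
  ext p
  have : (R.submatrix f id *ᵥ ext0 g y) p = ext0 g y ⬝ᵥ (fun w => R (f p) w) := by
    rw [mulVec, dotProduct_comm]; rfl
  rw [this, sum_ext0]
  simp only [mulVec, dotProduct, Matrix.submatrix_apply]
  exact Finset.sum_congr rfl fun q _ => mul_comm _ _

lemma gamv_ext0 (f : P → V) (g : Q → V) (R : Matrix V V ℂ) (y : Q → ℂ) :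
    gamv f R (ext0 g y) = nq (imM (R.submatrix f f))⁻¹ (R.submatrix f g *ᵥ y) := by
  rw [gamv, submatrix_id_ext0]

/-- coupling from column bounds: if `gam f R (g q) ≤ c` for all `q` and
`Im R_g ≥ δ`, then the coupling is at most `c √(|Q|/δ)`. -/
theorem coup_of_gam {f : P → V} {g : Q → V} {R : Matrix V V ℂ} (hR : Sieg (R.submatrix f f))
    {c δ : ℝ} (hc : 0 ≤ c) (hδ : 0 < δ) (h1 : ∑ q, gam f R (g q) ^ 2 ≤ c ^ 2)
    (h2 : ∀ y, δ * ∑ q, ‖y q‖ ^ 2 ≤ qf (imM (R.submatrix g g)) y) :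
    Coup (c / Real.sqrt δ) f g R := by
  apply coup_of_nq_inv_le hR
  intro y
  -- triangle inequality over the columns
  have hcol : R.submatrix f g *ᵥ y = ∑ q, y q • (fun p => R (f p) (g q)) := by
    ext p
    simp only [mulVec, dotProduct, Matrix.submatrix_apply, Finset.sum_apply, Pi.smul_apply,
      smul_eq_mul]
    exact Finset.sum_congr rfl fun q _ => mul_comm _ _
  have htri : ∀ s : Finset Q, nq (imM (R.submatrix f f))⁻¹
      (∑ q ∈ s, y q • (fun p => R (f p) (g q))) ≤ ∑ q ∈ s, ‖y q‖ * gam f R (g q) := by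
    intro s
    induction s using Finset.induction_on with
    | empty => simp [Res598.nq_zero]
    | insert a s ha ih =>
      rw [Finset.sum_insert ha, Finset.sum_insert ha]
      refine (Res598.nq_add_le hR.posDef.inv _ _).trans ?_
      refine add_le_add ?_ ih
      rw [Res598.nq_smul hR.posDef.inv]
      apply le_of_eq
      rw [nq_eq598]
      rfl
  rw [hcol]
  refine (htri Finset.univ).trans ?_
  have hcs := Finset.sum_mul_sq_le_sq_mul_sq Finset.univ (fun q => ‖y q‖)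
    (fun q => gam f R (g q))
  have hn : 0 ≤ ∑ q, ‖y q‖ * gam f R (g q) :=
    Finset.sum_nonneg fun q _ => mul_nonneg (norm_nonneg _) (gam_nonneg _ _ _)
  rw [nq_eq598]
  have hqy : 0 ≤ qf (imM (R.submatrix g g)) y := by
    refine le_trans ?_ (h2 y)
    exact mul_nonneg hδ.le (Finset.sum_nonneg fun _ _ => sq_nonneg _)
  have h3 : (∑ q, ‖y q‖ * gam f R (g q)) ^ 2 ≤ (qf (imM (R.submatrix g g)) y / δ) * c ^ 2 := by
    refine hcs.trans ?_
    have h4 : ∑ q, ‖y q‖ ^ 2 ≤ qf (imM (R.submatrix g g)) y / δ := by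
      rw [le_div_iff₀ hδ, mul_comm]; exact h2 y
    have h5 : 0 ≤ ∑ q, gam f R (g q) ^ 2 := Finset.sum_nonneg fun _ _ => sq_nonneg _
    exact mul_le_mul h4 h1 h5 (div_nonneg hqy hδ.le)
  have h6 : c / Real.sqrt δ * Real.sqrt (qf (imM (R.submatrix g g)) y) =
      Real.sqrt ((qf (imM (R.submatrix g g)) y / δ) * c ^ 2) := by
    rw [Real.sqrt_mul (div_nonneg hqy hδ.le), Real.sqrt_sq hc, Real.sqrt_div hqy]
    ring
  rw [h6]
  exact Real.le_sqrt_of_sq_le h3

/-! ## (10.7) -/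

/-- **(10.7)** a perturbation on `f` changes the block of `g` by the square of the coupling -/
theorem near_of_coup {H : Matrix V V ℝ} (hH : Hᵀ = H) {z : ℂ} (hz : 0 < z.im)
    {f : P → V} (hf : Function.Injective f) {K : Matrix P P ℝ} (hK : Kᵀ = K)
    {g : Q → V} {κ : ℝ} (hκ : 0 ≤ κ) (h : Coup κ f g (Res H z)) :
    Near (κ ^ 2) ((Res H z).submatrix g g) ((Res (H + emb f K) z).submatrix g g) := by
  have hH' : (H + emb f K)ᵀ = H + emb f K := by rw [Matrix.transpose_add, hH, emb_symm f hK]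
  have hsZ : Sieg ((Res H z).submatrix f f) := (Res_sieg hH hz).submatrix hf
  refine ⟨by rw [Matrix.transpose_submatrix, Res_transpose hH' hz], fun x y => ?_⟩
  have h1 := norm_Res_emb_form_le hH hz hf hK (ext0 g x) (ext0 g y)
  rw [ext0_dot, gamv_ext0, gamv_ext0] at h1
  have e : (Res (H + emb f K) z - Res H z).submatrix g g =
      (Res (H + emb f K) z).submatrix g g - (Res H z).submatrix g g := rfl
  rw [e] at h1
  refine h1.trans ?_
  have h2 := h.nq_inv_le hκ hsZ x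
  have h3 := h.nq_inv_le hκ hsZ y
  refine (mul_le_mul h2 h3 (Res598.nq_nonneg _ _)
    (mul_nonneg hκ (Res598.nq_nonneg _ _))).trans (le_of_eq ?_)
  rw [imM_eq598]
  ring

/-- the perturbed resolvent applied to a vector: `R' x = R (x - ext0 f (Q R_{f·} x))` -/
lemma Res_emb_mulVec {H : Matrix V V ℝ} (hH : Hᵀ = H) {z : ℂ} (hz : 0 < z.im)
    {f : P → V} (hf : Function.Injective f) {K : Matrix P P ℝ} (hK : Kᵀ = K) (x : V → ℂ) :
    Res (H + emb f K) z *ᵥ x = Res H z *ᵥ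
      (x - ext0 f (Qm ((Res H z).submatrix f f) K *ᵥ ((Res H z).submatrix f id *ᵥ x))) := by
  rw [Res_emb hH hz hf hK, Matrix.sub_mulVec, Matrix.mulVec_sub]
  congr 1
  rw [← Matrix.mulVec_mulVec, ← Matrix.mulVec_mulVec]
  set w := Qm ((Res H z).submatrix f f) K *ᵥ ((Res H z).submatrix f id *ᵥ x)
  ext y
  have : (Res H z *ᵥ ext0 f w) y = ext0 f w ⬝ᵥ (fun q => Res H z y q) := by
    rw [mulVec, dotProduct_comm]
  rw [this, sum_ext0]
  simp only [mulVec, dotProduct, Matrix.submatrix_apply, id]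
  exact Finset.sum_congr rfl fun q _ => mul_comm _ _

/-- `‖(Im R')^{1/2} x‖ ≤ ‖(Im R)^{1/2} x‖ + gamv f R x` for all vectors `x` -/
theorem nq_Res_emb_le_gamv {H : Matrix V V ℝ} (hH : Hᵀ = H) {z : ℂ} (hz : 0 < z.im)
    {f : P → V} (hf : Function.Injective f) {K : Matrix P P ℝ} (hK : Kᵀ = K) (x : V → ℂ) :
    nq (imM (Res (H + emb f K) z)) x ≤ nq (imM (Res H z)) x + gamv f (Res H z) x := by
  have hH' : (H + emb f K)ᵀ = H + emb f K := by rw [Matrix.transpose_add, hH, emb_symm f hK]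
  have hsZ : Sieg ((Res H z).submatrix f f) := (Res_sieg hH hz).submatrix hf
  set w := Qm ((Res H z).submatrix f f) K *ᵥ ((Res H z).submatrix f id *ᵥ x) with hw
  have e1 : nq (imM (Res (H + emb f K) z)) x = nq (imM (Res H z)) (x - ext0 f w) := by
    rw [nq_eq598, nq_eq598, ← sum_norm_sq_Res hH' hz, ← sum_norm_sq_Res hH hz,
      Res_emb_mulVec hH hz hf hK]
  rw [e1, sub_eq_add_neg]
  refine (Res598.nq_add_le (Res_sieg hH hz).posDef _ _).trans ?_
  rw [Res598.nq_neg (Res_sieg hH hz).posDef]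
  refine add_le_add le_rfl ?_
  rw [nq_eq598, qf_ext0 _ hf, gamv, nq_eq598]
  exact Real.sqrt_le_sqrt (hsZ.qf_Qm_le hK _)

/-- cavity comparison: `Im R'_g ≤ (1+κ)² Im R_g` -/
theorem nq_Res_emb_le {H : Matrix V V ℝ} (hH : Hᵀ = H) {z : ℂ} (hz : 0 < z.im)
    {f : P → V} (hf : Function.Injective f) {K : Matrix P P ℝ} (hK : Kᵀ = K)
    {g : Q → V} (hg : Function.Injective g) {κ : ℝ} (hκ : 0 ≤ κ) (h : Coup κ f g (Res H z))
    (x : Q → ℂ) :
    nq (imM ((Res (H + emb f K) z).submatrix g g)) x ≤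
      (1 + κ) * nq (imM ((Res H z).submatrix g g)) x := by
  have hsZ : Sieg ((Res H z).submatrix f f) := (Res_sieg hH hz).submatrix hf
  have h1 := nq_Res_emb_le_gamv hH hz hf hK (ext0 g x)
  rw [nq_eq598, nq_eq598, qf_ext0 _ hg, qf_ext0 _ hg, gamv_ext0] at h1
  rw [imM_submatrix, imM_submatrix, nq_eq598, nq_eq598]
  have h2 := h.nq_inv_le hκ hsZ x
  rw [imM_submatrix _ g g, nq_eq598 ((imM (Res H z)).submatrix g g)] at h2
  linarith

/-- `R'_{fg} = (1 + R_f K)^{-1} R_{fg}` -/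
lemma Res_emb_cross {H : Matrix V V ℝ} (hH : Hᵀ = H) {z : ℂ} (hz : 0 < z.im)
    {f : P → V} (hf : Function.Injective f) {K : Matrix P P ℝ} (hK : Kᵀ = K) (g : Q → V) :
    (Res (H + emb f K) z).submatrix f g =
      (1 + (Res H z).submatrix f f * cx K)⁻¹ * (Res H z).submatrix f g := by
  have hsZ : Sieg ((Res H z).submatrix f f) := (Res_sieg hH hz).submatrix hf
  rw [Res_emb hH hz hf hK]
  set Z := (Res H z).submatrix f f with hZ
  have h1 : (Res H z - (Res H z).submatrix id f * Qm Z K * (Res H z).submatrix f id).submatrix f g =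
      (Res H z).submatrix f g - Z * Qm Z K * (Res H z).submatrix f g := by
    ext p q
    simp only [Matrix.sub_apply, Matrix.mul_apply, Matrix.submatrix_apply, id, hZ]
  rw [h1]
  have h2 : Z * Qm Z K = 1 - (1 + Z * cx K)⁻¹ := by
    unfold Qm
    have : (1 + Z * cx K) * (1 + Z * cx K)⁻¹ = 1 :=
      Matrix.mul_nonsing_inv _ (hsZ.isUnit_one_add hK)
    rw [add_mul, one_mul, mul_assoc] at this
    exact eq_sub_of_add_eq' this
  rw [h2, Matrix.sub_mul, Matrix.one_mul, sub_sub_cancel]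

/-- the coupling after the perturbation, with the old imaginary part on `g` -/
theorem coup_Res_emb_aux {H : Matrix V V ℝ} (hH : Hᵀ = H) {z : ℂ} (hz : 0 < z.im)
    {f : P → V} (hf : Function.Injective f) {K : Matrix P P ℝ} (hK : Kᵀ = K)
    {g : Q → V} {κ : ℝ} (h : Coup κ f g (Res H z)) (x : P → ℂ) (y : Q → ℂ) :
    ‖x ⬝ᵥ ((Res (H + emb f K) z).submatrix f g *ᵥ y)‖ ≤
      κ * nq (imM ((Res (H + emb f K) z).submatrix f f)) x *
        nq (imM ((Res H z).submatrix g g)) y := by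
  have hsZ : Sieg ((Res H z).submatrix f f) := (Res_sieg hH hz).submatrix hf
  rw [Res_emb_cross hH hz hf hK g, Res_emb_block hH hz hf hK, ← mob_eq_Pm hsZ hK]
  set Z := (Res H z).submatrix f f with hZ
  have e1 : x ⬝ᵥ (((1 + Z * cx K)⁻¹ * (Res H z).submatrix f g) *ᵥ y) =
      ((1 + cx K * Z)⁻¹ *ᵥ x) ⬝ᵥ ((Res H z).submatrix f g *ᵥ y) := by
    rw [← Matrix.mulVec_mulVec, Matrix.dotProduct_mulVec x, ← Matrix.mulVec_transpose,
      Matrix.transpose_nonsing_inv, Matrix.transpose_add, Matrix.transpose_one,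
      Matrix.transpose_mul, hsZ.symm, ← cx_transpose, hK]
  have e2 : nq (imM (Res598.mob K Z)) x = nq (imM Z) ((1 + cx K * Z)⁻¹ *ᵥ x) :=
    Res598.nq_mob hsZ.siegel hK x
  rw [e1, e2]
  exact h _ _

/-- couplings in `H` and in the perturbed system are comparable -/
theorem coup_Res_emb {H : Matrix V V ℝ} (hH : Hᵀ = H) {z : ℂ} (hz : 0 < z.im)
    {f : P → V} (hf : Function.Injective f) {K : Matrix P P ℝ} (hK : Kᵀ = K)
    {g : Q → V} (hg : Function.Injective g) {κ : ℝ} (hκ : 0 ≤ κ) (hκ1 : κ < 1)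
    (h : Coup κ f g (Res H z)) :
    Coup (κ / Real.sqrt (1 - κ ^ 2)) f g (Res (H + emb f K) z) := by
  intro x y
  have h1 := coup_Res_emb_aux hH hz hf hK h x y
  have hsg : Sieg ((Res H z).submatrix g g) := (Res_sieg hH hz).submatrix hg
  have h2 := near_of_coup hH hz hf hK hκ h
  have h3 := h2.qf_ge hsg.siegel y
  rw [qf_eq598, qf_eq598] at h3
  have hpos : 0 < 1 - κ ^ 2 := by nlinarith
  have hs : 0 < Real.sqrt (1 - κ ^ 2) := Real.sqrt_pos.2 hpos
  have h4 : Real.sqrt (1 - κ ^ 2) * nq (imM ((Res H z).submatrix g g)) y ≤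
      nq (imM ((Res (H + emb f K) z).submatrix g g)) y := by
    rw [nq_eq598, nq_eq598, ← Real.sqrt_mul hpos.le]
    exact Real.sqrt_le_sqrt h3
  have h5 : nq (imM ((Res H z).submatrix g g)) y ≤
      nq (imM ((Res (H + emb f K) z).submatrix g g)) y / Real.sqrt (1 - κ ^ 2) := by
    rw [le_div_iff₀ hs, mul_comm]; exact h4
  refine h1.trans ?_
  refine (mul_le_mul_of_nonneg_left h5 (mul_nonneg hκ (Res598.nq_nonneg _ _))).trans
    (le_of_eq ?_)
  ring

lemma emb_neg (f : P → V) (K : Matrix P P ℝ) : emb f (-K) = - emb f K := by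
  unfold emb
  simp

lemma add_emb_neg (H : Matrix V V ℝ) (f : P → V) (K : Matrix P P ℝ) :
    (H + emb f K) + emb f (-K) = H := by
  rw [emb_neg]; abel

/-- converse of `coup_Res_emb` -/
theorem coup_of_Res_emb {H : Matrix V V ℝ} (hH : Hᵀ = H) {z : ℂ} (hz : 0 < z.im)
    {f : P → V} (hf : Function.Injective f) {K : Matrix P P ℝ} (hK : Kᵀ = K)
    {g : Q → V} (hg : Function.Injective g) {κ : ℝ} (hκ : 0 ≤ κ) (hκ1 : κ < 1)
    (h : Coup κ f g (Res (H + emb f K) z)) :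
    Coup (κ / Real.sqrt (1 - κ ^ 2)) f g (Res H z) := by
  have hH' : (H + emb f K)ᵀ = H + emb f K := by rw [Matrix.transpose_add, hH, emb_symm f hK]
  have hK' : (-K)ᵀ = -K := by rw [Matrix.transpose_neg, hK]
  have := coup_Res_emb hH' hz hf hK' hg hκ hκ1 h
  rwa [add_emb_neg] at this

/-! ## (10.3) Schur complement -/

section schur

variable {S T : Type*} [Fintype S] [DecidableEq S] [Fintype T] [DecidableEq T]

lemma fromBlocks_symm {A : Matrix S S ℝ} {B : Matrix S T ℝ} {D : Matrix T T ℝ} (hA : Aᵀ = A)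
    (hD : Dᵀ = D) : (fromBlocks A B Bᵀ D)ᵀ = fromBlocks A B Bᵀ D := by
  rw [Matrix.fromBlocks_transpose, hA, hD, Matrix.transpose_transpose]

lemma cx_fromBlocks (A : Matrix S S ℝ) (B : Matrix S T ℝ) (C : Matrix T S ℝ) (D : Matrix T T ℝ) :
    cx (fromBlocks A B C D) = fromBlocks (cx A) (cx B) (cx C) (cx D) := by
  unfold cx; rw [Matrix.fromBlocks_map]

lemma toBlocks₁₁_eq (R : Matrix (S ⊕ T) (S ⊕ T) ℂ) : R.toBlocks₁₁ = R.submatrix Sum.inl Sum.inl :=
  rfl

/-- the four block equations `(H - z) R = 1` and `R (H - z) = 1` -/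
lemma schur_eqs {A : Matrix S S ℝ} {B : Matrix S T ℝ} {D : Matrix T T ℝ} (hA : Aᵀ = A)
    (hD : Dᵀ = D) {z : ℂ} (hz : 0 < z.im) :
    let R := Res (fromBlocks A B Bᵀ D) z
    ((cx A - z • 1) * R.toBlocks₁₁ + cx B * R.toBlocks₂₁ = 1) ∧
    ((cx A - z • 1) * R.toBlocks₁₂ + cx B * R.toBlocks₂₂ = 0) ∧
    (cx Bᵀ * R.toBlocks₁₁ + (cx D - z • 1) * R.toBlocks₂₁ = 0) ∧
    (cx Bᵀ * R.toBlocks₁₂ + (cx D - z • 1) * R.toBlocks₂₂ = 1) := by
  intro R
  have h := sub_mul_Res (fromBlocks_symm (B := B) hA hD) hz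
  change (cx (fromBlocks A B Bᵀ D) - z • 1) * R = 1 at h
  have e1 : cx (fromBlocks A B Bᵀ D) - z • (1 : Matrix (S ⊕ T) (S ⊕ T) ℂ) =
      fromBlocks (cx A - z • 1) (cx B) (cx Bᵀ) (cx D - z • 1) := by
    rw [cx_fromBlocks, ← Matrix.fromBlocks_one, Matrix.fromBlocks_smul, sub_eq_add_neg,
      Matrix.fromBlocks_neg, Matrix.fromBlocks_add]
    simp [sub_eq_add_neg]
  rw [e1, ← Matrix.fromBlocks_toBlocks R, Matrix.fromBlocks_multiply, ← Matrix.fromBlocks_one,
    Matrix.fromBlocks_inj] at h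
  obtain ⟨h1, h2, h3, h4⟩ := h
  exact ⟨h1, h2, h3, h4⟩

/-- `R_{TS} = - R^{(S)} H_{TS} R_{S}` -/
theorem schur₂₁ {A : Matrix S S ℝ} {B : Matrix S T ℝ} {D : Matrix T T ℝ} (hA : Aᵀ = A)
    (hD : Dᵀ = D) {z : ℂ} (hz : 0 < z.im) :
    (Res (fromBlocks A B Bᵀ D) z).toBlocks₂₁ =
      -(Res D z * cx Bᵀ * (Res (fromBlocks A B Bᵀ D) z).toBlocks₁₁) := by
  obtain ⟨_, _, h3, _⟩ := schur_eqs (B := B) hA hD hz
  have h := congrArg (fun M => Res D z * M) h3
  simp only [Matrix.mul_add, Matrix.mul_zero, ← Matrix.mul_assoc, Res_mul_sub hD hz,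
    Matrix.one_mul] at h
  exact eq_neg_of_add_eq_zero_right h

/-- `R_{TT} = R^{(S)} - R^{(S)} H_{TS} R_{ST}` -/
theorem schur₂₂' {A : Matrix S S ℝ} {B : Matrix S T ℝ} {D : Matrix T T ℝ} (hA : Aᵀ = A)
    (hD : Dᵀ = D) {z : ℂ} (hz : 0 < z.im) :
    (Res (fromBlocks A B Bᵀ D) z).toBlocks₂₂ =
      Res D z - Res D z * cx Bᵀ * (Res (fromBlocks A B Bᵀ D) z).toBlocks₁₂ := by
  obtain ⟨_, _, _, h4⟩ := schur_eqs (B := B) hA hD hz
  have h := congrArg (fun M => Res D z * M) h4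
  simp only [Matrix.mul_add, Matrix.mul_one, ← Matrix.mul_assoc, Res_mul_sub hD hz,
    Matrix.one_mul] at h
  exact eq_sub_of_add_eq' h

/-- `R_S = (H_S - z - H_{ST} R^{(S)} H_{TS})⁻¹` -/
theorem schur₁₁_inv {A : Matrix S S ℝ} {B : Matrix S T ℝ} {D : Matrix T T ℝ} (hA : Aᵀ = A)
    (hD : Dᵀ = D) {z : ℂ} (hz : 0 < z.im) :
    ((Res (fromBlocks A B Bᵀ D) z).toBlocks₁₁)⁻¹ =
      cx A - z • 1 - cx B * Res D z * cx Bᵀ := by
  obtain ⟨h1, _, _, _⟩ := schur_eqs (B := B) hA hD hz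
  apply Matrix.inv_eq_left_inv
  rw [schur₂₁ hA hD hz, Matrix.mul_neg, ← sub_eq_add_neg] at h1
  rw [Matrix.sub_mul]
  simp only [Matrix.mul_assoc] at h1 ⊢
  exact h1

theorem schur₁₁ {A : Matrix S S ℝ} {B : Matrix S T ℝ} {D : Matrix T T ℝ} (hA : Aᵀ = A)
    (hD : Dᵀ = D) {z : ℂ} (hz : 0 < z.im) :
    (Res (fromBlocks A B Bᵀ D) z).toBlocks₁₁ =
      (cx A - z • 1 - cx B * Res D z * cx Bᵀ)⁻¹ := by
  have hs : Sieg ((Res (fromBlocks A B Bᵀ D) z).toBlocks₁₁) := by
    rw [toBlocks₁₁_eq]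
    exact (Res_sieg (fromBlocks_symm hA hD) hz).submatrix Sum.inl_injective
  rw [← schur₁₁_inv hA hD hz, Matrix.nonsing_inv_nonsing_inv _ hs.isUnit_det]

/-- `R^{(S)} = R_{TT} - R_{TS} R_S⁻¹ R_{ST}` -/
theorem schur_minor {A : Matrix S S ℝ} {B : Matrix S T ℝ} {D : Matrix T T ℝ} (hA : Aᵀ = A)
    (hD : Dᵀ = D) {z : ℂ} (hz : 0 < z.im) :
    Res D z = (Res (fromBlocks A B Bᵀ D) z).toBlocks₂₂ -
      (Res (fromBlocks A B Bᵀ D) z).toBlocks₂₁ *
        ((Res (fromBlocks A B Bᵀ D) z).toBlocks₁₁)⁻¹ *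
        (Res (fromBlocks A B Bᵀ D) z).toBlocks₁₂ := by
  have hs : Sieg ((Res (fromBlocks A B Bᵀ D) z).toBlocks₁₁) := by
    rw [toBlocks₁₁_eq]
    exact (Res_sieg (fromBlocks_symm hA hD) hz).submatrix Sum.inl_injective
  rw [schur₂₂' hA hD hz, schur₂₁ hA hD hz]
  set R := Res (fromBlocks A B Bᵀ D) z
  have h1 : -(Res D z * cx Bᵀ * R.toBlocks₁₁) * (R.toBlocks₁₁)⁻¹ * R.toBlocks₁₂ =
      -(Res D z * cx Bᵀ * R.toBlocks₁₂) := by
    rw [Matrix.neg_mul, Matrix.neg_mul, Matrix.mul_assoc _ (R.toBlocks₁₁), hs.mul_inv,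
      Matrix.mul_one]
  rw [h1]
  abel

end schur

/-! ## reindexing, general vertex sets -/

/-- reindexing of the resolvent -/
theorem Res_submatrix_equiv {V' : Type*} [Fintype V'] [DecidableEq V'] (H : Matrix V V ℝ)
    (z : ℂ) (e : V' ≃ V) : Res (H.submatrix e e) z = (Res H z).submatrix e e := by
  unfold Res
  rw [← Matrix.inv_submatrix_equiv]
  congr 1
  rw [cx_submatrix]
  ext i j
  simp only [Matrix.sub_apply, Matrix.submatrix_apply, Matrix.smul_apply, Matrix.one_apply,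
    EmbeddingLike.apply_eq_iff_eq]

section subtypes

variable (p : V → Prop) [DecidablePred p]

/-- restriction of a matrix to the complement of `{p}` -/
def rst {R : Type*} (H : Matrix V V R) : Matrix {x // ¬ p x} {x // ¬ p x} R :=
  H.submatrix Subtype.val Subtype.val

/-- restriction to `{p}` -/
def rst' {R : Type*} (H : Matrix V V R) : Matrix {x // p x} {x // p x} R :=
  H.submatrix Subtype.val Subtype.val

lemma submatrix_sumCompl {H : Matrix V V ℝ} (hH : Hᵀ = H) :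
    H.submatrix (Equiv.sumCompl p) (Equiv.sumCompl p) =
      fromBlocks (rst' p H) (H.submatrix Subtype.val Subtype.val)
        ((H.submatrix (Subtype.val : {x // p x} → V) (Subtype.val : {x // ¬ p x} → V))ᵀ)
        (rst p H) := by
  ext i j
  rcases i with i | i <;> rcases j with j | j
  · rfl
  · rfl
  · have := congrFun (congrFun hH i.1) j.1
    simp only [Matrix.transpose_apply] at this
    simp [← this]
  · rfl

/-- removing the vertices `{p}`: `R^{(p)}_{xy} = R_{xy} - R_{x p} (R_p)⁻¹ R_{p y}` -/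
theorem Res_rst {H : Matrix V V ℝ} (hH : Hᵀ = H) {z : ℂ} (hz : 0 < z.im) :
    Res (rst p H) z = rst p (Res H z) -
      (Res H z).submatrix (Subtype.val : {x // ¬ p x} → V) (Subtype.val : {x // p x} → V) *
        (rst' p (Res H z))⁻¹ *
        (Res H z).submatrix (Subtype.val : {x // p x} → V) (Subtype.val : {x // ¬ p x} → V) := by
  have hA : (rst' p H)ᵀ = rst' p H := by unfold rst'; rw [Matrix.transpose_submatrix, hH]
  have hD : (rst p H)ᵀ = rst p H := by unfold rst; rw [Matrix.transpose_submatrix, hH]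
  have h := schur_minor (B := H.submatrix (Subtype.val : {x // p x} → V)
    (Subtype.val : {x // ¬ p x} → V)) hA hD hz
  rw [← submatrix_sumCompl p hH, Res_submatrix_equiv] at h
  exact h

/-- the inverse of the block on `{p}` -/
theorem Res_rst'_inv {H : Matrix V V ℝ} (hH : Hᵀ = H) {z : ℂ} (hz : 0 < z.im) :
    (rst' p (Res H z))⁻¹ = cx (rst' p H) - z • 1 -
      cx (H.submatrix (Subtype.val : {x // p x} → V) (Subtype.val : {x // ¬ p x} → V)) *
        Res (rst p H) z *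
      cx (H.submatrix (Subtype.val : {x // ¬ p x} → V) (Subtype.val : {x // p x} → V)) := by
  have hA : (rst' p H)ᵀ = rst' p H := by unfold rst'; rw [Matrix.transpose_submatrix, hH]
  have hD : (rst p H)ᵀ = rst p H := by unfold rst; rw [Matrix.transpose_submatrix, hH]
  have h := schur₁₁_inv (B := H.submatrix (Subtype.val : {x // p x} → V)
    (Subtype.val : {x // ¬ p x} → V)) hA hD hz
  rw [← submatrix_sumCompl p hH, Res_submatrix_equiv, Matrix.transpose_submatrix, hH] at h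
  exact h

/-- a decoupled matrix has a decoupled resolvent -/
theorem Res_decoupled {H : Matrix V V ℝ} (hH : Hᵀ = H) {z : ℂ} (hz : 0 < z.im)
    (h0 : ∀ x y, p x → ¬ p y → H x y = 0) :
    (∀ x y, p x → ¬ p y → Res H z x y = 0) ∧ rst' p (Res H z) = Res (rst' p H) z ∧
      rst p (Res H z) = Res (rst p H) z := by
  have hA : (rst' p H)ᵀ = rst' p H := by unfold rst'; rw [Matrix.transpose_submatrix, hH]
  have hD : (rst p H)ᵀ = rst p H := by unfold rst; rw [Matrix.transpose_submatrix, hH]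
  have hB : H.submatrix (Subtype.val : {x // p x} → V) (Subtype.val : {x // ¬ p x} → V) = 0 := by
    ext x y
    exact h0 x.1 y.1 x.2 y.2
  have e0 := submatrix_sumCompl p hH
  have h11 := schur₁₁ (B := H.submatrix (Subtype.val : {x // p x} → V)
    (Subtype.val : {x // ¬ p x} → V)) hA hD hz
  have h21 := schur₂₁ (B := H.submatrix (Subtype.val : {x // p x} → V)
    (Subtype.val : {x // ¬ p x} → V)) hA hD hz
  have h22 := schur₂₂' (B := H.submatrix (Subtype.val : {x // p x} → V)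
    (Subtype.val : {x // ¬ p x} → V)) hA hD hz
  rw [← e0, Res_submatrix_equiv, hB] at h11 h21 h22
  simp only [Matrix.transpose_zero, cx_zero, Matrix.mul_zero, Matrix.zero_mul, sub_zero,
    neg_zero] at h11 h21 h22
  refine ⟨fun x y hx hy => ?_, h11, h22⟩
  have h := congrFun (congrFun h21 ⟨y, hy⟩) ⟨x, hx⟩
  have h' : Res H z y x = 0 := h
  have := congrFun (congrFun (Res_transpose hH hz) x) y
  rw [Matrix.transpose_apply] at this
  rw [← this]; exact h'

end subtypes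

end Crest.Agent.R166.Res789
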