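import Crest.Agent.R166.Ports_269
import Crest.Agent.R166.Stab_269
import Crest.Agent.R166.Res4_789
import Crest.Agent.R166.Mob2_598

/-!
# R166, section 30.3, port side, part 1 (helper789)

* `Hm (graphOf p) s ω` as a sum over half-edges;
* `IsMove p p' τ a b`: the simultaneous switching of the boundary half-edges `τ i` (`a i = p (τ i)`)
  with the chosen half-edges `b i`: new pairs `τ i — b i`, `a i — p (b i)`;
* `Hm_move`: the perturbation of the Hamiltonian.
-/

set_option autoImplicit false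
set_option linter.unusedSectionVars false

open Matrix Finset

namespace Crest.Agent.R166.DecP789

open Crest.Agent.R166 Crest.Agent.R166.Stab269

variable {n d : ℕ}

/-- the elementary matrix with entry 1 at `(x,y)` -/
def E1 (x y : Fin n) : Matrix (Fin n) (Fin n) ℝ :=
  fun a b => if a = x ∧ b = y then 1 else 0

/-- the symmetric matrix of the pair of half-edges `h`, `h'` -/
def EE (h h' : HE n d) : Matrix (Fin n) (Fin n) ℝ := E1 h.1 h'.1 + E1 h'.1 h.1

lemma EE_comm (h h' : HE n d) : EE h h' = EE h' h := by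
  unfold EE; rw [add_comm]

lemma E1_transpose (x y : Fin n) : (E1 x y)ᵀ = E1 y x := by
  ext a b
  simp only [Matrix.transpose_apply, E1]
  by_cases h1 : b = x <;> by_cases h2 : a = y <;> simp [h1, h2]

lemma EE_symm (h h' : HE n d) : (EE h h')ᵀ = EE h h' := by
  unfold EE
  rw [Matrix.transpose_add, E1_transpose, E1_transpose, add_comm]

/-- the adjacency matrix as a sum over half-edges -/
theorem adj_sum {p : Equiv.Perm (HE n d)} (hp : IsPort p) (x y : Fin n)
    [Decidable ((graphOf p).Adj x y)] :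
    (if (graphOf p).Adj x y then (1 : ℝ) else 0) = ∑ h : HE n d, E1 h.1 (p h).1 x y := by
  classical
  by_cases hxy : (graphOf p).Adj x y
  · rw [if_pos hxy]
    obtain ⟨i, hi⟩ := hp.adj_iff.1 hxy
    rw [Finset.sum_eq_single ((x, i) : HE n d)]
    · simp [E1, hi]
    · intro h _ hne
      unfold E1
      rw [if_neg]
      rintro ⟨h1, h2⟩
      apply hne
      apply hp.fst_inj h1.symm
      rw [← h2, hi]
    · simp
  · rw [if_neg hxy]
    symm
    apply Finset.sum_eq_zero
    intro h _
    unfold E1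
    rw [if_neg]
    rintro ⟨h1, h2⟩
    apply hxy
    rw [h1, h2]
    exact hp.adj_half h

theorem Hm_sum {p : Equiv.Perm (HE n d)} (hp : IsPort p) (s : ℝ) (ω : Fin n → ℝ) :
    Hm (graphOf p) s ω = (∑ h : HE n d, E1 h.1 (p h).1) + s • Matrix.diagonal ω := by
  classical
  ext x y
  rw [Hm_apply, adj_sum hp, Matrix.add_apply, Matrix.sum_apply, Matrix.smul_apply,
    Matrix.diagonal_apply, smul_eq_mul]

/-- **the simultaneous switching**: `τ i` boundary half-edges, `b i` chosen half-edges. -/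
structure IsMove {ι : Type*} (p p' : Equiv.Perm (HE n d)) (τ b : ι → HE n d) : Prop where
  /-- new partner of the boundary half-edge -/
  ntau : ∀ i, p' (τ i) = b i
  /-- new partner of the outer half-edge -/
  nout : ∀ i, p' (p (τ i)) = p (b i)
  /-- other half-edges are unchanged -/
  rest : ∀ h, (∀ i, h ≠ τ i) → (∀ i, h ≠ p (τ i)) → (∀ i, h ≠ b i) → (∀ i, h ≠ p (b i)) →
    p' h = p h
  /-- the `4 |ι|` half-edges are distinct -/
  tau_inj : Function.Injective τ
  b_inj : Function.Injective b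
  tau_out : ∀ i j, τ i ≠ p (τ j)
  tau_b : ∀ i j, τ i ≠ b j
  tau_c : ∀ i j, τ i ≠ p (b j)
  b_c : ∀ i j, b i ≠ p (b j)

namespace IsMove

variable {ι : Type*} [Fintype ι] [DecidableEq ι] {p p' : Equiv.Perm (HE n d)} {τ b : ι → HE n d}

/-- the four families of moved half-edges -/
def fam (p : Equiv.Perm (HE n d)) (τ b : ι → HE n d) : ι × Fin 4 → HE n d :=
  fun x => ![τ x.1, p (τ x.1), b x.1, p (b x.1)] x.2

theorem fam_injective (hp : IsPort p) (hm : IsMove p p' τ b) :
    Function.Injective (fam p τ b) := by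
  have h1 : ∀ i j, p (τ i) ≠ b j := fun i j h => by
    have := congrArg p h
    rw [hp.inv] at this
    exact hm.tau_c i j this
  have h2 : ∀ i j, p (τ i) ≠ p (b j) := fun i j h => hm.tau_b i j (p.injective h)
  rintro ⟨i, x⟩ ⟨j, y⟩ h
  unfold fam at h
  fin_cases x <;> fin_cases y <;> simp only [Fin.zero_eta, Fin.mk_one, Fin.reduceFinMk,
    Matrix.cons_val_zero, Matrix.cons_val_one, Matrix.cons_val] at h ⊢
  · rw [hm.tau_inj h]
  · exact absurd h (hm.tau_out i j)
  · exact absurd h (hm.tau_b i j)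
  · exact absurd h (hm.tau_c i j)
  · exact absurd h.symm (hm.tau_out j i)
  · rw [hm.tau_inj (p.injective h)]
  · exact absurd h (h1 i j)
  · exact absurd h (h2 i j)
  · exact absurd h.symm (hm.tau_b j i)
  · exact absurd h.symm (h1 j i)
  · rw [hm.b_inj h]
  · exact absurd h (hm.b_c i j)
  · exact absurd h.symm (hm.tau_c j i)
  · exact absurd h.symm (h2 j i)
  · exact absurd h.symm (hm.b_c j i)
  · rw [hm.b_inj (p.injective h)]

theorem eq_of_notMem (hm : IsMove p p' τ b) {h : HE n d}
    (hh : h ∉ Finset.univ.image (fam p τ b)) : p' h = p h := by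
  have key : ∀ x, h ≠ fam p τ b x := fun x hx =>
    hh (Finset.mem_image.2 ⟨x, Finset.mem_univ _, hx.symm⟩)
  exact hm.rest h (fun i => key (i, 0)) (fun i => key (i, 1)) (fun i => key (i, 2))
    (fun i => key (i, 3))

/-- `p'` on the outer chosen half-edges -/
theorem nb (hp' : IsPort p') (hm : IsMove p p' τ b) (i : ι) : p' (b i) = τ i := by
  rw [← hm.ntau, hp'.inv]

theorem nc (hp' : IsPort p') (hm : IsMove p p' τ b) (i : ι) : p' (p (b i)) = p (τ i) := by
  rw [← hm.nout, hp'.inv]

/-- **the perturbation of the Hamiltonian** -/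
theorem Hm_move (hp : IsPort p) (hp' : IsPort p') (hm : IsMove p p' τ b) (s : ℝ)
    (ω : Fin n → ℝ) :
    Hm (graphOf p') s ω = Hm (graphOf p) s ω +
      ∑ i, (EE (τ i) (b i) + EE (p (τ i)) (p (b i)) - EE (τ i) (p (τ i)) -
        EE (b i) (p (b i))) := by
  classical
  rw [Hm_sum hp, Hm_sum hp']
  have key : ∀ F : HE n d → HE n d → Matrix (Fin n) (Fin n) ℝ,
      ∑ h : HE n d, (F h (p' h) - F h (p h)) =
      ∑ i, ((F (τ i) (b i) - F (τ i) (p (τ i))) +
        (F (p (τ i)) (p (b i)) - F (p (τ i)) (τ i)) +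
        (F (b i) (τ i) - F (b i) (p (b i))) +
        (F (p (b i)) (p (τ i)) - F (p (b i)) (b i))) := by
    intro F
    rw [← Finset.sum_subset (Finset.subset_univ (Finset.univ.image (fam p τ b)))]
    · rw [Finset.sum_image (fun x _ y _ h => fam_injective hp hm h), Fintype.sum_prod_type]
      refine Finset.sum_congr rfl fun i _ => ?_
      rw [Fin.sum_univ_four]
      simp only [fam, Matrix.cons_val_zero, Matrix.cons_val_one, Matrix.cons_val]
      rw [hm.ntau, hm.nout, hm.nb hp', hm.nc hp', hp.inv, hp.inv]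
    · intro h _ hh
      rw [hm.eq_of_notMem hh, sub_self]
  have h1 := key (fun h h' => E1 h.1 h'.1)
  rw [Finset.sum_sub_distrib] at h1
  have h2 : (∑ h : HE n d, E1 h.1 (p' h).1) = (∑ h : HE n d, E1 h.1 (p h).1) +
      ∑ i, (EE (τ i) (b i) + EE (p (τ i)) (p (b i)) - EE (τ i) (p (τ i)) -
        EE (b i) (p (b i))) := by
    rw [← sub_eq_iff_eq_add'] 
    rw [h1]
    refine Finset.sum_congr rfl fun i _ => ?_
    unfold EE
    abel
  rw [h2]
  abel

end IsMove

/-! ## elementary matrices on an index type -/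

section elem

variable {κ : Type*} [Fintype κ] [DecidableEq κ]

/-- elementary matrix on an index type -/
def eg (i j : κ) : Matrix κ κ ℝ := fun a b => if a = i ∧ b = j then 1 else 0

/-- symmetric elementary matrix -/
def es (i j : κ) : Matrix κ κ ℝ := eg i j + eg j i

lemma eg_transpose (i j : κ) : (eg i j)ᵀ = eg j i := by
  ext a b
  simp only [Matrix.transpose_apply, eg]
  by_cases h1 : b = i <;> by_cases h2 : a = j <;> simp [h1, h2]

lemma es_symm (i j : κ) : (es i j)ᵀ = es i j := by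
  unfold es
  rw [Matrix.transpose_add, eg_transpose, eg_transpose, add_comm]

lemma lift_eg (Φ : κ → Fin n) (i j : κ) :
    Dec598.lift (Dec598.emb Φ) (eg i j) = E1 (Φ i) (Φ j) := by
  ext x y
  simp only [Dec598.lift, Matrix.mul_apply, Dec598.emb, Matrix.transpose_apply, eg, E1]
  rw [Finset.sum_eq_single j]
  · rw [Finset.sum_eq_single i]
    · by_cases h1 : x = Φ i <;> by_cases h2 : y = Φ j <;> simp [h1, h2]
    · intro b _ hb
      rw [if_neg (c := b = i ∧ j = j) (fun h => hb h.1)]
      simp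
    · simp
  · intro b _ hb
    rw [Finset.sum_eq_zero]
    · simp
    · intro a _
      rw [if_neg (c := a = i ∧ b = j) (fun h => hb h.2)]
      simp
  · simp

lemma lift_zero (P : Matrix (Fin n) κ ℝ) : Dec598.lift P 0 = 0 := by
  simp [Dec598.lift]

lemma lift_neg (P : Matrix (Fin n) κ ℝ) (V : Matrix κ κ ℝ) :
    Dec598.lift P (-V) = -Dec598.lift P V := by
  simp [Dec598.lift]

lemma lift_sub (P : Matrix (Fin n) κ ℝ) (V V' : Matrix κ κ ℝ) :
    Dec598.lift P (V - V') = Dec598.lift P V - Dec598.lift P V' := by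
  rw [sub_eq_add_neg, Dec598.lift_add, lift_neg, sub_eq_add_neg]

lemma lift_sum {ι : Type*} (s : Finset ι) (P : Matrix (Fin n) κ ℝ) (V : ι → Matrix κ κ ℝ) :
    Dec598.lift P (∑ i ∈ s, V i) = ∑ i ∈ s, Dec598.lift P (V i) := by
  classical
  induction s using Finset.induction_on with
  | empty => simp [lift_zero]
  | insert a s ha ih => rw [Finset.sum_insert ha, Finset.sum_insert ha, Dec598.lift_add, ih]

lemma lift_es (Φ : κ → Fin n) {i j : κ} {h h' : HE n d} (hi : Φ i = h.1) (hj : Φ j = h'.1) :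
    Dec598.lift (Dec598.emb Φ) (es i j) = EE h h' := by
  unfold es EE
  rw [Dec598.lift_add, lift_eg, lift_eg, hi, hj]

end elem

/-! ## the tree is disconnected after the removal of the boundary edges -/

section tree

variable {ι : Type*} [Fintype ι] [DecidableEq ι]
variable {T : Type*} [Fintype T] [DecidableEq T]

/-- the boundary half-edges `τ i` are exactly the half-edges leaving the set `φ(T)` -/
structure IsBdry (p : Equiv.Perm (HE n d)) (φ : T → Fin n) (τ : ι → HE n d) : Prop where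
  inj : Function.Injective φ
  tau_inj : Function.Injective τ
  out : ∀ i, (p (τ i)).1 ∉ Set.range φ
  closed : ∀ h : HE n d, h.1 ∈ Set.range φ → (p h).1 ∉ Set.range φ → ∃ i, h = τ i
  tau_mem : ∀ i, (τ i).1 ∈ Set.range φ

/-- the Hamiltonian with the boundary edges removed -/
noncomputable def Hcut (p : Equiv.Perm (HE n d)) (τ : ι → HE n d) (s : ℝ) (ω : Fin n → ℝ) :
    Matrix (Fin n) (Fin n) ℝ := Hm (graphOf p) s ω - ∑ i, EE (τ i) (p (τ i))

theorem Hcut_symm (p : Equiv.Perm (HE n d)) (τ : ι → HE n d) (s : ℝ) (ω : Fin n → ℝ) :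
    (Hcut p τ s ω)ᵀ = Hcut p τ s ω := by
  unfold Hcut
  rw [Matrix.transpose_sub, Hm_symm, Matrix.transpose_sum]
  simp only [EE_symm]

theorem Hcut_cross {p : Equiv.Perm (HE n d)} (hp : IsPort p) {φ : T → Fin n} {τ : ι → HE n d}
    (hb : IsBdry p φ τ) (s : ℝ) (ω : Fin n → ℝ) {x y : Fin n} (hx : x ∈ Set.range φ)
    (hy : y ∉ Set.range φ) : Hcut p τ s ω x y = 0 := by
  classical
  have hxy : x ≠ y := fun h => hy (h ▸ hx)
  unfold Hcut
  rw [Hm_sum hp, Matrix.sub_apply, Matrix.add_apply, Matrix.smul_apply,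
    Matrix.diagonal_apply_ne _ hxy, smul_zero, add_zero, Matrix.sum_apply, Matrix.sum_apply,
    sub_eq_zero]
  have h1 : ∀ i, EE (τ i) (p (τ i)) x y = E1 (τ i).1 (p (τ i)).1 x y := by
    intro i
    unfold EE
    rw [Matrix.add_apply]
    have : E1 (p (τ i)).1 (τ i).1 x y = 0 := by
      unfold E1
      rw [if_neg]
      rintro ⟨h, _⟩
      exact hb.out i (h ▸ hx)
    rw [this, add_zero]
  simp only [h1]
  rw [← Finset.sum_subset (Finset.subset_univ (Finset.univ.image τ))]
  · rw [Finset.sum_image (fun a _ b _ h => hb.tau_inj h)]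
  · intro h _ hh
    unfold E1
    rw [if_neg]
    rintro ⟨h2, h3⟩
    obtain ⟨i, hi⟩ := hb.closed h (h2 ▸ hx) (h3 ▸ hy)
    exact hh (Finset.mem_image.2 ⟨i, Finset.mem_univ _, hi.symm⟩)

/-- inside the tree the boundary edges are not seen -/
theorem Hcut_inner {p : Equiv.Perm (HE n d)} {φ : T → Fin n} {τ : ι → HE n d}
    (hb : IsBdry p φ τ) (s : ℝ) (ω : Fin n → ℝ) {x y : Fin n} (hx : x ∈ Set.range φ)
    (hy : y ∈ Set.range φ) : Hcut p τ s ω x y = Hm (graphOf p) s ω x y := by
  classical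
  unfold Hcut
  rw [Matrix.sub_apply, Matrix.sum_apply, Finset.sum_eq_zero, sub_zero]
  intro i _
  unfold EE
  rw [Matrix.add_apply]
  unfold E1
  rw [if_neg, if_neg, add_zero]
  · rintro ⟨h, _⟩
    exact hb.out i (h ▸ hx)
  · rintro ⟨_, h⟩
    exact hb.out i (h ▸ hy)

end tree

/-- a decoupled set: the resolvent on the range of an injection -/
theorem Res_decoupled_range {T : Type*} [Fintype T] [DecidableEq T]
    {H : Matrix (Fin n) (Fin n) ℝ} (hH : Hᵀ = H) {z : ℂ} (hz : 0 < z.im) {φ : T → Fin n}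
    (hφ : Function.Injective φ)
    (h0 : ∀ x y, x ∈ Set.range φ → y ∉ Set.range φ → H x y = 0) :
    (∀ x y, x ∈ Set.range φ → y ∉ Set.range φ → Res789.Res H z x y = 0) ∧
      (Res789.Res H z).submatrix φ φ = Res789.Res (H.submatrix φ φ) z := by
  classical
  obtain ⟨q, hq⟩ : ∃ q : Fin n → Prop, ∀ x, q x ↔ x ∈ Set.range φ := ⟨_, fun _ => Iff.rfl⟩
  obtain ⟨h1, h2, _⟩ := Res789.Res_decoupled q hH hz
    (fun x y hx hy => h0 x y ((hq x).1 hx) (fun h => hy ((hq y).2 h)))
  refine ⟨fun x y hx hy => h1 x y ((hq x).2 hx) (fun h => hy ((hq y).1 h)), ?_⟩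
  let e : T ≃ {x // q x} := Equiv.ofBijective (fun t => ⟨φ t, (hq _).2 ⟨t, rfl⟩⟩) (by
    constructor
    · intro a b hab
      exact hφ (congrArg Subtype.val hab)
    · rintro ⟨x, hx⟩
      obtain ⟨t, ht⟩ := (hq x).1 hx
      exact ⟨t, Subtype.ext ht⟩)
  have h3 := congrArg (fun M => Matrix.submatrix M e e) h2
  have h4 : (Res789.rst' q (Res789.Res H z)).submatrix e e =
      (Res789.Res H z).submatrix φ φ := rfl
  have h5 : (Res789.rst' q H).submatrix e e = H.submatrix φ φ := rfl
  rw [h4, ← Res789.Res_submatrix_equiv, h5] at h3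
  exact h3

end Crest.Agent.R166.DecP789
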