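import Mathlib
import Crest.Agent.R166.UppCell_724
import Crest.Agent.R166.Noise_547

/-!
# R166, 40.7 (U), part 4: the number of members of the class over a fixed pairing (helper724)
-/

set_option autoImplicit false
set_option linter.unusedSectionVars false
set_option linter.unusedSimpArgs false

namespace Crest.Agent.R166.Upp724

open Finset MeasureTheory

/-- error of the quadratic form per site and component -/
noncomputable def errQ (cI : ℝ) (E s W η D : ℝ) : ℝ :=
  D * (1 + D) * ((cI + |E| + |s| * W) ^ 2 + η ^ 2)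

/-- `∑_i log g_η(λ_i)` -/
noncomputable def logdet {V : Type} [Fintype V] [DecidableEq V] {H : Matrix V V ℝ}
    (hH : H.IsHermitian) (E η c : ℝ) : ℝ :=
  ∑ i, Real.log (Noise547.geta E η c (hH.eigenvalues i))

section
variable {V I A : Type} [Fintype V] [DecidableEq V] [Fintype I] [DecidableEq I] [Fintype A]

/-- the colourings `c` with the same star counts as `(p0, c0)` -/
noncomputable def FF {T : Type} [Fintype T] (p p0 : V × I → V × I) (c0 : V → T) :
    Finset (V → T) := by
  classical exact univ.filter fun c => ∀ t, cnt (starOf p c) t = cnt (starOf p0 c0) t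

lemma mem_FF {T : Type} [Fintype T] (p p0 : V × I → V × I) (c0 c : V → T) :
    c ∈ FF p p0 c0 ↔ ∀ t, cnt (starOf p c) t = cnt (starOf p0 c0) t := by
  classical
  simp [FF]

/-- colouring from the root data -/
def cc {k M : ℕ} (p : V × I → V × I) (a : ℕ) (o : V → A) (y : V × Fin k → Fin M) (v : V) :
    View A I a × (Fin k → Fin M) := (viewOf p o a v, fun κ => y (v, κ))

/-- the `y` index configurations compatible with the environment `o'` -/
noncomputable def SS {k M : ℕ} (p p0 : V × I → V × I) (a : ℕ) (o : V → A)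
    (y : V → Fin k → Fin M) (o' : V → A) : Finset (V × Fin k → Fin M) := by
  classical
  exact univ.filter (fun y' => cc p a o' y' ∈
    FF p p0 (fun v => ((viewOf p0 o a v, y v) : View A I a × (Fin k → Fin M))))

lemma mem_SS {k M : ℕ} (p p0 : V × I → V × I) (a : ℕ) (o : V → A)
    (y : V → Fin k → Fin M) (o' : V → A) (y' : V × Fin k → Fin M) :
    y' ∈ SS p p0 a o y o' ↔ cc p a o' y' ∈
      FF p p0 (fun v => ((viewOf p0 o a v, y v) : View A I a × (Fin k → Fin M))) := by
  classical
  simp [SS]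

/-- structure of the members -/
lemma SS_perm {k M : ℕ} {p p0 : V × I → V × I} {a : ℕ} {o : V → A}
    {y : V → Fin k → Fin M} {o' : V → A} {y' : V × Fin k → Fin M}
    (h : y' ∈ SS p p0 a o y o') :
    ∃ σ : Equiv.Perm V, (∀ v, starOf p (cc p a o' y') v =
        starOf p0 (fun v => ((viewOf p0 o a v, y v) : View A I a × (Fin k → Fin M))) (σ v)) ∧
      o' = o ∘ σ ∧ (∀ v κ, y' (v, κ) = y (σ v) κ) := by
  rw [mem_SS, mem_FF] at h
  obtain ⟨σ, hσ⟩ := exists_perm_of_cnt _ _ h
  refine ⟨σ, hσ, ?_, ?_⟩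
  · funext v
    have h1 := consist hσ v
    have h2 := congrArg (fun z => vroot a z.1) h1
    simpa [cc] using h2
  · intro v κ
    have h1 := consist hσ v
    have h2 := congrArg (fun z => z.2 κ) h1
    simpa [cc] using h2

/-- members of the class over `p` are counted by the root data -/
lemma card_FF_le {k M : ℕ} (p p0 : V × I → V × I) (a : ℕ) (o : V → A) (y : V → Fin k → Fin M) :
    (FF p p0 (fun v => ((viewOf p0 o a v, y v) : View A I a × (Fin k → Fin M)))).card ≤
      ∑ o' : V → A, (SS p p0 a o y o').card := by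
  classical
  set F := FF p p0 (fun v => ((viewOf p0 o a v, y v) : View A I a × (Fin k → Fin M))) with hF
  have hsub : F ⊆ (univ : Finset (V → A)).biUnion fun o' =>
      (SS p p0 a o y o').image (cc p a o') := by
    intro c hc
    have hc' := hc
    rw [hF, mem_FF] at hc'
    obtain ⟨σ, hσ⟩ := exists_perm_of_cnt _ _ hc'
    have h1 : c = cc p a (o ∘ σ) (fun x : V × Fin k => y (σ x.1) x.2) := by
      funext v
      exact consist hσ v
    rw [mem_biUnion]
    refine ⟨o ∘ σ, mem_univ _, ?_⟩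
    rw [mem_image]
    refine ⟨fun x => y (σ x.1) x.2, ?_, h1.symm⟩
    rw [mem_SS, ← h1]
    exact hc
  refine (card_le_card hsub).trans (card_biUnion_le.trans ?_)
  exact sum_le_sum fun o' _ => card_image_le

lemma card_FF_le_all {k M : ℕ} (p p0 : V × I → V × I) (a : ℕ) (o : V → A)
    (y : V → Fin k → Fin M) :
    (FF p p0 (fun v => ((viewOf p0 o a v, y v) : View A I a × (Fin k → Fin M)))).card ≤
      (Fintype.card A * M ^ k) ^ Fintype.card V := by
  classical
  refine (card_FF_le p p0 a o y).trans ?_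
  have h1 : ∀ o' : V → A, (SS p p0 a o y o').card ≤ M ^ (Fintype.card V * k) := by
    intro o'
    refine (card_le_univ _).trans (le_of_eq ?_)
    simp [Fintype.card_fun]
  refine (sum_le_sum fun o' _ => h1 o').trans (le_of_eq ?_)
  rw [sum_const, card_univ, Fintype.card_fun, smul_eq_mul, mul_pow, ← pow_mul, mul_comm k]

/-- the volume of the ellipsoid -/
def EllVol (k : ℕ) (p : V × I → V × I) (hp : ∀ x, p (p x) = x) (s E η c : ℝ) (ω : V → ℝ)
    (q : ℝ) : Prop :=
  volume {x : V × Fin k → ℝ | ∑ v, Qs k p s E η ω (fun v κ => x (v, κ)) v ≤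
      c * η * (Fintype.card V * k * q)} ≤
    ENNReal.ofReal (Real.exp (Fintype.card V * (k / 2 * Real.log (2 * Real.pi * Real.exp 1 * q)) +
      k / 2 * logdet (Hp_isHermitian p hp s ω) E η c))

variable [Nonempty V]

/-- comparison of the log-determinants -/
lemma logdet_close {p p0 : V × I → V × I} (hp : ∀ x, p (p x) = x) (hp0 : ∀ x, p0 (p0 x) = x)
    {o : V → A} {a : ℕ} {σ : Equiv.Perm V}
    (hσ : ∀ v, SameView p (o ∘ σ) p0 o a v (σ v)) (w : A → ℝ) (W : ℝ) (hW : ∀ x, |w x| ≤ W)
    (hW0 : 0 ≤ W) (s E η c : ℝ) (P : Polynomial ℝ) (hP : P.natDegree ≤ a) (ε : ℝ)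
    (hPε : ∀ x, |x| ≤ Fintype.card I + |s| * W →
      |Real.log (Noise547.geta E η c x) - P.eval x| ≤ ε) :
    logdet (Hp_isHermitian p hp s (w ∘ (o ∘ σ))) E η c ≤
      logdet (Hp_isHermitian p0 hp0 s (w ∘ o)) E η c + 2 * ε * Fintype.card V +
        2 * polyBd P (Fintype.card I + |s| * W) * (nBad a p + nBad a p0) := by
  have hn : (0 : ℝ) < Fintype.card V := by exact_mod_cast Fintype.card_pos
  have h1 := Noise547.logdet_poly (Hp_isHermitian p hp s (w ∘ (o ∘ σ)))
    (f := fun x => Real.log (Noise547.geta E η c x)) P (ε := ε)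
    (fun i => hPε _ (Noise547.eig_abs_le _ (Hp_row p s _ W (fun v => hW _)) i))
  have h2 := Noise547.logdet_poly (Hp_isHermitian p0 hp0 s (w ∘ o))
    (f := fun x => Real.log (Noise547.geta E η c x)) P (ε := ε)
    (fun i => hPε _ (Noise547.eig_abs_le _ (Hp_row p0 s _ W (fun v => hW _)) i))
  have h3 := trace_close hp hp0 hσ w W hW hW0 s P hP
  rw [← sub_div, abs_div, abs_of_pos hn, div_le_iff₀ hn, abs_le] at h1 h2
  rw [abs_le] at h3
  unfold logdet
  nlinarith [h1.2, h2.1, h3.2]

/-- bound of the number of `y` configurations by the volume of the ellipsoid -/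
lemma card_SS_le {k M : ℕ} {p p0 : V × I → V × I} (hp : ∀ x, p (p x) = x)
    (hp0 : ∀ x, p0 (p0 x) = x) {a : ℕ} {o : V → A} {y : V → Fin k → Fin M}
    (w : A → ℝ) (W : ℝ) (hW : ∀ x, |w x| ≤ W) (hW0 : 0 ≤ W) (s E η c q : ℝ)
    (L D : ℝ) (hD : 0 < D)
    (P : Polynomial ℝ) (hP : P.natDegree ≤ a) (ε : ℝ)
    (hPε : ∀ x, |x| ≤ Fintype.card I + |s| * W →
      |Real.log (Noise547.geta E η c x) - P.eval x| ≤ ε)
    (hQ : (1 + D) * ∑ v, Qs k p0 s E η (w ∘ o) (fun v κ => lo L D (y v κ)) v +
      Fintype.card V * (k * errQ (Fintype.card I) E s W η D) ≤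
        c * η * (Fintype.card V * k * q))
    (hEll : ∀ ω : V → ℝ, EllVol k p hp s E η c ω q) (o' : V → A) :
    ((SS p p0 a o y o').card : ℝ) * D ^ (Fintype.card V * k) ≤
      Real.exp (Fintype.card V * (k / 2 * Real.log (2 * Real.pi * Real.exp 1 * q)) +
        k / 2 * (logdet (Hp_isHermitian p0 hp0 s (w ∘ o)) E η c + 2 * ε * Fintype.card V +
          2 * polyBd P (Fintype.card I + |s| * W) * (nBad a p + nBad a p0))) := by
  classical
  rcases (SS p p0 a o y o').eq_empty_or_nonempty with hemp | ⟨y1, hy1⟩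
  · rw [hemp]; simp only [card_empty, Nat.cast_zero, zero_mul]; positivity
  obtain ⟨σ, hσ, ho, hy⟩ := SS_perm hy1
  -- the ellipsoid contains all boxes
  have hbox : ∀ y' ∈ SS p p0 a o y o', box L D y' ⊆
      {x : V × Fin k → ℝ | ∑ v, Qs k p s E η (w ∘ o') (fun v κ => x (v, κ)) v ≤
        c * η * (Fintype.card V * k * q)} := by
    intro y' hy' x hx
    obtain ⟨τ, hτ, ho', hyτ⟩ := SS_perm hy'
    rw [Set.mem_ofPred_eq]
    have e1 : ∀ v κ, |x (v, κ) - lo L D (y' (v, κ))| ≤ D := fun v κ =>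
      cell_abs' hD _ (hx (v, κ) (Set.mem_univ _))
    have e2 : ∀ v, Qs k p s E η (w ∘ o') (fun v κ => x (v, κ)) v ≤
        (1 + D) * Qs k p s E η (w ∘ o') (fun v κ => lo L D (y' (v, κ))) v +
          k * errQ (Fintype.card I) E s W η D := fun v =>
      Qs_close k p s E η (w ∘ o') W (fun v => hW _) D hD _ _ (fun v κ => e1 v κ) v
    refine (sum_le_sum fun v _ => e2 v).trans ?_
    rw [sum_add_distrib, ← mul_sum, sum_const, card_univ, nsmul_eq_mul]
    have e3 := sum_Qs_transfer hτ w (lo L D) s E η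
    have e4 : (fun v κ => lo L D (y' (v, κ))) = fun v κ => lo L D (y (τ v) κ) := by
      funext v κ; rw [hyτ]
    rw [e4, ho', e3]
    exact hQ
  have h1 := card_cells_le hD (SS p p0 a o y o') _ hbox
  have h2 := h1.trans (hEll (w ∘ o'))
  have h3 : ((SS p p0 a o y o').card : ENNReal) * ENNReal.ofReal D ^ Fintype.card (V × Fin k) =
      ENNReal.ofReal (((SS p p0 a o y o').card : ℝ) * D ^ (Fintype.card V * k)) := by
    rw [ENNReal.ofReal_mul (by positivity), ENNReal.ofReal_natCast, ENNReal.ofReal_pow hD.le]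
    simp
  rw [h3, ENNReal.ofReal_le_ofReal_iff (Real.exp_pos _).le] at h2
  refine h2.trans (Real.exp_le_exp.2 ?_)
  have h4 := logdet_close hp hp0 (consist_sv hσ a le_rfl) w W hW hW0 s E η c P hP ε hPε
  have hk : (0 : ℝ) ≤ (k : ℝ) / 2 := by positivity
  have h5 : logdet (Hp_isHermitian p hp s (w ∘ o')) E η c =
      logdet (Hp_isHermitian p hp s (w ∘ (o ∘ σ))) E η c := by
    congr 2
    all_goals (subst ho; rfl)
  rw [h5]
  have h6 := mul_le_mul_of_nonneg_left h4 hk
  linarith

/-- the number of members over a pairing `p` -/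
theorem card_FF_le_vol {k M : ℕ} {p p0 : V × I → V × I} (hp : ∀ x, p (p x) = x)
    (hp0 : ∀ x, p0 (p0 x) = x) {a : ℕ} {o : V → A} {y : V → Fin k → Fin M}
    (w : A → ℝ) (W : ℝ) (hW : ∀ x, |w x| ≤ W) (hW0 : 0 ≤ W) (s E η c q : ℝ)
    (L D : ℝ) (hD : 0 < D)
    (P : Polynomial ℝ) (hP : P.natDegree ≤ a) (ε : ℝ)
    (hPε : ∀ x, |x| ≤ Fintype.card I + |s| * W →
      |Real.log (Noise547.geta E η c x) - P.eval x| ≤ ε)
    (hQ : (1 + D) * ∑ v, Qs k p0 s E η (w ∘ o) (fun v κ => lo L D (y v κ)) v +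
      Fintype.card V * (k * errQ (Fintype.card I) E s W η D) ≤
        c * η * (Fintype.card V * k * q))
    (hEll : ∀ ω : V → ℝ, EllVol k p hp s E η c ω q) :
    ((FF p p0 (fun v => ((viewOf p0 o a v, y v) : View A I a × (Fin k → Fin M)))).card : ℝ) *
        D ^ (Fintype.card V * k) ≤ (Fintype.card A : ℝ) ^ Fintype.card V *
      Real.exp (Fintype.card V * (k / 2 * Real.log (2 * Real.pi * Real.exp 1 * q)) +
        k / 2 * (logdet (Hp_isHermitian p0 hp0 s (w ∘ o)) E η c + 2 * ε * Fintype.card V +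
          2 * polyBd P (Fintype.card I + |s| * W) * (nBad a p + nBad a p0))) := by
  have h1 := card_FF_le p p0 a o y
  have h1' : ((FF p p0 (fun v => ((viewOf p0 o a v, y v) :
      View A I a × (Fin k → Fin M)))).card : ℝ) ≤ ∑ o' : V → A, ((SS p p0 a o y o').card : ℝ) := by
    exact_mod_cast h1
  refine (mul_le_mul_of_nonneg_right h1' (by positivity)).trans ?_
  rw [sum_mul]
  refine (sum_le_sum fun o' _ => card_SS_le hp hp0 w W hW hW0 s E η c q L D hD P hP ε hPε hQ
    hEll o').trans (le_of_eq ?_)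
  rw [sum_const, card_univ, Fintype.card_fun, nsmul_eq_mul]
  push_cast
  ring

end

end Crest.Agent.R166.Upp724
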