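import Mathlib
import Crest.Agent.R166.NoiseVol_547
import Crest.Agent.R166.UppMain_724

/-!
Row 166 (helper547): the ellipsoid volume in the exact form of 724 (`Upp724.EllVol`).
-/

set_option autoImplicit false
set_option maxHeartbeats 400000

namespace Crest.Agent.R166.EllVol547

open Matrix MeasureTheory
open Crest.Agent.R166.Noise547

variable {V : Type} [Fintype V] [DecidableEq V] {H : Matrix V V ℝ}

/-- volume of the ellipsoid, uncurried -/
theorem ellipsoid_vol_le' (hH : H.IsHermitian) {g : ℝ → ℝ} (hg : ∀ i, 0 < g (hH.eigenvalues i))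
    {q : ℝ} (hq : 0 < q) (k : ℕ) :
    volume {y : V × Fin k → ℝ |
        ∑ κ, ∑ x, ∑ z, y (x, κ) * fM hH (fun t => (g t)⁻¹) x z * y (z, κ) ≤
          (Fintype.card V * k : ℝ) * q} ≤
      ENNReal.ofReal (Real.exp ((Fintype.card V * k : ℝ) / 2 *
          Real.log (2 * Real.pi * Real.exp 1 * q) +
        (k : ℝ) / 2 * ∑ i, Real.log (g (hH.eigenvalues i)))) := by
  have hcard : (Fintype.card (V × Fin k) : ℝ) = Fintype.card V * k := by
    rw [Fintype.card_prod, Fintype.card_fin]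
    push_cast
    ring
  have hdet := Tmat_det_pos hH hg hq k
  have h := ellipsoid_mat (Tmat hH g q k) hdet.ne'
  rw [hcard] at h
  have e : {y : V × Fin k → ℝ |
        ∑ κ, ∑ x, ∑ z, y (x, κ) * fM hH (fun t => (g t)⁻¹) x z * y (z, κ) ≤
          (Fintype.card V * k : ℝ) * q} =
      {y : V × Fin k → ℝ | ∑ i, ((Tmat hH g q k)⁻¹ *ᵥ y) i ^ 2 ≤ (Fintype.card V * k : ℝ)} := by
    ext y
    have h1 := Tmat_inv_sq hH hg hq k (fun v κ => y (v, κ))
    simp only [Prod.mk.eta] at h1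
    simp only [Set.mem_ofPred_eq]
    rw [h1, inv_mul_le_iff₀ hq, mul_comm q]
  rw [e]
  refine h.trans (ENNReal.ofReal_le_ofReal ?_)
  rw [abs_of_pos hdet, Tmat_det_eq_exp hH hg hq, ← Real.exp_add]
  apply le_of_eq
  congr 1
  rw [Real.log_mul (x := 2 * Real.pi * Real.exp 1) (by positivity) hq.ne']
  ring

open Crest.Agent.R166.Upp724 in
/-- `EllVol` of 724. -/
theorem ellVol {I : Type} [Fintype I] [DecidableEq I] (k : ℕ) (p : V × I → V × I)
    (hp : ∀ x, p (p x) = x) (s E : ℝ) {η c : ℝ} (hη : 0 < η) (hc : 0 < c) (ω : V → ℝ)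
    {q : ℝ} (hq : 0 < q) : EllVol k p hp s E η c ω q := by
  unfold EllVol logdet
  have hH := Hp_isHermitian p hp s ω
  have h := ellipsoid_vol_le' hH (g := geta E η c) (fun i => geta_pos hη hc _) hq k
  refine (measure_mono ?_).trans (h.trans (ENNReal.ofReal_le_ofReal (le_of_eq ?_)))
  · intro x hx
    have hx' : ∑ v, Qs k p s E η ω (fun v κ => x (v, κ)) v ≤
      c * η * (Fintype.card V * k * q) := hx
    rw [sum_Qs] at hx'
    show ∑ κ, ∑ v, ∑ z, x (v, κ) * fM hH (fun t => (geta E η c t)⁻¹) v z * x (z, κ) ≤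
      (Fintype.card V * k : ℝ) * q
    have h1 : ∀ κ : Fin k, ∑ v, ∑ z, x (v, κ) * fM hH (fun t => (geta E η c t)⁻¹) v z * x (z, κ) =
        (c * η)⁻¹ * ∑ v, (((Hp p s ω).mulVec (fun v => x (v, κ)) v - E * x (v, κ)) ^ 2 +
          η ^ 2 * (x (v, κ)) ^ 2) := by
      intro κ
      rw [geta_inv_quad hH hη hc (fun v => x (v, κ))]
      rfl
    simp only [h1]
    rw [← Finset.mul_sum, inv_mul_le_iff₀ (mul_pos hc hη)]
    exact hx'
  · congr 1
    ring

end Crest.Agent.R166.EllVol547
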