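import Crest.Agent.R166.Ent_397

/-!
Row 166, section 40.8 (helper397): entropy inequalities for a stationary colouring of the `d`-regular
tree, in half-edge form.

Setting: a probability space `(Ω, μ)` with two measure preserving maps `π`, `ρ` (`π` = cross the edge,
`ρ` = rotate to the next half-edge at the same vertex), `π (π h) = h`, `ρ^[m+1] h = h`, `d = m+1`, and a
colour `c : Ω → A` (finitely many colours) of half-edges such that `c (ρ h)` and `c h` determine each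
other (e.g. `c (v,l) = (l, f v)`; then `c (ρ h) = r (c h)` with `r` injective).

* `S c π ρ r h`  : one-sided view of radius `r` from `h` (away from the edge of `h`);
* `Vw c π ρ r h` : full view of radius `r+1` from the vertex of `h`;
* `Ed c π ρ r h` : view of radius `r` from the edge of `h`;
* `Psi r = H(Vw r) - ((m+1)/2) H(Ed r)` (this is `F_{r+1}` of the document).

Main theorems: `Psi_antitone`, `condMI_le`:
`I(S_R h ; S_R (π h) | c h, c (π h)) ≤ 2 s_R (Psi 0 - Psi R)`, `s_0 = 0, s_{R+1} = 1 + m s_R`.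
-/

set_option autoImplicit false

namespace Crest.Agent.R166.EntTree397

open MeasureTheory Finset Crest.Agent.R166.Ent397

universe u v

/-- one-sided view types -/
def ST (A : Type u) (m : ℕ) : ℕ → Type u
  | 0 => A
  | r + 1 => A × (Fin m → ST A m r)

noncomputable instance instFintypeST (A : Type u) [Fintype A] (m : ℕ) : ∀ r, Fintype (ST A m r)
  | 0 => inferInstanceAs (Fintype A)
  | r + 1 => by
    haveI := instFintypeST A m r
    exact inferInstanceAs (Fintype (A × (Fin m → ST A m r)))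

section Views

variable {Ω : Type v} {A : Type u} {m : ℕ}

/-- one-sided view of radius `r` -/
def S (c : Ω → A) (π ρ : Ω → Ω) : ∀ r, Ω → ST A m r
  | 0 => c
  | r + 1 => fun h => (c h, fun k : Fin m => S c π ρ r (π (ρ^[k.val + 1] h)))

/-- full view of radius `r+1` from the vertex -/
def Vw (c : Ω → A) (π ρ : Ω → Ω) (r : ℕ) : Ω → A × (Fin (m + 1) → ST A m r) :=
  fun h => (c h, fun k : Fin (m + 1) => S c π ρ r (π (ρ^[k.val] h)))

/-- view of radius `r` from the edge -/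
def Ed (c : Ω → A) (π ρ : Ω → Ω) (r : ℕ) : Ω → ST A m r × ST A m r :=
  fun h => (S c π ρ r h, S c π ρ r (π h))

theorem S_zero (c : Ω → A) (π ρ : Ω → Ω) (h : Ω) : (S c π ρ 0 h : ST A m 0) = c h := rfl

theorem S_succ (c : Ω → A) (π ρ : Ω → Ω) (r : ℕ) (h : Ω) :
    (S c π ρ (r + 1) h : ST A m (r + 1)) =
      (c h, fun k : Fin m => S c π ρ r (π (ρ^[k.val + 1] h))) := rfl

theorem S_succ_eq_iff (c : Ω → A) (π ρ : Ω → Ω) (r : ℕ) (h h' : Ω) :
    (S c π ρ (r + 1) h : ST A m (r + 1)) = S c π ρ (r + 1) h' ↔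
      c h = c h' ∧ ∀ k : Fin m, (S c π ρ r (π (ρ^[k.val + 1] h)) : ST A m r) =
        S c π ρ r (π (ρ^[k.val + 1] h')) := by
  rw [S_succ, S_succ]
  exact ⟨fun e => ⟨congrArg Prod.fst e, fun k => congrFun (congrArg Prod.snd e) k⟩,
    fun e => Prod.ext e.1 (funext e.2)⟩

/-- the `r`-view is determined by the `r+1`-view -/
theorem S_det (c : Ω → A) (π ρ : Ω → Ω) (r : ℕ) : ∀ h h' : Ω,
    (S c π ρ (r + 1) h : ST A m (r + 1)) = S c π ρ (r + 1) h' →
      (S c π ρ r h : ST A m r) = S c π ρ r h' := by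
  induction r with
  | zero => intro h h' e; exact ((S_succ_eq_iff c π ρ 0 h h').1 e).1
  | succ r ih =>
    intro h h' e
    rw [S_succ_eq_iff] at e ⊢
    exact ⟨e.1, fun k => ih _ _ (e.2 k)⟩

theorem S_det_zero (c : Ω → A) (π ρ : Ω → Ω) (r : ℕ) (h h' : Ω)
    (e : (S c π ρ r h : ST A m r) = S c π ρ r h') : c h = c h' := by
  cases r with
  | zero => exact e
  | succ r => exact ((S_succ_eq_iff c π ρ r h h').1 e).1

theorem Vw_eq_iff (c : Ω → A) (π ρ : Ω → Ω) (r : ℕ) (h h' : Ω) :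
    (Vw c π ρ r h : A × (Fin (m + 1) → ST A m r)) = Vw c π ρ r h' ↔
      c h = c h' ∧ ∀ k : Fin (m + 1), (S c π ρ r (π (ρ^[k.val] h)) : ST A m r) =
        S c π ρ r (π (ρ^[k.val] h')) := by
  unfold Vw
  rw [Prod.mk.injEq, funext_iff]

/-- `Vw r` carries the same information as `(S (r+1) h, S r (π h))`. -/
theorem Vw_iff_pair (c : Ω → A) (π ρ : Ω → Ω) (r : ℕ) (h h' : Ω) :
    ((S c π ρ (r + 1) h : ST A m (r + 1)) = S c π ρ (r + 1) h' ∧
      (S c π ρ r (π h) : ST A m r) = S c π ρ r (π h')) ↔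
    (Vw c π ρ r h : A × (Fin (m + 1) → ST A m r)) = Vw c π ρ r h' := by
  rw [Vw_eq_iff, S_succ_eq_iff]
  constructor
  · rintro ⟨⟨e0, e1⟩, e2⟩
    refine ⟨e0, fun k => ?_⟩
    induction k using Fin.cases with
    | zero => exact e2
    | succ k => exact e1 k
  · rintro ⟨e0, e1⟩
    exact ⟨⟨e0, fun k => e1 k.succ⟩, e1 0⟩

end Views

section Chain

variable {Ω : Type v} [MeasurableSpace Ω] (μ : Measure Ω) [IsProbabilityMeasure μ]
  {A : Type u} [Fintype A] (m : ℕ)

/-- stationary colouring data -/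
structure Stat (c : Ω → A) (π ρ : Ω → Ω) : Prop where
  fm : FM c
  mpπ : MeasurePreserving π μ μ
  mpρ : MeasurePreserving ρ μ μ
  invol : ∀ h, π (π h) = h
  cyc : ∀ h, ρ^[m + 1] h = h
  col : ∀ h h', c (ρ h) = c (ρ h') ↔ c h = c h'

variable {μ m} {c : Ω → A} {π ρ : Ω → Ω}

/-- the usual case: `c (ρ h) = r (c h)` with `r` injective -/
theorem Stat.mk' {r : A → A} (hr : Function.Injective r) (fm : FM c)
    (mpπ : MeasurePreserving π μ μ) (mpρ : MeasurePreserving ρ μ μ) (invol : ∀ h, π (π h) = h)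
    (cyc : ∀ h, ρ^[m + 1] h = h) (col : ∀ h, c (ρ h) = r (c h)) : Stat μ m c π ρ :=
  ⟨fm, mpπ, mpρ, invol, cyc, fun h h' => by rw [col, col]; exact hr.eq_iff⟩

omit [IsProbabilityMeasure μ] [Fintype A] in
theorem Stat.mpρk (hs : Stat μ m c π ρ) (k : ℕ) : MeasurePreserving (ρ^[k]) μ μ :=
  hs.mpρ.iterate k

omit [IsProbabilityMeasure μ] [Fintype A] in
theorem Stat.mpτ (hs : Stat μ m c π ρ) (k : ℕ) : MeasurePreserving (fun h => π (ρ^[k] h)) μ μ :=
  hs.mpπ.comp (hs.mpρk k)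

omit [IsProbabilityMeasure μ] [Fintype A] in
theorem Stat.colk (hs : Stat μ m c π ρ) (k : ℕ) (h h' : Ω) :
    c (ρ^[k] h) = c (ρ^[k] h') ↔ c h = c h' := by
  induction k generalizing h h' with
  | zero => exact Iff.rfl
  | succ k ih => rw [Function.iterate_succ_apply, Function.iterate_succ_apply, ih, hs.col]

omit [IsProbabilityMeasure μ] in
theorem Stat.fmS (hs : Stat μ m c π ρ) (r : ℕ) : FM (S c π ρ r : Ω → ST A m r) := by
  induction r with
  | zero => exact hs.fm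
  | succ r ih =>
    exact FM.pair hs.fm (FM.pi fun k => ih.comp_right (hs.mpτ (k.val + 1)).measurable)

omit [IsProbabilityMeasure μ] in
theorem Stat.fmSτ (hs : Stat μ m c π ρ) (r k : ℕ) :
    FM (fun h => (S c π ρ r (π (ρ^[k] h)) : ST A m r)) :=
  (hs.fmS r).comp_right (hs.mpτ k).measurable

omit [IsProbabilityMeasure μ] in
theorem Stat.fmSπ (hs : Stat μ m c π ρ) (r : ℕ) :
    FM (fun h => (S c π ρ r (π h) : ST A m r)) :=
  (hs.fmS r).comp_right hs.mpπ.measurable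

omit [IsProbabilityMeasure μ] in
theorem Stat.fmVw (hs : Stat μ m c π ρ) (r : ℕ) :
    FM (Vw c π ρ r : Ω → A × (Fin (m + 1) → ST A m r)) :=
  hs.fm.pair (FM.pi fun k => hs.fmSτ r k.val)

omit [IsProbabilityMeasure μ] in
theorem Stat.fmEd (hs : Stat μ m c π ρ) (r : ℕ) :
    FM (Ed c π ρ r : Ω → ST A m r × ST A m r) := (hs.fmS r).pair (hs.fmSπ r)

variable (μ m c π ρ) in
/-- entropy of the full view of radius `r+1` -/
noncomputable def HV (r : ℕ) : ℝ := H μ (Vw c π ρ r : Ω → A × (Fin (m + 1) → ST A m r))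

variable (μ m c π ρ) in
/-- entropy of the edge view of radius `r` -/
noncomputable def HE (r : ℕ) : ℝ := H μ (Ed c π ρ r : Ω → ST A m r × ST A m r)

variable (μ m c π ρ) in
/-- `F_{r+1} = H(B_{r+1}(o)) - (d/2) H(B_r(e))` -/
noncomputable def Psi (r : ℕ) : ℝ := HV μ m c π ρ r - ((m : ℝ) + 1) / 2 * HE μ m c π ρ r

/-- entropy of `(S (r+1) h, S r (π h))` is the entropy of the view -/
theorem H_pair_eq_HV (hs : Stat μ m c π ρ) (r : ℕ) :
    H μ (fun h => ((S c π ρ (r + 1) h : ST A m (r + 1)), (S c π ρ r (π h) : ST A m r))) =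
      HV μ m c π ρ r :=
  H_eq_of_det μ ((hs.fmS (r + 1)).pair (hs.fmSπ r)) (hs.fmVw r) fun h h' =>
    (Vw_iff_pair c π ρ r h h').symm.trans Prod.mk_inj.symm

/-- `I₂ ≥ 0` : `H(B_{r+1}(e)) ≤ 2 H(B_{r+1}(o)) - H(B_r(e))` -/
theorem HE_succ_le (hs : Stat μ m c π ρ) (r : ℕ) :
    HE μ m c π ρ (r + 1) ≤ 2 * HV μ m c π ρ r - HE μ m c π ρ r := by
  have h0 := condMI_nonneg μ (hs.fmS (r + 1)) (hs.fmSπ (r + 1)) (hs.fmEd r)
  unfold condMI at h0
  have h1 : H μ (fun h => ((S c π ρ (r + 1) h : ST A m (r + 1)), (Ed c π ρ r h : ST A m r × ST A m r)))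
      = HV μ m c π ρ r := by
    rw [← H_pair_eq_HV hs r]
    refine H_eq_of_det μ ((hs.fmS (r + 1)).pair (hs.fmEd r))
      ((hs.fmS (r + 1)).pair (hs.fmSπ r)) fun h h' => ?_
    simp only [Ed, Prod.mk.injEq]
    exact ⟨fun e => ⟨e.1, S_det c π ρ r _ _ e.1, e.2⟩, fun e => ⟨e.1, e.2.2⟩⟩
  have h2 : H μ (fun h => ((S c π ρ (r + 1) (π h) : ST A m (r + 1)),
      (Ed c π ρ r h : ST A m r × ST A m r))) = HV μ m c π ρ r := by
    rw [← H_pair_eq_HV hs r]
    rw [← H_comp_mp μ ((hs.fmS (r + 1)).pair (hs.fmSπ r)) hs.mpπ]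
    refine H_eq_of_det μ ((hs.fmSπ (r + 1)).pair (hs.fmEd r))
      (((hs.fmS (r + 1)).pair (hs.fmSπ r)).comp_right hs.mpπ.measurable) fun h h' => ?_
    simp only [Ed, Prod.mk.injEq, hs.invol]
    exact ⟨fun e => ⟨e.1, e.2, S_det c π ρ r _ _ e.1⟩, fun e => ⟨e.1, e.2.1⟩⟩
  have h3 : H μ (fun h => ((S c π ρ (r + 1) h : ST A m (r + 1)),
      (S c π ρ (r + 1) (π h) : ST A m (r + 1)), (Ed c π ρ r h : ST A m r × ST A m r))) =
      HE μ m c π ρ (r + 1) := by
    refine H_eq_of_det μ ((hs.fmS (r + 1)).pair ((hs.fmSπ (r + 1)).pair (hs.fmEd r)))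
      (hs.fmEd (r + 1)) fun h h' => ?_
    simp only [Ed, Prod.mk.injEq]
    exact ⟨fun e => ⟨e.1, e.2, S_det c π ρ r _ _ e.1, S_det c π ρ r _ _ e.2⟩,
      fun e => ⟨e.1, e.2.1⟩⟩
  rw [h1, h2, h3] at h0
  change 0 ≤ _ - HE μ m c π ρ r at h0
  linarith

/-- rotation identity: the branch structure seen from `ρ^[j] h` -/
theorem rot_branch (hs : Stat μ m c π ρ) (j k : Fin (m + 1)) (h : Ω) :
    ρ^[k.val] (ρ^[j.val] h) = ρ^[(k + j : Fin (m + 1)).val] h := by
  rw [← Function.iterate_add_apply, Fin.val_add]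
  have h1 : ∀ q, ρ^[(m + 1) * q] h = h := by
    intro q
    rw [Function.iterate_mul]
    have : (ρ^[m + 1]) = id := funext hs.cyc
    rw [this]; simp
  conv_lhs => rw [← Nat.mod_add_div (k.val + j.val) (m + 1)]
  rw [Function.iterate_add_apply, h1]

/-- `I₁ ≥ 0` : `H(B_{r+2}(o)) ≤ d H(B_{r+1}(e)) - (d-1) H(B_{r+1}(o))` -/
theorem HV_succ_le (hs : Stat μ m c π ρ) (r : ℕ) :
    HV μ m c π ρ (r + 1) ≤ ((m : ℝ) + 1) * HE μ m c π ρ (r + 1) - m * HV μ m c π ρ r := by
  have h0 := H_pi_le μ (m + 1) (fun k h => (S c π ρ (r + 1) (π (ρ^[k.val] h)) : ST A m (r + 1)))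
    (fun k => hs.fmSτ (r + 1) k.val) (hs.fmVw r)
  have h1 : H μ (fun h => ((fun k : Fin (m + 1) =>
      (S c π ρ (r + 1) (π (ρ^[k.val] h)) : ST A m (r + 1))),
      (Vw c π ρ r h : A × (Fin (m + 1) → ST A m r)))) = HV μ m c π ρ (r + 1) := by
    refine H_eq_of_det μ ((FM.pi fun k : Fin (m + 1) => hs.fmSτ (r + 1) k.val).pair (hs.fmVw r))
      (hs.fmVw (r + 1)) fun h h' => ?_
    rw [Vw_eq_iff]
    constructor
    · intro e
      exact Prod.ext (funext fun k => e.2 k)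
        ((Vw_eq_iff c π ρ r h h').2 ⟨e.1, fun k => S_det c π ρ r _ _ (e.2 k)⟩)
    · intro e
      exact ⟨((Vw_eq_iff c π ρ r h h').1 (congrArg Prod.snd e)).1,
        fun k => congrFun (congrArg Prod.fst e) k⟩
  have h2 : ∀ j : Fin (m + 1), H μ (fun h => ((S c π ρ (r + 1) (π (ρ^[j.val] h)) : ST A m (r + 1)),
      (Vw c π ρ r h : A × (Fin (m + 1) → ST A m r)))) = HE μ m c π ρ (r + 1) := by
    intro j
    unfold HE
    rw [← H_comp_mp μ (hs.fmEd (r + 1)) (hs.mpρk j.val)]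
    refine H_eq_of_det μ ((hs.fmSτ (r + 1) j.val).pair (hs.fmVw r))
      ((hs.fmEd (r + 1)).comp_right (hs.mpρk j.val).measurable) fun h h' => ?_
    simp only [Ed, Prod.mk.injEq]
    rw [Vw_eq_iff, S_succ_eq_iff]
    have key : ∀ (k : Fin m) (x : Ω), ρ^[k.val + 1] (ρ^[j.val] x) =
        ρ^[(k.succ + j : Fin (m + 1)).val] x := fun k x => rot_branch hs j k.succ x
    constructor
    · rintro ⟨⟨e0, e1⟩, e2⟩
      refine ⟨e2, (hs.colk j.val h h').1 e0, fun k => ?_⟩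
      by_cases hk : k = j
      · subst hk; exact S_det c π ρ r _ _ e2
      · obtain ⟨l, hl⟩ : ∃ l : Fin m, l.succ + j = k := by
          have : k - j ≠ 0 := sub_ne_zero.2 hk
          obtain ⟨l, hl⟩ := Fin.exists_succ_eq.2 this
          exact ⟨l, by rw [hl]; exact sub_add_cancel k j⟩
        have := e1 l
        rw [key, key, hl] at this
        exact this
    · rintro ⟨e2, e0, e1⟩
      refine ⟨⟨(hs.colk j.val h h').2 e0, fun k => ?_⟩, e2⟩
      rw [key, key]; exact e1 _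
  rw [h1] at h0
  simp only [h2] at h0
  rw [Finset.sum_const, Finset.card_univ, Fintype.card_fin, nsmul_eq_mul] at h0
  change _ ≤ HV μ m c π ρ r + ((m + 1 : ℕ) : ℝ) * (HE μ m c π ρ (r + 1) - HV μ m c π ρ r) at h0
  push_cast at h0
  linarith

/-- `F` is nonincreasing. -/
theorem Psi_succ_le (hs : Stat μ m c π ρ) (r : ℕ) : Psi μ m c π ρ (r + 1) ≤ Psi μ m c π ρ r := by
  have h1 := HE_succ_le hs r
  have h2 := HV_succ_le hs r
  unfold Psi
  have hm : (0 : ℝ) ≤ (m : ℝ) + 1 := by positivity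
  nlinarith [mul_le_mul_of_nonneg_left h1 hm]

theorem Psi_antitone (hs : Stat μ m c π ρ) : Antitone (Psi μ m c π ρ) :=
  antitone_nat_of_succ_le (Psi_succ_le hs)

/-- `s 0 = 0`, `s (R+1) = 1 + m s R` -/
noncomputable def sR (m : ℕ) : ℕ → ℝ
  | 0 => 0
  | R + 1 => 1 + m * sR m R

theorem sR_nonneg (m R : ℕ) : 0 ≤ sR m R := by
  induction R with
  | zero => exact le_rfl
  | succ R ih => unfold sR; positivity

/-- lower bound for the entropy of edge views -/
theorem HE_lower (hs : Stat μ m c π ρ) (R : ℕ) :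
    2 * sR m R * HV μ m c π ρ 0 - (2 * sR m R - 1) * HE μ m c π ρ 0 -
      2 * sR m R * (Psi μ m c π ρ 0 - Psi μ m c π ρ R) ≤ HE μ m c π ρ R := by
  induction R with
  | zero => simp only [sR]; linarith
  | succ R ih =>
    have h1 := HE_succ_le hs R
    have h2 := HV_succ_le hs R
    have hs' : sR m (R + 1) = 1 + m * sR m R := rfl
    have hm : (0 : ℝ) ≤ (m : ℝ) := by positivity
    have hP0 : Psi μ m c π ρ 0 = HV μ m c π ρ 0 - ((m : ℝ) + 1) / 2 * HE μ m c π ρ 0 := rfl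
    have hPR : Psi μ m c π ρ R = HV μ m c π ρ R - ((m : ℝ) + 1) / 2 * HE μ m c π ρ R := rfl
    have hPR1 : Psi μ m c π ρ (R + 1) =
      HV μ m c π ρ (R + 1) - ((m : ℝ) + 1) / 2 * HE μ m c π ρ (R + 1) := rfl
    -- I₂ ≤ (2/d) (T_{R+1} - T_R) ≤ 2 (T_{R+1} - T_R)
    set V0 := HV μ m c π ρ 0
    set E0 := HE μ m c π ρ 0
    set VR := HV μ m c π ρ R
    set ER := HE μ m c π ρ R
    set V1 := HV μ m c π ρ (R + 1)
    set E1 := HE μ m c π ρ (R + 1)
    set s := sR m R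
    have hI2 : 2 * VR - ER - E1 ≤ 2 * (Psi μ m c π ρ R - Psi μ m c π ρ (R + 1)) := by
      rw [hPR, hPR1]
      nlinarith [mul_nonneg hm (show 0 ≤ 2 * VR - ER - E1 by linarith)]
    have hT : Psi μ m c π ρ (R + 1) ≤ Psi μ m c π ρ R := Psi_succ_le hs R
    have ih' := mul_le_mul_of_nonneg_left ih hm
    have hsn : 0 ≤ s := sR_nonneg m R
    have hmono : (m : ℝ) * (2 * s * (Psi μ m c π ρ 0 - Psi μ m c π ρ R)) ≤
        (m : ℝ) * (2 * s * (Psi μ m c π ρ 0 - Psi μ m c π ρ (R + 1))) := by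
      apply mul_le_mul_of_nonneg_left _ hm
      apply mul_le_mul_of_nonneg_left _ (by positivity)
      linarith
    rw [hs']
    have e1 : E1 ≥ 2 * VR - ER - 2 * (Psi μ m c π ρ R - Psi μ m c π ρ (R + 1)) := by linarith
    have e2 : 2 * VR - ER = 2 * Psi μ m c π ρ R + m * ER := by rw [hPR]; ring
    have e3 : 2 * Psi μ m c π ρ 0 = 2 * V0 - (m + 1) * E0 := by rw [hP0]; ring
    nlinarith

/-- upper bound for the entropy of one-sided views -/
theorem HS_upper (hs : Stat μ m c π ρ) (R : ℕ) :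
    H μ (fun h => ((S c π ρ R h : ST A m R), c (π h))) ≤
      sR m R * HV μ m c π ρ 0 - (sR m R - 1) * HE μ m c π ρ 0 := by
  have fmcπ : FM (fun h => c (π h)) := hs.fm.comp_right hs.mpπ.measurable
  induction R with
  | zero =>
    simp only [sR]
    have : H μ (fun h => ((S c π ρ 0 h : ST A m 0), c (π h))) = HE μ m c π ρ 0 := rfl
    rw [this]; linarith
  | succ R ih =>
    -- star `Z = Vw 0`, family `X_k = S R (π (ρ^[k+1] h))`
    have h0 := H_pi_le μ m (fun k h => (S c π ρ R (π (ρ^[k.val + 1] h)) : ST A m R))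
      (fun k => hs.fmSτ R (k.val + 1)) (hs.fmVw 0)
    have h1 : H μ (fun h => ((fun k : Fin m =>
        (S c π ρ R (π (ρ^[k.val + 1] h)) : ST A m R)),
        (Vw c π ρ 0 h : A × (Fin (m + 1) → ST A m 0)))) =
        H μ (fun h => ((S c π ρ (R + 1) h : ST A m (R + 1)), c (π h))) := by
      refine H_eq_of_det μ ((FM.pi fun k : Fin m => hs.fmSτ R (k.val + 1)).pair (hs.fmVw 0))
        ((hs.fmS (R + 1)).pair fmcπ) fun h h' => ?_
      constructor
      · intro e
        have e' := Prod.mk_inj.1 e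
        obtain ⟨e0, e1⟩ := (S_succ_eq_iff c π ρ R h h').1 e'.1
        refine Prod.ext (funext fun k => e1 k) ((Vw_eq_iff c π ρ 0 h h').2 ⟨e0, fun k => ?_⟩)
        induction k using Fin.cases with
        | zero => exact e'.2
        | succ k => exact S_det_zero c π ρ R _ _ (e1 k)
      · intro e
        have e1 := congrArg Prod.fst e
        have e2 := (Vw_eq_iff c π ρ 0 h h').1 (congrArg Prod.snd e)
        exact Prod.ext ((S_succ_eq_iff c π ρ R h h').2 ⟨e2.1, fun k => congrFun e1 k⟩) (e2.2 0)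
    have h2 : ∀ k : Fin m, H μ (fun h => ((S c π ρ R (π (ρ^[k.val + 1] h)) : ST A m R),
        (Vw c π ρ 0 h : A × (Fin (m + 1) → ST A m 0)))) - HV μ m c π ρ 0 ≤
        H μ (fun h => ((S c π ρ R h : ST A m R), c (π h))) - HE μ m c π ρ 0 := by
      intro k
      have fmW : FM (fun h => (c (π (ρ^[k.val + 1] h)), c h)) :=
        (hs.fm.comp_right (hs.mpτ (k.val + 1)).measurable).pair hs.fm
      have h3 := cond_le_cond μ (hs.fmSτ R (k.val + 1)) (hs.fmVw 0) fmW fun h h' e => by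
        rw [Vw_eq_iff] at e
        rw [Prod.mk.injEq]
        exact ⟨e.2 k.succ, e.1⟩
      refine h3.trans (le_of_eq ?_)
      congr 1
      · rw [← H_comp_mp μ ((hs.fmS R).pair fmcπ) (hs.mpτ (k.val + 1))]
        refine H_eq_of_det μ ((hs.fmSτ R (k.val + 1)).pair fmW)
          (((hs.fmS R).pair fmcπ).comp_right (hs.mpτ (k.val + 1)).measurable) fun h h' => ?_
        simp only [Prod.mk.injEq, hs.invol, hs.colk]
        exact ⟨fun e => ⟨e.1, S_det_zero c π ρ R _ _ e.1, e.2⟩, fun e => ⟨e.1, e.2.2⟩⟩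
      · unfold HE
        rw [← H_comp_mp μ (hs.fmEd 0) (hs.mpτ (k.val + 1))]
        refine H_eq_of_det μ fmW ((hs.fmEd 0).comp_right (hs.mpτ (k.val + 1)).measurable)
          fun h h' => ?_
        simp only [Ed, Prod.mk.injEq, hs.invol, S_zero]
        exact and_congr_right fun _ => hs.colk (k.val + 1) h h'
    rw [h1] at h0
    have h4 := Finset.sum_le_sum fun k (_ : k ∈ (Finset.univ : Finset (Fin m))) => h2 k
    rw [Finset.sum_const, Finset.card_univ, Fintype.card_fin, nsmul_eq_mul] at h4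
    have hs' : sR m (R + 1) = 1 + m * sR m R := rfl
    have hm : (0 : ℝ) ≤ (m : ℝ) := by positivity
    have h5 := mul_le_mul_of_nonneg_left ih hm
    rw [hs']
    have h6 : H μ (fun h => ((S c π ρ (R + 1) h : ST A m (R + 1)), c (π h))) ≤
      HV μ m c π ρ 0 + (m : ℝ) * (H μ (fun h => ((S c π ρ R h : ST A m R), c (π h))) -
        HE μ m c π ρ 0) := h0.trans (add_le_add (le_refl _) h4)
    linarith

/-- **Section 40.8.** The two sides of the edge are almost conditionally independent. -/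
theorem condMI_le (hs : Stat μ m c π ρ) (R : ℕ) :
    condMI μ (fun h => (S c π ρ R h : ST A m R)) (fun h => (S c π ρ R (π h) : ST A m R))
      (fun h => (c h, c (π h))) ≤ 2 * sR m R * (Psi μ m c π ρ 0 - Psi μ m c π ρ R) := by
  have fmcπ : FM (fun h => c (π h)) := hs.fm.comp_right hs.mpπ.measurable
  have fmZ : FM (fun h => (c h, c (π h))) := hs.fm.pair fmcπ
  have h1 := HE_lower hs R
  have h2 := HS_upper hs R
  unfold condMI
  have e1 : H μ (fun h => ((S c π ρ R h : ST A m R), c h, c (π h))) =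
      H μ (fun h => ((S c π ρ R h : ST A m R), c (π h))) := by
    refine H_eq_of_det μ ((hs.fmS R).pair fmZ) ((hs.fmS R).pair fmcπ) fun h h' => ?_
    simp only [Prod.mk.injEq]
    exact ⟨fun e => ⟨e.1, S_det_zero c π ρ R _ _ e.1, e.2⟩, fun e => ⟨e.1, e.2.2⟩⟩
  have e2 : H μ (fun h => ((S c π ρ R (π h) : ST A m R), c h, c (π h))) =
      H μ (fun h => ((S c π ρ R h : ST A m R), c (π h))) := by
    rw [← H_comp_mp μ ((hs.fmS R).pair fmcπ) hs.mpπ]
    refine H_eq_of_det μ ((hs.fmSπ R).pair fmZ)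
      (((hs.fmS R).pair fmcπ).comp_right hs.mpπ.measurable) fun h h' => ?_
    simp only [Prod.mk.injEq, hs.invol]
    exact ⟨fun e => ⟨e.1, e.2, S_det_zero c π ρ R _ _ e.1⟩, fun e => ⟨e.1, e.2.1⟩⟩
  have e3 : H μ (fun h => ((S c π ρ R h : ST A m R), (S c π ρ R (π h) : ST A m R),
      c h, c (π h))) = HE μ m c π ρ R := by
    refine H_eq_of_det μ ((hs.fmS R).pair ((hs.fmSπ R).pair fmZ)) (hs.fmEd R) fun h h' => ?_
    simp only [Ed, Prod.mk.injEq]
    exact ⟨fun e => ⟨e.1, e.2, S_det_zero c π ρ R _ _ e.1, S_det_zero c π ρ R _ _ e.2⟩,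
      fun e => ⟨e.1, e.2.1⟩⟩
  have e4 : H μ (fun h => (c h, c (π h))) = HE μ m c π ρ 0 := rfl
  rw [e1, e2, e3, e4]
  nlinarith

end Chain

end Crest.Agent.R166.EntTree397
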