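import Mathlib

/-!
Row 166, section 40.8 (helper397): Shannon entropy toolkit for finitely valued random variables on an
arbitrary probability space.  No measurable structure is needed on the alphabets: `FM X` says that all
fibres are measurable.

Main results:
* `H`, `condMI`, `H_le_of_det`, `H_eq_of_det` (entropy only depends on the information),
* `condMI_nonneg` (submodularity), `H_pair_le`, `H_pi_le` (conditional subadditivity for families),
* `condMI_mono_left` (data processing),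
* `condMI_pinsker`: `(∑ |P - P_{XZ} P_{YZ} / P_Z|)² ≤ 4 I(X;Y|Z)`.
-/

set_option autoImplicit false

namespace Crest.Agent.R166.Ent397

open MeasureTheory Finset

/-! ### Finite sums -/

section Fin

variable {α β γ ι : Type*} [Fintype α] [Fintype β] [Fintype γ] [Fintype ι]

theorem negMulLog_add_le {x y : ℝ} (hx : 0 ≤ x) (hy : 0 ≤ y) :
    Real.negMulLog (x + y) ≤ Real.negMulLog x + Real.negMulLog y := by
  rcases eq_or_lt_of_le hx with h | h
  · subst h; simp
  rcases eq_or_lt_of_le hy with h' | h'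
  · subst h'; simp
  simp only [Real.negMulLog]
  have h1 : Real.log x ≤ Real.log (x + y) := Real.log_le_log h (by linarith)
  have h2 : Real.log y ≤ Real.log (x + y) := Real.log_le_log h' (by linarith)
  nlinarith [mul_le_mul_of_nonneg_left h1 hx, mul_le_mul_of_nonneg_left h2 hy]

theorem negMulLog_sum_le {ι : Type*} (s : Finset ι) (p : ι → ℝ) (hp : ∀ i, 0 ≤ p i) :
    Real.negMulLog (∑ i ∈ s, p i) ≤ ∑ i ∈ s, Real.negMulLog (p i) := by
  classical
  induction s using Finset.induction_on with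
  | empty => simp
  | insert a s ha ih =>
    rw [Finset.sum_insert ha, Finset.sum_insert ha]
    exact (negMulLog_add_le (hp a) (Finset.sum_nonneg fun i _ => hp i)).trans (by linarith)

/-- Gibbs inequality in Hellinger form. -/
theorem gibbs_hellinger (p q : ι → ℝ) (hp : ∀ i, 0 ≤ p i) (hq : ∀ i, 0 ≤ q i)
    (hpq : ∀ i, p i ≠ 0 → q i ≠ 0) :
    ∑ i, (2 * p i - 2 * Real.sqrt (p i * q i)) ≤ ∑ i, p i * Real.log (p i / q i) := by
  refine Finset.sum_le_sum fun i _ => ?_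
  rcases eq_or_lt_of_le (hp i) with h | h
  · simp [← h]
  have hqi : 0 < q i := lt_of_le_of_ne (hq i) (Ne.symm (hpq i h.ne'))
  have h1 : Real.log (p i / q i) = - (2 * Real.log (Real.sqrt (q i / p i))) := by
    rw [Real.log_sqrt (by positivity), Real.log_div h.ne' hqi.ne', Real.log_div hqi.ne' h.ne']
    ring
  have h2 : Real.log (Real.sqrt (q i / p i)) ≤ Real.sqrt (q i / p i) - 1 :=
    Real.log_le_sub_one_of_pos (Real.sqrt_pos.2 (by positivity))
  have h3 : p i * Real.sqrt (q i / p i) = Real.sqrt (p i * q i) := by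
    have : p i * q i = p i ^ 2 * (q i / p i) := by field_simp
    rw [this, Real.sqrt_mul (by positivity), Real.sqrt_sq h.le]
  rw [h1, ← h3]
  nlinarith [mul_le_mul_of_nonneg_left h2 h.le]

theorem gibbs (p q : ι → ℝ) (hp : ∀ i, 0 ≤ p i) (hq : ∀ i, 0 ≤ q i)
    (hpq : ∀ i, p i ≠ 0 → q i ≠ 0) (hs : ∑ i, q i ≤ ∑ i, p i) :
    0 ≤ ∑ i, p i * Real.log (p i / q i) := by
  refine le_trans ?_ (gibbs_hellinger p q hp hq hpq)
  have : ∀ i, p i - q i ≤ 2 * p i - 2 * Real.sqrt (p i * q i) := fun i => by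
    have h1 : Real.sqrt (p i * q i) = Real.sqrt (p i) * Real.sqrt (q i) := Real.sqrt_mul (hp i) _
    have h2 := Real.sq_sqrt (hp i)
    have h3 := Real.sq_sqrt (hq i)
    rw [h1]
    nlinarith [sq_nonneg (Real.sqrt (p i) - Real.sqrt (q i))]
  have h2 := Finset.sum_le_sum fun i (_ : i ∈ (Finset.univ : Finset ι)) => this i
  rw [Finset.sum_sub_distrib] at h2
  linarith

/-- Pinsker inequality with constant `4`. -/
theorem pinsker (p q : ι → ℝ) (hp : ∀ i, 0 ≤ p i) (hq : ∀ i, 0 ≤ q i)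
    (hpq : ∀ i, p i ≠ 0 → q i ≠ 0) (hp1 : ∑ i, p i = 1) (hq1 : ∑ i, q i = 1) :
    (∑ i, |p i - q i|) ^ 2 ≤ 4 * ∑ i, p i * Real.log (p i / q i) := by
  have h1 := gibbs_hellinger p q hp hq hpq
  have hsq : ∀ i, Real.sqrt (p i * q i) = Real.sqrt (p i) * Real.sqrt (q i) :=
    fun i => Real.sqrt_mul (hp i) _
  have e1 : ∑ i, (Real.sqrt (p i) - Real.sqrt (q i)) ^ 2 =
      ∑ i, (2 * p i - 2 * Real.sqrt (p i * q i)) := by
    have : ∀ i, (Real.sqrt (p i) - Real.sqrt (q i)) ^ 2 =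
        (2 * p i - 2 * Real.sqrt (p i * q i)) + (q i - p i) := fun i => by
      rw [hsq]
      nlinarith [Real.sq_sqrt (hp i), Real.sq_sqrt (hq i)]
    rw [Finset.sum_congr rfl fun i _ => this i, Finset.sum_add_distrib, Finset.sum_sub_distrib (f := q),
      hp1, hq1]
    ring
  have e2 : ∑ i, (Real.sqrt (p i) + Real.sqrt (q i)) ^ 2 ≤ 4 := by
    have : ∀ i, (Real.sqrt (p i) + Real.sqrt (q i)) ^ 2 ≤ 2 * p i + 2 * q i := fun i => by
      nlinarith [Real.sq_sqrt (hp i), Real.sq_sqrt (hq i),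
        sq_nonneg (Real.sqrt (p i) - Real.sqrt (q i))]
    refine (Finset.sum_le_sum fun i _ => this i).trans ?_
    rw [Finset.sum_add_distrib, ← Finset.mul_sum, ← Finset.mul_sum, hp1, hq1]
    norm_num
  have e3 : ∑ i, |p i - q i| =
      ∑ i, |Real.sqrt (p i) - Real.sqrt (q i)| * (Real.sqrt (p i) + Real.sqrt (q i)) := by
    refine Finset.sum_congr rfl fun i _ => ?_
    have h0 : 0 ≤ Real.sqrt (p i) + Real.sqrt (q i) := by positivity
    have h5 : |Real.sqrt (p i) - Real.sqrt (q i)| * (Real.sqrt (p i) + Real.sqrt (q i)) =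
        |(Real.sqrt (p i) - Real.sqrt (q i)) * (Real.sqrt (p i) + Real.sqrt (q i))| := by
      rw [abs_mul, abs_of_nonneg h0]
    rw [h5]
    congr 1
    nlinarith [Real.sq_sqrt (hp i), Real.sq_sqrt (hq i)]
  have e4 := Finset.sum_mul_sq_le_sq_mul_sq Finset.univ
    (fun i => |Real.sqrt (p i) - Real.sqrt (q i)|) (fun i => Real.sqrt (p i) + Real.sqrt (q i))
  rw [← e3] at e4
  simp only [sq_abs] at e4
  rw [e1] at e4
  have hnn : 0 ≤ ∑ i, (2 * p i - 2 * Real.sqrt (p i * q i)) := by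
    rw [← e1]; positivity
  calc (∑ i, |p i - q i|) ^ 2
      ≤ (∑ i, (2 * p i - 2 * Real.sqrt (p i * q i))) *
        ∑ i, (Real.sqrt (p i) + Real.sqrt (q i)) ^ 2 := e4
    _ ≤ (∑ i, (2 * p i - 2 * Real.sqrt (p i * q i))) * 4 := mul_le_mul_of_nonneg_left e2 hnn
    _ ≤ 4 * ∑ i, p i * Real.log (p i / q i) := by linarith

end Fin

/-! ### Random variables with finitely many values -/

section RV

variable {Ω : Type*} [MeasurableSpace Ω] {α β γ δ : Type*}

/-- all fibres are measurable -/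
def FM (X : Ω → α) : Prop := ∀ a, MeasurableSet (X ⁻¹' {a})

theorem FM.preimage [Finite α] {X : Ω → α} (hX : FM X) (s : Set α) : MeasurableSet (X ⁻¹' s) := by
  have : X ⁻¹' s = ⋃ a ∈ s, X ⁻¹' {a} := by ext ω; simp
  rw [this]
  exact Set.Finite.measurableSet_biUnion (Set.toFinite s) fun a _ => hX a

theorem FM.comp [Finite α] {X : Ω → α} (hX : FM X) (f : α → β) : FM (fun ω => f (X ω)) := fun b => by
  have : (fun ω => f (X ω)) ⁻¹' {b} = X ⁻¹' (f ⁻¹' {b}) := rfl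
  rw [this]; exact hX.preimage _

theorem FM.pair {X : Ω → α} {Y : Ω → β} (hX : FM X) (hY : FM Y) : FM (fun ω => (X ω, Y ω)) :=
  fun ⟨a, b⟩ => by
    have : (fun ω => (X ω, Y ω)) ⁻¹' {(a, b)} = X ⁻¹' {a} ∩ Y ⁻¹' {b} := by
      ext ω; simp [Prod.ext_iff]
    rw [this]; exact (hX a).inter (hY b)

theorem FM.pi {ι : Type*} [Finite ι] {σ : ι → Type*} {X : ∀ i, Ω → σ i} (hX : ∀ i, FM (X i)) :
    FM (fun ω => fun i => X i ω) := fun a => by
  have : (fun ω => fun i => X i ω) ⁻¹' {a} = ⋂ i, X i ⁻¹' {a i} := by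
    ext ω; simp [funext_iff]
  rw [this]; exact MeasurableSet.iInter fun i => hX i (a i)

theorem FM.comp_right {Ω' : Type*} [MeasurableSpace Ω'] {X : Ω → α} (hX : FM X) {T : Ω' → Ω}
    (hT : Measurable T) : FM (fun ω => X (T ω)) := fun a => hT (hX a)

theorem FM.const (a : α) : FM (fun _ : Ω => a) := fun b => by
  by_cases h : a = b
  · subst h; simp
  · have : (fun _ : Ω => a) ⁻¹' {b} = ∅ := by ext; simp [h]
    rw [this]; exact MeasurableSet.empty

/-- law of a variable, as a real function -/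
noncomputable def lw (μ : Measure Ω) (X : Ω → α) (a : α) : ℝ := μ.real (X ⁻¹' {a})

/-- Shannon entropy -/
noncomputable def H (μ : Measure Ω) [Fintype α] (X : Ω → α) : ℝ := ∑ a, Real.negMulLog (lw μ X a)

/-- conditional mutual information `I(X;Y|Z)` -/
noncomputable def condMI (μ : Measure Ω) [Fintype α] [Fintype β] [Fintype γ]
    (X : Ω → α) (Y : Ω → β) (Z : Ω → γ) : ℝ :=
  H μ (fun ω => (X ω, Z ω)) + H μ (fun ω => (Y ω, Z ω)) -
    H μ (fun ω => (X ω, Y ω, Z ω)) - H μ Z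

variable (μ : Measure Ω)

theorem lw_nonneg (X : Ω → α) (a : α) : 0 ≤ lw μ X a := measureReal_nonneg

theorem lw_comp [IsFiniteMeasure μ] [Fintype α] [DecidableEq β] {X : Ω → α} (hX : FM X) (f : α → β)
    (b : β) : lw μ (fun ω => f (X ω)) b = ∑ a with f a = b, lw μ X a := by
  have h1 : (fun ω => f (X ω)) ⁻¹' {b} = ⋃ a ∈ (Finset.univ.filter fun a => f a = b), X ⁻¹' {a} := by
    ext ω; simp
  unfold lw
  rw [h1, measureReal_biUnion_finset]
  · intro a _ a' _ haa'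
    refine Set.disjoint_left.2 fun ω h h' => haa' ?_
    simp only [Set.mem_preimage, Set.mem_singleton_iff] at h h'
    exact h.symm.trans h'
  · exact fun a _ => hX a

theorem sum_lw [IsProbabilityMeasure μ] [Fintype α] {X : Ω → α} (hX : FM X) :
    ∑ a, lw μ X a = 1 := by
  classical
  have h := lw_comp μ hX (fun _ => ()) ()
  simp only [Finset.filter_true] at h
  rw [← h]
  unfold lw
  have : (fun _ : Ω => ()) ⁻¹' {()} = Set.univ := by ext; simp
  rw [this]; simp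

theorem lw_fst [IsFiniteMeasure μ] [Fintype α] [Fintype β] {X : Ω → α} {Y : Ω → β} (hX : FM X)
    (hY : FM Y) (a : α) : lw μ X a = ∑ b, lw μ (fun ω => (X ω, Y ω)) (a, b) := by
  classical
  have h := lw_comp μ (hX.pair hY) Prod.fst a
  simp only at h
  rw [h, Finset.sum_filter, Fintype.sum_prod_type]
  rw [Finset.sum_eq_single a]
  · simp
  · intro b _ hb; simp [hb]
  · simp

theorem lw_snd [IsFiniteMeasure μ] [Fintype α] [Fintype β] {X : Ω → α} {Y : Ω → β} (hX : FM X)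
    (hY : FM Y) (b : β) : lw μ Y b = ∑ a, lw μ (fun ω => (X ω, Y ω)) (a, b) := by
  classical
  have h := lw_comp μ (hX.pair hY) Prod.snd b
  simp only at h
  rw [h, Finset.sum_filter, Fintype.sum_prod_type]
  refine Finset.sum_congr rfl fun a _ => ?_
  simp

theorem H_comp_le [IsFiniteMeasure μ] [Fintype α] [Fintype β] {X : Ω → α} (hX : FM X) (f : α → β) :
    H μ (fun ω => f (X ω)) ≤ H μ X := by
  classical
  unfold H
  calc ∑ b, Real.negMulLog (lw μ (fun ω => f (X ω)) b)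
      = ∑ b, Real.negMulLog (∑ a with f a = b, lw μ X a) :=
        Finset.sum_congr rfl fun b _ => by rw [lw_comp μ hX f b]
    _ ≤ ∑ b, ∑ a with f a = b, Real.negMulLog (lw μ X a) :=
        Finset.sum_le_sum fun b _ => negMulLog_sum_le _ _ fun a => lw_nonneg μ X a
    _ = ∑ a, Real.negMulLog (lw μ X a) := by
        rw [← Finset.sum_fiberwise Finset.univ f (fun a => Real.negMulLog (lw μ X a))]

omit [MeasurableSpace Ω] in
theorem exists_eq_comp [Nonempty Ω] {X : Ω → α} {Y : Ω → β}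
    (h : ∀ ω ω', Y ω = Y ω' → X ω = X ω') : ∃ f : β → α, X = fun ω => f (Y ω) := by
  classical
  refine ⟨fun b => if hb : ∃ ω, Y ω = b then X hb.choose else X (Classical.arbitrary Ω), ?_⟩
  funext ω
  have hb : ∃ ω', Y ω' = Y ω := ⟨ω, rfl⟩
  simp only [hb, dif_pos]
  exact h _ _ hb.choose_spec.symm

/-- if `Y` determines `X` then `H X ≤ H Y` -/
theorem H_le_of_det [IsProbabilityMeasure μ] [Fintype α] [Fintype β] {X : Ω → α} {Y : Ω → β}
    (hY : FM Y) (h : ∀ ω ω', Y ω = Y ω' → X ω = X ω') : H μ X ≤ H μ Y := by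
  have : Nonempty Ω := μ.nonempty_of_neZero
  obtain ⟨f, rfl⟩ := exists_eq_comp h
  exact H_comp_le μ hY f

/-- if `X` and `Y` determine each other then they have the same entropy -/
theorem H_eq_of_det [IsProbabilityMeasure μ] [Fintype α] [Fintype β] {X : Ω → α} {Y : Ω → β}
    (hX : FM X) (hY : FM Y) (h : ∀ ω ω', Y ω = Y ω' ↔ X ω = X ω') : H μ X = H μ Y :=
  le_antisymm (H_le_of_det μ hY fun ω ω' h' => (h ω ω').1 h')
    (H_le_of_det μ hX fun ω ω' h' => (h ω ω').2 h')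

theorem FM_of_det [Nonempty Ω] [Finite β] {X : Ω → α} {Y : Ω → β}
    (hY : FM Y) (h : ∀ ω ω', Y ω = Y ω' → X ω = X ω') : FM X := by
  obtain ⟨f, rfl⟩ := exists_eq_comp h
  exact hY.comp f

theorem H_nonneg [IsProbabilityMeasure μ] [Fintype α] (X : Ω → α) : 0 ≤ H μ X :=
  Finset.sum_nonneg fun _ _ => Real.negMulLog_nonneg (lw_nonneg μ X _) measureReal_le_one

/-- invariance under measure preserving maps -/
theorem H_comp_mp [Fintype α] {X : Ω → α} (hX : FM X) {T : Ω → Ω} (hT : MeasurePreserving T μ μ) :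
    H μ (fun ω => X (T ω)) = H μ X := by
  unfold H lw
  refine Finset.sum_congr rfl fun a _ => ?_
  have : (fun ω => X (T ω)) ⁻¹' {a} = T ⁻¹' (X ⁻¹' {a}) := rfl
  rw [this, hT.measureReal_preimage (hX a).nullMeasurableSet]


/-! ### Conditional mutual information -/

section CMI

variable [IsProbabilityMeasure μ] [Fintype α] [Fintype β] [Fintype γ]

theorem lw_zero_of_fst {X : Ω → α} {Y : Ω → β} (hX : FM X)
    (hY : FM Y) {a : α} (h : lw μ X a = 0) (b : β) : lw μ (fun ω => (X ω, Y ω)) (a, b) = 0 := by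
  rw [lw_fst μ hX hY a] at h
  exact (Finset.sum_eq_zero_iff_of_nonneg fun b _ => lw_nonneg μ _ _).1 h b (Finset.mem_univ _)

/-- marginal `P(x,z)` from the joint law of `(X,Y,Z)` -/
theorem lw_XZ {X : Ω → α} {Y : Ω → β} {Z : Ω → γ} (hX : FM X) (hY : FM Y) (hZ : FM Z)
    (a : α) (c : γ) :
    lw μ (fun ω => (X ω, Z ω)) (a, c) = ∑ b, lw μ (fun ω => (X ω, Y ω, Z ω)) (a, b, c) := by
  classical
  have h := lw_comp μ (hX.pair (hY.pair hZ)) (fun t : α × β × γ => (t.1, t.2.2)) (a, c)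
  simp only at h
  rw [h, Finset.sum_filter, Fintype.sum_prod_type, Finset.sum_eq_single a]
  · rw [Fintype.sum_prod_type]
    refine Finset.sum_congr rfl fun b _ => ?_
    simp
  · intro x _ hx
    exact Finset.sum_eq_zero fun y _ => by simp [hx]
  · simp

/-- marginal `P(y,z)` from the joint law of `(X,Y,Z)` -/
theorem lw_YZ {X : Ω → α} {Y : Ω → β} {Z : Ω → γ} (hX : FM X) (hY : FM Y) (hZ : FM Z)
    (b : β) (c : γ) :
    lw μ (fun ω => (Y ω, Z ω)) (b, c) = ∑ a, lw μ (fun ω => (X ω, Y ω, Z ω)) (a, b, c) :=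
  lw_snd μ hX (hY.pair hZ) (b, c)

theorem H_eq_neg_sum {X : Ω → α} {Y : Ω → β} (hX : FM X) (hY : FM Y) :
    H μ X = - ∑ a, ∑ b, lw μ (fun ω => (X ω, Y ω)) (a, b) * Real.log (lw μ X a) := by
  unfold H
  rw [← Finset.sum_neg_distrib]
  refine Finset.sum_congr rfl fun a _ => ?_
  rw [← Finset.sum_mul, ← lw_fst μ hX hY a, Real.negMulLog]
  ring

/-- the Markov reference law `P(x,z) P(y,z) / P(z)` -/
noncomputable def mk (X : Ω → α) (Y : Ω → β) (Z : Ω → γ) (t : α × β × γ) : ℝ :=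
  lw μ (fun ω => (X ω, Z ω)) (t.1, t.2.2) * lw μ (fun ω => (Y ω, Z ω)) (t.2.1, t.2.2) /
    lw μ Z t.2.2

theorem mk_nonneg (X : Ω → α) (Y : Ω → β) (Z : Ω → γ) (t : α × β × γ) : 0 ≤ mk μ X Y Z t :=
  div_nonneg (mul_nonneg (lw_nonneg μ _ _) (lw_nonneg μ _ _)) (lw_nonneg μ _ _)

theorem sum_mk {X : Ω → α} {Y : Ω → β} {Z : Ω → γ} (hX : FM X) (hY : FM Y) (hZ : FM Z) :
    ∑ t, mk μ X Y Z t = 1 := by
  classical
  rw [Fintype.sum_prod_type]
  simp only [Fintype.sum_prod_type]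
  have h1 : ∀ c, ∑ a, ∑ b, mk μ X Y Z (a, b, c) = lw μ Z c := fun c => by
    have hx := lw_snd μ hX hZ c
    have hy := lw_snd μ hY hZ c
    simp only [mk]
    rcases eq_or_ne (lw μ Z c) 0 with h | h
    · simp [h]
    · simp only [← Finset.sum_div, ← Finset.mul_sum, ← Finset.sum_mul]
      rw [← hx, ← hy]
      field_simp
  calc ∑ a, ∑ b, ∑ c, mk μ X Y Z (a, b, c) = ∑ c, ∑ a, ∑ b, mk μ X Y Z (a, b, c) := by
        rw [Finset.sum_comm]
        rw [Finset.sum_congr rfl fun b _ => Finset.sum_comm]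
        rw [Finset.sum_comm]
        exact Finset.sum_congr rfl fun c _ => Finset.sum_comm
    _ = 1 := by
        rw [Finset.sum_congr rfl fun c _ => h1 c]; exact sum_lw μ hZ

theorem mk_ne_zero {X : Ω → α} {Y : Ω → β} {Z : Ω → γ} (hX : FM X) (hY : FM Y) (hZ : FM Z)
    (t : α × β × γ) (h : lw μ (fun ω => (X ω, Y ω, Z ω)) t ≠ 0) :
    lw μ (fun ω => (X ω, Z ω)) (t.1, t.2.2) ≠ 0 ∧ lw μ (fun ω => (Y ω, Z ω)) (t.2.1, t.2.2) ≠ 0 ∧
      lw μ Z t.2.2 ≠ 0 := by
  obtain ⟨a, b, c⟩ := t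
  have h1 : lw μ (fun ω => (Y ω, Z ω)) (b, c) ≠ 0 := fun h0 => h (by
    have := lw_YZ μ hX hY hZ b c
    rw [h0] at this
    exact (Finset.sum_eq_zero_iff_of_nonneg fun _ _ => lw_nonneg μ _ _).1 this.symm a
      (Finset.mem_univ _))
  have h2 : lw μ (fun ω => (X ω, Z ω)) (a, c) ≠ 0 := fun h0 => h (by
    have := lw_XZ μ hX hY hZ a c
    rw [h0] at this
    exact (Finset.sum_eq_zero_iff_of_nonneg fun _ _ => lw_nonneg μ _ _).1 this.symm b
      (Finset.mem_univ _))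
  refine ⟨h2, h1, fun h0 => h1 ?_⟩
  have := lw_snd μ hY hZ c
  rw [h0] at this
  exact (Finset.sum_eq_zero_iff_of_nonneg fun _ _ => lw_nonneg μ _ _).1 this.symm b
    (Finset.mem_univ _)

theorem condMI_eq {X : Ω → α} {Y : Ω → β} {Z : Ω → γ} (hX : FM X) (hY : FM Y) (hZ : FM Z) :
    condMI μ X Y Z = ∑ t, lw μ (fun ω => (X ω, Y ω, Z ω)) t *
      Real.log (lw μ (fun ω => (X ω, Y ω, Z ω)) t / mk μ X Y Z t) := by
  classical
  set P : α × β × γ → ℝ := lw μ (fun ω => (X ω, Y ω, Z ω)) with hP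
  have e0 : H μ (fun ω => (X ω, Y ω, Z ω)) = - ∑ t, P t * Real.log (P t) := by
    unfold H; rw [← Finset.sum_neg_distrib]
    exact Finset.sum_congr rfl fun t _ => by rw [Real.negMulLog, ← hP]; ring
  have e1 : H μ (fun ω => (X ω, Z ω)) =
      - ∑ t, P t * Real.log (lw μ (fun ω => (X ω, Z ω)) (t.1, t.2.2)) := by
    unfold H
    rw [Fintype.sum_prod_type, Fintype.sum_prod_type, ← Finset.sum_neg_distrib]
    refine Finset.sum_congr rfl fun a _ => ?_
    rw [Fintype.sum_prod_type, Finset.sum_comm, ← Finset.sum_neg_distrib]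
    refine Finset.sum_congr rfl fun c _ => ?_
    dsimp only
    rw [← Finset.sum_mul, ← lw_XZ μ hX hY hZ a c, Real.negMulLog]; ring
  have e2 : H μ (fun ω => (Y ω, Z ω)) =
      - ∑ t, P t * Real.log (lw μ (fun ω => (Y ω, Z ω)) (t.2.1, t.2.2)) := by
    unfold H
    rw [Fintype.sum_prod_type (f := fun t : α × β × γ => _), Finset.sum_comm, ← Finset.sum_neg_distrib]
    refine Finset.sum_congr rfl fun s _ => ?_
    obtain ⟨b, c⟩ := s
    dsimp only
    rw [← Finset.sum_mul, ← lw_YZ μ hX hY hZ b c, Real.negMulLog]; ring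
  have e3 : H μ Z = - ∑ t, P t * Real.log (lw μ Z t.2.2) := by
    unfold H
    have hz : ∀ c, lw μ Z c = ∑ a, ∑ b, P (a, b, c) := fun c => by
      rw [lw_snd μ hX hZ c]
      exact Finset.sum_congr rfl fun a _ => lw_XZ μ hX hY hZ a c
    have : ∑ t, P t * Real.log (lw μ Z t.2.2) = ∑ c, lw μ Z c * Real.log (lw μ Z c) := by
      rw [Fintype.sum_prod_type]
      simp only [Fintype.sum_prod_type]
      rw [Finset.sum_congr rfl fun a _ => Finset.sum_comm, Finset.sum_comm]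
      refine Finset.sum_congr rfl fun c _ => ?_
      simp only [← Finset.sum_mul]
      rw [← hz c]
    rw [this, ← Finset.sum_neg_distrib]
    exact Finset.sum_congr rfl fun c _ => by rw [Real.negMulLog]; ring
  unfold condMI
  rw [e0, e1, e2, e3]
  rw [← sub_eq_zero]
  simp only [← Finset.sum_neg_distrib, ← Finset.sum_add_distrib, ← Finset.sum_sub_distrib]
  refine Finset.sum_eq_zero fun t _ => ?_
  rcases eq_or_ne (P t) 0 with h | h
  · simp [h]
  obtain ⟨h1, h2, h3⟩ := mk_ne_zero μ hX hY hZ t h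
  rw [mk, Real.log_div h (by positivity), Real.log_div (mul_ne_zero h1 h2) h3,
    Real.log_mul h1 h2]
  ring

theorem condMI_nonneg {X : Ω → α} {Y : Ω → β} {Z : Ω → γ} (hX : FM X) (hY : FM Y) (hZ : FM Z) :
    0 ≤ condMI μ X Y Z := by
  rw [condMI_eq μ hX hY hZ]
  refine gibbs _ _ (fun t => lw_nonneg μ _ _) (fun t => mk_nonneg μ X Y Z t) (fun t h => ?_) ?_
  · obtain ⟨h1, h2, h3⟩ := mk_ne_zero μ hX hY hZ t h
    exact div_ne_zero (mul_ne_zero h1 h2) h3
  · rw [sum_mk μ hX hY hZ, sum_lw μ (hX.pair (hY.pair hZ))]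

/-- conditional Pinsker inequality -/
theorem condMI_pinsker {X : Ω → α} {Y : Ω → β} {Z : Ω → γ} (hX : FM X) (hY : FM Y) (hZ : FM Z) :
    (∑ t, |lw μ (fun ω => (X ω, Y ω, Z ω)) t - mk μ X Y Z t|) ^ 2 ≤ 4 * condMI μ X Y Z := by
  rw [condMI_eq μ hX hY hZ]
  refine pinsker _ _ (fun t => lw_nonneg μ _ _) (fun t => mk_nonneg μ X Y Z t) (fun t h => ?_)
    (sum_lw μ (hX.pair (hY.pair hZ))) (sum_mk μ hX hY hZ)
  obtain ⟨h1, h2, h3⟩ := mk_ne_zero μ hX hY hZ t h
  exact div_ne_zero (mul_ne_zero h1 h2) h3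

/-! ### Conditioning, subadditivity, data processing -/

/-- conditioning on more reduces entropy: `H(X|Z) ≤ H(X|W)` if `Z` determines `W` -/
theorem cond_le_cond {X : Ω → α} {Z : Ω → β} {W : Ω → γ} (hX : FM X) (hZ : FM Z) (hW : FM W)
    (h : ∀ ω ω', Z ω = Z ω' → W ω = W ω') :
    H μ (fun ω => (X ω, Z ω)) - H μ Z ≤ H μ (fun ω => (X ω, W ω)) - H μ W := by
  have h0 := condMI_nonneg μ hX hZ hW
  unfold condMI at h0
  have h1 : H μ (fun ω => (Z ω, W ω)) = H μ Z :=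
    H_eq_of_det μ (hZ.pair hW) hZ fun ω ω' => by
      simp only [Prod.mk.injEq]; exact ⟨fun e => ⟨e, h _ _ e⟩, fun e => e.1⟩
  have h2 : H μ (fun ω => (X ω, Z ω, W ω)) = H μ (fun ω => (X ω, Z ω)) :=
    H_eq_of_det μ (hX.pair (hZ.pair hW)) (hX.pair hZ) fun ω ω' => by
      simp only [Prod.mk.injEq]
      exact ⟨fun e => ⟨e.1, e.2, h _ _ e.2⟩, fun e => ⟨e.1, e.2.1⟩⟩
  rw [h1, h2] at h0
  linarith

theorem H_pi_le (N : ℕ) (X : Fin N → Ω → α) (hX : ∀ k, FM (X k)) {Z : Ω → γ} (hZ : FM Z) :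
    H μ (fun ω => ((fun k => X k ω), Z ω)) ≤
      H μ Z + ∑ k, (H μ (fun ω => (X k ω, Z ω)) - H μ Z) := by
  induction N with
  | zero =>
    have : H μ (fun ω => ((fun k => X k ω), Z ω)) = H μ Z :=
      H_eq_of_det μ ((FM.pi hX).pair hZ) hZ fun ω ω' => by
        simp only [Prod.mk.injEq]
        exact ⟨fun e => ⟨funext fun k => k.elim0, e⟩, fun e => e.2⟩
    rw [this]; simp
  | succ N ih =>
    have ih' := ih (fun k => X k.succ) (fun k => hX _)
    have h0 := condMI_nonneg μ (hX 0) (FM.pi (fun k : Fin N => hX k.succ)) hZ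
    unfold condMI at h0
    have h1 : H μ (fun ω => ((fun k => X k ω), Z ω)) =
        H μ (fun ω => (X 0 ω, (fun k : Fin N => X k.succ ω), Z ω)) :=
      H_eq_of_det μ ((FM.pi hX).pair hZ) ((hX 0).pair ((FM.pi (fun k : Fin N => hX k.succ)).pair hZ))
        fun ω ω' => by
        simp only [Prod.mk.injEq, funext_iff]
        constructor
        · rintro ⟨e0, e1, e2⟩
          refine ⟨fun k => ?_, e2⟩
          induction k using Fin.cases with
          | zero => exact e0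
          | succ k => exact e1 k
        · rintro ⟨e1, e2⟩
          exact ⟨e1 0, fun k => e1 k.succ, e2⟩
    rw [h1, Fin.sum_univ_succ]
    linarith

/-- data processing for conditional mutual information (first argument) -/
theorem condMI_mono_left {α' : Type*} [Fintype α'] {X : Ω → α} {X' : Ω → α'} {Y : Ω → β} {Z : Ω → γ}
    (hX : FM X) (hX' : FM X') (hY : FM Y) (hZ : FM Z)
    (h : ∀ ω ω', X ω = X ω' → Z ω = Z ω' → X' ω = X' ω') :
    condMI μ X' Y Z ≤ condMI μ X Y Z := by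
  have h0 := condMI_nonneg μ hX hY (hX'.pair hZ)
  unfold condMI at *
  have h1 : H μ (fun ω => (X ω, X' ω, Z ω)) = H μ (fun ω => (X ω, Z ω)) :=
    H_eq_of_det μ (hX.pair (hX'.pair hZ)) (hX.pair hZ) fun ω ω' => by
      simp only [Prod.mk.injEq]
      exact ⟨fun e => ⟨e.1, h _ _ e.1 e.2, e.2⟩, fun e => ⟨e.1, e.2.2⟩⟩
  have h2 : H μ (fun ω => (X ω, Y ω, X' ω, Z ω)) = H μ (fun ω => (X ω, Y ω, Z ω)) :=
    H_eq_of_det μ (hX.pair (hY.pair (hX'.pair hZ))) (hX.pair (hY.pair hZ)) fun ω ω' => by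
      simp only [Prod.mk.injEq]
      exact ⟨fun e => ⟨e.1, e.2.1, h _ _ e.1 e.2.2, e.2.2⟩, fun e => ⟨e.1, e.2.1, e.2.2.2⟩⟩
  have h3 : H μ (fun ω => (Y ω, X' ω, Z ω)) = H μ (fun ω => (X' ω, Y ω, Z ω)) :=
    H_eq_of_det μ (hY.pair (hX'.pair hZ)) (hX'.pair (hY.pair hZ)) fun ω ω' => by
      simp only [Prod.mk.injEq]
      tauto
  rw [h1, h2, h3] at h0
  linarith

theorem condMI_symm {X : Ω → α} {Y : Ω → β} {Z : Ω → γ} (hX : FM X) (hY : FM Y) (hZ : FM Z) :
    condMI μ X Y Z = condMI μ Y X Z := by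
  unfold condMI
  have h3 : H μ (fun ω => (X ω, Y ω, Z ω)) = H μ (fun ω => (Y ω, X ω, Z ω)) :=
    H_eq_of_det μ (hX.pair (hY.pair hZ)) (hY.pair (hX.pair hZ)) fun ω ω' => by
      simp only [Prod.mk.injEq]
      tauto
  rw [h3]; ring

theorem condMI_mono_right {β' : Type*} [Fintype β'] {X : Ω → α} {Y : Ω → β} {Y' : Ω → β'} {Z : Ω → γ}
    (hX : FM X) (hY : FM Y) (hY' : FM Y') (hZ : FM Z)
    (h : ∀ ω ω', Y ω = Y ω' → Z ω = Z ω' → Y' ω = Y' ω') :
    condMI μ X Y' Z ≤ condMI μ X Y Z := by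
  rw [condMI_symm μ hX hY' hZ, condMI_symm μ hX hY hZ]
  exact condMI_mono_left μ hY hY' hX hZ h

/-- the conditioning variable only matters up to information -/
theorem condMI_congr_cond {γ' : Type*} [Fintype γ'] {X : Ω → α} {Y : Ω → β} {Z : Ω → γ}
    {Z' : Ω → γ'} (hX : FM X) (hY : FM Y) (hZ : FM Z) (hZ' : FM Z')
    (h : ∀ ω ω', Z ω = Z ω' ↔ Z' ω = Z' ω') :
    condMI μ X Y Z = condMI μ X Y Z' := by
  unfold condMI
  rw [H_eq_of_det μ hZ' hZ h,
    H_eq_of_det μ (hX.pair hZ') (hX.pair hZ) fun ω ω' => by simp only [Prod.mk.injEq, h],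
    H_eq_of_det μ (hY.pair hZ') (hY.pair hZ) fun ω ω' => by simp only [Prod.mk.injEq, h],
    H_eq_of_det μ (hX.pair (hY.pair hZ')) (hX.pair (hY.pair hZ)) fun ω ω' => by
      simp only [Prod.mk.injEq, h]]

/-- approximate conditional independence for bounded functions -/
theorem abs_sum_sub_mk_le {X : Ω → α} {Y : Ω → β} {Z : Ω → γ} (hX : FM X) (hY : FM Y) (hZ : FM Z)
    (f : α × β × γ → ℝ) (M : ℝ) (hf : ∀ t, |f t| ≤ M) :
    |∑ t, f t * lw μ (fun ω => (X ω, Y ω, Z ω)) t - ∑ t, f t * mk μ X Y Z t| ≤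
      2 * M * Real.sqrt (condMI μ X Y Z) := by
  have h1 := condMI_pinsker μ hX hY hZ
  have h2 : ∑ t, |lw μ (fun ω => (X ω, Y ω, Z ω)) t - mk μ X Y Z t| ≤
      2 * Real.sqrt (condMI μ X Y Z) := by
    have h3 : (0:ℝ) ≤ ∑ t, |lw μ (fun ω => (X ω, Y ω, Z ω)) t - mk μ X Y Z t| := by positivity
    have h4 := Real.sqrt_le_sqrt h1
    rw [Real.sqrt_sq h3, Real.sqrt_mul (by norm_num)] at h4
    have : Real.sqrt 4 = 2 := by
      rw [show (4:ℝ) = 2 ^ 2 by norm_num]; exact Real.sqrt_sq (by norm_num)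
    rwa [this] at h4
  have hM : 0 ≤ M := by
    have : Nonempty Ω := μ.nonempty_of_neZero
    obtain ⟨ω⟩ := this
    exact (abs_nonneg _).trans (hf (X ω, Y ω, Z ω))
  rw [← Finset.sum_sub_distrib]
  calc |∑ t, (f t * lw μ (fun ω => (X ω, Y ω, Z ω)) t - f t * mk μ X Y Z t)|
      ≤ ∑ t, |f t * lw μ (fun ω => (X ω, Y ω, Z ω)) t - f t * mk μ X Y Z t| :=
        Finset.abs_sum_le_sum_abs _ _
    _ ≤ ∑ t, M * |lw μ (fun ω => (X ω, Y ω, Z ω)) t - mk μ X Y Z t| := by
        refine Finset.sum_le_sum fun t _ => ?_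
        rw [← mul_sub, abs_mul]
        exact mul_le_mul_of_nonneg_right (hf t) (abs_nonneg _)
    _ ≤ M * (2 * Real.sqrt (condMI μ X Y Z)) := by
        rw [← Finset.mul_sum]; exact mul_le_mul_of_nonneg_left h2 hM
    _ = 2 * M * Real.sqrt (condMI μ X Y Z) := by ring

end CMI

end RV

end Crest.Agent.R166.Ent397
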