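import Mathlib
import Crest.Agent.R166.EnvDet_536
import Crest.Agent.R166.TreeWalk_356
import Crest.Agent.R166.DosB_420

/-!
Row 166 (helper536): the LLN for local functions of the environment, general form, and the
convergence of the normalised moments (`MomLim`, hypothesis of `DosB420.imFix_of_momLim`).
-/

set_option autoImplicit false

namespace Crest.Agent.R166.Env536

open MeasureTheory ProbabilityTheory Finset Crest.ProbabilityR.RandomMatrix TreeLike942

/-- bounded measurable local functions: for all ports outside a small bad set -/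
theorem port_lln (d : ℕ) [NeZero d] (D : ℕ) {g : (Ball d D → ℝ) → ℝ} (hgm : Measurable g) {M : ℝ}
    (hgM : ∀ ξ, |g ξ| ≤ M) {ε : ℝ} (hε : 0 < ε) :
    ∃ N : ℕ, ∀ n : ℕ, N ≤ n → ∃ Bad ⊆ Ports n d,
      (Bad.card : ℝ) ≤ ε * ((Ports n d).card : ℝ) ∧ ∀ p ∈ Ports n d, p ∉ Bad →
        (potentialLaw n) {ω | ε < |(∑ h : HE n d, g (fun x : Ball d D => ω (nv p h x.1))) /
          (n * d : ℝ) - ∫ ξ, g ξ ∂(Measure.pi fun _ : Ball d D => mu0)|} ≤ ENNReal.ofReal ε := by
  classical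
  have hd : 1 ≤ d := Nat.one_le_iff_ne_zero.2 (NeZero.ne d)
  have hM0' : 0 ≤ M := (abs_nonneg _).trans (hgM fun _ => 0)
  obtain ⟨c, hc⟩ : ∃ c : ℝ, c = ∫ ξ, g ξ ∂(Measure.pi fun _ : Ball d D => mu0) := ⟨_, rfl⟩
  have hcM : |c| ≤ M := by
    have := norm_integral_le_of_norm_le_const (μ := Measure.pi fun _ : Ball d D => mu0)
      (f := g) (C := M) (Filter.Eventually.of_forall fun ξ => hgM ξ)
    rw [hc]
    simpa using this
  have hε1p : 0 < ε / 4 := by positivity
  obtain ⟨ε', hε'p, hε'1, hε'2⟩ : ∃ ε' : ℝ, 0 < ε' ∧ ε' ≤ ε ∧ ε' * (2 * M) ≤ ε / 4 := by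
    refine ⟨min ε (ε / 4 / (2 * (M + 1))), lt_min (by positivity) (by positivity),
      min_le_left _ _, ?_⟩
    have h2 : min ε (ε / 4 / (2 * (M + 1))) ≤ ε / 4 / (2 * (M + 1)) := min_le_right _ _
    rw [le_div_iff₀ (by positivity)] at h2
    have h3 : 0 ≤ min ε (ε / 4 / (2 * (M + 1))) := le_min hε.le (by positivity)
    nlinarith
  obtain ⟨N1, hN1⟩ := few_bad d hd (D + 1) ε' hε'p
  obtain ⟨b, hb⟩ : ∃ b : ℕ, b = Fintype.card (Ball d D) := ⟨_, rfl⟩
  obtain ⟨N2, hN2⟩ := exists_nat_gt (2 * ((2 * M) ^ 2 * (b * b)) / ((ε / 4) ^ 2 * ε))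
  refine ⟨N1 + N2 + 1, fun n hn => ?_⟩
  have hn1 : 1 ≤ n := by omega
  have hn0 : (0 : ℝ) < n := by exact_mod_cast hn1
  have hd0 : (0 : ℝ) < d := by exact_mod_cast hd
  have hnd : (0 : ℝ) < (n : ℝ) * d := mul_pos hn0 hd0
  have hNn : (N2 : ℝ) ≤ n := by
    have : N2 ≤ n := by omega
    exact_mod_cast this
  have hb2 := arith_part (b := b) (M := M) hn0 hd0 hε hε1p (hN2.le.trans hNn)
  refine ⟨(Ports n d).filter fun p => ε' * n ≤ (nbad (D + 1) p : ℝ), filter_subset _ _, ?_, ?_⟩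
  · refine (le_of_eq ?_).trans ((hN1 n (by omega)).trans
      (mul_le_mul_of_nonneg_right hε'1 (Nat.cast_nonneg _)))
    congr!
  intro p hp hpbad
  have hport : IsPort p := mem_Ports.1 hp
  rw [mem_filter, not_and, not_le] at hpbad
  have hnb := hpbad hp
  have hcheb := cheb_part hport hnd D hgm hgM hε1p
  rw [← hc, ← hb] at hcheb
  rw [← hc]
  have hb3 : ENNReal.ofReal (ε / 2) ≤ ENNReal.ofReal ε := ENNReal.ofReal_le_ofReal (by linarith)
  refine le_trans ?_ ((hcheb.trans (ENNReal.ofReal_le_ofReal hb2)).trans hb3)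
  apply measure_mono
  intro ω hω
  by_contra hlt
  have hlt' : |∑ h ∈ univ.filter (fun h : HE n d => TreeAt Prod.fst p (D + 1) h.1),
      (g (fun x : Ball d D => ω (nv p h x.1)) - c)| ≤ ε / 4 * (n * d) :=
    (not_le.1 fun h => hlt h).le
  have hfin := avg_close hnd (fun h => g (fun x : Ball d D => ω (nv p h x.1)))
    (fun h => g (fun x : Ball d D => ω (nv p h x.1))) c M (ε / 4)
    (univ.filter (fun h : HE n d => TreeAt Prod.fst p (D + 1) h.1))
    (fun h => hgM _) hcM hε1p.le (fun h _ => by rw [sub_self, abs_zero]; exact hε1p.le) hlt' ?_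
  · rw [show 4 * (ε / 4) = ε by ring] at hfin
    exact absurd hω (not_lt.2 hfin)
  · have h1 : (univ.filter fun h => h ∉ univ.filter
        (fun h : HE n d => TreeAt Prod.fst p (D + 1) h.1)) =
        (univ : Finset (HE n d)).filter fun h => ¬ TreeAt Prod.fst p (D + 1) h.1 := by
      ext h
      simp
    rw [h1, card_bad_he, Nat.cast_mul]
    calc (nbad (D + 1) p : ℝ) * d * (2 * M) ≤ (ε' * n) * d * (2 * M) := by
          have : 0 ≤ (d : ℝ) * (2 * M) := by positivity
          nlinarith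
      _ = (ε' * (2 * M)) * (n * d) := by ring
      _ ≤ ε / 4 * (n * d) := mul_le_mul_of_nonneg_right hε'2 hnd.le

/-- clamp to `[-1,1]` -/
noncomputable def clamp (x : ℝ) : ℝ := max (-1) (min 1 x)

theorem continuous_clamp : Continuous clamp := continuous_const.max (continuous_const.min continuous_id)

theorem abs_clamp (x : ℝ) : |clamp x| ≤ 1 := by
  unfold clamp
  rw [abs_le]
  exact ⟨le_max_left _ _, max_le (by norm_num) (min_le_left _ _)⟩

theorem clamp_of_abs {x : ℝ} (h : |x| ≤ 1) : clamp x = x := by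
  unfold clamp
  rw [abs_le] at h
  rw [min_eq_right h.2, max_eq_right h.1]

theorem pi_ae {B : Type*} [Fintype B] :
    ∀ᵐ ξ ∂(Measure.pi fun _ : B => mu0), ∀ i, |ξ i| ≤ 1 := by
  rw [ae_all_iff]
  intro i
  exact (Measure.quasiMeasurePreserving_eval (fun _ : B => mu0) i).ae mu0_ae

/-- integral of a local function over the infinite environment -/
theorem integral_local (d : ℕ) [NeZero d] (D : ℕ) {g : (Node d → ℝ) → ℝ} (hg : Continuous g)
    (hloc : ∀ Ω Ω' : Node d → ℝ, (∀ x : Node d, x.2.length ≤ D → Ω x = Ω' x) → g Ω = g Ω') :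
    ∫ Ω, g Ω ∂(Measure.infinitePi fun _ : Node d => mu0) =
      ∫ ξ, g (ext0 D ξ) ∂(Measure.pi fun _ : Ball d D => mu0) := by
  have h1 : (Measure.infinitePi fun _ : Node d => mu0).map
      (fun ω (i : Ball d D) => ω i.1) = Measure.pi fun _ : Ball d D => mu0 :=
    (Measure.map_infinitePi_infinitePi_of_inj (P := fun _ : Node d => mu0)
      (f := fun x : Ball d D => x.1) Subtype.val_injective).trans (Measure.infinitePi_eq_pi _)
  rw [← h1, integral_map]
  · refine integral_congr_ae (ae_of_all _ fun Ω => ?_)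
    refine hloc _ _ fun x hx => ?_
    simp only [ext0, hx, dif_pos]
  · exact (measurable_pi_lambda _ fun i => measurable_pi_apply _).aemeasurable
  · exact (hg.comp (continuous_ext0 D)).aestronglyMeasurable

/-- **LLN for continuous local functions of the environment** -/
theorem env_lln (d : ℕ) [NeZero d] (D : ℕ) {g : (Node d → ℝ) → ℝ} (hg : Continuous g)
    (hloc : ∀ Ω Ω' : Node d → ℝ, (∀ x : Node d, x.2.length ≤ D → Ω x = Ω' x) → g Ω = g Ω')
    {ε : ℝ} (hε : 0 < ε) :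
    ∃ N : ℕ, ∀ n : ℕ, N ≤ n → ∃ Bad ⊆ Ports n d,
      (Bad.card : ℝ) ≤ ε * ((Ports n d).card : ℝ) ∧ ∀ p ∈ Ports n d, p ∉ Bad →
        (potentialLaw n) {ω | ε < |(∑ h : HE n d, g (ω ∘ nv p h)) / (n * d : ℝ) -
          ∫ Ω, g Ω ∂(Measure.infinitePi fun _ : Node d => mu0)|} ≤ ENNReal.ofReal ε := by
  obtain ⟨g', hg'⟩ : ∃ g' : (Ball d D → ℝ) → ℝ, g' = fun ξ => g (ext0 D fun x => clamp (ξ x)) :=
    ⟨_, rfl⟩
  have hg'c : Continuous g' := by
    rw [hg']
    refine hg.comp ((continuous_ext0 D).comp ?_)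
    exact continuous_pi fun x => continuous_clamp.comp (continuous_apply x)
  have hbd : ∃ M : ℝ, ∀ ξ, |g' ξ| ≤ M := by
    have hK : IsCompact (Set.pi Set.univ fun _ : Ball d D => Set.Icc (-1 : ℝ) 1) :=
      isCompact_univ_pi fun _ => isCompact_Icc
    obtain ⟨M, hM⟩ := hK.exists_bound_of_continuousOn
      (f := fun ξ => g (ext0 D ξ)) (hg.comp (continuous_ext0 D)).continuousOn
    refine ⟨M, fun ξ => ?_⟩
    rw [hg']
    refine hM _ ?_
    intro x _
    exact abs_le.1 (abs_clamp (ξ x))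
  obtain ⟨M, hM⟩ := hbd
  obtain ⟨N, hN⟩ := port_lln d D hg'c.measurable hM hε
  refine ⟨N, fun n hn => ?_⟩
  obtain ⟨Bad, hB1, hB2, hB3⟩ := hN n hn
  refine ⟨Bad, hB1, hB2, fun p hp hpB => ?_⟩
  refine le_trans ?_ (hB3 p hp hpB)
  have hint : ∫ Ω, g Ω ∂(Measure.infinitePi fun _ : Node d => mu0) =
      ∫ ξ, g' ξ ∂(Measure.pi fun _ : Ball d D => mu0) := by
    rw [integral_local d D hg hloc, hg']
    refine integral_congr_ae ?_
    filter_upwards [pi_ae (B := Ball d D)] with ξ hξ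
    have : (fun x => clamp (ξ x)) = ξ := funext fun x => clamp_of_abs (hξ x)
    rw [this]
  rw [hint]
  apply measure_mono_ae
  filter_upwards [potentialLaw_ae n] with ω hω
  intro h
  have hterm : ∀ h : HE n d, g (ω ∘ nv p h) = g' (fun x : Ball d D => ω (nv p h x.1)) := by
    intro h
    rw [hg']
    refine hloc _ _ fun x hx => ?_
    simp only [ext0, hx, dif_pos, Function.comp_apply]
    rw [clamp_of_abs (hω _)]
  have : (∑ h : HE n d, g (ω ∘ nv p h)) =
      ∑ h : HE n d, g' (fun x : Ball d D => ω (nv p h x.1)) := sum_congr rfl fun h _ => hterm h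
  show ε < |(∑ h : HE n d, g' (fun x : Ball d D => ω (nv p h x.1))) / (n * d : ℝ) -
    ∫ ξ, g' ξ ∂(Measure.pi fun _ : Ball d D => mu0)|
  rw [← this]
  exact h

/-- the same as an average over all ports -/
theorem env_lln_sum (d : ℕ) [NeZero d] (D : ℕ) {g : (Node d → ℝ) → ℝ} (hg : Continuous g)
    (hloc : ∀ Ω Ω' : Node d → ℝ, (∀ x : Node d, x.2.length ≤ D → Ω x = Ω' x) → g Ω = g Ω')
    {ε : ℝ} (hε : 0 < ε) :
    ∃ N : ℕ, ∀ n : ℕ, N ≤ n → (regularGraphs n d).Nonempty →
      ((Ports n d).card : ENNReal)⁻¹ * ∑ p ∈ Ports n d,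
        (potentialLaw n) {ω | ε < |(∑ h : HE n d, g (ω ∘ nv p h)) / (n * d : ℝ) -
          ∫ Ω, g Ω ∂(Measure.infinitePi fun _ : Node d => mu0)|} ≤ ENNReal.ofReal ε := by
  classical
  obtain ⟨N, hN⟩ := env_lln d D hg hloc (half_pos hε)
  refine ⟨N, fun n hn hne => ?_⟩
  obtain ⟨Bad, hB1, hB2, hB3⟩ := hN n hn
  set A : Equiv.Perm (HE n d) → Set (Fin n → ℝ) := fun p =>
    {ω | ε < |(∑ h : HE n d, g (ω ∘ nv p h)) / (n * d : ℝ) -
          ∫ Ω, g Ω ∂(Measure.infinitePi fun _ : Node d => mu0)|} with hA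
  have hgood : ∀ p ∈ Ports n d \ Bad, (potentialLaw n) (A p) ≤ ENNReal.ofReal (ε / 2) := by
    intro p hp
    rw [mem_sdiff] at hp
    refine le_trans (measure_mono ?_) (hB3 p hp.1 hp.2)
    intro ω hω
    exact lt_trans (half_lt_self hε) hω
  have h0 : (Ports n d).card ≠ 0 := by
    have := card_pos.2 (Ports_nonempty_iff.2 hne)
    omega
  have hne : ((Ports n d).card : ENNReal) ≠ 0 := by exact_mod_cast h0
  have htop : ((Ports n d).card : ENNReal) ≠ ⊤ := ENNReal.natCast_ne_top _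
  have a1 : ∑ p ∈ Ports n d \ Bad, (potentialLaw n) (A p) ≤
      ((Ports n d).card : ENNReal) * ENNReal.ofReal (ε / 2) := by
    refine (sum_le_card_nsmul _ _ _ hgood).trans ?_
    rw [nsmul_eq_mul]
    refine mul_le_mul_left ?_ _
    exact_mod_cast card_le_card sdiff_subset
  have a2 : ∑ p ∈ Bad, (potentialLaw n) (A p) ≤
      ((Ports n d).card : ENNReal) * ENNReal.ofReal (ε / 2) := by
    refine (sum_le_card_nsmul _ _ 1 fun p hp => prob_le_one).trans ?_
    rw [nsmul_eq_mul, mul_one]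
    have e1 : ((Ports n d).card : ENNReal) = ENNReal.ofReal ((Ports n d).card : ℝ) := by simp
    have e2 : (Bad.card : ENNReal) = ENNReal.ofReal (Bad.card : ℝ) := by simp
    rw [e1, e2, ← ENNReal.ofReal_mul (Nat.cast_nonneg _)]
    exact ENNReal.ofReal_le_ofReal (by linarith)
  rw [← sum_sdiff hB1]
  calc ((Ports n d).card : ENNReal)⁻¹ * (∑ p ∈ Ports n d \ Bad, (potentialLaw n) (A p) +
        ∑ p ∈ Bad, (potentialLaw n) (A p))
      ≤ ((Ports n d).card : ENNReal)⁻¹ * (((Ports n d).card : ENNReal) * ENNReal.ofReal (ε / 2) +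
        ((Ports n d).card : ENNReal) * ENNReal.ofReal (ε / 2)) := by
        gcongr
    _ = ENNReal.ofReal ε := by
        rw [← mul_add, ← mul_assoc, ENNReal.inv_mul_cancel hne htop, one_mul,
          ← ENNReal.ofReal_add (half_pos hε).le (half_pos hε).le, add_halves]

/-- traces of powers as half-edge averages at tree-like places -/
theorem pow_diag_eq {n d : ℕ} [NeZero d] {p : Equiv.Perm (HE n d)} (hp : IsPort p) (s : ℝ)
    (ω : Fin n → ℝ) (h : HE n d) (k : ℕ) (ht : TreeAt Prod.fst p (k + 1) h.1) :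
    ((Hm (graphOf p) s ω) ^ k) h.1 h.1 =
      ((Tl s (ω ∘ nv p h)) ^ k) (Pi.single ((true, []) : Node d) (1 : ℝ)) (true, []) := by
  classical
  have h1 : ((Hm (graphOf p) s ω) ^ k) h.1 h.1 =
      ((Hm (graphOf p) s ω) ^ k).mulVec (Pi.single h.1 1) (nv p h (true, [])) := by
    rw [Matrix.mulVec_single_one, nv_true hp]
    rfl
  rw [h1, pow_nv hp]
  refine pow_local s k 0 ?_ (fun _ _ => rfl) _ (by simp)
  intro y hy
  rw [zero_add] at hy
  simp only [Function.comp_apply, Pi.single_apply]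
  by_cases hyb : y = (true, [])
  · rw [hyb, nv_true hp, if_pos rfl, if_pos rfl]
  · rw [if_neg hyb, if_neg]
    intro e
    have e' : nv p h y = nv p h (true, []) := by rw [nv_true hp]; exact e
    exact hyb (nv_inj hp ht (by omega) (by simp) e')

end Crest.Agent.R166.Env536
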