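import Crest.Agent.R166.Exc_501
import Crest.Agent.R166.Res_789
import Crest.Agent.R166.Defs_419

/-!
Row 166, section 31.5 (helper501): unique continuation and the bound of the resolvent at exceptional
vertices.
-/

set_option autoImplicit false

namespace Crest.Agent.R166.Exc501

open Finset Classical

noncomputable section

variable {V : Type*} [Fintype V]

/-- unique continuation from the annulus `bl (r+2) \ bl r` to the centre. -/
theorem uniq_cont {G : SimpleGraph V} {v : V} {d M r : ℕ} (hd : Reg G d) (hd3 : 3 ≤ d)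
    (hM : (d+1)^(r+1) ≤ M) (hNM : NM G M)
    (f : V → ℂ) (e : V → ℝ) (E0 δ A : ℝ) (hE : ∀ x, |e x| ≤ E0) (hδ : 0 ≤ δ) (hA : 0 ≤ A)
    (hf : ∀ x ∈ bl G v (r+1), ‖∑ w ∈ nb G x, f w - (e x : ℂ) * f x‖ ≤ δ)
    (hann : ∀ w ∈ bl G v (r+2), w ∉ bl G v r → ‖f w‖ ≤ A) :
    ‖f v‖ ≤ (E0 + d + 1)^(r+1) * (A + δ) := by
  have hE0 : 0 ≤ E0 := (abs_nonneg _).trans (hE v)
  set c : ℝ := E0 + d + 1 with hc
  have hc1 : 1 ≤ c := by
    have : (0:ℝ) ≤ d := Nat.cast_nonneg d
    rw [hc]; linarith
  have main : ∀ j : ℕ, j ≤ r + 1 → ∀ u ∈ bl G v (r+2), r + 1 - j ≤ lev G v u →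
      ‖f u‖ ≤ c^j * (A + δ) := by
    intro j
    induction j with
    | zero =>
      intro _ u hu hl
      simp only [pow_zero, one_mul]
      have := hann u hu (not_mem_bl_of_lt (by omega))
      linarith
    | succ j ih =>
      intro hj u hu hl
      have ihj := ih (by omega)
      have hb0 : δ ≤ c^j * (A + δ) := by
        have h1 : (1:ℝ) ≤ c^j := one_le_pow₀ hc1
        nlinarith
      rcases Nat.lt_or_ge (lev G v u) (r + 1 - j) with hlt | hge
      swap
      · calc ‖f u‖ ≤ c^j * (A + δ) := ihj u hu hge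
          _ ≤ c^(j+1) * (A + δ) := by
            gcongr
            · omega
      · -- `lev u = r - j`
        have hk : lev G v u = r - j := by omega
        set k := r - j with hkdef
        have huk : u ∈ bl G v k := by
          have := mem_bl_lev hu
          rwa [hk] at this
        obtain ⟨x, hx1, hx2, hx3⟩ := exists_good_child (M := M) hd hd3
          (by
            refine le_trans ?_ hM
            exact Nat.pow_le_pow_right (by omega) (by omega)) hNM huk hk
        have hxk : x ∈ bl G v (k+1) := adj_mem_bl huk hx1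
        have hxr : x ∈ bl G v (r+1) := bl_mono (by omega) hxk
        have hlx : k < lev G v x := by
          by_contra hle
          exact hx2 ((mem_bl_iff_lev hxk).2 (not_lt.1 hle))
        have hfx : ‖f x‖ ≤ c^j * (A + δ) := ihj x (bl_mono (by omega) hxk) (by omega)
        have hother : ∀ w ∈ (nb G x).erase u, ‖f w‖ ≤ c^j * (A + δ) := by
          intro w hw
          rw [Finset.mem_erase, mem_nb] at hw
          have hw2 : w ∈ bl G v (k+2) := adj_mem_bl hxk hw.2
          have hwk : w ∉ bl G v k := fun h => hw.1 (hx3 w h hw.2)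
          have : k < lev G v w := by
            by_contra hle
            exact hwk ((mem_bl_iff_lev hw2).2 (not_lt.1 hle))
          exact ihj w (bl_mono (by omega) hw2) (by omega)
        have hux : u ∈ nb G x := by simpa using hx1.symm
        have hsum : ∑ w ∈ nb G x, f w = f u + ∑ w ∈ (nb G x).erase u, f w := by
          rw [Finset.add_sum_erase _ _ hux]
        have hid : f u = (∑ w ∈ nb G x, f w - (e x : ℂ) * f x) + (e x : ℂ) * f x -
            ∑ w ∈ (nb G x).erase u, f w := by
          rw [hsum]; ring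
        have hcard : ((nb G x).erase u).card = d - 1 := by
          rw [Finset.card_erase_of_mem hux, hd x]
        have h1 : ‖∑ w ∈ (nb G x).erase u, f w‖ ≤ (d - 1 : ℕ) * (c^j * (A + δ)) := by
          calc ‖∑ w ∈ (nb G x).erase u, f w‖ ≤ ∑ w ∈ (nb G x).erase u, ‖f w‖ := norm_sum_le _ _
            _ ≤ ∑ _w ∈ (nb G x).erase u, (c^j * (A + δ)) := Finset.sum_le_sum hother
            _ = (d - 1 : ℕ) * (c^j * (A + δ)) := by rw [Finset.sum_const, hcard, nsmul_eq_mul]
        have h2 : ‖(e x : ℂ) * f x‖ ≤ E0 * (c^j * (A + δ)) := by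
          rw [norm_mul, Complex.norm_real, Real.norm_eq_abs]
          exact mul_le_mul (hE x) hfx (norm_nonneg _) hE0
        have h3 := hf x hxr
        have h4 : ((d - 1 : ℕ) : ℝ) ≤ d := by exact_mod_cast Nat.sub_le d 1
        have hb00 : 0 ≤ c^j * (A + δ) := hδ.trans hb0
        calc ‖f u‖ = ‖(∑ w ∈ nb G x, f w - (e x : ℂ) * f x) + (e x : ℂ) * f x -
            ∑ w ∈ (nb G x).erase u, f w‖ := by rw [← hid]
          _ ≤ ‖(∑ w ∈ nb G x, f w - (e x : ℂ) * f x) + (e x : ℂ) * f x‖ +
            ‖∑ w ∈ (nb G x).erase u, f w‖ := norm_sub_le _ _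
          _ ≤ (‖∑ w ∈ nb G x, f w - (e x : ℂ) * f x‖ + ‖(e x : ℂ) * f x‖) +
            ‖∑ w ∈ (nb G x).erase u, f w‖ := by gcongr; exact norm_add_le _ _
          _ ≤ (δ + E0 * (c^j * (A + δ))) + (d - 1 : ℕ) * (c^j * (A + δ)) := by
            gcongr
          _ ≤ (c^j * (A + δ) + E0 * (c^j * (A + δ))) + d * (c^j * (A + δ)) := by
            gcongr
          _ = c^(j+1) * (A + δ) := by rw [hc]; ring
  exact main (r+1) le_rfl v self_mem_bl (by omega)

open Crest.Agent.R166.Res789

variable [DecidableEq V]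

lemma Res_eq (H : Matrix V V ℝ) (z : ℂ) : Crest.Agent.R166.Res H z = Res789.Res H z := rfl

/-- Ward identity, diagonal entries. -/
theorem ward_diag {H : Matrix V V ℝ} (hH : H.transpose = H) {z : ℂ} (hz : 0 < z.im) (x : V) :
    (Res789.Res H z x x).im = z.im * ∑ y, ‖Res789.Res H z x y‖ ^ 2 := by
  have h := congrFun (congrFun (ward hH hz) x) x
  simp only [cx_apply, imM_apply, Matrix.smul_apply, Matrix.mul_apply, Matrix.conjTranspose_apply,
    smul_eq_mul] at h
  have h2 : ∀ y, Res789.Res H z x y * star (Res789.Res H z x y) =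
      ((‖Res789.Res H z x y‖ ^ 2 : ℝ) : ℂ) := by
    intro y
    rw [Complex.star_def, Complex.mul_conj, Complex.normSq_eq_norm_sq]
  simp only [h2] at h
  rw [← Complex.ofReal_sum, ← Complex.ofReal_mul] at h
  exact Complex.ofReal_injective h

lemma im_diag_nonneg {H : Matrix V V ℝ} (hH : H.transpose = H) {z : ℂ} (hz : 0 < z.im) (x : V) :
    0 ≤ (Res789.Res H z x x).im := by
  rw [ward_diag hH hz]; positivity

lemma norm_sq_le_im {H : Matrix V V ℝ} (hH : H.transpose = H) {z : ℂ} (hz : 0 < z.im) (x y : V) :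
    ‖Res789.Res H z x y‖ ^ 2 ≤ (Res789.Res H z x x).im / z.im := by
  rw [ward_diag hH hz, mul_div_cancel_left₀ _ hz.ne']
  exact Finset.single_le_sum (f := fun y => ‖Res789.Res H z x y‖ ^ 2)
    (fun _ _ => by positivity) (Finset.mem_univ y)

lemma norm_diag_le {H : Matrix V V ℝ} (hH : H.transpose = H) {z : ℂ} (hz : 0 < z.im) (x : V) :
    ‖Res789.Res H z x x‖ ≤ 1 / z.im := by
  have h1 := norm_sq_le_im hH hz x x
  have h2 : (Res789.Res H z x x).im ≤ ‖Res789.Res H z x x‖ := (Complex.im_le_norm _)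
  rcases eq_or_lt_of_le (norm_nonneg (Res789.Res H z x x)) with h0 | h0
  · rw [← h0]; positivity
  · have h3 : ‖Res789.Res H z x x‖ ^ 2 ≤ ‖Res789.Res H z x x‖ / z.im :=
      h1.trans (by gcongr)
    rw [le_div_iff₀ hz] at h3 ⊢
    nlinarith

lemma im_diag_le {H : Matrix V V ℝ} (hH : H.transpose = H) {z : ℂ} (hz : 0 < z.im) (x : V) :
    (Res789.Res H z x x).im ≤ 1 / z.im :=
  (Complex.im_le_norm _).trans (norm_diag_le hH hz x)

lemma norm_entry_le {H : Matrix V V ℝ} (hH : H.transpose = H) {z : ℂ} (hz : 0 < z.im) (x y : V) :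
    ‖Res789.Res H z x y‖ ≤ 1 / z.im := by
  have h1 := norm_sq_le_im hH hz x y
  have h2 : (Res789.Res H z x x).im / z.im ≤ (1 / z.im) ^ 2 := by
    rw [pow_two, ← div_eq_mul_one_div]
    exact div_le_div_of_nonneg_right (im_diag_le hH hz x) hz.le
  exact (pow_le_pow_iff_left₀ (norm_nonneg _) (by positivity) (by norm_num)).1 (h1.trans h2)

/-- bound of the diagonal resolvent entry at the centre of the annulus by the entries on the
annulus. -/
theorem res_center_le {G : SimpleGraph V} {v : V} {d M r : ℕ} (hd : Reg G d) (hd3 : 3 ≤ d)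
    (hM : (d+1)^(r+1) ≤ M) (hNM : NM G M) {H : Matrix V V ℝ} {q : V → ℝ}
    (hH : ∀ x y, H x y = (if G.Adj x y then 1 else 0) + (if x = y then q x else 0))
    {z : ℂ} (hz : 0 < z.im) {E0 B : ℝ} (hE : ∀ x, |z.re - q x| ≤ E0)
    (hann : ∀ w ∈ bl G v (r+2), w ∉ bl G v r → (Res789.Res H z w w).im ≤ B) :
    ‖Res789.Res H z v v‖ ≤ (E0 + d + 1)^(r+1) * (Real.sqrt (B / z.im) + 2) := by
  have hsym : H.transpose = H := by
    ext x y
    rw [Matrix.transpose_apply, hH, hH]
    by_cases hxy : x = y
    · subst hxy; rfl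
    · rw [if_neg hxy, if_neg (Ne.symm hxy)]
      simp only [G.adj_comm]
  apply uniq_cont hd hd3 hM hNM (fun x => Res789.Res H z x v) (fun x => z.re - q x) E0 2
    (Real.sqrt (B / z.im)) hE (by norm_num) (Real.sqrt_nonneg _)
  · intro x _
    have h1 := congrFun (congrFun (sub_mul_Res hsym hz) x) v
    rw [Matrix.sub_mul, Matrix.sub_apply, Matrix.smul_mul, Matrix.one_mul, Matrix.smul_apply,
      Matrix.mul_apply] at h1
    have h2 : ∑ j, cx H x j * Res789.Res H z j v =
        ∑ w ∈ nb G x, Res789.Res H z w v + (q x : ℂ) * Res789.Res H z x v := by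
      simp only [cx_apply, hH]
      push_cast
      simp only [add_mul, Finset.sum_add_distrib]
      congr 1
      · rw [nb, Finset.sum_filter]
        apply Finset.sum_congr rfl
        intro j _
        split_ifs <;> simp
      · rw [Finset.sum_eq_single x]
        · simp
        · intro b _ hb
          rw [if_neg (Ne.symm hb)]; simp
        · simp
    rw [h2] at h1
    have h3 : ∑ w ∈ nb G x, Res789.Res H z w v - ((z.re - q x : ℝ) : ℂ) * Res789.Res H z x v =
        (1 : Matrix V V ℂ) x v + Complex.I * (z.im : ℂ) * Res789.Res H z x v := by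
      have hz' : z = (z.re : ℂ) + (z.im : ℂ) * Complex.I := (Complex.re_add_im z).symm
      have h4 : z • Res789.Res H z x v = (z.re : ℂ) * Res789.Res H z x v +
          Complex.I * (z.im : ℂ) * Res789.Res H z x v := by
        rw [smul_eq_mul]
        nth_rewrite 1 [hz']
        ring
      rw [h4] at h1
      push_cast
      linear_combination h1
    show ‖∑ w ∈ nb G x, Res789.Res H z w v - ((z.re - q x : ℝ) : ℂ) * Res789.Res H z x v‖ ≤ 2
    rw [h3]
    have h5 : ‖(1 : Matrix V V ℂ) x v‖ ≤ 1 := by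
      rw [Matrix.one_apply]; split_ifs <;> simp
    have h6 : ‖Complex.I * (z.im : ℂ) * Res789.Res H z x v‖ ≤ 1 := by
      rw [norm_mul, norm_mul, Complex.norm_I, one_mul, Complex.norm_real, Real.norm_eq_abs,
        abs_of_pos hz]
      calc z.im * ‖Res789.Res H z x v‖ ≤ z.im * (1 / z.im) := by
            gcongr; exact norm_entry_le hsym hz x v
        _ = 1 := by field_simp
    calc _ ≤ _ := norm_add_le _ _
      _ ≤ 2 := by linarith
  · intro w hw hw'
    show ‖Res789.Res H z w v‖ ≤ Real.sqrt (B / z.im)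
    apply Real.le_sqrt_of_sq_le
    exact (norm_sq_le_im hsym hz w v).trans (div_le_div_of_nonneg_right (hann w hw hw') hz.le)

end

end Crest.Agent.R166.Exc501
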