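import Crest.Agent.R166.ExcB_501
import Crest.Agent.R166.Cyc_798

/-!
Row 166, section 31.5 (helper501): probability estimates: `P(¬ NM) ≤ C/n`, `E #{v : EL v} ≤ C`.
-/

set_option autoImplicit false

namespace Crest.Agent.R166.Exc501

open Finset Classical Crest.ProbabilityR.RandomMatrix

noncomputable section

variable {V : Type*} [Fintype V]

lemma mem_Reg_iff {d : ℕ} {G : SimpleGraph V} : G ∈ Sw798.Reg V d ↔ Reg G d := by
  rw [Sw798.mem_Reg]
  constructor
  · intro h v
    have := h v
    unfold Sw798.dg at this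
    rw [← this]
    unfold nb
    congr
  · intro h v
    have := h v
    unfold Sw798.dg
    rw [← this]
    unfold nb
    congr

lemma edIn_eq {G : SimpleGraph V} {S : Finset V} : edIn G S = Sw798.eIn G S := by
  ext e
  rw [Sw798.mem_eIn]
  simp [edIn]

lemma not_NM_iff {G : SimpleGraph V} {M : ℕ} :
    ¬ NM G M ↔ ∃ S : Finset V, S.card ≤ M ∧ S.card + 1 ≤ (Sw798.eIn G S).card := by
  unfold NM
  push Not
  simp only [eIn, edIn_eq]
  constructor
  · rintro ⟨S, h1, h2⟩; exact ⟨S, h1, h2⟩
  · rintro ⟨S, h1, h2⟩; exact ⟨S, h1, h2⟩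

/-- `P(¬ NM) ≤ C/n` -/
theorem card_not_NM_le {d : ℕ} (hd : 1 ≤ d) (M : ℕ) :
    (((Sw798.Reg V d).filter fun G => ¬ NM G M).card : ℝ) ≤
      Sw798.CM d M / Fintype.card V * (Sw798.Reg V d).card := by
  have := Sw798.card_excess_le (V := V) hd M
  refine le_trans (le_of_eq ?_) this
  congr 2
  apply Finset.filter_congr
  intro G _
  rw [not_NM_iff]

/-- the constant in `sum_card_cyc_le` -/
def CE (d M : ℕ) : ℝ :=
  (M + 1) * (M * (2 ^ ((M + 1) ^ 2) * (6 * d + 8 + 4 * M : ℝ) ^ M))

/-- expected number of vertices contained in a set `S`, `|S| ≤ M`, which spans at least `|S|` edges -/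
theorem sum_card_small_le {d : ℕ} (hd : 1 ≤ d) (M : ℕ) :
    (∑ G ∈ Sw798.Reg V d, ((Finset.univ.filter fun v : V =>
      ∃ S : Finset V, v ∈ S ∧ S.card ≤ M ∧ S.card ≤ (Sw798.eIn G S).card).card : ℝ)) ≤
      CE d M * (Sw798.Reg V d).card := by
  rcases Nat.eq_zero_or_pos (Fintype.card V) with h0 | hpos
  · have hV : IsEmpty V := Fintype.card_eq_zero_iff.1 h0
    have hz : ∀ G : SimpleGraph V, (Finset.univ.filter fun v : V =>
      ∃ S : Finset V, v ∈ S ∧ S.card ≤ M ∧ S.card ≤ (Sw798.eIn G S).card) = ∅ := by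
      intro G; ext v; exact (hV.false v).elim
    simp only [hz, Finset.card_empty, Nat.cast_zero, Finset.sum_const_zero]
    unfold CE
    positivity
  have hnpos : (0 : ℝ) < Fintype.card V := by exact_mod_cast hpos
  set C : ℝ := 6 * d + 8 + 4 * M with hC
  have hC1 : 1 ≤ C := by
    have : (0 : ℝ) ≤ d := Nat.cast_nonneg d
    have : (0 : ℝ) ≤ M := Nat.cast_nonneg M
    rw [hC]; linarith
  -- the vertex count is bounded by a sum of indicators
  have h1 : ∀ G ∈ Sw798.Reg V d, (((Finset.univ.filter fun v : V =>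
      ∃ S : Finset V, v ∈ S ∧ S.card ≤ M ∧ S.card ≤ (Sw798.eIn G S).card).card : ℕ) : ℝ) ≤
      ∑ k ∈ Finset.range (M+1), ∑ S ∈ (Finset.univ : Finset V).powersetCard k,
        ∑ F ∈ S.sym2.powersetCard k, (if G ∈ Sw798.RegF V d F then (M : ℝ) else 0) := by
    intro G hG
    have hsub : (Finset.univ.filter fun v : V =>
        ∃ S : Finset V, v ∈ S ∧ S.card ≤ M ∧ S.card ≤ (Sw798.eIn G S).card) ⊆
        (Finset.range (M+1)).biUnion fun k => ((Finset.univ : Finset V).powersetCard k).biUnion
          fun S => (S.sym2.powersetCard k).biUnion fun F =>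
            (if G ∈ Sw798.RegF V d F then S else ∅) := by
      intro v hv
      rw [Finset.mem_filter] at hv
      obtain ⟨_, S, hvS, hS, hcard⟩ := hv
      obtain ⟨F, hF1, hF2⟩ := Finset.exists_subset_card_eq hcard
      simp only [Finset.mem_biUnion, Finset.mem_range, Finset.mem_powersetCard]
      refine ⟨S.card, by omega, S, ⟨Finset.subset_univ _, rfl⟩, F, ⟨?_, hF2⟩, ?_⟩
      · intro f hf
        rw [Finset.mem_sym2_iff]
        exact (Sw798.mem_eIn.1 (hF1 hf)).2
      · rw [if_pos]
        · exact hvS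
        · exact Sw798.mem_RegF.2 ⟨hG, fun f hf => (Sw798.mem_eIn.1 (hF1 hf)).1⟩
    have h2 := Finset.card_le_card hsub
    have h3 := h2.trans (Finset.card_biUnion_le.trans (Finset.sum_le_sum fun k _ =>
      Finset.card_biUnion_le.trans (Finset.sum_le_sum fun S _ => Finset.card_biUnion_le)))
    have h4 : (((Finset.univ.filter fun v : V =>
        ∃ S : Finset V, v ∈ S ∧ S.card ≤ M ∧ S.card ≤ (Sw798.eIn G S).card).card : ℕ) : ℝ) ≤
        ∑ k ∈ Finset.range (M+1), ∑ S ∈ (Finset.univ : Finset V).powersetCard k,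
        ∑ F ∈ S.sym2.powersetCard k,
          (((if G ∈ Sw798.RegF V d F then S else ∅ : Finset V).card : ℕ) : ℝ) := by
      exact_mod_cast h3
    refine h4.trans ?_
    refine Finset.sum_le_sum fun k hk => Finset.sum_le_sum fun S hS => Finset.sum_le_sum
      fun F hF => ?_
    split_ifs
    · have hk' : k ≤ M := by simpa [Nat.lt_succ_iff] using hk
      have := (Finset.mem_powersetCard.1 hS).2
      exact_mod_cast (this.le.trans hk')
    · simp
  calc _ ≤ ∑ G ∈ Sw798.Reg V d, ∑ k ∈ Finset.range (M+1),
        ∑ S ∈ (Finset.univ : Finset V).powersetCard k,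
        ∑ F ∈ S.sym2.powersetCard k, (if G ∈ Sw798.RegF V d F then (M : ℝ) else 0) :=
        Finset.sum_le_sum h1
    _ = ∑ k ∈ Finset.range (M+1), ∑ S ∈ (Finset.univ : Finset V).powersetCard k,
        ∑ F ∈ S.sym2.powersetCard k, ∑ G ∈ Sw798.Reg V d,
          (if G ∈ Sw798.RegF V d F then (M : ℝ) else 0) := by
        rw [Finset.sum_comm]
        refine Finset.sum_congr rfl fun k _ => ?_
        rw [Finset.sum_comm]
        refine Finset.sum_congr rfl fun S _ => ?_
        rw [Finset.sum_comm]
    _ ≤ ∑ k ∈ Finset.range (M+1), ∑ S ∈ (Finset.univ : Finset V).powersetCard k,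
        ∑ F ∈ S.sym2.powersetCard k,
          (M : ℝ) * ((C / Fintype.card V) ^ k * (Sw798.Reg V d).card) := by
        refine Finset.sum_le_sum fun k hk => Finset.sum_le_sum fun S hS => Finset.sum_le_sum
          fun F hF => ?_
        have hk' : k ≤ M := by simpa [Nat.lt_succ_iff] using hk
        have hF2 := (Finset.mem_powersetCard.1 hF).2
        have h5 := Sw798.card_RegF_le (V := V) hd M F (by omega)
        rw [hF2] at h5
        have h6 : ∑ G ∈ Sw798.Reg V d, (if G ∈ Sw798.RegF V d F then (M : ℝ) else 0) ≤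
            (Sw798.RegF V d F).card * M := by
          rw [← Finset.sum_filter, Finset.sum_const, nsmul_eq_mul]
          gcongr
          intro G hG
          exact (Finset.mem_filter.1 hG).2
        calc _ ≤ _ := h6
          _ ≤ ((C / Fintype.card V) ^ k * (Sw798.Reg V d).card) * M := by gcongr
          _ = _ := by ring
    _ ≤ ∑ k ∈ Finset.range (M+1), ((M : ℝ) * (2 ^ ((M + 1) ^ 2) * C ^ M)) *
          (Sw798.Reg V d).card := by
        refine Finset.sum_le_sum fun k hk => ?_
        have hk' : k ≤ M := by simpa [Nat.lt_succ_iff] using hk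
        calc _ ≤ ∑ S ∈ (Finset.univ : Finset V).powersetCard k, (2 ^ ((M + 1) ^ 2) : ℝ) *
              ((M : ℝ) * ((C / Fintype.card V) ^ k * (Sw798.Reg V d).card)) := by
              refine Finset.sum_le_sum fun S hS => ?_
              have hScard : S.card = k := (Finset.mem_powersetCard.1 hS).2
              rw [Finset.sum_const, nsmul_eq_mul]
              gcongr
              have h7 : (S.sym2.powersetCard k).card ≤ 2 ^ ((M + 1) ^ 2) := by
                rw [Finset.card_powersetCard]
                refine (Nat.choose_le_two_pow _ _).trans ?_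
                apply Nat.pow_le_pow_right (by norm_num)
                rw [Finset.card_sym2, hScard]
                calc (k + 1).choose 2 ≤ (M + 1).choose 2 := Nat.choose_le_choose 2 (by omega)
                  _ = (M + 1) * M / 2 := by rw [Nat.choose_two_right]; simp
                  _ ≤ (M + 1) * M := Nat.div_le_self _ _
                  _ ≤ (M + 1) ^ 2 := by nlinarith
              exact_mod_cast h7
          _ = (((Finset.univ : Finset V).powersetCard k).card : ℝ) * ((2 ^ ((M + 1) ^ 2) : ℝ) *
              ((M : ℝ) * ((C / Fintype.card V) ^ k * (Sw798.Reg V d).card))) := by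
              rw [Finset.sum_const, nsmul_eq_mul]
          _ ≤ ((Fintype.card V : ℝ) ^ k) * ((2 ^ ((M + 1) ^ 2) : ℝ) *
              ((M : ℝ) * ((C / Fintype.card V) ^ k * (Sw798.Reg V d).card))) := by
              gcongr
              rw [Finset.card_powersetCard, Finset.card_univ]
              exact_mod_cast Nat.choose_le_pow _ _
          _ = (M : ℝ) * (2 ^ ((M + 1) ^ 2) * C ^ k) * (Sw798.Reg V d).card := by
              rw [div_pow]
              field_simp
          _ ≤ _ := by
              gcongr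
    _ = CE d M * (Sw798.Reg V d).card := by
        rw [Finset.sum_const, nsmul_eq_mul, Finset.card_range, CE]
        push_cast
        rw [← hC]
        ring

/-- expected number of exceptional vertices -/
theorem sum_card_EL_le {d : ℕ} (hd : 1 ≤ d) (L : ℕ) :
    (∑ G ∈ Sw798.Reg V d, ((Finset.univ.filter fun v : V => EL G L v).card : ℝ)) ≤
      CE d ((d+1)^L) * (Sw798.Reg V d).card := by
  refine le_trans (Finset.sum_le_sum fun G hG => ?_) (sum_card_small_le (V := V) hd ((d+1)^L))
  have : (Finset.univ.filter fun v : V => EL G L v) ⊆ (Finset.univ.filter fun v : V =>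
      ∃ S : Finset V, v ∈ S ∧ S.card ≤ (d+1)^L ∧ S.card ≤ (Sw798.eIn G S).card) := by
    intro v hv
    rw [Finset.mem_filter] at hv ⊢
    refine ⟨hv.1, bl G v L, self_mem_bl, card_bl_le (mem_Reg_iff.1 hG) v L, ?_⟩
    have := hv.2
    unfold EL eIn at this
    rwa [edIn_eq] at this
  exact_mod_cast Finset.card_le_card this

end

end Crest.Agent.R166.Exc501
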