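import Crest.Agent.R166.Exc_501

/-!
Row 166, section 31.5 (helper501): a vertex whose ball spans a tree is tree-like in the sense of
nonbacktracking walks.
-/

set_option autoImplicit false

namespace Crest.Agent.R166.Exc501

open Finset Classical

noncomputable section

variable {V : Type*} [Fintype V]

/-- if the ball is a tree, every edge of the ball is a parent edge. -/
theorem edge_is_parent {G : SimpleGraph V} {v : V} {L : ℕ} (h : ¬ EL G L v) {a b : V}
    (ha : a ∈ bl G v L) (hb : b ∈ bl G v L) (hab : G.Adj a b) :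
    (a ≠ v ∧ par G v a = b) ∨ (b ≠ v ∧ par G v b = a) := by
  set B := bl G v L with hB
  by_contra hcon
  apply h
  unfold EL eIn
  rw [← hB]
  -- the map `u ↦ {u, par u}` is injective on `B \ {v}` and misses `{a,b}`
  set T : Finset (Sym2 V) := (B.erase v).image fun u => s(u, par G v u) with hT
  have hTcard : T.card = B.card - 1 := by
    rw [hT, Finset.card_image_of_injOn, Finset.card_erase_of_mem (hB ▸ self_mem_bl)]
    intro u hu u' hu' heq
    rw [Finset.mem_coe, Finset.mem_erase] at hu hu'
    have h1 := par_spec hu.2 hu.1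
    have h2 := par_spec hu'.2 hu'.1
    have heq' : s(u, par G v u) = s(u', par G v u') := heq
    rw [Sym2.eq_iff] at heq'
    rcases heq' with ⟨h3, _⟩ | ⟨h3, h4⟩
    · exact h3
    · rw [h4] at h1
      rw [← h3] at h2
      have := h1.2.2
      have := h2.2.2
      omega
  have hTsub : T ⊆ edIn G B := by
    intro e he
    rw [hT, Finset.mem_image] at he
    obtain ⟨u, hu, rfl⟩ := he
    rw [Finset.mem_erase] at hu
    have := par_spec hu.2 hu.1
    rw [mk_mem_edIn]
    exact ⟨this.1, hu.2, this.2.1⟩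
  have hnot : s(a, b) ∉ T := by
    intro he
    rw [hT, Finset.mem_image] at he
    obtain ⟨u, hu, heq⟩ := he
    rw [Finset.mem_erase] at hu
    rw [Sym2.eq_iff] at heq
    rcases heq with ⟨h3, h4⟩ | ⟨h3, h4⟩
    · subst h3
      exact hcon (Or.inl ⟨hu.1, h4⟩)
    · subst h3
      exact hcon (Or.inr ⟨hu.1, h4⟩)
  have hins : insert s(a, b) T ⊆ edIn G B := by
    intro e he
    rw [Finset.mem_insert] at he
    rcases he with rfl | he
    · rw [mk_mem_edIn]; exact ⟨hab, ha, hb⟩
    · exact hTsub he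
  have := Finset.card_le_card hins
  rw [Finset.card_insert_of_notMem hnot, hTcard] at this
  have h3 : 0 < B.card := Finset.card_pos.2 ⟨v, self_mem_bl⟩
  omega

lemma lev_par {G : SimpleGraph V} {v u : V} {k : ℕ} (h : u ∈ bl G v k) (hne : u ≠ v) :
    lev G v u = lev G v (par G v u) + 1 := by
  have h1 := par_spec h hne
  have h2 : u ∈ bl G v (lev G v (par G v u) + 1) :=
    adj_mem_bl (mem_bl_lev h1.2.1) h1.1.symm
  have := lev_le h2
  have := h1.2.2
  omega

/-- along a nonbacktracking walk in a tree ball, the parent of `x (j+1)` is `x j`. -/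
theorem walk_parent {G : SimpleGraph V} {v : V} {L : ℕ} (h : ¬ EL G L v) (x : ℕ → V) (r : ℕ)
    (hr : r ≤ L) (h0 : x 0 = v) (hadj : ∀ j < r, G.Adj (x j) (x (j+1)))
    (hnb : ∀ j, j + 2 ≤ r → x j ≠ x (j+2)) :
    ∀ j < r, x (j+1) ≠ v ∧ par G v (x (j+1)) = x j ∧ lev G v (x (j+1)) = j + 1 ∧
      x (j+1) ∈ bl G v (j+1) := by
  intro j
  induction j with
  | zero =>
    intro hj
    have h1 := hadj 0 hj
    have hx1 : x 1 ∈ bl G v 1 := by
      rw [mem_bl_one]; right; rw [← h0]; exact h1
    have hne : x 1 ≠ v := by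
      rw [← h0]; exact h1.ne'
    have hp := edge_is_parent h (a := x 0) (b := x 1) (by rw [h0]; exact self_mem_bl)
      (bl_mono (by omega) hx1) h1
    rcases hp with ⟨hp, _⟩ | ⟨_, hp⟩
    · exact absurd h0 hp
    · refine ⟨hne, hp, ?_, hx1⟩
      rw [lev_par hx1 hne]
      rw [hp, h0, lev_self]
  | succ j ih =>
    intro hj
    obtain ⟨ih1, ih2, ih3, ih4⟩ := ih (by omega)
    have h1 := hadj (j+1) hj
    have hx : x (j+1+1) ∈ bl G v (j+1+1) := adj_mem_bl ih4 h1
    have hp := edge_is_parent h (a := x (j+1)) (b := x (j+1+1))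
      (bl_mono (by omega) ih4) (bl_mono (by omega) hx) h1
    rcases hp with ⟨_, hp⟩ | ⟨hne, hp⟩
    · rw [ih2] at hp
      exact absurd hp (hnb j (by omega))
    · refine ⟨hne, hp, ?_, hx⟩
      rw [lev_par hx hne, hp, ih3]

/-- in a tree ball, nonbacktracking walks from the centre are determined by their end points. -/
theorem walk_inj {G : SimpleGraph V} {v : V} {L : ℕ} (h : ¬ EL G L v) (x y : ℕ → V) (r s : ℕ)
    (hr : r ≤ L) (hs : s ≤ L) (hx0 : x 0 = v) (hy0 : y 0 = v)
    (hx : ∀ j < r, G.Adj (x j) (x (j+1))) (hy : ∀ j < s, G.Adj (y j) (y (j+1)))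
    (hxnb : ∀ j, j + 2 ≤ r → x j ≠ x (j+2)) (hynb : ∀ j, j + 2 ≤ s → y j ≠ y (j+2))
    (heq : x r = y s) : r = s ∧ ∀ j ≤ r, x j = y j := by
  have hX := walk_parent h x r hr hx0 hx hxnb
  have hY := walk_parent h y s hs hy0 hy hynb
  have hlx : ∀ j ≤ r, lev G v (x j) = j := by
    intro j hj
    rcases j with _ | j
    · rw [hx0, lev_self]
    · exact (hX j (by omega)).2.2.1
  have hly : ∀ j ≤ s, lev G v (y j) = j := by
    intro j hj
    rcases j with _ | j
    · rw [hy0, lev_self]
    · exact (hY j (by omega)).2.2.1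
  have hrs : r = s := by
    have h1 := hlx r le_rfl
    have h2 := hly s le_rfl
    rw [heq] at h1
    omega
  refine ⟨hrs, ?_⟩
  subst hrs
  have key : ∀ i ≤ r, x (r - i) = y (r - i) := by
    intro i
    induction i with
    | zero => intro _; simpa using heq
    | succ i ih =>
      intro hi
      have h1 := ih (by omega)
      have e : r - i = (r - (i+1)) + 1 := by omega
      rw [e] at h1
      have h2 := (hX (r - (i+1)) (by omega)).2.1
      have h3 := (hY (r - (i+1)) (by omega)).2.1
      rw [← h2, ← h3, h1]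
  intro j hj
  have := key (r - j) (by omega)
  rwa [show r - (r - j) = j by omega] at this

end

end Crest.Agent.R166.Exc501
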