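import Crest.Agent.R166.F1From_420
import Crest.Agent.R166.FineProb_522
import Crest.Agent.R166.StepFin_395

/-!
# Row 166, section 32 (graph half): `F1` (helper420, helper522)

Most edge blocks are `κ`-fine, at all scales `η ∈ [K0/n, 1]`, uniformly in `|E| ≤ A`, `|s| ≤ s0`.
-/

set_option autoImplicit false

namespace Crest.Agent.R166.F1Final420

/-- **F1** -/
theorem f1 (d : ℕ) (hd : 3 ≤ d) : SpecF3.F1 d := by
  have : NeZero d := ⟨by omega⟩
  exact F1From420.f1From d hd (Fine522.f1Step hd) (StepFin395.thmA hd)

end Crest.Agent.R166.F1Final420
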