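import Crest.Agent.R166.SwP2_470
import Crest.Agent.R166.DecP_789

/-!
# R166, section 20.1: the single-edge move on port-numbered graphs (helper798)

* `EV p h0 b`  : validity of the move `(h0, b)`: the four vertices `h0.1, (p h0).1, b.1, (p b).1`
  are distinct, `h0.1 ≁ b.1`, `(p h0).1 ≁ (p b).1`
* `np p h0 b`  : the new pairing: `h0 — b` and `p h0 — p b`
* `esw`        : the lazy move; returned move `(h0, old p h0)`
* `moveSystem1`: it is a `Sec269.MoveSystem`
* `card_not_EV`: at most `2 d (d+2)` invalid `b`, for every simple `p` and every `h0`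
* `card_Ch_esw_le`, `comm_pairs`, `isMove`, `Hm_np`.
-/

set_option autoImplicit false
set_option linter.unusedSectionVars false

open Finset

namespace Crest.Agent.R166.SwE798

open Crest.Agent.R166 Crest.Agent.R166.SwP470

variable {n d : ℕ}

/-- validity -/
def EV (p : Equiv.Perm (HE n d)) (h0 b : HE n d) : Prop :=
  SwP470.Val (α := HE n d) Prod.fst p (fun _ : Unit => p h0) (fun _ : Unit => b)

/-- the switched pairing -/
noncomputable def np (p : Equiv.Perm (HE n d)) (h0 b : HE n d) : Equiv.Perm (HE n d) :=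
  SwP470.cj (fun _ : Unit => p h0) (fun _ : Unit => b) p

section basic

variable {p : Equiv.Perm (HE n d)} {h0 b : HE n d}

theorem EV_iff (hp : IsPort p) : EV p h0 b ↔ h0.1 ≠ b.1 ∧ h0.1 ≠ (p b).1 ∧ (p h0).1 ≠ b.1 ∧
    (p h0).1 ≠ (p b).1 ∧ ¬ (graphOf p).Adj h0.1 b.1 ∧ ¬ (graphOf p).Adj (p h0).1 (p b).1 := by
  unfold EV
  constructor
  · intro h
    refine ⟨?_, ?_, h.au () (), h.aw () (), ?_, ?_⟩
    · have := h.tu () (); rwa [hp.inv] at this
    · have := h.tw () (); rwa [hp.inv] at this
    · have := h.ntu (); rwa [hp.inv, adj_iff_adj hp] at this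
    · have := h.naw (); rwa [adj_iff_adj hp] at this
  · rintro ⟨h1, h2, h3, h4, h5, h6⟩
    exact
      { aa := fun _ _ _ => rfl
        uu := fun _ _ _ => rfl
        ww := fun _ _ _ => rfl
        au := fun _ _ => h3
        aw := fun _ _ => h4
        uw := fun _ _ => (hp.noloop b).symm
        ta := fun _ _ => by rw [hp.inv]; exact (hp.noloop h0).symm
        tu := fun _ _ => by rw [hp.inv]; exact h1
        tw := fun _ _ => by rw [hp.inv]; exact h2
        ntu := fun _ => by rw [hp.inv, adj_iff_adj hp]; exact h5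
        naw := fun _ => by rw [adj_iff_adj hp]; exact h6 }

theorem EV.isPort (hp : IsPort p) (h : EV p h0 b) : IsPort (np p h0 b) :=
  isPort_of_isSP (SwP470.Val.isSP (isSP_of_isPort hp) h)

theorem EV.np_h0 (hp : IsPort p) (h : EV p h0 b) : np p h0 b h0 = b := by
  have := SwP470.Val.cj_t (isSP_of_isPort hp) h ()
  simp only [hp.inv] at this
  exact this

theorem EV.np_ph0 (h : EV p h0 b) : np p h0 b (p h0) = p b := SwP470.Val.cj_a h ()

theorem EV.np_b (hp : IsPort p) (h : EV p h0 b) : np p h0 b b = h0 := by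
  have := SwP470.Val.cj_b h ()
  rw [hp.inv] at this
  exact this

theorem EV.np_pb (hp : IsPort p) (h : EV p h0 b) : np p h0 b (p b) = p h0 :=
  SwP470.Val.cj_w (isSP_of_isPort hp) h ()

theorem np_other (hp : IsPort p) {x : HE n d} (h1 : x ≠ h0) (h2 : x ≠ p h0) (h3 : x ≠ b)
    (h4 : x ≠ p b) : np p h0 b x = p x :=
  SwP470.Out.cj (isSP_of_isPort hp)
    { oa := fun _ => h2.symm
      ob := fun _ => h3.symm
      ot := fun _ => by rw [hp.inv]; exact h1.symm
      ow := fun _ => h4.symm }

theorem EV.symm (hp : IsPort p) (h : EV p h0 b) : EV (np p h0 b) h0 (p h0) := by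
  have := SwP470.Val.symm (isSP_of_isPort hp) h
  unfold EV
  rw [h.np_h0 hp]
  exact this

theorem EV.np_np (hp : IsPort p) (h : EV p h0 b) : np (np p h0 b) h0 (p h0) = p := by
  unfold np
  have h1 := h.np_h0 hp
  unfold np at h1
  rw [h1, SwP470.cj_cj]

end basic

open Classical in
/-- the lazy single-edge move -/
noncomputable def esw (p : Equiv.Perm (HE n d)) (m : HE n d × HE n d) :
    Equiv.Perm (HE n d) × (HE n d × HE n d) :=
  if EV p m.1 m.2 then (np p m.1 m.2, (m.1, p m.1)) else (p, m)

lemma esw_pos {p : Equiv.Perm (HE n d)} {m : HE n d × HE n d} (h : EV p m.1 m.2) :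
    esw p m = (np p m.1 m.2, (m.1, p m.1)) := if_pos h

lemma esw_neg {p : Equiv.Perm (HE n d)} {m : HE n d × HE n d} (h : ¬ EV p m.1 m.2) :
    esw p m = (p, m) := if_neg h

lemma esw_isPort {p : Equiv.Perm (HE n d)} (hp : IsPort p) (m : HE n d × HE n d) :
    IsPort (esw p m).1 := by
  by_cases h : EV p m.1 m.2
  · rw [esw_pos h]; exact h.isPort hp
  · rw [esw_neg h]; exact hp

/-- **the single-edge move system** -/
theorem moveSystem1 (n d : ℕ) :
    Sec269.MoveSystem (Ports n d)
      (Finset.univ : Finset (HE n d × HE n d)) (Finset.univ : Finset (HE n d)) Prod.fst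
      (Fintype.card (HE n d)) esw where
  ctr_mem := fun _ _ => Finset.mem_univ _
  ctr_card := fun e _ _ => by
    classical
    have : (Finset.univ.filter fun m : HE n d × HE n d => m.1 = e)
        = (Finset.univ : Finset (HE n d)).map
          ⟨fun b => (e, b), fun _ _ h => (Prod.mk.inj h).2⟩ := by
      ext m
      rw [Finset.mem_filter, Finset.mem_map]
      constructor
      · rintro ⟨_, h⟩
        exact ⟨m.2, Finset.mem_univ _, Prod.ext h.symm rfl⟩
      · rintro ⟨y', _, h⟩
        exact ⟨Finset.mem_univ _, (congrArg Prod.fst h).symm⟩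
    rw [this, Finset.card_map, Finset.card_univ]
  mem_left := fun p hp m _ => by
    rw [mem_Ports] at hp ⊢
    exact esw_isPort hp m
  mem_right := fun _ _ _ _ => Finset.mem_univ _
  inv := fun p hp m _ => by
    rw [mem_Ports] at hp
    by_cases h : EV p m.1 m.2
    · rw [esw_pos h]
      have h2 := h.symm hp
      rw [esw_pos (m := (m.1, p m.1)) h2]
      simp only [h.np_np hp, h.np_h0 hp]
    · rw [esw_neg h, esw_neg h]
  ctr_sw := fun p _ m _ => by
    by_cases h : EV p m.1 m.2
    · rw [esw_pos h]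
    · rw [esw_neg h]

/-! ### counting -/

section count

variable {p : Equiv.Perm (HE n d)}

open Classical in
lemma card_fst_mem (A : Finset (Fin n)) :
    (Finset.univ.filter fun b : HE n d => b.1 ∈ A).card = A.card * d := by
  have : (Finset.univ.filter fun b : HE n d => b.1 ∈ A) = A ×ˢ (Finset.univ : Finset (Fin d)) := by
    ext b
    simp
  rw [this, Finset.card_product, Finset.card_univ, Fintype.card_fin]

open Classical in
lemma card_snd_mem (hp : IsPort p) (A : Finset (Fin n)) :
    (Finset.univ.filter fun b : HE n d => (p b).1 ∈ A).card = A.card * d := by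
  rw [← card_fst_mem (d := d) A]
  refine Finset.card_bij (fun b _ => p b) ?_ ?_ ?_
  · intro b hb
    simpa using hb
  · intro b _ b' _ h
    exact p.injective h
  · intro b hb
    refine ⟨p b, ?_, hp.inv b⟩
    simpa [hp.inv] using hb

open Classical in
/-- **invalid choices**: at most `2 d (d+2)`, for every simple `p` and every `h0` -/
theorem card_not_EV (hp : IsPort p) (h0 : HE n d) :
    (Finset.univ.filter fun b : HE n d => ¬ EV p h0 b).card ≤ 2 * d * (d + 2) := by
  set A : Finset (Fin n) := insert h0.1 (insert (p h0).1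
    (Finset.univ.filter fun w => (graphOf p).Adj h0.1 w)) with hA
  set B : Finset (Fin n) := insert h0.1 (insert (p h0).1
    (Finset.univ.filter fun w => (graphOf p).Adj (p h0).1 w)) with hB
  have hsub : (Finset.univ.filter fun b : HE n d => ¬ EV p h0 b) ⊆
      (Finset.univ.filter fun b : HE n d => b.1 ∈ A) ∪
        (Finset.univ.filter fun b : HE n d => (p b).1 ∈ B) := by
    intro b hb
    simp only [Finset.mem_filter, Finset.mem_univ, true_and] at hb
    rw [EV_iff hp] at hb
    simp only [Finset.mem_union, Finset.mem_filter, Finset.mem_univ, true_and, hA, hB,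
      Finset.mem_insert]
    by_cases h1 : b.1 = h0.1
    · exact Or.inl (Or.inl h1)
    by_cases h2 : (p b).1 = h0.1
    · exact Or.inr (Or.inl h2)
    by_cases h3 : b.1 = (p h0).1
    · exact Or.inl (Or.inr (Or.inl h3))
    by_cases h4 : (p b).1 = (p h0).1
    · exact Or.inr (Or.inr (Or.inl h4))
    by_cases h5 : (graphOf p).Adj h0.1 b.1
    · exact Or.inl (Or.inr (Or.inr h5))
    by_cases h6 : (graphOf p).Adj (p h0).1 (p b).1
    · exact Or.inr (Or.inr (Or.inr h6))
    exact absurd ⟨Ne.symm h1, Ne.symm h2, Ne.symm h3, Ne.symm h4, h5, h6⟩ hb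
  have hcA : A.card ≤ d + 2 := by
    refine (Finset.card_insert_le _ _).trans ?_
    have := Finset.card_insert_le (p h0).1 (Finset.univ.filter fun w => (graphOf p).Adj h0.1 w)
    rw [hp.card_nbr] at this
    omega
  have hcB : B.card ≤ d + 2 := by
    refine (Finset.card_insert_le _ _).trans ?_
    have := Finset.card_insert_le (p h0).1
      (Finset.univ.filter fun w => (graphOf p).Adj (p h0).1 w)
    rw [hp.card_nbr] at this
    omega
  refine (Finset.card_le_card hsub).trans ((Finset.card_union_le _ _).trans ?_)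
  rw [card_fst_mem, card_snd_mem hp]
  calc A.card * d + B.card * d ≤ (d + 2) * d + (d + 2) * d := by gcongr
    _ = 2 * d * (d + 2) := by ring

/-- at most four half-edges change -/
theorem card_Ch_esw_le (hp : IsPort p) (m : HE n d × HE n d) :
    (Stab269.Ch p (esw p m).1).card ≤ 4 := by
  classical
  by_cases h : EV p m.1 m.2
  · rw [esw_pos h]
    have hsub : Stab269.Ch p (np p m.1 m.2) ⊆ {m.1, p m.1, m.2, p m.2} := by
      intro x hx
      simp only [Stab269.Ch, Finset.mem_filter, Finset.mem_univ, true_and] at hx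
      by_contra hn
      simp only [Finset.mem_insert, Finset.mem_singleton, not_or] at hn
      exact hx (np_other hp hn.1 hn.2.1 hn.2.2.1 hn.2.2.2).symm
    exact (Finset.card_le_card hsub).trans Finset.card_le_four
  · rw [esw_neg h]
    have : Stab269.Ch p p = ∅ := by
      ext x
      simp [Stab269.Ch]
    simp [this]

/-- as a simultaneous switching in the sense of `DecP_789` -/
theorem EV.isMove (hp : IsPort p) {h0 b : HE n d} (h : EV p h0 b) :
    DecP789.IsMove p (np p h0 b) (fun _ : Unit => h0) (fun _ : Unit => b) := by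
  have h' := (EV_iff hp).1 h
  exact
    { ntau := fun _ => h.np_h0 hp
      nout := fun _ => h.np_ph0
      rest := fun x h1 h2 h3 h4 => np_other hp (h1 ()) (h2 ()) (h3 ()) (h4 ())
      tau_inj := fun _ _ _ => rfl
      b_inj := fun _ _ _ => rfl
      tau_out := fun _ _ => (hp.ne_self h0).symm
      tau_b := fun _ _ e => h'.1 (by rw [e])
      tau_c := fun _ _ e => h'.2.1 (congrArg Prod.fst e)
      b_c := fun _ _ => (hp.ne_self b).symm }

/-- the perturbation of the Hamiltonian -/
theorem EV.Hm_np (hp : IsPort p) {h0 b : HE n d} (h : EV p h0 b) (s : ℝ) (ω : Fin n → ℝ) :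
    Hm (graphOf (np p h0 b)) s ω = Hm (graphOf p) s ω +
      (DecP789.EE h0 b + DecP789.EE (p h0) (p b) - DecP789.EE h0 (p h0) -
        DecP789.EE b (p b)) := by
  have := DecP789.IsMove.Hm_move hp (h.isPort hp) (h.isMove hp) s ω
  rw [this]
  simp

end count

/-! ### commutation -/

section comm

variable {p : Equiv.Perm (HE n d)}

/-- the four vertices of a move -/
def VS (p : Equiv.Perm (HE n d)) (m : HE n d × HE n d) : Finset (Fin n) :=
  {m.1.1, (p m.1).1, m.2.1, (p m.2).1}

lemma mem_VS {m : HE n d × HE n d} {v : Fin n} :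
    v ∈ VS p m ↔ v = m.1.1 ∨ v = (p m.1).1 ∨ v = m.2.1 ∨ v = (p m.2).1 := by
  simp [VS]

/-- the other move does not change the half-edges at the vertices outside `VS` -/
lemma esw_apply_of_notMem (hp : IsPort p) {m : HE n d × HE n d} {x : HE n d}
    (hx : x.1 ∉ VS p m) : (esw p m).1 x = p x := by
  by_cases h : EV p m.1 m.2
  · rw [esw_pos h]
    rw [mem_VS, not_or, not_or, not_or] at hx
    exact np_other hp (fun e => hx.1 (by rw [e])) (fun e => hx.2.1 (by rw [e]))
      (fun e => hx.2.2.1 (by rw [e])) (fun e => hx.2.2.2 (by rw [e]))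
  · rw [esw_neg h]

lemma adj_esw (hp : IsPort p) {m : HE n d × HE n d} {v w : Fin n} (hv : v ∉ VS p m) :
    (graphOf (esw p m).1).Adj v w ↔ (graphOf p).Adj v w := by
  rw [hp.adj_iff, (esw_isPort hp m).adj_iff]
  constructor
  · rintro ⟨i, hi⟩
    exact ⟨i, by rwa [esw_apply_of_notMem hp (x := (v, i)) hv] at hi⟩
  · rintro ⟨i, hi⟩
    exact ⟨i, by rwa [esw_apply_of_notMem hp (x := (v, i)) hv]⟩

lemma EV_esw (hp : IsPort p) {m m' : HE n d × HE n d} (hd : Disjoint (VS p m) (VS p m')) :
    EV (esw p m').1 m.1 m.2 ↔ EV p m.1 m.2 := by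
  have h1 : m.1.1 ∉ VS p m' := Finset.disjoint_left.1 hd (mem_VS.2 (Or.inl rfl))
  have h2 : (p m.1).1 ∉ VS p m' := Finset.disjoint_left.1 hd (mem_VS.2 (Or.inr (Or.inl rfl)))
  have h3 : m.2.1 ∉ VS p m' :=
    Finset.disjoint_left.1 hd (mem_VS.2 (Or.inr (Or.inr (Or.inl rfl))))
  rw [EV_iff hp, EV_iff (esw_isPort hp m'), adj_esw hp h1, esw_apply_of_notMem hp h1,
    esw_apply_of_notMem hp h3, adj_esw hp h2]

lemma VS_esw (hp : IsPort p) {m m' : HE n d × HE n d} (hd : Disjoint (VS p m) (VS p m')) :
    VS (esw p m').1 m = VS p m := by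
  have h1 : m.1.1 ∉ VS p m' := Finset.disjoint_left.1 hd (mem_VS.2 (Or.inl rfl))
  have h3 : m.2.1 ∉ VS p m' :=
    Finset.disjoint_left.1 hd (mem_VS.2 (Or.inr (Or.inr (Or.inl rfl))))
  unfold VS
  rw [esw_apply_of_notMem hp h1, esw_apply_of_notMem hp h3]

/-- the new pairing on the half-edges at `VS p m` depends only on `p` there -/
lemma np_congr {p' : Equiv.Perm (HE n d)} (hp : IsPort p) (hp' : IsPort p') {h0 b : HE n d}
    (h : EV p h0 b) (h' : EV p' h0 b) (e1 : p' h0 = p h0) (e2 : p' b = p b) {x : HE n d}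
    (e3 : p' x = p x) : np p' h0 b x = np p h0 b x := by
  by_cases h1 : x = h0
  · rw [h1, h.np_h0 hp, h'.np_h0 hp']
  by_cases h2 : x = p h0
  · rw [h2, h.np_ph0, ← e1, h'.np_ph0, e2]
  by_cases h3 : x = b
  · rw [h3, h.np_b hp, h'.np_b hp']
  by_cases h4 : x = p b
  · rw [h4, h.np_pb hp, ← e2, h'.np_pb hp', e1]
  rw [np_other hp h1 h2 h3 h4, np_other hp' h1 (by rw [e1]; exact h2) h3 (by rw [e2]; exact h4), e3]

lemma esw_congr {p' : Equiv.Perm (HE n d)} (hp : IsPort p) (hp' : IsPort p')
    {m : HE n d × HE n d} (hE : EV p' m.1 m.2 ↔ EV p m.1 m.2) (e1 : p' m.1 = p m.1)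
    (e2 : p' m.2 = p m.2) {x : HE n d} (e3 : p' x = p x) : (esw p' m).1 x = (esw p m).1 x := by
  by_cases h : EV p m.1 m.2
  · rw [esw_pos h, esw_pos (hE.2 h)]
    exact np_congr hp hp' h (hE.2 h) e1 e2 e3
  · rw [esw_neg h, esw_neg (fun h' => h (hE.1 h'))]
    exact e3

/-- **moves with disjoint vertex sets commute** -/
theorem esw_comm (hp : IsPort p) {m m' : HE n d × HE n d} (hd : Disjoint (VS p m) (VS p m')) :
    (esw (esw p m).1 m').1 = (esw (esw p m').1 m).1 := by
  have hq := esw_isPort hp m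
  have hq' := esw_isPort hp m'
  have e1 : (esw p m').1 m.1 = p m.1 :=
    esw_apply_of_notMem hp (Finset.disjoint_left.1 hd (mem_VS.2 (Or.inl rfl)))
  have e2 : (esw p m').1 m.2 = p m.2 :=
    esw_apply_of_notMem hp (Finset.disjoint_left.1 hd (mem_VS.2 (Or.inr (Or.inr (Or.inl rfl)))))
  have e1' : (esw p m).1 m'.1 = p m'.1 :=
    esw_apply_of_notMem hp (Finset.disjoint_left.1 hd.symm (mem_VS.2 (Or.inl rfl)))
  have e2' : (esw p m).1 m'.2 = p m'.2 :=
    esw_apply_of_notMem hp
      (Finset.disjoint_left.1 hd.symm (mem_VS.2 (Or.inr (Or.inr (Or.inl rfl)))))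
  apply Equiv.ext
  intro x
  by_cases hx : x.1 ∈ VS p m
  · have hx' : x.1 ∉ VS p m' := Finset.disjoint_left.1 hd hx
    have hx2 : x.1 ∉ VS (esw p m).1 m' := by rwa [VS_esw hp hd.symm]
    rw [esw_apply_of_notMem hq hx2,
      esw_congr hp hq' (EV_esw hp hd) e1 e2 (esw_apply_of_notMem hp hx')]
  · have hx2 : x.1 ∉ VS (esw p m').1 m := by rwa [VS_esw hp hd]
    rw [esw_apply_of_notMem hq' hx2,
      esw_congr hp hq (EV_esw hp hd.symm) e1' e2' (esw_apply_of_notMem hp hx)]

open Classical in
/-- the pairs of moves which may fail to commute -/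
noncomputable def BadPairs (p : Equiv.Perm (HE n d)) :
    Finset ((HE n d × HE n d) × (HE n d × HE n d)) :=
  Finset.univ.filter fun x => ¬ Disjoint (VS p x.1) (VS p x.2)

theorem card_BadPairs (hp : IsPort p) :
    (BadPairs p).card ≤ (n * d) ^ 2 * (16 * d * (n * d)) := by
  classical
  have h1 : BadPairs p ⊆ (Finset.univ : Finset (HE n d × HE n d)).biUnion fun m =>
      ((((Finset.univ.filter fun b : HE n d => b.1 ∈ VS p m) ×ˢ
          (Finset.univ : Finset (HE n d))) ∪
        ((Finset.univ.filter fun b : HE n d => (p b).1 ∈ VS p m) ×ˢ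
          (Finset.univ : Finset (HE n d)))) ∪
      (((Finset.univ : Finset (HE n d)) ×ˢ
          (Finset.univ.filter fun b : HE n d => b.1 ∈ VS p m)) ∪
        ((Finset.univ : Finset (HE n d)) ×ˢ
          (Finset.univ.filter fun b : HE n d => (p b).1 ∈ VS p m)))).image fun m' => (m, m') := by
    rintro ⟨m, m'⟩ hx
    simp only [BadPairs, Finset.mem_filter, Finset.mem_univ, true_and,
      Finset.not_disjoint_iff] at hx
    obtain ⟨v, hv, hv'⟩ := hx
    rw [Finset.mem_biUnion]
    refine ⟨m, Finset.mem_univ _, Finset.mem_image.2 ⟨m', ?_, rfl⟩⟩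
    rw [mem_VS] at hv'
    simp only [Finset.mem_union, Finset.mem_product, Finset.mem_filter, Finset.mem_univ,
      true_and, and_true]
    rcases hv' with rfl | rfl | rfl | rfl
    · exact Or.inl (Or.inl hv)
    · exact Or.inl (Or.inr hv)
    · exact Or.inr (Or.inl hv)
    · exact Or.inr (Or.inr hv)
  have hVS : ∀ m, (VS p m).card ≤ 4 := fun m => Finset.card_le_four
  refine (Finset.card_le_card h1).trans (Finset.card_biUnion_le.trans ?_)
  have h2 : ∀ m ∈ (Finset.univ : Finset (HE n d × HE n d)),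
      ((((((Finset.univ.filter fun b : HE n d => b.1 ∈ VS p m) ×ˢ
          (Finset.univ : Finset (HE n d))) ∪
        ((Finset.univ.filter fun b : HE n d => (p b).1 ∈ VS p m) ×ˢ
          (Finset.univ : Finset (HE n d)))) ∪
      (((Finset.univ : Finset (HE n d)) ×ˢ
          (Finset.univ.filter fun b : HE n d => b.1 ∈ VS p m)) ∪
        ((Finset.univ : Finset (HE n d)) ×ˢ
          (Finset.univ.filter fun b : HE n d => (p b).1 ∈ VS p m)))).image
            fun m' => (m, m')).card) ≤ 16 * d * (n * d) := by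
    intro m _
    refine Finset.card_image_le.trans ((Finset.card_union_le _ _).trans ?_)
    refine (Nat.add_le_add (Finset.card_union_le _ _) (Finset.card_union_le _ _)).trans ?_
    simp only [Finset.card_product, card_fst_mem, card_snd_mem hp, Finset.card_univ,
      IsPort.card_HE]
    calc (VS p m).card * d * (n * d) + (VS p m).card * d * (n * d) +
        (n * d * ((VS p m).card * d) + n * d * ((VS p m).card * d))
        ≤ 4 * d * (n * d) + 4 * d * (n * d) + (n * d * (4 * d) + n * d * (4 * d)) := by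
          gcongr <;> exact hVS m
      _ = 16 * d * (n * d) := by ring
  refine (Finset.sum_le_card_nsmul _ _ _ h2).trans ?_
  rw [Finset.card_univ, Fintype.card_prod, IsPort.card_HE, smul_eq_mul, sq]

/-- **the hypothesis `hcomm` of the second moment lemma**, `δ₁ = 16 / n` -/
theorem hcomm1 (n d : ℕ) :
    ∃ Bad : Equiv.Perm (HE n d) → Finset ((HE n d × HE n d) × (HE n d × HE n d)),
      (∀ p ∈ Ports n d, ((Bad p).card : ℝ) ≤
        (16 / n : ℝ) * ((Finset.univ : Finset (HE n d × HE n d)).card : ℝ) ^ 2) ∧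
      (∀ p ∈ Ports n d, ∀ m ∈ (Finset.univ : Finset (HE n d × HE n d)),
        ∀ m' ∈ (Finset.univ : Finset (HE n d × HE n d)), (m, m') ∉ Bad p →
        (esw (esw p m).1 m').1 = (esw (esw p m').1 m).1) := by
  classical
  refine ⟨BadPairs, ?_, ?_⟩
  · intro p hp
    have h := card_BadPairs (mem_Ports.1 hp)
    rw [Finset.card_univ, Fintype.card_prod, IsPort.card_HE]
    rcases Nat.eq_zero_or_pos n with h0 | h0
    · subst h0
      have : (BadPairs p).card ≤ 0 := by simpa using h
      have h2 : (BadPairs p).card = 0 := by omega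
      rw [h2]
      simp
    have hn : (0 : ℝ) < n := by exact_mod_cast h0
    have h' : ((BadPairs p).card : ℝ) ≤ ((n : ℝ) * d) ^ 2 * (16 * d * (n * d)) := by
      exact_mod_cast h
    refine h'.trans (le_of_eq ?_)
    push_cast
    field_simp
  · intro p hp m _ m' _ hm
    have hp' := mem_Ports.1 hp
    refine esw_comm hp' ?_
    by_contra hnd
    exact hm (Finset.mem_filter.2 ⟨Finset.mem_univ _, hnd⟩)

end comm

end Crest.Agent.R166.SwE798
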