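import Crest.Agent.R166.OffDet_522
import Crest.Agent.R166.Sec2_522
import Crest.Agent.R166.SwE_798

/-!
# Row 166, section 32: off-diagonals, part 1 (helper63): one single-edge switching on the ports

`tM p s ω z h` = power gain (`TwoPort522.tauM`) of the cavity block of the half-edge `h`.
-/

set_option autoImplicit false
set_option linter.unusedSectionVars false

open Matrix Finset

namespace Crest.Agent.R166.F263

open Crest.Agent.R166 Crest.Agent.R166.Res598 Crest.Agent.R166.Dec598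
open Crest.Agent.R166.TwoPort522 Crest.Agent.R166.Off522 Crest.Agent.R166.Stab269
open Crest.Agent.R166.DecP789

variable {n d : ℕ}

/-- gain of the cavity block -/
noncomputable def tM (p : Equiv.Perm (HE n d)) (s : ℝ) (ω : Fin n → ℝ) (z : ℂ) (h : HE n d) : ℝ :=
  tauM (B0 p s ω z h)

lemma siegel_BE {p : Equiv.Perm (HE n d)} (hp : IsPort p) (s : ℝ) (ω : Fin n → ℝ) {z : ℂ}
    (hz : 0 < z.im) (h : HE n d) : Siegel (BE p s ω z h) :=
  siegel_iff.2 (sieg_BE hp s ω hz h)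

lemma siegel_B0 {p : Equiv.Perm (HE n d)} (hp : IsPort p) (s : ℝ) (ω : Fin n → ℝ) {z : ℂ}
    (hz : 0 < z.im) (h : HE n d) : Siegel (B0 p s ω z h) :=
  siegel_cavB (siegel_BE hp s ω hz h)

lemma tM_nonneg {p : Equiv.Perm (HE n d)} (hp : IsPort p) (s : ℝ) (ω : Fin n → ℝ) {z : ℂ}
    (hz : 0 < z.im) (h : HE n d) : 0 ≤ tM p s ω z h := tauM_nonneg (siegel_B0 hp s ω hz h)

lemma tM_le_one {p : Equiv.Perm (HE n d)} (hp : IsPort p) (s : ℝ) (ω : Fin n → ℝ) {z : ℂ}
    (hz : 0 < z.im) (h : HE n d) : tM p s ω z h ≤ 1 := tauM_le_one (siegel_B0 hp s ω hz h)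

/-! ### the four ports of a single-edge switching -/

/-- `inl 0 = u, inl 1 = w, inr 0 = w1, inr 1 = u1` -/
def f4 (p : Equiv.Perm (HE n d)) (h0 b : HE n d) : Fin 2 ⊕ Fin 2 → Fin n :=
  Sum.elim ![h0.1, (p h0).1] ![(p b).1, b.1]

lemma f4_inj {p : Equiv.Perm (HE n d)} (hp : IsPort p) {h0 b : HE n d} (h : SwE798.EV p h0 b) :
    Function.Injective (f4 p h0 b) := by
  obtain ⟨a1, a2, a3, a4, -, -⟩ := (SwE798.EV_iff hp).1 h
  have a5 : (p h0).1 ≠ h0.1 := hp.noloop h0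
  have a6 : (p b).1 ≠ b.1 := hp.noloop b
  have b1 := Ne.symm a1
  have b2 := Ne.symm a2
  have b3 := Ne.symm a3
  have b4 := Ne.symm a4
  have b5 := Ne.symm a5
  have b6 := Ne.symm a6
  rintro (i | i) (j | j) hij <;> fin_cases i <;> fin_cases j <;>
    simp [f4, a1, a2, a3, a4, a5, a6, b1, b2, b3, b4, b5, b6] at hij ⊢

lemma VF_eq : VF = es (Sum.inl 0) (Sum.inr 1) + es (Sum.inl 1) (Sum.inr 0) -
    es (Sum.inl 0) (Sum.inl 1) - es (Sum.inr 1) (Sum.inr 0) := by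
  ext (i | i) (j | j) <;> fin_cases i <;> fin_cases j <;>
    simp [VF, Off522.VS, VG, W2r, es, eg, PG, lift, emb, Matrix.mul_apply, Fin.sum_univ_two]

lemma Hm_np4 {p : Equiv.Perm (HE n d)} (hp : IsPort p) {h0 b : HE n d} (h : SwE798.EV p h0 b)
    (s : ℝ) (ω : Fin n → ℝ) :
    Hm (graphOf (SwE798.np p h0 b)) s ω = Hm (graphOf p) s ω + lift (emb (f4 p h0 b)) VF := by
  rw [h.Hm_np hp, VF_eq, lift_sub, lift_sub, lift_add,
    lift_es (f4 p h0 b) (h := h0) (h' := b) rfl rfl,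
    lift_es (f4 p h0 b) (h := p h0) (h' := p b) rfl rfl,
    lift_es (f4 p h0 b) (h := h0) (h' := p h0) rfl rfl,
    lift_es (f4 p h0 b) (h := b) (h' := p b) rfl rfl]

/-- **single switching step on the ports** -/
theorem tM_switch {p : Equiv.Perm (HE n d)} (hp : IsPort p) {h0 b : HE n d}
    (h : SwE798.EV p h0 b) (s : ℝ) (ω : Fin n → ℝ) {z : ℂ} (hz : 0 < z.im) {c δ : ℝ} (hc : 0 < c)
    (hδ : 0 ≤ δ) (hsmall : δ * 4 / c ≤ 1 / 3) (h1 : ImGe c (BE p s ω z h0))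
    (h2 : ImGe c (BE p s ω z (p b)))
    (hd : ∀ i j, ‖Res (Hm (graphOf p) s ω) z (![h0.1, (p h0).1] i) (![(p b).1, b.1] j)‖ ≤ δ) :
    tM (SwE798.np p h0 b) s ω z h0 ≤ tM p s ω z h0 * tM p s ω z (p b) + 72 * δ / c := by
  have hH := Hm_symm (graphOf p) s ω
  have hR : Siegel (Res789.Res (Hm (graphOf p) s ω) z) := siegel_Res hH hz
  have hf := f4_inj hp h
  have e := Res_lift hH hf VF_symm hz
  rw [← Hm_np4 hp h] at e
  have key := tau_switch hc hδ hsmall (hR.sub hf) (by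
    exact h1) (by
    have : (p (p b)).1 = b.1 := by rw [hp.inv]
    intro x
    have := h2 x
    simp only [BE, hp.inv] at this
    exact this) (fun i j => hd i j)
  rw [← e] at key
  have g1 : ((Res789.Res (Hm (graphOf (SwE798.np p h0 b)) s ω) z).submatrix (f4 p h0 b)
      (f4 p h0 b)).submatrix PG PG = BE (SwE798.np p h0 b) s ω z h0 := by
    rw [BE, h.np_h0 hp]
    ext i j
    fin_cases i <;> fin_cases j <;> rfl
  have g2 : ((Res789.Res (Hm (graphOf p) s ω) z).submatrix (f4 p h0 b) (f4 p h0 b)).toBlocks₁₁ =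
      BE p s ω z h0 := rfl
  have g3 : ((Res789.Res (Hm (graphOf p) s ω) z).submatrix (f4 p h0 b) (f4 p h0 b)).toBlocks₂₂ =
      BE p s ω z (p b) := by
    rw [BE, hp.inv]
    rfl
  rw [g1, g2, g3] at key
  exact key

end Crest.Agent.R166.F263
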