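import Crest.Agent.R166.F2a_63
import Crest.Agent.R166.Rev2_811

/-!
# Row 166, section 32: off-diagonals, part 2 (helper63): averages over one port graph

* `tauM_change`, `stab_tM`: stability of the gain on fine edges;
* `g_le`: one-step average of the gain `≤ (average gain)² + error`.
-/

set_option autoImplicit false
set_option linter.unusedSectionVars false

open Matrix Finset

namespace Crest.Agent.R166.F263

open Crest.Agent.R166 Crest.Agent.R166.Res598 Crest.Agent.R166.Dec598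
open Crest.Agent.R166.TwoPort522 Crest.Agent.R166.Off522 Crest.Agent.R166.Stab269
open Crest.Agent.R166.DecP789 Crest.Agent.R166.Rev811 Crest.Agent.R166.Sec269

/-- change of the gain of a block with `Im ≥ c` -/
theorem tauM_change {c δ : ℝ} (hc : 0 < c) (hδ : 0 ≤ δ) {B B' : Matrix (Fin 2) (Fin 2) ℂ}
    (hB : Siegel B) (hB' : Siegel B') (hf : ImGe c B) (hd : ∀ i j, ‖B' i j - B i j‖ ≤ δ) :
    |tauM (cavB B') - tauM (cavB B)| ≤ 48 * δ / c := by
  have hV : (-W2r)ᵀ = -W2r := by rw [Matrix.transpose_neg, W2r_symm]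
  have h0 := near_of_entry hc hδ hB'.symm hf hd
  set ε := δ * Fintype.card (Fin 2) / c with hε
  have hε' : ε = 2 * δ / c := by rw [hε]; simp; ring
  have hε0 : 0 ≤ ε := by rw [hε']; positivity
  have hs1 := siegel_cavB hB
  have hs2 := siegel_cavB hB'
  have e48 : 48 * δ / c = 24 * ε := by rw [hε']; ring
  by_cases h4 : ε ≤ 1 / 4
  · have h1 := Near.mob hε0 (by linarith) hB h0 hV
    rw [← cavB_eq_mob hB, ← cavB_eq_mob hB'] at h1
    set ε1 := ε / (1 - ε) with hε1
    have hp1 : 0 ≤ ε1 := div_nonneg hε0 (by linarith)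
    have hl1 : ε1 ≤ 4 / 3 * ε := by
      rw [hε1, div_le_iff₀ (by linarith)]; nlinarith
    have h2 := Near.tauM_le hp1 (by linarith) hs1 h1
    have h3 := near_symm hp1 (by linarith) hs1 h1
    set ε2 := ε1 / (1 - ε1) with hε2
    have hp2 : 0 ≤ ε2 := div_nonneg hp1 (by linarith)
    have hl2 : ε2 ≤ 3 / 2 * ε1 := by
      rw [hε2, div_le_iff₀ (by linarith)]; nlinarith
    have h5 := Near.tauM_le hp2 (by linarith) hs2 h3
    rw [abs_le, e48]
    constructor <;> linarith
  · have a1 := tauM_nonneg hs1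
    have a2 := tauM_nonneg hs2
    have a3 := tauM_le_one hs1
    have a4 := tauM_le_one hs2
    rw [abs_le, e48]
    constructor <;> linarith

variable {n d : ℕ}

open Classical in
/-- number of half-edges which are not `c`-fine -/
noncomputable def nfc (c : ℝ) (p : Equiv.Perm (HE n d)) (s : ℝ) (ω : Fin n → ℝ) (z : ℂ) : ℝ :=
  ((Finset.univ.filter fun h : HE n d => ¬ Fine c (BE p s ω z h)).card : ℝ)

lemma nfc_nonneg (c : ℝ) (p : Equiv.Perm (HE n d)) (s : ℝ) (ω : Fin n → ℝ) (z : ℂ) :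
    0 ≤ nfc c p s ω z := Nat.cast_nonneg _

open Classical in
lemma nfc_eq (c : ℝ) (p : Equiv.Perm (HE n d)) (s : ℝ) (ω : Fin n → ℝ) (z : ℂ) :
    nfc c p s ω z = ∑ h, if ¬ Fine c (BE p s ω z h) then (1 : ℝ) else 0 := by
  rw [nfc, Finset.sum_boole]

/-- stability of the gain along a change of the pairing -/
theorem stab_tM {p p' : Equiv.Perm (HE n d)} (hp : IsPort p) (hp' : IsPort p') (s : ℝ)
    (ω : Fin n → ℝ) {z : ℂ} (hz : 0 < z.im) {c : ℝ} (hc : 0 < c) :
    ∑ h, |tM p' s ω z h - tM p s ω z h| ≤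
      96 * d * ((Ch p p').card : ℝ) / (c * z.im) + 2 * ((Ch p p').card : ℝ) +
        nfc c p s ω z := by
  classical
  obtain ⟨γ, hγ0, hγ, hsum⟩ := exists_gamma hp hp' s ω hz
  set F : HE n d → ℝ := fun h => if Fine c (BE p s ω z h) then tM p s ω z h else 0 with hF
  set F' : HE n d → ℝ := fun h => if Fine c (BE p s ω z h) then tM p' s ω z h else 0 with hF'
  have b1 : ∀ h, |F h| ≤ 1 := by
    intro h
    simp only [hF]
    split_ifs
    · rw [abs_of_nonneg (tM_nonneg hp s ω hz h)]; exact tM_le_one hp s ω hz h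
    · simp
  have b2 : ∀ h, |F' h| ≤ 1 := by
    intro h
    simp only [hF']
    split_ifs
    · rw [abs_of_nonneg (tM_nonneg hp' s ω hz h)]; exact tM_le_one hp' s ω hz h
    · simp
  have key := stab_abstract (p := p) (p' := p') (η := z.im) hsum b1 b2 (C := 48 / c)
    (by positivity) (by
      intro h hh
      simp only [hF, hF']
      split_ifs with hfine
      · have hd : ∀ i j, ‖BE p' s ω z h i j - BE p s ω z h i j‖ ≤ γ h.1 ^ 2 + γ (p h).1 ^ 2 := by
          have hx : ∀ x y : Fin n, (x = h.1 ∨ x = (p h).1) → (y = h.1 ∨ y = (p h).1) →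
              ‖Res (Hm (graphOf p') s ω) z x y - Res (Hm (graphOf p) s ω) z x y‖ ≤
                γ h.1 ^ 2 + γ (p h).1 ^ 2 := by
            intro x y hx hy
            refine (hγ x y).trans ?_
            rcases hx with rfl | rfl <;> rcases hy with rfl | rfl <;>
              nlinarith [sq_nonneg (γ h.1), sq_nonneg (γ (p h).1),
                sq_nonneg (γ h.1 - γ (p h).1)]
          intro i j
          have e1 : BE p' s ω z h i j = Res (Hm (graphOf p') s ω) z (![h.1, (p h).1] i)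
              (![h.1, (p h).1] j) := by
            rw [BE, ← hh]; rfl
          have e2 : BE p s ω z h i j = Res (Hm (graphOf p) s ω) z (![h.1, (p h).1] i)
              (![h.1, (p h).1] j) := rfl
          rw [e1, e2]
          apply hx
          · fin_cases i <;> simp
          · fin_cases j <;> simp
        have := tauM_change hc (by positivity) (siegel_BE hp s ω hz h) (siegel_BE hp' s ω hz h)
          hfine.im hd
        calc |tM p' s ω z h - tM p s ω z h| ≤ 48 * (γ h.1 ^ 2 + γ (p h).1 ^ 2) / c := this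
          _ = 48 / c * (γ h.1 ^ 2 + γ (p h).1 ^ 2) := by ring
      · simp only [sub_self, abs_zero]; positivity)
  have h1 : ∀ h, |tM p' s ω z h - tM p s ω z h| ≤ |F' h - F h| +
      if ¬ Fine c (BE p s ω z h) then (1 : ℝ) else 0 := by
    intro h
    simp only [hF, hF']
    by_cases hfine : Fine c (BE p s ω z h)
    · simp [hfine]
    · simp only [hfine, if_false, sub_self, abs_zero, not_false_eq_true, if_true, zero_add]
      have a1 := tM_nonneg hp s ω hz h
      have a2 := tM_nonneg hp' s ω hz h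
      have a3 := tM_le_one hp s ω hz h
      have a4 := tM_le_one hp' s ω hz h
      rw [abs_le]
      constructor <;> linarith
  refine (Finset.sum_le_sum fun h _ => h1 h).trans ?_
  rw [Finset.sum_add_distrib, ← nfc_eq]
  have h2 : 2 * (48 / c) * d * ((Ch p p').card : ℝ) / z.im =
      96 * d * ((Ch p p').card : ℝ) / (c * z.im) := by
    field_simp
    ring
  rw [h2] at key
  linarith

/-! ### the one-step average -/

open Classical in
/-- pointwise bound of the gain after one switching -/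
lemma tM_esw_le {p : Equiv.Perm (HE n d)} (hp : IsPort p) (s : ℝ) (ω : Fin n → ℝ) {z : ℂ}
    (hz : 0 < z.im) {c δ : ℝ} (hc : 0 < c) (hδ : 0 < δ) (hsmall : δ * 4 / c ≤ 1 / 3)
    (h0 b : HE n d) :
    tM (SwE798.esw p (h0, b)).1 s ω z h0 ≤ tM p s ω z h0 * tM p s ω z (p b) + 72 * δ / c +
      (if ¬ SwE798.EV p h0 b then (1 : ℝ) else 0) +
      (if ¬ Fine c (BE p s ω z h0) then (1 : ℝ) else 0) +
      (if ¬ Fine c (BE p s ω z (p b)) then (1 : ℝ) else 0) +
      (if Fine c (BE p s ω z h0) ∧ δ ^ 2 < cpl2 (Res789.Res (Hm (graphOf p) s ω) z) p h0 b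
        then (1 : ℝ) else 0) := by
  have n1 : 0 ≤ tM p s ω z h0 * tM p s ω z (p b) :=
    mul_nonneg (tM_nonneg hp s ω hz _) (tM_nonneg hp s ω hz _)
  have n2 : 0 ≤ 72 * δ / c := by positivity
  have n3 : (0 : ℝ) ≤ if ¬ SwE798.EV p h0 b then (1 : ℝ) else 0 := by split_ifs <;> norm_num
  have n4 : (0 : ℝ) ≤ if ¬ Fine c (BE p s ω z h0) then (1 : ℝ) else 0 := by
    split_ifs <;> norm_num
  have n5 : (0 : ℝ) ≤ if ¬ Fine c (BE p s ω z (p b)) then (1 : ℝ) else 0 := by
    split_ifs <;> norm_num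
  have n6 : (0 : ℝ) ≤ if Fine c (BE p s ω z h0) ∧
      δ ^ 2 < cpl2 (Res789.Res (Hm (graphOf p) s ω) z) p h0 b then (1 : ℝ) else 0 := by
    split_ifs <;> norm_num
  have hone : tM (SwE798.esw p (h0, b)).1 s ω z h0 ≤ 1 :=
    tM_le_one (SwE798.esw_isPort hp (h0, b)) s ω hz h0
  by_cases hE : SwE798.EV p h0 b
  swap
  · rw [if_pos hE]; linarith
  by_cases hF : Fine c (BE p s ω z h0)
  swap
  · rw [if_pos hF]; linarith
  by_cases hG : Fine c (BE p s ω z (p b))
  swap
  · rw [if_pos hG]; linarith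
  by_cases hC : δ ^ 2 < cpl2 (Res789.Res (Hm (graphOf p) s ω) z) p h0 b
  · rw [if_pos (⟨hF, hC⟩ : Fine c (BE p s ω z h0) ∧ _)]; linarith
  have hesw : (SwE798.esw p (h0, b)).1 = SwE798.np p h0 b := by
    rw [SwE798.esw_pos (m := (h0, b)) hE]
  rw [hesw]
  have hd : ∀ i j, ‖Res (Hm (graphOf p) s ω) z (![h0.1, (p h0).1] i) (![(p b).1, b.1] j)‖ ≤ δ := by
    rw [not_lt] at hC
    unfold cpl2 at hC
    intro i j
    apply le_of_sq_le_sq _ hδ.le
    have e : ∀ x y, Res (Hm (graphOf p) s ω) z x y = Res789.Res (Hm (graphOf p) s ω) z x y :=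
      fun _ _ => rfl
    rw [e]
    have q1 := sq_nonneg ‖Res789.Res (Hm (graphOf p) s ω) z h0.1 b.1‖
    have q2 := sq_nonneg ‖Res789.Res (Hm (graphOf p) s ω) z (p h0).1 b.1‖
    have q3 := sq_nonneg ‖Res789.Res (Hm (graphOf p) s ω) z h0.1 (p b).1‖
    have q4 := sq_nonneg ‖Res789.Res (Hm (graphOf p) s ω) z (p h0).1 (p b).1‖
    fin_cases i <;> fin_cases j <;> simp <;> linarith
  have := tM_switch hp hE s ω hz hc hδ.le hsmall hF.im hG.im hd
  linarith

lemma card_HE' : (Fintype.card (HE n d) : ℝ) = n * d := by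
  rw [IsPort.card_HE]; push_cast; ring

open Classical in
theorem g_le {p : Equiv.Perm (HE n d)} (hp : IsPort p) (hn : 0 < n) (hd : 0 < d) (s : ℝ)
    (ω : Fin n → ℝ) {z : ℂ} (hz : 0 < z.im) {c δ : ℝ} (hc : 0 < c) (hδ : 0 < δ)
    (hsmall : δ * 4 / c ≤ 1 / 3) :
    gAvg (Finset.univ : Finset (HE n d × HE n d)) Prod.fst SwE798.esw
        (fun p h => tM p s ω z h) p ≤
      (nuAvg (Finset.univ : Finset (HE n d)) (fun p h => tM p s ω z h) p) ^ 2 +
        (72 * δ / c + 2 * (d + 2) / n + 2 * (nfc c p s ω z / (n * d)) +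
          4 / (δ ^ 2 * c * (n * z.im))) := by
  have hn' : (0 : ℝ) < n := by exact_mod_cast hn
  have hd' : (0 : ℝ) < d := by exact_mod_cast hd
  set N : ℝ := n * d with hN
  have hNpos : 0 < N := by positivity
  have hcard : (Fintype.card (HE n d) : ℝ) = N := card_HE'
  have hcard2 : ((Finset.univ : Finset (HE n d × HE n d)).card : ℝ) = N * N := by
    rw [Finset.card_univ, Fintype.card_prod]; push_cast; rw [hcard]
  set T : ℝ := ∑ h, tM p s ω z h with hT
  have hnu : nuAvg (Finset.univ : Finset (HE n d)) (fun p h => tM p s ω z h) p = T / N := by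
    rw [nuAvg, Finset.card_univ, hcard]
  rw [gAvg, hcard2, hnu, div_le_iff₀ (by positivity), Fintype.sum_prod_type]
  have h1 : ∑ h0 : HE n d, ∑ b : HE n d, tM (SwE798.esw p (h0, b)).1 s ω z h0 ≤
      ∑ h0 : HE n d, ∑ b : HE n d, (tM p s ω z h0 * tM p s ω z (p b) + 72 * δ / c +
      (if ¬ SwE798.EV p h0 b then (1 : ℝ) else 0) +
      (if ¬ Fine c (BE p s ω z h0) then (1 : ℝ) else 0) +
      (if ¬ Fine c (BE p s ω z (p b)) then (1 : ℝ) else 0) +
      (if Fine c (BE p s ω z h0) ∧ δ ^ 2 < cpl2 (Res789.Res (Hm (graphOf p) s ω) z) p h0 b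
        then (1 : ℝ) else 0)) :=
    Finset.sum_le_sum fun h0 _ => Finset.sum_le_sum fun b _ =>
      tM_esw_le hp s ω hz hc hδ hsmall h0 b
  refine h1.trans ?_
  simp only [Finset.sum_add_distrib]
  -- the six terms
  have t1 : ∑ h0 : HE n d, ∑ b : HE n d, tM p s ω z h0 * tM p s ω z (p b) = T * T := by
    rw [← Finset.sum_mul_sum, Equiv.sum_comp p (fun b => tM p s ω z b)]
  have t2 : ∑ _h0 : HE n d, ∑ _b : HE n d, 72 * δ / c = N * N * (72 * δ / c) := by
    rw [Finset.sum_const, Finset.sum_const, Finset.card_univ, nsmul_eq_mul, nsmul_eq_mul, hcard]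
    ring
  have t3 : ∑ h0 : HE n d, ∑ b : HE n d, (if ¬ SwE798.EV p h0 b then (1 : ℝ) else 0) ≤
      N * (2 * d * (d + 2)) := by
    calc _ ≤ ∑ _h0 : HE n d, (2 * d * (d + 2) : ℝ) := by
          refine Finset.sum_le_sum fun h0 _ => ?_
          rw [Finset.sum_boole]
          exact_mod_cast SwE798.card_not_EV hp h0
      _ = _ := by rw [Finset.sum_const, Finset.card_univ, nsmul_eq_mul, hcard]
  have t4 : ∑ h0 : HE n d, ∑ _b : HE n d, (if ¬ Fine c (BE p s ω z h0) then (1 : ℝ) else 0) =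
      N * nfc c p s ω z := by
    simp only [Finset.sum_const, Finset.card_univ, nsmul_eq_mul, hcard]
    rw [← Finset.mul_sum, nfc_eq]
  have t5 : ∑ _h0 : HE n d, ∑ b : HE n d, (if ¬ Fine c (BE p s ω z (p b)) then (1 : ℝ) else 0) =
      N * nfc c p s ω z := by
    rw [Finset.sum_const, Finset.card_univ, nsmul_eq_mul, hcard, nfc_eq,
      Equiv.sum_comp p (fun b => if ¬ Fine c (BE p s ω z b) then (1 : ℝ) else 0)]
  have t6 : ∑ h0 : HE n d, ∑ b : HE n d, (if Fine c (BE p s ω z h0) ∧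
      δ ^ 2 < cpl2 (Res789.Res (Hm (graphOf p) s ω) z) p h0 b then (1 : ℝ) else 0) ≤
      N * (N * (4 / (δ ^ 2 * c * (n * z.im)))) := by
    have hin : ∀ h0 : HE n d, ∑ b : HE n d, (if Fine c (BE p s ω z h0) ∧
        δ ^ 2 < cpl2 (Res789.Res (Hm (graphOf p) s ω) z) p h0 b then (1 : ℝ) else 0) ≤
        N * (4 / (δ ^ 2 * c * (n * z.im))) := by
      intro h0
      by_cases hF : Fine c (BE p s ω z h0)
      · have hM : (Res789.Res (Hm (graphOf p) s ω) z h0.1 h0.1).im +
            (Res789.Res (Hm (graphOf p) s ω) z (p h0).1 (p h0).1).im ≤ 2 / c := by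
          have a1 := hF.le 0 0
          have a2 := hF.le 1 1
          have b1 : ‖Res789.Res (Hm (graphOf p) s ω) z h0.1 h0.1‖ ≤ c⁻¹ := a1
          have b2 : ‖Res789.Res (Hm (graphOf p) s ω) z (p h0).1 (p h0).1‖ ≤ c⁻¹ := a2
          have c1 := (Complex.im_le_norm _).trans b1
          have c2 := (Complex.im_le_norm _).trans b2
          calc _ ≤ c⁻¹ + c⁻¹ := add_le_add c1 c2
            _ = 2 / c := by ring
        have key := pr1_cpl2 (Hm_symm (graphOf p) s ω) hz hd p h0 hδ hM
        unfold pr1 av1 at key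
        rw [hcard, div_le_iff₀ hNpos] at key
        simp only [hF, true_and]
        refine key.trans (le_of_eq ?_)
        field_simp
        ring
      · simp only [hF, false_and, if_false, Finset.sum_const_zero]
        positivity
    calc _ ≤ ∑ _h0 : HE n d, N * (4 / (δ ^ 2 * c * (n * z.im))) :=
          Finset.sum_le_sum fun h0 _ => hin h0
      _ = _ := by rw [Finset.sum_const, Finset.card_univ, nsmul_eq_mul, hcard]
  rw [t1, t2, t4, t5]
  have e1 : N * (2 * d * (d + 2)) = N * N * (2 * (d + 2) / n) := by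
    rw [hN]; field_simp
  have e2 : N * nfc c p s ω z + N * nfc c p s ω z = N * N * (2 * (nfc c p s ω z / N)) := by
    field_simp; ring
  have e3 : (T / N) ^ 2 * (N * N) = T * T := by field_simp
  have e4 : ((T / N) ^ 2 + (72 * δ / c + 2 * (d + 2) / n + 2 * (nfc c p s ω z / N) +
          4 / (δ ^ 2 * c * (n * z.im)))) * (N * N) =
      T * T + N * N * (72 * δ / c) + N * N * (2 * (d + 2) / n) +
        N * N * (2 * (nfc c p s ω z / N)) + N * (N * (4 / (δ ^ 2 * c * (n * z.im)))) := by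
    rw [← e3]; ring
  rw [e4]
  linarith

end Crest.Agent.R166.F263
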