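import Crest.Agent.R166.F2b_63

/-!
# Row 166, section 32: off-diagonals, part 3 (helper63): sum over the port graphs
-/

set_option autoImplicit false
set_option linter.unusedSectionVars false

open Matrix Finset

namespace Crest.Agent.R166.F263

open Crest.Agent.R166 Crest.Agent.R166.Res598 Crest.Agent.R166.Dec598
open Crest.Agent.R166.TwoPort522 Crest.Agent.R166.Off522 Crest.Agent.R166.Stab269
open Crest.Agent.R166.DecP789 Crest.Agent.R166.Rev811 Crest.Agent.R166.Sec269

variable {n d : ℕ}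

/-- average gain of a port graph -/
noncomputable def nuT (p : Equiv.Perm (HE n d)) (s : ℝ) (ω : Fin n → ℝ) (z : ℂ) : ℝ :=
  nuAvg (Finset.univ : Finset (HE n d)) (fun p h => tM p s ω z h) p

/-- one-step average gain -/
noncomputable def gT (p : Equiv.Perm (HE n d)) (s : ℝ) (ω : Fin n → ℝ) (z : ℂ) : ℝ :=
  gAvg (Finset.univ : Finset (HE n d × HE n d)) Prod.fst SwE798.esw
        (fun p h => tM p s ω z h) p

lemma nuT_eq (p : Equiv.Perm (HE n d)) (s : ℝ) (ω : Fin n → ℝ) (z : ℂ) :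
    nuT p s ω z = (∑ h, tM p s ω z h) / (n * d) := by
  rw [nuT, nuAvg, Finset.card_univ, card_HE']

lemma nuT_nonneg {p : Equiv.Perm (HE n d)} (hp : IsPort p) (s : ℝ) (ω : Fin n → ℝ) {z : ℂ}
    (hz : 0 < z.im) : 0 ≤ nuT p s ω z := by
  rw [nuT_eq]
  exact div_nonneg (Finset.sum_nonneg fun h _ => tM_nonneg hp s ω hz h) (by positivity)

lemma nuT_le_one {p : Equiv.Perm (HE n d)} (hp : IsPort p) (s : ℝ) (ω : Fin n → ℝ) {z : ℂ}
    (hz : 0 < z.im) : nuT p s ω z ≤ 1 := by
  rw [nuT_eq]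
  apply div_le_one_of_le₀ _ (by positivity)
  calc ∑ h, tM p s ω z h ≤ ∑ _h : HE n d, (1 : ℝ) :=
        Finset.sum_le_sum fun h _ => tM_le_one hp s ω hz h
    _ = n * d := by rw [Finset.sum_const, Finset.card_univ, nsmul_eq_mul, mul_one, card_HE']

/-- second moment lemma for the gain, `L¹` form -/
theorem sum_nu_sub_g (hn : 0 < n) (hd : 0 < d) (s : ℝ)
    (ω : Fin n → ℝ) {z : ℂ} (hz : 0 < z.im) {c ε1 : ℝ} (hc : 0 < c)
    (hF1 : ∑ p ∈ Ports n d, nfc c p s ω z ≤ ε1 * (n * d) * (Ports n d).card) :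
    ∑ p ∈ Ports n d, |nuT p s ω z - gT p s ω z| ≤
      Real.sqrt (2 * (384 / (c * (n * z.im)) + 8 / (n * d) + ε1) + 2 * (16 / n)) *
        (Ports n d).card := by
  have hn' : (0 : ℝ) < n := by exact_mod_cast hn
  have hd' : (0 : ℝ) < d := by exact_mod_cast hd
  have : NeZero n := ⟨hn.ne'⟩
  have : NeZero d := ⟨hd.ne'⟩
  have hM : (Finset.univ : Finset (HE n d × HE n d)).Nonempty :=
    ⟨((0, 0), (0, 0)), Finset.mem_univ _⟩
  refine Sec522.first_moment_avg (SwE798.moveSystem1 n d) hM (fun p h => tM p s ω z h) ?_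
    (16 / n) (384 / (c * (n * z.im)) + 8 / (n * d) + ε1) ?_ (SwE798.hcomm1 n d)
  · intro p hp e _
    have hp' := mem_Ports.1 hp
    rw [abs_of_nonneg (tM_nonneg hp' s ω hz e)]
    exact tM_le_one hp' s ω hz e
  · set M : ℝ := ((Finset.univ : Finset (HE n d × HE n d)).card : ℝ) with hMdef
    have hM0 : 0 ≤ M := Nat.cast_nonneg _
    have hEd : ((Finset.univ : Finset (HE n d)).card : ℝ) = n * d := by
      rw [Finset.card_univ, card_HE']
    have h1 : ∀ p ∈ Ports n d, ∑ m : HE n d × HE n d, ∑ e : HE n d,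
        |tM (SwE798.esw p m).1 s ω z e - tM p s ω z e| ≤
        M * (384 * d / (c * z.im) + 8 + nfc c p s ω z) := by
      intro p hp
      have hp' := mem_Ports.1 hp
      calc _ ≤ ∑ _m : HE n d × HE n d, (384 * d / (c * z.im) + 8 + nfc c p s ω z) := by
            refine Finset.sum_le_sum fun m _ => ?_
            refine (stab_tM hp' (SwE798.esw_isPort hp' m) s ω hz hc).trans ?_
            have hCh : ((Ch p (SwE798.esw p m).1).card : ℝ) ≤ 4 := by
              exact_mod_cast SwE798.card_Ch_esw_le hp' m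
            have h2 : 96 * d * ((Ch p (SwE798.esw p m).1).card : ℝ) / (c * z.im) ≤
                384 * d / (c * z.im) := by
              apply div_le_div_of_nonneg_right _ (by positivity)
              nlinarith
            linarith
        _ = _ := by rw [Finset.sum_const, nsmul_eq_mul]
    refine (Finset.sum_le_sum h1).trans ?_
    rw [← Finset.mul_sum, Finset.sum_add_distrib, Finset.sum_const, nsmul_eq_mul, hEd]
    have h3 : ((Ports n d).card : ℝ) * (384 * d / (c * z.im) + 8) +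
        ∑ p ∈ Ports n d, nfc c p s ω z ≤
        (384 / (c * (n * z.im)) + 8 / (n * d) + ε1) * (Ports n d).card * (n * d) := by
      have e1 : (384 / (c * (n * z.im)) + 8 / (n * d) + ε1) * (Ports n d).card * (n * d) =
          ((Ports n d).card : ℝ) * (384 * d / (c * z.im) + 8) +
            ε1 * (n * d) * (Ports n d).card := by
        field_simp
      rw [e1]
      linarith
    calc M * (((Ports n d).card : ℝ) * (384 * d / (c * z.im) + 8) +
        ∑ p ∈ Ports n d, nfc c p s ω z) ≤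
        M * ((384 / (c * (n * z.im)) + 8 / (n * d) + ε1) * (Ports n d).card * (n * d)) :=
          mul_le_mul_of_nonneg_left h3 hM0
      _ = _ := by ring

open Classical in
/-- **core of F2** -/
theorem f2_core (hn : 0 < n) (hd : 0 < d) (s : ℝ)
    (ω : Fin n → ℝ) {z : ℂ} (hz : 0 < z.im) {c δ ε1 q : ℝ} (hc : 0 < c) (hδ : 0 < δ)
    (hsmall : δ * 4 / c ≤ 1 / 3)
    (hF1 : ∑ p ∈ Ports n d, nfc c p s ω z ≤ ε1 * (n * d) * (Ports n d).card)
    (hq : (((Ports n d).filter fun p => 1 / 2 < nuT p s ω z).card : ℝ) ≤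
      q * (Ports n d).card) :
    ∑ p ∈ Ports n d, nuT p s ω z ≤
      (2 * (72 * δ / c + 2 * (d + 2) / n + 2 * ε1 + 4 / (δ ^ 2 * c * (n * z.im))) +
        2 * Real.sqrt (2 * (384 / (c * (n * z.im)) + 8 / (n * d) + ε1) + 2 * (16 / n)) + q) *
        (Ports n d).card := by
  have hn' : (0 : ℝ) < n := by exact_mod_cast hn
  have hd' : (0 : ℝ) < d := by exact_mod_cast hd
  have h1 := sum_nu_sub_g hn hd s ω hz hc hF1
  have h2 : ∀ p ∈ Ports n d, nuT p s ω z ≤
      2 * (72 * δ / c + 2 * (d + 2) / n + 4 / (δ ^ 2 * c * (n * z.im))) +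
        4 / (n * d) * nfc c p s ω z + 2 * |nuT p s ω z - gT p s ω z| +
        (if 1 / 2 < nuT p s ω z then (1 : ℝ) else 0) := by
    intro p hp
    have hp' := mem_Ports.1 hp
    have hg : gT p s ω z ≤ nuT p s ω z ^ 2 + (72 * δ / c + 2 * (d + 2) / n +
        2 * (nfc c p s ω z / (n * d)) + 4 / (δ ^ 2 * c * (n * z.im))) :=
      g_le hp' hn hd s ω hz hc hδ hsmall
    have h0 := nuT_nonneg hp' s ω hz
    have h1' := nuT_le_one hp' s ω hz
    have hab := neg_abs_le (nuT p s ω z - gT p s ω z)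
    have hab2 := le_abs_self (nuT p s ω z - gT p s ω z)
    have n2 : 0 ≤ 72 * δ / c := by positivity
    have n3 : 0 ≤ 2 * ((d : ℝ) + 2) / n := by positivity
    have n4 : 0 ≤ 4 / (δ ^ 2 * c * (n * z.im)) := by positivity
    have n5 : 0 ≤ 4 / (n * d : ℝ) * nfc c p s ω z :=
      mul_nonneg (by positivity) (nfc_nonneg _ _ _ _ _)
    have n6 : 2 * (2 * (nfc c p s ω z / (n * d : ℝ))) = 4 / (n * d : ℝ) * nfc c p s ω z := by
      ring
    have n7 := abs_nonneg (nuT p s ω z - gT p s ω z)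
    split_ifs with hh
    · linarith
    · have h3 : nuT p s ω z ^ 2 ≤ 1 / 2 * nuT p s ω z := by
        rw [sq]
        exact mul_le_mul_of_nonneg_right (not_lt.1 hh) h0
      linarith
  refine (Finset.sum_le_sum h2).trans ?_
  rw [Finset.sum_add_distrib, Finset.sum_add_distrib, Finset.sum_add_distrib, Finset.sum_const,
    ← Finset.mul_sum, ← Finset.mul_sum, Finset.sum_boole, nsmul_eq_mul]
  have h4 : 4 / (n * d : ℝ) * ∑ p ∈ Ports n d, nfc c p s ω z ≤ 4 * ε1 * (Ports n d).card := by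
    calc 4 / (n * d : ℝ) * ∑ p ∈ Ports n d, nfc c p s ω z ≤
        4 / (n * d : ℝ) * (ε1 * (n * d) * (Ports n d).card) :=
          mul_le_mul_of_nonneg_left hF1 (by positivity)
      _ = _ := by field_simp
  nlinarith

end Crest.Agent.R166.F263
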