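import Crest.Agent.R166.OneLev_598
import Crest.Agent.R166.SpecF3b_798
import Crest.Agent.R166.TreeTL_798
import Crest.Agent.R166.H2a_269

/-!
# Row 166, section 32, F3 (helper598): the one-level recursion in mean

`SpecF3.OneLevFrom d`.
-/

set_option autoImplicit false
set_option linter.unusedSectionVars false

open Matrix Finset

namespace Crest.Agent.R166.OneLevP598

open Crest.Agent.R166 Crest.Agent.R166.Stab269 Crest.Agent.R166.OneLev598
  Crest.Agent.R166.Spec30 Crest.Agent.R166.ShapeP598 Crest.Agent.R166.SpecF3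
open Crest.Agent.R166.SwP470 (BVal bv TL BI NZ np bsw)
open Crest.Agent.R166.Off522 (Fine)
open Crest.Agent.R166.Fine522 (kap1 kap1_pos)
open Crest.Agent.R166.TreeDet350 (rho cav)
open Crest.Agent.R166.Rev811

/-! ### scalar comparison -/

theorem rho_shift {Z a a2 : ℂ} {k η1 e : ℝ} (hk : 0 < k) (hη : 0 ≤ η1) (hηk : η1 ≤ k)
    (ha : k ≤ a.im) (ha2 : k ≤ a2.im) (hd : ‖a - a2‖ ≤ η1) (he : 0 ≤ e) (hZ : 0 < Z.im)
    (hZF : ‖Z - (-a⁻¹)‖ ≤ e * (-a⁻¹).im) : rho Z (-1 / a2) ≤ 8 * e + 2 * (η1 / k) := by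
  have na : k ≤ ‖a‖ := ha.trans (Complex.im_le_norm a)
  have na2 : k ≤ ‖a2‖ := ha2.trans (Complex.im_le_norm a2)
  have pa : 0 < ‖a‖ := lt_of_lt_of_le hk na
  have pa2 : 0 < ‖a2‖ := lt_of_lt_of_le hk na2
  have ne : a ≠ 0 := norm_pos_iff.1 pa
  have ne2 : a2 ≠ 0 := norm_pos_iff.1 pa2
  have hF : (-1 / a2 : ℂ) = -a2⁻¹ := by rw [neg_div, one_div]
  rw [hF]
  have im_neg_inv : ∀ w : ℂ, (-w⁻¹).im = w.im / ‖w‖ ^ 2 := by
    intro w
    rw [Complex.neg_im, Complex.inv_im, Complex.normSq_eq_norm_sq, neg_div, neg_neg]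
  have i1 := im_neg_inv a
  have i2 := im_neg_inv a2
  have p2 : 0 < (-a2⁻¹).im := by
    rw [i2]
    exact div_pos (lt_of_lt_of_le hk ha2) (by positivity)
  have h1 : ‖-a⁻¹ - -a2⁻¹‖ = ‖a - a2‖ / (‖a‖ * ‖a2‖) := by
    have : -a⁻¹ - -a2⁻¹ = (a - a2) / (a * a2) := by
      field_simp
      ring
    rw [this, norm_div, norm_mul]
  have h4 : ‖a2‖ ≤ 2 * ‖a‖ := by
    have : ‖a2‖ ≤ ‖a‖ + ‖a - a2‖ := by
      have := norm_sub_le a (a - a2)
      rwa [sub_sub_cancel] at this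
    linarith
  have h2 : ‖-a⁻¹ - -a2⁻¹‖ ≤ 2 * (η1 / k) * (-a2⁻¹).im := by
    rw [h1, i2, div_le_iff₀ (by positivity)]
    have e1 : 2 * (η1 / k) * (a2.im / ‖a2‖ ^ 2) * (‖a‖ * ‖a2‖) =
        2 * η1 * ‖a‖ * (a2.im / k) / ‖a2‖ := by field_simp
    rw [e1, le_div_iff₀ pa2]
    have e2 : 1 ≤ a2.im / k := by rw [le_div_iff₀ hk]; linarith
    calc ‖a - a2‖ * ‖a2‖ ≤ η1 * (2 * ‖a‖) := mul_le_mul hd h4 (norm_nonneg _) hη
      _ = 2 * η1 * ‖a‖ * 1 := by ring
      _ ≤ 2 * η1 * ‖a‖ * (a2.im / k) := mul_le_mul_of_nonneg_left e2 (by positivity)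
  have h3 : (-a⁻¹).im ≤ 8 * (-a2⁻¹).im := by
    rw [i1, i2, div_le_iff₀ (by positivity)]
    have e1 : 8 * (a2.im / ‖a2‖ ^ 2) * ‖a‖ ^ 2 = 8 * a2.im * ‖a‖ ^ 2 / ‖a2‖ ^ 2 := by ring
    rw [e1, le_div_iff₀ (by positivity)]
    have e2 : a.im ≤ 2 * a2.im := by
      have : |(a - a2).im| ≤ η1 := (Complex.abs_im_le_norm _).trans hd
      rw [Complex.sub_im] at this
      have := (abs_le.1 this).2
      linarith
    have e3 : ‖a2‖ ^ 2 ≤ 4 * ‖a‖ ^ 2 := by nlinarith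
    calc a.im * ‖a2‖ ^ 2 ≤ (2 * a2.im) * (4 * ‖a‖ ^ 2) :=
          mul_le_mul e2 e3 (by positivity) (by linarith)
      _ = _ := by ring
  have h5 : ‖Z - -a2⁻¹‖ ≤ (8 * e + 2 * (η1 / k)) * (-a2⁻¹).im := by
    have e1 : ‖Z - -a2⁻¹‖ ≤ ‖Z - -a⁻¹‖ + ‖-a⁻¹ - -a2⁻¹‖ := by
      have := norm_add_le (Z - -a⁻¹) (-a⁻¹ - -a2⁻¹)
      rwa [sub_add_sub_cancel] at this
    have e2 := mul_le_mul_of_nonneg_left h3 he
    nlinarith
  unfold rho
  have h6 : (-a2⁻¹).im ≤ ‖Z - (starRingEnd ℂ) (-a2⁻¹)‖ := by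
    refine le_trans ?_ (Complex.abs_im_le_norm _)
    rw [Complex.sub_im, Complex.conj_im]
    refine le_trans ?_ (le_abs_self _)
    linarith
  rw [div_le_iff₀ (lt_of_lt_of_le p2 h6)]
  refine h5.trans (mul_le_mul_of_nonneg_left h6 ?_)
  positivity

/-! ### letters -/

/-- the nonzero letters as `Fin (d-1)` -/
def kz (d : ℕ) [NeZero d] (j : Fin (d - 1)) : NZ d :=
  ⟨⟨j.1 + 1, by have := j.2; omega⟩, by
    intro h
    have := congrArg Fin.val h
    simp at this⟩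

lemma kz_bijective (d : ℕ) [NeZero d] : Function.Bijective (kz d) := by
  constructor
  · intro i j h
    have h2 := congrArg (fun x : NZ d => x.1.1) h
    simp only [kz] at h2
    exact Fin.ext (by omega)
  · intro a
    have h0 : a.1.1 ≠ 0 := by
      intro h
      apply a.2
      apply Fin.ext
      rw [h]
      simp
    refine ⟨⟨a.1.1 - 1, by have := a.1.2; omega⟩, ?_⟩
    apply Subtype.ext
    apply Fin.ext
    simp only [kz]
    omega

lemma sum_kz (d : ℕ) [NeZero d] (f : NZ d → ℂ) : ∑ a, f a = ∑ j, f (kz d j) :=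
  (Function.Bijective.sum_comp (kz_bijective d) f).symm

/-! ### the good event -/

section port

variable {n d : ℕ} [NeZero d]

/-- bad half-edges for the one-level recursion -/
def BadL (κ τ : ℝ) (p : Equiv.Perm (HE n d)) (s : ℝ) (ω : Fin n → ℝ) (z : ℂ) (x : HE n d) : Prop :=
  ¬ Fine κ (BE p s ω z x) ∨ τ < ‖B0 p s ω z x 0 1‖

/-- admissibility -/
def AdmL (L : ℕ) (κ τ ε : ℝ) (p : Equiv.Perm (HE n d)) (s : ℝ) (ω : Fin n → ℝ) (z : ℂ)
    (h0 : HE n d) (b : BI d L → HE n d) : Prop :=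
  Adm (BadL κ τ p s ω z) (CpW (Sv L p h0) (Rr p s ω z) p ε) (PrW (Rr p s ω z) p ε) ∅ b

variable {p : Equiv.Perm (HE n d)} {s κ τ ε : ℝ} {ω : Fin n → ℝ} {z : ℂ} {h0 : HE n d}

theorem AdmL.cEs_le {L : ℕ} {b : BI d L → HE n d} (hε : 0 ≤ ε)
    (h : AdmL L κ τ ε p s ω z h0 b) :
    cEs L p s ω z h0 ∅ b ≤
      ((Fintype.card (BI d L) : ℝ) + (Fintype.card (BI d L) : ℝ) ^ 2) * ε := by
  unfold cEs
  rw [add_mul]
  refine add_le_add ?_ ?_
  · calc (∑ j ∈ (∅ : Finset (BI d L))ᶜ,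
          Real.sqrt (cpl (GA (Sv L p h0) p ∅ b) (Rr p s ω z) p (b j)))
        ≤ ∑ _j ∈ (∅ : Finset (BI d L))ᶜ, ε := by
          refine Finset.sum_le_sum fun j hj => ?_
          have h1 := h.1 j (Finset.notMem_empty _)
          have h2 : ¬ ε ^ 2 < cpl (GA (Sv L p h0) p ∅ b) (Rr p s ω z) p (b j) :=
            fun h3 => h1 (Or.inr h3)
          exact Real.sqrt_le_iff.2 ⟨hε, not_lt.1 h2⟩
      _ = ((∅ : Finset (BI d L))ᶜ).card * ε := by rw [Finset.sum_const, nsmul_eq_mul]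
      _ ≤ _ := by
          apply mul_le_mul_of_nonneg_right _ hε
          exact_mod_cast Finset.card_le_univ _
  · calc (∑ jk ∈ ((∅ : Finset (BI d L))ᶜ).offDiag,
          Real.sqrt (cpl2 (Rr p s ω z) p (b jk.1) (b jk.2)))
        ≤ ∑ _jk ∈ ((∅ : Finset (BI d L))ᶜ).offDiag, ε := by
          refine Finset.sum_le_sum fun jk hjk => ?_
          obtain ⟨h1, h2, h3⟩ := Finset.mem_offDiag.1 hjk
          have h4 := h.2 jk.1 jk.2 (Finset.notMem_empty _) (Finset.notMem_empty _) h3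
          exact Real.sqrt_le_iff.2 ⟨hε, not_lt.1 h4⟩
      _ = (((∅ : Finset (BI d L))ᶜ).offDiag).card * ε := by rw [Finset.sum_const, nsmul_eq_mul]
      _ ≤ _ := by
          apply mul_le_mul_of_nonneg_right _ hε
          have h5 : (((∅ : Finset (BI d L))ᶜ).offDiag).card ≤ (Fintype.card (BI d L)) ^ 2 := by
            rw [Finset.offDiag_card]
            have h6 : ((∅ : Finset (BI d L))ᶜ).card ≤ Fintype.card (BI d L) :=
              Finset.card_le_univ _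
            calc ((∅ : Finset (BI d L))ᶜ).card * ((∅ : Finset (BI d L))ᶜ).card -
                  ((∅ : Finset (BI d L))ᶜ).card
                ≤ ((∅ : Finset (BI d L))ᶜ).card * ((∅ : Finset (BI d L))ᶜ).card := Nat.sub_le _ _
              _ ≤ Fintype.card (BI d L) * Fintype.card (BI d L) := Nat.mul_le_mul h6 h6
              _ = _ := (sq _).symm
          exact_mod_cast h5

theorem AdmL.good {L : ℕ} {b : BI d L → HE n d} (h : AdmL L κ τ ε p s ω z h0 b) (i : BI d L) :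
    Fine κ (BE p s ω z (b i)) ∧ ‖B0 p s ω z (b i) 0 1‖ ≤ τ := by
  have h1 := h.1 i (Finset.notMem_empty _)
  have h2 : ¬ BadL κ τ p s ω z (b i) := fun h3 => h1 (Or.inl h3)
  unfold BadL at h2
  push Not at h2
  exact h2

/-- constants: `N` = number of leaves at depth one -/
noncomputable def N1 (d : ℕ) [NeZero d] : ℝ := Fintype.card (BI d 1)

/-- **the recursion on the good event** -/
theorem rho_good (hd : 3 ≤ d) {E η η' η1 : ℝ} (hp : IsPort p) {b : BI d 1 → HE n d}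
    (hb : BVal 1 p h0 b) (hη : 0 < η) (hη1 : η ≤ η1) (hη' : 0 < η') (hη1' : η' ≤ η1)
    (hκ : 0 < κ) (hτ0 : 0 ≤ τ) (hτ2 : τ ≤ kap1 2 κ / (2 * (N1 d + 1)))
    (hε0 : 0 ≤ ε) (hε : CE κ * ((N1 d + N1 d ^ 2) * ε) ≤ 1 / 2) (hk1 : η1 ≤ kap1 2 κ)
    (h : AdmL 1 κ τ ε p s ω (ze E η') h0 b) :
    rho (B0 (np p h0 b) s ω (ze E η') h0 0 0)
      (cav (ze E η) (s * ω h0.1) fun j : Fin (d - 1) => B0 p s ω (ze E η') (b (kk d j)) 0 0) ≤
      8 * ((2 + 8 * N1 d ^ 2) * (τ / kap1 2 κ) ^ 2 + 8 * (CE κ * ((N1 d + N1 d ^ 2) * ε))) +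
        2 * (η1 / kap1 2 κ) := by
  have hz : 0 < (ze E η').im := by simpa [ze] using hη'
  set k := kap1 2 κ with hk
  have hkp : 0 < k := kap1_pos hκ
  have hN0 : 0 ≤ N1 d := Nat.cast_nonneg _
  have hCE := CE_pos hκ
  have hτk : τ ≤ k / 2 := by
    refine hτ2.trans ?_
    apply div_le_div_of_nonneg_left hkp.le (by norm_num)
    linarith
  set δ : ℝ := 2 * (N1 d * (τ / k)) ^ 2 with hδdef
  have hτk' : N1 d * (τ / k) ≤ 1 / 2 := by
    have h1 : τ / k ≤ 1 / (2 * (N1 d + 1)) := by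
      rw [div_le_iff₀ hkp]
      refine hτ2.trans (le_of_eq ?_)
      ring
    have h2 : 0 ≤ τ / k := div_nonneg hτ0 hkp.le
    calc N1 d * (τ / k) ≤ (N1 d + 1) * (1 / (2 * (N1 d + 1))) :=
          mul_le_mul (by linarith) h1 h2 (by linarith)
      _ = 1 / 2 := by field_simp
  have hδ2 : δ ≤ 1 / 2 := by
    rw [hδdef]
    have h2 : 0 ≤ N1 d * (τ / k) := mul_nonneg hN0 (div_nonneg hτ0 hkp.le)
    nlinarith
  have hδ : 2 / k ^ 2 * (∑ jk ∈ (univ : Finset (BI d 1)).offDiag,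
      ‖B0 p s ω (ze E η') (b jk.1) 0 1‖ * ‖B0 p s ω (ze E η') (b jk.2) 0 1‖) ≤ δ := by
    have h1 : (∑ jk ∈ (univ : Finset (BI d 1)).offDiag,
        ‖B0 p s ω (ze E η') (b jk.1) 0 1‖ * ‖B0 p s ω (ze E η') (b jk.2) 0 1‖) ≤
        N1 d ^ 2 * τ ^ 2 := by
      calc _ ≤ ∑ _jk ∈ (univ : Finset (BI d 1)).offDiag, τ ^ 2 := by
            refine Finset.sum_le_sum fun jk _ => ?_
            rw [sq]
            exact mul_le_mul (h.good _).2 (h.good _).2 (norm_nonneg _) hτ0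
        _ = ((univ : Finset (BI d 1)).offDiag.card : ℝ) * τ ^ 2 := by
            rw [Finset.sum_const, nsmul_eq_mul]
        _ ≤ _ := by
            apply mul_le_mul_of_nonneg_right _ (sq_nonneg _)
            have h5 : ((univ : Finset (BI d 1)).offDiag).card ≤ (Fintype.card (BI d 1)) ^ 2 := by
              rw [Finset.offDiag_card, Finset.card_univ, sq]
              exact Nat.sub_le _ _
            unfold N1
            exact_mod_cast h5
    calc 2 / k ^ 2 * _ ≤ 2 / k ^ 2 * (N1 d ^ 2 * τ ^ 2) :=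
          mul_le_mul_of_nonneg_left h1 (by positivity)
      _ = δ := by rw [hδdef]; field_simp
  have hcE := h.cEs_le hε0
  have hcE' : CE κ * cEs 1 p s ω (ze E η') h0 ∅ b ≤ CE κ * ((N1 d + N1 d ^ 2) * ε) :=
    mul_le_mul_of_nonneg_left hcE hCE.le
  have key := one_lev hp hb s ω hz (fun i => (h.good i).1) (fun i => (h.good i).2) hτk hδ hδ2
    (hcE'.trans hε)
  have key2 := key.mono (ε' := (2 + 8 * N1 d ^ 2) * (τ / k) ^ 2 +
      8 * (CE κ * ((N1 d + N1 d ^ 2) * ε))) (by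
    rw [hδdef]
    have : 8 * (CE κ * cEs 1 p s ω (ze E η') h0 ∅ b) ≤ 8 * (CE κ * ((N1 d + N1 d ^ 2) * ε)) := by
      linarith
    rw [← hk]
    nlinarith)
  set e := (2 + 8 * N1 d ^ 2) * (τ / k) ^ 2 + 8 * (CE κ * ((N1 d + N1 d ^ 2) * ε)) with he
  have he0 : 0 ≤ e := by positivity
  set X : BI d 1 → ℂ := fun i => B0 p s ω (ze E η') (b i) 0 0 with hX
  have hXi : ∀ i, k ≤ (X i).im := fun i => fine_im (h.good i).1.cavB 0
  have hXp : ∀ i, 0 < (X i).im := fun i => lt_of_lt_of_le hkp (hXi i)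
  have hFp : ∀ i, 0 < ((![cavN (ze E η') (s * ω h0.1) (fun a => X (false, fun _ => a)),
      cavN (ze E η') (s * ω (p h0).1) (fun a => X (true, fun _ => a))] : Fin 2 → ℂ) i).im := by
    intro i
    fin_cases i
    · exact cavN_im_pos hz _ fun a => hXp _
    · exact cavN_im_pos hz _ fun a => hXp _
  have key3 := (near_diag_entries hFp key2).1 0
  simp only [Matrix.cons_val_zero] at key3
  -- the two denominators
  set S : ℂ := ∑ j : Fin (d - 1), X (kk d j) with hS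
  have hSsum : ∑ a : NZ d, X (false, fun _ => a) = S := by
    rw [sum_kz d fun a => X (false, fun _ => a)]
    rfl
  have hSim : k ≤ S.im := by
    rw [hS, Complex.im_sum]
    have hd1 : 0 < d - 1 := by omega
    calc k ≤ (X (kk d ⟨0, hd1⟩)).im := hXi _
      _ ≤ _ := Finset.single_le_sum (f := fun j : Fin (d - 1) => (X (kk d j)).im)
          (fun j _ => (hXp _).le) (Finset.mem_univ _)
  have hzi : ∀ t : ℝ, (ze E t).im = t := fun t => by simp [ze]
  have hBp : 0 < (B0 (np p h0 b) s ω (ze E η') h0 0 0).im :=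
    MuU395.im_B0_pos (hb.isPort (le_refl 1) hp) s ω hz h0 0
  have hfin := rho_shift (Z := B0 (np p h0 b) s ω (ze E η') h0 0 0)
    (a := ze E η' - (s * ω h0.1 : ℝ) + S) (a2 := ze E η - (s * ω h0.1 : ℝ) + S)
    (k := k) (η1 := η1) (e := e) hkp (hη.le.trans hη1) hk1
    (by
      rw [Complex.add_im, Complex.sub_im, Complex.ofReal_im, hzi]
      linarith)
    (by
      rw [Complex.add_im, Complex.sub_im, Complex.ofReal_im, hzi]
      linarith)
    (by
      have e1 : ze E η' - (s * ω h0.1 : ℝ) + S - (ze E η - (s * ω h0.1 : ℝ) + S) =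
          ((η' - η : ℝ) : ℂ) * Complex.I := by
        simp [ze]
        ring
      rw [e1, norm_mul, Complex.norm_I, mul_one, Complex.norm_real, Real.norm_eq_abs, abs_le]
      constructor <;> linarith)
    he0 hBp (by
      unfold cavN at key3
      rw [hSsum] at key3
      exact key3)
  have e2 : cav (ze E η) (s * ω h0.1) (fun j : Fin (d - 1) => B0 p s ω (ze E η') (b (kk d j)) 0 0) =
      -1 / (ze E η - (s * ω h0.1 : ℝ) + S) := rfl
  rw [e2]
  exact hfin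

/-! ### counting -/

/-- Markov's inequality -/
lemma pr1_le_markov {Ω : Type*} [Fintype Ω] (P : Ω → Prop) (f : Ω → ℝ) (hf : ∀ x, 0 ≤ f x) {t : ℝ}
    (ht : 0 < t) (h : ∀ x, P x → t ≤ f x) : pr1 P ≤ av1 f / t := by
  classical
  rw [le_div_iff₀ ht, mul_comm]
  unfold pr1
  rw [← av1_const_mul]
  apply av1_mono
  intro x
  by_cases hx : P x
  · simp only [hx, if_true, mul_one]; exact h x hx
  · simp only [hx, if_false, mul_zero]; exact hf x

theorem pr1_BadL (hτ : 0 < τ) (hτ1 : τ ≤ 1) :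
    pr1 (BadL κ τ p s ω z) ≤ pr1 (fun x => ¬ Fine κ (BE p s ω z x)) +
      av1 (fun x => min 1 (‖B0 p s ω z x 0 1‖ ^ 2)) / τ ^ 2 := by
  refine (pr1_or _ _).trans (add_le_add le_rfl ?_)
  refine pr1_le_markov _ _ (fun x => le_min zero_le_one (sq_nonneg _)) (by positivity) ?_
  intro x hx
  refine le_min ?_ ?_
  · nlinarith
  · exact pow_le_pow_left₀ hτ.le hx.le 2

/-- probability of the bad event at a tree-like centre -/
theorem pr_bad (hn : 0 < n) (hd : 0 < d) (hp : IsPort p) (htl : TL 1 p h0) (hz : 0 < z.im)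
    (_hκ : 0 < κ) (hε : 0 < ε) {q : ℝ} (hq0 : 0 ≤ q)
    (hq1 : 2 * (2 * ((d : ℝ) + 1)) / (n * z.im * ε ^ 2) ≤ q)
    (hq2 : 2 * (2 / κ) / (n * z.im * ε ^ 2) ≤ q) :
    pr (fun b : BI d 1 → HE n d => ¬ (BVal 1 p h0 b ∧ AdmL 1 κ τ ε p s ω z h0 b)) ≤
      (SwInv356.Cinv d 1 : ℝ) / n +
        (N1 d * (pr1 (BadL κ τ p s ω z) + q) + N1 d ^ 2 * q) := by
  have hne : Nonempty (HE n d) := ⟨(⟨0, hn⟩, ⟨0, hd⟩)⟩
  have hH : Hyp (ι := BI d 1) (BadL κ τ p s ω z) (CpW (Sv 1 p h0) (Rr p s ω z) p ε)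
      (PrW (Rr p s ω z) p ε) 0 (pr1 (BadL κ τ p s ω z)) q := by
    refine hyp_ward (Hm_symm (graphOf p) s ω) hz hd p (Sv 1 p h0) 0 hε (BadL κ τ p s ω z)
      (M := 2 / κ) ?_ hq0 ?_ hq2
    · intro x hx
      unfold BadL at hx
      push Not at hx
      have h0' := hx.1.le 0 0
      have h1' := hx.1.le 1 1
      have e0 : BE p s ω z x 0 0 = Res789.Res (Hm (graphOf p) s ω) z x.1 x.1 := rfl
      have e1 : BE p s ω z x 1 1 = Res789.Res (Hm (graphOf p) s ω) z (p x).1 (p x).1 := rfl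
      rw [e0] at h0'
      rw [e1] at h1'
      have h2 := Complex.im_le_norm (Res789.Res (Hm (graphOf p) s ω) z x.1 x.1)
      have h3 := Complex.im_le_norm (Res789.Res (Hm (graphOf p) s ω) z (p x).1 (p x).1)
      have e2 : 2 / κ = κ⁻¹ + κ⁻¹ := by rw [div_eq_mul_inv]; ring
      linarith
    · refine le_trans ?_ hq1
      apply div_le_div_of_nonneg_right _ (by positivity)
      have h1 := H2a.card_Sv p h0
      have h2 : ((Sv 1 p h0).card : ℝ) ≤ 2 * ((d : ℝ) + 1) := by exact_mod_cast h1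
      push_cast
      linarith
  have h1 : pr (fun b : BI d 1 → HE n d => ¬ (BVal 1 p h0 b ∧ AdmL 1 κ τ ε p s ω z h0 b)) ≤
      pr (fun b : BI d 1 → HE n d => ¬ BVal 1 p h0 b ∨ ¬ AdmL 1 κ τ ε p s ω z h0 b) := by
    apply pr_mono
    intro b hb
    exact not_and_or.1 hb
  refine h1.trans ((pr_or _ _).trans (add_le_add (H2a.pr_inv_le hn hp htl) ?_))
  exact pr_not_adm_zero hH

open Classical in
/-- counting the bad events of one state -/
theorem card_bad (hn : 0 < n) (hd : 0 < d) (hp : IsPort p) (hz : 0 < z.im)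
    (hκ : 0 < κ) (hε : 0 < ε) {q : ℝ} (hq0 : 0 ≤ q)
    (hq1 : 2 * (2 * ((d : ℝ) + 1)) / (n * z.im * ε ^ 2) ≤ q)
    (hq2 : 2 * (2 / κ) / (n * z.im * ε ^ 2) ≤ q) :
    ((Finset.univ.filter fun mv : HE n d × (BI d 1 → HE n d) =>
        ¬ (BVal 1 p mv.1 mv.2 ∧ AdmL 1 κ τ ε p s ω z mv.1 mv.2)).card : ℝ) ≤
      (Fintype.card (BI d 1 → HE n d) : ℝ) *
        (((Finset.univ.filter fun h : HE n d => ¬ TL 1 p h).card : ℝ) +
          (n * d) * ((SwInv356.Cinv d 1 : ℝ) / n +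
            (N1 d * (pr1 (BadL κ τ p s ω z) + q) + N1 d ^ 2 * q))) := by
  have hne : Nonempty (HE n d) := ⟨(⟨0, hn⟩, ⟨0, hd⟩)⟩
  set W : ℝ := (SwInv356.Cinv d 1 : ℝ) / n +
            (N1 d * (pr1 (BadL κ τ p s ω z) + q) + N1 d ^ 2 * q) with hW
  have hN0 : 0 ≤ N1 d := Nat.cast_nonneg _
  have hW0 : 0 ≤ W := by
    have := pr1_nonneg (BadL κ τ p s ω z)
    rw [hW]
    positivity
  have hcard : (0 : ℝ) < Fintype.card (BI d 1 → HE n d) := by exact_mod_cast Fintype.card_pos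
  rw [Finset.natCast_card_filter, Fintype.sum_prod_type]
  have h1 : ∀ h0 : HE n d, (∑ b : BI d 1 → HE n d,
      (if ¬ (BVal 1 p h0 b ∧ AdmL 1 κ τ ε p s ω z h0 b) then (1 : ℝ) else 0)) ≤
      (Fintype.card (BI d 1 → HE n d) : ℝ) * ((if ¬ TL 1 p h0 then (1 : ℝ) else 0) + W) := by
    intro h0
    have h2 : (∑ b : BI d 1 → HE n d,
        (if ¬ (BVal 1 p h0 b ∧ AdmL 1 κ τ ε p s ω z h0 b) then (1 : ℝ) else 0)) =
        (Fintype.card (BI d 1 → HE n d) : ℝ) *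
          pr (fun b : BI d 1 → HE n d => ¬ (BVal 1 p h0 b ∧ AdmL 1 κ τ ε p s ω z h0 b)) := by
      unfold pr av
      rw [mul_div_cancel₀ _ hcard.ne']
      refine Finset.sum_congr rfl fun b _ => ?_
      congr
    rw [h2]
    refine mul_le_mul_of_nonneg_left ?_ hcard.le
    by_cases htl : TL 1 p h0
    · rw [if_neg (not_not.2 htl), zero_add]
      exact pr_bad hn hd hp htl hz hκ hε hq0 hq1 hq2
    · rw [if_pos htl]
      have h3 : pr (fun b : BI d 1 → HE n d => ¬ (BVal 1 p h0 b ∧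
          AdmL 1 κ τ ε p s ω z h0 b)) ≤ pr (fun _ : BI d 1 → HE n d => True) :=
        pr_mono fun _ _ => trivial
      rw [pr_true] at h3
      linarith
  refine (Finset.sum_le_sum fun h0 _ => h1 h0).trans (le_of_eq ?_)
  rw [← Finset.mul_sum, Finset.sum_add_distrib, Finset.sum_const, Finset.card_univ, nsmul_eq_mul,
    card_HE_real, ← Finset.natCast_card_filter]

end port

/-! ### the leaf -/

theorem card_mv (n d : ℕ) [NeZero d] : (Fintype.card (HE n d × (BI d 1 → HE n d)) : ℝ) =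
    (n * d) * (Fintype.card (BI d 1 → HE n d) : ℝ) := by
  rw [Fintype.card_prod, Nat.cast_mul, card_HE_real]

/-- choice of a small constant -/
lemma exists_small {a b : ℝ} (ha : 0 ≤ a) (hb : 0 < b) : ∃ t : ℝ, 0 < t ∧ t ≤ 1 ∧ a * t ≤ b := by
  refine ⟨min 1 (b / (a + 1)), lt_min one_pos (by positivity), min_le_left _ _, ?_⟩
  calc a * min 1 (b / (a + 1)) ≤ a * (b / (a + 1)) :=
        mul_le_mul_of_nonneg_left (min_le_right _ _) ha
    _ ≤ (a + 1) * (b / (a + 1)) := by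
        apply mul_le_mul_of_nonneg_right _ (by positivity)
        linarith
    _ = b := by field_simp

set_option maxHeartbeats 1000000 in
/-- **F3, one-level recursion in mean** -/
theorem oneLevFrom (d : ℕ) [NeZero d] : OneLevFrom d := by
  classical
  intro hd A s0 hA0 hA hs0 hs1 hF1 hF2 ε₀ hε₀
  set ε : ℝ := min ε₀ 1 with hεdef
  have hε : 0 < ε := lt_min hε₀ one_pos
  have hN0 : 0 ≤ N1 d := Nat.cast_nonneg _
  -- constants
  obtain ⟨ε1, hε1, -, hε1'⟩ := exists_small hN0 (by positivity : 0 < ε / 8)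
  obtain ⟨κ, hκ, K1, hK1, n1, hF1'⟩ := hF1 ε1 hε1
  set k := kap1 2 κ with hk
  have hkp : 0 < k := kap1_pos hκ
  have hCE := CE_pos hκ
  obtain ⟨u, hu, hu1, hu'⟩ := exists_small (by positivity : 0 ≤ 8 * (2 + 8 * N1 d ^ 2))
    (by positivity : 0 < ε / 4)
  obtain ⟨τ, hτ, hτ1, hτ2⟩ : ∃ τ : ℝ, 0 < τ ∧ τ ≤ 1 ∧ τ ≤ k / (2 * (N1 d + 1)) * u := by
    refine ⟨min 1 (k / (2 * (N1 d + 1)) * u), lt_min one_pos (by positivity), min_le_left _ _,
      min_le_right _ _⟩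
  obtain ⟨ε2, hε2, -, hε2'⟩ := exists_small (by positivity : 0 ≤ N1 d / τ ^ 2)
    (by positivity : 0 < ε / 8)
  obtain ⟨η2, hη2, K2, hK2, n2, hF2'⟩ := hF2 ε2 hε2
  obtain ⟨e1, he1, -, he1'⟩ := exists_small
    (by positivity : 0 ≤ 64 * (CE κ * (N1 d + N1 d ^ 2))) (by positivity : 0 < ε / 4)
  obtain ⟨q, hq, -, hq'⟩ := exists_small (by positivity : 0 ≤ N1 d + N1 d ^ 2)
    (by positivity : 0 < ε / 4)
  set Q : ℝ := (4 * ((d : ℝ) + 1) + 4 / κ) / (e1 ^ 2 * q) with hQ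
  have hQ0 : 0 < Q := by positivity
  set K0 : ℝ := max (max K1 K2) Q with hK0
  set η1 : ℝ := min (min 1 η2) (min k (ε * k / 4)) with hη1
  have hη1p : 0 < η1 := lt_min (lt_min one_pos hη2) (lt_min hkp (by positivity))
  have hCT := Tree798.CT_nonneg d 1
  obtain ⟨n3, hn3⟩ := exists_nat_gt (8 * (Tree798.CT d 1 + SwInv356.Cinv d 1) / ε)
  refine ⟨η1, hη1p, K0, lt_max_of_lt_right hQ0, max (max n1 n2) (max n3 1), ?_⟩
  intro n hn E s η η' hE hs hηK hη1' hηK' hη1'' ω hω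
  have hn1 : n1 ≤ n := (le_max_left _ _).trans ((le_max_left _ _).trans hn)
  have hn2 : n2 ≤ n := (le_max_right _ _).trans ((le_max_left _ _).trans hn)
  have hn3' : n3 ≤ n := (le_max_left _ _).trans ((le_max_right _ _).trans hn)
  have hnpos : 0 < n := (le_max_right _ _).trans ((le_max_right _ _).trans hn)
  have hnR : (0 : ℝ) < n := by exact_mod_cast hnpos
  have hdpos : 0 < d := by omega
  have hdR : (0 : ℝ) < d := by exact_mod_cast hdpos
  have hK0p : 0 < K0 := lt_max_of_lt_right hQ0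
  have hη : 0 < η := lt_of_lt_of_le (div_pos hK0p hnR) hηK
  have hη' : 0 < η' := lt_of_lt_of_le (div_pos hK0p hnR) hηK'
  have hη'1 : η' ≤ 1 := hη1''.trans ((min_le_left _ _).trans (min_le_left _ _))
  have hη'2 : η' ≤ η2 := hη1''.trans ((min_le_left _ _).trans (min_le_right _ _))
  have hη1k : η1 ≤ k := (min_le_right _ _).trans (min_le_left _ _)
  have hη1e : η1 ≤ ε * k / 4 := (min_le_right _ _).trans (min_le_right _ _)
  have hzi : (ze E η').im = η' := by simp [ze]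
  have hz : 0 < (ze E η').im := by rw [hzi]; exact hη'
  -- the window for F1, F2
  have hKn1 : K1 / n ≤ η' := by
    refine le_trans ?_ hηK'
    apply div_le_div_of_nonneg_right _ hnR.le
    exact (le_max_left _ _).trans (le_max_left _ _)
  have hKn2 : K2 / n ≤ η' := by
    refine le_trans ?_ hηK'
    apply div_le_div_of_nonneg_right _ hnR.le
    exact (le_max_right _ _).trans (le_max_left _ _)
  have hF1n := hF1' n hn1 E s η' hE hs hKn1 hη'1 ω hω
  have hF2n := hF2' n hn2 E s η' hE hs hKn2 hη'2 ω hω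
  -- couplings
  have hnη : Q ≤ n * η' := by
    have h1 : Q ≤ K0 := le_max_right _ _
    have h2 : K0 ≤ n * η' := by
      rw [div_le_iff₀ hnR] at hηK'
      linarith
    linarith
  have hqall : (4 * ((d : ℝ) + 1) + 4 / κ) / (n * η' * e1 ^ 2) ≤ q := by
    rw [div_le_iff₀ (by positivity)]
    have h1 : (4 * ((d : ℝ) + 1) + 4 / κ) = Q * (e1 ^ 2 * q) := by
      rw [hQ]; field_simp
    rw [h1]
    calc Q * (e1 ^ 2 * q) ≤ (n * η') * (e1 ^ 2 * q) :=
          mul_le_mul_of_nonneg_right hnη (by positivity)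
      _ = _ := by ring
  have hq1 : 2 * (2 * ((d : ℝ) + 1)) / (n * (ze E η').im * e1 ^ 2) ≤ q := by
    rw [hzi]
    refine le_trans ?_ hqall
    apply div_le_div_of_nonneg_right _ (by positivity)
    have : 0 ≤ 4 / κ := by positivity
    linarith
  have hq2 : 2 * (2 / κ) / (n * (ze E η').im * e1 ^ 2) ≤ q := by
    rw [hzi]
    refine le_trans ?_ hqall
    apply div_le_div_of_nonneg_right _ (by positivity)
    have : 2 * (2 / κ) = 4 / κ := by ring
    have : 0 ≤ 4 * ((d : ℝ) + 1) := by positivity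
    linarith
  -- the bad event
  have hτk : τ ≤ k / (2 * (N1 d + 1)) := by
    refine hτ2.trans ?_
    have : 0 ≤ k / (2 * (N1 d + 1)) := by positivity
    exact mul_le_of_le_one_right this hu1
  have hCEe : CE κ * ((N1 d + N1 d ^ 2) * e1) ≤ ε / 256 := by
    have : 64 * (CE κ * (N1 d + N1 d ^ 2)) * e1 = 64 * (CE κ * ((N1 d + N1 d ^ 2) * e1)) := by
      ring
    rw [this] at he1'
    linarith
  have hε1le : ε ≤ 1 := min_le_right _ _
  have hτk2 : (τ / k) ^ 2 ≤ u := by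
    have h1 : τ / k ≤ u := by
      rw [div_le_iff₀ hkp]
      refine hτ2.trans ?_
      have h2 : k / (2 * (N1 d + 1)) ≤ k := div_le_self hkp.le (by linarith)
      calc k / (2 * (N1 d + 1)) * u ≤ k * u := mul_le_mul_of_nonneg_right h2 hu.le
        _ = u * k := mul_comm _ _
    have h0 : 0 ≤ τ / k := by positivity
    exact (pow_le_pow_left₀ h0 h1 2).trans (pow_le_of_le_one hu.le hu1 (by norm_num))
  have himp : ∀ p ∈ Ports n d, ∀ mv : HE n d × (BI d 1 → HE n d),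
      (BVal 1 p mv.1 mv.2 ∧ AdmL 1 κ τ e1 p s ω (ze E η') mv.1 mv.2) →
      rho (B0 (bsw 1 p mv).1 s ω (ze E η') mv.1 0 0)
            (cav (ze E η) (s * ω mv.1.1) fun j : Fin (d - 1) =>
              B0 p s ω (ze E η') (mv.2 (kk d j)) 0 0) ≤ ε₀ := by
    intro p hp mv hmv
    rw [SwP470.bsw_pos hmv.1]
    have h1 := rho_good hd (E := E) (η := η) (η' := η') (η1 := η1) (mem_Ports.1 hp) hmv.1 hη hη1'
      hη' hη1'' hκ hτ.le hτk he1.le (hCEe.trans (by linarith)) hη1k hmv.2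
    refine h1.trans ?_
    have h2 : 8 * ((2 + 8 * N1 d ^ 2) * (τ / kap1 2 κ) ^ 2) ≤ ε / 4 := by
      rw [← hk]
      calc 8 * ((2 + 8 * N1 d ^ 2) * (τ / k) ^ 2) = 8 * (2 + 8 * N1 d ^ 2) * (τ / k) ^ 2 := by ring
        _ ≤ 8 * (2 + 8 * N1 d ^ 2) * u := mul_le_mul_of_nonneg_left hτk2 (by positivity)
        _ ≤ ε / 4 := hu'
    have h3 : 2 * (η1 / kap1 2 κ) ≤ ε / 2 := by
      rw [← hk]
      have : η1 / k ≤ ε / 4 := by
        rw [div_le_iff₀ hkp]
        linarith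
      linarith
    have h4 : ε ≤ ε₀ := min_le_left _ _
    have h5 : 8 * (8 * (CE κ * ((N1 d + N1 d ^ 2) * e1))) ≤ ε / 4 := by linarith
    calc 8 * ((2 + 8 * N1 d ^ 2) * (τ / kap1 2 κ) ^ 2 + 8 * (CE κ * ((N1 d + N1 d ^ 2) * e1))) +
          2 * (η1 / kap1 2 κ)
        = 8 * ((2 + 8 * N1 d ^ 2) * (τ / kap1 2 κ) ^ 2) +
            8 * (8 * (CE κ * ((N1 d + N1 d ^ 2) * e1))) + 2 * (η1 / kap1 2 κ) := by ring
      _ ≤ ε / 4 + ε / 4 + ε / 2 := add_le_add (add_le_add h2 h5) h3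
      _ = ε := by ring
      _ ≤ ε₀ := h4
  -- counting for one state
  set cB : ℝ := (Fintype.card (BI d 1 → HE n d) : ℝ) with hcB
  have hcB0 : 0 ≤ cB := Nat.cast_nonneg _
  have hnd : (0 : ℝ) < n * d := by positivity
  have hone : ∀ p ∈ Ports n d, ((Finset.univ.filter fun mv : HE n d × (BI d 1 → HE n d) =>
          ¬ rho (B0 (bsw 1 p mv).1 s ω (ze E η') mv.1 0 0)
            (cav (ze E η) (s * ω mv.1.1) fun j : Fin (d - 1) =>
              B0 p s ω (ze E η') (mv.2 (kk d j)) 0 0) ≤ ε₀).card : ℝ) ≤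
      cB * (((Finset.univ.filter fun h : HE n d => ¬ TL 1 p h).card : ℝ) +
        (SwInv356.Cinv d 1 * d + (n * d) * ((N1 d + N1 d ^ 2) * q) +
          N1 d * ((Finset.univ.filter fun h : HE n d => ¬ Fine κ (BE p s ω (ze E η') h)).card : ℝ) +
          N1 d / τ ^ 2 * ∑ h : HE n d, min 1 (‖B0 p s ω (ze E η') h 0 1‖ ^ 2))) := by
    intro p hp
    have h1 : ((Finset.univ.filter fun mv : HE n d × (BI d 1 → HE n d) =>
          ¬ rho (B0 (bsw 1 p mv).1 s ω (ze E η') mv.1 0 0)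
            (cav (ze E η) (s * ω mv.1.1) fun j : Fin (d - 1) =>
              B0 p s ω (ze E η') (mv.2 (kk d j)) 0 0) ≤ ε₀).card : ℝ) ≤
        ((Finset.univ.filter fun mv : HE n d × (BI d 1 → HE n d) =>
        ¬ (BVal 1 p mv.1 mv.2 ∧ AdmL 1 κ τ e1 p s ω (ze E η') mv.1 mv.2)).card : ℝ) := by
      have : (Finset.univ.filter fun mv : HE n d × (BI d 1 → HE n d) =>
          ¬ rho (B0 (bsw 1 p mv).1 s ω (ze E η') mv.1 0 0)
            (cav (ze E η) (s * ω mv.1.1) fun j : Fin (d - 1) =>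
              B0 p s ω (ze E η') (mv.2 (kk d j)) 0 0) ≤ ε₀) ⊆
        (Finset.univ.filter fun mv : HE n d × (BI d 1 → HE n d) =>
        ¬ (BVal 1 p mv.1 mv.2 ∧ AdmL 1 κ τ e1 p s ω (ze E η') mv.1 mv.2)) := by
        intro mv hmv
        rw [Finset.mem_filter] at hmv ⊢
        exact ⟨hmv.1, fun h => hmv.2 (himp p hp mv h)⟩
      exact_mod_cast Finset.card_le_card this
    refine h1.trans ((card_bad hnpos hdpos (mem_Ports.1 hp) hz hκ he1 hq.le hq1 hq2).trans ?_)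
    refine mul_le_mul_of_nonneg_left (add_le_add le_rfl ?_) hcB0
    have h2 := pr1_BadL (p := p) (s := s) (ω := ω) (z := ze E η') (κ := κ) hτ hτ1
    have h3 : (n * d : ℝ) * pr1 (fun x => ¬ Fine κ (BE p s ω (ze E η') x)) =
        ((Finset.univ.filter fun h : HE n d => ¬ Fine κ (BE p s ω (ze E η') h)).card : ℝ) := by
      rw [pr1_eq_card, card_HE_real, mul_div_cancel₀ _ hnd.ne']
    have h4 : (n * d : ℝ) * av1 (fun x => min 1 (‖B0 p s ω (ze E η') x 0 1‖ ^ 2)) =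
        ∑ h : HE n d, min 1 (‖B0 p s ω (ze E η') h 0 1‖ ^ 2) := by
      unfold av1
      rw [card_HE_real, mul_div_cancel₀ _ hnd.ne']
    have h5 := mul_le_mul_of_nonneg_left h2 (by positivity : 0 ≤ (n * d : ℝ) * N1 d)
    have e1' : (n * d : ℝ) * N1 d * (pr1 (fun x => ¬ Fine κ (BE p s ω (ze E η') x)) +
        av1 (fun x => min 1 (‖B0 p s ω (ze E η') x 0 1‖ ^ 2)) / τ ^ 2) =
        N1 d * ((n * d : ℝ) * pr1 (fun x => ¬ Fine κ (BE p s ω (ze E η') x))) +
        N1 d / τ ^ 2 * ((n * d : ℝ) *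
          av1 (fun x => min 1 (‖B0 p s ω (ze E η') x 0 1‖ ^ 2))) := by ring
    rw [e1', h3, h4] at h5
    have e2 : (n * d : ℝ) * ((SwInv356.Cinv d 1 : ℝ) / n) = SwInv356.Cinv d 1 * d := by
      field_simp
    calc (n * d : ℝ) * ((SwInv356.Cinv d 1 : ℝ) / n +
          (N1 d * (pr1 (BadL κ τ p s ω (ze E η')) + q) + N1 d ^ 2 * q))
        = (n * d : ℝ) * ((SwInv356.Cinv d 1 : ℝ) / n) + (n * d) * ((N1 d + N1 d ^ 2) * q) +
          (n * d : ℝ) * N1 d * pr1 (BadL κ τ p s ω (ze E η')) := by ring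
      _ ≤ _ := by
          rw [e2]
          linarith
  refine (Finset.sum_le_sum hone).trans ?_
  rw [← Finset.mul_sum]
  simp only [Finset.sum_add_distrib, ← Finset.mul_sum, Finset.sum_const, nsmul_eq_mul]
  set P : ℝ := ((Ports n d).card : ℝ) with hP
  have hP0 : 0 ≤ P := Nat.cast_nonneg _
  have hTL := Tree798.sum_card_not_TL_le (n := n) (d := d) (by omega : 2 ≤ d) 1
  have b1 : (∑ p ∈ Ports n d, ((Finset.univ.filter fun h : HE n d => ¬ TL 1 p h).card : ℝ)) ≤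
      Tree798.CT d 1 * P := hTL
  have b2 := mul_le_mul_of_nonneg_left hF1n hN0
  have b3 := mul_le_mul_of_nonneg_left hF2n (by positivity : 0 ≤ N1 d / τ ^ 2)
  have b4 : Tree798.CT d 1 + SwInv356.Cinv d 1 * d ≤ ε / 8 * (n * d) := by
    have h1 : 8 * (Tree798.CT d 1 + SwInv356.Cinv d 1) / ε < n :=
      lt_of_lt_of_le hn3 (by exact_mod_cast hn3')
    rw [div_lt_iff₀ hε] at h1
    have hd1 : (1 : ℝ) ≤ d := by exact_mod_cast hdpos
    have h2 : Tree798.CT d 1 + SwInv356.Cinv d 1 * d ≤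
        (Tree798.CT d 1 + SwInv356.Cinv d 1) * d := by
      rw [add_mul]
      have := le_mul_of_one_le_right hCT hd1
      linarith
    have h3 : Tree798.CT d 1 + SwInv356.Cinv d 1 ≤ ε / 8 * n := by linarith
    calc Tree798.CT d 1 + SwInv356.Cinv d 1 * d ≤ (Tree798.CT d 1 + SwInv356.Cinv d 1) * d := h2
      _ ≤ ε / 8 * n * d := mul_le_mul_of_nonneg_right h3 hdR.le
      _ = ε / 8 * (n * d) := by ring
  rw [card_mv]
  have key : (∑ p ∈ Ports n d, ((Finset.univ.filter fun h : HE n d => ¬ TL 1 p h).card : ℝ)) +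
      (SwInv356.Cinv d 1 * (P * d) + (n * d) * ((N1 d + N1 d ^ 2) * (P * q)) +
        N1 d * ∑ p ∈ Ports n d,
          ((Finset.univ.filter fun h : HE n d => ¬ Fine κ (BE p s ω (ze E η') h)).card : ℝ) +
        N1 d / τ ^ 2 * ∑ p ∈ Ports n d,
          ∑ h : HE n d, min 1 (‖B0 p s ω (ze E η') h 0 1‖ ^ 2)) ≤ ε * (n * d) * P := by
    set T : ℝ := (n * d) * P with hT
    have hT0 : 0 ≤ T := by positivity
    have c1 : N1 d * (ε1 * (n * d) * P) ≤ ε / 8 * T := by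
      have : N1 d * (ε1 * (n * d) * P) = N1 d * ε1 * T := by rw [hT]; ring
      rw [this]
      exact mul_le_mul_of_nonneg_right hε1' hT0
    have c2 : N1 d / τ ^ 2 * (ε2 * (n * d) * P) ≤ ε / 8 * T := by
      have : N1 d / τ ^ 2 * (ε2 * (n * d) * P) = N1 d / τ ^ 2 * ε2 * T := by rw [hT]; ring
      rw [this]
      exact mul_le_mul_of_nonneg_right hε2' hT0
    have c3 : (n * d) * ((N1 d + N1 d ^ 2) * (P * q)) ≤ ε / 4 * T := by
      have : (n * d : ℝ) * ((N1 d + N1 d ^ 2) * (P * q)) = (N1 d + N1 d ^ 2) * q * T := by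
        rw [hT]; ring
      rw [this]
      exact mul_le_mul_of_nonneg_right hq' hT0
    have c4 : Tree798.CT d 1 * P + SwInv356.Cinv d 1 * (P * d) ≤ ε / 8 * T := by
      have h1 := mul_le_mul_of_nonneg_right b4 hP0
      have h2 : (Tree798.CT d 1 + SwInv356.Cinv d 1 * d) * P =
          Tree798.CT d 1 * P + SwInv356.Cinv d 1 * (P * d) := by ring
      have h3 : ε / 8 * (n * d) * P = ε / 8 * T := by rw [hT]; ring
      rw [h2, h3] at h1
      exact h1
    have c5 : 0 ≤ ε * T := by positivity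
    have c6 : ε * (n * d) * P = ε * T := by rw [hT]; ring
    rw [c6]
    linarith
  calc cB * _ ≤ cB * (ε * (n * d) * P) := mul_le_mul_of_nonneg_left key hcB0
    _ = ε * ((n * d) * cB) * P := by ring
    _ ≤ ε₀ * ((n * d) * cB) * P := by
        apply mul_le_mul_of_nonneg_right _ hP0
        exact mul_le_mul_of_nonneg_right (min_le_left _ _) (by positivity)

end Crest.Agent.R166.OneLevP598
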