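import Crest.Agent.R166.Close_798
import Crest.Agent.R166.OneLevP_598
import Crest.Agent.R166.BlkCmp_547

/-!
# Row 166, section 32 (graph half, helper798): F3 from F1, F2 and Theorem A
-/

set_option autoImplicit false
set_option linter.unusedSectionVars false

open Finset

namespace Crest.Agent.R166.F3Fin798

open Crest.Agent.R166 Crest.Agent.R166.Stab269 Crest.Agent.R166.TreeDet350
  Crest.Agent.R166.AvgCon798 Crest.Agent.R166.Rev811 Crest.Agent.R166.MeanEq269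
  Crest.Agent.R166.FineStab798 Crest.Agent.R166.SpecF3 Crest.Agent.R166.Close798
open Crest.Agent.R166.SwP470 (BI NZ bsw)
open Crest.Agent.R166.TreeT6350 (C6 C6_pos good_shift)
open Crest.Agent.R166.Off522 (Fine)

section state

variable {n d : ℕ} [NeZero d] {y0 : ℝ} {z m : ℂ}

/-- constants -/
noncomputable def CP (d : ℕ) (y0 : ℝ) : ℝ :=
  441 / 400 * (3 / (8 * y0 ^ 4) * (4 * (72 * ((d - 1 : ℕ) : ℝ) ^ 4 / y0 ^ 2)) + C2 (d - 1) y0)

noncomputable def CQ (d : ℕ) (y0 : ℝ) : ℝ :=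
  441 / 400 * (3 / (8 * y0 ^ 4) * (2 + 288 / y0 ^ 2 + 256 * BB y0 ^ 2)) +
    3 * C6 (d - 1) y0 + C3 (d - 1) y0

theorem C2_nonneg (h : Adm (d - 1) y0 z m) : 0 ≤ C2 (d - 1) y0 := by
  have h1 := h.C3_pos
  have h2 := h.hy
  have h3 : 0 ≤ CF (d - 1) y0 := by unfold CF; positivity
  unfold C2; positivity

theorem CP_pos (h : Adm (d - 1) y0 z m) : 0 < CP d y0 := by
  have h1 := C2_nonneg h
  have h2 := h.hy
  have h3 : (0 : ℝ) < ((d - 1 : ℕ) : ℝ) := by linarith [h.b2]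
  unfold CP; positivity

theorem CQ_pos (h : Adm (d - 1) y0 z m) : 0 < CQ d y0 := by
  have h1 := h.C3_pos
  have h2 := h.hy
  have h3 := BB_pos h2
  have h4 := C6_pos h
  unfold CQ; positivity

/-- the state-by-state closed inequality -/
theorem closeV (hd : 3 ≤ d) (hn : 0 < n) (hz : 0 < z.im) (h : Adm (d - 1) y0 z (mc d z))
    {z' : ℂ} (hz' : 0 < z'.im)
    {s : ℝ} {ω : Fin n → ℝ} (hs : |s| ≤ rr (d - 1) y0) (hω : ∀ v, |ω v| ≤ 1)
    {p : Equiv.Perm (HE n d)} (hp : IsPort p) {ε : ℝ} (hε : 0 ≤ ε) (hε1 : ε ≤ 1) :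
    gV y0 (mc d z) s ω z z' p ≤ 83 / 100 * Vc y0 (mc d z) s ω z z' p +
      CP d y0 * (Pc y0 (mc d z) s ω z z' p * Vc y0 (mc d z) s ω z z' p) +
      CQ d y0 * (‖Dc (mc d z) s ω z z' p - gD (mc d z) s ω z z' p‖ ^ 2 + ε +
        (beta ε z z s ω p + beta ε z z' s ω p)) := by
  have : Nonempty (HE n d) := ⟨(⟨0, hn⟩, ⟨0, Nat.pos_of_ne_zero (NeZero.ne d)⟩)⟩
  have hy := h.hy
  have hy1 := h.y0_lt_one
  have hBB := BB_pos hy
  have hC6 := C6_pos h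
  have hC3 := h.C3_pos
  have hC2 := C2_nonneg h
  have t1 := gV_le hn h hz hz' hs hω hp hε
  have t2 := gD_le hn h hz hz' hs hω hp hε hε1
  set V := Vc y0 (mc d z) s ω z z' p with hVdef
  set P := Pc y0 (mc d z) s ω z z' p with hPdef
  set D := Dc (mc d z) s ω z z' p with hDdef
  set g := gD (mc d z) s ω z z' p with hgdef
  set β := beta ε z z s ω p + beta ε z z' s ω p with hβ
  have hβ0 : 0 ≤ β := add_nonneg (beta_nonneg _ _ _ _ _ _) (beta_nonneg _ _ _ _ _ _)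
  have hV : 0 ≤ V := VV_nonneg h _
  have hP : 0 ≤ P := pp_nonneg _ _ _ _
  have hroot := Root355.mc_isRoot (by omega : 2 ≤ d) hz
  have hd' : (3 : ℝ) ≤ d := by exact_mod_cast hd
  have hnr := hroot.nonres (by linarith) hz.le
  have hcast : ((d - 1 : ℕ) : ℂ) = (((d : ℝ) - 1 : ℝ) : ℂ) := by
    rw [Nat.cast_sub (by omega)]
    push_cast
    rfl
  rw [← hcast] at hnr
  have hnr2 : 8 * y0 ^ 2 ≤ ‖1 - ((d - 1 : ℕ) : ℂ) * mc d z ^ 2‖ ^ 2 := by
    have h1 : (2 * Real.sqrt ((d : ℝ) - 1) * (mc d z).im) ^ 2 ≤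
        ‖1 - ((d - 1 : ℕ) : ℂ) * mc d z ^ 2‖ ^ 2 := by
      refine pow_le_pow_left₀ ?_ hnr 2
      have := h.im_pos
      positivity
    have h2 : (2 * Real.sqrt ((d : ℝ) - 1) * (mc d z).im) ^ 2 =
        4 * ((d : ℝ) - 1) * (mc d z).im ^ 2 := by
      rw [mul_pow, mul_pow, Real.sq_sqrt (by linarith)]
      ring
    have h3 : y0 ^ 2 ≤ (mc d z).im ^ 2 := pow_le_pow_left₀ hy.le h.him 2
    rw [h2] at h1
    nlinarith [sq_nonneg (mc d z).im]
  have hD2 : 8 * y0 ^ 2 * ‖D‖ ^ 2 ≤ 2 * ‖D - g‖ ^ 2 +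
      2 * ‖g - ((d - 1 : ℕ) : ℂ) * mc d z ^ 2 * D‖ ^ 2 := by
    have h1 : ‖1 - ((d - 1 : ℕ) : ℂ) * mc d z ^ 2‖ * ‖D‖ ≤
        ‖D - g‖ + ‖g - ((d - 1 : ℕ) : ℂ) * mc d z ^ 2 * D‖ := by
      rw [← norm_mul]
      have e : (1 - ((d - 1 : ℕ) : ℂ) * mc d z ^ 2) * D =
          (D - g) + (g - ((d - 1 : ℕ) : ℂ) * mc d z ^ 2 * D) := by ring
      rw [e]
      exact norm_add_le _ _
    have h2 := pow_le_pow_left₀ (by positivity) h1 2
    rw [mul_pow] at h2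
    have h3 := mul_le_mul_of_nonneg_right hnr2 (sq_nonneg ‖D‖)
    nlinarith [sq_nonneg (‖D - g‖ - ‖g - ((d - 1 : ℕ) : ℂ) * mc d z ^ 2 * D‖)]
  have hC1 : C1 y0 * ‖D‖ ^ 2 ≤ 3 / (8 * y0 ^ 4) * (2 * ‖D - g‖ ^ 2 +
      2 * ‖g - ((d - 1 : ℕ) : ℂ) * mc d z ^ 2 * D‖ ^ 2) := by
    have e : C1 y0 * ‖D‖ ^ 2 = 3 / (8 * y0 ^ 4) * (8 * y0 ^ 2 * ‖D‖ ^ 2) := by
      unfold C1; field_simp
    rw [e]
    exact mul_le_mul_of_nonneg_left hD2 (by positivity)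
  set c4 := 72 * ((d - 1 : ℕ) : ℝ) ^ 4 / y0 ^ 2 with hc4
  set q := 3 / (8 * y0 ^ 4) with hq
  have hq0 : 0 < q := by rw [hq]; positivity
  have h5 : 3 / (8 * y0 ^ 4) * (4 * (1 / 10 ^ 6 * y0 ^ 4 * V)) = 3 / 2000000 * V := by
    field_simp
    ring
  have h6 : q * (2 * ‖D - g‖ ^ 2 + 2 * ‖g - ((d - 1 : ℕ) : ℂ) * mc d z ^ 2 * D‖ ^ 2) ≤
      q * (2 * ‖D - g‖ ^ 2 + 2 * (2 * (1 / 10 ^ 6 * y0 ^ 4 * V + c4 * (P * V)) +
      (144 / y0 ^ 2 * ε + 128 * BB y0 ^ 2 * β))) :=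
    mul_le_mul_of_nonneg_left (by linarith) hq0.le
  have h7 : q * (2 * ‖D - g‖ ^ 2 + 2 * (2 * (1 / 10 ^ 6 * y0 ^ 4 * V + c4 * (P * V)) +
      (144 / y0 ^ 2 * ε + 128 * BB y0 ^ 2 * β))) =
      3 / 2000000 * V + q * (4 * c4) * (P * V) +
      q * (2 * ‖D - g‖ ^ 2 + 288 / y0 ^ 2 * ε + 256 * BB y0 ^ 2 * β) := by
    rw [← h5]; ring
  have hN0 : 0 ≤ ‖D - g‖ ^ 2 := sq_nonneg _
  have h8 : q * (2 * ‖D - g‖ ^ 2 + 288 / y0 ^ 2 * ε + 256 * BB y0 ^ 2 * β) ≤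
      q * (2 + 288 / y0 ^ 2 + 256 * BB y0 ^ 2) * (‖D - g‖ ^ 2 + ε + β) := by
    have a1 : 0 ≤ 288 / y0 ^ 2 := by positivity
    have a2 : 0 ≤ 256 * BB y0 ^ 2 := by positivity
    have a3 : 2 * ‖D - g‖ ^ 2 + 288 / y0 ^ 2 * ε + 256 * BB y0 ^ 2 * β ≤
        (2 + 288 / y0 ^ 2 + 256 * BB y0 ^ 2) * (‖D - g‖ ^ 2 + ε + β) := by
      nlinarith [mul_nonneg a1 hN0, mul_nonneg a1 hβ0, mul_nonneg a2 hN0, mul_nonneg a2 hε]
    calc _ ≤ q * ((2 + 288 / y0 ^ 2 + 256 * BB y0 ^ 2) * (‖D - g‖ ^ 2 + ε + β)) :=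
          mul_le_mul_of_nonneg_left a3 hq0.le
      _ = _ := by ring
  have h9 : 3 * C6 (d - 1) y0 * ε + C3 (d - 1) y0 * β ≤
      (3 * C6 (d - 1) y0 + C3 (d - 1) y0) * (‖D - g‖ ^ 2 + ε + β) := by
    have a1 : 0 ≤ 3 * C6 (d - 1) y0 := by positivity
    nlinarith [mul_nonneg a1 hN0, mul_nonneg a1 hβ0, mul_nonneg hC3.le hN0, mul_nonneg hC3.le hε]
  have h10 : CP d y0 * (P * V) = 441 / 400 * (q * (4 * c4) * (P * V) + C2 (d - 1) y0 * (P * V)) := by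
    unfold CP; rw [← hc4, ← hq]; ring
  have h11 : CQ d y0 * (‖D - g‖ ^ 2 + ε + β) =
      441 / 400 * (q * (2 + 288 / y0 ^ 2 + 256 * BB y0 ^ 2) * (‖D - g‖ ^ 2 + ε + β)) +
      (3 * C6 (d - 1) y0 + C3 (d - 1) y0) * (‖D - g‖ ^ 2 + ε + β) := by
    unfold CQ; rw [← hq]; ring
  rw [h10, h11]
  linarith

/-- the bad fraction is bounded by `V_G` of Theorem A -/
theorem Pc_le (hn : 0 < n) (hz : 0 < z.im) (h : Adm (d - 1) y0 z (mc d z))
    {z' : ℂ} (hz' : 0 < z'.im) (h' : Adm (d - 1) y0 z' (mc d z'))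
    (hmm : ‖mc d z - mc d z'‖ ≤ rr (d - 1) y0 / 8)
    {s : ℝ} {ω : Fin n → ℝ} {p : Equiv.Perm (HE n d)} (hp : IsPort p)
    {rs τ : ℝ} (hτ : 0 < τ) (hτr : τ ≤ rs) (hτ2 : τ ≤ rr (d - 1) y0 / 8 * y0 ^ 2) :
    Pc y0 (mc d z) s ω z z' p ≤
      (SpecA.Vp rs p s ω z + SpecA.Vp rs p s ω z') / τ ^ 2 := by
  have : Nonempty (HE n d) := ⟨(⟨0, hn⟩, ⟨0, Nat.pos_of_ne_zero (NeZero.ne d)⟩)⟩
  have hr0 := h.rr_pos
  have hr4 : rr (d - 1) y0 ≤ 1 / 4 := by linarith [h.rr_le', h.y0_lt_one]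
  have hy := h.hy
  rw [MuU395.Vp_av1, MuU395.Vp_av1, ← av1_add, div_eq_inv_mul, ← av1_const_mul]
  unfold Pc pp
  refine av1_mono fun x => ?_
  have key : ∀ w : ℂ, 0 < w.im → Adm (d - 1) y0 w (mc d w) → SpecA.Dv rs p s ω w x < τ →
      ‖uu (mc d w) (B0 p s ω w x 0 0)‖ ≤ rr (d - 1) y0 / 8 := by
    intro w hw hA hlt
    have h1 : SpecA.dev p s ω w x < τ := by
      unfold SpecA.Dv at hlt
      rcases min_lt_iff.1 hlt with h2 | h2
      · exact absurd h2 (not_lt.2 hτr)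
      · exact h2
    have h2 : ‖B0 p s ω w x 0 0 - mc d w‖ ≤ τ :=
      (entry_sub_le_bnorm (mc d w) (B0 p s ω w x)).trans h1.le
    have h3 := Shape395.den_ge'' hA (MuU395.im_B0_pos hp s ω hw x 0).le
    unfold uu
    have h4 : 0 < y0 ^ 2 := pow_pos hy 2
    rw [norm_div, div_le_iff₀ (lt_of_lt_of_le h4 h3)]
    calc ‖B0 p s ω w x 0 0 - mc d w‖ ≤ rr (d - 1) y0 / 8 * y0 ^ 2 := h2.trans hτ2
      _ ≤ _ := mul_le_mul_of_nonneg_left h3 (by positivity)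
  have n1 : 0 ≤ SpecA.Dv rs p s ω z x ^ 2 := sq_nonneg _
  have n2 : 0 ≤ SpecA.Dv rs p s ω z' x ^ 2 := sq_nonneg _
  by_cases h1 : SpecA.Dv rs p s ω z x < τ
  · by_cases h2 : SpecA.Dv rs p s ω z' x < τ
    · have hg : Good (mc d z) (rr (d - 1) y0) (PP p s ω z z' x) := by
        refine ⟨(key z hz h h1).trans (by linarith), ?_⟩
        exact good_shift h h' hr0.le hr4 hmm (MuU395.im_B0_pos hp s ω hz' x 0).le
          (key z' hz' h' h2)
      rw [bI_good hg]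
      exact mul_nonneg (by positivity) (add_nonneg n1 n2)
    · have h3 := bI_le_one (m := mc d z) (rr (d - 1) y0) (PP p s ω z z' x)
      have h4 : τ ^ 2 ≤ SpecA.Dv rs p s ω z' x ^ 2 :=
        pow_le_pow_left₀ hτ.le (not_lt.1 h2) 2
      have h5 : 1 ≤ (τ ^ 2)⁻¹ * (SpecA.Dv rs p s ω z x ^ 2 + SpecA.Dv rs p s ω z' x ^ 2) := by
        rw [inv_mul_eq_div, le_div_iff₀ (by positivity)]
        linarith
      linarith
  · have h3 := bI_le_one (m := mc d z) (rr (d - 1) y0) (PP p s ω z z' x)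
    have h4 : τ ^ 2 ≤ SpecA.Dv rs p s ω z x ^ 2 :=
      pow_le_pow_left₀ hτ.le (not_lt.1 h1) 2
    have h5 : 1 ≤ (τ ^ 2)⁻¹ * (SpecA.Dv rs p s ω z x ^ 2 + SpecA.Dv rs p s ω z' x ^ 2) := by
      rw [inv_mul_eq_div, le_div_iff₀ (by positivity)]
      linarith
    linarith

/-- sum over the states: `Σ V = Σ g_V` -/
theorem sum_V_eq (hn : 0 < n) (y0 : ℝ) (m : ℂ) (s : ℝ) (ω : Fin n → ℝ) (z z' : ℂ) :
    ∑ p ∈ Ports n d, Vc y0 m s ω z z' p = ∑ p ∈ Ports n d, gV y0 m s ω z z' p := by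
  have h1 := Sec522.sum_nu_eq_sum_g (SwP470.moveSystem n d 1 le_rfl) (H4.univ_nonempty 1 hn)
    (fun p h => cost (Mc (d - 1) y0) m (PP p s ω z z' h))
  unfold gV
  rw [← h1]
  refine Finset.sum_congr rfl fun p _ => ?_
  unfold Vc VV Sec269.nuAvg av1
  rw [Finset.card_univ]

theorem Vc_le (hn : 0 < n) (h : Adm (d - 1) y0 z m) (hz : 0 < z.im) {z' : ℂ} (hz' : 0 < z'.im)
    {s : ℝ} {ω : Fin n → ℝ} {p : Equiv.Perm (HE n d)} (hp : IsPort p) :
    Vc y0 m s ω z z' p ≤ C3 (d - 1) y0 := by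
  have : Nonempty (HE n d) := ⟨(⟨0, hn⟩, ⟨0, Nat.pos_of_ne_zero (NeZero.ne d)⟩)⟩
  refine (av1_mono fun x => ?_).trans (le_of_eq (av1_const _))
  exact cost_le_C3 h (MuU395.im_B0_pos hp s ω hz x 0) (MuU395.im_B0_pos hp s ω hz' x 0)

open Classical in
/-- **the closed inequality, summed over the states** -/
theorem sum_V_le (hd : 3 ≤ d) (hn : 0 < n) (hz : 0 < z.im) (h : Adm (d - 1) y0 z (mc d z))
    {z' : ℂ} (hz' : 0 < z'.im)
    {s : ℝ} {ω : Fin n → ℝ} (hs : |s| ≤ rr (d - 1) y0) (hω : ∀ v, |ω v| ≤ 1)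
    {ε : ℝ} (hε : 0 ≤ ε) (hε1 : ε ≤ 1) (Exc : Finset (Equiv.Perm (HE n d)))
    (hExc : ∀ p ∈ Ports n d, p ∉ Exc → CP d y0 * Pc y0 (mc d z) s ω z z' p ≤ 7 / 100)
    {X1 X2 X3 : ℝ} (h1 : ((Ports n d ∩ Exc).card : ℝ) ≤ X1 * (Ports n d).card)
    (h2 : ∑ p ∈ Ports n d, ‖Dc (mc d z) s ω z z' p - gD (mc d z) s ω z z' p‖ ^ 2 ≤
      X2 * (Ports n d).card)
    (h3 : ∑ p ∈ Ports n d, (beta ε z z s ω p + beta ε z z' s ω p) ≤ X3 * (Ports n d).card) :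
    ∑ p ∈ Ports n d, Vc y0 (mc d z) s ω z z' p ≤
      10 * (CP d y0 * C3 (d - 1) y0 * X1 + CQ d y0 * (X2 + ε + X3)) * (Ports n d).card := by
  have : Nonempty (HE n d) := ⟨(⟨0, hn⟩, ⟨0, Nat.pos_of_ne_zero (NeZero.ne d)⟩)⟩
  have hCP := CP_pos h
  have hCQ := CQ_pos h
  have hC3 := h.C3_pos
  have hpt : ∀ p ∈ Ports n d, gV y0 (mc d z) s ω z z' p ≤
      90 / 100 * Vc y0 (mc d z) s ω z z' p +
      (CP d y0 * C3 (d - 1) y0) * (if p ∈ Exc then (1 : ℝ) else 0) +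
      CQ d y0 * (‖Dc (mc d z) s ω z z' p - gD (mc d z) s ω z z' p‖ ^ 2 + ε +
        (beta ε z z s ω p + beta ε z z' s ω p)) := by
    intro p hp
    have hp' := mem_Ports.1 hp
    have hc := closeV hd hn hz h hz' hs hω hp' hε hε1
    have hV : 0 ≤ Vc y0 (mc d z) s ω z z' p := VV_nonneg h _
    have hP : 0 ≤ Pc y0 (mc d z) s ω z z' p := pp_nonneg _ _ _ _
    by_cases hpE : p ∈ Exc
    · rw [if_pos hpE, mul_one]
      have hP1 : Pc y0 (mc d z) s ω z z' p ≤ 1 := by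
        exact pp_le_one _ _ _ _
      have hV3 := Vc_le hn h hz hz' (s := s) (ω := ω) hp'
      have h5 : Pc y0 (mc d z) s ω z z' p * Vc y0 (mc d z) s ω z z' p ≤ 1 * C3 (d - 1) y0 :=
        mul_le_mul hP1 hV3 hV zero_le_one
      have h6 := mul_le_mul_of_nonneg_left h5 hCP.le
      linarith
    · rw [if_neg hpE, mul_zero]
      have h5 := mul_le_mul_of_nonneg_right (hExc p hp hpE) hV
      linarith
  have hsum := Finset.sum_le_sum hpt
  rw [← sum_V_eq hn, Finset.sum_add_distrib, Finset.sum_add_distrib, ← Finset.mul_sum,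
    ← Finset.mul_sum, ← Finset.mul_sum, Finset.sum_add_distrib, Finset.sum_add_distrib,
    Finset.sum_const, nsmul_eq_mul, ← Finset.sum_filter, Finset.sum_const, nsmul_eq_mul,
    mul_one] at hsum
  have e1 : ((Finset.filter (fun p => p ∈ Exc) (Ports n d)).card : ℝ) =
      ((Ports n d ∩ Exc).card : ℝ) := by
    rw [Finset.filter_mem_eq_inter]
  rw [e1] at hsum
  have h4 := mul_le_mul_of_nonneg_left h1 (mul_pos hCP hC3).le
  have h5 := mul_le_mul_of_nonneg_left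
    (show ∑ p ∈ Ports n d, ‖Dc (mc d z) s ω z z' p - gD (mc d z) s ω z z' p‖ ^ 2 +
      ((Ports n d).card : ℝ) * ε + ∑ p ∈ Ports n d, (beta ε z z s ω p + beta ε z z' s ω p) ≤
      (X2 + ε + X3) * (Ports n d).card by nlinarith) hCQ.le
  nlinarith

end state

/-! ### from the cost to the blocks -/

section blocks

variable {n d : ℕ}

lemma cavB_swap (B : Matrix (Fin 2) (Fin 2) ℂ) :
    cavB (B.submatrix (Equiv.swap 0 1) (Equiv.swap 0 1)) =
      (cavB B).submatrix (Equiv.swap 0 1) (Equiv.swap 0 1) := by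
  unfold cavB
  rw [Matrix.inv_submatrix_equiv]
  have h : W2 = W2.submatrix (Equiv.swap 0 1) (Equiv.swap 0 1) := by
    ext i j
    fin_cases i <;> fin_cases j <;> simp [W2]
  have h2 : (B⁻¹).submatrix (Equiv.swap 0 1) (Equiv.swap 0 1) - W2 =
      (B⁻¹ - W2).submatrix (Equiv.swap 0 1) (Equiv.swap 0 1) := by
    rw [Matrix.submatrix_sub]
    simp only [Pi.sub_apply]
    rw [← h]
  rw [h2, Matrix.inv_submatrix_equiv]

theorem B0_partner {p : Equiv.Perm (HE n d)} (hp : IsPort p) (s : ℝ) (ω : Fin n → ℝ) (z : ℂ)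
    (h : HE n d) : B0 p s ω z (p h) 0 0 = B0 p s ω z h 1 1 := by
  have e : BE p s ω z (p h) = (BE p s ω z h).submatrix (Equiv.swap 0 1) (Equiv.swap 0 1) := by
    unfold BE Blk
    rw [hp.inv]
    ext i j
    fin_cases i <;> fin_cases j <;> simp
  unfold B0
  rw [e, cavB_swap]
  simp

open Classical in
/-- the final comparison for one state -/
theorem block_sum [NeZero d] {y0 : ℝ} {z z' m : ℂ} (h : Adm (d - 1) y0 z m) (hn : 0 < n)
    {κ ε δ : ℝ} (hε : 0 < ε) (hδ : 0 < δ) (hδ1 : δ ≤ 1)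
    (hB : ∀ B B' : Matrix (Fin 2) (Fin 2) ℂ,
      Fine κ B → Fine κ B' → ‖cavB B 0 1‖ ≤ δ → ‖cavB B' 0 1‖ ≤ δ →
      rho (cavB B 0 0) (cavB B' 0 0) ≤ δ → rho (cavB B 1 1) (cavB B' 1 1) ≤ δ →
      bnorm (B - B') ≤ ε)
    {p : Equiv.Perm (HE n d)} (hp : IsPort p) (s : ℝ) (ω : Fin n → ℝ) :
    ∑ x : HE n d, min 1 (bnorm (BE p s ω z x - BE p s ω z' x)) ≤
      (n * d : ℝ) * ε + (nbad κ p s ω z + nbad κ p s ω z') +
        (1 / δ ^ 2) * (∑ x : HE n d, min 1 (‖B0 p s ω z x 0 1‖ ^ 2) +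
          ∑ x : HE n d, min 1 (‖B0 p s ω z' x 0 1‖ ^ 2)) +
        (2 / δ ^ 2) * ((n * d : ℝ) * Vc y0 m s ω z z' p) := by
  have : Nonempty (HE n d) := ⟨(⟨0, hn⟩, ⟨0, Nat.pos_of_ne_zero (NeZero.ne d)⟩)⟩
  set R : HE n d → ℝ := fun x => rho (B0 p s ω z x 0 0) (B0 p s ω z' x 0 0) ^ 2 with hR
  have hδ2 : 0 < δ ^ 2 := by positivity
  have hδ21 : δ ^ 2 ≤ 1 := pow_le_one₀ hδ.le hδ1
  have hpt : ∀ x : HE n d, min 1 (bnorm (BE p s ω z x - BE p s ω z' x)) ≤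
      ε + ((if ¬ Fine κ (BE p s ω z x) then (1 : ℝ) else 0) +
        (if ¬ Fine κ (BE p s ω z' x) then (1 : ℝ) else 0)) +
      (1 / δ ^ 2) * (min 1 (‖B0 p s ω z x 0 1‖ ^ 2) + min 1 (‖B0 p s ω z' x 0 1‖ ^ 2)) +
      (1 / δ ^ 2) * (R x + R (p x)) := by
    intro x
    have n1 : (0 : ℝ) ≤ if ¬ Fine κ (BE p s ω z x) then (1 : ℝ) else 0 := by
      split_ifs <;> norm_num
    have n2 : (0 : ℝ) ≤ if ¬ Fine κ (BE p s ω z' x) then (1 : ℝ) else 0 := by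
      split_ifs <;> norm_num
    have m1 : 0 ≤ min 1 (‖B0 p s ω z x 0 1‖ ^ 2) := le_min zero_le_one (sq_nonneg _)
    have m2 : 0 ≤ min 1 (‖B0 p s ω z' x 0 1‖ ^ 2) := le_min zero_le_one (sq_nonneg _)
    have r1 : 0 ≤ R x := sq_nonneg _
    have r2 : 0 ≤ R (p x) := sq_nonneg _
    have i1 : 0 ≤ (1 / δ ^ 2) * min 1 (‖B0 p s ω z x 0 1‖ ^ 2) := mul_nonneg (by positivity) m1
    have i2 : 0 ≤ (1 / δ ^ 2) * min 1 (‖B0 p s ω z' x 0 1‖ ^ 2) := mul_nonneg (by positivity) m2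
    have i3 : 0 ≤ (1 / δ ^ 2) * R x := mul_nonneg (by positivity) r1
    have i4 : 0 ≤ (1 / δ ^ 2) * R (p x) := mul_nonneg (by positivity) r2
    have hmin : min 1 (bnorm (BE p s ω z x - BE p s ω z' x)) ≤ 1 := min_le_left _ _
    rw [mul_add, mul_add]
    by_cases h1 : Fine κ (BE p s ω z x)
    · by_cases h2 : Fine κ (BE p s ω z' x)
      · by_cases h3 : ‖B0 p s ω z x 0 1‖ ≤ δ
        · by_cases h4 : ‖B0 p s ω z' x 0 1‖ ≤ δ
          · by_cases h5 : rho (B0 p s ω z x 0 0) (B0 p s ω z' x 0 0) ≤ δ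
            · by_cases h6 : rho (B0 p s ω z x 1 1) (B0 p s ω z' x 1 1) ≤ δ
              · have := hB _ _ h1 h2 h3 h4 h5 h6
                have := (min_le_right 1 (bnorm (BE p s ω z x - BE p s ω z' x))).trans this
                linarith
              · have h7 : 1 ≤ (1 / δ ^ 2) * R (p x) := by
                  rw [one_div_mul_eq_div, le_div_iff₀ hδ2, one_mul, hR]
                  simp only
                  rw [B0_partner hp, B0_partner hp]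
                  exact pow_le_pow_left₀ hδ.le (not_le.1 h6).le 2
                linarith
            · have h7 : 1 ≤ (1 / δ ^ 2) * R x := by
                rw [one_div_mul_eq_div, le_div_iff₀ hδ2, one_mul]
                exact pow_le_pow_left₀ hδ.le (not_le.1 h5).le 2
              linarith
          · have h7 : 1 ≤ (1 / δ ^ 2) * min 1 (‖B0 p s ω z' x 0 1‖ ^ 2) := by
              rw [one_div_mul_eq_div, le_div_iff₀ hδ2, one_mul]
              exact le_min hδ21 (pow_le_pow_left₀ hδ.le (not_le.1 h4).le 2)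
            linarith
        · have h7 : 1 ≤ (1 / δ ^ 2) * min 1 (‖B0 p s ω z x 0 1‖ ^ 2) := by
            rw [one_div_mul_eq_div, le_div_iff₀ hδ2, one_mul]
            exact le_min hδ21 (pow_le_pow_left₀ hδ.le (not_le.1 h3).le 2)
          linarith
      · rw [if_pos h2]
        linarith
    · rw [if_pos h1]
      linarith
  refine (Finset.sum_le_sum fun x _ => hpt x).trans ?_
  rw [Finset.sum_add_distrib, Finset.sum_add_distrib, Finset.sum_add_distrib,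
    Finset.sum_add_distrib, ← Finset.mul_sum, ← Finset.mul_sum, Finset.sum_add_distrib,
    Finset.sum_add_distrib, Equiv.sum_comp p R, Finset.sum_const, Finset.card_univ,
    IsPort.card_HE, nsmul_eq_mul, ← Finset.sum_filter, ← Finset.sum_filter, Finset.sum_const,
    Finset.sum_const, nsmul_eq_mul, nsmul_eq_mul, mul_one, mul_one]
  have hRV : ∑ x, R x ≤ (n * d : ℝ) * Vc y0 m s ω z z' p := by
    have h1 := av1_rho_sq_le h (PP p s ω z z')
    unfold av1 at h1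
    have hc : (Fintype.card (HE n d) : ℝ) = n * d := by
      rw [IsPort.card_HE]; push_cast; rfl
    have hnd : (0 : ℝ) < n * d := by
      have h1 : (0 : ℝ) < n := by exact_mod_cast hn
      have h2 : (0 : ℝ) < d := by exact_mod_cast Nat.pos_of_ne_zero (NeZero.ne d)
      positivity
    rw [hc, div_le_iff₀ hnd] at h1
    calc ∑ x, R x ≤ VV (d - 1) y0 m (PP p s ω z z') * (n * d : ℝ) := h1
      _ = _ := by unfold Vc; ring
  have e1 : ((Finset.univ.filter fun x : HE n d => ¬ Fine κ (BE p s ω z x)).card : ℝ) =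
      nbad κ p s ω z := by
    unfold nbad
    congr!
  have e2 : ((Finset.univ.filter fun x : HE n d => ¬ Fine κ (BE p s ω z' x)).card : ℝ) =
      nbad κ p s ω z' := by
    unfold nbad
    congr!
  rw [e1, e2]
  push_cast
  have h9 : (1 / δ ^ 2) * (∑ x, R x + ∑ x, R x) ≤
      (2 / δ ^ 2) * ((n * d : ℝ) * Vc y0 m s ω z z' p) := by
    have : (1 / δ ^ 2) * (∑ x, R x + ∑ x, R x) = (2 / δ ^ 2) * ∑ x, R x := by ring
    rw [this]
    exact mul_le_mul_of_nonneg_left hRV (by positivity)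
  linarith

end blocks

/-! ### quantifiers -/

lemma F1P.mono {d : ℕ} {A s0 s1 : ℝ} (h : F1P d A s1) (hs : s0 ≤ s1) : F1P d A s0 := by
  intro ε hε
  obtain ⟨κ, hκ, K0, hK0, N, H⟩ := h ε hε
  exact ⟨κ, hκ, K0, hK0, N, fun n hn E s η hE hsl => H n hn E s η hE (hsl.trans hs)⟩

lemma F2P.mono {d : ℕ} {A s0 s1 : ℝ} (h : F2P d A s1) (hs : s0 ≤ s1) : F2P d A s0 := by
  intro ε hε
  obtain ⟨κ, hκ, K0, hK0, N, H⟩ := h ε hε
  exact ⟨κ, hκ, K0, hK0, N, fun n hn E s η hE hsl => H n hn E s η hE (hsl.trans hs)⟩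

/-- a threshold: `c / x ≤ e` for large `x` -/
lemma div_le_of {c e x : ℝ} (hc : 0 ≤ c) (he : 0 < e) (hx : c / e + 1 ≤ x) : c / x ≤ e := by
  have h1 : 0 ≤ c / e := by positivity
  have hx0 : 0 < x := by linarith
  rw [div_le_iff₀ hx0]
  have h2 : c / e ≤ x := by linarith
  rw [div_le_iff₀ he] at h2
  linarith

lemma norm_ze_sub (E η η' : ℝ) : ‖ze E η - ze E η'‖ = |η - η'| := by
  have : ze E η - ze E η' = ((η - η' : ℝ) : ℂ) * Complex.I := by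
    unfold ze; push_cast; ring
  rw [this, norm_mul, Complex.norm_I, mul_one, Complex.norm_real, Real.norm_eq_abs]

set_option maxHeartbeats 1000000 in
/-- **F3 for fixed `A`, `s0`** -/
theorem f3P {d : ℕ} [NeZero d] (hd : 3 ≤ d) {A : ℝ} (hA0 : 0 < A)
    (hA : A ^ 2 < 4 * ((d : ℝ) - 1)) (hF1 : F1 d) (hF2 : F2 d) (hT : SpecA.ThmA d) :
    ∃ s0 : ℝ, 0 < s0 ∧ F3P d A s0 := by
  classical
  obtain ⟨s1, hs1, F1A⟩ := hF1 A hA0 hA
  obtain ⟨s2, hs2, F2A⟩ := hF2 A hA0 hA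
  obtain ⟨rs, C1A, s3, hrs, hC1A, hs3, HT⟩ := hT A hA0 hA
  -- constants
  set y0 := MuU395.y00 d A with hy0
  have hadm : ∀ E η : ℝ, |E| ≤ A → 0 < η → η ≤ 1 → Adm (d - 1) y0 (ze E η) (mc d (ze E η)) :=
    fun E η hE hη hη1 => MuU395.adm_of hd hA hE hη hη1
  have h00 := hadm 0 1 (by rw [abs_zero]; exact hA0.le) one_pos le_rfl
  have hy := h00.hy
  have hr := h00.rr_pos
  have hCP := CP_pos h00
  have hCQ := CQ_pos h00
  have hC3 := h00.C3_pos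
  have hBB := BB_pos hy
  have hcL : 0 ≤ cL d := by unfold cL; positivity
  set r := rr (d - 1) y0 with hrdef
  set dP : ℝ := 7 / (100 * CP d y0) with hdP
  have hdP0 : 0 < dP := by rw [hdP]; positivity
  set τ : ℝ := min rs (r / 8 * y0 ^ 2) with hτ
  have hτ0 : 0 < τ := by rw [hτ]; exact lt_min hrs (by positivity)
  have hτr : τ ≤ rs := min_le_left _ _
  have hτ2 : τ ≤ r / 8 * y0 ^ 2 := min_le_right _ _
  set s4 : ℝ := min 1 (dP * τ ^ 2 / (4 * C1A)) with hs4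
  have hs40 : 0 < s4 := by rw [hs4]; exact lt_min one_pos (by positivity)
  have hs41 : s4 ≤ 1 := min_le_left _ _
  have hs42 : C1A * s4 ^ 2 ≤ dP * τ ^ 2 / 4 := by
    have h1 : s4 ≤ dP * τ ^ 2 / (4 * C1A) := min_le_right _ _
    have h2 : s4 ^ 2 ≤ s4 := by nlinarith
    calc C1A * s4 ^ 2 ≤ C1A * (dP * τ ^ 2 / (4 * C1A)) :=
          mul_le_mul_of_nonneg_left (h2.trans h1) hC1A.le
      _ = _ := by field_simp
  obtain ⟨s0, hs0, h01, h02, h03, h04, h0r⟩ : ∃ s0 : ℝ, 0 < s0 ∧ s0 ≤ s1 ∧ s0 ≤ s2 ∧ s0 ≤ s3 ∧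
      s0 ≤ s4 ∧ s0 ≤ r := by
    refine ⟨min s1 (min s2 (min s3 (min s4 r))), ?_, ?_, ?_, ?_, ?_, ?_⟩
    · exact lt_min hs1 (lt_min hs2 (lt_min hs3 (lt_min hs40 hr)))
    · exact min_le_left _ _
    · exact (min_le_right _ _).trans (min_le_left _ _)
    · exact (min_le_right _ _).trans ((min_le_right _ _).trans (min_le_left _ _))
    · exact (min_le_right _ _).trans ((min_le_right _ _).trans ((min_le_right _ _).trans
        (min_le_left _ _)))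
    · exact (min_le_right _ _).trans ((min_le_right _ _).trans ((min_le_right _ _).trans
        (min_le_right _ _)))
  refine ⟨s0, hs0, ?_⟩
  have F1s := F1P.mono F1A h01
  have F2s := F2P.mono F2A h02
  have HO := OneLevP598.oneLevFrom d hd A s0 hA0 hA hs0 (h04.trans hs41) F1s F2s
  intro ε hε
  -- choice of the parameters
  obtain ⟨κ1, hκ1, Ka, hKa, Na, HF1a⟩ := F1s (ε / 16) (by positivity)
  obtain ⟨δB, hδB, HB⟩ := BlkCmp547.blkCmp κ1 hκ1 (ε / 2) (by positivity)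
  obtain ⟨δ, hδ0, hδ1, hδB'⟩ : ∃ δ : ℝ, 0 < δ ∧ δ ≤ 1 ∧ δ ≤ δB :=
    ⟨min δB 1, lt_min hδB one_pos, min_le_right _ _, min_le_left _ _⟩
  set εV : ℝ := δ ^ 2 * ε / 16 with hεV
  have hεV0 : 0 < εV := by rw [hεV]; positivity
  set A0 : ℝ := 80 * CQ d y0 * BB y0 ^ 2 with hA0def
  have hA00 : 0 < A0 := by rw [hA0def]; positivity
  obtain ⟨δA, hδA0, hδA1, hδA2⟩ : ∃ δA : ℝ, 0 < δA ∧ δA ≤ dP * τ ^ 2 / 4 ∧
      10 * (CP d y0 * C3 (d - 1) y0 * δA) ≤ εV / 4 := by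
    refine ⟨min (dP * τ ^ 2 / 4) (εV / (40 * (CP d y0 * C3 (d - 1) y0))),
      lt_min (by positivity) (by positivity), min_le_left _ _, ?_⟩
    have h1 : min (dP * τ ^ 2 / 4) (εV / (40 * (CP d y0 * C3 (d - 1) y0))) ≤
        εV / (40 * (CP d y0 * C3 (d - 1) y0)) := min_le_right _ _
    calc 10 * (CP d y0 * C3 (d - 1) y0 *
          min (dP * τ ^ 2 / 4) (εV / (40 * (CP d y0 * C3 (d - 1) y0))))
        ≤ 10 * (CP d y0 * C3 (d - 1) y0 * (εV / (40 * (CP d y0 * C3 (d - 1) y0)))) :=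
          mul_le_mul_of_nonneg_left (mul_le_mul_of_nonneg_left h1 (by positivity)) (by norm_num)
      _ = εV / 4 := by field_simp; ring
  obtain ⟨ε3, hε30, hε31, hε32⟩ : ∃ ε3 : ℝ, 0 < ε3 ∧ ε3 ≤ 1 ∧
      10 * (CQ d y0 * (3 * ε3)) ≤ εV / 4 := by
    refine ⟨min 1 (εV / (120 * CQ d y0)), lt_min one_pos (by positivity), min_le_left _ _, ?_⟩
    have h1 : min 1 (εV / (120 * CQ d y0)) ≤ εV / (120 * CQ d y0) := min_le_right _ _
    calc 10 * (CQ d y0 * (3 * min 1 (εV / (120 * CQ d y0))))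
        ≤ 10 * (CQ d y0 * (3 * (εV / (120 * CQ d y0)))) :=
          mul_le_mul_of_nonneg_left (mul_le_mul_of_nonneg_left
            (mul_le_mul_of_nonneg_left h1 (by norm_num)) hCQ.le) (by norm_num)
      _ = εV / 4 := by field_simp; ring
  set e1 : ℝ := εV / (64 * A0) with he1
  have he10 : 0 < e1 := by rw [he1]; positivity
  obtain ⟨κ2, hκ2, Kb, hKb, Nb, HF1b⟩ := F1s e1 he10
  have hCS := CS_nonneg hy hκ2
  obtain ⟨Kc, hKc, HTc⟩ := HT δA hδA0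
  obtain ⟨η2, hη2, Kd, hKd, Nd, HF2⟩ := F2s (δ ^ 2 * ε / 16) (by positivity)
  obtain ⟨η3, hη3, Ke, hKe, Ne, HOe⟩ := HO ε3 hε30
  set J2 : ℝ := (Fintype.card (SwComm356.J d 1) : ℝ) ^ 2 with hJ2
  have hJ20 : 0 ≤ J2 := by rw [hJ2]; positivity
  set e4 : ℝ := εV / (16 * A0) with he4
  have he40 : 0 < e4 := by rw [he4]; positivity
  -- K
  obtain ⟨K, hK0, hKa', hKb', hKc', hKd', hKe', hKf⟩ : ∃ K : ℝ, 0 < K ∧ Ka ≤ K ∧ Kb ≤ K ∧
      Kc ≤ K ∧ Kd ≤ K ∧ Ke ≤ K ∧ 8 * CS y0 κ2 * cL d / BB y0 / e4 + 1 ≤ K := by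
    have hq : 0 ≤ 8 * CS y0 κ2 * cL d / BB y0 / e4 := by positivity
    refine ⟨Ka + Kb + Kc + Kd + Ke + (8 * CS y0 κ2 * cL d / BB y0 / e4 + 1), ?_, ?_, ?_, ?_, ?_,
      ?_, ?_⟩ <;> linarith
  obtain ⟨Nc, HTn⟩ := HTc K hKc'
  obtain ⟨Nf, hNf1, hNf2⟩ : ∃ Nf : ℕ, 4 * cL d / e4 + 1 ≤ Nf ∧ 2 * J2 / e4 + 1 ≤ Nf := by
    obtain ⟨N1, hN1⟩ := exists_nat_ge (4 * cL d / e4 + 1)
    obtain ⟨N2, hN2⟩ := exists_nat_ge (2 * J2 / e4 + 1)
    refine ⟨N1 + N2, ?_, ?_⟩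
    · push_cast
      have : (0 : ℝ) ≤ N2 := Nat.cast_nonneg _
      linarith
    · push_cast
      have : (0 : ℝ) ≤ N1 := Nat.cast_nonneg _
      linarith
  obtain ⟨η1, hη10, hη11, hη12, hη13, hη14⟩ : ∃ η1 : ℝ, 0 < η1 ∧ η1 ≤ 1 ∧ η1 ≤ η2 ∧ η1 ≤ η3 ∧
      η1 ≤ r * y0 / 8 := by
    refine ⟨min 1 (min η2 (min η3 (r * y0 / 8))), ?_, ?_, ?_, ?_, ?_⟩
    · exact lt_min one_pos (lt_min hη2 (lt_min hη3 (by positivity)))
    · exact min_le_left _ _
    · exact (min_le_right _ _).trans (min_le_left _ _)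
    · exact (min_le_right _ _).trans ((min_le_right _ _).trans (min_le_left _ _))
    · exact (min_le_right _ _).trans ((min_le_right _ _).trans (min_le_right _ _))
  refine ⟨η1, hη10, K, hK0, Na + Nb + Nc + Nd + Ne + Nf + 1, ?_⟩
  intro n hnN E s η η' hE hsl hη hηu hη' hηu' ω hω
  have hn : 0 < n := by omega
  have hn' : (0 : ℝ) < n := by exact_mod_cast hn
  have hd0 : (0 : ℝ) < d := by exact_mod_cast (by omega : 0 < d)
  have hd1 : (1 : ℝ) ≤ d := by exact_mod_cast (by omega : 1 ≤ d)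
  have hKn : ∀ K' : ℝ, K' ≤ K → K' / n ≤ η := fun K' h =>
    (div_le_div_of_nonneg_right h hn'.le).trans hη
  have hKn' : ∀ K' : ℝ, K' ≤ K → K' / n ≤ η' := fun K' h =>
    (div_le_div_of_nonneg_right h hn'.le).trans hη'
  have hηp : 0 < η := lt_of_lt_of_le (by positivity) hη
  have hηp' : 0 < η' := lt_of_lt_of_le (by positivity) hη'
  have hη1 : η ≤ 1 := hηu.trans hη11
  have hη1' : η' ≤ 1 := hηu'.trans hη11
  have hzi : ∀ t : ℝ, (ze E t).im = t := fun t => by simp [ze]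
  have hz : 0 < (ze E η).im := by rw [hzi]; exact hηp
  have hz' : 0 < (ze E η').im := by rw [hzi]; exact hηp'
  have h := hadm E η hE hηp hη1
  have h' := hadm E η' hE hηp' hη1'
  have hsr : |s| ≤ r := hsl.trans h0r
  have hNP : (0 : ℝ) ≤ (Ports n d).card := Nat.cast_nonneg _
  -- the roots are close
  have hmm : ‖mc d (ze E η) - mc d (ze E η')‖ ≤ r / 8 := by
    have hroot := Root355.mc_isRoot (by omega : 2 ≤ d) hz
    have hroot' := Root355.mc_isRoot (by omega : 2 ≤ d) hz'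
    have hd3 : (3 : ℝ) ≤ d := by exact_mod_cast hd
    have h1 := hroot.lipschitz hroot' (by linarith) hz.le hz'.le
    rw [norm_ze_sub] at h1
    have h2 : |η - η'| ≤ η1 := by
      rw [abs_le]; constructor <;> linarith
    have h3 : |η - η'| / (mc d (ze E η)).im ≤ (r * y0 / 8) / y0 :=
      div_le_div₀ (by positivity) (h2.trans hη14) hy h.him
    refine h1.trans (h3.trans (le_of_eq ?_))
    field_simp
  -- inputs
  have F1a1 := HF1a n (by omega) E s η hE hsl (hKn _ hKa') hη1 ω hω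
  have F1a2 := HF1a n (by omega) E s η' hE hsl (hKn' _ hKa') hη1' ω hω
  have F1b1 := HF1b n (by omega) E s η hE hsl (hKn _ hKb') hη1 ω hω
  have F1b2 := HF1b n (by omega) E s η' hE hsl (hKn' _ hKb') hη1' ω hω
  have F21 := HF2 n (by omega) E s η hE hsl (hKn _ hKd') (hηu.trans hη12) ω hω
  have F22 := HF2 n (by omega) E s η' hE hsl (hKn' _ hKd') (hηu'.trans hη12) ω hω
  have O1 := HOe n (by omega) E s η η hE hsl (hKn _ hKe') (hηu.trans hη13) (hKn _ hKe')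
    (hηu.trans hη13) ω hω
  have O2 := HOe n (by omega) E s η η' hE hsl (hKn _ hKe') (hηu.trans hη13) (hKn' _ hKe')
    (hηu'.trans hη13) ω hω
  have T1 := HTn n (by omega) E s hE (hsl.trans h03) ω hω
  -- the exceptional set
  set Exc : Finset (Equiv.Perm (HE n d)) := (Ports n d).filter fun p => ∃ η : ℝ, K / n ≤ η ∧
    η ≤ 1 ∧ C1A * s ^ 2 + δA < SpecA.Vp rs p s ω (ze E η) with hExc
  have hX1 : ((Ports n d ∩ Exc).card : ℝ) ≤ δA * (Ports n d).card := by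
    have e : Ports n d ∩ Exc = Exc := by
      rw [Finset.inter_eq_right, hExc]
      exact Finset.filter_subset _ _
    rw [e]
    refine le_trans (le_of_eq ?_) T1
    rw [hExc]
  have hs2' : C1A * s ^ 2 ≤ dP * τ ^ 2 / 4 := by
    refine le_trans ?_ hs42
    refine mul_le_mul_of_nonneg_left ?_ hC1A.le
    rw [← sq_abs]
    exact pow_le_pow_left₀ (abs_nonneg _) (hsl.trans h04) 2
  have hExc2 : ∀ p ∈ Ports n d, p ∉ Exc →
      CP d y0 * Pc y0 (mc d (ze E η)) s ω (ze E η) (ze E η') p ≤ 7 / 100 := by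
    intro p hp hpE
    have hp1 := mem_Ports.1 hp
    have h1 := Pc_le hn hz h hz' h' hmm (s := s) (ω := ω) hp1 hτ0 hτr hτ2
    have h2 : ∀ t : ℝ, K / n ≤ t → t ≤ 1 → SpecA.Vp rs p s ω (ze E t) ≤ C1A * s ^ 2 + δA := by
      intro t ht1 ht2
      by_contra hc
      exact hpE (Finset.mem_filter.2 ⟨hp, t, ht1, ht2, not_le.1 hc⟩)
    have h3 := h2 η hη hη1
    have h4 := h2 η' hη' hη1'
    have h5 : (SpecA.Vp rs p s ω (ze E η) + SpecA.Vp rs p s ω (ze E η')) / τ ^ 2 ≤ dP := by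
      rw [div_le_iff₀ (by positivity)]
      linarith
    calc CP d y0 * Pc y0 (mc d (ze E η)) s ω (ze E η) (ze E η') p ≤ CP d y0 * dP :=
          mul_le_mul_of_nonneg_left (h1.trans h5) hCP.le
      _ = 7 / 100 := by rw [hdP]; field_simp
  -- second moment
  have hX2 := sm_D (n := n) (d := d) h hκ2 hn s ω (z := ze E η) (z' := ze E η') (K := K) (ε := e1)
    hK0 (by rw [hzi]; exact hη) (by rw [hzi]; exact hη') F1b1 F1b2
  -- bad moves
  have hMv0 : (0 : ℝ) < (Fintype.card (Mv1 n d) : ℝ) := by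
    have : Nonempty (HE n d) := ⟨(⟨0, hn⟩, ⟨0, Nat.pos_of_ne_zero (NeZero.ne d)⟩)⟩
    exact_mod_cast Fintype.card_pos
  have hX3 : ∑ p ∈ Ports n d, (beta ε3 (ze E η) (ze E η) s ω p +
      beta ε3 (ze E η) (ze E η') s ω p) ≤ (2 * ε3) * (Ports n d).card := by
    rw [Finset.sum_add_distrib]
    have hb : ∀ t : ℝ, ∑ p ∈ Ports n d, ((Finset.univ.filter fun mv : Mv1 n d =>
          ¬ rho (B0 (bsw 1 p mv).1 s ω (ze E t) mv.1 0 0)
            (cav (ze E η) (s * ω mv.1.1) fun j : Fin (d - 1) =>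
              B0 p s ω (ze E t) (mv.2 (kk d j)) 0 0) ≤ ε3).card : ℝ) ≤
        ε3 * (Fintype.card (Mv1 n d) : ℝ) * (Ports n d).card →
        ∑ p ∈ Ports n d, beta ε3 (ze E η) (ze E t) s ω p ≤ ε3 * (Ports n d).card := by
      intro t ht
      unfold beta
      rw [← Finset.sum_div, div_le_iff₀ hMv0]
      refine le_trans (le_of_eq ?_) (ht.trans (le_of_eq (by ring)))
      refine Finset.sum_congr rfl fun p _ => ?_
      congr!
    have h1 := hb η (le_trans (le_of_eq (by congr!)) O1)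
    have h2 := hb η' (le_trans (le_of_eq (by congr!)) O2)
    linarith
  have hV := sum_V_le hd hn hz h hz' hsr hω hε30.le hε31 Exc hExc2 hX1 hX2 hX3
  -- `Σ V ≤ εV #Ports`
  have hd2 : 8 * BB y0 ^ 2 * (2 * del2 n d y0 κ2 K e1 + 2 * (J2 / n)) * (10 * CQ d y0) ≤
      εV / 4 := by
    have t1 : 8 * CS y0 κ2 * cL d / BB y0 / K ≤ e4 := div_le_of (by positivity) he40 hKf
    have hnNf : (Nf : ℝ) ≤ n := by exact_mod_cast (by omega : Nf ≤ n)
    have t2 : 4 * cL d / n ≤ e4 := div_le_of (by positivity) he40 (hNf1.trans hnNf)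
    have t3 : 2 * J2 / n ≤ e4 := div_le_of (by positivity) he40 (hNf2.trans hnNf)
    have t4 : 4 * e1 = e4 := by rw [he1, he4]; ring
    have t5 : 2 * del2 n d y0 κ2 K e1 + 2 * (J2 / n) ≤ 4 * e4 := by
      unfold del2
      have u1 : 2 * ((4 * CS y0 κ2 * cL d / K) / BB y0) = 8 * CS y0 κ2 * cL d / BB y0 / K := by
        field_simp
        ring
      have u2 : 2 * (2 * cL d / (n * d)) ≤ 4 * cL d / n := by
        have : 2 * (2 * cL d / (n * d)) = 4 * cL d / (n * d) := by ring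
        rw [this]
        exact div_le_div_of_nonneg_left (mul_nonneg (by norm_num) hcL) hn'
          (le_mul_of_one_le_right hn'.le hd1)
      have u3 : 2 * (J2 / n) = 2 * J2 / n := by ring
      have u4 : 2 * ((4 * CS y0 κ2 * cL d / K) / BB y0 + 2 * cL d / (n * d) + 2 * e1) =
          2 * ((4 * CS y0 κ2 * cL d / K) / BB y0) + 2 * (2 * cL d / (n * d)) + 4 * e1 := by ring
      rw [u4, u1, u3, t4]
      linarith
    calc 8 * BB y0 ^ 2 * (2 * del2 n d y0 κ2 K e1 + 2 * (J2 / n)) * (10 * CQ d y0)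
        = A0 * (2 * del2 n d y0 κ2 K e1 + 2 * (J2 / n)) := by rw [hA0def]; ring
      _ ≤ A0 * (4 * e4) := mul_le_mul_of_nonneg_left t5 hA00.le
      _ = εV / 4 := by rw [he4]; field_simp; ring
  have hVf : ∑ p ∈ Ports n d, Vc y0 (mc d (ze E η)) s ω (ze E η) (ze E η') p ≤
      εV * (Ports n d).card := by
    refine hV.trans (mul_le_mul_of_nonneg_right ?_ hNP)
    have e : 10 * (CP d y0 * C3 (d - 1) y0 * δA + CQ d y0 * (8 * BB y0 ^ 2 *
        (2 * del2 n d y0 κ2 K e1 + 2 * (J2 / n)) + ε3 + 2 * ε3)) =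
        10 * (CP d y0 * C3 (d - 1) y0 * δA) +
        8 * BB y0 ^ 2 * (2 * del2 n d y0 κ2 K e1 + 2 * (J2 / n)) * (10 * CQ d y0) +
        10 * (CQ d y0 * (3 * ε3)) := by ring
    refine (le_of_eq e).trans ?_
    linarith
  -- blocks
  have hB' : ∀ B B' : Matrix (Fin 2) (Fin 2) ℂ,
      Fine κ1 B → Fine κ1 B' → ‖cavB B 0 1‖ ≤ δ → ‖cavB B' 0 1‖ ≤ δ →
      rho (cavB B 0 0) (cavB B' 0 0) ≤ δ → rho (cavB B 1 1) (cavB B' 1 1) ≤ δ →
      bnorm (B - B') ≤ ε / 2 := fun B B' g1 g2 g3 g4 g5 g6 =>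
    HB B B' g1 g2 (g3.trans hδB') (g4.trans hδB') (g5.trans hδB') (g6.trans hδB')
  have hbs : ∀ p ∈ Ports n d, ∑ x : HE n d, min 1 (bnorm (BE p s ω (ze E η) x -
      BE p s ω (ze E η') x)) ≤
      (n * d : ℝ) * (ε / 2) + (nbad κ1 p s ω (ze E η) + nbad κ1 p s ω (ze E η')) +
        (1 / δ ^ 2) * (∑ x : HE n d, min 1 (‖B0 p s ω (ze E η) x 0 1‖ ^ 2) +
          ∑ x : HE n d, min 1 (‖B0 p s ω (ze E η') x 0 1‖ ^ 2)) +
        (2 / δ ^ 2) * ((n * d : ℝ) * Vc y0 (mc d (ze E η)) s ω (ze E η) (ze E η') p) :=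
    fun p hp => block_sum h hn (by positivity) hδ0 hδ1 hB' (mem_Ports.1 hp) s ω
  refine (Finset.sum_le_sum hbs).trans ?_
  rw [Finset.sum_add_distrib, Finset.sum_add_distrib, Finset.sum_add_distrib,
    Finset.sum_add_distrib, Finset.sum_const, nsmul_eq_mul, ← Finset.mul_sum,
    Finset.sum_add_distrib, ← Finset.mul_sum, ← Finset.mul_sum]
  have hnd : (0 : ℝ) < n * d := by positivity
  have v1 := mul_le_mul_of_nonneg_left (add_le_add F21 F22)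
    (show (0 : ℝ) ≤ 1 / δ ^ 2 by positivity)
  have v2 := mul_le_mul_of_nonneg_left (mul_le_mul_of_nonneg_left hVf hnd.le)
    (show (0 : ℝ) ≤ 2 / δ ^ 2 by positivity)
  have v3 : 1 / δ ^ 2 * (δ ^ 2 * ε / 16 * (n * d) * (Ports n d).card +
      δ ^ 2 * ε / 16 * (n * d) * (Ports n d).card) = ε / 8 * (n * d) * (Ports n d).card := by
    field_simp; ring
  have v4 : 2 / δ ^ 2 * (n * d * (εV * (Ports n d).card)) =
      ε / 8 * (n * d) * (Ports n d).card := by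
    rw [hεV]; field_simp; ring
  rw [v3] at v1
  rw [v4] at v2
  have v5 : ∑ p ∈ Ports n d, nbad κ1 p s ω (ze E η) ≤ ε / 16 * (n * d) * (Ports n d).card :=
    F1a1
  have v6 : ∑ p ∈ Ports n d, nbad κ1 p s ω (ze E η') ≤ ε / 16 * (n * d) * (Ports n d).card :=
    F1a2
  have v7 : 0 ≤ ε * (n * d) * (Ports n d).card := by positivity
  linarith

/-- **F3** -/
theorem f3From (d : ℕ) : F3From d := by
  intro hd hF1 hF2 hT A hA0 hA
  have : NeZero d := ⟨by omega⟩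
  exact f3P hd hA0 hA hF1 hF2 hT

end Crest.Agent.R166.F3Fin798
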