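import Crest.Agent.R166.PhiLimB_85
import Crest.Agent.R166.TreeG_879
import Crest.Agent.R166.LimEnv_289
import Crest.Agent.R166.SimpleP_356

/-!
Row 166 (helper85), F4, part C: the tree edge block, law of large numbers for functions of the
edge blocks at fixed energies, and the three facts about the iid environment law which follow from
`LocLim`, `NonDeg`, `ImFix`.
-/

set_option autoImplicit false

open MeasureTheory ProbabilityTheory Filter Topology

namespace Crest.Agent.R166.PhiLim85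

open Crest.ProbabilityR.RandomMatrix
open Crest.Agent.R166 Crest.Agent.R166.B2 Crest.Agent.R166.Words955 Crest.Agent.R166.TreeG879
open Crest.Agent.R166.EnvLaw289 Crest.Agent.R166.LLN289 Crest.Agent.R166.LimEnv289
open Crest.Agent.R166.Seq980
open Crest.Agent.R166.TreeDefs350 (unif)

abbrev M2 : Type := Matrix (Fin 2) (Fin 2) ℂ

section block
variable {d : ℕ} [NeZero d]

/-- the edge block of the tree at the root edge -/
noncomputable def BT (s : ℝ) (z : ℂ) (om : TW d → ℝ) : M2 :=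
  blk2 (cav s z om) (cav s z (om ∘ TW.cr))

lemma BT_00 (s : ℝ) {z : ℂ} (hz : 0 < z.im) (om : TW d → ℝ) :
    BT s z om 0 0 = treeG s z om TW.nil TW.nil := by
  unfold BT
  rw [blk2_00, div_eq_iff (one_sub_cav_ne s om hz)]
  exact (treeG_uu s om hz).symm

lemma BT_11 (s : ℝ) {z : ℂ} (hz : 0 < z.im) (om : TW d → ℝ) :
    BT s z om 1 1 = treeG s z om (TW.single 0) (TW.single 0) := by
  unfold BT
  rw [blk2_11, div_eq_iff (one_sub_cav_ne s om hz)]
  exact (treeG_vv s om hz).symm

lemma BT_10 (s : ℝ) {z : ℂ} (hz : 0 < z.im) (om : TW d → ℝ) :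
    BT s z om 1 0 = treeG s z om (TW.single 0) TW.nil := by
  unfold BT
  rw [blk2_10, treeG_vu s om hz, div_eq_iff (one_sub_cav_ne s om hz)]
  have := treeG_uu s om hz
  linear_combination (cav s z (om ∘ TW.cr)) * this

lemma BT_01 (s : ℝ) {z : ℂ} (hz : 0 < z.im) (om : TW d → ℝ) :
    BT s z om 0 1 = treeG s z om TW.nil (TW.single 0) := by
  rw [treeG_symm s hz, ← BT_10 s hz]
  unfold BT
  rw [blk2_10, blk2_01]

/-- the root and the other end of the root edge -/
def rt2 (d : ℕ) [NeZero d] : Fin 2 → TW d := ![TW.nil, TW.single 0]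

lemma BT_apply (s : ℝ) {z : ℂ} (hz : 0 < z.im) (om : TW d → ℝ) (a b : Fin 2) :
    BT s z om a b = treeG s z om (rt2 d a) (rt2 d b) := by
  fin_cases a <;> fin_cases b
  · exact BT_00 s hz om
  · exact BT_01 s hz om
  · exact BT_10 s hz om
  · exact BT_11 s hz om

lemma len_rt2 (a : Fin 2) : (rt2 d a).len ≤ 1 := by
  fin_cases a
  · change (TW.nil : TW d).len ≤ 1
    simp [TW.len, TW.nil]
  · change (TW.single (0 : Fin d)).len ≤ 1
    simp [TW.len, TW.single]

lemma continuous_BT (s : ℝ) {z : ℂ} (hz : 0 < z.im) :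
    Continuous fun om : TW d → ℝ => BT s z om := by
  refine continuous_matrix fun a b => ?_
  simp only [BT_apply s hz]
  exact continuous_treeG s hz _ _

lemma bnorm_le {B : M2} {r : ℝ} (h : ∀ a b, ‖B a b‖ ≤ r) : bnorm B ≤ r := by
  unfold bnorm
  exact max_le (max_le (h 0 0) (h 0 1)) (max_le (h 1 0) (h 1 1))

lemma bnorm_nonneg (B : M2) : 0 ≤ bnorm B := (norm_nonneg _).trans (entry_le_bnorm B 0 0)

lemma bnorm_add_le (A B : M2) : bnorm (A + B) ≤ bnorm A + bnorm B :=
  bnorm_le fun a b => (norm_add_le _ _).trans (add_le_add (entry_le_bnorm A a b)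
    (entry_le_bnorm B a b))

lemma bnorm_neg (B : M2) : bnorm (-B) = bnorm B := by simp [bnorm]

lemma bnorm_sub_comm (A B : M2) : bnorm (A - B) = bnorm (B - A) := by
  rw [← bnorm_neg, neg_sub]

lemma bnorm_tri (A B C : M2) : bnorm (A - C) ≤ bnorm (A - B) + bnorm (B - C) := by
  have := bnorm_add_le (A - B) (B - C)
  simpa using this

/-- comparison with the graph block -/
theorem blk_close {n : ℕ} {p : Equiv.Perm (HE n d)} (hp : IsPort p) (s : ℝ) (om : Fin n → ℝ)
    (hom : ∀ v, |om v| ≤ 1) (h : HE n d) {R : ℕ} (hR : Set.InjOn (vx p h) {w | w.len ≤ R})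
    {z : ℂ} (hz : 0 < z.im) {ε : ℝ} (hε : 0 < ε) (hr : 1 + rad d s z ε ≤ R) :
    bnorm (Blk (Res (Hm (graphOf p) s om) z) h.1 (p h).1 -
      BT s z (fun w => om (vx p h w))) ≤ 2 * ε := by
  have hv : ∀ a : Fin 2, ![h.1, (p h).1] a = vx p h (rt2 d a) := by
    intro a
    fin_cases a
    · rfl
    · change (p h).1 = (walk p [0] h).1
      simp [walk]
  refine bnorm_le fun a b => ?_
  rw [Matrix.sub_apply, BT_apply s hz, norm_sub_rev]
  have e : Blk (Res (Hm (graphOf p) s om) z) h.1 (p h).1 a b =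
      Res (Hm (graphOf p) s om) z (vx p h (rt2 d a)) (vx p h (rt2 d b)) := by
    unfold Blk
    rw [Matrix.submatrix_apply, hv, hv]
  rw [e]
  have h1 := len_rt2 (d := d) a
  have h2 := len_rt2 (d := d) b
  exact treeG_sub_Res hp s om hom h hR hz hε (by omega) (by omega)

/-- truncation of the environment to a ball -/
def trc (R : ℕ) (om : TW d → ℝ) : TW d → ℝ := fun w => if w.len ≤ R then om w else 0

lemma continuous_trc (R : ℕ) : Continuous (trc R : (TW d → ℝ) → TW d → ℝ) := by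
  refine continuous_pi fun w => ?_
  unfold trc
  split_ifs
  · exact continuous_apply w
  · exact continuous_const

theorem BT_trc (s : ℝ) (om : TW d → ℝ) {R : ℕ} {z : ℂ} (hz : 0 < z.im) {ε : ℝ} (hε : 0 < ε)
    (hr : 1 + rad d s z ε ≤ R) : bnorm (BT s z om - BT s z (trc R om)) ≤ 2 * ε := by
  classical
  refine bnorm_le fun a b => ?_
  rw [Matrix.sub_apply, BT_apply s hz, BT_apply s hz]
  have h1 := len_rt2 (d := d) a
  refine L2G879.Op.norm_G_sub_G_le (tOp s om) (tOp s (trc R om)) id (rt2 d b)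
    (fun k x => x.len + k ≤ R + 1) ?_ ?_ ?_ hz hε (x := rt2 d a) ?_
  · intro k x hx
    refine ⟨by omega, fun x' hx' => ?_⟩
    have := len_le_of_nbT hx'
    omega
  · intro k x hx
    refine ⟨by simp, by simp [Set.injOn_id], ?_⟩
    have : x.len ≤ R := by omega
    simp [trc, this]
  · intro x _; exact Iff.rfl
  · have h2 : L2G879.Op.rad d |s| z ε = rad d s z ε := rfl
    rw [h2]; omega

end block

/-! ### Law of large numbers for functions of the blocks at two fixed energies -/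

section lln
variable {d : ℕ} [NeZero d]

lemma bad_port (d R : ℕ) [NeZero d] {ε δ : ℝ} (hε : 0 < ε) (hδ : 0 < δ) :
    ∃ N : ℕ, ∀ n ≥ N, portLaw d n {x | ε * (n * d) < ((badH x.1 R).card : ℝ)} ≤
      ENNReal.ofReal δ := by
  classical
  have hd0 : 0 < d := Nat.pos_of_ne_zero (NeZero.ne d)
  have hd0' : (0 : ℝ) < d := by exact_mod_cast hd0
  obtain ⟨N, hN⟩ := TreeLike942.tree_whp_Ports d R hd0 ε δ hε hδ
  refine ⟨N, fun n hn => ?_⟩
  set Pb := (Ports n d).filter fun p => ε * (n * d) < ((badH p R).card : ℝ) with hPb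
  have h4 : (Pb.card : ℝ) ≤ δ * ((Ports n d).card : ℝ) := by
    refine hN n hn Pb (Finset.filter_subset _ _) fun p hp => ?_
    have h5 := (Finset.mem_filter.1 hp).2
    have h6 : ((badH p R).card : ℝ) ≤
        (Nat.card {v : Fin n // ¬ TreeLike942.TreeAt Prod.fst p R v} : ℝ) * d := by
      exact_mod_cast card_badH_le p R
    have h7 : ε * n * d ≤
        (Nat.card {v : Fin n // ¬ TreeLike942.TreeAt Prod.fst p R v} : ℝ) * d := by
      calc ε * n * d = ε * (n * d) := by ring
        _ ≤ _ := h5.le.trans h6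
    exact le_of_mul_le_mul_right h7 hd0'
  rw [portLaw_apply]
  have h1 : ∀ p ∈ Ports n d, (potentialLaw n) {ω | (p, ω) ∈
      {x : PS d n | ε * (n * d) < ((badH x.1 R).card : ℝ)}} =
      if ε * (n * d) < ((badH p R).card : ℝ) then 1 else 0 := by
    intro p _
    have hpr : IsProbabilityMeasure (potentialLaw n) := by
      rw [LimEnv289.potentialLaw_eq]; infer_instance
    split_ifs with h
    · have : {ω : Fin n → ℝ | (p, ω) ∈
        {x : PS d n | ε * (n * d) < ((badH x.1 R).card : ℝ)}} = Set.univ := by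
        ext ω; simp [h]
      rw [this, measure_univ]
    · have : {ω : Fin n → ℝ | (p, ω) ∈
        {x : PS d n | ε * (n * d) < ((badH x.1 R).card : ℝ)}} = ∅ := by
        ext ω; simp [h]
      rw [this, measure_empty]
  rw [Finset.sum_congr rfl h1, ← Finset.sum_filter, Finset.sum_const, nsmul_eq_mul, mul_one]
  rcases Nat.eq_zero_or_pos (Ports n d).card with h0 | h0
  · have : ((Ports n d).filter fun p => ε * (n * d) < ((badH p R).card : ℝ)).card = 0 := by
      have := Finset.card_filter_le (Ports n d) fun p => ε * (n * d) < ((badH p R).card : ℝ)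
      omega
    rw [this]; simp
  · have h2 : ((Ports n d).card : ENNReal) ≠ 0 := by exact_mod_cast h0.ne'
    have h3 : ((Ports n d).card : ENNReal) ≠ ⊤ := ENNReal.natCast_ne_top _
    have h11 : (Pb.card : ENNReal) ≤ ENNReal.ofReal δ * ((Ports n d).card : ENNReal) := by
      rw [← ENNReal.ofReal_natCast, ← ENNReal.ofReal_natCast,
        ← ENNReal.ofReal_mul (by positivity)]
      exact ENNReal.ofReal_le_ofReal h4
    calc ((Ports n d).card : ENNReal)⁻¹ * (Pb.card : ENNReal)
        ≤ ((Ports n d).card : ENNReal)⁻¹ * (ENNReal.ofReal δ * ((Ports n d).card : ENNReal)) := by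
          gcongr
      _ = ENNReal.ofReal δ := by
          rw [mul_comm (ENNReal.ofReal δ), ← mul_assoc, ENNReal.inv_mul_cancel h2 h3, one_mul]

/-- Lipschitz functions of two blocks -/
structure Lip2 (L : ℝ) (Φ : M2 → M2 → ℝ) : Prop where
  nn : 0 ≤ L
  bd : ∀ A B, |Φ A B| ≤ 1
  lip : ∀ A A' B B', |Φ A B - Φ A' B'| ≤ L * (bnorm (A - A') + bnorm (B - B'))

lemma continuous_bnorm : Continuous bnorm := by
  unfold bnorm
  exact (((continuous_id.matrix_elem 0 0).norm.max (continuous_id.matrix_elem 0 1).norm)).max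
    ((continuous_id.matrix_elem 1 0).norm.max (continuous_id.matrix_elem 1 1).norm)

lemma Lip2.continuous {L : ℝ} {Φ : M2 → M2 → ℝ} (h : Lip2 L Φ) {X : Type*} [TopologicalSpace X]
    {f g : X → M2} (hf : Continuous f) (hg : Continuous g) : Continuous fun x => Φ (f x) (g x) := by
  rw [continuous_iff_continuousAt]
  intro x
  have h1 : Tendsto (fun y => L * (bnorm (f y - f x) + bnorm (g y - g x))) (𝓝 x) (𝓝 0) := by
    have hf' : Continuous fun y => bnorm (f y - f x) :=
      continuous_bnorm.comp (hf.sub continuous_const)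
    have hg' : Continuous fun y => bnorm (g y - g x) :=
      continuous_bnorm.comp (hg.sub continuous_const)
    have := (continuous_const.mul (hf'.add hg')).tendsto (x := x) (f := fun y =>
      L * (bnorm (f y - f x) + bnorm (g y - g x)))
    simpa [bnorm] using this
  rw [ContinuousAt, tendsto_iff_dist_tendsto_zero]
  refine squeeze_zero (fun _ => dist_nonneg) (fun y => ?_) h1
  rw [Real.dist_eq]
  exact h.lip _ _ _ _

/-- the function of the blocks read off the environment -/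
noncomputable def PhiE (s : ℝ) (z1 z2 : ℂ) (Φ : M2 → M2 → ℝ) (ξ : Conf d (Fin d × ℝ)) : ℝ :=
  Φ (BT s z1 (omOf id ξ)) (BT s z2 (omOf id ξ))

/-- its local version -/
noncomputable def PhiR (s : ℝ) (z1 z2 : ℂ) (Φ : M2 → M2 → ℝ) (R : ℕ) (ξ : Conf d (Fin d × ℝ)) :
    ℝ :=
  Φ (BT s z1 (trc R (omOf id ξ))) (BT s z2 (trc R (omOf id ξ)))

/-- average of a function of the blocks over the half-edges -/
noncomputable def bAvg {n : ℕ} (s : ℝ) (z1 z2 : ℂ) (Φ : M2 → M2 → ℝ) (x : PS d n) : ℝ :=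
  (∑ h : HE n d, Φ (Blk (Res (Hm (graphOf x.1) s x.2) z1) h.1 (x.1 h).1)
    (Blk (Res (Hm (graphOf x.1) s x.2) z2) h.1 (x.1 h).1)) / (n * d)

theorem bAvg_eq {n : ℕ} (s : ℝ) (z1 z2 : ℂ) (Φ : M2 → M2 → ℝ) {x : PS d n} (hx : IsPort x.1) :
    bAvg s z1 z2 Φ x = eAvg (graphOf x.1) fun u w =>
      Φ (Blk (Res (Hm (graphOf x.1) s x.2) z1) u w) (Blk (Res (Hm (graphOf x.1) s x.2) z2) u w) := by
  rw [hx.eAvg_graphOf]; rfl

theorem lln_two (s : ℝ) {z1 z2 : ℂ} (h1 : 0 < z1.im) (h2 : 0 < z2.im) {L : ℝ}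
    {Φ : M2 → M2 → ℝ} (hΦ : Lip2 L Φ) {ε δ : ℝ} (hε : 0 < ε) (hδ : 0 < δ) :
    ∃ N : ℕ, ∀ n ≥ N, portLaw d n {x | ε < |bAvg s z1 z2 Φ x -
      ∫ ξ, PhiE s z1 z2 Φ ξ ∂(envLaw d unif)|} ≤ ENNReal.ofReal δ := by
  classical
  have hd0 : 0 < d := Nat.pos_of_ne_zero (NeZero.ne d)
  have hd0' : (0 : ℝ) < d := by exact_mod_cast hd0
  set e1 : ℝ := ε / (32 * (L + 1)) with he1
  have hL0 := hΦ.nn
  have he1p : 0 < e1 := by positivity
  have hLe : L * (8 * e1) ≤ ε / 4 := by
    rw [he1]
    have : L * (8 * (ε / (32 * (L + 1)))) = (ε / 4) * (L / (L + 1)) := by field_simp; ring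
    rw [this]
    have h3 : L / (L + 1) ≤ 1 := by rw [div_le_one (by positivity)]; linarith
    calc ε / 4 * (L / (L + 1)) ≤ ε / 4 * 1 := by gcongr
      _ = ε / 4 := mul_one _
  obtain ⟨R, hR1, hR2⟩ : ∃ R : ℕ, 1 + rad d s z1 e1 ≤ R ∧ 1 + rad d s z2 e1 ≤ R :=
    ⟨max (1 + rad d s z1 e1) (1 + rad d s z2 e1), le_max_left _ _, le_max_right _ _⟩
  have hcR : Continuous (PhiR (d := d) s z1 z2 Φ R) := by
    have hc : Continuous fun ξ : Conf d (Fin d × ℝ) => trc R (omOf id ξ) :=
      (continuous_trc R).comp (continuous_omOf id continuous_id)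
    exact hΦ.continuous ((continuous_BT s h1).comp hc) ((continuous_BT s h2).comp hc)
  have hcE : Continuous (PhiE (d := d) s z1 z2 Φ) := by
    have hc : Continuous fun ξ : Conf d (Fin d × ℝ) => omOf id ξ :=
      continuous_omOf id continuous_id
    exact hΦ.continuous ((continuous_BT s h1).comp hc) ((continuous_BT s h2).comp hc)
  have hloc : Loc R (PhiR (d := d) s z1 z2 Φ R) := by
    intro ξ ξ' hξ
    have : trc R (omOf id ξ) = trc R (omOf id ξ') := by
      funext w
      unfold trc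
      split_ifs with hw
      · simp only [omOf]; rw [hξ w hw]
      · rfl
    unfold PhiR
    rw [this]
  obtain ⟨N1, hN1⟩ := lln_port d R (ε := ε / 4) (δ := δ / 2) (by positivity) (by positivity)
  obtain ⟨N2, hN2⟩ := bad_port d R (ε := ε / 8) (δ := δ / 2) (by positivity) (by positivity)
  refine ⟨max (max N1 N2) 1, fun n hn => ?_⟩
  have hn1 : N1 ≤ n := (le_max_left _ _).trans ((le_max_left _ _).trans hn)
  have hn2 : N2 ≤ n := (le_max_right _ _).trans ((le_max_left _ _).trans hn)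
  have hn3 : 1 ≤ n := (le_max_right _ _).trans hn
  have hn0 : (0 : ℝ) < n := by exact_mod_cast hn3
  have A1 := hN1 n hn1 _ hcR.measurable (fun ξ => hΦ.bd _ _) hloc
  have A2 := hN2 n hn2
  -- the integrals
  have hint : |∫ ξ, PhiR s z1 z2 Φ R ξ ∂(envLaw d unif) -
      ∫ ξ, PhiE s z1 z2 Φ ξ ∂(envLaw d unif)| ≤ ε / 4 := by
    have i1 : Integrable (PhiR (d := d) s z1 z2 Φ R) (envLaw d unif) :=
      Integrable.of_bound hcR.aestronglyMeasurable 1
        (Eventually.of_forall fun ξ => by rw [Real.norm_eq_abs]; exact hΦ.bd _ _)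
    have i2 : Integrable (PhiE (d := d) s z1 z2 Φ) (envLaw d unif) :=
      Integrable.of_bound hcE.aestronglyMeasurable 1
        (Eventually.of_forall fun ξ => by rw [Real.norm_eq_abs]; exact hΦ.bd _ _)
    rw [← integral_sub i1 i2]
    have hb : ∀ ξ : Conf d (Fin d × ℝ), ‖PhiR s z1 z2 Φ R ξ - PhiE s z1 z2 Φ ξ‖ ≤ ε / 4 := by
      intro ξ
      rw [Real.norm_eq_abs]
      refine (hΦ.lip _ _ _ _).trans (le_trans ?_ hLe)
      have b1 := BT_trc s (omOf id ξ) h1 he1p hR1
      have b2 := BT_trc s (omOf id ξ) h2 he1p hR2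
      rw [bnorm_sub_comm] at b1 b2
      gcongr
      linarith
    have := norm_integral_le_of_norm_le_const (μ := envLaw d unif) (Eventually.of_forall hb)
    simpa using this
  -- inclusion of events
  have hsub : {x : PS d n | ε < |bAvg s z1 z2 Φ x - ∫ ξ, PhiE s z1 z2 Φ ξ ∂(envLaw d unif)|} ⊆
      ({x | ε / 4 < |(∑ h, PhiR s z1 z2 Φ R (conf x.1 (lab x.2) h)) / (n * d) -
        ∫ ξ, PhiR s z1 z2 Φ R ξ ∂(envLaw d unif)|} ∪
      {x | ε / 8 * (n * d) < ((badH x.1 R).card : ℝ)}) ∪ (okSet d n)ᶜ := by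
    intro x hx
    by_contra hcon
    simp only [Set.mem_union, Set.mem_ofPred_eq, Set.mem_compl_iff, not_or, not_lt, not_not] at hcon
    obtain ⟨⟨c1, c2⟩, c3⟩ := hcon
    have hp := c3.1
    have hom : ∀ v, |x.2 v| ≤ 1 := fun v => abs_le.2 (c3.2 v)
    have hkey : |bAvg s z1 z2 Φ x -
        (∑ h, PhiR s z1 z2 Φ R (conf x.1 (lab x.2) h)) / (n * d)| ≤ ε / 4 + ε / 4 := by
      unfold bAvg
      rw [← sub_div, ← Finset.sum_sub_distrib, abs_div, abs_of_pos (by positivity : (0 : ℝ) < n * d),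
        div_le_iff₀ (by positivity)]
      refine (Finset.abs_sum_le_sum_abs _ _).trans ?_
      have hpt : ∀ h : HE n d,
          |Φ (Blk (Res (Hm (graphOf x.1) s x.2) z1) h.1 (x.1 h).1)
            (Blk (Res (Hm (graphOf x.1) s x.2) z2) h.1 (x.1 h).1) -
            PhiR s z1 z2 Φ R (conf x.1 (lab x.2) h)| ≤
          ε / 4 + (if h ∈ badH x.1 R then 2 else 0) := by
        intro h
        split_ifs with hbad
        · have b1 := hΦ.bd (Blk (Res (Hm (graphOf x.1) s x.2) z1) h.1 (x.1 h).1)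
            (Blk (Res (Hm (graphOf x.1) s x.2) z2) h.1 (x.1 h).1)
          have b2 := hΦ.bd (BT s z1 (trc R (omOf id (conf x.1 (lab x.2) h))))
            (BT s z2 (trc R (omOf id (conf x.1 (lab x.2) h))))
          have b3 := abs_sub (Φ (Blk (Res (Hm (graphOf x.1) s x.2) z1) h.1 (x.1 h).1)
            (Blk (Res (Hm (graphOf x.1) s x.2) z2) h.1 (x.1 h).1))
            (PhiR s z1 z2 Φ R (conf x.1 (lab x.2) h))
          unfold PhiR at b3 ⊢
          linarith
        · rw [add_zero]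
          have hinj : Set.InjOn (vx x.1 h) {w | w.len ≤ R} := by
            by_contra hc
            exact hbad (by
              simp only [badH, Finset.mem_filter, Finset.mem_univ, true_and]
              exact hc)
          refine (hΦ.lip _ _ _ _).trans (le_trans ?_ hLe)
          have o1 : omOf id (conf x.1 (lab x.2) h) = fun w => x.2 (vx x.1 h w) := rfl
          have b1 := blk_close hp s x.2 hom h hinj h1 he1p hR1
          have b2 := blk_close hp s x.2 hom h hinj h2 he1p hR2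
          have t1 := BT_trc s (fun w => x.2 (vx x.1 h w)) h1 he1p hR1
          have t2 := BT_trc s (fun w => x.2 (vx x.1 h w)) h2 he1p hR2
          have u1 := bnorm_tri (Blk (Res (Hm (graphOf x.1) s x.2) z1) h.1 (x.1 h).1)
            (BT s z1 (fun w => x.2 (vx x.1 h w))) (BT s z1 (trc R fun w => x.2 (vx x.1 h w)))
          have u2 := bnorm_tri (Blk (Res (Hm (graphOf x.1) s x.2) z2) h.1 (x.1 h).1)
            (BT s z2 (fun w => x.2 (vx x.1 h w))) (BT s z2 (trc R fun w => x.2 (vx x.1 h w)))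
          rw [o1]
          gcongr
          linarith
      refine (Finset.sum_le_sum fun h _ => hpt h).trans ?_
      rw [Finset.sum_add_distrib, Finset.sum_const, Finset.card_univ, IsPort.card_HE,
        nsmul_eq_mul, ← Finset.sum_filter, Finset.sum_const, nsmul_eq_mul]
      have hf : (Finset.univ.filter fun h => h ∈ badH x.1 R) = badH x.1 R := by
        ext h; simp
      rw [hf]
      push_cast
      nlinarith
    have : ε < |bAvg s z1 z2 Φ x - ∫ ξ, PhiE s z1 z2 Φ ξ ∂(envLaw d unif)| := hx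
    have htri : |bAvg s z1 z2 Φ x - ∫ ξ, PhiE s z1 z2 Φ ξ ∂(envLaw d unif)| ≤
        |bAvg s z1 z2 Φ x - (∑ h, PhiR s z1 z2 Φ R (conf x.1 (lab x.2) h)) / (n * d)| +
        |(∑ h, PhiR s z1 z2 Φ R (conf x.1 (lab x.2) h)) / (n * d) -
          ∫ ξ, PhiR s z1 z2 Φ R ξ ∂(envLaw d unif)| +
        |∫ ξ, PhiR s z1 z2 Φ R ξ ∂(envLaw d unif) -
          ∫ ξ, PhiE s z1 z2 Φ ξ ∂(envLaw d unif)| := by
      have q1 := abs_sub_le (bAvg s z1 z2 Φ x)
        ((∑ h, PhiR s z1 z2 Φ R (conf x.1 (lab x.2) h)) / (n * d))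
        (∫ ξ, PhiE s z1 z2 Φ ξ ∂(envLaw d unif))
      have q2 := abs_sub_le ((∑ h, PhiR s z1 z2 Φ R (conf x.1 (lab x.2) h)) / (n * d))
        (∫ ξ, PhiR s z1 z2 Φ R ξ ∂(envLaw d unif)) (∫ ξ, PhiE s z1 z2 Φ ξ ∂(envLaw d unif))
      linarith
    linarith
  refine (measure_mono hsub).trans ((measure_union_le _ _).trans ?_)
  rw [okSet_compl, add_zero]
  refine (measure_union_le _ _).trans ((add_le_add A1 A2).trans ?_)
  rw [← ENNReal.ofReal_add (by positivity) (by positivity), add_halves]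

end lln

end Crest.Agent.R166.PhiLim85
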