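import Crest.Agent.R166.Hinge_980
import Crest.Agent.R166.PhiLimC_85

/-!
# Row 166 (helper487), F5 part (a): the violated quantity in the limit

On the events of the extracted sequence the quantity of Theorem B at a fixed spectral parameter is
close to the integral of a bounded continuous function of the configuration against the empirical
law, hence the integral against the limit law `S.P` is bounded away from zero.
-/

set_option autoImplicit false
set_option linter.unusedSectionVars false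

open MeasureTheory Filter Topology

namespace Crest.Agent.R166.F5a487

open Crest.ProbabilityR.RandomMatrix
open Crest.Agent.R166 Crest.Agent.R166.Words955 Crest.Agent.R166.TreeG879
open Crest.Agent.R166.PhiLim85 (BT blk_close continuous_BT)
open Crest.Agent.R166.LLN289 (badH card_badH_le)
open Crest.Agent.R166.Seq980 (S1 PS col)
open Crest.Agent.R166.Hinge980 (psi viol norm_psi_le psi_uc psi_eq chi2 continuous_chi2)

variable {d k : ℕ} [NeZero d]

/-- the summand of Theorem B read off a configuration -/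
noncomputable def Psi (s E ρ η : ℝ) (τ : Fin k → Fin 2 → ℝ)
    (χ : Matrix (Fin 2) (Fin 2) ℂ → ℝ) (ξ : Conf d (S1 d k)) : ℂ :=
  psi ρ τ χ (BT s (ze E η) (omOf Prod.fst ξ)) (ξ TW.nil).2.2 (cross ξ TW.nil).2.2

theorem ze_im_pos (E : ℝ) {η : ℝ} (hη : 0 < η) : 0 < (ze E η).im := by
  have : (ze E η).im = η := by simp [ze]
  rw [this]; exact hη

theorem continuous_psi {X : Type*} [TopologicalSpace X] (ρ : ℝ) (τ : Fin k → Fin 2 → ℝ)
    {χ : Matrix (Fin 2) (Fin 2) ℂ → ℝ} (hχ : Continuous χ) {B : X → Matrix (Fin 2) (Fin 2) ℂ}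
    {x y : X → Fin k → ℝ} (hB : Continuous B) (hx : Continuous x) (hy : Continuous y) :
    Continuous fun a => psi ρ τ χ (B a) (x a) (y a) := by
  simp only [psi_eq]
  refine Continuous.sub (Continuous.mul ?_ ?_) ?_
  · exact Complex.continuous_ofReal.comp (hχ.comp hB)
  · refine Complex.continuous_exp.comp (continuous_const.mul (Complex.continuous_ofReal.comp ?_))
    refine continuous_finsetSum _ fun i _ => ?_
    exact (continuous_const.mul ((continuous_apply i).comp hx)).add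
      (continuous_const.mul ((continuous_apply i).comp hy))
  · exact Complex.continuous_ofReal.comp ((continuous_chi2 ρ τ hχ).comp hB)

theorem continuous_Psi (s E ρ : ℝ) {η : ℝ} (hη : 0 < η) (τ : Fin k → Fin 2 → ℝ)
    {χ : Matrix (Fin 2) (Fin 2) ℂ → ℝ} (hχ : Continuous χ) :
    Continuous (Psi (d := d) s E ρ η τ χ) := by
  have h1 : Continuous fun ξ : Conf d (S1 d k) => BT s (ze E η) (omOf Prod.fst ξ) :=
    (continuous_BT s (ze_im_pos E hη)).comp
      (continuous_omOf (d := d) (T := ℝ × (Fin k → ℝ)) Prod.fst continuous_fst)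
  have h2 : ∀ w : TW d, Continuous fun ξ : Conf d (S1 d k) => (ξ w).2.2 := fun w =>
    continuous_snd.comp (continuous_snd.comp (continuous_apply w))
  exact continuous_psi ρ τ hχ h1 (h2 TW.nil) (h2 (TW.cr TW.nil))

/-- values on the configurations of a sample -/
theorem Psi_conf (s E ρ η : ℝ) (τ : Fin k → Fin 2 → ℝ) (χ : Matrix (Fin 2) (Fin 2) ℂ → ℝ)
    {n : ℕ} (x : PS d n) (F : Fin k → Fin n → ℝ) (h : HE n d) :
    Psi s E ρ η τ χ (conf x.1 (col x.2 F) h) =
      psi ρ τ χ (BT s (ze E η) fun w => x.2 (vx x.1 h w)) (fun i => F i h.1)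
        (fun i => F i (x.1 h).1) := by
  have h1 : (cross (conf (⇑x.1) (col x.2 F) h) TW.nil).2.2 = fun i => F i (x.1 h).1 := by
    change (fun i => F i (walk (⇑x.1) [0] h).1) = _
    simp [walk]
  unfold Psi
  rw [h1]
  rfl

theorem viol_eq {n : ℕ} (s E ρ η : ℝ) (τ : Fin k → Fin 2 → ℝ)
    (χ : Matrix (Fin 2) (Fin 2) ℂ → ℝ) {p : Equiv.Perm (HE n d)} (hp : IsPort p)
    (om : Fin n → ℝ) (F : Fin k → Fin n → ℝ) :
    viol s E ρ η τ χ (graphOf p) om F =
      (∑ h : HE n d, psi ρ τ χ (Blk (Res (Hm (graphOf p) s om) (ze E η)) h.1 (p h).1)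
        (fun i => F i h.1) (fun i => F i (p h).1)) / ((n * d : ℕ) : ℂ) := by
  unfold viol
  rw [hp.sum_darts, hp.card_darts]

/-- comparison on the sample -/
theorem viol_close {n : ℕ} (hn : 0 < n) {s E ρ η : ℝ} (hη : 0 < η) {τ : Fin k → Fin 2 → ℝ}
    {χ : Matrix (Fin 2) (Fin 2) ℂ → ℝ} {C θ δ : ℝ} (hC : 0 < C)
    (hCb : ∀ B x y, ‖psi ρ τ χ B x y‖ ≤ C) (hθ : 0 < θ) (hδ : 0 < δ)
    (huc : ∀ B B', bnorm (B - B') ≤ δ → ∀ x y, ‖psi ρ τ χ B x y - psi ρ τ χ B' x y‖ ≤ θ)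
    {R : ℕ} (hR : 1 + rad d s (ze E η) (δ / 2) ≤ R) {x : PS d n} (hp : IsPort x.1)
    (hom : ∀ v, |x.2 v| ≤ 1) (F : Fin k → Fin n → ℝ) {β : ℝ}
    (hbad : ((badH x.1 R).card : ℝ) ≤ β * (n * d)) :
    ‖viol s E ρ η τ χ (graphOf x.1) x.2 F -
      (∑ h : HE n d, Psi s E ρ η τ χ (conf x.1 (col x.2 F) h)) / ((n * d : ℕ) : ℂ)‖ ≤
      θ + 2 * C * β := by
  classical
  have hd : 0 < d := Nat.pos_of_ne_zero (NeZero.ne d)
  have hnd : (0 : ℝ) < (n : ℝ) * d := by positivity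
  rw [viol_eq s E ρ η τ χ hp, ← sub_div, ← Finset.sum_sub_distrib, norm_div]
  have hcard : ‖((n * d : ℕ) : ℂ)‖ = (n : ℝ) * d := by
    rw [Complex.norm_natCast]; push_cast; rfl
  rw [hcard, div_le_iff₀ hnd]
  refine (norm_sum_le _ _).trans ?_
  have hpt : ∀ h : HE n d,
      ‖psi ρ τ χ (Blk (Res (Hm (graphOf x.1) s x.2) (ze E η)) h.1 (x.1 h).1)
        (fun i => F i h.1) (fun i => F i (x.1 h).1) -
        Psi s E ρ η τ χ (conf x.1 (col x.2 F) h)‖ ≤
      θ + (if h ∈ badH x.1 R then 2 * C else 0) := by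
    intro h
    rw [Psi_conf]
    split_ifs with hb
    · refine (norm_sub_le _ _).trans ?_
      have b1 := hCb (Blk (Res (Hm (graphOf x.1) s x.2) (ze E η)) h.1 (x.1 h).1)
        (fun i => F i h.1) (fun i => F i (x.1 h).1)
      have b2 := hCb (BT s (ze E η) fun w => x.2 (vx x.1 h w))
        (fun i => F i h.1) (fun i => F i (x.1 h).1)
      linarith
    · rw [add_zero]
      have hinj : Set.InjOn (vx x.1 h) {w | w.len ≤ R} := by
        by_contra hc
        exact hb (by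
          simp only [badH, Finset.mem_filter, Finset.mem_univ, true_and]
          exact hc)
      refine huc _ _ ?_ _ _
      refine (blk_close hp s x.2 hom h hinj (ze_im_pos E hη) (half_pos hδ) hR).trans ?_
      linarith
  refine (Finset.sum_le_sum fun h _ => hpt h).trans ?_
  rw [Finset.sum_add_distrib, Finset.sum_const, Finset.card_univ, IsPort.card_HE,
    nsmul_eq_mul, ← Finset.sum_filter, Finset.sum_const, nsmul_eq_mul]
  have hf : (Finset.univ.filter fun h => h ∈ badH x.1 R) = badH x.1 R := by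
    ext h; simp
  rw [hf]
  push_cast
  nlinarith

theorem integral_emp_eq {n : ℕ} (f : Conf d (S1 d k) → ℂ) (hf : Continuous f) (x : PS d n)
    (F : Fin k → Fin n → ℝ) :
    ∫ ξ, f ξ ∂(emp x.1 (col x.2 F)) =
      (∑ h : HE n d, f (conf x.1 (col x.2 F) h)) / ((n * d : ℕ) : ℂ) := by
  rw [Seq980.integral_emp x.1 (col x.2 F) f hf.stronglyMeasurable, IsPort.card_HE,
    div_eq_inv_mul, Complex.real_smul]
  push_cast
  rfl

/-- convergence of the integrals of complex bounded continuous functions -/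
theorem lim_complex (S : Seq980.Seq d k) {f : Conf d (S1 d k) → ℂ} (hf : Continuous f) {C : ℝ}
    (hC : ∀ ξ, ‖f ξ‖ ≤ C) {δ : ℝ} (hδ : 0 < δ) : ∀ᶠ j in atTop, ∀ x ∈ S.U j,
      ‖∫ ξ, f ξ ∂(emp x.1 (col x.2 (S.F j x))) - ∫ ξ, f ξ ∂S.P‖ ≤ 2 * δ := by
  have hS := S.prob
  let fr : BoundedContinuousFunction (Conf d (S1 d k)) ℝ :=
    BoundedContinuousFunction.ofNormedAddCommGroup (fun ξ => (f ξ).re)
      (Complex.continuous_re.comp hf) C
      (fun ξ => (Complex.abs_re_le_norm _).trans (hC ξ))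
  let fi : BoundedContinuousFunction (Conf d (S1 d k)) ℝ :=
    BoundedContinuousFunction.ofNormedAddCommGroup (fun ξ => (f ξ).im)
      (Complex.continuous_im.comp hf) C
      (fun ξ => (Complex.abs_im_le_norm _).trans (hC ξ))
  filter_upwards [S.lim fr δ hδ, S.lim fi δ hδ] with j h1 h2 x hx
  have g1 := h1 x hx
  have g2 := h2 x hx
  have : NeZero (S.n j) := ⟨(S.pos j).ne'⟩
  have hE := Seq980.emp_prob (d := d) (n := S.n j) x.1 (col x.2 (S.F j x))
  have key : ∀ μ : Measure (Conf d (S1 d k)), IsProbabilityMeasure μ →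
      (∫ ξ, f ξ ∂μ).re = ∫ ξ, fr ξ ∂μ ∧ (∫ ξ, f ξ ∂μ).im = ∫ ξ, fi ξ ∂μ := by
    intro μ hμ
    have hi : Integrable f μ := Integrable.of_bound hf.aestronglyMeasurable C
      (Eventually.of_forall hC)
    exact ⟨(integral_re hi).symm, (integral_im hi).symm⟩
  obtain ⟨a1, a2⟩ := key _ hE
  obtain ⟨b1, b2⟩ := key _ hS
  refine (Complex.norm_le_abs_re_add_abs_im _).trans ?_
  rw [Complex.sub_re, Complex.sub_im, a1, a2, b1, b2]
  linarith

/-- **F5, part (a)** -/
theorem f5a (S : Seq980.Seq d k) {s E K' ρ : ℝ} (hX : SpecB1.Extra S s E K')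
    (τ : Fin k → Fin 2 → ℝ) (χ : Matrix (Fin 2) (Fin 2) ℂ → ℝ) (hχ : Continuous χ)
    (hs : HasCompactSupport χ) {ε : ℝ} (hε : 0 < ε) {η : ℝ} (hη : 0 < η)
    (hviol : ∀ᶠ j in atTop, ∀ x ∈ S.U j,
      ε ≤ ‖viol s E ρ η τ χ (graphOf x.1) x.2 (S.F j x)‖) :
    ε / 2 ≤ ‖∫ ξ, psi ρ τ χ (BT s (ze E η) (omOf Prod.fst ξ)) (ξ TW.nil).2.2
      (cross ξ TW.nil).2.2 ∂S.P‖ := by
  classical
  obtain ⟨C, hC, hCb⟩ := norm_psi_le ρ τ hχ hs
  obtain ⟨δ, hδ, huc⟩ := psi_uc ρ τ hχ hs (θ := ε / 8) (by positivity)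
  set R : ℕ := 1 + rad d s (ze E η) (δ / 2) with hR
  have hβ : 0 < ε / (16 * C) := by positivity
  obtain ⟨j, h1, h2, h3⟩ := (hviol.and ((hX.tree R _ hβ).and
    (lim_complex S (continuous_Psi s E ρ hη τ hχ) (C := C) (fun ξ => hCb _ _ _)
      (δ := ε / 8) (by positivity)))).exists
  obtain ⟨x, hx⟩ := S.nonempty j
  have g1 := h1 x hx
  have g2 := h2 x hx
  have g3 := h3 x hx
  have hbad : ((badH x.1 R).card : ℝ) ≤ ε / (16 * C) * ((S.n j : ℝ) * d) := by
    have h4 : ((badH x.1 R).card : ℝ) ≤ (SpecB1.nonTree R x.1 : ℝ) * d := by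
      exact_mod_cast card_badH_le x.1 R
    calc ((badH x.1 R).card : ℝ) ≤ (SpecB1.nonTree R x.1 : ℝ) * d := h4
      _ ≤ (ε / (16 * C) * S.n j) * d := mul_le_mul_of_nonneg_right g2 (Nat.cast_nonneg _)
      _ = _ := by ring
  have g4 := viol_close (S.pos j) hη hC hCb (by positivity) hδ huc le_rfl (S.port j x hx)
    (fun v => abs_le.2 (S.om j x hx v)) (S.F j x) hbad
  rw [← integral_emp_eq _ (continuous_Psi s E ρ hη τ hχ) x (S.F j x)] at g4
  have e1 : 2 * C * (ε / (16 * C)) = ε / 8 := by field_simp; ring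
  rw [e1] at g4
  change ε / 2 ≤ ‖∫ ξ, Psi s E ρ η τ χ ξ ∂S.P‖
  have t1 := norm_sub_norm_le (viol s E ρ η τ χ (graphOf x.1) x.2 (S.F j x))
    (∫ ξ, Psi s E ρ η τ χ ξ ∂(emp x.1 (col x.2 (S.F j x))))
  have t2 := norm_sub_norm_le (∫ ξ, Psi s E ρ η τ χ ξ ∂(emp x.1 (col x.2 (S.F j x))))
    (∫ ξ, Psi s E ρ η τ χ ξ ∂S.P)
  linarith

end Crest.Agent.R166.F5a487
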