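import Crest.Agent.R166.ThmBFin_980

/-!
# Row 166 (helper980), F5, parts (b) and (c): the limit `η → 0` of the violation, and its
contradiction with `EdgeGauss`.
-/

set_option autoImplicit false
set_option linter.unusedSectionVars false

noncomputable section

namespace Crest.Agent.R166.F5b980

open MeasureTheory ProbabilityTheory Filter Topology
open Crest.ProbabilityR.RandomMatrix Crest.Agent.R166 Crest.Agent.R166.Words955
open Crest.Agent.R166.TreeG879 (clip omOf)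
open Crest.Agent.R166.PhiLim85 (BT blk2)
open Crest.Agent.R166.NoiseLim849 (S2 pr)
open Crest.Agent.R166.Seq980 (Seq)
open Crest.Agent.R166.LimProcX974 (Env FX om XX ZZ)
open Crest.Agent.R166.Hinge980 (psi viol chi2)

variable {d k : ℕ} [NeZero d]

local instance instMS2 : MeasurableSpace (Matrix (Fin 2) (Fin 2) ℂ) :=
  inferInstanceAs (MeasurableSpace (Fin 2 → Fin 2 → ℂ))

local instance instBS2 : BorelSpace (Matrix (Fin 2) (Fin 2) ℂ) :=
  inferInstanceAs (BorelSpace (Fin 2 → Fin 2 → ℂ))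

/-- limit block -/
def Bξ (cL : (TW d → ℝ) → ℂ) (ξ : Conf d (NoiseLim849.S1 d k)) : Matrix (Fin 2) (Fin 2) ℂ :=
  blk2 (cL (omOf Prod.fst ξ)) (cL (omOf Prod.fst (cross ξ)))

theorem BT_eq (s : ℝ) (z : ℂ) (ξ : Conf d (NoiseLim849.S1 d k)) :
    BT s z (omOf Prod.fst ξ) =
      blk2 (TreeG879.cav s z (omOf Prod.fst ξ)) (TreeG879.cav s z (omOf Prod.fst (cross ξ))) := rfl

theorem tendsto_blk2 {c c' : ℕ → ℂ} {a a' : ℂ} (h : Tendsto c atTop (𝓝 a))
    (h' : Tendsto c' atTop (𝓝 a')) (ha : 0 < a.im) (ha' : 0 < a'.im) :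
    Tendsto (fun i => blk2 (c i) (c' i)) atTop (𝓝 (blk2 a a')) := by
  have hne := PhiLim85.one_sub_mul_ne ha ha'
  have h1 : Tendsto (fun i => 1 / (1 - c i * c' i)) atTop (𝓝 (1 / (1 - a * a'))) :=
    tendsto_const_nhds.div (tendsto_const_nhds.sub (h.mul h')) hne
  refine tendsto_pi_nhds.2 fun x => tendsto_pi_nhds.2 fun y => ?_
  fin_cases x <;> fin_cases y
  · simpa [blk2] using h1.mul h
  · simpa [blk2] using h1.mul (h.mul h').neg
  · simpa [blk2] using h1.mul (h.mul h').neg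
  · simpa [blk2] using h1.mul h'

theorem continuous_psi (ρ : ℝ) (τ : Fin k → Fin 2 → ℝ) {χ : Matrix (Fin 2) (Fin 2) ℂ → ℝ}
    (hχ : Continuous χ) :
    Continuous fun t : Matrix (Fin 2) (Fin 2) ℂ × (Fin k → ℝ) × (Fin k → ℝ) =>
      psi ρ τ χ t.1 t.2.1 t.2.2 := by
  have h2 := (Hinge980.continuous_chi2 ρ τ hχ).comp
    (continuous_fst (X := Matrix (Fin 2) (Fin 2) ℂ) (Y := (Fin k → ℝ) × (Fin k → ℝ)))
  simp only [Hinge980.psi_eq]
  refine ((Complex.continuous_ofReal.comp (hχ.comp continuous_fst)).mul ?_).sub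
    (Complex.continuous_ofReal.comp h2)
  fun_prop

/-- limit `η → 0` -/
theorem f5b {P : Measure (Conf d (NoiseLim849.S1 d k))} [IsProbabilityMeasure P] {s E ρ : ℝ}
    (τ : Fin k → Fin 2 → ℝ) {χ : Matrix (Fin 2) (Fin 2) ℂ → ℝ} (hχ : Continuous χ)
    (hs : HasCompactSupport χ) {ε : ℝ} {ζ : ℕ → ℝ} (hζ : ∀ i, 0 < ζ i)
    (hv : ∀ i, ε ≤ ‖∫ ξ, psi ρ τ χ (BT s (ze E (ζ i)) (omOf Prod.fst ξ)) (ξ TW.nil).2.2
      (cross ξ TW.nil).2.2 ∂P‖)
    {cL : (TW d → ℝ) → ℂ}
    (h1 : ∀ᵐ ξ ∂P, Tendsto (fun i => TreeG879.cav s (ze E (ζ i)) (omOf Prod.fst ξ)) atTop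
      (𝓝 (cL (omOf Prod.fst ξ))))
    (h2 : ∀ᵐ ξ ∂P, Tendsto (fun i => TreeG879.cav s (ze E (ζ i)) (omOf Prod.fst (cross ξ))) atTop
      (𝓝 (cL (omOf Prod.fst (cross ξ)))))
    (h3 : ∀ᵐ ξ ∂P, 0 < (cL (omOf Prod.fst ξ)).im)
    (h4 : ∀ᵐ ξ ∂P, 0 < (cL (omOf Prod.fst (cross ξ))).im) :
    ε ≤ ‖∫ ξ, psi ρ τ χ (Bξ cL ξ) (ξ TW.nil).2.2 (cross ξ TW.nil).2.2 ∂P‖ := by
  obtain ⟨C, hC, hb⟩ := Hinge980.norm_psi_le ρ τ hχ hs
  have hom : Continuous (omOf Prod.fst : Conf d (NoiseLim849.S1 d k) → TW d → ℝ) :=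
    TreeG879.continuous_omOf Prod.fst continuous_fst
  have hx : Continuous fun ξ : Conf d (NoiseLim849.S1 d k) => (ξ TW.nil).2.2 :=
    continuous_snd.comp (continuous_snd.comp (continuous_apply _))
  have hy : Continuous fun ξ : Conf d (NoiseLim849.S1 d k) => (cross ξ TW.nil).2.2 := by
    have : (fun ξ : Conf d (NoiseLim849.S1 d k) => (cross ξ TW.nil).2.2) =
        fun ξ => (ξ (TW.cr TW.nil)).2.2 := rfl
    rw [this]
    exact continuous_snd.comp (continuous_snd.comp (continuous_apply _))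
  have hT : Tendsto (fun i => ∫ ξ, psi ρ τ χ (BT s (ze E (ζ i)) (omOf Prod.fst ξ)) (ξ TW.nil).2.2
      (cross ξ TW.nil).2.2 ∂P) atTop
      (𝓝 (∫ ξ, psi ρ τ χ (Bξ cL ξ) (ξ TW.nil).2.2 (cross ξ TW.nil).2.2 ∂P)) := by
    refine tendsto_integral_of_dominated_convergence (fun _ => C) (fun i => ?_)
      (integrable_const _) (fun i => Eventually.of_forall fun ξ => hb _ _ _) ?_
    · refine Continuous.aestronglyMeasurable ?_
      have hz : 0 < (ze E (ζ i)).im := by rw [NoiseLim849.ze_im]; exact hζ i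
      exact (continuous_psi ρ τ hχ).comp
        (((PhiLim85.continuous_BT s hz).comp hom).prodMk (hx.prodMk hy))
    · filter_upwards [h1, h2, h3, h4] with ξ a1 a2 a3 a4
      have hB := tendsto_blk2 a1 a2 a3 a4
      have := ((continuous_psi ρ τ hχ).tendsto (Bξ cL ξ, (ξ TW.nil).2.2,
        (cross ξ TW.nil).2.2)).comp (hB.prodMk_nhds tendsto_const_nhds)
      exact this
  exact ge_of_tendsto' hT.norm hv

theorem int_mul_condExp {Ω : Type*} {m mΩ : MeasurableSpace Ω} (hm : m ≤ mΩ) {P : Measure Ω}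
    [IsProbabilityMeasure P] {f : Ω → ℝ} (hf : Measurable[m] f) {C : ℝ} (hfb : ∀ x, |f x| ≤ C)
    {g w : Ω → ℂ} (hg : Integrable g P) (hgw : P[g | m] =ᵐ[P] w) :
    ∫ x, (f x : ℂ) * g x ∂P = ∫ x, (f x : ℂ) * w x ∂P := by
  have hfg : Integrable (f • g) P := by
    refine hg.bdd_smul C (hf.mono hm le_rfl).aestronglyMeasurable
      (Eventually.of_forall fun x => ?_)
    rw [Real.norm_eq_abs]; exact hfb x
  have h1 : P[f • g | m] =ᵐ[P] f • P[g | m] :=
    condExp_smul_of_aestronglyMeasurable_left hf.stronglyMeasurable.aestronglyMeasurable hfg hg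
  have h2 : ∫ x, (f • g) x ∂P = ∫ x, (f • P[g | m]) x ∂P := by
    rw [← integral_condExp hm (f := f • g)]
    exact integral_congr_ae h1
  have h3 : ∫ x, (f • P[g | m]) x ∂P = ∫ x, (f x : ℂ) * w x ∂P := by
    refine integral_congr_ae ?_
    filter_upwards [hgw] with x hx
    simp only [Pi.smul_apply', hx, Complex.real_smul]
  rw [← h3, ← h2]
  refine integral_congr_ae (Eventually.of_forall fun x => ?_)
  simp only [Pi.smul_apply', Complex.real_smul]

/-- the limit cavity field on noisy configurations -/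
def cQ (cL : (TW d → ℝ) → ℂ) (z : Conf d (S2 d k)) : ℂ := cL (omOf (fun t => clip t.1) z)

theorem measurable_blk2 {Ω : Type*} {m : MeasurableSpace Ω} {c c' : Ω → ℂ} (hc : Measurable c)
    (hc' : Measurable c') : Measurable fun x => blk2 (c x) (c' x) := by
  refine measurable_pi_lambda _ fun i => measurable_pi_lambda _ fun j => ?_
  have h1 : Measurable fun x => 1 / (1 - c x * c' x) :=
    measurable_const.div (measurable_const.sub (hc.mul hc'))
  have h00 : Measurable fun x => 1 / (1 - c x * c' x) * c x := h1.mul hc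
  have h01 : Measurable fun x => 1 / (1 - c x * c' x) * (-(c x * c' x)) := h1.mul (hc.mul hc').neg
  have h11 : Measurable fun x => 1 / (1 - c x * c' x) * c' x := h1.mul hc'
  fin_cases i <;> fin_cases j
  · simpa [blk2] using h00
  · simpa [blk2] using h01
  · simpa [blk2] using h01
  · simpa [blk2] using h11

/-- `EdgeGauss` makes the limit vanish -/
theorem f5c {P : Measure (Conf d (NoiseLim849.S1 d k))} [IsProbabilityMeasure P] {ρ : ℝ}
    (hcube : ∀ᵐ ξ ∂P, ∀ w : TW d, |(ξ w).2.1| ≤ 1)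
    (τ : Fin k → Fin 2 → ℝ) {χ : Matrix (Fin 2) (Fin 2) ℂ → ℝ} (hχ : Continuous χ)
    (hs : HasCompactSupport χ)
    {cL : (TW d → ℝ) → ℂ} (hcL : Measurable cL)
    {Q : Measure (Conf d (S2 d k))} (hQ : Q.map pr = P)
    (hEG : B2.EdgeGauss (Env d k) k ρ Q cross (fun z => cL (omOf (fun t => clip t.1) z)) XX) :
    ∫ ξ, psi ρ τ χ (Bξ cL ξ) (ξ TW.nil).2.2 (cross ξ TW.nil).2.2 ∂P = 0 := by
  obtain ⟨C1, hC1⟩ := Hinge980.bounded_of_compact hχ hs
  have hprm : Measurable (pr : Conf d (S2 d k) → Conf d (NoiseLim849.S1 d k)) :=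
    LimProcX974.measurable_pr
  have hQp : IsProbabilityMeasure Q := by
    constructor
    have h := congrArg (fun μ => μ Set.univ) hQ
    simp only [Measure.map_apply hprm MeasurableSet.univ, Set.preimage_univ, measure_univ] at h
    exact h
  have hcube' : ∀ᵐ ζ ∂Q, ∀ w : TW d, |(pr ζ w).2.1| ≤ 1 := by
    rw [← hQ] at hcube
    exact ae_of_ae_map hprm.aemeasurable hcube
  -- measurability of the limit block
  have hom : Measurable (omOf Prod.fst : Conf d (NoiseLim849.S1 d k) → TW d → ℝ) :=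
    (TreeG879.continuous_omOf Prod.fst continuous_fst).measurable
  have hBm : Measurable (Bξ cL : Conf d (NoiseLim849.S1 d k) → Matrix (Fin 2) (Fin 2) ℂ) :=
    measurable_blk2 (hcL.comp hom) (hcL.comp (hom.comp measurable_cross))
  have hcQ : Measurable[Env d k] (cQ cL : Conf d (S2 d k) → ℂ) := LimProcX974.cav_meas cL hcL
  have hcQ' : Measurable[Env d k] fun z : Conf d (S2 d k) => cQ cL (cross z) :=
    hcQ.comp LimProcX974.pp_Env
  have hBQ : Measurable[Env d k] fun z : Conf d (S2 d k) => B2.Bk cross (cQ cL) z :=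
    measurable_blk2 hcQ hcQ'
  have hBB : ∀ᵐ ζ ∂Q, Bξ cL (pr ζ) = B2.Bk cross (cQ cL) ζ := by
    filter_upwards [hcube'] with ζ hζ
    have e1 : cL (omOf Prod.fst (pr ζ)) = cQ cL ζ := by
      unfold cQ
      congr 1
      funext w
      exact (TreeG879.clip_eq (hζ w)).symm
    have e2 : cL (omOf Prod.fst (cross (pr ζ))) = cQ cL (cross ζ) := by
      unfold cQ
      congr 1
      funext w
      exact (TreeG879.clip_eq (hζ (TW.cr w))).symm
    unfold Bξ
    rw [e1, e2]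
    rfl
  -- transport
  have hpsi : Measurable fun ξ : Conf d (NoiseLim849.S1 d k) =>
      psi ρ τ χ (Bξ cL ξ) (ξ TW.nil).2.2 (cross ξ TW.nil).2.2 := by
    have h0 : ∀ w : TW d, Measurable fun ξ : Conf d (NoiseLim849.S1 d k) => (ξ w).2.2 := fun w =>
      measurable_snd.comp (measurable_snd.comp (measurable_pi_apply _))
    have h1 : Measurable fun ξ : Conf d (NoiseLim849.S1 d k) => (cross ξ TW.nil).2.2 :=
      h0 (TW.cr TW.nil)
    have h2 : Measurable fun ξ : Conf d (NoiseLim849.S1 d k) =>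
        (Bξ cL ξ, (ξ TW.nil).2.2, (cross ξ TW.nil).2.2) := hBm.prodMk ((h0 _).prodMk h1)
    exact (continuous_psi ρ τ hχ).measurable.comp h2
  rw [← hQ, integral_map hprm.aemeasurable hpsi.aestronglyMeasurable]
  set eX : Conf d (S2 d k) → ℂ := fun h => Complex.exp (Complex.I *
        ((∑ l, (τ l 0 * XX h l + τ l 1 * XX (cross h) l) : ℝ) : ℂ)) with heX
  have hXm : Measurable (XX : Conf d (S2 d k) → Fin k → ℝ) :=
    LimProcX974.X_meas.mono LimProcX974.FX_le le_rfl
  have heXm : Measurable eX := by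
    have h1 : Measurable fun h : Conf d (S2 d k) =>
        ∑ l, (τ l 0 * XX h l + τ l 1 * XX (cross h) l) := by
      refine Finset.measurable_sum _ fun l _ => ?_
      exact (measurable_const.mul ((measurable_pi_apply l).comp hXm)).add
        (measurable_const.mul ((measurable_pi_apply l).comp (hXm.comp measurable_cross)))
    exact Complex.measurable_exp.comp (measurable_const.mul (Complex.measurable_ofReal.comp h1))
  have heXi : Integrable eX Q := by
    refine Integrable.of_bound heXm.aestronglyMeasurable 1 (Eventually.of_forall fun h => ?_)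
    rw [heX]
    simp only
    rw [mul_comm Complex.I, Complex.norm_exp_ofReal_mul_I]
  have hχm : Measurable[Env d k] fun z : Conf d (S2 d k) => χ (B2.Bk cross (cQ cL) z) :=
    hχ.measurable.comp hBQ
  have hmain := int_mul_condExp (LimProcX974.Env_le (d := d) (k := k)) hχm (fun x => hC1 _) heXi
    (hEG τ)
  have hi1 : Integrable (fun z => (χ (B2.Bk cross (cQ cL) z) : ℂ) * eX z) Q := by
    refine Integrable.of_bound ?_ C1 (Eventually.of_forall fun h => ?_)
    · exact ((Complex.measurable_ofReal.comp (hχm.mono LimProcX974.Env_le le_rfl)).mul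
        heXm).aestronglyMeasurable
    · rw [norm_mul, heX]
      simp only
      rw [mul_comm Complex.I, Complex.norm_exp_ofReal_mul_I, mul_one, Complex.norm_real]
      exact hC1 _
  obtain ⟨C2, hC2⟩ := Hinge980.bounded_of_compact (Hinge980.continuous_chi2 ρ τ hχ)
    (Hinge980.hasCompactSupport_chi2 ρ τ hs)
  have hi2 : Integrable (fun z : Conf d (S2 d k) => ((chi2 ρ τ χ (B2.Bk cross (cQ cL) z) : ℝ) : ℂ))
      Q := by
    refine Integrable.of_bound ?_ C2 (Eventually.of_forall fun h => ?_)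
    · exact (Complex.measurable_ofReal.comp ((Hinge980.continuous_chi2 ρ τ hχ).measurable.comp
        (hBQ.mono LimProcX974.Env_le le_rfl))).aestronglyMeasurable
    · rw [Complex.norm_real]; exact hC2 _
  have h6 : ∫ z, psi ρ τ χ (Bξ cL (pr z)) (pr z TW.nil).2.2 (cross (pr z) TW.nil).2.2 ∂Q =
      ∫ z, ((χ (B2.Bk cross (cQ cL) z) : ℂ) * eX z -
        ((chi2 ρ τ χ (B2.Bk cross (cQ cL) z) : ℝ) : ℂ)) ∂Q := by
    refine integral_congr_ae ?_
    filter_upwards [hBB] with z hz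
    rw [hz, Hinge980.psi_eq]
    rfl
  rw [h6, integral_sub hi1 hi2, hmain, sub_eq_zero]
  refine integral_congr_ae (Eventually.of_forall fun z => ?_)
  simp only [chi2]
  push_cast
  rfl

/-- F5 from its finite part `f5a` -/
def F5a : Prop :=
  ∀ {d k : ℕ} [NeZero d] (S : Seq d k) {s E K' ρ : ℝ}, SpecB1.Extra S s E K' →
    ∀ (τ : Fin k → Fin 2 → ℝ) (χ : Matrix (Fin 2) (Fin 2) ℂ → ℝ), Continuous χ →
    HasCompactSupport χ → ∀ {ε : ℝ}, 0 < ε → ∀ {η : ℝ}, 0 < η →
    (∀ᶠ j in atTop, ∀ x ∈ S.U j,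
      ε ≤ ‖viol s E ρ η τ χ (graphOf x.1) x.2 (S.F j x)‖) →
    ε / 2 ≤ ‖∫ ξ, psi ρ τ χ (BT s (ze E η) (omOf Prod.fst ξ)) (ξ TW.nil).2.2
      (cross ξ TW.nil).2.2 ∂S.P‖

theorem f5_of (h : F5a) : ThmBFin980.F5 := by
  intro d k _ S s E K' ρ hX τ χ hχ hs ε hε ζ hζ hζ0 hv cL hcL h1 h2 h3 h4 Q hQ hEG
  have := S.prob
  have hb := f5b τ hχ hs hζ (fun i => h S hX τ χ hχ hs hε (hζ i) (hv i)) h1 h2 h3 h4
  have hcube : ∀ᵐ ξ ∂S.P, ∀ w : TW d, |(ξ w).2.1| ≤ 1 := by
    filter_upwards [LimProps974.om_P S] with ξ hξ w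
    exact abs_le.2 (hξ w)
  rw [f5c hcube τ hχ hs hcL hQ hEG, norm_zero] at hb
  linarith

end Crest.Agent.R166.F5b980
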