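import Crest.Agent.R166.Cl_85

/-!
Row 166, (52a): the Laplace functional of the eigenvalues is a continuous function of the
Cayley transform (helper8).
`lapFunExists : LapFunExists`.
-/

set_option autoImplicit false

noncomputable section

namespace Crest.Agent.R166.Rec8
open Matrix Gen85 Cl85
open scoped Matrix.Norms.L2Operator

variable {m : ℕ}

lemma contOn (φ : ℂ → ℂ) (hφ : ContinuousOn φ (Metric.sphere 0 1)) :
    ContinuousOn (fun U : Matrix (Fin m) (Fin m) ℂ => (cfc φ U).trace)
      (unitaryGroup (Fin m) ℂ : Set (Matrix (Fin m) (Fin m) ℂ)) := by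
  have h1 := continuousOn_cfc (Matrix (Fin m) (Fin m) ℂ) (isCompact_sphere (0:ℂ) 1) φ hφ
  have h2 : ContinuousOn (cfc φ) (unitaryGroup (Fin m) ℂ : Set (Matrix (Fin m) (Fin m) ℂ)) := by
    refine h1.mono ?_
    intro U hU
    have hU' : U ∈ unitary (Matrix (Fin m) (Fin m) ℂ) := hU
    exact ⟨isStarNormal_of_mem_unitary hU', spectrum.subset_circle_of_unitary hU'⟩
  exact (Continuous.matrix_trace continuous_id).comp_continuousOn h2

/-- `x ↦ V diag(x) V*` -/
def DHom (V : unitaryGroup (Fin m) ℂ) : (Fin m → ℂ) →⋆ₐ[ℂ] Matrix (Fin m) (Fin m) ℂ where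
  toFun x := (V : Matrix (Fin m) (Fin m) ℂ) * diagonal x * star (V : Matrix (Fin m) (Fin m) ℂ)
  map_one' := by
    rw [show (diagonal (1 : Fin m → ℂ)) = 1 from diagonal_one, Matrix.mul_one]
    exact Unitary.coe_mul_star_self V
  map_mul' x y := by
    have h : star (V : Matrix (Fin m) (Fin m) ℂ) * (V : Matrix (Fin m) (Fin m) ℂ) = 1 :=
      Unitary.coe_star_mul_self V
    have h2 : diagonal (x * y) = diagonal x * diagonal y := by
      rw [diagonal_mul_diagonal]; rfl
    rw [h2]
    calc (V : Matrix (Fin m) (Fin m) ℂ) * (diagonal x * diagonal y) * star (V : Matrix (Fin m) (Fin m) ℂ)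
        = (V : Matrix (Fin m) (Fin m) ℂ) * diagonal x * 1 * diagonal y * star (V : Matrix (Fin m) (Fin m) ℂ) := by
          simp only [Matrix.mul_assoc, Matrix.mul_one]
      _ = _ := by rw [← h]; simp only [Matrix.mul_assoc]
  map_zero' := by
    rw [show (diagonal (0 : Fin m → ℂ)) = 0 from diagonal_zero, Matrix.mul_zero, Matrix.zero_mul]
  map_add' x y := by
    rw [show (diagonal (x + y)) = diagonal x + diagonal y from (diagonal_add x y).symm,
      Matrix.mul_add, Matrix.add_mul]
  commutes' r := by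
    have h2 : diagonal ((algebraMap ℂ (Fin m → ℂ)) r) = r • (1 : Matrix (Fin m) (Fin m) ℂ) := by
      ext i j
      simp [diagonal_apply, one_apply]
    rw [h2, Matrix.mul_smul, Matrix.mul_one, Matrix.smul_mul]
    rw [show (V : Matrix (Fin m) (Fin m) ℂ) * star (V : Matrix (Fin m) (Fin m) ℂ) = 1 from Unitary.coe_mul_star_self V]
    exact (Algebra.algebraMap_eq_smul_one r).symm
  map_star' x := by
    have h2 : diagonal (star x) = star (diagonal x) := by
      rw [star_eq_conjTranspose, diagonal_conjTranspose]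
    rw [h2, star_mul, star_mul, star_star, mul_assoc]

lemma DHom_apply (V : unitaryGroup (Fin m) ℂ) (x : Fin m → ℂ) :
    DHom V x = (V : Matrix (Fin m) (Fin m) ℂ) * diagonal x * star (V : Matrix (Fin m) (Fin m) ℂ) := rfl

lemma DHom_cont (V : unitaryGroup (Fin m) ℂ) : Continuous (DHom V) := by
  have : (DHom V : (Fin m → ℂ) → Matrix (Fin m) (Fin m) ℂ) = fun x => (V : Matrix (Fin m) (Fin m) ℂ) * diagonal x * star (V : Matrix (Fin m) (Fin m) ℂ) := rfl
  rw [this]
  exact (continuous_const.matrix_mul (Continuous.matrix_diagonal continuous_id)).matrix_mul continuous_const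

lemma DHom_trace (V : unitaryGroup (Fin m) ℂ) (x : Fin m → ℂ) :
    (DHom V x).trace = ∑ i, x i := by
  rw [DHom_apply, Matrix.trace_mul_comm, ← Matrix.mul_assoc]
  rw [show star (V : Matrix (Fin m) (Fin m) ℂ) * (V : Matrix (Fin m) (Fin m) ℂ) = 1 from Unitary.coe_star_mul_self V]
  rw [Matrix.one_mul, trace_diagonal]

lemma cfc_DHom (V : unitaryGroup (Fin m) ℂ) (x : Fin m → ℂ) (φ : ℂ → ℂ) 
    (hx : ∀ i, x i ∈ Metric.sphere (0:ℂ) 1) (hφ : ContinuousOn φ (Metric.sphere 0 1)) :
    cfc φ (DHom V x) = DHom V (fun i => φ (x i)) := by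
  have hspec : spectrum ℂ x ⊆ Metric.sphere 0 1 := by
    rw [Pi.spectrum_eq]
    intro z hz
    obtain ⟨i, hi⟩ := Set.mem_iUnion.mp hz
    have : z = x i := by
      have := spectrum.algebraMap_mem_iff ℂ (r := z) (a := x i)
      have h3 : spectrum ℂ (x i) = {x i} := by
        ext w
        rw [spectrum.mem_iff, Set.mem_singleton_iff, isUnit_iff_ne_zero, not_not, sub_eq_zero]
        rfl
      rw [h3] at hi
      exact hi
    rw [this]; exact hx i
  have h1 := (DHom V).map_cfc φ x (hφ.mono hspec) (DHom_cont V) ⟨by rw [commute_iff_eq, mul_comm]⟩ 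
    (by
      refine isStarNormal_of_mem_unitary ?_
      rw [Unitary.mem_iff]
      have hs : star x * x = 1 := by
        ext i
        have := hx i
        rw [mem_sphere_zero_iff_norm] at this
        simp only [Pi.mul_apply, Pi.star_apply, RCLike.star_def, Pi.one_apply]
        rw [mul_comm, Complex.mul_conj, Complex.normSq_eq_norm_sq, this]; norm_num
      constructor
      · rw [← map_star, ← map_mul, hs, map_one]
      · rw [← map_star, ← map_mul, mul_comm, hs, map_one])
  rw [← h1]
  congr 1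
  rw [cfc_map_pi (S := ℂ) (p := IsStarNormal) (q := fun _ => IsStarNormal) φ x
    (by rw [← Pi.spectrum_eq]; exact hφ.mono hspec) ⟨by rw [commute_iff_eq, mul_comm]⟩
    (fun i => ⟨by rw [commute_iff_eq, mul_comm]⟩)]
  funext i
  have := cfc_algebraMap (R := ℂ) (A := ℂ) (p := IsStarNormal) (x i) φ
  simpa using this

/-- diagonalisation of a real symmetric matrix over `ℂ` -/
lemma exists_DHom {C : Matrix (Fin m) (Fin m) ℝ} (hC : C.IsHermitian) :
    ∃ V : unitaryGroup (Fin m) ℂ, toC C = DHom V (fun i => (hC.eigenvalues i : ℂ)) := by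
  have hV := hC.eigenvectorUnitary.2
  set V0 : Matrix (Fin m) (Fin m) ℝ := (↑(hC.eigenvectorUnitary) : Matrix (Fin m) (Fin m) ℝ) with hV0
  have h1 : V0 * V0ᵀ = 1 := by
    have := Unitary.mul_star_self_of_mem hV
    rwa [star_eq_conjTranspose, conjTranspose_eq_transpose_of_trivial] at this
  have h2 : V0ᵀ * V0 = 1 := by
    have := Unitary.star_mul_self_of_mem hV
    rwa [star_eq_conjTranspose, conjTranspose_eq_transpose_of_trivial] at this
  have hst : star (toC V0) = toC V0ᵀ := by
    rw [star_eq_conjTranspose, toC_conjTranspose]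
  refine ⟨⟨toC V0, ?_⟩, ?_⟩
  · rw [mem_unitaryGroup_iff, hst, ← toC_mul, h1, toC_one]
  · rw [DHom_apply]
    have h3 := hC.spectral_theorem
    rw [Unitary.conjStarAlgAut_apply] at h3
    rw [← hV0] at h3
    conv_lhs => rw [h3]
    rw [toC_mul, toC_mul]
    congr 1
    · congr 1
      ext i j
      simp [toC, diagonal_apply]
      split_ifs <;> simp
    · rw [hst, star_eq_conjTranspose, conjTranspose_eq_transpose_of_trivial]

lemma Cay_eq_DHom {C : Matrix (Fin m) (Fin m) ℝ} (hC : C.IsHermitian) :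
    ∃ V : unitaryGroup (Fin m) ℂ, Cay C = DHom V (fun i => ((hC.eigenvalues i : ℂ) - Complex.I) *
      ((hC.eigenvalues i : ℂ) + Complex.I)⁻¹) := by
  obtain ⟨V, hV⟩ := exists_DHom hC
  refine ⟨V, ?_⟩
  have hI : Complex.I • (1 : Matrix (Fin m) (Fin m) ℂ) = DHom V (fun _ => Complex.I) := by
    have := (DHom V).commutes' Complex.I
    rw [Algebra.algebraMap_eq_smul_one, Algebra.algebraMap_eq_smul_one] at this
    rw [← this]
    show DHom V _ = DHom V _
    congr 1
    funext i
    simp
  have hne : ∀ c : ℝ, (c : ℂ) + Complex.I ≠ 0 := by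
    intro c h
    have := congrArg Complex.im h
    simp at this
  have hinv : (toC C + Complex.I • (1 : Matrix (Fin m) (Fin m) ℂ))⁻¹ =
      DHom V (fun i => ((hC.eigenvalues i : ℂ) + Complex.I)⁻¹) := by
    apply Matrix.inv_eq_right_inv
    rw [hV, hI, ← map_add, ← map_mul, ← map_one (DHom V)]
    congr 1
    funext i
    simp only [Pi.mul_apply, Pi.add_apply, Pi.one_apply]
    exact mul_inv_cancel₀ (hne _)
  rw [Cay_def, Wi, hinv, hI, hV, ← map_sub, ← map_mul]
  congr 1

/-- the function on the circle -/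
def phi (h : ℝ → ℝ) (m : ℕ) (u : ℂ) : ℂ := by
  classical exact if u = -1 then 0 else
    (h ((m : ℝ) / Real.pi * (-Complex.I * (1 - u) / (1 + u)).re) : ℂ)

lemma w_im {u : ℂ} (hu : ‖u‖ = 1) : (-Complex.I * (1 - u) / (1 + u)).im = 0 := by
  rcases eq_or_ne u (-1) with h1 | h1
  · rw [h1]; simp
  have h1' : (1 + u) ≠ 0 := by
    intro h; exact h1 (by linear_combination h)
  have hu0 : u ≠ 0 := by
    intro h; rw [h, norm_zero] at hu; exact zero_ne_one hu
  have hc : (starRingEnd ℂ) u = u⁻¹ := by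
    rw [Complex.inv_def, Complex.normSq_eq_norm_sq, hu]; simp
  rw [← Complex.conj_eq_iff_im]
  rw [map_div₀, map_mul, map_neg, Complex.conj_I, map_sub, map_add, map_one, hc]
  have h2 : (1 + u⁻¹) ≠ 0 := by
    intro h
    apply h1'
    have : u * (1 + u⁻¹) = 0 := by rw [h, mul_zero]
    rw [mul_add, mul_one, mul_inv_cancel₀ hu0] at this
    rw [add_comm]; exact this
  rw [div_eq_div_iff h2 h1']
  field_simp
  ring

lemma phi_cont (h : ℝ → ℝ) (hc : Continuous h) (hs : HasCompactSupport h) (m : ℕ) (hm : 0 < m) :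
    ContinuousOn (phi h m) (Metric.sphere 0 1) := by
  obtain ⟨R, hR⟩ : ∃ R : ℝ, ∀ t, R < |t| → h t = 0 := by
    obtain ⟨R, hR⟩ := hs.isCompact.isBounded.exists_norm_le
    refine ⟨R, fun t ht => ?_⟩
    by_contra h0
    have := hR t (subset_tsupport h h0)
    rw [Real.norm_eq_abs] at this
    linarith
  have hmpos : (0:ℝ) < m := by exact_mod_cast hm
  intro u hu
  have hu1 : ‖u‖ = 1 := by simpa using hu
  rcases eq_or_ne u (-1) with h1 | h1
  · -- near -1
    subst h1
    have hz : ∀ᶠ v in nhdsWithin (-1 : ℂ) (Metric.sphere 0 1), phi h m v = 0 := by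
      set r : ℝ := min 1 ((m : ℝ) / Real.pi / (|R| + 1)) with hr
      have hrpos : 0 < r := lt_min one_pos (by positivity)
      filter_upwards [inter_mem_nhdsWithin _ (Metric.ball_mem_nhds (-1 : ℂ) hrpos)] with v hv
      obtain ⟨hv1, hv2⟩ := hv
      have hvn : ‖v‖ = 1 := by simpa using hv1
      rw [Metric.mem_ball, dist_eq_norm] at hv2
      unfold phi
      split_ifs with h3
      · rfl
      have h3' : (1 + v) ≠ 0 := by
        intro h; exact h3 (by linear_combination h)
      have h4 : |(-Complex.I * (1 - v) / (1 + v)).re| = ‖(-Complex.I * (1 - v) / (1 + v))‖ := by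
        rw [Complex.abs_re_eq_norm]
        exact w_im hvn
      have h5 : ‖1 + v‖ < r := by
        have : 1 + v = v - (-1) := by ring
        rw [this]; exact hv2
      have h6 : 1 ≤ ‖1 - v‖ := by
        have h7 : (2 : ℂ) = (1 - v) + (1 + v) := by ring
        have h8 : (2 : ℝ) = ‖(2:ℂ)‖ := by simp
        have h9 : ‖(2:ℂ)‖ ≤ ‖1 - v‖ + ‖1 + v‖ := by
          conv_lhs => rw [h7]
          exact norm_add_le _ _
        have h10 : r ≤ 1 := min_le_left _ _
        linarith
      have h11 : 0 < ‖1 + v‖ := norm_pos_iff.mpr h3'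
      have h12 : ‖(-Complex.I * (1 - v) / (1 + v))‖ = ‖1 - v‖ / ‖1 + v‖ := by
        rw [norm_div, norm_mul, norm_neg, Complex.norm_I, one_mul]
      have h13 : (h ((m : ℝ) / Real.pi * (-Complex.I * (1 - v) / (1 + v)).re)) = 0 := by
        apply hR
        rw [abs_mul, h4, h12, abs_of_pos (by positivity : (0:ℝ) < (m:ℝ) / Real.pi)]
        have h14 : r ≤ (m : ℝ) / Real.pi / (|R| + 1) := min_le_right _ _
        have h15 : 1 / ‖1 + v‖ ≤ ‖1 - v‖ / ‖1 + v‖ := by gcongr
        have h16 : 1 / r < 1 / ‖1 + v‖ := one_div_lt_one_div_of_lt h11 h5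
        have h17 : (m : ℝ) / Real.pi * (1 / r) ≥ |R| + 1 := by
          have h18 : (0:ℝ) < |R| + 1 := by positivity
          have h19 : r * (|R| + 1) ≤ (m : ℝ) / Real.pi := by
            rwa [le_div_iff₀ h18] at h14
          rw [ge_iff_le, mul_one_div, le_div_iff₀ hrpos]
          linarith
        have h20 : (m : ℝ) / Real.pi * (1 / r) ≤ (m : ℝ) / Real.pi * (‖1 - v‖ / ‖1 + v‖) := by
          apply mul_le_mul_of_nonneg_left (by linarith) (by positivity)
        have h21 := le_abs_self R
        linarith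
      rw [h13]; simp
    have h0 : phi h m (-1) = 0 := by unfold phi; simp
    unfold ContinuousWithinAt
    rw [h0]
    exact (Filter.tendsto_congr' hz).mpr tendsto_const_nhds
  · -- away
    apply ContinuousAt.continuousWithinAt
    have h1' : (1 + u) ≠ 0 := by
      intro h; exact h1 (by linear_combination h)
    have h2 : (phi h m) =ᶠ[nhds u] fun v =>
        (h ((m : ℝ) / Real.pi * (-Complex.I * (1 - v) / (1 + v)).re) : ℂ) := by
      filter_upwards [isOpen_ne.mem_nhds h1] with v hv
      unfold phi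
      rw [if_neg hv]
    rw [continuousAt_congr h2]
    apply Complex.continuous_ofReal.continuousAt.comp
    apply hc.continuousAt.comp
    apply ContinuousAt.mul continuousAt_const
    apply Complex.continuous_re.continuousAt.comp
    apply ContinuousAt.div
    · fun_prop
    · fun_prop
    · exact h1'

lemma phi_val (h : ℝ → ℝ) (m : ℕ) (c : ℝ) :
    phi h m (((c : ℂ) - Complex.I) * ((c : ℂ) + Complex.I)⁻¹) =
      ((if c = 0 then 0 else h ((m : ℝ) / (Real.pi * c)) : ℝ) : ℂ) := by
  have hne : (c : ℂ) + Complex.I ≠ 0 := by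
    intro h
    have := congrArg Complex.im h
    simp at this
  have key : ((c : ℂ) - Complex.I) * ((c : ℂ) + Complex.I)⁻¹ = -1 ↔ c = 0 := by
    rw [← div_eq_mul_inv, div_eq_iff hne]
    constructor
    · intro h
      have := congrArg Complex.re h
      simp at this
      linarith
    · rintro rfl; simp
  unfold phi
  by_cases hc : c = 0
  · rw [if_pos (key.mpr hc), if_pos hc]; simp
  · rw [if_neg (fun h => hc (key.mp h)), if_neg hc]
    congr 2
    have hcc : (c : ℂ) ≠ 0 := by exact_mod_cast hc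
    have h1 : (1 + ((c : ℂ) - Complex.I) * ((c : ℂ) + Complex.I)⁻¹) = 2 * c * ((c : ℂ) + Complex.I)⁻¹ := by
      field_simp; ring
    have h2 : (1 - ((c : ℂ) - Complex.I) * ((c : ℂ) + Complex.I)⁻¹) = 2 * Complex.I * ((c : ℂ) + Complex.I)⁻¹ := by
      field_simp; ring
    have h3 : (-Complex.I * (1 - ((c : ℂ) - Complex.I) * ((c : ℂ) + Complex.I)⁻¹) / (1 + ((c : ℂ) - Complex.I) * ((c : ℂ) + Complex.I)⁻¹)) = ((1 / c : ℝ) : ℂ) := by
      rw [h1, h2]
      have h4 : ((c : ℂ) + Complex.I)⁻¹ ≠ 0 := inv_ne_zero hne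
      rw [div_eq_iff (by simp [hcc, h4])]
      push_cast
      field_simp
      linear_combination (-1 : ℂ) * Complex.I_sq
    rw [h3, Complex.ofReal_re]
    field_simp

theorem lapFunExists : LapFunExists := by
  intro h hc hs hpos m
  rcases Nat.eq_zero_or_pos m with hm | hm
  · subst hm
    refine ⟨fun _ => 1, continuous_const, ?_⟩
    intro C hC
    simp
  have hφ := phi_cont h hc hs m hm
  have hcont := contOn (m := m) (phi h m) hφ
  have hclosed : IsClosed (unitaryGroup (Fin m) ℂ : Set (Matrix (Fin m) (Fin m) ℂ)) := by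
    have : (unitaryGroup (Fin m) ℂ : Set (Matrix (Fin m) (Fin m) ℂ)) = {U | U * star U = 1} := by
      ext U
      exact mem_unitaryGroup_iff
    rw [this]
    exact isClosed_eq (by fun_prop) continuous_const
  set g0 : (unitaryGroup (Fin m) ℂ : Set (Matrix (Fin m) (Fin m) ℂ)) → ℝ := fun U => Real.exp (-(cfc (phi h m) (U : Matrix (Fin m) (Fin m) ℂ)).trace.re) with hg0
  have hg0c : Continuous g0 := by
    apply Real.continuous_exp.comp
    apply Continuous.neg
    apply Complex.continuous_re.comp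
    exact continuousOn_iff_continuous_domRestrict.mp hcont
  obtain ⟨F, hF⟩ := ContinuousMap.exists_restrict_eq hclosed ⟨g0, hg0c⟩
  refine ⟨F, F.continuous, ?_⟩
  intro C hC
  have hCt : Cᵀ = C := by
    have := hC.eq
    rwa [conjTranspose_eq_transpose_of_trivial] at this
  have hU := Cay_unitary hCt
  have h1 : F (Cay C) = g0 ⟨Cay C, hU⟩ := by
    have := congrArg (fun G => G ⟨Cay C, hU⟩) hF
    change F (Cay C) = g0 ⟨Cay C, hU⟩ at this
    exact this
  rw [h1, hg0]
  simp only
  obtain ⟨V, hV⟩ := Cay_eq_DHom hC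
  rw [hV, cfc_DHom V _ _ _ hφ, DHom_trace]
  · congr 1
    rw [Complex.re_sum]
    congr 1
    refine Finset.sum_congr rfl fun i _ => ?_
    rw [phi_val, Complex.ofReal_re]
  · intro i
    rw [mem_sphere_zero_iff_norm, norm_mul, norm_inv]
    have h2 : ‖((hC.eigenvalues i : ℂ) - Complex.I)‖ = ‖((hC.eigenvalues i : ℂ) + Complex.I)‖ := by
      rw [← Complex.norm_conj]
      congr 1
      rw [map_sub, Complex.conj_ofReal, Complex.conj_I, sub_neg_eq_add]
    rw [h2]
    apply mul_inv_cancel₀
    rw [norm_ne_zero_iff]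
    intro h
    have := congrArg Complex.im h
    simp at this

end Crest.Agent.R166.Rec8
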