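import Crest.Agent.R166.Rec5_255
import Crest.Agent.R166.LapFun_8
import Crest.Agent.R166.Asm_423
import Crest.Agent.R166.SpArr_286

/-!
# Row 166, section 52b (reconstruction), part 6: `recon2 : ReconStatement2` (helper255)
-/

set_option autoImplicit false

noncomputable section

namespace Crest.Agent.R166.Rec255

open Matrix MeasureTheory ProbabilityTheory Gauss286
open Crest.ProbabilityR.RandomMatrix

variable {n m : ℕ}

/-- the functional of the normalised array `A = (π/m) C` -/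
def PhiOf (m : ℕ) (f : Matrix (Fin m) (Fin m) ℂ → ℝ) (A : Matrix (Fin m) (Fin m) ℝ) : ℝ :=
  f (Cay (((m : ℝ) / Real.pi) • A))

lemma isHermitian_smul {A : Matrix (Fin m) (Fin m) ℝ} (hA : A.IsHermitian) (c : ℝ) :
    (c • A).IsHermitian := by
  rw [Matrix.IsHermitian, Matrix.conjTranspose_eq_transpose_of_trivial] at hA ⊢
  rw [Matrix.transpose_smul, hA]

lemma isDg_smul {A : Matrix (Fin m) (Fin m) ℝ} {a : Fin m → ℝ} (h : IsDg A a) (c : ℝ) :
    IsDg (c • A) (fun i => c * a i) := by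
  obtain ⟨O, h1, h2, h3⟩ := h
  refine ⟨O, h1, h2, ?_⟩
  have h4 : diagonal (fun i => c * a i) = c • diagonal a := by
    ext i j
    simp only [Matrix.diagonal_apply, Matrix.smul_apply, smul_eq_mul]
    split_ifs <;> simp
  rw [h4, Matrix.mul_smul, Matrix.smul_mul, ← h3]

lemma isLap_PhiOf {h : ℝ → ℝ} (hm : 0 < m) {f : Matrix (Fin m) (Fin m) ℂ → ℝ}
    (hf : IsLapFun h m f) : IsLap h m (PhiOf m f) := by
  intro A hA
  have hm' : (0 : ℝ) < m := by exact_mod_cast hm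
  have hpi := Real.pi_pos
  have hC := isHermitian_smul hA ((m : ℝ) / Real.pi)
  unfold PhiOf
  rw [hf _ hC]
  congr 2
  have h1 := sum_eq_of_isDg (isDg_eigenvalues hC)
    (isDg_smul (isDg_eigenvalues hA) ((m : ℝ) / Real.pi))
    (fun t => if t = 0 then 0 else h ((m : ℝ) / (Real.pi * t)))
  rw [h1]
  refine Finset.sum_congr rfl fun i _ => ?_
  unfold kf
  by_cases h0 : hA.eigenvalues i = 0
  · rw [h0]; simp
  · rw [if_neg h0, if_neg (mul_ne_zero (div_ne_zero hm'.ne' hpi.ne') h0)]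
    congr 1
    field_simp

lemma measurable_PhiOf {f : Matrix (Fin m) (Fin m) ℂ → ℝ} (hf : Continuous f) :
    Measurable fun A : Fin m → Fin m → ℝ => PhiOf m f (Matrix.of A) := by
  have h1 : Meas423.EM (fun A : Fin m → Fin m → ℝ => ((m : ℝ) / Real.pi) • Matrix.of A) := by
    intro i j
    simp only [Matrix.smul_apply, Matrix.of_apply, smul_eq_mul]
    exact (measurable_entry i j).const_mul _
  exact (Meas423.EM_Cay h1).continuous_comp hf

lemma aK_scale {ρ : ℝ} (hρ : 0 < ρ) (K : ℝ) (y : Fin n → ℝ) :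
    aK (ρ * K) (fun i => ρ * y i) = ρ⁻¹ * ∑ i, y i / (y i ^ 2 + K ^ 2) := by
  unfold aK
  rw [Finset.mul_sum]
  refine Finset.sum_congr rfl fun i _ => ?_
  rw [show (ρ * y i) ^ 2 + (ρ * K) ^ 2 = ρ ^ 2 * (y i ^ 2 + K ^ 2) by ring]
  rcases eq_or_ne (y i ^ 2 + K ^ 2) 0 with h | h
  · rw [h]; simp
  · field_simp

lemma yK_scale {ρ : ℝ} (hρ : 0 < ρ) (K : ℝ) (y : Fin n → ℝ) :
    yK (ρ * K) (fun i => ρ * y i) = ρ⁻¹ * ∑ i, K / (y i ^ 2 + K ^ 2) := by
  unfold yK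
  rw [Finset.mul_sum]
  refine Finset.sum_congr rfl fun i _ => ?_
  rw [show (ρ * y i) ^ 2 + (ρ * K) ^ 2 = ρ ^ 2 * (y i ^ 2 + K ^ 2) by ring]
  rcases eq_or_ne (y i ^ 2 + K ^ 2) 0 with h | h
  · rw [h]; simp
  · field_simp

/-- the array inside `TestVal_eq` -/
lemma arr_scale (hm : 0 < m) {ρ : ℝ} (hρ : 0 < ρ) (y : Fin n → ℝ) (x r : ℝ)
    (g : Fin n → Fin m → ℝ) :
    (1 / (Real.pi * ρ)) • (SpArr286.spArr (fun i => (y i - x)⁻¹) g -
        r • (1 : Matrix (Fin m) (Fin m) ℝ)) =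
      ((m : ℝ) / Real.pi) • Am (fun i => ρ * y i) (ρ * x) (ρ⁻¹ * r) g := by
  have hm' : (m : ℝ) ≠ 0 := by exact_mod_cast hm.ne'
  have hpi := Real.pi_pos.ne'
  have hρ' := hρ.ne'
  have h1 : arr (fun i => ρ * y i) (ρ * x) g = ρ⁻¹ • SpArr286.spArr (fun i => (y i - x)⁻¹) g := by
    ext k l
    simp only [arr, Matrix.smul_apply, SpArr286.spArr_apply, smul_eq_mul, Finset.mul_sum]
    refine Finset.sum_congr rfl fun i _ => ?_
    rw [← mul_sub, div_eq_mul_inv, mul_inv]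
    ring
  unfold Am
  rw [h1, mul_smul, ← smul_sub, smul_smul, smul_smul]
  congr 1
  field_simp

theorem TestVal_scale {H : Matrix (Fin n) (Fin n) ℝ} (hH : H.IsHermitian) (hn : 0 < n)
    (hm : 0 < m) {ρ : ℝ} (hρ : 0 < ρ) {h : ℝ → ℝ} {f f' : Matrix (Fin m) (Fin m) ℂ → ℝ}
    (hf : IsLapFun h m f) (hf' : IsLapFun h m f') (E K δ : ℝ) :
    TestVal H E ρ K δ m f = (ρ * δ)⁻¹ * ∫ x in (0 : ℝ)..(ρ * δ),
      ∫ g : Fin n → Fin m → ℝ, PhiOf m f' (Am (fun i => ρ * SpArr286.hl hH E i) x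
        (ρ⁻¹ * (mn H (zz E K n)).re) g) ∂gm (Fin n) (Fin m) := by
  rw [SpArr286.TestVal_eq hH hn]
  have h1 : ∀ x : ℝ, (∫ g, f (Cay ((1 / (Real.pi * ρ)) •
      (SpArr286.spArr (fun i => (SpArr286.hl hH E i - x)⁻¹) g -
        (mn H (zz E K n)).re • (1 : Matrix (Fin m) (Fin m) ℝ)))) ∂(gm (Fin n) (Fin m))) =
      (fun x' => ∫ g : Fin n → Fin m → ℝ, PhiOf m f' (Am (fun i => ρ * SpArr286.hl hH E i) x'
        (ρ⁻¹ * (mn H (zz E K n)).re) g) ∂gm (Fin n) (Fin m)) (ρ * x) := by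
    intro x
    refine integral_congr_ae (Filter.Eventually.of_forall fun g => ?_)
    simp only
    unfold PhiOf
    rw [arr_scale hm hρ]
    have hA := isHermitian_smul (isHermitian_Am (fun i => ρ * SpArr286.hl hH E i) (ρ * x)
      (ρ⁻¹ * (mn H (zz E K n)).re) g) ((m : ℝ) / Real.pi)
    rw [hf _ hA, hf' _ hA]
  simp only [h1]
  rw [intervalIntegral.integral_comp_mul_left (fun x' => ∫ g : Fin n → Fin m → ℝ,
    PhiOf m f' (Am (fun i => ρ * SpArr286.hl hH E i) x'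
        (ρ⁻¹ * (mn H (zz E K n)).re) g) ∂gm (Fin n) (Fin m)) hρ.ne', mul_zero, smul_eq_mul,
    ← mul_assoc, mul_inv, mul_comm δ⁻¹]

/-- **Section 52b** -/
theorem recon2 : Asm423.ReconStatement2 := by
  intro h hc hs' h0 ρ hρ Y L1 hL1 ε hε
  obtain ⟨δ0, hδ0, hcore⟩ := core hc hs' h0 (ρ⁻¹ * Y) (ρ * L1) (by positivity) hε
  refine ⟨ρ⁻¹ * δ0, by positivity, fun δ hδ hδ1 => ?_⟩
  have hρδ : ρ * δ ≤ δ0 := by
    calc ρ * δ ≤ ρ * (ρ⁻¹ * δ0) := mul_le_mul_of_nonneg_left hδ1 hρ.le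
      _ = δ0 := by field_simp
  obtain ⟨L0, hL0, hcore⟩ := hcore (ρ * δ) (by positivity) hρδ
  refine ⟨ρ⁻¹ * L0, by positivity, fun L hL T => ?_⟩
  have hLpos : 0 < L := lt_of_lt_of_le (by positivity) hL
  have hρL : L0 ≤ ρ * L := by
    calc L0 = ρ * (ρ⁻¹ * L0) := by field_simp
      _ ≤ ρ * L := mul_le_mul_of_nonneg_left hL hρ.le
  obtain ⟨m0, hcore⟩ := hcore (ρ * L) hρL (ρ⁻¹ * T)
  refine ⟨m0 + 1, fun m hm f hf E K hK n hn H hH hY1 hYL hT => ?_⟩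
  have hmpos : 0 < m := by omega
  obtain ⟨f', hf'c, hf'⟩ := Rec8.lapFunExists h hc hs' h0 m
  have hcore := hcore m (by omega) (PhiOf m f') (measurable_PhiOf hf'c) (isLap_PhiOf hmpos hf')
    n (fun i => ρ * SpArr286.hl hH E i) (ρ⁻¹ * (mn H (zz E K n)).re) ?_ ?_ ?_
  · rw [TestVal_scale hH hn hmpos hρ hf hf']
    refine le_trans (le_of_eq ?_) hcore
    congr 2
    unfold laplaceWeight unfoldAt SpArr286.hl
    congr 2
    refine Finset.sum_congr rfl fun i _ => ?_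
    congr 1
    ring
  · rw [yK_scale hρ, ← SpArr286.mn_im hH hn hL1]
    exact mul_le_mul_of_nonneg_left hY1 (by positivity)
  · rw [yK_scale hρ, ← SpArr286.mn_im hH hn hLpos]
    exact mul_le_mul_of_nonneg_left hYL (by positivity)
  · rw [aK_scale hρ, ← SpArr286.mn_re hH hn hLpos, ← mul_sub, abs_mul,
      abs_of_pos (inv_pos.mpr hρ)]
    exact mul_le_mul_of_nonneg_left hT (by positivity)

end Crest.Agent.R166.Rec255
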