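import Crest.Agent.R166.Final_423
import Crest.Agent.R166.Rec6_255
import Crest.Agent.R166.COEmain_682

/-!
Row 166, section 81: final composition, part 2 (helper423): sections 51, 52, 60.1, 81 plugged in.
-/

set_option autoImplicit false

namespace Crest.Agent.R166.Asm423

open MeasureTheory ProbabilityTheory Crest.ProbabilityR.RandomMatrix Crest.Agent.R166

/-- everything after `ImLim`, `InvG`, `InvO` -/
theorem finalGO_of_inv {d : ℕ} {s E ρ : ℝ} (hρ : 0 < ρ) (hIm : ImLim d s E ρ)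
    (hInvG : InvG d s E ρ) (hInvO : InvO)
    (h : ℝ → ℝ) (hc : Continuous h) (hs : HasCompactSupport h) (h0 : ∀ t, 0 ≤ h t) :
    FinalGO d s E ρ h :=
  finalGO_of hρ hIm hInvG hInvO (COE682.coeStatement d s E ρ) Rec255.recon2 h hc hs h0

theorem kestenMcKay_pos {d : ℕ} (hd : 3 ≤ d) {E : ℝ} (hE : E ^ 2 < 4 * ((d : ℝ) - 1)) :
    0 < kestenMcKayDensity d E := by
  have hd' : (3 : ℝ) ≤ d := by exact_mod_cast hd
  unfold kestenMcKayDensity
  have h1 : 0 < 4 * ((d : ℝ) - 1) - E ^ 2 := by linarith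
  have h2 : 0 < (d : ℝ) ^ 2 - E ^ 2 := by nlinarith [sq_nonneg ((d : ℝ) - 2)]
  have h3 : 0 < Real.sqrt (4 * ((d : ℝ) - 1) - E ^ 2) := Real.sqrt_pos.2 h1
  have := Real.pi_pos
  positivity

/-- S0251 from `ImLim`, `InvG`, `InvO` -/
theorem s0251_of_inv {d : ℕ} (hd : 3 ≤ d) {E : ℝ} (hE : E ^ 2 < 4 * ((d : ℝ) - 1))
    {h : ℝ → ℝ} (hc : Continuous h) (hs : HasCompactSupport h) (h0 : ∀ t, 0 ≤ h t)
    (hIm : ImLim d 0 E (kestenMcKayDensity d E)) (hInvG : InvG d 0 E (kestenMcKayDensity d E))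
    (hInvO : InvO) :
    ∀ ε : ℝ, 0 < ε → ∃ N : ℕ, ∀ n : ℕ, N ≤ n → (regularGraphs n d).Nonempty →
      |regularAverage n d (fun G => adjLaplaceWeight G
          (unfoldAt h (n * kestenMcKayDensity d E) E)) -
          ∫ g, goeLaplaceWeight g (unfoldAt h (n / Real.pi) 0) ∂goeDisorderLaw n| < ε :=
  s0251_of (finalGO_of_inv (kestenMcKay_pos hd hE) hIm hInvG hInvO h hc hs h0)

end Crest.Agent.R166.Asm423
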