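import Crest.Agent.R166.GoeLLb_583

/-!
Row 166 (helper583), section 60.1, part 3: `E |1 + z m + m²|² ≤ 60 / K²` and `ImLimO`.
-/

set_option autoImplicit false

open MeasureTheory ProbabilityTheory Matrix
open Crest.ProbabilityR.RandomMatrix

namespace Crest.Agent.R166.Goe583

open Res789 (cx imM)

/-- scalar inequality -/
lemma scalar_bound {a μ k : ℝ} (ha : 0 ≤ a) (hμ : 0 ≤ μ) (hk : 0 ≤ k) (hk1 : k ≤ 1 / 10)
    (h : μ ^ 2 ≤ 2 * a + 3) :
    μ * a * k + 2 * ((1 + 2 * μ) * μ) * k ^ 2 ≤ 3 / 5 * a ^ 2 + 21 * k ^ 2 := by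
  have h1 : μ ≤ (1 + μ ^ 2) / 2 := by nlinarith [sq_nonneg (μ - 1)]
  have h2 : μ ≤ a + 2 := by linarith
  have h3 : μ * a * k ≤ (a + 2) * a * k :=
    mul_le_mul_of_nonneg_right (mul_le_mul_of_nonneg_right h2 ha) hk
  have h4 : a ^ 2 * k ≤ a ^ 2 * (1 / 10) := mul_le_mul_of_nonneg_left hk1 (sq_nonneg a)
  have h5 : 2 * a * k ≤ a ^ 2 / 4 + 4 * k ^ 2 := by nlinarith [sq_nonneg (a / 2 - 2 * k)]
  have h6 : 2 * ((1 + 2 * μ) * μ) ≤ 16 + 10 * a := by nlinarith
  have h7 : 2 * ((1 + 2 * μ) * μ) * k ^ 2 ≤ (16 + 10 * a) * k ^ 2 :=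
    mul_le_mul_of_nonneg_right h6 (sq_nonneg k)
  have h8 : 10 * a * k ^ 2 ≤ a * k := by
    have : k ^ 2 ≤ k * (1 / 10) := by nlinarith
    nlinarith
  have h9 : a * k ≤ a ^ 2 / 4 + k ^ 2 := by nlinarith [sq_nonneg (a / 2 - k)]
  nlinarith

section goe

variable {n : ℕ}

lemma mx_im_nonneg {z : ℂ} (hz : 0 < z.im) (x : Fin n × Fin n → ℝ) : 0 ≤ (mx z x).im := by
  unfold mx
  have h := hs_res (Hx_symm x) hz
  have h2 : 0 ≤ hs (Res789.Res (Hx x) z) :=
    Finset.sum_nonneg fun _ _ => Finset.sum_nonneg fun _ _ => by positivity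
  rw [Complex.div_natCast_im]
  unfold Rx
  rw [← h]
  positivity

lemma hs_le (hn : 0 < n) {z : ℂ} (hz : 0 < z.im) (x : Fin n × Fin n → ℝ) :
    hs (Rx z x) ≤ n * ‖mx z x‖ / z.im := by
  have hn' : (0 : ℝ) < n := by exact_mod_cast hn
  have h := hs_res (Hx_symm x) hz
  rw [le_div_iff₀ hz, mul_comm]
  unfold Rx
  rw [h]
  have h2 : (Res789.Res (Hx x) z).trace = n * mx z x := by
    have hne : (n : ℂ) ≠ 0 := by exact_mod_cast hn.ne'
    unfold mx Rx
    rw [mul_div_cancel₀ _ hne]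
  rw [h2]
  refine (le_abs_self _).trans ((Complex.abs_im_le_norm _).trans ?_)
  rw [norm_mul, Complex.norm_natCast]

lemma mx_sq_le {z : ℂ} (hz1 : ‖z‖ ≤ 1) (x : Fin n × Fin n → ℝ) :
    ‖mx z x‖ ^ 2 ≤ 2 * ‖Px z x‖ + 3 := by
  have h1 : mx z x * mx z x = Px z x - 1 - z * mx z x := by unfold Px; ring
  have h2 : ‖mx z x‖ ^ 2 ≤ ‖Px z x‖ + 1 + ‖mx z x‖ := by
    calc ‖mx z x‖ ^ 2 = ‖mx z x * mx z x‖ := by rw [norm_mul, sq]
      _ = ‖Px z x - 1 - z * mx z x‖ := by rw [h1]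
      _ ≤ ‖Px z x - 1‖ + ‖z * mx z x‖ := norm_sub_le _ _
      _ ≤ (‖Px z x‖ + 1) + ‖mx z x‖ := by
        refine add_le_add ?_ ?_
        · exact (norm_sub_le _ _).trans (by simp)
        · rw [norm_mul]
          exact mul_le_of_le_one_left (norm_nonneg _) hz1
  nlinarith [sq_nonneg (‖mx z x‖ - 1)]

/-- **second moment bound** -/
theorem sq_bound (hn : 0 < n) {z : ℂ} (hz : 0 < z.im) (hz1 : ‖z‖ ≤ 1)
    (hK : 10 ≤ n * z.im) :
    ∫ x, ‖Px z x‖ ^ 2 ∂(gam n) ≤ 60 / (n * z.im) ^ 2 := by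
  have hn' : (0 : ℝ) < n := by exact_mod_cast hn
  set K : ℝ := n * z.im with hKdef
  have hK0 : 0 < K := by linarith
  set I : ℝ := ∫ x, ‖Px z x‖ ^ 2 ∂(gam n) with hI
  have hint : Integrable (fun x => ‖Px z x‖ ^ 2) (gam n) := by
    have h1 := ((nice_Px (n := n) hz).mul (nice_Px (n := n) hz).star).integrable (gam n)
    refine h1.norm.congr (Filter.Eventually.of_forall fun x => ?_)
    simp only
    rw [norm_mul, norm_star, sq]
  have e1 : ∫ x, (n : ℂ) * (Px z x * star (Px z x)) ∂(gam n) = ((n * I : ℝ) : ℂ) := by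
    rw [hI, ← integral_const_mul, ← integral_complex_ofReal]
    refine integral_congr_ae (Filter.Eventually.of_forall fun x => ?_)
    simp only
    rw [Complex.star_def, Complex.mul_conj, Complex.normSq_eq_norm_sq]
    push_cast
    ring
  have e2 := integral_identity hn hz
  rw [e1] at e2
  have hI0 : 0 ≤ I := integral_nonneg fun x => by positivity
  have e3 : n * I ≤ ∫ x, n * (3 / 5 * ‖Px z x‖ ^ 2 + 21 * (1 / K) ^ 2) ∂(gam n) := by
    have h1 : n * I = ‖((n * I : ℝ) : ℂ)‖ := by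
      rw [Complex.norm_real, Real.norm_of_nonneg (by positivity)]
    rw [h1, e2]
    refine (norm_integral_le_integral_norm _).trans ?_
    refine integral_mono_of_nonneg (Filter.Eventually.of_forall fun x => norm_nonneg _) ?_ ?_
    · exact ((hint.const_mul _).add (integrable_const _)).const_mul _
    · refine Filter.Eventually.of_forall fun x => ?_
      simp only
      have b1 := norm_trace_mul_le (Hx_symm x) hz
      have b2 := norm_trace_mul3_le (Hx_symm x) hz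
      have b3 := hs_le hn hz x
      have b4 : ‖z + 2 * mx z x‖ ≤ 1 + 2 * ‖mx z x‖ := by
        refine (norm_add_le _ _).trans (add_le_add hz1 ?_)
        rw [norm_mul]; simp
      set a := ‖Px z x‖ with ha
      set μ := ‖mx z x‖ with hμ
      have ha0 : 0 ≤ a := norm_nonneg _
      have hμ0 : 0 ≤ μ := norm_nonneg _
      have c1 : ‖-(1 / (n : ℂ)) * (Rx z x * Rx z x).trace * star (Px z x)‖ ≤
          n * (μ * a * (1 / K)) := by
        rw [norm_mul, norm_mul, norm_star, norm_neg, norm_div, norm_one, Complex.norm_natCast]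
        have : ‖(Rx z x * Rx z x).trace‖ ≤ n * μ / z.im := b1.trans b3
        calc 1 / (n : ℝ) * ‖(Rx z x * Rx z x).trace‖ * a ≤ 1 / (n : ℝ) * (n * μ / z.im) * a := by
              gcongr
          _ = n * (μ * a * (1 / K)) := by
              rw [hKdef]; field_simp
      have c2 : ‖star (z + 2 * mx z x) / n *
          ((2 / (n : ℂ)) * (Rx z x * ((Rx z x)ᴴ * (Rx z x)ᴴ)).trace)‖ ≤
          n * (2 * ((1 + 2 * μ) * μ) * (1 / K) ^ 2) := by
        rw [norm_mul, norm_mul, norm_div, norm_div, norm_star, Complex.norm_natCast]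
        have h2 : ‖(2 : ℂ)‖ = 2 := by simp
        rw [h2]
        have : ‖(Rx z x * ((Rx z x)ᴴ * (Rx z x)ᴴ)).trace‖ ≤ (n * μ / z.im) / z.im :=
          b2.trans (by gcongr; exact b3)
        calc ‖z + 2 * mx z x‖ / n * (2 / n * ‖(Rx z x * ((Rx z x)ᴴ * (Rx z x)ᴴ)).trace‖) ≤
            (1 + 2 * μ) / n * (2 / n * ((n * μ / z.im) / z.im)) := by
              gcongr
          _ = n * (2 * ((1 + 2 * μ) * μ) * (1 / K) ^ 2) := by
              rw [hKdef]; field_simp
      have c3 := scalar_bound (k := 1 / K) ha0 hμ0 (by positivity)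
        (by rw [div_le_div_iff₀ hK0 (by norm_num)]; linarith) (mx_sq_le hz1 x)
      refine (norm_sub_le _ _).trans ((add_le_add c1 c2).trans ?_)
      rw [← mul_add]
      exact mul_le_mul_of_nonneg_left c3 hn'.le
  have e4 : ∫ x, n * (3 / 5 * ‖Px z x‖ ^ 2 + 21 * (1 / K) ^ 2) ∂(gam n) =
      n * (3 / 5 * I + 21 * (1 / K) ^ 2) := by
    rw [integral_const_mul, integral_add (hint.const_mul _) (integrable_const _),
      integral_const_mul, integral_const]
    simp [hI]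
  rw [e4] at e3
  have e5 : I ≤ 3 / 5 * I + 21 * (1 / K) ^ 2 := le_of_mul_le_mul_left e3 hn'
  have e6 : 60 / K ^ 2 = 60 * (1 / K) ^ 2 := by field_simp
  rw [e6]
  nlinarith [sq_nonneg (1 / K)]

/-- stability at the energy `0` -/
lemma dist_I_le {z : ℂ} {η : ℝ} (hz : z = Complex.I * (η : ℂ)) (hη : 0 < η) (hη1 : η ≤ 1 / 2)
    (x : Fin n × Fin n → ℝ) : ‖mx z x - Complex.I‖ ≤ 2 * ‖Px z x‖ + 2 * η := by
  have hzim : 0 < z.im := by rw [hz]; simpa using hη
  have hzn : ‖z‖ = η := by rw [hz]; simp [abs_of_pos hη]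
  have h1 : (mx z x - Complex.I) * (mx z x + Complex.I) = Px z x - z * mx z x := by
    unfold Px
    ring_nf
    rw [Complex.I_sq]
    ring
  have h2 : 1 ≤ ‖mx z x + Complex.I‖ := by
    have h3 : (mx z x + Complex.I).im = (mx z x).im + 1 := by simp
    have h4 := mx_im_nonneg hzim x
    calc (1 : ℝ) ≤ (mx z x + Complex.I).im := by rw [h3]; linarith
      _ ≤ |(mx z x + Complex.I).im| := le_abs_self _
      _ ≤ _ := Complex.abs_im_le_norm _
  have h5 : ‖mx z x - Complex.I‖ ≤ ‖Px z x‖ + η * ‖mx z x‖ := by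
    calc ‖mx z x - Complex.I‖ ≤ ‖mx z x - Complex.I‖ * ‖mx z x + Complex.I‖ :=
          le_mul_of_one_le_right (norm_nonneg _) h2
      _ = ‖Px z x - z * mx z x‖ := by rw [← norm_mul, h1]
      _ ≤ ‖Px z x‖ + ‖z * mx z x‖ := norm_sub_le _ _
      _ = ‖Px z x‖ + η * ‖mx z x‖ := by rw [norm_mul, hzn]
  have h6 : ‖mx z x‖ ≤ 1 + ‖mx z x - Complex.I‖ := by
    calc ‖mx z x‖ = ‖Complex.I + (mx z x - Complex.I)‖ := by congr 1; ring
      _ ≤ ‖Complex.I‖ + ‖mx z x - Complex.I‖ := norm_add_le _ _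
      _ = _ := by rw [Complex.norm_I]
  have h7 : 0 ≤ ‖mx z x - Complex.I‖ := norm_nonneg _
  nlinarith

end goe

/-- **The GOE local law** (section 60.1). -/
theorem imLimO : ImLimO := by
  intro ε hε
  refine ⟨10 + 96 / ε ^ 3, by positivity, fun K hK => ?_⟩
  have hK10 : 10 ≤ K := by
    have : 0 < 96 / ε ^ 3 := by positivity
    linarith
  have hK0 : 0 < K := by linarith
  refine ⟨⌈K * (2 + 8 / ε)⌉₊ + 1, fun n hn => ?_⟩
  have hn0 : 0 < n := by omega
  have hn' : (0 : ℝ) < n := by exact_mod_cast hn0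
  have hn2 : K * (2 + 8 / ε) ≤ n := by
    refine (Nat.le_ceil _).trans ?_
    have : ⌈K * (2 + 8 / ε)⌉₊ ≤ n := by omega
    exact_mod_cast this
  set z : ℂ := zz 0 K n with hzdef
  set η : ℝ := K / n with hη
  have hη0 : 0 < η := by positivity
  have hz : z = Complex.I * (η : ℂ) := by
    rw [hzdef, zz]; simp [hη]
  have hη1 : η ≤ 1 / 2 := by
    rw [hη, div_le_div_iff₀ hn' (by norm_num)]
    have : 0 < K * (8 / ε) := by positivity
    nlinarith
  have hη2 : η ≤ ε / 8 := by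
    rw [hη, div_le_div_iff₀ hn' (by norm_num)]
    have h1 : K * (8 / ε) ≤ n := by nlinarith
    have h2 : K * (8 / ε) * ε = K * 8 := by field_simp
    nlinarith
  have hzim : z.im = η := by rw [hz]; simp
  have hz0 : 0 < z.im := by rw [hzim]; exact hη0
  have hzn : ‖z‖ ≤ 1 := by
    rw [hz]
    simp only [norm_mul, Complex.norm_I, one_mul, Complex.norm_real, Real.norm_eq_abs,
      abs_of_pos hη0]
    linarith
  have hKn : n * z.im = K := by rw [hzim, hη]; field_simp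
  have hsq := sq_bound hn0 hz0 hzn (by rw [hKn]; exact hK10)
  rw [hKn] at hsq
  -- the set in uncurried form
  have hset : {g : GOEDisorder n | ε < ‖mn (goeMatrix g) z - Complex.I‖} =
      (fun (g : Fin n → Fin n → ℝ) (p : Fin n × Fin n) => g p.1 p.2) ⁻¹'
        {x | ε < ‖mx z x - Complex.I‖} := rfl
  have hmeas : MeasurableSet {x : Fin n × Fin n → ℝ | ε < ‖mx z x - Complex.I‖} :=
    measurableSet_lt measurable_const
      (((nice_mx hz0).1.sub continuous_const).norm.measurable)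
  have h1 : (goeDisorderLaw n) {g | ε < ‖mn (goeMatrix g) z - Complex.I‖} =
      (gam n) {x | ε < ‖mx z x - Complex.I‖} := by
    rw [hset]
    have h2 := Gauss286.gm_map_uncurry (ι := Fin n) (κ := Fin n)
    have h3 : (goeDisorderLaw n).map
        (fun (g : Fin n → Fin n → ℝ) (p : Fin n × Fin n) => g p.1 p.2) = gam n := h2
    rw [← h3, Measure.map_apply Gauss286.measurable_uncurry' hmeas]
  rw [h1]
  have h4 : {x : Fin n × Fin n → ℝ | ε < ‖mx z x - Complex.I‖} ⊆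
      {x | (ε / 4) ^ 2 ≤ ‖Px z x‖ ^ 2} := by
    intro x hx
    change ε < ‖mx z x - Complex.I‖ at hx
    change (ε / 4) ^ 2 ≤ ‖Px z x‖ ^ 2
    have h5 := dist_I_le hz hη0 hη1 x
    have h6 : ε / 4 ≤ ‖Px z x‖ := by linarith
    exact pow_le_pow_left₀ (by positivity) h6 2
  have hint : Integrable (fun x => ‖Px z x‖ ^ 2) (gam n) := by
    have h1 := ((nice_Px (n := n) hz0).mul (nice_Px (n := n) hz0).star).integrable (gam n)
    refine h1.norm.congr (Filter.Eventually.of_forall fun x => ?_)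
    simp only
    rw [norm_mul, norm_star, sq]
  have h7 := mul_meas_ge_le_integral_of_nonneg
    (Filter.Eventually.of_forall fun x => by positivity : 0 ≤ᵐ[gam n] fun x => ‖Px z x‖ ^ 2)
    hint ((ε / 4) ^ 2)
  have h8 : (gam n).real {x | (ε / 4) ^ 2 ≤ ‖Px z x‖ ^ 2} ≤ ε := by
    have h9 : (ε / 4) ^ 2 * (gam n).real {x | (ε / 4) ^ 2 ≤ ‖Px z x‖ ^ 2} ≤ 60 / K ^ 2 :=
      h7.trans hsq
    have h10 : 60 / K ^ 2 ≤ (ε / 4) ^ 2 * ε := by
      rw [div_le_iff₀ (by positivity)]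
      have h11 : 96 / ε ^ 3 ≤ K := by linarith
      have h12 : 96 ≤ K * ε ^ 3 := by rwa [div_le_iff₀ (by positivity)] at h11
      have h13 : 96 * 10 ≤ K * ε ^ 3 * K := by nlinarith
      nlinarith
    exact le_of_mul_le_mul_left (h9.trans h10) (by positivity)
  calc (gam n) {x | ε < ‖mx z x - Complex.I‖} ≤ (gam n) {x | (ε / 4) ^ 2 ≤ ‖Px z x‖ ^ 2} :=
        measure_mono h4
    _ = ENNReal.ofReal ((gam n).real {x | (ε / 4) ^ 2 ≤ ‖Px z x‖ ^ 2}) := by
        rw [measureReal_def, ENNReal.ofReal_toReal (measure_ne_top _ _)]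
    _ ≤ ENNReal.ofReal ε := ENNReal.ofReal_le_ofReal h8

end Crest.Agent.R166.Goe583
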