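import Crest.Agent.R166.SpArr_286

/-!
Row 166, (52c): tightness of the one-dimensional test array (helper8).
`tightTest : TightTest`; `tail_bound` (pointwise in `x`), `first_moment`, `card_near`.
-/

set_option autoImplicit false
set_option linter.unusedSectionVars false

noncomputable section

namespace Crest.Agent.R166.Rec8
open Matrix MeasureTheory ProbabilityTheory Gauss286 SpArr286

lemma int_coord_sq {ι : Type*} [Fintype ι] (i : ι) : ∫ x, (x i) ^ 2 ∂(gv ι) = 1 := by
  classical
  have h := lin_sq (ι := ι) (fun j => if j = i then 1 else 0)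
  simp only [ite_mul, one_mul, zero_mul, Finset.sum_ite_eq', Finset.mem_univ, if_true] at h
  rw [h]
  simp [ite_pow]

lemma integrable_coord_sq {ι : Type*} [Fintype ι] (i : ι) : Integrable (fun x : ι → ℝ => (x i) ^ 2) (gv ι) := by
  by_contra h
  have := int_coord_sq (ι := ι) i
  rw [integral_undef h] at this
  exact zero_ne_one this

lemma integrable_quad_diag_sq {ι : Type*} [Fintype ι] (a : ι → ℝ) :
    Integrable (fun x : ι → ℝ => (∑ i, a i * (x i ^ 2 - 1)) ^ 2) (gv ι) := by
  by_cases h0 : ∑ i, a i ^ 2 = 0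
  · have h1 : ∀ i, a i = 0 := by
      intro i
      have := (Finset.sum_eq_zero_iff_of_nonneg (fun i _ => sq_nonneg (a i))).mp h0 i (Finset.mem_univ i)
      simpa using this
    simp [h1]
  · by_contra h
    have := quad_diag (ι := ι) a
    rw [integral_undef h] at this
    apply h0
    linarith

/-- first moment bound for `∑ c_i x_i² - ∑ b_i` -/
lemma first_moment {ι : Type*} [Fintype ι] (c b : ι → ℝ) (F : ι → Prop) [DecidablePred F] :
    Integrable (fun x : ι → ℝ => |∑ i, c i * x i ^ 2 - ∑ i, b i|) (gv ι) ∧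
    ∫ x, |∑ i, c i * x i ^ 2 - ∑ i, b i| ∂(gv ι) ≤
      (1 + 2 * ∑ i, (if F i then c i ^ 2 else 0)) / 2 + 
        ∑ i, (if F i then |c i - b i| else |c i| + |b i|) := by
  have hint : Integrable (fun x : ι → ℝ => |∑ i, c i * x i ^ 2 - ∑ i, b i|) (gv ι) := by
    apply Integrable.abs
    apply Integrable.sub
    · exact integrable_finsetSum _ fun i _ => (integrable_coord_sq i).const_mul _
    · exact integrable_const _
  refine ⟨hint, ?_⟩
  set a : ι → ℝ := fun i => if F i then c i else 0 with ha
  have hpt : ∀ x : ι → ℝ, |∑ i, c i * x i ^ 2 - ∑ i, b i| ≤ (1 + (∑ i, a i * (x i ^ 2 - 1)) ^ 2) / 2 +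
      ∑ i, (if F i then |c i - b i| else |c i| * x i ^ 2 + |b i|) := by
    intro x
    have h1 : ∑ i, c i * x i ^ 2 - ∑ i, b i = ∑ i, a i * (x i ^ 2 - 1) +
        ∑ i, (if F i then c i - b i else c i * x i ^ 2 - b i) := by
      rw [← Finset.sum_sub_distrib, ← Finset.sum_add_distrib]
      refine Finset.sum_congr rfl fun i _ => ?_
      simp only [ha]
      split_ifs <;> ring
    rw [h1]
    refine (abs_add_le _ _).trans (add_le_add ?_ ?_)
    · have h2 := sq_nonneg (|∑ i, a i * (x i ^ 2 - 1)| - 1)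
      have h3 := sq_abs (∑ i, a i * (x i ^ 2 - 1))
      nlinarith
    · refine (Finset.abs_sum_le_sum_abs _ _).trans (Finset.sum_le_sum fun i _ => ?_)
      split_ifs
      · exact le_rfl
      · refine (abs_sub _ _).trans ?_
        rw [abs_mul, abs_of_nonneg (sq_nonneg (x i))]
  have hi1 : Integrable (fun x : ι → ℝ => (1 + (∑ i, a i * (x i ^ 2 - 1)) ^ 2) / 2) (gv ι) :=
    ((integrable_const _).add (integrable_quad_diag_sq a)).div_const _
  have hi2 : ∀ i, Integrable (fun x : ι → ℝ => (if F i then |c i - b i| else |c i| * x i ^ 2 + |b i|)) (gv ι) := by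
    intro i
    split_ifs
    · exact integrable_const _
    · exact ((integrable_coord_sq i).const_mul _).add (integrable_const _)
  calc ∫ x, |∑ i, c i * x i ^ 2 - ∑ i, b i| ∂(gv ι)
      ≤ ∫ x, ((1 + (∑ i, a i * (x i ^ 2 - 1)) ^ 2) / 2 +
      ∑ i, (if F i then |c i - b i| else |c i| * x i ^ 2 + |b i|)) ∂(gv ι) :=
        integral_mono hint (hi1.add (integrable_finsetSum _ fun i _ => hi2 i)) hpt
    _ = _ := by
        rw [integral_add hi1 (integrable_finsetSum _ fun i _ => hi2 i), integral_finsetSum _ fun i _ => hi2 i,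
          integral_div, integral_add (integrable_const _) (integrable_quad_diag_sq a), quad_diag]
        congr 1
        · simp only [integral_const, smul_eq_mul, mul_one, probReal_univ]
          congr 4
          funext i
          simp only [ha]
          split_ifs <;> simp
        · refine Finset.sum_congr rfl fun i _ => ?_
          split_ifs
          · simp
          · rw [integral_add ((integrable_coord_sq i).const_mul _) (integrable_const _), integral_const_mul, int_coord_sq]
            simp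


/-- the deterministic sums -/
lemma tight_sums {ι : Type*} [Fintype ι] (y : ι → ℝ) {Y L δ τ x : ℝ} (hL : 0 < L) (hδ : 0 < δ) (hτ : 0 < τ)
    (hY : ∑ i, L / (y i ^ 2 + L ^ 2) ≤ Y) (hx0 : 0 ≤ x) (hx1 : x ≤ δ)
    (hx : ∀ i, |y i| ≤ 2 * δ + L → τ ≤ |y i - x|) :
    (1 + 2 * ∑ i, (if 2 * δ + L < |y i| then ((y i - x)⁻¹) ^ 2 else 0)) / 2 + 
        ∑ i, (if 2 * δ + L < |y i| then |(y i - x)⁻¹ - y i / (y i ^ 2 + L ^ 2)| else
          |(y i - x)⁻¹| + |y i / (y i ^ 2 + L ^ 2)|) ≤
      (1 + 2 * (8 * (Y / L))) / 2 + (2 * L + 2 * δ + (1 / τ + 1 / L) * ((2 * δ + L) ^ 2 + L ^ 2)) * (Y / L) := by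
  have hYL : ∑ i, 1 / (y i ^ 2 + L ^ 2) ≤ Y / L := by
    rw [le_div_iff₀ hL, Finset.sum_mul]
    refine le_trans (le_of_eq ?_) hY
    refine Finset.sum_congr rfl fun i _ => by ring
  have hpos : ∀ i, 0 < y i ^ 2 + L ^ 2 := fun i => by positivity
  have key : ∀ i, 2 * δ + L < |y i| → |y i| / 2 ≤ |y i - x| ∧ L ^ 2 ≤ y i ^ 2 ∧ 0 < |y i| := by
    intro i hi
    have h1 : |y i| - |x| ≤ |y i - x| := abs_sub_abs_le_abs_sub _ _
    rw [abs_of_nonneg hx0] at h1
    refine ⟨by linarith, ?_, by linarith⟩
    rw [← sq_abs (y i)]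
    exact pow_le_pow_left₀ hL.le (by linarith) 2
  have h1 : ∑ i, (if 2 * δ + L < |y i| then ((y i - x)⁻¹) ^ 2 else 0) ≤ 8 * (Y / L) := by
    calc ∑ i, (if 2 * δ + L < |y i| then ((y i - x)⁻¹) ^ 2 else 0)
        ≤ ∑ i, 8 * (1 / (y i ^ 2 + L ^ 2)) := by
          refine Finset.sum_le_sum fun i _ => ?_
          split_ifs with hi
          · obtain ⟨h2, h3, h4⟩ := key i hi
            have h5 : y i ^ 2 / 4 ≤ (y i - x) ^ 2 := by
              have := pow_le_pow_left₀ (by positivity) h2 2
              rw [div_pow, sq_abs, sq_abs] at this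
              linarith
            have h6 : (y i ^ 2 + L ^ 2) / 8 ≤ (y i - x) ^ 2 := by linarith
            rw [inv_pow, mul_one_div]
            have h7 : (0:ℝ) < (y i ^ 2 + L ^ 2) / 8 := by have := hpos i; positivity
            have := inv_anti₀ h7 h6
            rwa [inv_div] at this
          · have := hpos i; positivity
      _ = 8 * ∑ i, 1 / (y i ^ 2 + L ^ 2) := by rw [Finset.mul_sum]
      _ ≤ _ := by linarith
  have h2 : ∑ i, (if 2 * δ + L < |y i| then |(y i - x)⁻¹ - y i / (y i ^ 2 + L ^ 2)| else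
          |(y i - x)⁻¹| + |y i / (y i ^ 2 + L ^ 2)|) ≤ 
      (2 * L + 2 * δ + (1 / τ + 1 / L) * ((2 * δ + L) ^ 2 + L ^ 2)) * (Y / L) := by
    calc _ ≤ ∑ i, (2 * L + 2 * δ + (1 / τ + 1 / L) * ((2 * δ + L) ^ 2 + L ^ 2)) * (1 / (y i ^ 2 + L ^ 2)) := by
          refine Finset.sum_le_sum fun i _ => ?_
          have hp := hpos i
          split_ifs with hi
          · obtain ⟨h3, h4, h5⟩ := key i hi
            have hne : y i - x ≠ 0 := by
              intro h0; rw [h0, abs_zero] at h3; linarith
            have e1 : (y i - x)⁻¹ - y i / (y i ^ 2 + L ^ 2) = (L ^ 2 + x * y i) / ((y i - x) * (y i ^ 2 + L ^ 2)) := by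
              rw [eq_div_iff (mul_ne_zero hne hp.ne')]
              field_simp
              ring
            rw [e1, abs_div, abs_mul, abs_of_pos hp, mul_one_div]
            rw [div_le_div_iff₀ (mul_pos (abs_pos.mpr hne) hp) hp]
            have h6 : |L ^ 2 + x * y i| ≤ (2 * L + 2 * δ) * |y i - x| := by
              have h7 : |L ^ 2 + x * y i| ≤ L ^ 2 + δ * |y i| := by
                refine (abs_add_le _ _).trans ?_
                rw [abs_mul, abs_of_nonneg hx0, abs_of_nonneg (sq_nonneg L)]
                have : x * |y i| ≤ δ * |y i| := mul_le_mul_of_nonneg_right hx1 (abs_nonneg _)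
                linarith
              have h8 : L ^ 2 ≤ L * |y i| := by
                rw [sq]; exact mul_le_mul_of_nonneg_left (by linarith) hL.le
              have h9 : (L + δ) * |y i| ≤ (L + δ) * (2 * |y i - x|) :=
                mul_le_mul_of_nonneg_left (by linarith) (by positivity)
              nlinarith
            have h10 : (0:ℝ) ≤ (1 / τ + 1 / L) * ((2 * δ + L) ^ 2 + L ^ 2) := by positivity
            calc |L ^ 2 + x * y i| * (y i ^ 2 + L ^ 2) ≤ ((2 * L + 2 * δ) * |y i - x|) * (y i ^ 2 + L ^ 2) :=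
                  mul_le_mul_of_nonneg_right h6 hp.le
              _ = (2 * L + 2 * δ) * (|y i - x| * (y i ^ 2 + L ^ 2)) := by ring
              _ ≤ _ := by
                  apply mul_le_mul_of_nonneg_right (by linarith)
                  positivity
          · have hi' : |y i| ≤ 2 * δ + L := not_lt.mp hi
            have h3 : |(y i - x)⁻¹| ≤ 1 / τ := by
              rw [abs_inv, one_div]
              exact inv_anti₀ hτ (hx i hi')
            have h4 : |y i / (y i ^ 2 + L ^ 2)| ≤ 1 / L := by
              rw [abs_div, abs_of_pos hp, div_le_div_iff₀ hp hL]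
              have := sq_nonneg (|y i| - L)
              have := sq_abs (y i)
              nlinarith [abs_nonneg (y i)]
            have h5 : y i ^ 2 + L ^ 2 ≤ (2 * δ + L) ^ 2 + L ^ 2 := by
              have := pow_le_pow_left₀ (abs_nonneg (y i)) hi' 2
              rw [sq_abs] at this
              linarith
            have h6 : (1:ℝ) ≤ ((2 * δ + L) ^ 2 + L ^ 2) * (1 / (y i ^ 2 + L ^ 2)) := by
              rw [mul_one_div, le_div_iff₀ hp]; linarith
            have h7 : (0:ℝ) ≤ (2 * L + 2 * δ) * (1 / (y i ^ 2 + L ^ 2)) := by positivity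
            have h8 : (0:ℝ) ≤ 1 / τ + 1 / L := by positivity
            have h9 := mul_le_mul_of_nonneg_left h6 h8
            nlinarith
      _ = (2 * L + 2 * δ + (1 / τ + 1 / L) * ((2 * δ + L) ^ 2 + L ^ 2)) * ∑ i, 1 / (y i ^ 2 + L ^ 2) := by rw [Finset.mul_sum]
      _ ≤ _ := mul_le_mul_of_nonneg_left hYL (by positivity)
  linarith

/-- number of near points -/
lemma card_near {ι : Type*} [Fintype ι] (y : ι → ℝ) {Y L M : ℝ} (hL : 0 < L) 
    (hY : ∑ i, L / (y i ^ 2 + L ^ 2) ≤ Y) :
    ((Finset.univ.filter fun i => |y i| ≤ M).card : ℝ) ≤ (M ^ 2 + L ^ 2) * (Y / L) := by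
  have hYL : ∑ i, 1 / (y i ^ 2 + L ^ 2) ≤ Y / L := by
    rw [le_div_iff₀ hL, Finset.sum_mul]
    refine le_trans (le_of_eq ?_) hY
    refine Finset.sum_congr rfl fun i _ => by ring
  have hpos : ∀ i, 0 < y i ^ 2 + L ^ 2 := fun i => by positivity
  calc ((Finset.univ.filter fun i => |y i| ≤ M).card : ℝ) = ∑ i ∈ Finset.univ.filter (fun i => |y i| ≤ M), (1:ℝ) := by simp
    _ ≤ ∑ i ∈ Finset.univ.filter (fun i => |y i| ≤ M), (M ^ 2 + L ^ 2) * (1 / (y i ^ 2 + L ^ 2)) := by
        refine Finset.sum_le_sum fun i hi => ?_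
        rw [Finset.mem_filter] at hi
        rw [mul_one_div, le_div_iff₀ (hpos i)]
        have := pow_le_pow_left₀ (abs_nonneg (y i)) hi.2 2
        rw [sq_abs] at this
        linarith
    _ ≤ ∑ i, (M ^ 2 + L ^ 2) * (1 / (y i ^ 2 + L ^ 2)) := by
        apply Finset.sum_le_sum_of_subset_of_nonneg (Finset.filter_subset _ _)
        intro i _ _
        have := hpos i
        positivity
    _ = (M ^ 2 + L ^ 2) * ∑ i, 1 / (y i ^ 2 + L ^ 2) := by rw [Finset.mul_sum]
    _ ≤ _ := mul_le_mul_of_nonneg_left hYL (by positivity)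

lemma continuous_testArr {n m : ℕ} (H : Matrix (Fin n) (Fin n) ℝ) (e : ℝ) (k l : Fin m) :
    Continuous fun g : Fin n → Fin m → ℝ => testArr H e g k l := by
  have : Continuous fun g : Fin n → Fin m → ℝ => testArr H e g := by
    unfold testArr
    have h1 : Continuous fun g : Fin n → Fin m → ℝ => (Matrix.of g : Matrix (Fin n) (Fin m) ℝ) := continuous_id
    have h2 : Continuous fun g : Fin n → Fin m → ℝ => (Matrix.of g).transpose *
        (H - e • (1 : Matrix (Fin n) (Fin n) ℝ))⁻¹ * Matrix.of g :=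
      (h1.matrix_transpose.matrix_mul continuous_const).matrix_mul h1
    refine continuous_pi fun i => continuous_pi fun j => ?_
    exact continuous_const.mul ((continuous_apply j).comp ((continuous_apply i).comp h2))
  exact (continuous_apply l).comp ((continuous_apply k).comp this)

/-- pointwise (in `x`) tail bound -/
lemma tail_bound {n : ℕ} (hn : 0 < n) {H : Matrix (Fin n) (Fin n) ℝ} (hH : H.IsHermitian)
    {Y L δ τ x E T : ℝ} (hL : 0 < L) (hδ : 0 < δ) (hτ : 0 < τ) (hT : 0 < T)
    (hY : (mn H (zz E L n)).im ≤ Y) (hx0 : 0 ≤ x) (hx1 : x ≤ δ)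
    (hx : ∀ i, |hl hH E i| ≤ 2 * δ + L → τ ≤ |hl hH E i - x|) :
    ((gaussM n 1) {g | T < |testArr H (E + x / n) g 0 0 - (mn H (zz E L n)).re|}).toReal ≤
      ((1 + 2 * (8 * (Y / L))) / 2 + (2 * L + 2 * δ + (1 / τ + 1 / L) * ((2 * δ + L) ^ 2 + L ^ 2)) * (Y / L)) / T := by
  classical
  set a : ℝ := (mn H (zz E L n)).re with ha
  set y : Fin n → ℝ := hl hH E with hy
  have hY' : ∑ i, L / (y i ^ 2 + L ^ 2) ≤ Y := by rw [← mn_im hH hn hL E]; exact hY
  have hne : ∀ i, y i ≠ x := by
    intro i h0
    rcases le_or_gt (|y i|) (2 * δ + L) with h1 | h1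
    · have := hx i h1
      rw [h0, sub_self, abs_zero] at this
      linarith
    · rw [h0, abs_of_nonneg hx0] at h1
      linarith
  have hne' : ∀ i, hH.eigenvalues i ≠ E + x / n := by
    intro i h0
    apply hne i
    have hn' : (n : ℝ) ≠ 0 := by exact_mod_cast hn.ne'
    rw [hy]; unfold hl; rw [h0]; field_simp; ring
  set F : Matrix (Fin 1) (Fin 1) ℝ → ℝ := fun C => if T < |C 0 0 - a| then 1 else 0 with hF
  have hms : MeasurableSet {g : Fin n → Fin 1 → ℝ | T < |testArr H (E + x / n) g 0 0 - a|} := by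
    apply measurableSet_lt measurable_const
    exact ((continuous_testArr H _ 0 0).sub continuous_const).abs.measurable
  have h1 : ((gaussM n 1) {g | T < |testArr H (E + x / n) g 0 0 - a|}).toReal =
      ∫ g, F (testArr H (E + x / n) g) ∂(gaussM n 1) := by
    have : (fun g : Fin n → Fin 1 → ℝ => F (testArr H (E + x / n) g)) =
        Set.indicator {g | T < |testArr H (E + x / n) g 0 0 - a|} 1 := by
      funext g
      simp only [hF, Set.indicator_apply, Set.mem_ofPred_eq, Pi.one_apply]
    rw [this, integral_indicator_one hms]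
    rfl
  rw [h1, integral_testArr hH hne' F]
  have hc : (fun i => ((n : ℝ) * (hH.eigenvalues i - (E + x / n)))⁻¹) = fun i => (y i - x)⁻¹ := by
    funext i
    rw [mul_sub_shift hn]
    rfl
  rw [hc]
  set c : Fin n → ℝ := fun i => (y i - x)⁻¹ with hcdef
  set b : Fin n → ℝ := fun i => y i / (y i ^ 2 + L ^ 2) with hb
  have ha2 : a = ∑ i, b i := by rw [ha, mn_re hH hn hL E]
  obtain ⟨fm1, fm2⟩ := first_moment c b (fun i => 2 * δ + L < |y i|)
  set Ψ : (Fin n → ℝ) → ℝ := fun v => |∑ i, c i * v i ^ 2 - ∑ i, b i| with hΨ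
  have hΨm : Measurable Ψ := by
    apply Continuous.measurable
    simp only [hΨ]
    fun_prop
  have hcol : ∫ g, Ψ (fun i => g i 0) ∂(gm (Fin n) (Fin 1)) = ∫ v, Ψ v ∂(gv (Fin n)) := by
    rw [← gm_map_col (ι := Fin n) (κ := Fin 1) 0, integral_map (measurable_col 0).aemeasurable hΨm.aestronglyMeasurable]
  have hcolI : Integrable (fun g : Fin n → Fin 1 → ℝ => Ψ (fun i => g i 0)) (gm (Fin n) (Fin 1)) := by
    have : Integrable Ψ ((gm (Fin n) (Fin 1)).map (fun g i => g i 0)) := by
      rw [gm_map_col]; exact fm1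
    exact (integrable_map_measure hΨm.aestronglyMeasurable (measurable_col 0).aemeasurable).mp this
  have hle : ∀ g : Fin n → Fin 1 → ℝ, F (spArr c g) ≤ Ψ (fun i => g i 0) / T := by
    intro g
    have h2 : spArr c g 0 0 - a = ∑ i, c i * g i 0 ^ 2 - ∑ i, b i := by
      rw [spArr_apply, ha2]
      congr 1
      exact Finset.sum_congr rfl fun i _ => by ring
    simp only [hF, h2]
    split_ifs with h3
    · rw [one_le_div hT]; exact h3.le
    · exact div_nonneg (abs_nonneg _) hT.le
  have hFint : Integrable (fun g : Fin n → Fin 1 → ℝ => F (spArr c g)) (gm (Fin n) (Fin 1)) := by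
    have hms2 : MeasurableSet {g : Fin n → Fin 1 → ℝ | T < |spArr c g 0 0 - a|} := by
      apply measurableSet_lt measurable_const
      have : Continuous fun g : Fin n → Fin 1 → ℝ => spArr c g 0 0 :=
        (continuous_apply _).comp ((continuous_apply _).comp (continuous_spArr c))
      exact (this.sub continuous_const).abs.measurable
    have : (fun g : Fin n → Fin 1 → ℝ => F (spArr c g)) =
        Set.indicator {g | T < |spArr c g 0 0 - a|} (fun _ => (1:ℝ)) := by
      funext g
      simp only [hF, Set.indicator_apply, Set.mem_ofPred_eq]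
    rw [this]
    exact (integrable_const _).indicator hms2
  calc ∫ g, F (spArr c g) ∂(gm (Fin n) (Fin 1))
      ≤ ∫ g, Ψ (fun i => g i 0) / T ∂(gm (Fin n) (Fin 1)) :=
        integral_mono hFint (hcolI.div_const _) hle
    _ = (∫ v, Ψ v ∂(gv (Fin n))) / T := by rw [integral_div, hcol]
    _ ≤ _ := by
        apply div_le_div_of_nonneg_right _ hT.le
        exact fm2.trans (tight_sums y hL hδ hτ hY' hx0 hx1 hx)

theorem tightTest : TightTest := by
  intro Y L δ ε hL hδ hε
  set M : ℝ := 2 * δ + L with hM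
  set N0 : ℝ := (M ^ 2 + L ^ 2) * (|Y| / L) with hN0
  have hN0p : 0 ≤ N0 := by positivity
  set τ : ℝ := ε * δ / (4 * (N0 + 1)) with hτd
  have hτ : 0 < τ := by positivity
  set Cst : ℝ := (1 + 2 * (8 * (|Y| / L))) / 2 + (2 * L + 2 * δ + (1 / τ + 1 / L) * (M ^ 2 + L ^ 2)) * (|Y| / L) with hCst
  have hCp : 0 < Cst := by positivity
  set T : ℝ := 2 * Cst / ε with hTd
  have hT : 0 < T := by positivity
  refine ⟨T, ?_⟩
  intro E n hn H hH hIm
  have hIm' : (mn H (zz E L n)).im ≤ |Y| := hIm.trans (le_abs_self Y)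
  set y : Fin n → ℝ := hl hH E with hy
  set f : ℝ → ℝ := fun x => ((gaussM n 1) {g | T < |testArr H (E + x / n) g 0 0 - (mn H (zz E L n)).re|}).toReal with hf
  set near : Finset (Fin n) := Finset.univ.filter fun i => |y i| ≤ M with hnear
  set B : Set ℝ := ⋃ i ∈ near, Metric.ball (y i) τ with hB
  have hBm : MeasurableSet B := Finset.measurableSet_biUnion _ fun i _ => measurableSet_ball
  have hcard : (near.card : ℝ) ≤ N0 := by
    apply card_near y hL
    rw [← mn_im hH hn hL E]; exact hIm'
  have hBvol : (volume B).toReal ≤ N0 * (2 * τ) := by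
    have h1 : volume B ≤ ∑ i ∈ near, volume (Metric.ball (y i) τ) := measure_biUnion_finset_le _ _
    simp only [Real.volume_ball, Finset.sum_const, nsmul_eq_mul] at h1
    have h2 : (near.card : ENNReal) * ENNReal.ofReal (2 * τ) = ENNReal.ofReal (near.card * (2 * τ)) := by
      rw [ENNReal.ofReal_mul (Nat.cast_nonneg _), ENNReal.ofReal_natCast]
    rw [h2] at h1
    have h3 := ENNReal.toReal_mono ENNReal.ofReal_ne_top h1
    rw [ENNReal.toReal_ofReal (by positivity)] at h3
    refine h3.trans ?_
    exact mul_le_mul_of_nonneg_right hcard (by positivity)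
  have hBfin : volume B ≠ ⊤ := by
    have h1 : volume B ≤ ∑ i ∈ near, volume (Metric.ball (y i) τ) := measure_biUnion_finset_le _ _
    refine ne_top_of_le_ne_top ?_ h1
    simp only [Real.volume_ball]
    exact (ENNReal.sum_lt_top.mpr fun i _ => ENNReal.ofReal_lt_top).ne
  have hfle : ∀ x ∈ Set.Icc (0:ℝ) δ, f x ≤ B.indicator (fun _ => (1:ℝ)) x + Cst / T := by
    intro x hx
    by_cases hxB : x ∈ B
    · rw [Set.indicator_of_mem hxB]
      have : f x ≤ 1 := by
        have : IsProbabilityMeasure (gaussM n 1) := by unfold gaussM; infer_instance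
        exact ENNReal.toReal_le_of_le_ofReal zero_le_one (by simpa using prob_le_one)
      have : 0 ≤ Cst / T := by positivity
      linarith
    · rw [Set.indicator_of_notMem hxB, zero_add]
      apply tail_bound hn hH hL hδ hτ hT hIm' hx.1 hx.2
      intro i hi
      by_contra hlt
      apply hxB
      rw [hB]
      refine Set.mem_iUnion₂.mpr ⟨i, ?_, ?_⟩
      · rw [hnear, Finset.mem_filter]; exact ⟨Finset.mem_univ _, hi⟩
      · rw [Metric.mem_ball, dist_comm, Real.dist_eq]
        exact not_le.mp hlt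
  have hCT : Cst / T = ε / 2 := by
    rw [hTd]; field_simp
  change δ⁻¹ * ∫ x in (0:ℝ)..δ, f x ≤ ε
  by_cases hfi : IntervalIntegrable f volume 0 δ
  · have hgi : IntervalIntegrable (fun x => B.indicator (fun _ => (1:ℝ)) x + Cst / T) volume 0 δ := by
      apply IntervalIntegrable.add
      · apply Integrable.intervalIntegrable
        exact (integrable_indicator_iff hBm).mpr (integrableOn_const hBfin)
      · exact intervalIntegrable_const
    have h1 : ∫ x in (0:ℝ)..δ, f x ≤ ∫ x in (0:ℝ)..δ, (B.indicator (fun _ => (1:ℝ)) x + Cst / T) :=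
      intervalIntegral.integral_mono_on hδ.le hfi hgi hfle
    have h2 : ∫ x in (0:ℝ)..δ, (B.indicator (fun _ => (1:ℝ)) x + Cst / T) ≤ N0 * (2 * τ) + δ * (ε / 2) := by
      rw [intervalIntegral.integral_add, intervalIntegral.integral_const, hCT]
      · have h3 : ∫ x in (0:ℝ)..δ, B.indicator (fun _ => (1:ℝ)) x ≤ (volume B).toReal := by
          rw [intervalIntegral.integral_of_le hδ.le]
          calc ∫ x in Set.Ioc (0:ℝ) δ, B.indicator (fun _ => (1:ℝ)) x ≤ ∫ x, B.indicator (fun _ => (1:ℝ)) x := by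
                apply setIntegral_le_integral
                · exact (integrable_indicator_iff hBm).mpr (integrableOn_const hBfin)
                · exact Filter.Eventually.of_forall fun x => Set.indicator_nonneg (fun _ _ => zero_le_one) x
            _ = (volume B).toReal := by
                rw [integral_indicator hBm]; simp [Measure.real]
        simp only [sub_zero, smul_eq_mul]
        linarith
      · apply Integrable.intervalIntegrable
        exact (integrable_indicator_iff hBm).mpr (integrableOn_const hBfin)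
      · exact intervalIntegrable_const
    have h4 : N0 * (2 * τ) ≤ δ * (ε / 2) := by
      rw [hτd]
      have h5 : N0 * (2 * (ε * δ / (4 * (N0 + 1)))) = δ * (ε / 2) * (N0 / (N0 + 1)) := by
        field_simp; ring
      rw [h5]
      have h6 : N0 / (N0 + 1) ≤ 1 := by rw [div_le_one (by positivity)]; linarith
      have h7 : 0 ≤ δ * (ε / 2) := by positivity
      nlinarith
    calc δ⁻¹ * ∫ x in (0:ℝ)..δ, f x ≤ δ⁻¹ * (δ * ε) := by
          apply mul_le_mul_of_nonneg_left _ (by positivity)
          linarith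
      _ = ε := by field_simp
  · rw [intervalIntegral.integral_undef hfi, mul_zero]
    exact hε.le

end Crest.Agent.R166.Rec8
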