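import Crest.Agent.R166.Asm1_423
import Crest.Agent.R166.GoeLLc_583
import Crest.Agent.R166.LapFun_8
import Crest.Agent.R166.Tight_8
import Crest.Agent.R166.SimpleP_356

/-!
Row 166, section 81: final composition and the wrappers to the frozen statements (helper423).
-/

set_option autoImplicit false

namespace Crest.Agent.R166.Asm423

open MeasureTheory ProbabilityTheory Crest.ProbabilityR.RandomMatrix Crest.Agent.R166
open Crest.Agent.R166.Meas423

/-- everything after `InvG`, `InvO`, `COEStatement`, `ImLim` and the reconstruction core -/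
theorem finalGO_of {d : ℕ} {s E ρ : ℝ} (hρ : 0 < ρ) (hIm : ImLim d s E ρ)
    (hInvG : InvG d s E ρ) (hInvO : InvO) (hCOE : COEStatement d s E ρ) (hR : ReconStatement2)
    (h : ℝ → ℝ) (hc : Continuous h) (hs : HasCompactSupport h) (h0 : ∀ t, 0 ≤ h t) :
    FinalGO d s E ρ h := by
  have hC : CompareGO d s E ρ := hCOE hInvG hInvO
  exact asm2 hρ hIm Goe583.imLimO (asm1 hρ hIm Goe583.imLimO Rec8.tightTest hC) hC
    Rec8.lapFunExists hR h hc hs h0

theorem laplaceWeight_congr {n : ℕ} {A B : Matrix (Fin n) (Fin n) ℝ} (hAB : A = B)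
    (hA : A.IsHermitian) (hB : B.IsHermitian) (φ : ℝ → ℝ) :
    laplaceWeight A hA φ = laplaceWeight B hB φ := by
  subst hAB; rfl

theorem disordered_zero {n : ℕ} (G : SimpleGraph (Fin n)) (ω : Fin n → ℝ) (φ : ℝ → ℝ) :
    disorderedLaplaceWeight G 0 ω φ = adjLaplaceWeight G φ := by
  unfold disorderedLaplaceWeight adjLaplaceWeight
  refine laplaceWeight_congr ?_ _ _ φ
  rw [zero_smul, add_zero]

/-- `FinalGO` at `s = 0` is the statement S0251 -/
theorem s0251_of {d : ℕ} {E : ℝ} {h : ℝ → ℝ} (hF : FinalGO d 0 E (kestenMcKayDensity d E) h) :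
    ∀ ε : ℝ, 0 < ε → ∃ N : ℕ, ∀ n : ℕ, N ≤ n → (regularGraphs n d).Nonempty →
      |regularAverage n d (fun G => adjLaplaceWeight G
          (unfoldAt h (n * kestenMcKayDensity d E) E)) -
          ∫ g, goeLaplaceWeight g (unfoldAt h (n / Real.pi) 0) ∂goeDisorderLaw n| < ε := by
  intro ε hε
  obtain ⟨N, hN⟩ := hF ε hε
  refine ⟨N, fun n hn hne => ?_⟩
  have h1 := hN n hn hne
  simp only [disordered_zero, integral_const, probReal_univ, one_smul] at h1
  exact h1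

/-- density-of-states output together with the comparison, in the form needed for S0252 -/
def TreeFinal (d : ℕ) (κ : ℝ) : Prop :=
  ∃ s₀ : ℝ, 0 < s₀ ∧ ∀ s : ℝ, 0 < s → s < s₀ →
      ∃ ν : MeasureTheory.Measure ℝ, IsTreeDOS d s ν ∧
        ∃ (ρ : ℝ → ℝ) (U : Set ℝ), IsOpen U ∧
          Set.Icc (-(2 * Real.sqrt ((d : ℝ) - 1)) + κ) (2 * Real.sqrt ((d : ℝ) - 1) - κ) ⊆ U ∧
          ContinuousOn ρ U ∧ (∀ t ∈ U, 0 ≤ ρ t) ∧
          ν.restrict U = (MeasureTheory.volume.restrict U).withDensity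
            (fun t => ENNReal.ofReal (ρ t)) ∧
          (∀ E ∈ Set.Icc (-(2 * Real.sqrt ((d : ℝ) - 1)) + κ)
            (2 * Real.sqrt ((d : ℝ) - 1) - κ), 0 < ρ E) ∧
          ∀ E ∈ Set.Icc (-(2 * Real.sqrt ((d : ℝ) - 1)) + κ) (2 * Real.sqrt ((d : ℝ) - 1) - κ),
            ∀ h : ℝ → ℝ, Continuous h → HasCompactSupport h → (∀ t, 0 ≤ h t) →
              FinalGO d s E (ρ E) h

/-- wrapper for S0252: regular graphs exist for large `n` with `n d` even -/
theorem s0252_of {d : ℕ} (hd : 3 ≤ d) {κ : ℝ} (hF : TreeFinal d κ) :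
    ∃ s₀ : ℝ, 0 < s₀ ∧ ∀ s : ℝ, 0 < s → s < s₀ →
      ∃ ν : MeasureTheory.Measure ℝ, IsTreeDOS d s ν ∧
        ∃ (ρ : ℝ → ℝ) (U : Set ℝ), IsOpen U ∧
          Set.Icc (-(2 * Real.sqrt ((d : ℝ) - 1)) + κ) (2 * Real.sqrt ((d : ℝ) - 1) - κ) ⊆ U ∧
          ContinuousOn ρ U ∧ (∀ t ∈ U, 0 ≤ ρ t) ∧
          ν.restrict U = (MeasureTheory.volume.restrict U).withDensity
            (fun t => ENNReal.ofReal (ρ t)) ∧
          (∀ E ∈ Set.Icc (-(2 * Real.sqrt ((d : ℝ) - 1)) + κ)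
            (2 * Real.sqrt ((d : ℝ) - 1) - κ), 0 < ρ E) ∧
          ∀ E ∈ Set.Icc (-(2 * Real.sqrt ((d : ℝ) - 1)) + κ) (2 * Real.sqrt ((d : ℝ) - 1) - κ),
            ∀ h : ℝ → ℝ, Continuous h → HasCompactSupport h → (∀ t, 0 ≤ h t) →
              ∀ ε : ℝ, 0 < ε → ∃ N : ℕ, ∀ n : ℕ, N ≤ n → d < n → Even (n * d) →
                |regularAverage n d (fun G => ∫ ω, disorderedLaplaceWeight G s ω
                      (unfoldAt h (n * ρ E) E) ∂potentialLaw n) -
                    ∫ g, goeLaplaceWeight g (unfoldAt h (n / Real.pi) 0) ∂goeDisorderLaw n|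
                  < ε := by
  obtain ⟨s₀, hs₀, H⟩ := hF
  refine ⟨s₀, hs₀, fun s hs hs' => ?_⟩
  obtain ⟨ν, hν, ρ, U, hU, hIU, hρc, hρ0, hνU, hρpos, hfin⟩ := H s hs hs'
  refine ⟨ν, hν, ρ, U, hU, hIU, hρc, hρ0, hνU, hρpos, fun E hE h hc hsupp hpos ε hε => ?_⟩
  obtain ⟨N, hN⟩ := hfin E hE h hc hsupp hpos ε hε
  obtain ⟨n0, hn0⟩ := Simple356.regularGraphs_nonempty d (by omega)
  exact ⟨max N n0, fun n hn _ hev => hN n ((le_max_left _ _).trans hn)
    (hn0 n ((le_max_right _ _).trans hn) hev)⟩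

end Crest.Agent.R166.Asm423
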