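import Crest.Agent.R166.Dec2_598
import Crest.Agent.R166.OffDet_522

/-!
# Row 166, section 32 (graph half), helper522: power balance in the decoupled tree

`power` : for the tree output `treeOut RT t (leafXi Sg C aJ uA)` and an external input `x` on the
tree, the dissipated power `P` controls the tree values at the parents of the good leaves and the
values at the good leaves; the tree equation holds.
-/

set_option autoImplicit false
set_option linter.unusedSectionVars false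

open Matrix

namespace Crest.Agent.R166.Fine522

open Crest.Agent.R166.Res598 Crest.Agent.R166.Dec598 Crest.Agent.R166.Off522

variable {ι κ : Type*} [Fintype ι] [DecidableEq ι] [Fintype κ] [DecidableEq κ]

lemma edgeM_mulVec (x y : κ → ι) (v : ι → ℂ) (p : ι) :
    (cx (edgeM x y) *ᵥ v) p =
      ∑ k, ((if p = x k then v (y k) else 0) + (if p = y k then v (x k) else 0)) := by
  simp only [Matrix.mulVec, dotProduct, cx_apply, edgeM_apply]
  push_cast
  simp only [Finset.sum_mul]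
  rw [Finset.sum_comm]
  refine Finset.sum_congr rfl fun k _ => ?_
  simp only [add_mul, Finset.sum_add_distrib]
  congr 1
  · by_cases h : p = x k
    · rw [if_pos h, Finset.sum_eq_single (y k)]
      · simp [h]
      · intro q _ hq
        simp [hq]
      · simp
    · simp [h]
  · by_cases h : p = y k
    · rw [if_pos h, Finset.sum_eq_single (x k)]
      · simp [h]
      · intro q _ hq
        simp [hq]
      · simp
    · simp [h]

section main

variable {T B A J : Type*} [Fintype T] [DecidableEq T] [Fintype B] [DecidableEq B]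
  [Fintype A] [DecidableEq A] [Fintype J] [DecidableEq J]

/-- decoupled system: tree, bad system, good cavity blocks -/
noncomputable def DD (RT : Matrix T T ℂ) (Sg : Matrix B B ℂ) (C : J → Matrix (Fin 2) (Fin 2) ℂ) :
    Matrix (Idx T B J) (Idx T B J) ℂ :=
  fromBlocks RT 0 0 (fromBlocks Sg 0 0 (blockDiagonal C))

/-- the new edges -/
def VV (aJ : J → B) (uA : A → B) (t : A ⊕ J → T) : Matrix (Idx T B J) (Idx T B J) ℝ :=
  edgeM (fun j : J => (Sum.inr (Sum.inl (aJ j)) : Idx T B J)) (fun j => eJ j 1) +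
    edgeM (fun i : A ⊕ J => (Sum.inl (t i) : Idx T B J)) (fun i => Sum.inr (uI uA i))

lemma VV_symm (aJ : J → B) (uA : A → B) (t : A ⊕ J → T) :
    (VV aJ uA t)ᵀ = VV aJ uA t := by
  rw [VV, Matrix.transpose_add, edgeM_symm, edgeM_symm]

lemma siegel_DD {RT : Matrix T T ℂ} (hRT : Siegel RT) {Sg : Matrix B B ℂ} (hSg : Siegel Sg)
    {C : J → Matrix (Fin 2) (Fin 2) ℂ} (hC : ∀ j, Siegel (C j)) : Siegel (DD RT Sg C) :=
  siegel_fromBlocks hRT (siegel_fromBlocks hSg (siegel_blockDiagonal hC))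

/-- the tree corner of the decoupled system -/
theorem mob_VV {RT : Matrix T T ℂ} (hRT : Siegel RT) {Sg : Matrix B B ℂ} (hSg : Siegel Sg)
    {C : J → Matrix (Fin 2) (Fin 2) ℂ} (hC : ∀ j, Siegel (C j))
    (aJ : J → B) {uA : A → B} (huA : Function.Injective uA) (t : A ⊕ J → T) :
    (mob (VV aJ uA t) (DD RT Sg C)).submatrix Sum.inl Sum.inl =
      treeOut RT t (leafXi Sg C aJ uA) := by
  set M0 : Matrix (B ⊕ (Fin 2 × J)) (B ⊕ (Fin 2 × J)) ℂ :=
    fromBlocks Sg 0 0 (blockDiagonal C) with hM0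
  have hM0s : Siegel M0 := siegel_fromBlocks hSg (siegel_blockDiagonal hC)
  have hD1 : Siegel (fromBlocks RT 0 0 M0) := siegel_fromBlocks hRT hM0s
  set E2 : Matrix (B ⊕ (Fin 2 × J)) (B ⊕ (Fin 2 × J)) ℝ :=
    edgeM (fun j : J => Sum.inl (aJ j)) (fun j => Sum.inr (1, j)) with hE2
  have hE2s : E2ᵀ = E2 := edgeM_symm _ _
  have hDD : DD RT Sg C = fromBlocks RT 0 0 M0 := rfl
  rw [hDD, VV, mob_add hD1 (edgeM_symm _ _) (edgeM_symm _ _)]
  have h2 : edgeM (fun j : J => (Sum.inr (Sum.inl (aJ j)) : Idx T B J)) (fun j => eJ j 1) =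
      fromBlocks 0 0 0 E2 := by
    rw [hE2, ← edgeM_inr]; rfl
  rw [h2, mob_fromBlocks hRT hM0s (Matrix.transpose_zero) hE2s, mob_zero]
  set M1 := mob E2 M0 with hM1
  have hM1s : Siegel M1 := siegel_mob hM0s hE2s
  have hf : Function.Injective (Sum.map id (uI uA) : T ⊕ (A ⊕ J) → Idx T B J) :=
    Sum.map_injective.2 ⟨Function.injective_id, uI_injective huA⟩
  have h3 : edgeM (fun i : A ⊕ J => (Sum.inl (t i) : Idx T B J)) (fun i => Sum.inr (uI uA i)) =
      lift (emb (Sum.map id (uI uA) : T ⊕ (A ⊕ J) → Idx T B J)) (edgeM (Sum.inl ∘ t) Sum.inr) := by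
    rw [lift_edgeM]; rfl
  rw [h3]
  have h4 := cor_mob (inj_emb hf) (siegel_fromBlocks hRT hM1s)
    (edgeM_symm (Sum.inl ∘ t : A ⊕ J → T ⊕ (A ⊕ J)) Sum.inr)
  rw [cor_emb, cor_emb] at h4
  have h5 : (fromBlocks RT 0 0 M1 : Matrix (Idx T B J) (Idx T B J) ℂ).submatrix
      (Sum.map id (uI uA)) (Sum.map id (uI uA)) = fromBlocks RT 0 0 (leafXi Sg C aJ uA) := by
    ext (x | x) (y | y) <;> rfl
  rw [h5] at h4
  have h6 := congrArg (fun M : Matrix (T ⊕ (A ⊕ J)) (T ⊕ (A ⊕ J)) ℂ =>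
    M.submatrix Sum.inl Sum.inl) h4
  exact h6

/-- the new edges applied to a vector, at the first site of a good block -/
lemma VV_eJ0 (aJ : J → B) (uA : A → B) (t : A ⊕ J → T) (Y : Idx T B J → ℂ) (j : J) :
    (cx (VV aJ uA t) *ᵥ Y) (eJ j 0) = Y (Sum.inl (t (Sum.inr j))) := by
  rw [VV, cx_add, Matrix.add_mulVec, Pi.add_apply, edgeM_mulVec, edgeM_mulVec]
  have h1 : ∑ k : J, ((if (eJ j 0 : Idx T B J) = Sum.inr (Sum.inl (aJ k)) then Y (eJ k 1) else 0) +
      (if (eJ j 0 : Idx T B J) = eJ k 1 then Y (Sum.inr (Sum.inl (aJ k))) else 0)) = 0 := by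
    refine Finset.sum_eq_zero fun k _ => ?_
    rw [if_neg, if_neg, add_zero]
    · intro h
      simp [eJ] at h
    · intro h
      simp [eJ] at h
  rw [h1, zero_add, Finset.sum_eq_single (Sum.inr j)]
  · simp [eJ, uI]
  · rintro (a | k) _ hk
    · rw [if_neg, if_neg, add_zero]
      · intro h
        simp [eJ, uI] at h
      · intro h
        simp [eJ] at h
    · rw [if_neg, if_neg, add_zero]
      · intro h
        simp only [eJ, uI, Sum.elim_inr, Sum.inr.injEq, Prod.mk.injEq, true_and] at h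
        exact hk (by rw [h])
      · intro h
        simp [eJ] at h
  · simp

/-- the new edges applied to a vector, on the tree -/
lemma VV_inl (aJ : J → B) (uA : A → B) (t : A ⊕ J → T) (Y : Idx T B J → ℂ) (τ : T) :
    (cx (VV aJ uA t) *ᵥ Y) (Sum.inl τ) =
      ∑ i : A ⊕ J, if τ = t i then Y (Sum.inr (uI uA i)) else 0 := by
  rw [VV, cx_add, Matrix.add_mulVec, Pi.add_apply, edgeM_mulVec, edgeM_mulVec]
  have h1 : ∑ k : J, ((if (Sum.inl τ : Idx T B J) = Sum.inr (Sum.inl (aJ k)) then Y (eJ k 1)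
      else 0) + (if (Sum.inl τ : Idx T B J) = eJ k 1 then Y (Sum.inr (Sum.inl (aJ k))) else 0)) =
      0 := by
    refine Finset.sum_eq_zero fun k _ => ?_
    simp [eJ]
  rw [h1, zero_add]
  refine Finset.sum_congr rfl fun i _ => ?_
  simp [Sum.inl.injEq]

/-- **power balance** -/
theorem power {RT : Matrix T T ℂ} (hRT : Siegel RT) {Sg : Matrix B B ℂ} (hSg : Siegel Sg)
    {C : J → Matrix (Fin 2) (Fin 2) ℂ} (hC : ∀ j, Siegel (C j))
    (aJ : J → B) {uA : A → B} (huA : Function.Injective uA) (t : A ⊕ J → T)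
    {c M : ℝ} (hc : 0 < c) (hge : ∀ j, ImGe c (C j)) (hM : ∀ j i k, ‖C j i k‖ ≤ M)
    (x : T → ℂ) :
    ∃ yu : A ⊕ J → ℂ,
      (∀ τ, x τ - (RT⁻¹ *ᵥ (treeOut RT t (leafXi Sg C aJ uA) *ᵥ x)) τ =
        ∑ i : A ⊕ J, if τ = t i then yu i else 0) ∧
      (∀ j : J, c * ‖(treeOut RT t (leafXi Sg C aJ uA) *ᵥ x) (t (Sum.inr j))‖ ^ 2 ≤
        qf (imM (treeOut RT t (leafXi Sg C aJ uA))) x) ∧
      (∀ j : J, c * ‖yu (Sum.inr j)‖ ^ 2 ≤
        2 * M ^ 2 * qf (imM (treeOut RT t (leafXi Sg C aJ uA))) x) := by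
  have hDs := siegel_DD hRT hSg hC
  have hVs := VV_symm aJ uA t
  set D := DD RT Sg C with hD
  set V := VV aJ uA t with hV
  set Q := mob V D with hQ
  have hcorner : Q.submatrix Sum.inl Sum.inl = treeOut RT t (leafXi Sg C aJ uA) := by
    rw [hQ, hV, hD]; exact mob_VV hRT hSg hC aJ huA t
  set O := treeOut RT t (leafXi Sg C aJ uA) with hO
  set X : Idx T B J → ℂ := cx (emb (Sum.inl : T → Idx T B J)) *ᵥ x with hX
  have hXl : ∀ τ, X (Sum.inl τ) = x τ := fun τ => emb_mulVec_apply Sum.inl_injective x τ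
  have hXr : ∀ y, X (Sum.inr y) = 0 := by
    intro y
    rw [hX, emb_mulVec]
    simp
  set b := (1 + cx V * D)⁻¹ *ᵥ X with hb
  set Y := D *ᵥ b with hY
  have hu := hDs.isUnit_one_add_mul' hVs
  have hbX : b + cx V *ᵥ Y = X := by
    have : (1 + cx V * D) *ᵥ b = X := by
      rw [hb, Matrix.mulVec_mulVec, Matrix.mul_nonsing_inv _ hu, Matrix.one_mulVec]
    rw [← this, Matrix.add_mulVec, Matrix.one_mulVec, ← Matrix.mulVec_mulVec]
  have hYQ : Y = Q *ᵥ X := by
    rw [hY, hb, Matrix.mulVec_mulVec, hQ, mob]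
  have hYl : ∀ τ, Y (Sum.inl τ) = (O *ᵥ x) τ := by
    intro τ
    rw [hYQ, ← hcorner]
    simp only [Matrix.mulVec, dotProduct, Fintype.sum_sum_type, hXl, hXr, mul_zero,
      Finset.sum_const_zero, add_zero, Matrix.submatrix_apply]
  have hP : qf (imM O) x = qf (imM D) b := by
    rw [← hcorner, ← cor_emb, qf_cor _ (mob_symm hDs hVs), ← hX, qf_mob hDs hVs]
  have hPge : ∀ j, qf (imM (C j)) (fun i => b (eJ j i)) ≤ qf (imM O) x := by
    intro j
    rw [hP, hD, DD, qf_fromBlocks hRT.symm (siegel_fromBlocks hSg (siegel_blockDiagonal hC)).symm,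
      qf_fromBlocks hSg.symm (siegel_blockDiagonal hC).symm,
      qf_blockDiagonal fun k => (hC k).symm]
    have h1 := qf_nonneg hRT.pos.posSemidef (b ∘ Sum.inl)
    have h2 := qf_nonneg hSg.pos.posSemidef ((b ∘ Sum.inr) ∘ Sum.inl)
    have h3 := Finset.single_le_sum (f := fun k => qf (imM (C k))
      (fun i => ((b ∘ Sum.inr) ∘ Sum.inr) (i, k)))
      (fun k _ => qf_nonneg (hC k).pos.posSemidef _) (Finset.mem_univ j)
    have h4 : (fun i => ((b ∘ Sum.inr) ∘ Sum.inr) (i, j)) = fun i => b (eJ j i) := rfl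
    rw [h4] at h3
    linarith
  have hb0 : ∀ j, b (eJ j 0) = - (O *ᵥ x) (t (Sum.inr j)) := by
    intro j
    have h1 := congrFun hbX (eJ j 0)
    rw [Pi.add_apply, hV, VV_eJ0, hYl] at h1
    have h2 : X (eJ j 0) = 0 := hXr _
    rw [h2] at h1
    exact eq_neg_of_add_eq_zero_left h1
  refine ⟨fun i => Y (Sum.inr (uI uA i)), ?_, ?_, ?_⟩
  · intro τ
    have h1 := congrFun hbX (Sum.inl τ)
    rw [Pi.add_apply, hV, VV_inl, hXl] at h1
    have h2 : (RT⁻¹ *ᵥ (O *ᵥ x)) τ = b (Sum.inl τ) := by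
      have h3 : (O *ᵥ x) = RT *ᵥ (b ∘ Sum.inl) := by
        ext σ
        rw [← hYl, hY, hD, DD]
        simp [Matrix.mulVec, dotProduct, Fintype.sum_sum_type]
      rw [h3, Matrix.mulVec_mulVec, Matrix.nonsing_inv_mul _ hRT.isUnit, Matrix.one_mulVec]
      rfl
    rw [h2, ← h1]
    ring
  · intro j
    have h1 := hge j (fun i => b (eJ j i))
    rw [Fin.sum_univ_two] at h1
    have h2 := hPge j
    have h3 : ‖b (eJ j 0)‖ = ‖(O *ᵥ x) (t (Sum.inr j))‖ := by rw [hb0, norm_neg]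
    rw [h3] at h1
    have h4 : 0 ≤ c * ‖b (eJ j 1)‖ ^ 2 := by positivity
    linarith
  · intro j
    have h1 := hge j (fun i => b (eJ j i))
    rw [Fin.sum_univ_two] at h1
    have h2 := hPge j
    have hM0 : 0 ≤ M := (norm_nonneg _).trans (hM j 0 0)
    have h5 : Y (Sum.inr (uI uA (Sum.inr j))) = C j 0 0 * b (eJ j 0) + C j 0 1 * b (eJ j 1) := by
      have h6 : (Sum.inr (uI uA (Sum.inr j)) : Idx T B J) = eJ j 0 := rfl
      rw [h6, hY, hD, DD]
      simp only [Matrix.mulVec, dotProduct, Fintype.sum_sum_type, Fintype.sum_prod_type, eJ,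
        fromBlocks_apply₂₁, fromBlocks_apply₂₂, Matrix.zero_apply, zero_mul,
        Finset.sum_const_zero, zero_add, blockDiagonal_apply, Fin.sum_univ_two]
      congr 1
      · rw [Finset.sum_eq_single j]
        · simp
        · intro k _ hk
          rw [if_neg (fun h => hk h.symm), zero_mul]
        · simp
      · rw [Finset.sum_eq_single j]
        · simp
        · intro k _ hk
          rw [if_neg (fun h => hk h.symm), zero_mul]
        · simp
    have h7 : ‖Y (Sum.inr (uI uA (Sum.inr j)))‖ ≤ M * ‖b (eJ j 0)‖ + M * ‖b (eJ j 1)‖ := by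
      rw [h5]
      refine (norm_add_le _ _).trans (add_le_add ?_ ?_)
      · rw [norm_mul]; exact mul_le_mul_of_nonneg_right (hM j 0 0) (norm_nonneg _)
      · rw [norm_mul]; exact mul_le_mul_of_nonneg_right (hM j 0 1) (norm_nonneg _)
    have h8 : ‖Y (Sum.inr (uI uA (Sum.inr j)))‖ ^ 2 ≤
        2 * M ^ 2 * (‖b (eJ j 0)‖ ^ 2 + ‖b (eJ j 1)‖ ^ 2) := by
      calc _ ≤ (M * ‖b (eJ j 0)‖ + M * ‖b (eJ j 1)‖) ^ 2 :=
            pow_le_pow_left₀ (norm_nonneg _) h7 2
        _ ≤ _ := by nlinarith [sq_nonneg (M * (‖b (eJ j 0)‖ - ‖b (eJ j 1)‖))]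
    calc c * ‖Y (Sum.inr (uI uA (Sum.inr j)))‖ ^ 2
        ≤ c * (2 * M ^ 2 * (‖b (eJ j 0)‖ ^ 2 + ‖b (eJ j 1)‖ ^ 2)) :=
          mul_le_mul_of_nonneg_left h8 hc.le
      _ = 2 * M ^ 2 * (c * (‖b (eJ j 0)‖ ^ 2 + ‖b (eJ j 1)‖ ^ 2)) := by ring
      _ ≤ 2 * M ^ 2 * qf (imM O) x :=
          mul_le_mul_of_nonneg_left (h1.trans h2) (by positivity)

end main

end Crest.Agent.R166.Fine522
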