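import Crest.Agent.R166.TreeF_598

/-!
# Row 166, section 30.3 (helper598): decoupling for the ball-boundary resampling, final forms with
the tree of 327 and leaves indexed by `BI d (L+1)`.

* `tree_good` : all inputs good, scalar tree recursion `treeF`;
* `tree_gen`  : arbitrary inputs on `A`.
-/

set_option autoImplicit false
set_option linter.unusedSectionVars false

open Matrix Finset

namespace Crest.Agent.R166.ShapeT598

open Crest.Agent.R166 Crest.Agent.R166.Stab269 Crest.Agent.R166.TreeT327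
  Crest.Agent.R166.TreeF598 Crest.Agent.R166.DecP789
open Crest.Agent.R166.SwP470 (BVal bv TL BI NZ NZw wd rt tau ab np)
open Crest.Agent.R166.Dec598 (treeOut leafXi siegel_treeOut siegel_leafXi form_good form_gen
  siegel_diagonal)
open Crest.Agent.R166.Res598 (Siegel Near qf imM)

set_option synthInstance.maxSize 4000
set_option synthInstance.maxHeartbeats 400000
set_option maxHeartbeats 1000000

variable {n d : ℕ} [NeZero d]

/-- the resolvent -/
noncomputable abbrev RR (p : Equiv.Perm (HE n d)) (s : ℝ) (ω : Fin n → ℝ) (z : ℂ) :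
    Matrix (Fin n) (Fin n) ℂ := Res789.Res (Hm (graphOf p) s ω) z

variable {p : Equiv.Perm (HE n d)} {h0 : HE n d} {L : ℕ}

lemma siegel_B0P (hp : IsPort p) (s : ℝ) (ω : Fin n → ℝ) {z : ℂ} (hz : 0 < z.im) (h : HE n d) :
    Siegel (B0 p s ω z h) := by
  rw [← B0_bridge hp s ω hz]
  exact Dec598.siegel_B0 (sieg_BE hp s ω hz _).siegel

lemma cE_nonneg {ι : Type*} [Fintype ι] [DecidableEq ι] (S : Finset (Fin n))
    (R : Matrix (Fin n) (Fin n) ℂ) (p : Equiv.Perm (HE n d)) (b : ι → HE n d) (A : Finset ι)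
    {c : ℝ} (hc : 0 < c) : 0 ≤ cE S R p b A c := by
  unfold cE
  have h1 : 0 ≤ ∑ j ∈ Aᶜ, Real.sqrt (Rev811.cpl (Rev811.GA S p A b) R p (b j)) :=
    Finset.sum_nonneg fun _ _ => Real.sqrt_nonneg _
  have h2 : 0 ≤ ∑ jk ∈ (Aᶜ).offDiag, Real.sqrt (Rev811.cpl2 R p (b jk.1) (b jk.2)) :=
    Finset.sum_nonneg fun _ _ => Real.sqrt_nonneg _
  positivity

lemma tt_eq {T ι : Type*} (t : ι → T) [DecidableEq ι] (A : Finset ι) :
    tt t A = t ∘ (Equiv.sumCompl (fun i => i ∈ A)) := by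
  funext i
  rcases i with a | j <;> rfl

/-- the decoupling on the whole tree (789's `dec_port` with 327's tree) -/
theorem dec_full (hp : IsPort p) {b : BI d (L + 1) → HE n d} (h : BVal (L + 1) p h0 b)
    (A : Finset (BI d (L + 1))) (s : ℝ) (ω : Fin n → ℝ) {z : ℂ} (hz : 0 < z.im) {c : ℝ}
    (hc : 0 < c)
    (hB : ∀ j, j ∉ A → ∀ y : Fin 2 → ℂ, c * ∑ i, ‖y i‖ ^ 2 ≤ qf (imM (BE p s ω z (b j))) y)
    {κ : ℝ} (hκ : cE (S0t p h0 L) (RR p s ω z) p b A c ≤ κ) (hκ2 : κ ≤ 1 / 2) :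
    Near (2 * κ)
      (treeOut (Res789.Res (hTree (Vt p h0 (L + 1) s ω)) z)
        (leafT L ∘ (Equiv.sumCompl (fun i => i ∈ A))) (XiP p h0 L b A s ω z))
      ((Res789.Res (Hm (graphOf (np p h0 b)) s ω +
        Dec598.lift (Dec598.emb (phi p h0 (L + 1))) (UR (root L false) (root L true))) z).submatrix
          (phi p h0 (L + 1)) (phi p h0 (L + 1))) := by
  have hD := dat_tree hp h
  have hk0 := cE_nonneg (S0t p h0 L) (RR p s ω z) p b A hc
  have key := dec_port hD A s ω (UR_symm (root L false) (root L true)) hz hc hB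
    (lt_of_le_of_lt hκ (by linarith))
  have h1 : hT p (phi p h0 (L + 1)) s ω (UR (root L false) (root L true)) =
      hTree (Vt p h0 (L + 1) s ω) := hT_eq hp h.tl s ω
  rw [h1, tt_eq] at key
  refine key.mono ((Dec598.div_one_sub_le hk0 (hκ.trans hκ2)).trans ?_)
  have h2 : cE (S0 p (phi p h0 (L + 1)) (tau p h0 : BI d (L + 1) → HE n d))
    (Res789.Res (Hm (graphOf p) s ω) z) p b A c ≤ κ := hκ
  linarith

/-- the root corner -/
theorem corner_full (hp : IsPort p) {b : BI d (L + 1) → HE n d} (h : BVal (L + 1) p h0 b)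
    (s : ℝ) (ω : Fin n → ℝ) {z : ℂ} (hz : 0 < z.im) {κ : ℝ}
    {M : Matrix (Tr Bool (NZ d) (L + 1)) (Tr Bool (NZ d) (L + 1)) ℂ} (hM : Siegel M)
    (hN : Near κ M ((Res789.Res (Hm (graphOf (np p h0 b)) s ω +
        Dec598.lift (Dec598.emb (phi p h0 (L + 1))) (UR (root L false) (root L true))) z).submatrix
          (phi p h0 (L + 1)) (phi p h0 (L + 1)))) :
    Near κ (M.submatrix ![root L false, root L true] ![root L false, root L true])
      (B0 (np p h0 b) s ω z h0) := by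
  have key2 := hN.sub ![root L false, root L true] hM
  rw [root_corner (h.isPort (Nat.succ_le_succ (Nat.zero_le L)) hp) s ω hz
    (phi_root_false hp) (by rw [np_root hp h]; exact phi_root_true)] at key2
  exact key2

/-- **all inputs good** -/
theorem tree_good (hp : IsPort p) {b : BI d (L + 1) → HE n d} (h : BVal (L + 1) p h0 b)
    (s : ℝ) (ω : Fin n → ℝ) {z : ℂ} (hz : 0 < z.im) {c h1 : ℝ} (hc : 0 < c) (hh1 : 0 < h1)
    (hB : ∀ j, ∀ y : Fin 2 → ℂ, c * ∑ i, ‖y i‖ ^ 2 ≤ qf (imM (BE p s ω z (b j))) y)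
    (hX : ∀ j, h1 ≤ (B0 p s ω z (b j) 0 0).im) (hW : ∀ j, h1 ≤ (B0 p s ω z (b j) 1 1).im)
    (ho : ∀ j, ‖B0 p s ω z (b j) 0 1‖ ≤ h1 / 2) {δ κ : ℝ}
    (hδ : 2 / h1 ^ 2 * (∑ jk ∈ (univ : Finset (BI d (L + 1))).offDiag,
      ‖B0 p s ω z (b jk.1) 0 1‖ * ‖B0 p s ω z (b jk.2) 0 1‖) ≤ δ) (hδ2 : δ ≤ 1 / 2)
    (hκ : cE (S0t p h0 L) (RR p s ω z) p b ∅ c ≤ κ) (hκ2 : κ ≤ 1 / 2) :
    ∃ xh : BI d (L + 1) → ℂ,
      (∀ i, ‖xh i - B0 p s ω z (b i) 0 0‖ ≤ ‖B0 p s ω z (b i) 0 1‖ ^ 2 / h1) ∧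
      (∀ i, h1 / 2 ≤ (xh i).im) ∧
      Near (2 * δ + 4 * κ)
        (Matrix.diagonal ![treeF z (L + 1) (Vt p h0 (L + 1) s ω) (xh ∘ (layE (L + 1)).symm) false,
          treeF z (L + 1) (Vt p h0 (L + 1) s ω) (xh ∘ (layE (L + 1)).symm) true])
        (B0 (np p h0 b) s ω z h0) := by
  have hD := dat_tree hp h
  have hk0 := (cE_nonneg (S0t p h0 L) (RR p s ω z) p b ∅ hc).trans hκ
  have hN := dec_full hp h ∅ s ω hz hc (fun j _ => hB j) hκ hκ2
  have hE : IsEmpty (At (∅ : Finset (BI d (L + 1)))) :=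
    ⟨fun i => absurd i.2 (Finset.notMem_empty _)⟩
  have hS : Siegel (Res789.Res (hTree (Vt p h0 (L + 1) s ω)) z) :=
    (Res789.Res_sieg (hTree_symm _) hz).siegel
  have hδ' : (∑ j : Jt (∅ : Finset (BI d (L + 1))), ∑ k : Jt (∅ : Finset (BI d (L + 1))),
      if j = k then 0 else 2 * (‖B0 p s ω z (b j.1) 0 1‖ * ‖B0 p s ω z (b k.1) 0 1‖) / h1 ^ 2)
        ≤ δ := by
    refine le_trans (le_of_eq ?_) hδ
    set F : BI d (L + 1) → BI d (L + 1) → ℝ := fun j k => if j = k then 0 else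
      2 * (‖B0 p s ω z (b j) 0 1‖ * ‖B0 p s ω z (b k) 0 1‖) / h1 ^ 2 with hF
    have hE2 : ∀ f : BI d (L + 1) → ℝ, ∑ j : Jt (∅ : Finset (BI d (L + 1))), f j.1 = ∑ j, f j := by
      intro f
      exact Fintype.sum_equiv (Equiv.subtypeUnivEquiv (fun i => Finset.notMem_empty i)) _ _
        (fun _ => rfl)
    calc _ = ∑ j : Jt (∅ : Finset (BI d (L + 1))), ∑ k : Jt (∅ : Finset (BI d (L + 1))),
          F j.1 k.1 := by
          refine Finset.sum_congr rfl fun j _ => Finset.sum_congr rfl fun k _ => ?_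
          simp only [hF, Subtype.ext_iff]
      _ = ∑ j : Jt (∅ : Finset (BI d (L + 1))), ∑ k, F j.1 k :=
          Finset.sum_congr rfl fun j _ => hE2 _
      _ = ∑ j, ∑ k, F j k := hE2 fun j => ∑ k, F j k
      _ = ∑ jk ∈ (univ : Finset (BI d (L + 1))) ×ˢ univ, F jk.1 jk.2 := by
          rw [Finset.sum_product']
      _ = ∑ jk ∈ (univ : Finset (BI d (L + 1))).offDiag, F jk.1 jk.2 := by
          rw [← Finset.diag_union_offDiag, Finset.sum_union (Finset.disjoint_diag_offDiag _)]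
          have h3 : ∑ x ∈ (univ : Finset (BI d (L + 1))).diag, F x.1 x.2 = 0 := by
            apply Finset.sum_eq_zero
            intro x hx
            simp only [hF]
            rw [if_pos (Finset.mem_diag.1 hx).2]
          rw [h3, zero_add]
      _ = _ := by
          rw [Finset.mul_sum]
          refine Finset.sum_congr rfl fun x hx => ?_
          simp only [hF]
          rw [if_neg (Finset.mem_offDiag.1 hx).2.2]
          ring
  obtain ⟨xh, g1, g2, g3⟩ := form_good (Equiv.sumCompl (fun i => i ∈ (∅ : Finset (BI d (L + 1)))))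
    hS (leafT L) (siegel_SgB hD ∅ s ω (UR_symm (root L false) (root L true)) hz)
    (fun j : Jt (∅ : Finset (BI d (L + 1))) => siegel_B0P hp s ω hz (b j.1)) (aJ ∅)
    (DecP789.uA_injective ∅) hh1 (fun j => hX j.1) (fun j => hW j.1) (fun j => ho j.1) hδ' hδ2
    (by linarith : 0 ≤ 2 * κ) hN
  have hxp : ∀ i, 0 < (xh i).im := fun i => lt_of_lt_of_le (by linarith) (g2 i)
  refine ⟨xh, fun i => g1 ⟨i, Finset.notMem_empty i⟩, g2, ?_⟩
  have hM : Siegel (treeOut (Res789.Res (hTree (Vt p h0 (L + 1) s ω)) z) (leafT L)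
      (Matrix.diagonal xh)) := siegel_treeOut hS _ (siegel_diagonal hxp)
  have g4 := corner_full hp h s ω hz hM g3
  rw [treeOut_leafT hz L _ hxp] at g4
  have hδ0 : 0 ≤ δ := by
    refine le_trans ?_ hδ
    positivity
  refine g4.mono ?_
  nlinarith

/-- **arbitrary inputs on `A`** -/
theorem tree_gen (hp : IsPort p) {b : BI d (L + 1) → HE n d} (h : BVal (L + 1) p h0 b)
    (A : Finset (BI d (L + 1)))
    (s : ℝ) (ω : Fin n → ℝ) {z : ℂ} (hz : 0 < z.im) {c : ℝ} (hc : 0 < c)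
    (hB : ∀ j, j ∉ A → ∀ y : Fin 2 → ℂ, c * ∑ i, ‖y i‖ ^ 2 ≤ qf (imM (BE p s ω z (b j))) y)
    {ρ κ : ℝ} (hρ0 : 0 ≤ ρ) (hρ : ρ ≤ 1 / 4)
    (ho : ∀ j, j ∉ A → ‖B0 p s ω z (b j) 0 1‖ ≤
      ρ * (Real.sqrt (B0 p s ω z (b j) 0 0).im * Real.sqrt (B0 p s ω z (b j) 1 1).im))
    (hκ : cE (S0t p h0 L) (RR p s ω z) p b A c ≤ κ) (hκ2 : κ ≤ 1 / 2) :
    ∃ Ξ : Matrix (BI d (L + 1)) (BI d (L + 1)) ℂ, Siegel Ξ ∧
      (∀ j, j ∉ A → ∀ k, Ξ j k = if k = j then B0 p s ω z (b j) 0 0 else 0) ∧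
      Near (4 * ρ + 4 * κ)
        ((treeOut (Res789.Res (hTree (Vt p h0 (L + 1) s ω)) z) (leafT L) Ξ).submatrix
          ![root L false, root L true] ![root L false, root L true])
        (B0 (np p h0 b) s ω z h0) := by
  have hD := dat_tree hp h
  have hk0 := (cE_nonneg (S0t p h0 L) (RR p s ω z) p b A hc).trans hκ
  have hN := dec_full hp h A s ω hz hc hB hκ hκ2
  have hS : Siegel (Res789.Res (hTree (Vt p h0 (L + 1) s ω)) z) :=
    (Res789.Res_sieg (hTree_symm _) hz).siegel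
  obtain ⟨Ξ, g1, g2, g3⟩ := form_gen (Equiv.sumCompl (fun i => i ∈ A))
    hS (leafT L) (siegel_SgB hD A s ω (UR_symm (root L false) (root L true)) hz)
    (fun j : Jt A => siegel_B0P hp s ω hz (b j.1)) (aJ A)
    (DecP789.uA_injective A) hρ0 hρ (fun j => ho j.1 j.2) (by linarith : 0 ≤ 2 * κ) hN
  refine ⟨Ξ, g1, fun j hj k => g2 ⟨j, hj⟩ k, ?_⟩
  have g4 := corner_full hp h s ω hz (siegel_treeOut hS _ g1) g3
  refine g4.mono ?_
  nlinarith

end Crest.Agent.R166.ShapeT598
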