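import Crest.Agent.R166.SwP2_470
import Crest.Agent.R166.Stab_269

/-!
# Row 166, section 20: locality, commutation of double moves, change of the Hamiltonian (helper470)

* `card_Ch_bsw`     : a move changes at most `4 N` half-edges
* `DI`, `depf`, `Dep` : dependence set of a move (ball, `u_i`, `w_i`)
* `bsw_eq_off`      : the move does not change `p` at half-edges with tail outside `dep`
* `BVal.congr_iff`  : validity only depends on `p` at the half-edges with tail in `dep`
* `bsw_comm`        : moves with disjoint dependence sets commute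
* `BVal.adj_np`     : the new adjacency;  `adj_bv` : neighbours of the ball vertices
-/

set_option autoImplicit false
set_option linter.unusedSectionVars false

open Finset

namespace Crest.Agent.R166.SwP470

variable {n d : ℕ}

section

variable {α V ι : Type*} {vt : α → V} {p : Equiv.Perm α} {a b : ι → α}

/-- `{x, y} = {u, v}` -/
def EP (x y u v : V) : Prop := (x = u ∧ y = v) ∨ (x = v ∧ y = u)

/-- the new adjacency -/
theorem Val.adj_iff (hp : IsSP vt p) (h : Val vt p a b) (x y : V) :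
    Adj vt (cj a b p) x y ↔
      (Adj vt p x y ∧ ∀ i, ¬ EP x y (vt (a i)) (vt (p (a i))) ∧ ¬ EP x y (vt (b i)) (vt (p (b i))))
      ∨ ∃ i, EP x y (vt (p (a i))) (vt (b i)) ∨ EP x y (vt (a i)) (vt (p (b i))) := by
  constructor
  · rintro ⟨z, rfl, rfl⟩
    rcases classify p a b z with ⟨i, rfl⟩ | ⟨i, rfl⟩ | ⟨i, rfl⟩ | ⟨i, rfl⟩ | ho
    · exact Or.inr ⟨i, Or.inr (Or.inl ⟨rfl, by rw [h.cj_a]⟩)⟩
    · exact Or.inr ⟨i, Or.inl (Or.inr ⟨rfl, by rw [h.cj_b]⟩)⟩
    · exact Or.inr ⟨i, Or.inl (Or.inl ⟨rfl, by rw [h.cj_t hp]⟩)⟩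
    · exact Or.inr ⟨i, Or.inr (Or.inr ⟨rfl, by rw [h.cj_w hp]⟩)⟩
    · left
      rw [ho.cj hp]
      refine ⟨⟨z, rfl, rfl⟩, fun i => ⟨?_, ?_⟩⟩
      · rintro (⟨h1, h2⟩ | ⟨h1, h2⟩)
        · exact ho.oa i (hp.multi z (a i) h1 h2).symm
        · exact ho.ot i (hp.multi z (p (a i)) h1 (by rw [h2, hp.inv])).symm
      · rintro (⟨h1, h2⟩ | ⟨h1, h2⟩)
        · exact ho.ob i (hp.multi z (b i) h1 h2).symm
        · exact ho.ow i (hp.multi z (p (b i)) h1 (by rw [h2, hp.inv])).symm
  · rintro (⟨⟨z, rfl, rfl⟩, hn⟩ | ⟨i, (⟨rfl, rfl⟩ | ⟨rfl, rfl⟩) | (⟨rfl, rfl⟩ | ⟨rfl, rfl⟩)⟩)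
    · rcases classify p a b z with ⟨i, rfl⟩ | ⟨i, rfl⟩ | ⟨i, rfl⟩ | ⟨i, rfl⟩ | ho
      · exact absurd (Or.inl ⟨rfl, rfl⟩) (hn i).1
      · exact absurd (Or.inl ⟨rfl, rfl⟩) (hn i).2
      · exact absurd (Or.inr ⟨rfl, by rw [hp.inv]⟩) (hn i).1
      · exact absurd (Or.inr ⟨rfl, by rw [hp.inv]⟩) (hn i).2
      · exact ⟨z, rfl, by rw [ho.cj hp]⟩
    · exact ⟨p (a i), rfl, by rw [h.cj_t hp]⟩
    · exact ⟨b i, rfl, by rw [h.cj_b]⟩
    · exact ⟨a i, rfl, by rw [h.cj_a]⟩
    · exact ⟨p (b i), rfl, by rw [h.cj_w hp]⟩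

end

section ball

variable [NeZero d] {p : Equiv.Perm (HE n d)} {h0 : HE n d} {L : ℕ} {b : BI d L → HE n d}

/-- adjacency after the move -/
theorem BVal.adj_np (hL : 1 ≤ L) (hp : IsPort p) (h : BVal L p h0 b) (x y : Fin n) :
    (graphOf (np p h0 b)).Adj x y ↔
      ((graphOf p).Adj x y ∧ ∀ i : BI d L, ¬ EP x y (ab p h0 i).1 (tau p h0 i).1 ∧
        ¬ EP x y (b i).1 (p (b i)).1)
      ∨ ∃ i : BI d L, EP x y (tau p h0 i).1 (b i).1 ∨ EP x y (ab p h0 i).1 (p (b i)).1 := by
  have h1 := (h.val hL hp).adj_iff (isSP_of_isPort hp) x y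
  have h2 : ∀ i : BI d L, p (ab p h0 i) = tau p h0 i := fun i => hp.inv _
  simp only [h2] at h1
  rw [← adj_iff_adj (h.isPort hL hp), ← adj_iff_adj hp]
  exact h1

/-- all half-edges at the vertex `bv p h0 s w` -/
lemma exists_rot (x y : HE n d) (h : x.1 = y.1) : ∃ k, x = rot k y := by
  refine ⟨x.2 - y.2, ?_⟩
  unfold rot
  refine Prod.ext h ?_
  simp

/-- **neighbours of a ball vertex**: the parent and the children -/
theorem adj_bv (hp : IsPort p) (s : Bool) (w : List (Fin d)) (y : Fin n) :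
    (graphOf p).Adj (bv p h0 s w) y ↔
      y = (desc p (rt p h0 s) w).1 ∨ ∃ k, k ≠ 0 ∧ y = bv p h0 s (w ++ [k]) := by
  rw [← adj_iff_adj hp]
  constructor
  · rintro ⟨z, h1, h2⟩
    obtain ⟨k, rfl⟩ := exists_rot z (p (desc p (rt p h0 s) w)) h1
    by_cases hk : k = 0
    · left
      subst hk
      rw [rot_zero, hp.inv] at h2
      exact h2.symm
    · right
      refine ⟨k, hk, ?_⟩
      unfold bv
      rw [desc_snoc]
      exact h2.symm
  · rintro (rfl | ⟨k, hk, rfl⟩)
    · exact ⟨p (desc p (rt p h0 s) w), rfl, by rw [hp.inv]⟩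
    · refine ⟨rot k (p (desc p (rt p h0 s) w)), rfl, ?_⟩
      unfold bv
      rw [desc_snoc]

/-! ### number of changed half-edges -/

open Classical in
lemma card_Ch_bsw (hp : IsPort p) (m : HE n d × (BI d L → HE n d)) :
    (Stab269.Ch p (bsw L p m).1).card ≤ 4 * Fintype.card (BI d L) := by
  by_cases h : BVal L p m.1 m.2
  · rw [bsw_pos h]
    set S : Finset (HE n d) := (univ.image (ab p m.1 : BI d L → HE n d)) ∪ (univ.image m.2) ∪
      (univ.image (fun i : BI d L => p (ab p m.1 i))) ∪ (univ.image fun i => p (m.2 i)) with hS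
    have hsub : Stab269.Ch p (np p m.1 m.2) ⊆ S := by
      intro x hx
      simp only [Stab269.Ch, mem_filter, mem_univ, true_and] at hx
      rcases classify p (ab p m.1 : BI d L → HE n d) m.2 x with ⟨i, rfl⟩ | ⟨i, rfl⟩ | ⟨i, rfl⟩ |
        ⟨i, rfl⟩ | ho
      · rw [hS]
        simp only [mem_union]
        exact Or.inl (Or.inl (Or.inl (mem_image_of_mem _ (mem_univ i))))
      · rw [hS]
        simp only [mem_union]
        exact Or.inl (Or.inl (Or.inr (mem_image_of_mem _ (mem_univ i))))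
      · rw [hS]
        simp only [mem_union]
        exact Or.inl (Or.inr (mem_image_of_mem (fun i : BI d L => p (ab p m.1 i)) (mem_univ i)))
      · rw [hS]
        simp only [mem_union]
        exact Or.inr (mem_image_of_mem (fun i : BI d L => p (m.2 i)) (mem_univ i))
      · exact absurd (ho.cj (isSP_of_isPort hp)).symm hx
    have c1 : ∀ f : BI d L → HE n d, (univ.image f).card ≤ Fintype.card (BI d L) := fun f =>
      card_image_le
    calc _ ≤ S.card := card_le_card hsub
      _ ≤ Fintype.card (BI d L) + Fintype.card (BI d L) + Fintype.card (BI d L) +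
          Fintype.card (BI d L) := by
          refine (card_union_le _ _).trans (add_le_add ?_ (c1 _))
          refine (card_union_le _ _).trans (add_le_add ?_ (c1 _))
          exact (card_union_le _ _).trans (add_le_add (c1 _) (c1 _))
      _ = _ := by ring
  · rw [bsw_neg h]
    have : Stab269.Ch p p = ∅ := by
      ext x; simp [Stab269.Ch]
    rw [this]; simp

/-! ### dependence sets -/

/-- index type of the dependence set of a move -/
abbrev DI (d : ℕ) [NeZero d] (L : ℕ) : Type :=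
  (Bool × (Σ j : Fin (L + 1), (Fin j → NZ d))) ⊕ (BI d L ⊕ BI d L)

/-- the vertices on which the move depends -/
def depf (L : ℕ) (p : Equiv.Perm (HE n d)) (m : HE n d × (BI d L → HE n d)) : DI d L → Fin n
  | Sum.inl x => bv p m.1 x.1 (wd x.2.2)
  | Sum.inr (Sum.inl i) => (m.2 i).1
  | Sum.inr (Sum.inr i) => (p (m.2 i)).1

/-- the dependence set of a move -/
def Dep (L : ℕ) (p : Equiv.Perm (HE n d)) (m : HE n d × (BI d L → HE n d)) (v : Fin n) : Prop :=
  ∃ x, depf L p m x = v

lemma dep_bv (m : HE n d × (BI d L → HE n d)) (s : Bool) {w : List (Fin d)} (hw : NZw w)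
    (hl : w.length ≤ L) : Dep L p m (bv p m.1 s w) := by
  obtain ⟨f, hf⟩ := exists_wd hw rfl
  refine ⟨Sum.inl (s, ⟨⟨w.length, by omega⟩, f⟩), ?_⟩
  show bv p m.1 s (wd f) = _
  rw [hf]

lemma dep_u (m : HE n d × (BI d L → HE n d)) (i : BI d L) : Dep L p m (m.2 i).1 :=
  ⟨Sum.inr (Sum.inl i), rfl⟩

lemma dep_w (m : HE n d × (BI d L → HE n d)) (i : BI d L) : Dep L p m (p (m.2 i)).1 :=
  ⟨Sum.inr (Sum.inr i), rfl⟩

lemma dep_desc (hp : IsPort p) (m : HE n d × (BI d L → HE n d)) (s : Bool) {w : List (Fin d)}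
    (hw : NZw w) (hl : w.length ≤ L) : Dep L p m (desc p (rt p m.1 s) w).1 := by
  obtain ⟨s', w', h1, h2, h3⟩ := desc_fst (p := p) (h0 := m.1) hp s w hw
  rw [h3]
  exact dep_bv m s' h1 (by omega)

/-- the move does not change `p` away from its dependence set -/
lemma bsw_eq_off (hp : IsPort p) (m : HE n d × (BI d L → HE n d)) {x : HE n d}
    (hx : ¬ Dep L p m x.1) : (bsw L p m).1 x = p x := by
  by_cases h : BVal L p m.1 m.2
  · rw [bsw_pos h]
    have ho : Out p (ab p m.1) m.2 x := by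
      refine ⟨fun i hi => hx ?_, fun i hi => hx ?_, fun i hi => hx ?_, fun i hi => hx ?_⟩
      · rw [← hi, ab_fst]
        exact dep_bv m i.1 (wd_NZw i.2) (wd_length i.2).le
      · rw [← hi]; exact dep_u m i
      · rw [← hi]
        have : p (ab p m.1 i) = tau p m.1 i := hp.inv _
        rw [this]
        exact dep_desc hp m i.1 (wd_NZw i.2) (wd_length i.2).le
      · rw [← hi]; exact dep_w m i
    exact ho.cj (isSP_of_isPort hp)
  · rw [bsw_neg h]

section congr

variable {q : Equiv.Perm (HE n d)} {m : HE n d × (BI d L → HE n d)}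

/-- the same half-edges in `q` -/
lemma desc_congr (hp : IsPort p) (hq : ∀ x : HE n d, Dep L p m x.1 → q x = p x) (s : Bool)
    {w : List (Fin d)} (hw : NZw w) (hl : w.length ≤ L) :
    desc q (rt q m.1 s) w = desc p (rt p m.1 s) w := by
  have hrt : rt q m.1 s = rt p m.1 s := by
    cases s
    · have := hq m.1 (by
        have h1 := dep_desc (p := p) (L := L) hp m true (w := []) (by simp [NZw]) (by simp)
        simpa [rt] using h1)
      simpa [rt] using this
    · rfl
  induction w using List.reverseRecOn with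
  | nil => simpa using hrt
  | append_singleton w k ih =>
    have hl' : w.length ≤ L := by simp at hl; omega
    rw [desc_snoc, desc_snoc, ih hw.append.1 hl', hq _ (dep_desc hp m s hw.append.1 hl')]

lemma bv_congr (hp : IsPort p) (hq : ∀ x : HE n d, Dep L p m x.1 → q x = p x) (s : Bool)
    {w : List (Fin d)} (hw : NZw w) (hl : w.length ≤ L) : bv q m.1 s w = bv p m.1 s w := by
  unfold bv
  rw [desc_congr hp hq s hw hl, hq _ (dep_desc hp m s hw hl)]

lemma ab_congr (hp : IsPort p) (hq : ∀ x : HE n d, Dep L p m x.1 → q x = p x) (i : BI d L) :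
    ab q m.1 i = ab p m.1 i := by
  unfold ab tau
  rw [desc_congr hp hq _ (wd_NZw i.2) (wd_length i.2).le,
    hq _ (dep_desc hp m _ (wd_NZw i.2) (wd_length i.2).le)]

lemma depf_congr (hp : IsPort p) (hq : ∀ x : HE n d, Dep L p m x.1 → q x = p x) (x : DI d L) :
    depf L q m x = depf L p m x := by
  rcases x with x | i | i
  · have hlen : (wd x.2.2).length ≤ L := by
      rw [wd_length]
      have := x.2.1.2
      omega
    exact bv_congr hp hq x.1 (wd_NZw x.2.2) hlen
  · rfl
  · show (q (m.2 i)).1 = (p (m.2 i)).1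
    rw [hq _ (dep_u m i)]

lemma Dep_congr (hp : IsPort p) (hq : ∀ x : HE n d, Dep L p m x.1 → q x = p x) (v : Fin n) :
    Dep L q m v ↔ Dep L p m v := by
  unfold Dep
  constructor
  · rintro ⟨x, hx⟩; exact ⟨x, by rw [← hx, depf_congr hp hq]⟩
  · rintro ⟨x, hx⟩; exact ⟨x, by rw [← hx, depf_congr hp hq]⟩

lemma BVal.congr (hp : IsPort p) (hq : ∀ x : HE n d, Dep L p m x.1 → q x = p x)
    (h : BVal L p m.1 m.2) : BVal L q m.1 m.2 where
  tl := fun s s' w w' hw hw' hl hl' he => by
    rw [bv_congr hp hq s hw hl, bv_congr hp hq s' hw' hl'] at he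
    exact h.tl _ _ _ _ hw hw' hl hl' he
  bu := fun s w i hw hl => by
    rw [bv_congr hp hq s hw hl]; exact h.bu s w i hw hl
  bw := fun s w i hw hl => by
    rw [bv_congr hp hq s hw hl, hq _ (dep_u m i)]; exact h.bw s w i hw hl
  uu := h.uu
  ww := fun i j hij => by
    rw [hq _ (dep_u m i), hq _ (dep_u m j)] at hij
    exact h.ww i j hij
  uw := fun i j => by
    rw [hq _ (dep_u m j)]; exact h.uw i j
  ntu := fun i => by
    rintro ⟨x, h1, h2⟩
    have ht : tau q m.1 i = tau p m.1 i := desc_congr hp hq _ (wd_NZw i.2) (wd_length i.2).le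
    rw [ht] at h1
    have hx : Dep L p m x.1 := by
      rw [h1]; exact dep_desc hp m _ (wd_NZw i.2) (wd_length i.2).le
    rw [hq _ hx] at h2
    exact h.ntu i ⟨x, h1, h2⟩
  naw := fun i => by
    rintro ⟨x, h1, h2⟩
    rw [ab_congr hp hq] at h1
    have hx : Dep L p m x.1 := by
      rw [h1, ab_fst]; exact dep_bv m _ (wd_NZw i.2) (wd_length i.2).le
    rw [hq _ hx, hq _ (dep_u m i)] at h2
    exact h.naw i ⟨x, h1, h2⟩

/-- validity is local -/
lemma BVal.congr_iff (hp : IsPort p) (hqp : IsPort q)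
    (hq : ∀ x : HE n d, Dep L p m x.1 → q x = p x) :
    BVal L q m.1 m.2 ↔ BVal L p m.1 m.2 := by
  refine ⟨fun h => ?_, fun h => h.congr hp hq⟩
  exact h.congr hqp fun x hx => (hq x ((Dep_congr hp hq x.1).1 hx)).symm

end congr

lemma msw_commute {α ι ι' : Type*} {a b : ι → α} {a' b' : ι' → α}
    (h1 : ∀ i j, a i ≠ a' j) (h2 : ∀ i j, a i ≠ b' j) (h3 : ∀ i j, b i ≠ a' j)
    (h4 : ∀ i j, b i ≠ b' j) (x : α) : msw a b (msw a' b' x) = msw a' b' (msw a b x) := by
  by_cases hab : Dj a b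
  · by_cases hab' : Dj a' b'
    · by_cases ha : ∃ i, a i = x
      · obtain ⟨i, rfl⟩ := ha
        rw [msw_o (fun j hj => h1 i j hj.symm) (fun j hj => h2 i j hj.symm), msw_a hab,
          msw_o (fun j hj => h3 i j hj.symm) (fun j hj => h4 i j hj.symm)]
      by_cases hb : ∃ i, b i = x
      · obtain ⟨i, rfl⟩ := hb
        rw [msw_o (fun j hj => h3 i j hj.symm) (fun j hj => h4 i j hj.symm), msw_b hab,
          msw_o (fun j hj => h1 i j hj.symm) (fun j hj => h2 i j hj.symm)]
      have ha' : ∀ i, a i ≠ x := fun i hi => ha ⟨i, hi⟩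
      have hb' : ∀ i, b i ≠ x := fun i hi => hb ⟨i, hi⟩
      rw [msw_o ha' hb']
      by_cases hc : ∃ i, a' i = x
      · obtain ⟨i, rfl⟩ := hc
        rw [msw_a hab']
        exact msw_o (fun j hj => h2 j i hj) (fun j hj => h4 j i hj)
      by_cases he : ∃ i, b' i = x
      · obtain ⟨i, rfl⟩ := he
        rw [msw_b hab']
        exact msw_o (fun j hj => h1 j i hj) (fun j hj => h3 j i hj)
      rw [msw_o (fun i hi => hc ⟨i, hi⟩) (fun i hi => he ⟨i, hi⟩), msw_o ha' hb']
    · have : msw a' b' = 1 := by unfold msw; rw [dif_neg hab']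
      rw [this]; rfl
  · have : msw a b = 1 := by unfold msw; rw [dif_neg hab]
    rw [this]; rfl

/-- **moves with disjoint dependence sets commute** -/
theorem bsw_comm (hL : 1 ≤ L) (hp : IsPort p) (m m' : HE n d × (BI d L → HE n d))
    (hdis : ∀ v, Dep L p m v → ¬ Dep L p m' v) :
    (bsw L (bsw L p m).1 m').1 = (bsw L (bsw L p m').1 m).1 := by
  have hsys := moveSystem n d L hL
  have hp1 : IsPort (bsw L p m).1 :=
    mem_Ports.1 (hsys.mem_left p (mem_Ports.2 hp) m (mem_univ _))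
  have hp2 : IsPort (bsw L p m').1 :=
    mem_Ports.1 (hsys.mem_left p (mem_Ports.2 hp) m' (mem_univ _))
  have e1 : ∀ x : HE n d, Dep L p m' x.1 → (bsw L p m).1 x = p x := fun x hx =>
    bsw_eq_off hp m fun h => hdis _ h hx
  have e2 : ∀ x : HE n d, Dep L p m x.1 → (bsw L p m').1 x = p x := fun x hx =>
    bsw_eq_off hp m' (hdis _ hx)
  have i1 := BVal.congr_iff hp hp1 e1
  have i2 := BVal.congr_iff hp hp2 e2
  by_cases h : BVal L p m.1 m.2
  · by_cases h' : BVal L p m'.1 m'.2
    · rw [bsw_pos (i1.2 h'), bsw_pos (i2.2 h)]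
      show np _ _ _ = np _ _ _
      unfold np
      have a1 : (ab (bsw L p m).1 m'.1 : BI d L → HE n d) = ab p m'.1 :=
        funext fun i => ab_congr hp e1 i
      have a2 : (ab (bsw L p m').1 m.1 : BI d L → HE n d) = ab p m.1 :=
        funext fun i => ab_congr hp e2 i
      rw [a1, a2, bsw_pos h, bsw_pos h']
      show cj _ _ (cj _ _ p) = cj _ _ (cj _ _ p)
      have hc := msw_commute (a := (ab p m.1 : BI d L → HE n d)) (b := m.2)
        (a' := (ab p m'.1 : BI d L → HE n d)) (b' := m'.2)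
        (fun i j hij => hdis (ab p m.1 i).1
          (by rw [ab_fst]; exact dep_bv m _ (wd_NZw i.2) (wd_length i.2).le)
          (by rw [hij, ab_fst]; exact dep_bv m' _ (wd_NZw j.2) (wd_length j.2).le))
        (fun i j hij => hdis (ab p m.1 i).1
          (by rw [ab_fst]; exact dep_bv m _ (wd_NZw i.2) (wd_length i.2).le)
          (by rw [hij]; exact dep_u m' j))
        (fun i j hij => hdis (m.2 i).1 (dep_u m i)
          (by rw [hij, ab_fst]; exact dep_bv m' _ (wd_NZw j.2) (wd_length j.2).le))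
        (fun i j hij => hdis (m.2 i).1 (dep_u m i) (by rw [hij]; exact dep_u m' j))
      ext1 x
      simp only [cj_apply]
      rw [hc, hc]
    · have e : (bsw L p m').1 = p := by rw [bsw_neg h']
      rw [e, bsw_neg (p := (bsw L p m).1) (fun hh => h' (i1.1 hh))]
  · by_cases h' : BVal L p m'.1 m'.2
    · have e : (bsw L p m).1 = p := by rw [bsw_neg h]
      rw [e, bsw_neg (p := (bsw L p m').1) (fun hh => h (i2.1 hh))]
    · have e : (bsw L p m).1 = p := by rw [bsw_neg h]
      have e' : (bsw L p m').1 = p := by rw [bsw_neg h']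
      rw [e, e', e]

end ball

end Crest.Agent.R166.SwP470
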