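import Crest.Agent.R166.SpecF3b_798
import Crest.Agent.R166.AvgCon_798
import Crest.Agent.R166.Sec2_522
import Crest.Agent.R166.SwComm_356
import Crest.Agent.R166.SwP3_470
import Crest.Agent.R166.MuU_395
import Crest.Agent.R166.Glue_269
import Crest.Agent.R166.ShapeT_598

/-!
# Row 166, section 32 (graph half, helper798): mean stability of the bounded coordinate of the
cavity value, and the second moment estimate for differences at two energies.

* `rho_of_near` : `Near ε Z Z'` implies `ρ(Z'ᵢᵢ, Zᵢᵢ) ≤ ε`;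
* `uu_stab`     : `|u(X(B')) - u(X(B))| ≤ CS ‖B' - B‖` if `B` is `κ`-fine;
* `sum_uu_stab` : sum over the half-edges, for two port-numbered graphs;
* `sm_D`        : `∑_p |D_p - g_D(p)|² ≤ ...`.
-/

set_option autoImplicit false
set_option linter.unusedSectionVars false

open Matrix Finset

namespace Crest.Agent.R166.FineStab798

open Crest.Agent.R166 Crest.Agent.R166.Stab269 Crest.Agent.R166.TreeDet350
  Crest.Agent.R166.AvgCon798 Crest.Agent.R166.Rev811 Crest.Agent.R166.MeanEq269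
open Crest.Agent.R166.Off522 (Fine)
open Crest.Agent.R166.Res598 (Siegel Near mob imM qf nq)
open Crest.Agent.R166.SwP470 (BI NZ bsw)

attribute [local instance] Matrix.linftyOpNormedRing Matrix.linftyOpNormedAlgebra

section near

variable {ι : Type*} [Fintype ι] [DecidableEq ι]

lemma dot_single (Z : Matrix ι ι ℂ) (i : ι) :
    (Pi.single i 1 : ι → ℂ) ⬝ᵥ (Z *ᵥ (Pi.single i 1 : ι → ℂ)) = Z i i := by
  rw [single_one_dotProduct, mulVec_single_one]
  rfl

lemma near_diag_sub {ε : ℝ} {Z Z' : Matrix ι ι ℂ} (hZ : Siegel Z) (h : Near ε Z Z') (i : ι) :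
    ‖Z' i i - Z i i‖ ≤ ε * (Z i i).im := by
  have h1 := h.2 (Pi.single i 1) (Pi.single i 1)
  rw [dot_single, Matrix.sub_apply] at h1
  have h2 : nq (imM Z) (Pi.single i 1 : ι → ℂ) * nq (imM Z) (Pi.single i 1 : ι → ℂ) =
      (Z i i).im := by
    rw [← sq, Res598.nq_sq hZ.pos.posSemidef, ← Res598.im_form hZ.symm]
    have h3 : star (Pi.single i 1 : ι → ℂ) = Pi.single i 1 := by
      ext j
      by_cases hj : j = i
      · subst hj; simp
      · simp [Pi.single_eq_of_ne hj]
    rw [h3, dot_single]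
  rw [mul_assoc, h2] at h1
  exact h1

lemma im_le_norm_sub_conj {x y : ℂ} (hx : 0 ≤ x.im) (hy : 0 ≤ y.im) :
    y.im ≤ ‖x - (starRingEnd ℂ) y‖ := by
  refine le_trans ?_ (Complex.abs_im_le_norm _)
  rw [Complex.sub_im, Complex.conj_im, sub_neg_eq_add, abs_of_nonneg (by linarith)]
  linarith

lemma rho_le_of_sub {ε : ℝ} {x y : ℂ} (hx : 0 ≤ x.im) (hy : 0 < y.im)
    (h : ‖x - y‖ ≤ ε * y.im) : rho x y ≤ ε := by
  unfold rho
  have h1 := im_le_norm_sub_conj hx hy.le
  have h2 : 0 < ‖x - (starRingEnd ℂ) y‖ := lt_of_lt_of_le hy h1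
  rw [div_le_iff₀ h2]
  have hε : 0 ≤ ε := by
    by_contra hneg
    push Not at hneg
    have := norm_nonneg (x - y)
    nlinarith
  exact h.trans (mul_le_mul_of_nonneg_left h1 hε)

/-- `Near` controls the pseudo-hyperbolic distance of the diagonal entries -/
theorem rho_of_near {ε : ℝ} {Z Z' : Matrix ι ι ℂ} (hZ : Siegel Z) (hZ' : Siegel Z')
    (h : Near ε Z Z') (i : ι) : rho (Z' i i) (Z i i) ≤ ε :=
  rho_le_of_sub (Dec598.siegel_entry_pos hZ' i).le (Dec598.siegel_entry_pos hZ i)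
    (near_diag_sub hZ h i)

end near

/-! ### stability of the bounded coordinate -/

/-- constant -/
noncomputable def CS (y0 κ : ℝ) : ℝ := 12 / (y0 * κ) + 8 * BB y0 / κ

theorem CS_nonneg {y0 κ : ℝ} (hy : 0 < y0) (hκ : 0 < κ) : 0 ≤ CS y0 κ := by
  have := BB_pos hy
  unfold CS; positivity

theorem uu_stab {b : ℕ} {y0 : ℝ} {z m : ℂ} (h : Adm b y0 z m) {κ : ℝ}
    {B B' : Matrix (Fin 2) (Fin 2) ℂ} (hB : Fine κ B) (hB' : Siegel B') :
    ‖uu m (cavB B' 0 0) - uu m (cavB B 0 0)‖ ≤ CS y0 κ * ‖B' - B‖ := by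
  have hκ := hB.pos
  have hy := h.hy
  have hBB := BB_pos hy
  have hS := hB.siegel
  set t := ‖B' - B‖ with ht
  have ht0 : 0 ≤ t := norm_nonneg _
  have hc := Off522.siegel_cavB hS
  have hc' := Off522.siegel_cavB hB'
  have hp := Dec598.siegel_entry_pos hc 0
  have hp' := Dec598.siegel_entry_pos hc' 0
  by_cases hsmall : 2 * t / κ ≤ 1 / 2
  · have h1 : Near (t * Fintype.card (Fin 2) / κ) B B' :=
      Off522.near_of_entry hκ ht0 hB'.symm hB.im fun i j => by
        rw [← Matrix.sub_apply]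
        exact entry_le_norm _ i j
    have e1 : t * (Fintype.card (Fin 2) : ℝ) / κ = 2 * t / κ := by
      rw [Fintype.card_fin]; push_cast; ring
    rw [e1] at h1
    have hε0 : 0 ≤ 2 * t / κ := by positivity
    have hV : (-Off522.W2r)ᵀ = -Off522.W2r := by rw [Matrix.transpose_neg, Off522.W2r_symm]
    have h2 := Near.mob hε0 (by linarith) hS h1 hV
    rw [← Off522.cavB_eq_mob hS, ← Off522.cavB_eq_mob hB'] at h2
    have h3 : 2 * t / κ / (1 - 2 * t / κ) ≤ 4 * t / κ := by
      rw [div_le_iff₀ (by linarith)]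
      have : 4 * t / κ = 2 * (2 * t / κ) := by ring
      rw [this]
      nlinarith
    have h4 := rho_of_near hc hc' (h2.mono h3) 0
    have h5 := h.uu_lip hp' hp
    calc ‖uu m (cavB B' 0 0) - uu m (cavB B 0 0)‖ ≤ 3 / y0 * rho (cavB B' 0 0) (cavB B 0 0) := h5
      _ ≤ 3 / y0 * (4 * t / κ) := mul_le_mul_of_nonneg_left h4 (by positivity)
      _ = 12 / (y0 * κ) * t := by field_simp; ring
      _ ≤ CS y0 κ * t := by
          apply mul_le_mul_of_nonneg_right _ ht0
          unfold CS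
          have : 0 ≤ 8 * BB y0 / κ := by positivity
          linarith
  · push Not at hsmall
    have h1 : 1 ≤ 4 * t / κ := by
      have : 4 * t / κ = 2 * (2 * t / κ) := by ring
      linarith
    have h2 : ‖uu m (cavB B' 0 0) - uu m (cavB B 0 0)‖ ≤ 2 * BB y0 := by
      refine (norm_sub_le _ _).trans ?_
      have := h.norm_uu_le hp.le
      have := h.norm_uu_le hp'.le
      linarith
    calc ‖uu m (cavB B' 0 0) - uu m (cavB B 0 0)‖ ≤ 2 * BB y0 * 1 := by linarith
      _ ≤ 2 * BB y0 * (4 * t / κ) := mul_le_mul_of_nonneg_left h1 (by positivity)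
      _ = 8 * BB y0 / κ * t := by ring
      _ ≤ CS y0 κ * t := by
          apply mul_le_mul_of_nonneg_right _ ht0
          unfold CS
          have : 0 ≤ 12 / (y0 * κ) := by positivity
          linarith

section port

variable {n d : ℕ}

open Classical in
/-- number of half-edges with a block that is not `κ`-fine -/
noncomputable def nbad (κ : ℝ) (p : Equiv.Perm (HE n d)) (s : ℝ) (ω : Fin n → ℝ) (z : ℂ) : ℝ :=
  ((Finset.univ.filter fun h : HE n d => ¬ Fine κ (BE p s ω z h)).card : ℝ)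

/-- **mean stability** of the bounded coordinate -/
theorem sum_uu_stab {b : ℕ} {y0 : ℝ} {z0 m : ℂ} (h : Adm b y0 z0 m) {κ : ℝ} (hκ : 0 < κ)
    {p p' : Equiv.Perm (HE n d)} (hp : IsPort p) (hp' : IsPort p') (s : ℝ) (ω : Fin n → ℝ)
    {z : ℂ} (hz : 0 < z.im) :
    ∑ h : HE n d, ‖uu m (B0 p' s ω z h 0 0) - uu m (B0 p s ω z h 0 0)‖ ≤
      4 * CS y0 κ * d * ((Ch p p').card : ℝ) / z.im + 2 * BB y0 * ((Ch p p').card : ℝ) +
        2 * BB y0 * nbad κ p s ω z := by
  classical
  obtain ⟨γ, hγ0, hγ, hsum⟩ := exists_gamma hp hp' s ω hz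
  have hy := h.hy
  have hBB := BB_pos hy
  have hCS := CS_nonneg hy hκ
  have hpt : ∀ x : HE n d, ‖uu m (B0 p' s ω z x 0 0) - uu m (B0 p s ω z x 0 0)‖ ≤
      2 * CS y0 κ * (γ x.1 ^ 2 + γ (p x).1 ^ 2) +
        ((if x ∈ Ch p p' then 2 * BB y0 else 0) +
          (if ¬ Fine κ (BE p s ω z x) then 2 * BB y0 else 0)) := by
    intro x
    have hb : ‖uu m (B0 p' s ω z x 0 0) - uu m (B0 p s ω z x 0 0)‖ ≤ 2 * BB y0 := by
      refine (norm_sub_le _ _).trans ?_
      have := h.norm_uu_le (MuU395.im_B0_pos hp s ω hz x 0).le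
      have := h.norm_uu_le (MuU395.im_B0_pos hp' s ω hz x 0).le
      linarith
    have h0 : 0 ≤ 2 * CS y0 κ * (γ x.1 ^ 2 + γ (p x).1 ^ 2) := by positivity
    by_cases hx : x ∈ Ch p p'
    · rw [if_pos hx]
      have : (0 : ℝ) ≤ if ¬ Fine κ (BE p s ω z x) then 2 * BB y0 else 0 := by
        split_ifs <;> linarith
      linarith
    · rw [if_neg hx]
      by_cases hF : Fine κ (BE p s ω z x)
      · rw [if_neg (not_not.2 hF), add_zero, add_zero]
        have hpx : p x = p' x := by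
          by_contra hne
          exact hx (Finset.mem_filter.2 ⟨Finset.mem_univ _, hne⟩)
        have h1 := norm_BE_sub_le s ω hγ0 hγ hpx
        have h2 := uu_stab h hF (sieg_BE hp' s ω hz x).siegel
        refine h2.trans ((mul_le_mul_of_nonneg_left h1 hCS).trans (le_of_eq ?_))
        ring
      · rw [if_pos hF, zero_add]
        linarith
  refine (Finset.sum_le_sum fun x _ => hpt x).trans ?_
  rw [Finset.sum_add_distrib, Finset.sum_add_distrib, ← Finset.mul_sum, Finset.sum_add_distrib,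
    Stab269.sum_fst (fun v => γ v ^ 2), Stab269.sum_snd p (fun v => γ v ^ 2), ← Finset.sum_filter,
    ← Finset.sum_filter, Finset.sum_const, Finset.sum_const, nsmul_eq_mul, nsmul_eq_mul]
  have h2 : (Finset.univ.filter fun x => x ∈ Ch p p') = Ch p p' := by
    ext x
    simp
  rw [h2]
  have h3 : 2 * CS y0 κ * ((d : ℝ) * ∑ v, γ v ^ 2 + (d : ℝ) * ∑ v, γ v ^ 2)
      ≤ 4 * CS y0 κ * d * ((Ch p p').card : ℝ) / z.im := by
    have : 2 * CS y0 κ * ((d : ℝ) * ∑ v, γ v ^ 2 + (d : ℝ) * ∑ v, γ v ^ 2)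
        = 4 * CS y0 κ * d * ∑ v, γ v ^ 2 := by ring
    rw [this, mul_div_assoc]
    exact mul_le_mul_of_nonneg_left hsum (by positivity)
  have h4 : ((Finset.univ.filter fun x : HE n d => ¬ Fine κ (BE p s ω z x)).card : ℝ) =
      nbad κ p s ω z := by
    unfold nbad
    congr!
  rw [h4]
  linarith

end port

/-! ### second moment of the difference -/

section sm

variable {n d : ℕ}

/-- pairs of cavity values at two energies -/
noncomputable def PP (p : Equiv.Perm (HE n d)) (s : ℝ) (ω : Fin n → ℝ) (z z' : ℂ) (h : HE n d) :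
    ℂ × ℂ := (B0 p s ω z h 0 0, B0 p s ω z' h 0 0)

/-- the difference of the bounded coordinates -/
noncomputable def fD (m : ℂ) (s : ℝ) (ω : Fin n → ℝ) (z z' : ℂ) (p : Equiv.Perm (HE n d))
    (h : HE n d) : ℂ := uu m (B0 p s ω z h 0 0) - uu m (B0 p s ω z' h 0 0)

/-- one-step mean of the difference -/
noncomputable def gD [NeZero d] (m : ℂ) (s : ℝ) (ω : Fin n → ℝ) (z z' : ℂ)
    (p : Equiv.Perm (HE n d)) : ℂ :=
  (∑ mv : HE n d × (BI d 1 → HE n d), fD m s ω z z' (bsw 1 p mv).1 mv.1) /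
    ((Finset.univ : Finset (HE n d × (BI d 1 → HE n d))).card : ℂ)

theorem DD_eq (m : ℂ) (s : ℝ) (ω : Fin n → ℝ) (z z' : ℂ) (p : Equiv.Perm (HE n d)) :
    DD m (PP p s ω z z') = avc (fD m s ω z z' p) := rfl

theorem fD_le {b : ℕ} {y0 : ℝ} {z0 m : ℂ} (h : Adm b y0 z0 m) {p : Equiv.Perm (HE n d)}
    (hp : IsPort p) (s : ℝ) (ω : Fin n → ℝ) {z z' : ℂ} (hz : 0 < z.im) (hz' : 0 < z'.im)
    (x : HE n d) : ‖fD m s ω z z' p x‖ ≤ 2 * BB y0 := by
  unfold fD
  refine (norm_sub_le _ _).trans ?_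
  have := h.norm_uu_le (MuU395.im_B0_pos hp s ω hz x 0).le
  have := h.norm_uu_le (MuU395.im_B0_pos hp s ω hz' x 0).le
  linarith

/-- the number of changed half-edges -/
noncomputable def cL (d : ℕ) [NeZero d] : ℝ := 4 * (Fintype.card (BI d 1) : ℝ)

/-- the stability constant -/
noncomputable def del2 (n d : ℕ) [NeZero d] (y0 κ K ε : ℝ) : ℝ :=
  (4 * CS y0 κ * cL d / K) / BB y0 + 2 * cL d / (n * d) + 2 * ε

/-- real second moment for a real-linear functional of `fD` -/
theorem sm_real [NeZero d] {b : ℕ} {y0 : ℝ} {z0 m : ℂ} (h : Adm b y0 z0 m) {κ : ℝ} (hκ : 0 < κ)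
    (hn : 0 < n) (s : ℝ) (ω : Fin n → ℝ) {z z' : ℂ} {K ε : ℝ} (hK : 0 < K)
    (hz : K / n ≤ z.im) (hz' : K / n ≤ z'.im)
    (hN1 : ∑ p ∈ Ports n d, nbad κ p s ω z ≤ ε * (n * d) * (Ports n d).card)
    (hN2 : ∑ p ∈ Ports n d, nbad κ p s ω z' ≤ ε * (n * d) * (Ports n d).card)
    (φ : ℂ → ℝ) (hφ : ∀ a, |φ a| ≤ ‖a‖) (hφs : ∀ a b, φ a - φ b = φ (a - b)) :
    ∑ p ∈ Ports n d, (Sec269.nuAvg Finset.univ (fun p x => φ (fD m s ω z z' p x) / (2 * BB y0)) p -
      Sec269.gAvg (Finset.univ : Finset (HE n d × (BI d 1 → HE n d))) Prod.fst (bsw 1)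
        (fun p x => φ (fD m s ω z z' p x) / (2 * BB y0)) p) ^ 2 ≤
      (2 * del2 n d y0 κ K ε + 2 * ((Fintype.card (SwComm356.J d 1) : ℝ) ^ 2 / n)) *
        ((Ports n d).card : ℝ) := by
  classical
  have hn' : (0 : ℝ) < n := by exact_mod_cast hn
  have hd' : (0 : ℝ) < d := by exact_mod_cast Nat.pos_of_ne_zero (NeZero.ne d)
  have hzp : 0 < z.im := lt_of_lt_of_le (by positivity) hz
  have hzp' : 0 < z'.im := lt_of_lt_of_le (by positivity) hz'
  have hBB := BB_pos h.hy
  have hCS := CS_nonneg h.hy hκ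
  have hMv : (Finset.univ : Finset (HE n d × (BI d 1 → HE n d))).Nonempty :=
    H4.univ_nonempty 1 hn
  obtain ⟨Bad, hBad, hcomm⟩ := SwComm356.hcomm n d 1 hn
  refine Sec522.second_moment_avg (SwP470.moveSystem n d 1 le_rfl) hMv _ ?_ _ _ ?_
    ⟨Bad, fun p hp => hBad p hp, fun p hp mv hmv mv' hmv' hb => hcomm p hp mv hmv mv' hmv' hb⟩
  · intro p hp x _
    rw [mem_Ports] at hp
    rw [abs_div, abs_of_pos (by positivity : (0 : ℝ) < 2 * BB y0), div_le_one (by positivity)]
    exact (hφ _).trans (fD_le h hp s ω hzp hzp' x)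
  · -- mean stability
    have hone : ∀ p ∈ Ports n d, ∀ mv ∈ (Finset.univ : Finset (HE n d × (BI d 1 → HE n d))),
        ∑ x : HE n d, |φ (fD m s ω z z' (bsw 1 p mv).1 x) / (2 * BB y0) -
          φ (fD m s ω z z' p x) / (2 * BB y0)| ≤
        ((8 * CS y0 κ * d * cL d * (n / K)) + 4 * BB y0 * cL d) / (2 * BB y0) +
          (nbad κ p s ω z + nbad κ p s ω z') := by
      intro p hp mv _
      have hp1 : IsPort p := mem_Ports.1 hp
      have hp2 : IsPort (bsw 1 p mv).1 :=
        mem_Ports.1 ((SwP470.moveSystem n d 1 le_rfl).mem_left p hp mv (Finset.mem_univ _))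
      have hCh : ((Ch p (bsw 1 p mv).1).card : ℝ) ≤ cL d := by
        unfold cL
        exact_mod_cast SwP470.card_Ch_bsw (L := 1) hp1 mv
      have hCh0 : (0 : ℝ) ≤ ((Ch p (bsw 1 p mv).1).card : ℝ) := Nat.cast_nonneg _
      have h1 := sum_uu_stab h hκ hp1 hp2 s ω hzp
      have h2 := sum_uu_stab h hκ hp1 hp2 s ω hzp'
      have hpt : ∀ x : HE n d, |φ (fD m s ω z z' (bsw 1 p mv).1 x) / (2 * BB y0) -
          φ (fD m s ω z z' p x) / (2 * BB y0)| ≤
          (‖uu m (B0 (bsw 1 p mv).1 s ω z x 0 0) - uu m (B0 p s ω z x 0 0)‖ +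
          ‖uu m (B0 (bsw 1 p mv).1 s ω z' x 0 0) - uu m (B0 p s ω z' x 0 0)‖) / (2 * BB y0) := by
        intro x
        rw [← sub_div, abs_div, abs_of_pos (by positivity : (0 : ℝ) < 2 * BB y0)]
        refine div_le_div_of_nonneg_right ?_ (by positivity)
        rw [hφs]
        refine (hφ _).trans ?_
        unfold fD
        have e : uu m (B0 (bsw 1 p mv).1 s ω z x 0 0) - uu m (B0 (bsw 1 p mv).1 s ω z' x 0 0) -
            (uu m (B0 p s ω z x 0 0) - uu m (B0 p s ω z' x 0 0)) =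
            (uu m (B0 (bsw 1 p mv).1 s ω z x 0 0) - uu m (B0 p s ω z x 0 0)) -
            (uu m (B0 (bsw 1 p mv).1 s ω z' x 0 0) - uu m (B0 p s ω z' x 0 0)) := by ring
        rw [e]
        exact norm_sub_le _ _
      refine (Finset.sum_le_sum fun x _ => hpt x).trans ?_
      rw [← Finset.sum_div, Finset.sum_add_distrib]
      have hinv : ∀ w : ℂ, K / n ≤ w.im → 4 * CS y0 κ * d * ((Ch p (bsw 1 p mv).1).card : ℝ) / w.im ≤
          4 * CS y0 κ * d * cL d * (n / K) := by
        intro w hw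
        have hw0 : 0 < w.im := lt_of_lt_of_le (by positivity) hw
        have h3 : 1 / w.im ≤ n / K := by
          rw [div_le_div_iff₀ hw0 hK]
          rw [div_le_iff₀ hn'] at hw
          linarith
        rw [div_eq_mul_one_div]
        refine mul_le_mul (mul_le_mul_of_nonneg_left hCh (by positivity)) h3 (by positivity) ?_
        have : 0 ≤ cL d := by unfold cL; positivity
        positivity
      have h3 := hinv z hz
      have h4 := hinv z' hz'
      have h5 : 2 * BB y0 * ((Ch p (bsw 1 p mv).1).card : ℝ) ≤ 2 * BB y0 * cL d :=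
        mul_le_mul_of_nonneg_left hCh (by positivity)
      have h6 : (8 * CS y0 κ * d * cL d * (n / K) + 4 * BB y0 * cL d) / (2 * BB y0) +
          (nbad κ p s ω z + nbad κ p s ω z') =
          (8 * CS y0 κ * d * cL d * (n / K) + 4 * BB y0 * cL d +
            2 * BB y0 * (nbad κ p s ω z + nbad κ p s ω z')) / (2 * BB y0) := by
        field_simp
      rw [h6]
      refine div_le_div_of_nonneg_right ?_ (by positivity)
      linarith
    have hcE : ((Finset.univ : Finset (HE n d)).card : ℝ) = n * d := by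
      rw [Finset.card_univ, IsPort.card_HE]; push_cast; rfl
    refine (Finset.sum_le_sum fun p hp => Finset.sum_le_sum fun mv hmv => hone p hp mv hmv).trans ?_
    rw [hcE]
    simp only [Finset.sum_const, nsmul_eq_mul]
    rw [← Finset.mul_sum, Finset.sum_add_distrib, Finset.sum_const, nsmul_eq_mul,
      Finset.sum_add_distrib]
    have hMc : (0 : ℝ) ≤ ((Finset.univ : Finset (HE n d × (BI d 1 → HE n d))).card : ℝ) :=
      Nat.cast_nonneg _
    have e1 : del2 n d y0 κ K ε * ((Ports n d).card : ℝ) *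
        ((Finset.univ : Finset (HE n d × (BI d 1 → HE n d))).card : ℝ) * (n * d) =
        ((Finset.univ : Finset (HE n d × (BI d 1 → HE n d))).card : ℝ) *
        (((Ports n d).card : ℝ) * (((8 * CS y0 κ * d * cL d * (n / K)) + 4 * BB y0 * cL d) /
          (2 * BB y0)) + (ε * (n * d) * (Ports n d).card + ε * (n * d) * (Ports n d).card)) := by
      unfold del2
      field_simp
      ring
    rw [e1]
    exact mul_le_mul_of_nonneg_left (by linarith) hMc

/-- **second moment of the difference** -/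
theorem sm_D [NeZero d] {b : ℕ} {y0 : ℝ} {z0 m : ℂ} (h : Adm b y0 z0 m) {κ : ℝ} (hκ : 0 < κ)
    (hn : 0 < n) (s : ℝ) (ω : Fin n → ℝ) {z z' : ℂ} {K ε : ℝ} (hK : 0 < K)
    (hz : K / n ≤ z.im) (hz' : K / n ≤ z'.im)
    (hN1 : ∑ p ∈ Ports n d, nbad κ p s ω z ≤ ε * (n * d) * (Ports n d).card)
    (hN2 : ∑ p ∈ Ports n d, nbad κ p s ω z' ≤ ε * (n * d) * (Ports n d).card) :
    ∑ p ∈ Ports n d, ‖DD m (PP p s ω z z') - gD m s ω z z' p‖ ^ 2 ≤
      8 * BB y0 ^ 2 * (2 * del2 n d y0 κ K ε +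
        2 * ((Fintype.card (SwComm356.J d 1) : ℝ) ^ 2 / n)) * ((Ports n d).card : ℝ) := by
  have hBB := BB_pos h.hy
  have h1 := sm_real h hκ hn s ω hK hz hz' hN1 hN2 Complex.re Complex.abs_re_le_norm
    (fun a b => (Complex.sub_re a b).symm)
  have h2 := sm_real h hκ hn s ω hK hz hz' hN1 hN2 Complex.im Complex.abs_im_le_norm
    (fun a b => (Complex.sub_im a b).symm)
  have e : ∀ p, ‖DD m (PP p s ω z z') - gD m s ω z z' p‖ ^ 2 = (2 * BB y0) ^ 2 *
      ((Sec269.nuAvg Finset.univ (fun p x => (fD m s ω z z' p x).re / (2 * BB y0)) p -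
      Sec269.gAvg (Finset.univ : Finset (HE n d × (BI d 1 → HE n d))) Prod.fst (bsw 1)
        (fun p x => (fD m s ω z z' p x).re / (2 * BB y0)) p) ^ 2 +
      (Sec269.nuAvg Finset.univ (fun p x => (fD m s ω z z' p x).im / (2 * BB y0)) p -
      Sec269.gAvg (Finset.univ : Finset (HE n d × (BI d 1 → HE n d))) Prod.fst (bsw 1)
        (fun p x => (fD m s ω z z' p x).im / (2 * BB y0)) p) ^ 2) := by
    intro p
    have er : (DD m (PP p s ω z z') - gD m s ω z z' p).re = (2 * BB y0) *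
        (Sec269.nuAvg Finset.univ (fun p x => (fD m s ω z z' p x).re / (2 * BB y0)) p -
        Sec269.gAvg (Finset.univ : Finset (HE n d × (BI d 1 → HE n d))) Prod.fst (bsw 1)
        (fun p x => (fD m s ω z z' p x).re / (2 * BB y0)) p) := by
      rw [Complex.sub_re, DD_eq, avc_re, Sec269.nuAvg, Sec269.gAvg, gD]
      unfold av1
      have hc : ((Finset.univ : Finset (HE n d × (BI d 1 → HE n d))).card : ℂ) =
          ((((Finset.univ : Finset (HE n d × (BI d 1 → HE n d))).card : ℝ)) : ℂ) := by push_cast; rfl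
      rw [hc, Complex.div_ofReal_re, Complex.re_sum, ← Finset.sum_div, ← Finset.sum_div]
      simp only [Finset.card_univ]
      field_simp
    have ei : (DD m (PP p s ω z z') - gD m s ω z z' p).im = (2 * BB y0) *
        (Sec269.nuAvg Finset.univ (fun p x => (fD m s ω z z' p x).im / (2 * BB y0)) p -
        Sec269.gAvg (Finset.univ : Finset (HE n d × (BI d 1 → HE n d))) Prod.fst (bsw 1)
        (fun p x => (fD m s ω z z' p x).im / (2 * BB y0)) p) := by
      rw [Complex.sub_im, DD_eq, avc_im, Sec269.nuAvg, Sec269.gAvg, gD]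
      unfold av1
      have hc : ((Finset.univ : Finset (HE n d × (BI d 1 → HE n d))).card : ℂ) =
          ((((Finset.univ : Finset (HE n d × (BI d 1 → HE n d))).card : ℝ)) : ℂ) := by push_cast; rfl
      rw [hc, Complex.div_ofReal_im, Complex.im_sum, ← Finset.sum_div, ← Finset.sum_div]
      simp only [Finset.card_univ]
      field_simp
    rw [← Complex.normSq_eq_norm_sq, Complex.normSq_apply, er, ei]
    ring
  rw [Finset.sum_congr rfl fun p _ => e p, ← Finset.mul_sum, Finset.sum_add_distrib]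
  have h3 := mul_le_mul_of_nonneg_left (add_le_add h1 h2) (show 0 ≤ (2 * BB y0) ^ 2 by positivity)
  refine h3.trans (le_of_eq ?_)
  ring

end sm

end Crest.Agent.R166.FineStab798
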