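import Crest.Agent.R166.SpecF3_798
import Crest.Agent.R166.SwInv_356
import Crest.Agent.R166.Rev2_811
import Crest.Agent.R166.TreeTL_798

/-!
# Row 166, section 32 (graph half): the one-step estimate of F1 (helper522)

`F1Step d`: one depth-2 two-sided resampling squares the fraction of non-fine edges, with a
constant `C0` which does not depend on `κ`.  Deterministic part: `FineDet2_522.fine_tree2`.
`F1From d`: `F1` from the one-step estimate and Theorem A.
-/

set_option autoImplicit false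

namespace Crest.Agent.R166.SpecF1

open Crest.Agent.R166 Stab269 SwP470 Rev811

/-- one-step estimate, every simple `p`, every tree-like centre `h0`, every fixed `ω` -/
def F1Step (d : ℕ) [NeZero d] : Prop :=
  ∃ C0 : ℝ, 0 < C0 ∧ ∀ κ : ℝ, 0 < κ → ∃ κ' : ℝ, 0 < κ' ∧ ∃ C : ℝ, 0 < C ∧
    ∀ n : ℕ, 0 < n → ∀ E s η : ℝ, |E| ≤ d → |s| ≤ 1 → 0 < η → η ≤ 1 →
      ∀ ω : Fin n → ℝ, (∀ v, |ω v| ≤ 1) → ∀ p : Equiv.Perm (HE n d), IsPort p →
        ∀ h0 : HE n d, TL 2 p h0 →
          pr (fun b : BI d 2 → HE n d =>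
            ¬ Off522.Fine κ' (BE (bsw 2 p (h0, b)).1 s ω (ze E η) h0)) ≤
          C0 * (pr1 fun h : HE n d => ¬ Off522.Fine κ (BE p s ω (ze E η) h)) ^ 2 + C / (n * η)

/-- `F1` from the one-step estimate (helper355) -/
def F1From (d : ℕ) [NeZero d] : Prop := 3 ≤ d → F1Step d → SpecA.ThmA d → SpecF3.F1 d

end Crest.Agent.R166.SpecF1
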