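import Crest.Agent.R166.FineDet2_522
import Crest.Agent.R166.DecP4_789
import Crest.Agent.R166.SpecF1_522

/-!
# Row 166, section 32 (graph half), helper522: the one-step estimate of F1, port side

* `phi2`, `t2`, `dat2` : the two-sided ball of depth 2 as a `DecP789.Dat` with tree
  `Bool × Option (NZ d)`;
* `hT2_root`, `hT2_child` : rows of the tree Hamiltonian;
* `fine_det` : deterministic one-step statement;
-/

set_option autoImplicit false
set_option linter.unusedSectionVars false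

open Matrix Finset

namespace Crest.Agent.R166.Fine522

open Crest.Agent.R166 Crest.Agent.R166.Stab269 Crest.Agent.R166.SwP470 Crest.Agent.R166.DecP789
open Crest.Agent.R166.Dec598 (edgeM emb treeOut leafXi)
open Crest.Agent.R166.Off522

variable {n d : ℕ} [NeZero d]

/-- word of a tree vertex -/
def wo : Option (NZ d) → List (Fin d)
  | none => []
  | some k => [k.1]

lemma wo_NZw (o : Option (NZ d)) : NZw (wo o) := by
  cases o with
  | none => simp [wo, NZw]
  | some k =>
    intro x hx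
    simp only [wo, List.mem_singleton] at hx
    rw [hx]; exact k.2

lemma wo_length (o : Option (NZ d)) : (wo o).length ≤ 1 := by
  cases o <;> simp [wo]

lemma wo_inj {o o' : Option (NZ d)} (h : wo o = wo o') : o = o' := by
  cases o <;> cases o' <;> simp_all [wo, Subtype.ext_iff]

/-- ball vertices of depth `< 2` -/
def phi2 (p : Equiv.Perm (HE n d)) (h0 : HE n d) (x : Bool × Option (NZ d)) : Fin n :=
  bv p h0 x.1 (wo x.2)

/-- parents of the leaves -/
def t2 (i : BI d 2) : Bool × Option (NZ d) := (i.1, some (i.2 0))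

variable {p : Equiv.Perm (HE n d)} {h0 : HE n d}

lemma phi2_eq (htl : TL 2 p h0) {x y : Bool × Option (NZ d)} :
    phi2 p h0 x = phi2 p h0 y ↔ x = y := by
  constructor
  · intro h
    have h1 := wo_length x.2
    have h2 := wo_length y.2
    have := htl _ _ _ _ (wo_NZw x.2) (wo_NZw y.2) (by omega) (by omega) h
    exact Prod.ext this.1 (wo_inj this.2)
  · rintro rfl; rfl

lemma phi2_injective (htl : TL 2 p h0) : Function.Injective (phi2 p h0) :=
  fun _ _ h => (phi2_eq htl).1 h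

lemma phi2_range (x : Fin n) : x ∈ Set.range (phi2 p h0) ↔
    ∃ s w, NZw w ∧ w.length < 2 ∧ bv p h0 s w = x := by
  constructor
  · rintro ⟨y, rfl⟩
    have := wo_length y.2
    exact ⟨y.1, wo y.2, wo_NZw _, by omega, rfl⟩
  · rintro ⟨s, w, hw, hl, rfl⟩
    match w, hw, hl with
    | [], _, _ => exact ⟨(s, none), rfl⟩
    | [k], hw, _ => exact ⟨(s, some ⟨k, hw k (by simp)⟩), rfl⟩
    | _ :: _ :: _, _, hl => simp at hl

lemma wd_two (f : Fin 2 → NZ d) : wd f = [(f 0).1] ++ [(f 1).1] := by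
  unfold wd
  simp [List.ofFn_succ]

lemma phi2_t2 (i : BI d 2) : phi2 p h0 (t2 i) = (tau p h0 i).1 := by
  unfold phi2 t2 tau
  rw [wd_two, desc_fst_snoc]
  rfl

lemma dat2 (hp : IsPort p) {b : BI d 2 → HE n d} (h : BVal 2 p h0 b) :
    Dat p (np p h0 b) (phi2 p h0) t2 (tau p h0) b :=
  dat_np (by norm_num) hp h (phi2_injective h.tl) phi2_range phi2_t2

/-- the tree Hamiltonian -/
noncomputable def hT2 (p : Equiv.Perm (HE n d)) (h0 : HE n d) (s : ℝ) (ω : Fin n → ℝ) :
    Matrix (Bool × Option (NZ d)) (Bool × Option (NZ d)) ℝ :=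
  hT p (phi2 p h0) s ω (UR (false, none) (true, none))

/-- adjacency of the root vertices -/
lemma adj_root_root (hp : IsPort p) (htl : TL 2 p h0) (s s' : Bool) :
    (graphOf p).Adj (phi2 p h0 (s, none)) (phi2 p h0 (s', none)) ↔ s' = !s := by
  have h1 : phi2 p h0 (s, none) = bv p h0 s [] := rfl
  rw [h1, DecP789.adj_bv hp]
  constructor
  · rintro (⟨k, hk, he⟩ | he)
    · have he' : bv p h0 s' [] = bv p h0 s [k] := he
      have := htl _ _ _ _ (by simp [NZw]) (by simpa [NZw] using hk) (by simp) (by simp) he'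
      simp at this
    · rw [desc_fst_nil hp] at he
      have := htl _ _ _ _ (by simp [NZw, wo]) (by simp [NZw]) (by simp [wo]) (by simp) he
      exact this.1
  · rintro rfl
    right
    rw [desc_fst_nil hp]
    rfl

lemma adj_root_child (hp : IsPort p) (htl : TL 2 p h0) (s s' : Bool) (k : NZ d) :
    (graphOf p).Adj (phi2 p h0 (s, none)) (phi2 p h0 (s', some k)) ↔ s' = s := by
  have h1 : phi2 p h0 (s, none) = bv p h0 s [] := rfl
  rw [h1, DecP789.adj_bv hp]
  constructor
  · rintro (⟨l, hl, he⟩ | he)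
    · have he' : bv p h0 s' [k.1] = bv p h0 s [l] := he
      have := htl _ _ _ _ (by simpa [NZw] using k.2) (by simpa [NZw] using hl) (by simp) (by simp)
        he'
      exact this.1
    · rw [desc_fst_nil hp] at he
      have he' : bv p h0 s' [k.1] = bv p h0 (!s) [] := he
      have := htl _ _ _ _ (by simpa [NZw] using k.2) (by simp [NZw]) (by simp) (by simp) he'
      simp at this
  · rintro rfl
    left
    exact ⟨k.1, k.2, rfl⟩

lemma adj_child_child (hp : IsPort p) (htl : TL 2 p h0) (s s' : Bool) (k l : NZ d) :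
    ¬ (graphOf p).Adj (phi2 p h0 (s, some k)) (phi2 p h0 (s', some l)) := by
  have h1 : phi2 p h0 (s, some k) = bv p h0 s [k.1] := rfl
  rw [h1, DecP789.adj_bv hp]
  rintro (⟨m, hm, he⟩ | he)
  · have he' : bv p h0 s' [l.1] = bv p h0 s [k.1, m] := he
    have h2 : NZw [k.1, m] := by
      intro x hx
      simp only [List.mem_cons, List.not_mem_nil, or_false] at hx
      rcases hx with rfl | rfl
      · exact k.2
      · exact hm
    have := htl _ _ _ _ (by simpa [NZw] using l.2) h2 (by simp) (by simp) he'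
    simp at this
  · have h3 : (desc p (rt p h0 s) [k.1]).1 = bv p h0 s [] := desc_fst_snoc s [] k.1
    rw [h3] at he
    have he' : bv p h0 s' [l.1] = bv p h0 s [] := he
    have := htl _ _ _ _ (by simpa [NZw] using l.2) (by simp [NZw]) (by simp) (by simp) he'
    simp at this

lemma UR_entry (x y : Bool × Option (NZ d)) :
    UR ((false, none) : Bool × Option (NZ d)) (true, none) x y =
      -((if x = (false, none) ∧ y = (true, none) then 1 else 0) +
        (if x = (true, none) ∧ y = (false, none) then 1 else 0)) := by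
  unfold UR
  rw [Matrix.neg_apply, Dec598.edgeM_apply]
  simp

lemma hT2_entry (hp : IsPort p) (htl : TL 2 p h0) (s : ℝ) (ω : Fin n → ℝ)
    (x y : Bool × Option (NZ d)) :
    hT2 p h0 s ω x y = (if x = y then s * ω (phi2 p h0 x) else 0) +
      (if x.1 = y.1 ∧ (x.2.isNone ↔ y.2.isSome) then 1 else 0) := by
  classical
  unfold hT2 hT
  rw [Matrix.add_apply, Matrix.submatrix_apply, Hm_apply, UR_entry]
  obtain ⟨a, x⟩ := x
  obtain ⟨c, y⟩ := y
  have hd : (s * if phi2 p h0 (a, x) = phi2 p h0 (c, y) then ω (phi2 p h0 (a, x)) else 0) =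
      if (a, x) = (c, y) then s * ω (phi2 p h0 (a, x)) else 0 := by
    by_cases h : (a, x) = (c, y)
    · rw [if_pos h, if_pos (by rw [h])]
    · rw [if_neg h, if_neg (fun h' => h ((phi2_eq htl).1 h')), mul_zero]
  rw [hd]
  cases x with
  | none =>
    cases y with
    | none =>
      rw [if_congr (adj_root_root hp htl a c) rfl rfl]
      cases a <;> cases c <;> simp
    | some l =>
      rw [if_congr (adj_root_child hp htl a c l) rfl rfl]
      cases a <;> cases c <;> simp
  | some k =>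
    cases y with
    | none =>
      rw [if_congr ((graphOf p).adj_comm _ _ |>.trans (adj_root_child hp htl c a k)) rfl rfl]
      cases a <;> cases c <;> simp
    | some l =>
      rw [if_neg (adj_child_child hp htl a c k l)]
      simp

lemma hT2_symm (s : ℝ) (ω : Fin n → ℝ) : (hT2 p h0 s ω)ᵀ = hT2 p h0 s ω :=
  hT_symm p (phi2 p h0) s ω (UR_symm _ _)

lemma hT2_root (hp : IsPort p) (htl : TL 2 p h0) (s : ℝ) (ω : Fin n → ℝ) (a : Bool)
    (y : Bool × Option (NZ d) → ℂ) :
    (Res598.cx (hT2 p h0 s ω) *ᵥ y) (a, none) =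
      ((s * ω (phi2 p h0 (a, none)) : ℝ) : ℂ) * y (a, none) + ∑ k, y (a, some k) := by
  simp only [Matrix.mulVec, dotProduct, Res598.cx_apply, hT2_entry hp htl, Fintype.sum_prod_type,
    Fintype.sum_option, Fintype.sum_bool]
  cases a <;> simp

lemma hT2_child (hp : IsPort p) (htl : TL 2 p h0) (s : ℝ) (ω : Fin n → ℝ) (a : Bool) (k : NZ d)
    (y : Bool × Option (NZ d) → ℂ) :
    (Res598.cx (hT2 p h0 s ω) *ᵥ y) (a, some k) =
      ((s * ω (phi2 p h0 (a, some k)) : ℝ) : ℂ) * y (a, some k) + y (a, none) := by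
  simp only [Matrix.mulVec, dotProduct, Res598.cx_apply, hT2_entry hp htl, Fintype.sum_prod_type,
    Fintype.sum_option, Fintype.sum_bool]
  have h1 : ∀ a : Bool, ∑ x : NZ d, ((if k = x then s * ω (phi2 p h0 (a, some k)) else 0 : ℝ) : ℂ) *
      y (a, some x) = s * ω (phi2 p h0 (a, some k)) * y (a, some k) := by
    intro a
    rw [Finset.sum_eq_single k]
    · simp
    · intro l _ hl
      rw [if_neg (Ne.symm hl)]; simp
    · simp
  cases a <;> simp [add_comm, h1]

/-! ### combinatorics of one exceptional leaf -/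

lemma card_NZ : Fintype.card (NZ d) = d - 1 := by
  classical
  have : Fintype.card (NZ d) = Fintype.card (Fin d) - 1 := by
    rw [Fintype.card_subtype_compl, Fintype.card_subtype_eq]
  rw [this, Fintype.card_fin]

lemma exists_other (hd : 3 ≤ d) (k : NZ d) : ∃ l : NZ d, l ≠ k := by
  have h1 : 1 < Fintype.card (NZ d) := by rw [card_NZ]; omega
  have : Nontrivial (NZ d) := Fintype.one_lt_card_iff_nontrivial.1 h1
  exact exists_ne k

lemma hg1 (hd : 3 ≤ d) {A : Finset (BI d 2)} (hA : A.card ≤ 1) (s : Bool) (k : NZ d) :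
    ∃ j : Jt A, tt t2 A (Sum.inr j) = (s, some k) := by
  obtain ⟨l, hl⟩ := exists_other hd k
  have h1 : ∃ f : Fin 2 → NZ d, f 0 = k ∧ (s, f) ∉ A := by
    by_contra hno
    push Not at hno
    have ha := hno ![k, k] rfl
    have hb := hno ![k, l] rfl
    have hne : ((s, ![k, k]) : BI d 2) ≠ (s, ![k, l]) := by
      intro h
      have h2 := congrFun (Prod.mk.inj h).2 1
      simp at h2
      exact hl h2.symm
    have : 1 < A.card := Finset.one_lt_card.2 ⟨_, ha, _, hb, hne⟩
    omega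
  obtain ⟨f, hf, hfA⟩ := h1
  exact ⟨⟨(s, f), hfA⟩, by simp [tt, t2, hf]⟩

lemma hg2 (hd : 3 ≤ d) {A : Finset (BI d 2)} (hA : A.card ≤ 1) (s : Bool) :
    ∃ k : NZ d, ∀ a : At A, tt t2 A (Sum.inl a) ≠ (s, some k) := by
  obtain ⟨l0, hl0⟩ : ∃ l : NZ d, True := ⟨⟨⟨1, by omega⟩, by
    intro h
    have := congrArg Fin.val h
    simp at this⟩, trivial⟩
  rcases A.eq_empty_or_nonempty with rfl | ⟨a, ha⟩
  · exact ⟨l0, fun x => absurd x.2 (Finset.notMem_empty _)⟩
  · obtain ⟨l, hl⟩ := exists_other hd (a.2 0)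
    refine ⟨l, fun x hx => ?_⟩
    have hxa : x.1 = a := Finset.card_le_one.1 hA _ x.2 _ ha
    simp only [tt, t2, Sum.elim_inl, hxa, Prod.mk.injEq, Option.some.injEq] at hx
    exact hl hx.2.symm

/-- `S0` of the depth-two ball -/
noncomputable def S2t (p : Equiv.Perm (HE n d)) (h0 : HE n d) : Finset (Fin n) :=
  S0 p (phi2 p h0) (tau p h0 : BI d 2 → HE n d)

/-- number of leaves -/
def NL (d : ℕ) [NeZero d] : ℕ := Fintype.card (BI d 2) + Fintype.card (NZ d)

/-- constant of the deterministic step -/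
noncomputable def kap2 (d : ℕ) [NeZero d] (κ : ℝ) : ℝ :=
  kap1 2 (kap1 2 κ / (2 * C2 (NL d) (d + 1) (kap1 2 κ)⁻¹ ^ 2) / 2)

lemma C2_pos {N : ℕ} {Z0 M : ℝ} (hZ : 0 ≤ Z0) (hM : 0 ≤ M) : 0 < C2 N Z0 M := by
  unfold C2 C1
  have h1 : (0 : ℝ) ≤ N := Nat.cast_nonneg _
  have h2 : 0 ≤ 2 * (N : ℝ) * M := by positivity
  nlinarith

lemma kap2_pos {κ : ℝ} (hκ : 0 < κ) : 0 < kap2 d κ := by
  unfold kap2
  have h1 : 0 < kap1 2 κ := kap1_pos hκ
  have h2 : 0 < C2 (NL d) ((d : ℝ) + 1) (kap1 2 κ)⁻¹ :=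
    C2_pos (by positivity) (inv_nonneg.2 h1.le)
  exact kap1_pos (by positivity)

lemma fine_B0 {κ : ℝ} {s : ℝ} {ω : Fin n → ℝ} {z : ℂ} {h : HE n d} (hf : Fine κ (BE p s ω z h)) :
    Fine (kap1 2 κ) (B0 p s ω z h) := hf.cavB

/-- generic form of the deterministic step -/
theorem fine_gen {ι K : Type*} [Fintype ι] [DecidableEq ι] [Fintype K] [DecidableEq K]
    {p p' : Equiv.Perm (HE n d)} {φ : Bool × Option K → Fin n} {t : ι → Bool × Option K}
    {τ b : ι → HE n d} (hD : Dat p p' φ t τ b) {h0 : HE n d}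
    (h0r : φ (false, none) = h0.1) (h1r : φ (true, none) = (p' h0).1)
    {s : ℝ} {ω : Fin n → ℝ} {z : ℂ} (hz : 0 < z.im) {Z0 : ℝ} (hz0 : ‖z‖ ≤ Z0)
    (a : Bool × Option K → ℝ) (ha : ∀ τ, |a τ| ≤ 1)
    (hroot : ∀ r (y : Bool × Option K → ℂ),
      (Res598.cx (hT p φ s ω (UR (false, none) (true, none))) *ᵥ y) (r, none) =
      a (r, none) * y (r, none) + ∑ k, y (r, some k))
    (hchild : ∀ r k (y : Bool × Option K → ℂ),
      (Res598.cx (hT p φ s ω (UR (false, none) (true, none))) *ᵥ y) (r, some k) =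
      a (r, some k) * y (r, some k) + y (r, none))
    {κ : ℝ} (hκ : 0 < κ) {A : Finset ι}
    (hB : ∀ j, j ∉ A → Fine κ (BE p s ω z (b j)))
    (ht : ∀ i r, t i ≠ (r, none))
    (hg1 : ∀ r k, ∃ j : Jt A, tt t A (Sum.inr j) = (r, some k))
    (hg2 : ∀ r, ∃ k, ∀ a : At A, tt t A (Sum.inl a) ≠ (r, some k))
    {N : ℕ} (hJ : Fintype.card ι ≤ N) (hK : Fintype.card K ≤ N)
    (hlt : cE (S0 p φ τ) (Res789.Res (Hm (graphOf p) s ω) z) p b A κ ≤ 1 / 3) :
    Fine (kap1 2 κ / (2 * C2 N Z0 (kap1 2 κ)⁻¹ ^ 2) / 2) (B0 p' s ω z h0) := by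
  have hk1 : 0 < kap1 2 κ := kap1_pos hκ
  have hlt1 : cE (S0 p φ τ) (Res789.Res (Hm (graphOf p) s ω) z) p b A κ < 1 := by linarith
  have key := dec_port hD A s ω (UR_symm (false, none) (true, none)) hz hκ
    (fun j hj y => (hB j hj).im y) hlt1
  set ε := cE (S0 p φ τ) (Res789.Res (Hm (graphOf p) s ω) z) p b A κ with hε
  have hSg := siegel_SgB hD A s ω (UR_symm ((false, none) : Bool × Option K) (true, none)) hz
  have hC : ∀ j : Jt A, Res598.Siegel (B0 p s ω z (b j.1)) := fun j =>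
    siegel_cavB (hB j.1 j.2).siegel
  have hsym := hT_symm p φ s ω (UR_symm ((false, none) : Bool × Option K) (true, none))
  set h := hT p φ s ω (UR (false, none) (true, none)) with hh
  have hSO := Dec598.siegel_treeOut (Res789.Res_sieg hsym hz).siegel (tt t A)
      (Dec598.siegel_leafXi hSg hC (aJ A) (uA_injective A))
  have key2 := key.sub ![((false, none) : Bool × Option K), (true, none)] hSO
  rw [root_corner hD.port' s ω hz (h0 := h0) h0r h1r] at key2
  have hF := fine_tree2 hSg hC (aJ A) (uA_injective A) (tt t A) hk1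
    (fun j => (fine_B0 (hB j.1 j.2)).im) (inv_nonneg.2 hk1.le)
    (fun j => (fine_B0 (hB j.1 j.2)).le) hsym a ha hroot hchild hz hz0
    (fun i r => by
      rcases i with i | i
      · exact ht _ r
      · exact ht _ r) hg1 hg2 (N := N)
    ((Fintype.card_subtype_le (fun i : ι => i ∉ A)).trans hJ) hK
  have hε0 : 0 ≤ ε := by
    rw [hε]; unfold cE
    positivity
  have h5 : ε / (1 - ε) ≤ 1 / 2 := by
    rw [div_le_iff₀ (by linarith)]
    linarith
  exact fine_near hF h5 key2

/-- **deterministic one-step statement** -/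
theorem fine_det (hd : 3 ≤ d) (hp : IsPort p) {b : BI d 2 → HE n d} (h : BVal 2 p h0 b)
    {s : ℝ} (hs : |s| ≤ 1) {ω : Fin n → ℝ} (hω : ∀ v, |ω v| ≤ 1) {z : ℂ} (hz : 0 < z.im)
    (hz0 : ‖z‖ ≤ d + 1) {κ : ℝ} {A : Finset (BI d 2)} (hA : A.card ≤ 1)
    (hB : ∀ j, j ∉ A → Fine κ (BE p s ω z (b j)))
    (hlt : cE (S2t p h0) (Res789.Res (Hm (graphOf p) s ω) z) p b A κ ≤ 1 / 3) :
    Fine (kap2 d κ) (BE (np p h0 b) s ω z h0) := by
  have hκ : 0 < κ := by
    obtain ⟨j, -⟩ := hg1 hd hA true ⟨⟨1, by omega⟩, by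
      intro h
      have := congrArg Fin.val h
      simp at this⟩
    exact (hB j.1 j.2).pos
  have hnp : np p h0 b h0 = p h0 := by
    have := h.np_interior (by norm_num) hp true (w := []) (by simp [NZw]) (by simp)
    simpa [rt] using this
  have h6 := fine_gen (dat2 hp h) (h0 := h0)
    (by simp [phi2, wo, bv, rt, hp.inv]) (by rw [hnp]; simp [phi2, wo, bv, rt]) hz hz0
    (fun τ => s * ω (phi2 p h0 τ))
    (fun τ => by
      rw [abs_mul]
      exact mul_le_one₀ hs (abs_nonneg _) (hω _))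
    (fun a y => hT2_root hp h.tl s ω a y) (fun a k y => hT2_child hp h.tl s ω a k y) hκ hB
    (fun i a => by simp [t2])
    (fun a k => hg1 hd hA a k) (fun a => hg2 hd hA a) (N := NL d)
    (by unfold NL; omega) (by unfold NL; omega) hlt
  exact fine_of_cavB (sieg_BE (h.isPort (by norm_num) hp) s ω hz h0).siegel h6

end Crest.Agent.R166.Fine522
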