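import Crest.Agent.R166.ScaleD_355

/-!
Row 166 (helper974), deterministic facts on the resolvent and approximate eigenvectors.

* `frame_sq_le` : `|F v|² ≤ ((K²+K'²)/K) Im R_vv(E+iK/n)` for near-window vectors.
* `pv H ξ E η v := -iη (R(E+iη) ξ)_v` : `sum_normSq_pv` (`‖p‖² = ∑ ξ Re p`),
  `abs_inner_le` (`|<F,ξ>| ≤ ‖p‖‖F‖ + (1/η)‖ξ‖‖(H-E)F‖`).
-/

set_option autoImplicit false
set_option linter.unusedSectionVars false

open Matrix Complex

namespace Crest.Agent.R166.FrameB974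

open Crest.Agent.R166.Res789 Crest.Agent.R166.ScaleD355

variable {V : Type*} [Fintype V] [DecidableEq V]

/-- `R (H - z) F = F` entrywise -/
lemma apply_eq_sum {H : Matrix V V ℝ} (hH : Hᵀ = H) {z : ℂ} (hz : 0 < z.im) (F : V → ℝ) (v : V) :
    (F v : ℂ) = ∑ y, Res789.Res H z v y * (((H *ᵥ F) y : ℂ) - z * (F y : ℂ)) := by
  have h1 := Res_mul_sub hH hz
  have h2 : (Res789.Res H z * (cx H - z • (1 : Matrix V V ℂ))) *ᵥ (fun y => (F y : ℂ))
      = fun y => (F y : ℂ) := by rw [h1, Matrix.one_mulVec]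
  have h3 := congrFun h2 v
  rw [← h3, ← Matrix.mulVec_mulVec]
  simp only [Matrix.mulVec, dotProduct]
  refine Finset.sum_congr rfl fun y _ => ?_
  congr 1
  simp only [Matrix.sub_apply, sub_mul, Finset.sum_sub_distrib, cx_apply, Matrix.smul_apply,
    Matrix.one_apply, smul_eq_mul]
  push_cast
  congr 1
  simp [Finset.sum_ite_eq]

/-- norm of `(H - z) F` for real `F` -/
lemma normSq_sub (H : Matrix V V ℝ) (E η : ℝ) (F : V → ℝ) (y : V) :
    ‖((H *ᵥ F) y : ℂ) - (ze E η) * (F y : ℂ)‖ ^ 2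
      = ((H *ᵥ F) y - E * F y) ^ 2 + η ^ 2 * (F y) ^ 2 := by
  rw [← Complex.normSq_eq_norm_sq, Complex.normSq_apply]
  simp [ze]
  ring

theorem sq_le_of_near {H : Matrix V V ℝ} (hH : Hᵀ = H) {E η a b : ℝ} (hη : 0 < η) (F : V → ℝ)
    (ha : ∑ y, ((H *ᵥ F) y - E * F y) ^ 2 ≤ a) (hb : ∑ y, (F y) ^ 2 ≤ b) (v : V) :
    (F v) ^ 2 ≤ ((Res H (ze E η)) v v).im / η * (a + η ^ 2 * b) := by
  have hz : 0 < (ze E η).im := by simpa [ze] using hη
  have h1 := apply_eq_sum hH hz F v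
  have h2 : (F v) ^ 2 = ‖(F v : ℂ)‖ ^ 2 := by
    rw [Complex.norm_real, Real.norm_eq_abs, sq_abs]
  have h3 : ‖(F v : ℂ)‖ ≤ Real.sqrt (∑ k, ‖Res789.Res H (ze E η) v k‖ ^ 2) *
      Real.sqrt (∑ y, ‖((H *ᵥ F) y : ℂ) - (ze E η) * (F y : ℂ)‖ ^ 2) := by
    rw [h1]
    refine (norm_sum_le _ _).trans ?_
    simp only [norm_mul]
    exact Real.sum_mul_le_sqrt_mul_sqrt _ _ _
  have hA : 0 ≤ ∑ k, ‖Res789.Res H (ze E η) v k‖ ^ 2 := Finset.sum_nonneg fun _ _ => by positivity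
  have hB : 0 ≤ ∑ y, ‖((H *ᵥ F) y : ℂ) - (ze E η) * (F y : ℂ)‖ ^ 2 :=
    Finset.sum_nonneg fun _ _ => by positivity
  have h4 : ‖(F v : ℂ)‖ ^ 2 ≤ (∑ k, ‖Res789.Res H (ze E η) v k‖ ^ 2) *
      (∑ y, ‖((H *ᵥ F) y : ℂ) - (ze E η) * (F y : ℂ)‖ ^ 2) := by
    calc ‖(F v : ℂ)‖ ^ 2 ≤ (Real.sqrt (∑ k, ‖Res789.Res H (ze E η) v k‖ ^ 2) *
      Real.sqrt (∑ y, ‖((H *ᵥ F) y : ℂ) - (ze E η) * (F y : ℂ)‖ ^ 2)) ^ 2 := by
          gcongr
      _ = _ := by rw [mul_pow, Real.sq_sqrt hA, Real.sq_sqrt hB]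
  rw [h2]
  refine h4.trans ?_
  have hzim : (ze E η).im = η := by simp [ze]
  have h5 := sum_row_sq hH hz v
  rw [hzim] at h5
  rw [h5]
  have h6 : ∑ y, ‖((H *ᵥ F) y : ℂ) - (ze E η) * (F y : ℂ)‖ ^ 2 ≤ a + η ^ 2 * b := by
    simp only [normSq_sub, Finset.sum_add_distrib, ← Finset.mul_sum]
    gcongr
  have h7 : 0 ≤ (Res789.Res H (ze E η) v v).im / η :=
    div_nonneg (im_diag_nonneg hH hz v) hη.le
  exact mul_le_mul_of_nonneg_left h6 h7

/-- pointwise bound of near-window frames -/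
theorem frame_sq_le {n k : ℕ} {H : Matrix (Fin n) (Fin n) ℝ} (hH : Hᵀ = H) {E K K' : ℝ}
    (hK : 0 < K) (hn : 0 < n) {F : Fin k → Fin n → ℝ} (hF : IsFrame H E K' k F) (i : Fin k)
    (v : Fin n) :
    (F i v) ^ 2 ≤ (K ^ 2 + K' ^ 2) / K * ((Res H (zz E K n)) v v).im := by
  have hn' : (0 : ℝ) < n := by exact_mod_cast hn
  have h1 : zz E K n = ze E (K / n) := rfl
  rw [h1]
  have h2 := sq_le_of_near hH (η := K / n) (by positivity) (F i) (hF.2 i)
    (b := n) (by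
      have := hF.1 i i
      simp only [if_true] at this
      rw [← this]
      exact le_of_eq (Finset.sum_congr rfl fun v _ => by ring)) v
  refine h2.trans (le_of_eq ?_)
  field_simp
  ring

/-- `p_v = -iη (R(E+iη) ξ)_v` -/
noncomputable def pv (H : Matrix V V ℝ) (ξ : V → ℝ) (E η : ℝ) (v : V) : ℂ :=
  -(Complex.I * η) * ∑ y, Res H (ze E η) v y * (ξ y : ℂ)

lemma pv_re (H : Matrix V V ℝ) (ξ : V → ℝ) (E η : ℝ) (v : V) :
    (pv H ξ E η v).re = η * ∑ y, (Res H (ze E η) v y).im * ξ y := by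
  unfold pv
  rw [neg_mul, Complex.neg_re, mul_assoc, Complex.I_mul_re, Complex.im_ofReal_mul, Complex.im_sum,
    neg_neg]
  congr 1
  refine Finset.sum_congr rfl fun y _ => ?_
  rw [Complex.im_mul_ofReal]

lemma pv_im (H : Matrix V V ℝ) (ξ : V → ℝ) (E η : ℝ) (v : V) :
    (pv H ξ E η v).im = -(η * ∑ y, (Res H (ze E η) v y).re * ξ y) := by
  unfold pv
  rw [neg_mul, Complex.neg_im, mul_assoc, Complex.I_mul_im, Complex.re_ofReal_mul, Complex.re_sum]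
  congr 2
  refine Finset.sum_congr rfl fun y _ => ?_
  rw [Complex.re_mul_ofReal]

/-- `‖p‖² = ∑ ξ Re p` -/
theorem sum_normSq_pv {H : Matrix V V ℝ} (hH : Hᵀ = H) {E η : ℝ} (hη : 0 < η) (ξ : V → ℝ) :
    ∑ v, ‖pv H ξ E η v‖ ^ 2 = ∑ v, ξ v * (pv H ξ E η v).re := by
  have hz : 0 < (ze E η).im := by simpa [ze] using hη
  have hzim : (ze E η).im = η := by simp [ze]
  have hw := ward hH hz
  rw [hzim] at hw
  set R := Res789.Res H (ze E η) with hR
  have hRs : ∀ a b, R a b = R b a := fun a b => Res_symm_apply hH hz a b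
  -- entrywise Ward identity
  have hw2 : ∀ a b, ((R a b).im : ℂ) = (η : ℂ) * ∑ v, R v a * star (R v b) := by
    intro a b
    have := congrFun (congrFun hw a) b
    simp only [cx_apply, imM_apply, Matrix.smul_apply, Matrix.mul_apply, smul_eq_mul,
      Matrix.conjTranspose_apply] at this
    rw [this]
    congr 1
    refine Finset.sum_congr rfl fun v _ => ?_
    rw [hRs a v, hRs b v]
  have key : ((∑ v, ‖pv H ξ E η v‖ ^ 2 : ℝ) : ℂ) = ((∑ v, ξ v * (pv H ξ E η v).re : ℝ) : ℂ) := by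
    push_cast
    have e1 : ∀ v, ((‖pv H ξ E η v‖ : ℂ)) ^ 2
        = (η : ℂ) ^ 2 * ∑ a, ∑ b, (ξ a : ℂ) * (ξ b : ℂ) * (R v a * star (R v b)) := by
      intro v
      have : ((‖pv H ξ E η v‖ : ℂ)) ^ 2 = pv H ξ E η v * star (pv H ξ E η v) := by
        rw [Complex.star_def, Complex.mul_conj, Complex.normSq_eq_norm_sq]
        push_cast
        rfl
      rw [this]
      unfold pv
      change (-(I * (η : ℂ)) * ∑ y, R v y * (ξ y : ℂ)) * star (-(I * (η : ℂ)) * ∑ y, R v y * (ξ y : ℂ)) = _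
      rw [star_mul', star_sum]
      simp only [star_neg, star_mul', Complex.star_def, Complex.conj_I, Complex.conj_ofReal]
      have e2 : (-(I * (η : ℂ)) * ∑ y, R v y * (ξ y : ℂ)) * (-(-I * (η : ℂ)) * ∑ y, (starRingEnd ℂ) (R v y) * (ξ y : ℂ))
          = (η : ℂ) ^ 2 * ((∑ y, R v y * (ξ y : ℂ)) * ∑ y, (starRingEnd ℂ) (R v y) * (ξ y : ℂ)) := by
        have hI : I * I = -1 := Complex.I_mul_I
        linear_combination (-(η : ℂ) ^ 2 * (∑ y, R v y * (ξ y : ℂ)) * ∑ y, (starRingEnd ℂ) (R v y) * (ξ y : ℂ)) * hI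
      rw [e2, Finset.sum_mul_sum]
      congr 1
      refine Finset.sum_congr rfl fun a _ => Finset.sum_congr rfl fun b _ => ?_
      ring
    have e3 : ∀ v, ((pv H ξ E η v).re : ℂ) = (η : ℂ) * ∑ y, ((R v y).im : ℂ) * (ξ y : ℂ) := by
      intro v
      rw [pv_re]
      push_cast
      rfl
    simp only [e1, e3]
    rw [← Finset.mul_sum]
    have e4 : ∑ v, ∑ a, ∑ b, (ξ a : ℂ) * (ξ b : ℂ) * (R v a * star (R v b))
        = ∑ a, ∑ b, (ξ a : ℂ) * (ξ b : ℂ) * ∑ v, (R v a * star (R v b)) := by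
      rw [Finset.sum_comm]
      refine Finset.sum_congr rfl fun a _ => ?_
      rw [Finset.sum_comm]
      refine Finset.sum_congr rfl fun b _ => ?_
      rw [Finset.mul_sum]
    rw [e4]
    simp only [Finset.mul_sum]
    refine Finset.sum_congr rfl fun a _ => ?_
    refine Finset.sum_congr rfl fun b _ => ?_
    have := hw2 a b
    rw [this]
    simp only [Finset.mul_sum, Finset.sum_mul]
    refine Finset.sum_congr rfl fun v _ => ?_
    ring
  exact_mod_cast key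

/-- testing a near-window vector against `ξ` -/
theorem abs_inner_le {H : Matrix V V ℝ} (hH : Hᵀ = H) {E η a b c : ℝ} (hη : 0 < η)
    (F ξ : V → ℝ) (ha : ∑ y, ((H *ᵥ F) y - E * F y) ^ 2 ≤ a) (hb : ∑ y, (F y) ^ 2 ≤ b)
    (hc : ∑ y, (ξ y) ^ 2 ≤ c) :
    |∑ v, F v * ξ v| ≤ Real.sqrt (∑ v, ‖pv H ξ E η v‖ ^ 2) * Real.sqrt b +
      (1 / η) * Real.sqrt c * Real.sqrt a := by
  have hz : 0 < (ze E η).im := by simpa [ze] using hη
  have hzim : (ze E η).im = η := by simp [ze]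
  set R := Res789.Res H (ze E η) with hR
  have hRs : ∀ a b, R a b = R b a := fun a b => Res_symm_apply hH hz a b
  -- identity
  have e1 : ((∑ v, F v * ξ v : ℝ) : ℂ) = (∑ y, pv H ξ E η y * (F y : ℂ)) +
      ∑ y, (∑ v, R y v * (ξ v : ℂ)) * (((H *ᵥ F) y - E * F y : ℝ) : ℂ) := by
    push_cast
    have : ∀ v, (F v : ℂ) * (ξ v : ℂ) = ∑ y, R v y * (((H *ᵥ F) y : ℂ) - (ze E η) * (F y : ℂ)) * (ξ v : ℂ) := by
      intro v
      rw [apply_eq_sum hH hz F v, Finset.sum_mul]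
    simp only [this]
    rw [Finset.sum_comm, ← Finset.sum_add_distrib]
    refine Finset.sum_congr rfl fun y _ => ?_
    unfold pv
    change _ = -(I * (η : ℂ)) * (∑ v, R y v * (ξ v : ℂ)) * (F y : ℂ) + _
    have e2 : ∑ v, R v y * (((H *ᵥ F) y : ℂ) - (ze E η) * (F y : ℂ)) * (ξ v : ℂ)
        = (∑ v, R y v * (ξ v : ℂ)) * (((H *ᵥ F) y : ℂ) - (ze E η) * (F y : ℂ)) := by
      rw [Finset.sum_mul]
      refine Finset.sum_congr rfl fun v _ => ?_
      rw [hRs v y]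
      ring
    rw [e2]
    unfold ze
    ring
  have h0 : |∑ v, F v * ξ v| = ‖((∑ v, F v * ξ v : ℝ) : ℂ)‖ := by
    rw [Complex.norm_real, Real.norm_eq_abs]
  rw [h0, e1]
  refine (norm_add_le _ _).trans (add_le_add ?_ ?_)
  · refine (norm_sum_le _ _).trans ?_
    simp only [norm_mul]
    refine (Real.sum_mul_le_sqrt_mul_sqrt _ _ _).trans ?_
    refine mul_le_mul_of_nonneg_left (Real.sqrt_le_sqrt ?_) (Real.sqrt_nonneg _)
    refine le_trans (le_of_eq ?_) hb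
    refine Finset.sum_congr rfl fun y _ => ?_
    rw [Complex.norm_real, Real.norm_eq_abs, sq_abs]
  · refine (norm_sum_le _ _).trans ?_
    simp only [norm_mul]
    refine (Real.sum_mul_le_sqrt_mul_sqrt _ _ _).trans ?_
    -- ‖Rξ‖ ≤ ‖ξ‖/η
    have hp : ∀ y, ‖∑ v, R y v * (ξ v : ℂ)‖ ^ 2 = (1 / η ^ 2) * ‖pv H ξ E η y‖ ^ 2 := by
      intro y
      have : pv H ξ E η y = -(I * (η : ℂ)) * (∑ v, R y v * (ξ v : ℂ)) := rfl
      rw [this, norm_mul, norm_neg, norm_mul, Complex.norm_I, Complex.norm_real,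
        Real.norm_eq_abs, abs_of_pos hη]
      field_simp
    have hps : ∑ y, ‖pv H ξ E η y‖ ^ 2 ≤ c := by
      have h1 := sum_normSq_pv hH hη ξ (E := E)
      set S := ∑ y, ‖pv H ξ E η y‖ ^ 2 with hS
      have hS0 : 0 ≤ S := Finset.sum_nonneg fun _ _ => by positivity
      have h2 : ∑ v, ξ v * (pv H ξ E η v).re ≤ ∑ v, ((ξ v) ^ 2 / 2 + ‖pv H ξ E η v‖ ^ 2 / 2) := by
        refine Finset.sum_le_sum fun v _ => ?_
        have h3 : ((pv H ξ E η v).re) ^ 2 ≤ ‖pv H ξ E η v‖ ^ 2 := by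
          rw [← sq_abs]
          exact pow_le_pow_left₀ (abs_nonneg _) (Complex.abs_re_le_norm _) 2
        nlinarith [sq_nonneg (ξ v - (pv H ξ E η v).re)]
      rw [Finset.sum_add_distrib, ← Finset.sum_div, ← Finset.sum_div, ← h1, ← hS] at h2
      linarith
    have hps2 : ∑ y, ‖∑ v, R y v * (ξ v : ℂ)‖ ^ 2 ≤ (1 / η) ^ 2 * c := by
      simp only [hp]
      rw [← Finset.mul_sum]
      have : (1 / η) ^ 2 = 1 / η ^ 2 := by ring
      rw [this]
      gcongr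
    have h4 : Real.sqrt (∑ y, ‖∑ v, R y v * (ξ v : ℂ)‖ ^ 2) ≤ (1 / η) * Real.sqrt c := by
      refine (Real.sqrt_le_sqrt hps2).trans (le_of_eq ?_)
      rw [Real.sqrt_mul (by positivity), Real.sqrt_sq (by positivity)]
    refine mul_le_mul h4 (Real.sqrt_le_sqrt ?_) (Real.sqrt_nonneg _) (by positivity)
    refine le_trans (le_of_eq ?_) ha
    refine Finset.sum_congr rfl fun y _ => ?_
    rw [Complex.norm_real, Real.norm_eq_abs, sq_abs]

/-- `‖p‖² ≤ ‖ξ‖²` -/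
theorem sum_normSq_pv_le {H : Matrix V V ℝ} (hH : Hᵀ = H) {E η : ℝ} (hη : 0 < η) (ξ : V → ℝ) :
    ∑ v, ‖pv H ξ E η v‖ ^ 2 ≤ ∑ v, (ξ v) ^ 2 := by
  have h1 := sum_normSq_pv hH hη ξ (E := E)
  have h2 : ∑ v, ξ v * (pv H ξ E η v).re ≤ ∑ v, ((ξ v) ^ 2 / 2 + ‖pv H ξ E η v‖ ^ 2 / 2) := by
    refine Finset.sum_le_sum fun v _ => ?_
    have h3 : ((pv H ξ E η v).re) ^ 2 ≤ ‖pv H ξ E η v‖ ^ 2 := by
      rw [← sq_abs]
      exact pow_le_pow_left₀ (abs_nonneg _) (Complex.abs_re_le_norm _) 2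
    nlinarith [sq_nonneg (ξ v - (pv H ξ E η v).re)]
  rw [Finset.sum_add_distrib, ← Finset.sum_div, ← Finset.sum_div, ← h1] at h2
  linarith

end Crest.Agent.R166.FrameB974
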