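import Crest.Agent.R166.Tweedie_487

/-!
Row 166, section 42 (helper487).  Conditional characteristic functions: random coefficients
("freezing") and independence of a standard Gaussian part.
-/

set_option autoImplicit false

namespace Crest.Agent.R166.Freeze487

open MeasureTheory ProbabilityTheory Crest.Agent.R166.Tweedie487

/-- **Freezing.** If `P[exp(i x·V) | m] = φ(·, x)` for all fixed `x` and `φ(h, ·)` is continuous,
then the same is true for every `m`-measurable random coefficient vector `c`. -/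
theorem freeze {Ω τ : Type*} [Fintype τ] {m mΩ : MeasurableSpace Ω} (hm : m ≤ mΩ)
    {P : Measure Ω} [IsProbabilityMeasure P] {V : Ω → τ → ℝ} (hV : Measurable V)
    {φ : Ω → (τ → ℝ) → ℂ} (hφc : ∀ h, Continuous (φ h))
    (hφ : ∀ x : τ → ℝ, P[fun h => Complex.exp (Complex.I * ((∑ a, x a * V h a : ℝ) : ℂ)) | m]
      =ᵐ[P] fun h => φ h x)
    {c : Ω → τ → ℝ} (hc : Measurable[m] c) :
    P[fun h => Complex.exp (Complex.I * ((∑ a, c h a * V h a : ℝ) : ℂ)) | m]
      =ᵐ[P] fun h => φ h (c h) := by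
  classical
  have hid : @Measurable Ω Ω mΩ m id := fun s hs => hm s hs
  set κ := @condDistrib Ω Ω (τ → ℝ) _ _ _ mΩ m V id P _ with hκ
  have hcomap : m.comap id = m := MeasurableSpace.comap_id
  have hbd : ∀ x : τ → ℝ, ∀ y : τ → ℝ,
      ‖Complex.exp (Complex.I * ((∑ a, x a * y a : ℝ) : ℂ))‖ = 1 := by
    intro x y
    rw [mul_comm, Complex.norm_exp_ofReal_mul_I]
  -- fixed coefficients
  have h1 : ∀ x : τ → ℝ, ∀ᵐ h ∂P,
      ∫ y, Complex.exp (Complex.I * ((∑ a, x a * y a : ℝ) : ℂ)) ∂(κ h) = φ h x := by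
    intro x
    have hf : @StronglyMeasurable (Ω × (τ → ℝ)) ℂ _ (@Prod.instMeasurableSpace Ω (τ → ℝ) m _)
        (fun r => Complex.exp (Complex.I * ((∑ a, x a * r.2 a : ℝ) : ℂ))) := by
      have : Continuous fun y : τ → ℝ => Complex.exp (Complex.I * ((∑ a, x a * y a : ℝ) : ℂ)) := by
        fun_prop
      exact (this.measurable.comp (@measurable_snd Ω (τ → ℝ) m _)).stronglyMeasurable
    have hint : Integrable (fun h => Complex.exp (Complex.I * ((∑ a, x a * V h a : ℝ) : ℂ))) P := by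
      refine Integrable.mono' (integrable_const (1 : ℝ)) ?_ (Filter.Eventually.of_forall fun h => ?_)
      · have : Continuous fun y : τ → ℝ =>
          Complex.exp (Complex.I * ((∑ a, x a * y a : ℝ) : ℂ)) := by fun_prop
        exact (this.measurable.comp hV).aestronglyMeasurable
      · rw [hbd]
    have h2 := condExp_prod_ae_eq_integral_condDistrib (mα := mΩ) (mβ := m) (μ := P) (X := id)
      (Y := V) hid hV.aemeasurable hf hint
    rw [hcomap] at h2
    filter_upwards [h2, hφ x] with h e1 e2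
    rw [← e2]
    exact e1.symm
  -- rational coefficients, then all
  have h3 : ∀ᵐ h ∂P, ∀ q : τ → ℚ,
      ∫ y, Complex.exp (Complex.I * ((∑ a, (q a : ℝ) * y a : ℝ) : ℂ)) ∂(κ h) =
        φ h (fun a => (q a : ℝ)) := by
    rw [ae_all_iff]
    intro q
    exact h1 (fun a => (q a : ℝ))
  have h4 : ∀ᵐ h ∂P, ∀ x : τ → ℝ,
      ∫ y, Complex.exp (Complex.I * ((∑ a, x a * y a : ℝ) : ℂ)) ∂(κ h) = φ h x := by
    filter_upwards [h3] with h hh
    have hcl : Continuous fun x : τ → ℝ =>
        ∫ y, Complex.exp (Complex.I * ((∑ a, x a * y a : ℝ) : ℂ)) ∂(κ h) := by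
      refine continuous_of_dominated (bound := fun _ => (1 : ℝ)) ?_ ?_ (integrable_const _) ?_
      · intro x
        have : Continuous fun y : τ → ℝ =>
          Complex.exp (Complex.I * ((∑ a, x a * y a : ℝ) : ℂ)) := by fun_prop
        exact this.aestronglyMeasurable
      · intro x
        exact Filter.Eventually.of_forall fun y => (hbd x y).le
      · refine Filter.Eventually.of_forall fun y => ?_
        fun_prop
    have hdense : DenseRange (fun q : τ → ℚ => fun a => ((q a : ℚ) : ℝ)) :=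
      DenseRange.piMap (fun _ => Rat.denseRange_cast)
    exact fun x => congrFun (hdense.equalizer hcl (hφc h) (funext hh)) x
  -- random coefficients
  have hf : @StronglyMeasurable (Ω × (τ → ℝ)) ℂ _ (@Prod.instMeasurableSpace Ω (τ → ℝ) m _)
      (fun r => Complex.exp (Complex.I * ((∑ a, c r.1 a * r.2 a : ℝ) : ℂ))) := by
    have e1 : @Measurable (Ω × (τ → ℝ)) ((τ → ℝ) × (τ → ℝ))
        (@Prod.instMeasurableSpace Ω (τ → ℝ) m _) _ (fun r => (c r.1, r.2)) :=
      (hc.comp (@measurable_fst Ω (τ → ℝ) m _)).prodMk (@measurable_snd Ω (τ → ℝ) m _)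
    have e2 : Continuous fun r : (τ → ℝ) × (τ → ℝ) =>
        Complex.exp (Complex.I * ((∑ a, r.1 a * r.2 a : ℝ) : ℂ)) := by fun_prop
    exact (e2.measurable.comp e1).stronglyMeasurable
  have hint : Integrable (fun h => Complex.exp (Complex.I * ((∑ a, c h a * V h a : ℝ) : ℂ))) P := by
    refine Integrable.mono' (integrable_const (1 : ℝ)) ?_ (Filter.Eventually.of_forall fun h => ?_)
    · have e2 : Continuous fun r : (τ → ℝ) × (τ → ℝ) =>
        Complex.exp (Complex.I * ((∑ a, r.1 a * r.2 a : ℝ) : ℂ)) := by fun_prop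
      have hc' : Measurable c := hc.mono hm le_rfl
      exact (e2.measurable.comp (hc'.prodMk hV)).aestronglyMeasurable
    · rw [hbd]
  have h5 := condExp_prod_ae_eq_integral_condDistrib (mα := mΩ) (mβ := m) (μ := P) (X := id)
    (Y := V) hid hV.aemeasurable hf hint
  rw [hcomap] at h5
  filter_upwards [h5, h4] with h e1 e2
  exact e1.trans (e2 (c h))

/-- characteristic function of the standard Gaussian law -/
theorem integral_exp_gs {ι : Type*} [Fintype ι] (ζ : ι → ℝ) :
    ∫ z, Complex.exp (Complex.I * ((∑ b, ζ b * z b : ℝ) : ℂ)) ∂gs ι =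
      ((Real.exp (-(∑ b, ζ b ^ 2) / 2) : ℝ) : ℂ) := by
  unfold gs
  have h1 : ∀ z : ι → ℝ, Complex.exp (Complex.I * ((∑ b, ζ b * z b : ℝ) : ℂ)) =
      ∏ b, Complex.exp (ζ b * z b * Complex.I) := by
    intro z
    rw [← Complex.exp_sum]
    congr 1
    push_cast
    rw [Finset.mul_sum]
    exact Finset.sum_congr rfl fun b _ => by ring
  simp_rw [h1]
  rw [integral_fintype_prod_eq_prod (f := fun b (z : ℝ) => Complex.exp (ζ b * z * Complex.I))]
  have h2 : ∀ b, ∫ z : ℝ, Complex.exp (ζ b * z * Complex.I) ∂gaussianReal 0 1 =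
      Complex.exp (-(ζ b ^ 2) / 2) := by
    intro b
    rw [← charFun_apply_real, charFun_gaussianReal]
    congr 1
    simp
    ring
  simp_rw [h2]
  rw [← Complex.exp_sum, Complex.ofReal_exp]
  congr 1
  push_cast
  rw [← Finset.sum_div, Finset.sum_neg_distrib]

section indep

variable {Ω E κ ι : Type*} [Fintype κ] [Fintype ι] [MeasurableSpace E] {m mΩ : MeasurableSpace Ω}
  {P : Measure Ω} [IsProbabilityMeasure P]

theorem map_restrict_eq (hm : m ≤ mΩ) {J : Ω → κ → ℝ} (hJ : Measurable J) {N : Ω → ι → ℝ}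
    (hN : Measurable N) {ψ : (κ → ℝ) → Ω → ℂ}
    (hJN : ∀ (ξ : κ → ℝ) (ζ : ι → ℝ),
      P[fun h => Complex.exp (Complex.I * ((∑ a, ξ a * J h a + ∑ b, ζ b * N h b : ℝ) : ℂ)) | m]
        =ᵐ[P] fun h => ψ ξ h * ((Real.exp (-(∑ b, ζ b ^ 2) / 2) : ℝ) : ℂ))
    {A : Set Ω} (hA : MeasurableSet[m] A) :
    (P.restrict A).map (fun h => (J h, N h)) = ((P.restrict A).map J).prod (gs ι) := by
  classical
  have hJNm : Measurable fun h => (J h, N h) := hJ.prodMk hN
  have hval : ∀ (ξ : κ → ℝ) (ζ : ι → ℝ),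
      ∫ h in A, Complex.exp (Complex.I * ((∑ a, ξ a * J h a + ∑ b, ζ b * N h b : ℝ) : ℂ)) ∂P =
        (∫ h in A, ψ ξ h ∂P) * ((Real.exp (-(∑ b, ζ b ^ 2) / 2) : ℝ) : ℂ) := by
    intro ξ ζ
    have hint : Integrable (fun h => Complex.exp (Complex.I *
        ((∑ a, ξ a * J h a + ∑ b, ζ b * N h b : ℝ) : ℂ))) P := by
      refine Integrable.mono' (integrable_const (1 : ℝ)) ?_
        (Filter.Eventually.of_forall fun h => ?_)
      · have : Continuous fun r : (κ → ℝ) × (ι → ℝ) => Complex.exp (Complex.I *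
          ((∑ a, ξ a * r.1 a + ∑ b, ζ b * r.2 b : ℝ) : ℂ)) := by fun_prop
        exact (this.measurable.comp hJNm).aestronglyMeasurable
      · rw [mul_comm, Complex.norm_exp_ofReal_mul_I]
    rw [← setIntegral_condExp hm hint hA, setIntegral_congr_ae (hm A hA)
      ((hJN ξ ζ).mono fun h hh _ => hh), integral_mul_const]
  apply Measure.ext_of_charFunDual
  ext L
  set ξ : κ → ℝ := fun a => L (Pi.single a 1, 0) with hξ
  set ζ : ι → ℝ := fun b => L (0, Pi.single b 1) with hζ
  have hL : ∀ (j : κ → ℝ) (n : ι → ℝ), L (j, n) = ∑ a, ξ a * j a + ∑ b, ζ b * n b := by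
    intro j n
    have e1 : (j, n) = (∑ a, j a • ((Pi.single a (1 : ℝ) : κ → ℝ), (0 : ι → ℝ))) +
        ∑ b, n b • ((0 : κ → ℝ), (Pi.single b (1 : ℝ) : ι → ℝ)) := by
      ext x
      · simp [Prod.fst_sum, Finset.sum_apply, Pi.single_apply]
      · simp [Prod.snd_sum, Finset.sum_apply, Pi.single_apply]
    rw [e1, map_add, map_sum, map_sum]
    simp only [map_smul, smul_eq_mul, hξ, hζ]
    congr 1
    · exact Finset.sum_congr rfl fun a _ => by ring
    · exact Finset.sum_congr rfl fun a _ => by ring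
  rw [charFunDual_apply, charFunDual_prod, charFunDual_apply, charFunDual_apply,
    integral_map hJNm.aemeasurable (by fun_prop), integral_map hJ.aemeasurable (by fun_prop)]
  have e1 : ∫ h in A, Complex.exp ((L (J h, N h) : ℂ) * Complex.I) ∂P =
      (∫ h in A, ψ ξ h ∂P) * ((Real.exp (-(∑ b, ζ b ^ 2) / 2) : ℝ) : ℂ) := by
    rw [← hval ξ ζ]
    congr 1
    ext h
    rw [hL, mul_comm]
  have e2 : ∫ h in A, Complex.exp (((L.comp (.inl ℝ (κ → ℝ) (ι → ℝ))) (J h) : ℂ) *
      Complex.I) ∂P = ∫ h in A, ψ ξ h ∂P := by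
    have := hval ξ 0
    simp only [Pi.zero_apply, zero_mul, Finset.sum_const_zero, add_zero, ne_eq,
      OfNat.ofNat_ne_zero, not_false_eq_true, zero_pow, neg_zero, zero_div, Real.exp_zero,
      Complex.ofReal_one, mul_one] at this
    rw [← this]
    congr 1
    ext h
    have : (L.comp (.inl ℝ (κ → ℝ) (ι → ℝ))) (J h) = ∑ a, ξ a * J h a := by
      have := hL (J h) 0
      simpa using this
    rw [this, mul_comm]
  have e3 : ∫ z, Complex.exp (((L.comp (.inr ℝ (κ → ℝ) (ι → ℝ))) z : ℂ) * Complex.I) ∂gs ι =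
      ((Real.exp (-(∑ b, ζ b ^ 2) / 2) : ℝ) : ℂ) := by
    rw [← integral_exp_gs]
    congr 1
    ext z
    have : (L.comp (.inr ℝ (κ → ℝ) (ι → ℝ))) z = ∑ b, ζ b * z b := by
      have := hL 0 z
      simpa using this
    rw [this, mul_comm]
  rw [e1, e2, e3]

/-- A part `N` whose conditional characteristic function given `(m, J)` factorises and is standard
Gaussian is independent of `(m, J)` with standard Gaussian law. -/
theorem map_prod_gs (hm : m ≤ mΩ) {J : Ω → κ → ℝ} (hJ : Measurable J) {N : Ω → ι → ℝ}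
    (hN : Measurable N) {ψ : (κ → ℝ) → Ω → ℂ}
    (hJN : ∀ (ξ : κ → ℝ) (ζ : ι → ℝ),
      P[fun h => Complex.exp (Complex.I * ((∑ a, ξ a * J h a + ∑ b, ζ b * N h b : ℝ) : ℂ)) | m]
        =ᵐ[P] fun h => ψ ξ h * ((Real.exp (-(∑ b, ζ b ^ 2) / 2) : ℝ) : ℂ))
    {V : Ω → E} (hV : Measurable[m] V) :
    P.map (fun h => ((V h, J h), N h)) = (P.map fun h => (V h, J h)).prod (gs ι) := by
  have hV' : Measurable V := hV.mono hm le_rfl
  have hVJ : Measurable fun h => (V h, J h) := hV'.prodMk hJ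
  have hVJN : Measurable fun h => ((V h, J h), N h) := hVJ.prodMk hN
  have : IsProbabilityMeasure (P.map fun h => ((V h, J h), N h)) :=
    Measure.isProbabilityMeasure_map hVJN.aemeasurable
  rw [Measure.ext_prod₃_iff']
  intro s t u hs ht hu
  rw [Measure.map_apply hVJN ((hs.prod ht).prod hu), Measure.prod_prod,
    Measure.map_apply hVJ (hs.prod ht)]
  have hA : MeasurableSet[m] (V ⁻¹' s) := hV hs
  have h1 := congrArg (fun μ : Measure ((κ → ℝ) × (ι → ℝ)) => μ (t ×ˢ u))
    (map_restrict_eq (P := P) hm hJ hN hJN hA)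
  rw [Measure.map_apply (hJ.prodMk hN) (ht.prod hu), Measure.prod_prod,
    Measure.map_apply hJ ht, Measure.restrict_apply (hJ.prodMk hN (ht.prod hu)),
    Measure.restrict_apply (hJ ht)] at h1
  have e1 : (fun h => ((V h, J h), N h)) ⁻¹' ((s ×ˢ t) ×ˢ u) =
      (fun h => (J h, N h)) ⁻¹' (t ×ˢ u) ∩ V ⁻¹' s := by
    ext h
    simp only [Set.mem_preimage, Set.mem_prod, Set.mem_inter_iff]
    tauto
  have e2 : (fun h => (V h, J h)) ⁻¹' (s ×ˢ t) = J ⁻¹' t ∩ V ⁻¹' s := by
    ext h
    simp only [Set.mem_preimage, Set.mem_prod, Set.mem_inter_iff]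
    tauto
  rw [e1, e2, h1]

end indep

end Crest.Agent.R166.Freeze487
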