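import Mathlib
import Crest.Prelude.Def_RandomRegular

/-!
# R166 / GaussPi_93 (helper93)

Finite families of iid standard Gaussians: invariance under co-isometries, rotations, selections.
-/

set_option autoImplicit false

open MeasureTheory ProbabilityTheory Matrix WithLp
open scoped BigOperators RealInnerProductSpace

namespace Crest.Agent.R166.GaussPi93

/-- Standard Gaussian vector indexed by a finite type. -/
noncomputable abbrev gv (I : Type*) [Fintype I] : Measure (I → ℝ) :=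
  Measure.pi fun _ : I => gaussianReal 0 1

/-- iid standard Gaussian array. -/
noncomputable abbrev gm (I J : Type*) [Fintype I] [Fintype J] : Measure (I → J → ℝ) :=
  Measure.pi fun _ : I => Measure.pi fun _ : J => gaussianReal 0 1

section coiso
variable {I J : Type*} [Fintype I] [Fintype J]

lemma charFun_gv (t : EuclideanSpace ℝ I) :
    charFun ((gv I).map (toLp 2)) t = Complex.exp (-‖t‖ ^ 2 / 2) := by
  rw [map_pi_eq_stdGaussian, charFun_stdGaussian]

/-- Co-isometries map standard Gaussian vectors to standard Gaussian vectors. -/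
theorem mp_mulVec [DecidableEq I] [DecidableEq J] (T : Matrix J I ℝ) (hT : T * Tᵀ = 1) :
    MeasurePreserving (fun x : I → ℝ => T *ᵥ x) (gv I) (gv J) := by
  have hmeas : Measurable (fun x : I → ℝ => T *ᵥ x) := by
    apply measurable_pi_lambda
    intro j
    simp only [Matrix.mulVec, dotProduct]
    fun_prop
  refine ⟨hmeas, ?_⟩
  apply (MeasurableEquiv.toLp 2 (J → ℝ)).map_measurableEquiv_injective
  apply Measure.ext_of_charFun (E := EuclideanSpace ℝ J)
  ext t
  have h1 : (Measure.map (⇑(MeasurableEquiv.toLp 2 (J → ℝ))) (gv J)) = (gv J).map (toLp 2) := rfl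
  rw [h1, charFun_gv]
  have h2 : Measure.map (⇑(MeasurableEquiv.toLp 2 (J → ℝ))) ((gv I).map (fun x => T *ᵥ x))
      = (gv I).map (fun x => toLp 2 (T *ᵥ x)) := by
    rw [Measure.map_map (by fun_prop) hmeas]
    rfl
  rw [h2, charFun_apply, integral_map (by fun_prop) (by fun_prop)]
  have h3 : ∀ x : I → ℝ, ⟪toLp 2 (T *ᵥ x), t⟫ = ⟪toLp 2 x, toLp 2 (Tᵀ *ᵥ (ofLp t))⟫ := by
    intro x
    simp only [PiLp.inner_apply, RCLike.inner_apply, conj_trivial]
    have e1 : ∑ i, (ofLp t) i * (T *ᵥ x) i = (ofLp t) ⬝ᵥ (T *ᵥ x) := rfl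
    have e2 : ∑ i, (Tᵀ *ᵥ (ofLp t)) i * x i = (Tᵀ *ᵥ (ofLp t)) ⬝ᵥ x := rfl
    rw [e1, e2, Matrix.mulVec_transpose, Matrix.dotProduct_mulVec]
  have h4 : ∫ x, Complex.exp (⟪toLp 2 (T *ᵥ x), t⟫ * Complex.I) ∂(gv I)
      = charFun ((gv I).map (toLp 2)) (toLp 2 (Tᵀ *ᵥ (ofLp t)) : EuclideanSpace ℝ I) := by
    rw [charFun_apply, integral_map (by fun_prop) (by fun_prop)]
    simp_rw [h3]
  rw [h4, charFun_gv]
  have h5 : ‖(toLp 2 (Tᵀ *ᵥ (ofLp t)) : EuclideanSpace ℝ I)‖ ^ 2 = ‖t‖ ^ 2 := by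
    rw [← real_inner_self_eq_norm_sq, ← real_inner_self_eq_norm_sq]
    simp only [PiLp.inner_apply, RCLike.inner_apply, conj_trivial]
    have e1 : ∑ i, (Tᵀ *ᵥ (ofLp t)) i * (Tᵀ *ᵥ (ofLp t)) i
        = (Tᵀ *ᵥ (ofLp t)) ⬝ᵥ (Tᵀ *ᵥ (ofLp t)) := rfl
    have e2 : ∑ i, (ofLp t) i * (ofLp t) i = (ofLp t) ⬝ᵥ (ofLp t) := rfl
    have e3 : ∀ z, (Tᵀ *ᵥ (ofLp t)) ⬝ᵥ z = (ofLp t) ⬝ᵥ (T *ᵥ z) := by
      intro z
      rw [Matrix.dotProduct_mulVec, Matrix.mulVec_transpose]
    rw [e1, e2, e3, Matrix.mulVec_mulVec, hT, Matrix.one_mulVec]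
  exact_mod_cast congrArg (fun r : ℝ => Complex.exp (-(r : ℂ) / 2)) h5

/-- Selecting coordinates along an injection. -/
theorem mp_sel (φ : J → I) (hφ : Function.Injective φ) :
    MeasurePreserving (fun (x : I → ℝ) (j : J) => x (φ j)) (gv I) (gv J) := by
  classical
  have h := mp_mulVec (I := I) (J := J) (Matrix.of fun j i => if φ j = i then (1:ℝ) else 0) (by
    ext j k
    rw [Matrix.mul_apply]
    simp only [Matrix.of_apply, Matrix.transpose_apply, Matrix.one_apply]
    by_cases hjk : j = k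
    · subst hjk; simp
    · have : φ j ≠ φ k := fun h => hjk (hφ h)
      simp [hjk, this])
  convert h using 1
  ext x j
  simp [Matrix.mulVec, dotProduct]

/-- Linear isometries of `ℝ^I`. -/
theorem mp_isometry (T : (I → ℝ) →ₗ[ℝ] (I → ℝ)) (hT : ∀ x, ∑ i, (T x i) ^ 2 = ∑ i, (x i) ^ 2) :
    MeasurePreserving (fun x => T x) (gv I) (gv I) := by
  classical
  have hpol : ∀ x y : I → ℝ, ∑ i, T x i * T y i = ∑ i, x i * y i := by
    intro x y
    have h1 := hT (x + y)
    have h2 := hT x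
    have h3 := hT y
    simp only [map_add, Pi.add_apply, add_sq, Finset.sum_add_distrib] at h1
    have h4 : ∑ i, 2 * T x i * T y i = 2 * ∑ i, T x i * T y i := by
      rw [Finset.mul_sum]; exact Finset.sum_congr rfl fun i _ => by ring
    have h5 : ∑ i, 2 * x i * y i = 2 * ∑ i, x i * y i := by
      rw [Finset.mul_sum]; exact Finset.sum_congr rfl fun i _ => by ring
    rw [h4, h5] at h1
    linarith
  set A := LinearMap.toMatrix' T with hA
  have hAT : Aᵀ * A = 1 := by
    ext j k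
    rw [Matrix.mul_apply]
    have := hpol (Pi.single j 1) (Pi.single k 1)
    simp only [Matrix.transpose_apply, hA, LinearMap.toMatrix'_apply, Matrix.one_apply]
    rw [this]
    by_cases hjk : j = k
    · subst hjk; simp [Pi.single_apply]
    · simp [Pi.single_apply, hjk, Ne.symm hjk]
  have hTA : A * Aᵀ = 1 := mul_eq_one_comm.mp hAT
  have h := mp_mulVec A hTA
  convert h using 1
  ext x j
  rw [hA, ← Matrix.toLin'_apply, Matrix.toLin'_toMatrix']

/-- Uncurrying. -/
theorem mp_curry : MeasurePreserving (MeasurableEquiv.curry I J ℝ) (gv (I × J)) (gm I J) := by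
  refine ⟨(MeasurableEquiv.curry I J ℝ).measurable, ?_⟩
  have h := Measure.infinitePi_map_curry (ι := I) (κ := J) (fun (_ : I) (_ : J) => gaussianReal 0 1)
  simp only [Measure.infinitePi_eq_pi] at h
  exact h

theorem mp_uncurry :
    MeasurePreserving (MeasurableEquiv.curry I J ℝ).symm (gm I J) (gv (I × J)) :=
  (mp_curry (I := I) (J := J)).symm

/-- Linear isometries of arrays. -/
theorem mp_isometry₂ (T : (I → J → ℝ) →ₗ[ℝ] (I → J → ℝ))
    (hT : ∀ x, ∑ i, ∑ j, (T x i j) ^ 2 = ∑ i, ∑ j, (x i j) ^ 2) :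
    MeasurePreserving (fun x => T x) (gm I J) (gm I J) := by
  let c : (I × J → ℝ) ≃ₗ[ℝ] (I → J → ℝ) := LinearEquiv.curry ℝ ℝ I J
  let T' : (I × J → ℝ) →ₗ[ℝ] (I × J → ℝ) := c.symm.toLinearMap ∘ₗ T ∘ₗ c.toLinearMap
  have hT' : ∀ x, ∑ i, (T' x i) ^ 2 = ∑ i, (x i) ^ 2 := by
    intro x
    rw [Fintype.sum_prod_type, Fintype.sum_prod_type]
    exact hT (c x)
  have h := mp_isometry T' hT'
  have h2 := ((mp_curry (I := I) (J := J)).comp h).comp (mp_uncurry (I := I) (J := J))
  exact h2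

end coiso

end Crest.Agent.R166.GaussPi93
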