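import Crest.Agent.R166.MeasMat_93
import Crest.Agent.R166.Gen_85

/-!
# R166 / GoeInvA_93 (helper93)

Measure preserving selections between products of iid Gaussian arrays, second moments.
-/

set_option autoImplicit false

open MeasureTheory ProbabilityTheory Matrix WithLp
open scoped BigOperators RealInnerProductSpace
open Crest.ProbabilityR.RandomMatrix

namespace Crest.Agent.R166.GoeInv93

open Crest.Agent.R166 Crest.Agent.R166.GaussPi93 Crest.Agent.R166.GoeRot93
open Crest.Agent.R166.CayDet93 Crest.Agent.R166.Schur93 Crest.Agent.R166.MeasMat93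

instance goe_prob (n : ℕ) : IsProbabilityMeasure (goeDisorderLaw n) := by
  unfold goeDisorderLaw; infer_instance

lemma goe_eq (n : ℕ) : goeDisorderLaw n = gm (Fin n) (Fin n) := rfl

section enc
variable {A B C D E : Type*} [Fintype A] [Fintype B] [Fintype C] [Fintype D] [Fintype E]

/-- joint vector -/
def enc2 (p : (A → B → ℝ) × (C → D → ℝ)) : (A × B) ⊕ (C × D) → ℝ :=
  Sum.elim (fun q => p.1 q.1 q.2) (fun q => p.2 q.1 q.2)

def dec2 (x : (A × B) ⊕ (C × D) → ℝ) : (A → B → ℝ) × (C → D → ℝ) :=
  (fun a b => x (Sum.inl (a, b)), fun c d => x (Sum.inr (c, d)))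

lemma mp_dec2 : MeasurePreserving (dec2 (A := A) (B := B) (C := C) (D := D))
    (gv ((A × B) ⊕ (C × D))) ((gm A B).prod (gm C D)) := by
  have h1 := measurePreserving_sumPiEquivProdPi
    (fun _ : (A × B) ⊕ (C × D) => gaussianReal 0 1)
  have h2 := (mp_curry (I := A) (J := B)).prod (mp_curry (I := C) (J := D))
  exact h2.comp h1

lemma mp_enc2 : MeasurePreserving (enc2 (A := A) (B := B) (C := C) (D := D))
    ((gm A B).prod (gm C D)) (gv ((A × B) ⊕ (C × D))) := by
  have h1 := (measurePreserving_sumPiEquivProdPi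
    (fun _ : (A × B) ⊕ (C × D) => gaussianReal 0 1)).symm
  have h2 := (mp_uncurry (I := A) (J := B)).prod (mp_uncurry (I := C) (J := D))
  have h3 := h1.comp h2
  convert h3 using 1
  ext p q
  rcases q with q | q <;> rfl

def dec3 (x : E ⊕ ((A × B) ⊕ (C × D)) → ℝ) : (E → ℝ) × ((A → B → ℝ) × (C → D → ℝ)) :=
  (fun e => x (Sum.inl e), dec2 fun q => x (Sum.inr q))

lemma mp_dec3 : MeasurePreserving (dec3 (A := A) (B := B) (C := C) (D := D) (E := E))
    (gv (E ⊕ ((A × B) ⊕ (C × D)))) ((gv E).prod ((gm A B).prod (gm C D))) := by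
  have h1 := measurePreserving_sumPiEquivProdPi
    (fun _ : E ⊕ ((A × B) ⊕ (C × D)) => gaussianReal 0 1)
  have h2 := (MeasurePreserving.id (gv E)).prod
    (mp_dec2 (A := A) (B := B) (C := C) (D := D))
  exact h2.comp h1

end enc

/-- change of variables for measurable functions -/
lemma mp_integral {α β : Type*} [MeasurableSpace α] [MeasurableSpace β] {μ : Measure α}
    {ν : Measure β} {T : α → β} (hT : MeasurePreserving T μ ν) {F : β → ℝ} (hF : Measurable F) :
    ∫ a, F (T a) ∂μ = ∫ b, F b ∂ν := by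
  rw [← hT.map_eq, integral_map hT.measurable.aemeasurable hF.aestronglyMeasurable]

section sel
variable {n m : ℕ}

/-- splitting off the first column of the directions. -/
def splitMap (p : GOEDisorder n × (Fin n → Fin (m + 1) → ℝ)) :
    (Fin n → ℝ) × (GOEDisorder n × (Fin n → Fin m → ℝ)) :=
  (fun i => p.2 i 0, (p.1, fun i k => p.2 i k.succ))

lemma mp_split : MeasurePreserving (splitMap (n := n) (m := m))
    ((goeDisorderLaw n).prod (gm (Fin n) (Fin (m + 1))))
    ((gv (Fin n)).prod ((goeDisorderLaw n).prod (gm (Fin n) (Fin m)))) := by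
  let φ : Fin n ⊕ ((Fin n × Fin n) ⊕ (Fin n × Fin m)) →
      (Fin n × Fin n) ⊕ (Fin n × Fin (m + 1)) :=
    Sum.elim (fun i => Sum.inr (i, 0)) (Sum.elim Sum.inl (fun q => Sum.inr (q.1, q.2.succ)))
  have hφ : Function.Injective φ := by
    intro a b hab
    rcases a with i | (⟨i, j⟩ | ⟨i, k⟩) <;> rcases b with i' | (⟨i', j'⟩ | ⟨i', k'⟩) <;>
      simp_all [φ]
    exact absurd hab.2.symm (Fin.succ_ne_zero _)
  have h := (mp_dec3 (A := Fin n) (B := Fin n) (C := Fin n) (D := Fin m) (E := Fin n)).comp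
    ((mp_sel φ hφ).comp (mp_enc2 (A := Fin n) (B := Fin n) (C := Fin n) (D := Fin (m + 1))))
  exact h

/-- reduction by one coordinate. -/
def redMap (p : GOEDisorder (n + 1) × (Fin (n + 1) → Fin m → ℝ)) :
    GOEDisorder n × (Fin n → Fin (m + 1) → ℝ) :=
  (fun i j => p.1 i.succ j.succ, Gred (fun j => p.1 0 j.succ) (fun j => p.2 j.succ))

lemma mp_red : MeasurePreserving (redMap (n := n) (m := m))
    ((goeDisorderLaw (n + 1)).prod (gm (Fin (n + 1)) (Fin m)))
    ((goeDisorderLaw n).prod (gm (Fin n) (Fin (m + 1)))) := by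
  let φ : (Fin n × Fin n) ⊕ (Fin n × Fin (m + 1)) →
      (Fin (n + 1) × Fin (n + 1)) ⊕ (Fin (n + 1) × Fin m) :=
    Sum.elim (fun q => Sum.inl (q.1.succ, q.2.succ))
      (fun q => Fin.cases (Sum.inl (0, q.1.succ)) (fun k => Sum.inr (q.1.succ, k)) q.2)
  have hφ : Function.Injective φ := by
    intro a b hab
    rcases a with ⟨i, j⟩ | ⟨i, k⟩ <;> rcases b with ⟨i', j'⟩ | ⟨i', k'⟩
    · simp_all [φ]
    · exfalso
      induction k' using Fin.cases with
      | zero =>
        simp only [φ, Sum.elim_inl, Sum.elim_inr, Fin.cases_zero, Sum.inl.injEq, Prod.mk.injEq] at hab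
        exact Fin.succ_ne_zero _ hab.1
      | succ k' => simp [φ] at hab
    · exfalso
      induction k using Fin.cases with
      | zero =>
        simp only [φ, Sum.elim_inl, Sum.elim_inr, Fin.cases_zero, Sum.inl.injEq, Prod.mk.injEq] at hab
        exact (Fin.succ_ne_zero _ hab.1.symm)
      | succ k' => simp [φ] at hab
    · induction k using Fin.cases with
      | zero =>
        induction k' using Fin.cases with
        | zero => simp_all [φ]
        | succ k' => simp [φ] at hab
      | succ k =>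
        induction k' using Fin.cases with
        | zero => simp [φ] at hab
        | succ k' => simp_all [φ]
  have h := (mp_dec2 (A := Fin n) (B := Fin n) (C := Fin n) (D := Fin (m + 1))).comp
    ((mp_sel φ hφ).comp (mp_enc2 (A := Fin (n + 1)) (B := Fin (n + 1)) (C := Fin (n + 1))
      (D := Fin m)))
  have he : redMap (n := n) (m := m) = dec2 ∘ (fun x j => x (φ j)) ∘ enc2 := by
    ext p
    · rfl
    · rename_i j k
      induction k using Fin.cases with
      | zero => rfl
      | succ k => rfl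
  rw [he]
  exact h

end sel

section moments

lemma memLp_sq : MemLp (fun t : ℝ => t ^ 2) 2 (gaussianReal 0 1) := by
  have h4 : MemLp (id : ℝ → ℝ) (4 : ℕ) (gaussianReal 0 1) := memLp_id_gaussianReal' _ (by simp)
  have h5 := h4.integrable_norm_pow (by norm_num)
  rw [memLp_two_iff_integrable_sq (by fun_prop)]
  refine h5.congr (Filter.Eventually.of_forall fun t => ?_)
  simp only [id, Real.norm_eq_abs]
  rw [← pow_mul, show 2 * 2 = 4 by norm_num, ← abs_pow, abs_of_nonneg (by positivity)]

lemma integral_sq : ∫ t, t ^ 2 ∂(gaussianReal 0 1) = 1 := by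
  have h := variance_id_gaussianReal (μ := 0) (v := 1)
  rw [variance_eq_integral (by fun_prop)] at h
  simp only [id, integral_id_gaussianReal, sub_zero] at h
  simpa using h

/-- the second moment of the square fluctuation. -/
noncomputable def V0 : ℝ := Var[fun t : ℝ => t ^ 2; gaussianReal 0 1]

variable {n : ℕ}

lemma memLp_sumsq : MemLp (fun v : Fin n → ℝ => ∑ i, (v i) ^ 2) 2 (gv (Fin n)) := by
  have h : MemLp (∑ i : Fin n, fun v : Fin n → ℝ => (v i) ^ 2) 2 (gv (Fin n)) :=
    memLp_finsetSum' _ fun i _ =>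
      memLp_sq.comp_measurePreserving (measurePreserving_eval (fun _ : Fin n => gaussianReal 0 1) i)
  convert h using 1
  ext v
  simp

lemma integral_sumsq : ∫ v, (∑ i, (v i) ^ 2) ∂(gv (Fin n)) = n := by
  rw [integral_finsetSum]
  · have h : ∀ i : Fin n, ∫ v : Fin n → ℝ, (v i) ^ 2 ∂(gv (Fin n)) = 1 := by
      intro i
      rw [← integral_sq]
      exact mp_integral (measurePreserving_eval (fun _ : Fin n => gaussianReal 0 1) i)
        (F := fun t => t ^ 2) (by fun_prop)
    simp [h]
  · intro i _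
    exact ((memLp_sq.comp_measurePreserving
      (measurePreserving_eval (fun _ : Fin n => gaussianReal 0 1) i)).integrable (by norm_num))

lemma integral_sumsq_sub : ∫ v, ((∑ i, (v i) ^ 2) - n) ^ 2 ∂(gv (Fin n)) = n * V0 := by
  have h1 := variance_eq_integral (X := fun v : Fin n → ℝ => ∑ i, (v i) ^ 2) (μ := gv (Fin n))
    memLp_sumsq.aestronglyMeasurable.aemeasurable
  rw [integral_sumsq] at h1
  rw [← h1]
  have h2 := variance_sum_pi (μ := fun _ : Fin n => gaussianReal 0 1)
    (X := fun _ t => t ^ 2) (fun _ => memLp_sq)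
  have h3 : (∑ i : Fin n, fun v : Fin n → ℝ => (v i) ^ 2) = fun v => ∑ i, (v i) ^ 2 := by
    ext v; simp
  rw [h3] at h2
  rw [h2]
  simp [V0]

lemma integrable_sumsq_sub :
    Integrable (fun v : Fin n → ℝ => ((∑ i, (v i) ^ 2) - n) ^ 2) (gv (Fin n)) :=
  (memLp_sumsq.sub (memLp_const _)).integrable_sq

end moments

end Crest.Agent.R166.GoeInv93
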