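import Crest.Agent.R166.GoeInvA_93

/-!
# R166 / GoeInvB_93 (helper93)

Rotation of the first direction to a coordinate vector; pointwise estimates.
-/

set_option autoImplicit false

open MeasureTheory ProbabilityTheory Matrix WithLp
open scoped BigOperators RealInnerProductSpace
open Crest.ProbabilityR.RandomMatrix

namespace Crest.Agent.R166.GoeInv93

open Crest.Agent.R166 Crest.Agent.R166.GaussPi93 Crest.Agent.R166.GoeRot93
open Crest.Agent.R166.CayDet93 Crest.Agent.R166.Schur93 Crest.Agent.R166.MeasMat93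

section rot
variable {n m : ℕ}

/-- glue a first column -/
def glue (v : Fin n → ℝ) (G : Fin n → Fin m → ℝ) : Fin n → Fin (m + 1) → ℝ :=
  fun i => Fin.cons (v i) (G i)

lemma glue_split (G : Fin n → Fin (m + 1) → ℝ) :
    glue (fun i => G i 0) (fun i k => G i k.succ) = G := by
  ext i k
  induction k using Fin.cases with
  | zero => rfl
  | succ k => rfl

lemma glue_rot (O : Matrix (Fin n) (Fin n) ℝ) (v : Fin n → ℝ) (G : Fin n → Fin m → ℝ) :
    glue (O *ᵥ v) (fun i j => (O * Matrix.of G) i j)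
      = fun i j => (O * Matrix.of (glue v G)) i j := by
  ext i k
  induction k using Fin.cases with
  | zero => simp [glue, Matrix.mulVec, dotProduct, Matrix.mul_apply]
  | succ k => simp [glue, Matrix.mul_apply]

/-- the shifted, rescaled matrix -/
noncomputable def Wx (a : ℝ) {n : ℕ} (g : GOEDisorder n) (x : ℝ) : Matrix (Fin n) (Fin n) ℝ :=
  a • goeMatrix g - x • (1 : Matrix (Fin n) (Fin n) ℝ)

lemma Wx_transpose (a : ℝ) (g : GOEDisorder n) (x : ℝ) : (Wx a g x)ᵀ = Wx a g x := by
  rw [Wx, Matrix.transpose_sub, Matrix.transpose_smul, goeMatrix_transpose, Matrix.transpose_smul,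
    Matrix.transpose_one]

lemma Wx_theta (a : ℝ) (O : Matrix (Fin n) (Fin n) ℝ) (hO : O * Oᵀ = 1) (g : GOEDisorder n)
    (x : ℝ) : Wx a (theta O g) x = O * Wx a g x * Oᵀ := by
  rw [Wx, Wx, goeMatrix_theta, Matrix.mul_sub, Matrix.sub_mul, Matrix.mul_smul, Matrix.smul_mul,
    Matrix.mul_smul, Matrix.mul_one, Matrix.smul_mul, hO]

lemma MM_Wx (a : ℝ) : MM (fun q : ℝ × GOEDisorder n => Wx a q.2 q.1) := by
  intro i j
  have h := MM_goeMatrix (N := n) i j
  have h2 : Measurable fun q : ℝ × GOEDisorder n => goeMatrix q.2 i j := h.comp measurable_snd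
  simp only [Wx, Matrix.sub_apply, Matrix.smul_apply, smul_eq_mul]
  exact (h2.const_mul a).sub (measurable_fst.mul_const _)

lemma norm_Cay_arr_le (a : ℝ) (g : GOEDisorder n) (x : ℝ) (G : Fin n → Fin m → ℝ) (i j : Fin m) :
    ‖Cay (arr (Wx a g x) G) i j‖ ≤ 1 :=
  norm_Cay_le _ (arr_transpose _ (Wx_transpose a g x) _) i j

/-- the integrand (shift, (disorder, directions)) -/
noncomputable def Fq (a : ℝ) {n m : ℕ} (f : Matrix (Fin m) (Fin m) ℂ → ℝ)
    (q : ℝ × (GOEDisorder n × (Fin n → Fin m → ℝ))) : ℝ :=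
  f (Cay (arr (Wx a q.2.1 q.1) q.2.2))

/-- joint measurability of the integrand (in the shift, the disorder and the directions). -/
lemma meas_all (a : ℝ) (n : ℕ) {f : Matrix (Fin m) (Fin m) ℂ → ℝ} (hf : Continuous f) :
    Measurable (Fq a (n := n) f) := by
  unfold Fq
  refine MM.comp_continuous ?_ hf
  refine MM.cay ?_
  refine MM.arr ?_ ?_
  · intro i j
    exact (MM_Wx (n := n) a i j).comp (measurable_fst.prodMk (measurable_fst.comp measurable_snd))
  · intro i j
    exact (measurable_pi_apply j).comp ((measurable_pi_apply i).comp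
      (measurable_snd.comp measurable_snd))

attribute [irreducible] Fq

lemma meas_x (a : ℝ) (n : ℕ) {f : Matrix (Fin m) (Fin m) ℂ → ℝ} (hf : Continuous f) (x : ℝ) :
    Measurable fun p : GOEDisorder n × (Fin n → Fin m → ℝ) => Fq a f (x, p) := by
  have h1 : Measurable (fun p : GOEDisorder n × (Fin n → Fin m → ℝ) => (x, p)) :=
    measurable_const.prodMk measurable_id
  exact (meas_all a n hf).comp h1

/-- expectation functional at fixed shift `x` -/
noncomputable def JJ (a : ℝ) (n m : ℕ) (x : ℝ) (f : Matrix (Fin m) (Fin m) ℂ → ℝ) : ℝ :=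
  ∫ p : GOEDisorder n × (Fin n → Fin m → ℝ),
    Fq a f (x, p) ∂((goeDisorderLaw n).prod (gm (Fin n) (Fin m)))

/-- exact invariance under real orthogonal matrices -/
theorem JJ_right (a : ℝ) (n m : ℕ) (x : ℝ) {f : Matrix (Fin m) (Fin m) ℂ → ℝ}
    (hf : Continuous f) (O : Matrix (Fin m) (Fin m) ℝ) (hO : O * Oᵀ = 1) :
    JJ a n m x (fun U => f (cx O * U * (cx O)ᵀ)) = JJ a n m x f := by
  have hO' : Oᵀ * (Oᵀ)ᵀ = 1 := by
    rw [Matrix.transpose_transpose]; exact mul_eq_one_comm.mp hO
  have h1 : ∀ p : GOEDisorder n × (Fin n → Fin m → ℝ),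
      Fq a (fun U => f (cx O * U * (cx O)ᵀ)) (x, p)
        = Fq a f (x, (p.1, fun i j => (Matrix.of p.2 * Oᵀ) i j)) := by
    intro p
    simp only [Fq]
    rw [arr_mul, Matrix.transpose_transpose, Cay_conj _ _
      (arr_transpose _ (Wx_transpose a p.1 x) _) hO]
  have h2 := (MeasurePreserving.id (goeDisorderLaw n)).prod (mp_right (I := Fin n) Oᵀ hO')
  have h3 := mp_integral h2 (meas_x a n hf x)
  unfold JJ
  rw [← h3]
  exact integral_congr_ae (Filter.Eventually.of_forall h1)

/-- the functional with a prescribed first direction -/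
noncomputable def PhiF (a : ℝ) (n m : ℕ) (x : ℝ) (f : Matrix (Fin (m + 1)) (Fin (m + 1)) ℂ → ℝ)
    (v : Fin n → ℝ) : ℝ :=
  ∫ p : GOEDisorder n × (Fin n → Fin m → ℝ),
    Fq a f (x, (p.1, glue v p.2)) ∂((goeDisorderLaw n).prod (gm (Fin n) (Fin m)))

lemma measurable_glue : Measurable fun q : (Fin n → ℝ) × (GOEDisorder n × (Fin n → Fin m → ℝ)) =>
      ((q.2.1, glue q.1 q.2.2) : GOEDisorder n × (Fin n → Fin (m + 1) → ℝ)) := by
  refine (measurable_fst.comp measurable_snd).prodMk ?_
  refine measurable_pi_lambda _ fun i => measurable_pi_lambda _ fun k => ?_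
  induction k using Fin.cases with
  | zero =>
    simp only [glue, Fin.cons_zero]
    exact (measurable_pi_apply i).comp measurable_fst
  | succ k =>
    simp only [glue, Fin.cons_succ]
    exact (measurable_pi_apply k).comp ((measurable_pi_apply i).comp
      (measurable_snd.comp measurable_snd))

lemma meas_glue (a : ℝ) {f : Matrix (Fin (m + 1)) (Fin (m + 1)) ℂ → ℝ} (hf : Continuous f)
    (x : ℝ) : Measurable fun q : (Fin n → ℝ) × (GOEDisorder n × (Fin n → Fin m → ℝ)) =>
      Fq a f (x, (q.2.1, glue q.1 q.2.2)) :=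
  (meas_x a n hf x).comp measurable_glue

theorem PhiF_rot (a : ℝ) (n m : ℕ) (x : ℝ) {f : Matrix (Fin (m + 1)) (Fin (m + 1)) ℂ → ℝ}
    (hf : Continuous f) (O : Matrix (Fin n) (Fin n) ℝ) (hO : O * Oᵀ = 1) (v : Fin n → ℝ) :
    PhiF a n m x f (O *ᵥ v) = PhiF a n m x f v := by
  have hO' : Oᵀ * O = 1 := mul_eq_one_comm.mp hO
  have h2 := (theta_mp O hO').prod (mp_left (J := Fin m) O hO')
  have hm1 : Measurable fun p : GOEDisorder n × (Fin n → Fin m → ℝ) =>
      ((O *ᵥ v, p) : (Fin n → ℝ) × (GOEDisorder n × (Fin n → Fin m → ℝ))) :=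
    measurable_const.prodMk measurable_id
  have hmeas : Measurable fun p : GOEDisorder n × (Fin n → Fin m → ℝ) =>
      Fq a f (x, (p.1, glue (O *ᵥ v) p.2)) := (meas_glue a hf x).comp hm1
  have h3 := mp_integral h2 hmeas
  unfold PhiF
  rw [← h3]
  refine integral_congr_ae (Filter.Eventually.of_forall fun p => ?_)
  simp only [Prod.map, Fq]
  rw [glue_rot, Wx_theta a O hO, arr_left _ _ hO]

/-- `‖v‖ e_0` -/
noncomputable def nv (v : Fin (n + 1) → ℝ) : Fin (n + 1) → ℝ :=
  Fin.cons (Real.sqrt (∑ i, (v i) ^ 2)) (fun _ => 0)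

lemma toMatrix_coiso {N : ℕ} (T : (Fin N → ℝ) →ₗ[ℝ] (Fin N → ℝ))
    (hT : ∀ x, ∑ i, (T x i) ^ 2 = ∑ i, (x i) ^ 2) :
    LinearMap.toMatrix' T * (LinearMap.toMatrix' T)ᵀ = 1 := by
  have hpol : ∀ x y : Fin N → ℝ, ∑ i, T x i * T y i = ∑ i, x i * y i := by
    intro x y
    have h1 := hT (x + y)
    have h2 := hT x
    have h3 := hT y
    simp only [map_add, Pi.add_apply, add_sq, Finset.sum_add_distrib] at h1
    have h4 : ∑ i, 2 * T x i * T y i = 2 * ∑ i, T x i * T y i := by
      rw [Finset.mul_sum]; exact Finset.sum_congr rfl fun i _ => by ring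
    have h5 : ∑ i, 2 * x i * y i = 2 * ∑ i, x i * y i := by
      rw [Finset.mul_sum]; exact Finset.sum_congr rfl fun i _ => by ring
    rw [h4, h5] at h1
    linarith
  set A := LinearMap.toMatrix' T with hA
  have hAT : Aᵀ * A = 1 := by
    ext j k
    rw [Matrix.mul_apply]
    have := hpol (Pi.single j 1) (Pi.single k 1)
    simp only [Matrix.transpose_apply, hA, LinearMap.toMatrix'_apply, Matrix.one_apply]
    rw [this]
    by_cases hjk : j = k
    · subst hjk; simp [Pi.single_apply]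
    · simp [Pi.single_apply, hjk, Ne.symm hjk]
  exact mul_eq_one_comm.mp hAT

lemma exists_rot (v : Fin (n + 1) → ℝ) :
    ∃ O : Matrix (Fin (n + 1)) (Fin (n + 1)) ℝ, O * Oᵀ = 1 ∧ O *ᵥ v = nv v := by
  set v' : EuclideanSpace ℝ (Fin (n + 1)) := toLp 2 v with hv'
  set w' : EuclideanSpace ℝ (Fin (n + 1)) := toLp 2 (nv v) with hw'
  have hnorm : ‖v'‖ = ‖w'‖ := by
    rw [EuclideanSpace.norm_eq, EuclideanSpace.norm_eq]
    congr 1
    simp only [hv', hw', Real.norm_eq_abs, sq_abs]
    rw [Fin.sum_univ_succ (f := fun i => (nv v i) ^ 2)]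
    simp only [nv, Fin.cons_zero, Fin.cons_succ]
    rw [Real.sq_sqrt (Finset.sum_nonneg fun i _ => sq_nonneg _)]
    simp
  set Rf := ((ℝ ∙ (v' - w'))ᗮ).reflection with hRf
  have hR : Rf v' = w' := Submodule.reflection_sub hnorm
  let T : (Fin (n + 1) → ℝ) →ₗ[ℝ] (Fin (n + 1) → ℝ) :=
    (WithLp.linearEquiv 2 ℝ (Fin (n + 1) → ℝ)).toLinearMap ∘ₗ
      (Rf.toLinearEquiv.toLinearMap) ∘ₗ (WithLp.linearEquiv 2 ℝ (Fin (n + 1) → ℝ)).symm.toLinearMap
  have hT : ∀ x, ∑ i, (T x i) ^ 2 = ∑ i, (x i) ^ 2 := by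
    intro x
    have h1 : ‖Rf (toLp 2 x)‖ ^ 2 = ‖(toLp 2 x : EuclideanSpace ℝ (Fin (n + 1)))‖ ^ 2 := by
      rw [Rf.norm_map]
    rw [EuclideanSpace.norm_sq_eq, EuclideanSpace.norm_sq_eq] at h1
    simp only [Real.norm_eq_abs, sq_abs] at h1
    exact h1
  refine ⟨LinearMap.toMatrix' T, ?_, ?_⟩
  · exact toMatrix_coiso T hT
  · rw [← Matrix.toLin'_apply, Matrix.toLin'_toMatrix']
    have : T v = ofLp (Rf v') := rfl
    rw [this, hR]

theorem PhiF_nv (a : ℝ) (n m : ℕ) (x : ℝ) {f : Matrix (Fin (m + 1)) (Fin (m + 1)) ℂ → ℝ}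
    (hf : Continuous f) (v : Fin (n + 1) → ℝ) :
    PhiF a (n + 1) m x f v = PhiF a (n + 1) m x f (nv v) := by
  obtain ⟨O, hO, hv⟩ := exists_rot v
  rw [← hv, PhiF_rot a (n + 1) m x hf O hO]

end rot

section pt
variable {n m : ℕ}

/-- congruence matrix -/
noncomputable def Smat (r : ℝ) (c : Fin m → ℝ) : Matrix (Fin (m + 1)) (Fin (m + 1)) ℝ :=
  Matrix.of (Fin.cons (Fin.cons r c) (fun k => Fin.cons 0 (Pi.single k 1)))

/-- its inverse transpose -/
noncomputable def Rmat (r : ℝ) (c : Fin m → ℝ) : Matrix (Fin (m + 1)) (Fin (m + 1)) ℝ :=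
  Matrix.of (Fin.cons (Fin.cons r⁻¹ (fun _ => 0)) (fun k => Fin.cons (-(c k) / r) (Pi.single k 1)))

lemma S_R {r : ℝ} (hr : r ≠ 0) (c : Fin m → ℝ) : (Smat r c)ᵀ * Rmat r c = 1 := by
  ext i k
  rw [Matrix.mul_apply, Fin.sum_univ_succ]
  induction i using Fin.cases with
  | zero =>
    induction k using Fin.cases with
    | zero => simp [Smat, Rmat, hr]
    | succ k => simp [Smat, Rmat, Matrix.one_apply_ne (Fin.succ_ne_zero k).symm]
  | succ i =>
    induction k using Fin.cases with
    | zero =>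
      simp only [Smat, Rmat, Matrix.transpose_apply, Matrix.of_apply, Fin.cons_zero, Fin.cons_succ,
        Matrix.one_apply_ne (Fin.succ_ne_zero i)]
      rw [Finset.sum_eq_single i]
      · rw [Pi.single_eq_same]; field_simp; ring
      · intro l _ hl
        rw [Pi.single_eq_of_ne (Ne.symm hl)]; ring
      · simp
    | succ k =>
      simp only [Smat, Rmat, Matrix.transpose_apply, Matrix.of_apply, Fin.cons_zero, Fin.cons_succ,
        mul_zero, zero_add]
      rw [Finset.sum_eq_single i]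
      · rw [Pi.single_eq_same, one_mul]
        by_cases h : i = k
        · subst h; simp
        · rw [Pi.single_eq_of_ne (Ne.symm h), Matrix.one_apply_ne]
          exact fun h' => h (Fin.succ_injective _ h')
      · intro l _ hl
        rw [Pi.single_eq_of_ne (Ne.symm hl)]; ring
      · simp

lemma glue_nv (v : Fin (n + 1) → ℝ) (G : Fin (n + 1) → Fin m → ℝ) {s0 : ℝ} (hs0 : s0 ≠ 0) :
    glue (nv v) G = fun i j => (Matrix.of (Gext s0 (fun j => G j.succ)) *
      Smat (Real.sqrt (∑ i, (v i) ^ 2) / s0) (fun k => G 0 k / s0)) i j := by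
  ext i k
  rw [Matrix.mul_apply, Fin.sum_univ_succ]
  induction i using Fin.cases with
  | zero =>
    have h0 : ∀ l : Fin m, Matrix.of (Gext (n := n) s0 (fun j => G j.succ)) 0 l.succ = 0 := by
      intro l; simp [Gext]
    simp only [h0, zero_mul, Finset.sum_const_zero, add_zero]
    induction k using Fin.cases with
    | zero => simp [glue, nv, Gext, Smat]; field_simp
    | succ k => simp [glue, nv, Gext, Smat]; field_simp
  | succ j =>
    have h0 : Matrix.of (Gext (n := n) s0 (fun j => G j.succ)) j.succ 0 = 0 := by simp [Gext]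
    rw [h0, zero_mul, zero_add]
    induction k using Fin.cases with
    | zero => simp [glue, nv, Gext, Smat]
    | succ k =>
      simp only [glue, Gext, Smat, Matrix.of_apply, Fin.cons_succ]
      rw [Finset.sum_eq_single k]
      · rw [Pi.single_eq_same, mul_one]
      · intro l _ hl
        rw [Pi.single_eq_of_ne (Ne.symm hl), mul_zero]
      · simp

lemma S_sub_one {r η : ℝ} {c : Fin m → ℝ} (hr : |r - 1| ≤ η) (hc : ∀ k, |c k| ≤ η) (hη : 0 ≤ η)
    (i j : Fin (m + 1)) :
    |Smat r c i j - (1 : Matrix (Fin (m + 1)) (Fin (m + 1)) ℝ) i j| ≤ η := by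
  induction i using Fin.cases with
  | zero =>
    induction j using Fin.cases with
    | zero => simpa [Smat] using hr
    | succ k =>
      rw [Matrix.one_apply_ne (Fin.succ_ne_zero k).symm]
      simpa [Smat] using hc k
  | succ i =>
    induction j using Fin.cases with
    | zero =>
      rw [Matrix.one_apply_ne (Fin.succ_ne_zero i)]
      simpa [Smat] using hη
    | succ k =>
      have : Smat r c i.succ k.succ = (1 : Matrix (Fin (m + 1)) (Fin (m + 1)) ℝ) i.succ k.succ := by
        simp only [Smat, Matrix.of_apply, Fin.cons_succ]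
        by_cases h : i = k
        · subst h; simp
        · rw [Pi.single_eq_of_ne (Ne.symm h), Matrix.one_apply_ne]
          exact fun h' => h (Fin.succ_injective _ h')
      rw [this, sub_self, abs_zero]
      exact hη

lemma S_sub_R {r η : ℝ} {c : Fin m → ℝ} (hη : 0 ≤ η) (hη1 : η ≤ 1) (hr : |r - 1| ≤ η / 4)
    (hc : ∀ k, |c k| ≤ η / 4)
    (i j : Fin (m + 1)) : |Smat r c i j - Rmat r c i j| ≤ η := by
  have hr2 : 3 / 4 ≤ r := by
    have := (abs_le.mp hr).1
    linarith
  have hr0 : 0 < r := by linarith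
  induction i using Fin.cases with
  | zero =>
    induction j using Fin.cases with
    | zero =>
      simp only [Smat, Rmat, Matrix.of_apply, Fin.cons_zero]
      have h1 : r - r⁻¹ = (r - 1) * (1 + r⁻¹) := by field_simp; ring
      rw [h1, abs_mul]
      have h2 : |1 + r⁻¹| ≤ 4 := by
        have h3 : r⁻¹ ≤ 4 / 3 := by
          rw [inv_le_comm₀ hr0 (by norm_num)]
          norm_num
          exact hr2
        rw [abs_of_nonneg (by positivity)]
        linarith
      calc |r - 1| * |1 + r⁻¹| ≤ (η / 4) * 4 :=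
            mul_le_mul hr h2 (abs_nonneg _) (by linarith)
        _ = η := by ring
    | succ k =>
      simp only [Smat, Rmat, Matrix.of_apply, Fin.cons_zero, Fin.cons_succ, sub_zero]
      linarith [hc k]
  | succ i =>
    induction j using Fin.cases with
    | zero =>
      simp only [Smat, Rmat, Matrix.of_apply, Fin.cons_zero, Fin.cons_succ, zero_sub, abs_neg,
        abs_div, abs_of_pos hr0]
      rw [div_le_iff₀ hr0]
      nlinarith [hc i, abs_nonneg (c i)]
    | succ k =>
      simp only [Smat, Rmat, Matrix.of_apply, Fin.cons_succ, sub_self, abs_zero]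
      exact hη

end pt

end Crest.Agent.R166.GoeInv93
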