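import Crest.Agent.R166.GoeInvC_93
import Crest.Agent.R166.Gen_85

/-!
# R166 / GoeInvD_93 (helper93)

Good shifts, the asymptotic stabiliser, and invariance of the functional `JJ`.
-/

set_option autoImplicit false

open MeasureTheory ProbabilityTheory Matrix
open scoped BigOperators
open Crest.ProbabilityR.RandomMatrix

namespace Crest.Agent.R166.GoeInv93

open Crest.Agent.R166 Crest.Agent.R166.GaussPi93 Crest.Agent.R166.GoeRot93
open Crest.Agent.R166.CayDet93 Crest.Agent.R166.Schur93 Crest.Agent.R166.MeasMat93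

section good

/-- the determinant `det (A - x)` vanishes for finitely many `x` only. -/
lemma ae_isUnit_det {N : ℕ} (A : Matrix (Fin N) (Fin N) ℝ) :
    ∀ᵐ x : ℝ, IsUnit (A - x • (1 : Matrix (Fin N) (Fin N) ℝ)).det := by
  have hfin : {x : ℝ | ¬ IsUnit (A - x • (1 : Matrix (Fin N) (Fin N) ℝ)).det} ⊆
      {x : ℝ | A.charpoly.IsRoot x} := by
    intro x hx
    simp only [Set.mem_ofPred_eq, isUnit_iff_ne_zero, not_not] at hx
    simp only [Set.mem_ofPred_eq, Polynomial.IsRoot.def, Matrix.eval_charpoly]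
    have h1 : Matrix.scalar (Fin N) x - A = -(A - x • (1 : Matrix (Fin N) (Fin N) ℝ)) := by
      rw [neg_sub, Matrix.smul_one_eq_diagonal]
      rfl
    rw [h1, Matrix.det_neg, hx, mul_zero]
  rw [ae_iff]
  refine measure_mono_null hfin ?_
  exact (Polynomial.finite_setOfPred_isRoot (A.charpoly_monic.ne_zero)).measure_zero _

lemma ae_ae_isUnit {Ω : Type*} [MeasurableSpace Ω] (P : Measure Ω) [SFinite P] {N : ℕ}
    {A : Ω → Matrix (Fin N) (Fin N) ℝ} (hA : MM A) :
    ∀ᵐ x : ℝ, ∀ᵐ g ∂P, IsUnit (A g - x • (1 : Matrix (Fin N) (Fin N) ℝ)).det := by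
  have hm : Measurable fun q : ℝ × Ω =>
      (A q.2 - q.1 • (1 : Matrix (Fin N) (Fin N) ℝ)).det := by
    refine MM.det (A := fun q : ℝ × Ω => A q.2 - q.1 • (1 : Matrix (Fin N) (Fin N) ℝ)) ?_
    have h1 : MM fun q : ℝ × Ω => A q.2 := fun i j => (hA i j).comp measurable_snd
    have h2 : MM fun q : ℝ × Ω => q.1 • (1 : Matrix (Fin N) (Fin N) ℝ) :=
      MM.smul measurable_fst (MM.const _)
    exact h1.sub h2
  have hms : MeasurableSet {q : ℝ × Ω |
      IsUnit (A q.2 - q.1 • (1 : Matrix (Fin N) (Fin N) ℝ)).det} := by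
    simp only [isUnit_iff_ne_zero]
    exact (measurableSet_singleton (0 : ℝ)).compl.preimage hm
  rw [Measure.ae_ae_comm (p := fun (x : ℝ) (g : Ω) =>
    IsUnit (A g - x • (1 : Matrix (Fin N) (Fin N) ℝ)).det) hms]
  exact Filter.Eventually.of_forall fun g => ae_isUnit_det (A g)

/-- good shifts -/
def Good (x : ℝ) : Prop := ∀ n : ℕ,
  ∀ᵐ g ∂(goeDisorderLaw (n + 1)), IsUnit (Wx ((n:ℝ) + 1) g x).det ∧
        IsUnit (Wx (sc n) (fun i j => g i.succ j.succ) x).det

lemma ae_good : ∀ᵐ x : ℝ, Good x := by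
  unfold Good
  rw [ae_all_iff]
  intro n
  have hA1 : MM fun g : GOEDisorder (n + 1) => ((n:ℝ) + 1) • goeMatrix g :=
    MM.smul measurable_const MM_goeMatrix
  have hA2 : MM fun g : GOEDisorder (n + 1) =>
      sc n • goeMatrix (fun i j : Fin n => g i.succ j.succ) := by
    refine MM.smul measurable_const ?_
    intro i j
    have h : Measurable fun g : GOEDisorder (n + 1) =>
        ((fun i j : Fin n => g i.succ j.succ) : GOEDisorder n) := by
      refine measurable_pi_lambda _ fun i => measurable_pi_lambda _ fun j => ?_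
      exact (measurable_pi_apply j.succ).comp (measurable_pi_apply i.succ)
    exact (MM_goeMatrix i j).comp h
  filter_upwards [ae_ae_isUnit (goeDisorderLaw (n + 1)) hA1,
    ae_ae_isUnit (goeDisorderLaw (n + 1)) hA2] with x h1 h2
  filter_upwards [h1, h2] with g h3 h4
  exact ⟨h3, h4⟩

end good

section stab
variable {m : ℕ}

/-- asymptotic invariance of the functional under `V` -/
def AInv (m : ℕ) (V : Matrix (Fin m) (Fin m) ℂ) : Prop :=
  ∀ f : Matrix (Fin m) (Fin m) ℂ → ℝ, Continuous f → ∀ δ ε : ℝ, 0 < ε →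
    ∃ N0 : ℕ, ∀ n : ℕ, N0 ≤ n → ∀ x : ℝ, Good x → |x| ≤ δ →
      |JJ ((n:ℝ) + 1) (n + 1) m x (fun U => f (V * U * Vᵀ)) - JJ ((n:ℝ) + 1) (n + 1) m x f| ≤ ε

lemma cont_act (V : Matrix (Fin m) (Fin m) ℂ) {f : Matrix (Fin m) (Fin m) ℂ → ℝ}
    (hf : Continuous f) : Continuous (fun U => f (V * U * Vᵀ)) :=
  hf.comp ((continuous_const.mul continuous_id).mul continuous_const)

lemma AInv.mul {V W : Matrix (Fin m) (Fin m) ℂ} (hV : AInv m V) (hW : AInv m W) :
    AInv m (V * W) := by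
  intro f hf δ ε hε
  obtain ⟨N1, h1⟩ := hV f hf δ (ε / 2) (by positivity)
  obtain ⟨N2, h2⟩ := hW _ (cont_act V hf) δ (ε / 2) (by positivity)
  refine ⟨max N1 N2, fun n hn x hx hxd => ?_⟩
  have a1 := h1 n ((le_max_left _ _).trans hn) x hx hxd
  have a2 := h2 n ((le_max_right _ _).trans hn) x hx hxd
  have he : (fun U => f (V * W * U * (V * W)ᵀ)) = fun U => f (V * (W * U * Wᵀ) * Vᵀ) := by
    funext U
    rw [Matrix.transpose_mul]
    simp only [Matrix.mul_assoc]
  rw [he]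
  calc _ = |(JJ ((n:ℝ) + 1) (n + 1) m x (fun U => f (V * (W * U * Wᵀ) * Vᵀ)) -
        JJ ((n:ℝ) + 1) (n + 1) m x (fun U => f (V * U * Vᵀ))) +
        (JJ ((n:ℝ) + 1) (n + 1) m x (fun U => f (V * U * Vᵀ)) -
          JJ ((n:ℝ) + 1) (n + 1) m x f)| := by ring_nf
    _ ≤ _ := abs_add_le _ _
    _ ≤ ε / 2 + ε / 2 := add_le_add a2 a1
    _ = ε := by ring

lemma AInv.one : AInv m 1 := by
  intro f hf δ ε hε
  refine ⟨0, fun n _ x _ _ => ?_⟩
  simp only [Matrix.one_mul, Matrix.transpose_one, Matrix.mul_one, sub_self, abs_zero]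
  exact hε.le

lemma AInv.inv {V W : Matrix (Fin m) (Fin m) ℂ} (hV : AInv m V) (hVW : W * V = 1) :
    AInv m W := by
  intro f hf δ ε hε
  obtain ⟨N1, h1⟩ := hV _ (cont_act W hf) δ ε hε
  refine ⟨N1, fun n hn x hx hxd => ?_⟩
  have a1 := h1 n hn x hx hxd
  have he : (fun U => f (W * (V * U * Vᵀ) * Wᵀ)) = f := by
    funext U
    have hVW' : Vᵀ * Wᵀ = 1 := by rw [← Matrix.transpose_mul, hVW, Matrix.transpose_one]
    have h2 : W * (V * U * Vᵀ) * Wᵀ = (W * V) * U * (Vᵀ * Wᵀ) := by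
      simp only [Matrix.mul_assoc]
    rw [h2, hVW, hVW', Matrix.one_mul, Matrix.mul_one]
  rw [he, abs_sub_comm] at a1
  exact a1

/-- the asymptotic stabiliser -/
def AStab (m : ℕ) : Subgroup (unitaryGroup (Fin m) ℂ) where
  carrier := {V | AInv m (V : Matrix (Fin m) (Fin m) ℂ)}
  mul_mem' := by
    intro a b ha hb
    exact AInv.mul ha hb
  one_mem' := AInv.one
  inv_mem' := by
    intro a ha
    refine AInv.inv (V := (a : Matrix (Fin m) (Fin m) ℂ)) ha ?_
    have h : a⁻¹ * a = 1 := inv_mul_cancel a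
    exact congrArg Subtype.val h

lemma mem_AStab {V : unitaryGroup (Fin m) ℂ} : V ∈ AStab m ↔ AInv m (V : Matrix (Fin m) (Fin m) ℂ) :=
  Iff.rfl

lemma AInv.orth {O : Matrix (Fin m) (Fin m) ℝ} (hO : O * Oᵀ = 1) : AInv m (cx O) := by
  intro f hf δ ε hε
  refine ⟨0, fun n _ x _ _ => ?_⟩
  rw [JJ_right _ _ _ _ hf O hO, sub_self, abs_zero]
  exact hε.le

/-- conjugates of real orthogonals by `kap` -/
theorem AInv.kap {R : Matrix (Fin (m + 1)) (Fin (m + 1)) ℝ} (hR : R * Rᵀ = 1) :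
    AInv (m + 1) (kap m * cx R * kap' m) := by
  intro f hf δ ε hε
  obtain ⟨K1, hK1, h1⟩ := JJ_compare (m := m) (cont_act (Schur93.kap m * cx R * kap' m) hf)
    (ε := ε / 8) (by positivity)
  obtain ⟨K2, hK2, h2⟩ := JJ_compare (m := m) hf (ε := ε / 8) (by positivity)
  have hV0 : 0 ≤ V0 := variance_nonneg _ _
  obtain ⟨N0, hN0⟩ := exists_nat_gt ((K1 + K2) * (V0 + m + 4 + 2 * δ ^ 2) / (ε / 2))
  refine ⟨N0 + 1, fun n hn x hx hxd => ?_⟩
  have hn0 : 0 < n := by omega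
  have a1 := h1 n x hn0 (hx n)
  have a2 := h2 n x hn0 (hx n)
  have he : (fun U => f (Schur93.kap m * cx R * kap' m * (Schur93.kap m * U * Schur93.kap m) *
      (Schur93.kap m * cx R * kap' m)ᵀ)) =
      fun U => f (Schur93.kap m * (cx R * U * (cx R)ᵀ) * Schur93.kap m) := by
    funext U
    congr 1
    have h3 : (kap' m)ᵀ = kap' m := by simp [kap']
    rw [Matrix.transpose_mul, Matrix.transpose_mul, h3, kap_transpose]
    calc _ = Schur93.kap m * cx R * (kap' m * Schur93.kap m) * U * (Schur93.kap m * kap' m) *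
          ((cx R)ᵀ * Schur93.kap m) := by simp only [Matrix.mul_assoc]
      _ = _ := by
          rw [kap'_mul_kap, kap_mul_kap']
          simp only [Matrix.mul_assoc, Matrix.mul_one]
  rw [he] at a1
  have hf' : Continuous (fun U => f (Schur93.kap m * U * Schur93.kap m)) :=
    hf.comp ((continuous_const.mul continuous_id).mul continuous_const)
  have a3 := JJ_right (sc n) n (m + 1) x hf' R hR
  rw [a3] at a1
  have hx2 : x ^ 2 ≤ δ ^ 2 := by
    have h0 := abs_nonneg x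
    rw [← sq_abs x]
    exact pow_le_pow_left₀ h0 hxd 2
  have hnn : (0:ℝ) < (n:ℝ) + 1 := by positivity
  have hm0 : (0:ℝ) ≤ m := Nat.cast_nonneg m
  have hb : (K1 + K2) * (((n:ℝ) + 1)⁻¹ * (V0 + m + 4 + 2 * x ^ 2)) ≤ ε / 2 := by
    have hc : (K1 + K2) * (V0 + m + 4 + 2 * x ^ 2) ≤ (K1 + K2) * (V0 + m + 4 + 2 * δ ^ 2) :=
      mul_le_mul_of_nonneg_left (by linarith) (by positivity)
    have hN : (K1 + K2) * (V0 + m + 4 + 2 * δ ^ 2) ≤ (ε / 2) * ((n:ℝ) + 1) := by
      rw [div_lt_iff₀ (by positivity)] at hN0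
      have : (N0 : ℝ) ≤ (n:ℝ) + 1 := by
        have h5 : N0 ≤ n + 1 := by omega
        exact_mod_cast h5
      nlinarith
    calc _ = ((K1 + K2) * (V0 + m + 4 + 2 * x ^ 2)) / ((n:ℝ) + 1) := by
          field_simp
      _ ≤ ε / 2 := by
          rw [div_le_iff₀ hnn]
          linarith
  rw [abs_sub_comm] at a2
  have hsum := add_le_add a1 a2
  refine (abs_sub_le _ _ _).trans (hsum.trans ?_)
  nlinarith [hb]

/-- the reflection in `e_0 + 2 e_1`-type form: entries `3/5, -4/5; -4/5, -3/5` on the first two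
coordinates and the identity elsewhere. -/
noncomputable def R5 (m : ℕ) : Matrix (Fin (m + 2)) (Fin (m + 2)) ℝ :=
  1 - (2 / 5 : ℝ) • vecMulVec (Pi.single 0 1 + (2:ℝ) • Pi.single 1 1)
    (Pi.single 0 1 + (2:ℝ) • Pi.single 1 1)

lemma R5_orth : R5 m * (R5 m)ᵀ = 1 := by
  set u : Fin (m + 2) → ℝ := Pi.single 0 1 + (2:ℝ) • Pi.single 1 1 with hu
  have hT : (R5 m)ᵀ = R5 m := by
    unfold R5
    rw [Matrix.transpose_sub, Matrix.transpose_one, Matrix.transpose_smul]
    congr 2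
    ext i j
    simp [Matrix.vecMulVec_apply, mul_comm]
  have huu : u ⬝ᵥ u = 5 := by
    rw [hu, add_dotProduct, smul_dotProduct, single_dotProduct, single_dotProduct]
    simp
    norm_num
  rw [hT]
  have hP : vecMulVec u u * vecMulVec u u = (5:ℝ) • vecMulVec u u := by
    rw [Matrix.vecMulVec_mul_vecMulVec, huu]
    ext i j
    simp only [Matrix.vecMulVec_apply, Matrix.smul_apply, Pi.smul_apply, smul_eq_mul,
      MulOpposite.smul_eq_mul_unop, MulOpposite.unop_op]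
    ring
  unfold R5
  rw [← hu, Matrix.sub_mul, Matrix.mul_sub, Matrix.one_mul, Matrix.mul_sub, Matrix.mul_one,
    Matrix.smul_mul, Matrix.mul_smul, Matrix.mul_smul, hP, Matrix.one_mul]
  ext i j
  simp only [Matrix.sub_apply, Matrix.smul_apply, smul_eq_mul]
  ring

lemma kt_not_real : ¬ ∃ (c : ℂ) (O : Matrix (Fin (m + 2)) (Fin (m + 2)) ℝ),
    O ∈ orthogonalGroup (Fin (m + 2)) ℝ ∧
      Schur93.kap (m + 1) * cx (R5 m) * kap' (m + 1) = c • Gen85.toC O := by
  rintro ⟨c, O, _, h⟩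
  have h00 := congrFun (congrFun h 0) 0
  have h01 := congrFun (congrFun h 0) 1
  have h10 : (0 : Fin (m + 2)) ≠ 1 := by simp
  have e00 : (Schur93.kap (m + 1) * cx (R5 m) * kap' (m + 1)) 0 0 = 3 / 5 := by
    rw [Schur93.kap, kap', Matrix.mul_diagonal, Matrix.diagonal_mul]
    simp [kd, kd', CayDet93.cx, R5, Matrix.vecMulVec_apply]
    ring_nf
    simp
    norm_num
  have e01 : (Schur93.kap (m + 1) * cx (R5 m) * kap' (m + 1)) 0 1 = (4 / 5) * Complex.I := by
    rw [Schur93.kap, kap', Matrix.mul_diagonal, Matrix.diagonal_mul]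
    have hk : (kd' (m := m + 1)) 1 = 1 := rfl
    rw [hk]
    simp [kd, CayDet93.cx, R5, Matrix.vecMulVec_apply, Matrix.one_apply_ne h10]
    ring_nf
  rw [e00] at h00
  rw [e01] at h01
  simp only [Matrix.smul_apply, Gen85.toC_apply, smul_eq_mul] at h00 h01
  have hc : c ≠ 0 := by
    intro hc
    rw [hc, zero_mul] at h00
    norm_num at h00
  have hO0 : (O 0 0 : ℂ) ≠ 0 := by
    intro hc
    rw [hc, mul_zero] at h00
    norm_num at h00
  have hq : (O 0 1 : ℂ) / (O 0 0 : ℂ) = (4 / 3) * Complex.I := by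
    have h2 : (c * (O 0 1 : ℂ)) / (c * (O 0 0 : ℂ)) = (O 0 1 : ℂ) / (O 0 0 : ℂ) :=
      mul_div_mul_left _ _ hc
    rw [← h2, ← h01, ← h00]
    field_simp
  have him := congrArg Complex.im hq
  rw [← Complex.ofReal_div, Complex.ofReal_im] at him
  simp at him
  norm_num at him

/-- **Asymptotic invariance of `JJ` under `SU(m)`**. -/
theorem AInv_all (hm : 2 ≤ m) {V : Matrix (Fin m) (Fin m) ℂ} (hV : V ∈ unitaryGroup (Fin m) ℂ)
    (hdet : V.det = 1) : AInv m V := by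
  obtain ⟨m, rfl⟩ := Nat.exists_eq_add_of_le' hm
  have hmem : Schur93.kap (m + 1) * cx (R5 m) * kap' (m + 1) ∈ unitaryGroup (Fin (m + 2)) ℂ := by
    have h1 : kap' (m + 1) ∈ unitaryGroup (Fin (m + 2)) ℂ := by
      have h2 : (⟨Schur93.kap (m + 1), kap_mem⟩ : unitaryGroup (Fin (m + 2)) ℂ)⁻¹.1
          = kap' (m + 1) := by
        have h3 : (⟨Schur93.kap (m + 1), kap_mem⟩ : unitaryGroup (Fin (m + 2)) ℂ)⁻¹.1
          * Schur93.kap (m + 1) = 1 := congrArg Subtype.val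
            (inv_mul_cancel (⟨Schur93.kap (m + 1), kap_mem⟩ : unitaryGroup (Fin (m + 2)) ℂ))
        calc _ = (⟨Schur93.kap (m + 1), kap_mem⟩ : unitaryGroup (Fin (m + 2)) ℂ)⁻¹.1 *
              (Schur93.kap (m + 1) * kap' (m + 1)) := by rw [kap_mul_kap', Matrix.mul_one]
          _ = _ := by rw [← Matrix.mul_assoc, h3, Matrix.one_mul]
      rw [← h2]
      exact Subtype.mem _
    have h2 : cx (R5 m) ∈ unitaryGroup (Fin (m + 2)) ℂ := by
      rw [Matrix.mem_unitaryGroup_iff, Matrix.star_eq_conjTranspose]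
      have h3 : (cx (R5 m))ᴴ = cx (R5 m)ᵀ := by
        ext i j
        simp [CayDet93.cx]
      rw [h3, ← cx_mul, R5_orth, cx_one]
    exact mul_mem (mul_mem kap_mem h2) h1
  have hG := Gen85.gen (G := AStab (m + 2)) (V := V)
    (κ := Schur93.kap (m + 1) * cx (R5 m) * kap' (m + 1)) ?_ ?_ kt_not_real hV hdet
  · obtain ⟨h1, h2⟩ := hG
    exact h2
  · intro O hO
    refine ⟨Gen85.toC_mem hO, ?_⟩
    rw [mem_AStab]
    exact AInv.orth (Gen85.orth_mul hO)
  · refine ⟨hmem, ?_⟩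
    rw [mem_AStab]
    exact AInv.kap R5_orth

end stab

end Crest.Agent.R166.GoeInv93
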