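import Mathlib

/-!
Row 166 (helper583): Gaussian integration by parts (Stein's identity), complex valued,
one-dimensional and for `Measure.pi`.
-/

set_option autoImplicit false

open MeasureTheory ProbabilityTheory

namespace Crest.Agent.R166.Stein583

lemma hasDerivAt_pdf (t : ℝ) :
    HasDerivAt (fun t : ℝ => ((gaussianPDFReal 0 1 t : ℝ) : ℂ))
      (-((t : ℂ) * ((gaussianPDFReal 0 1 t : ℝ) : ℂ))) t := by
  have h0 : (fun t : ℝ => gaussianPDFReal 0 1 t) =
      fun t : ℝ => (Real.sqrt (2 * Real.pi))⁻¹ * Real.exp (-(t ^ 2) / 2) := by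
    ext x
    simp [gaussianPDFReal]
  have h1 : HasDerivAt (fun t : ℝ => gaussianPDFReal 0 1 t)
      (-(t * gaussianPDFReal 0 1 t)) t := by
    have h2 : gaussianPDFReal 0 1 t = (Real.sqrt (2 * Real.pi))⁻¹ * Real.exp (-(t ^ 2) / 2) :=
      congrFun h0 t
    rw [h0, h2]
    have h3 : HasDerivAt (fun t : ℝ => -(t ^ 2) / 2) (-t) t :=
      (((hasDerivAt_pow 2 t).neg).div_const 2).congr_deriv (by push_cast; ring)
    exact ((h3.exp).const_mul ((Real.sqrt (2 * Real.pi))⁻¹)).congr_deriv (by ring)
  exact h1.ofReal_comp.congr_deriv (by push_cast; ring)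

lemma integrable_mul_pdf : Integrable (fun t : ℝ => (t : ℂ) * ((gaussianPDFReal 0 1 t : ℝ) : ℂ)) := by
  have h := integrable_mul_exp_neg_mul_sq (b := 1 / 2) (by norm_num)
  have h2 : Integrable (fun t : ℝ =>
      (((Real.sqrt (2 * Real.pi))⁻¹ * (t * Real.exp (-(1 / 2) * t ^ 2)) : ℝ) : ℂ)) :=
    (h.const_mul ((Real.sqrt (2 * Real.pi))⁻¹)).ofReal
  refine h2.congr (Filter.Eventually.of_forall fun t => ?_)
  have e : -(t - 0) ^ 2 / (2 * ((1 : NNReal) : ℝ)) = -(1 / 2) * t ^ 2 := by
    rw [NNReal.coe_one]; ring
  simp only [gaussianPDFReal]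
  rw [e, NNReal.coe_one, mul_one]
  push_cast [-Complex.ofReal_exp]
  ring

/-- **One-dimensional Stein identity** for bounded functions with bounded derivative. -/
theorem stein1 {f f' : ℝ → ℂ} (hf : ∀ t, HasDerivAt f (f' t) t) {C : ℝ} (hC : ∀ t, ‖f t‖ ≤ C)
    {C' : ℝ} (hC' : ∀ t, ‖f' t‖ ≤ C') :
    ∫ t, (t : ℂ) * f t ∂(gaussianReal 0 1) = ∫ t, f' t ∂(gaussianReal 0 1) := by
  have hfc : Continuous f := continuous_iff_continuousAt.2 fun t => (hf t).continuousAt
  have hfm : AEStronglyMeasurable f volume := hfc.aestronglyMeasurable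
  have hf'm : AEStronglyMeasurable f' volume := by
    have : f' = deriv f := by ext t; exact ((hf t).deriv).symm
    rw [this]
    exact (measurable_deriv f).aestronglyMeasurable
  have hpdf : Integrable (fun t : ℝ => ((gaussianPDFReal 0 1 t : ℝ) : ℂ)) :=
    (integrable_gaussianPDFReal 0 1).ofReal
  have hpdfm : AEStronglyMeasurable (fun t : ℝ => ((gaussianPDFReal 0 1 t : ℝ) : ℂ)) volume :=
    hpdf.aestronglyMeasurable
  have e := integral_mul_deriv_eq_deriv_mul_of_integrable (u := f) (u' := f')
    (v := fun t : ℝ => ((gaussianPDFReal 0 1 t : ℝ) : ℂ))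
    (v' := fun t : ℝ => -((t : ℂ) * ((gaussianPDFReal 0 1 t : ℝ) : ℂ)))
    (fun t _ => hf t) (fun t _ => hasDerivAt_pdf t)
    (by
      refine (integrable_mul_pdf.neg.bdd_mul (c := C) hfm ?_)
      exact Filter.Eventually.of_forall hC)
    (by
      refine (hpdf.bdd_mul (c := C') hf'm ?_)
      exact Filter.Eventually.of_forall hC')
    (by
      refine (hpdf.bdd_mul (c := C) hfm ?_)
      exact Filter.Eventually.of_forall hC)
  rw [integral_gaussianReal_eq_integral_smul one_ne_zero,
    integral_gaussianReal_eq_integral_smul one_ne_zero]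
  have e1 : ∫ t, gaussianPDFReal 0 1 t • ((t : ℂ) * f t) =
      - ∫ t, f t * -((t : ℂ) * ((gaussianPDFReal 0 1 t : ℝ) : ℂ)) := by
    rw [← integral_neg]
    congr 1
    ext t
    rw [Complex.real_smul]
    ring
  rw [e1, e, neg_neg]
  congr 1
  ext t
  rw [Complex.real_smul]
  ring

variable {κ : Type*} [Fintype κ] [DecidableEq κ]

/-- replacing one coordinate by an independent copy preserves the product law -/
lemma map_update (k : κ) :
    ((gaussianReal 0 1).prod (Measure.pi fun _ : κ => gaussianReal 0 1)).map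
      (fun p : ℝ × (κ → ℝ) => Function.update p.2 k p.1) =
      Measure.pi fun _ : κ => gaussianReal 0 1 := by
  symm
  apply Measure.pi_eq
  intro s hs
  have hmeas : Measurable (fun p : ℝ × (κ → ℝ) => Function.update p.2 k p.1) := by
    refine measurable_pi_lambda _ fun j => ?_
    by_cases h : j = k
    · subst h
      simpa using measurable_fst
    · simp only [Function.update_of_ne h]
      exact (measurable_pi_apply j).comp measurable_snd
  rw [Measure.map_apply hmeas (MeasurableSet.univ_pi hs)]
  have hpre : (fun p : ℝ × (κ → ℝ) => Function.update p.2 k p.1) ⁻¹' (Set.univ.pi s) =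
      (s k) ×ˢ (Set.univ.pi fun j => if j = k then Set.univ else s j) := by
    ext ⟨t, x⟩
    simp only [Set.mem_preimage, Set.mem_pi, Set.mem_univ, true_implies, Set.mem_prod]
    constructor
    · intro h
      refine ⟨by simpa using h k, fun j => ?_⟩
      by_cases hj : j = k
      · simp [hj]
      · simpa [hj] using h j
    · rintro ⟨h1, h2⟩ j
      by_cases hj : j = k
      · subst hj; simpa using h1
      · have := h2 j
        simpa [hj] using this
  rw [hpre, Measure.prod_prod, Measure.pi_pi]
  rw [← Finset.mul_prod_erase Finset.univ _ (Finset.mem_univ k),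
    ← Finset.mul_prod_erase Finset.univ (fun i => (gaussianReal 0 1) (s i)) (Finset.mem_univ k)]
  simp only [if_true, measure_univ, one_mul]
  congr 1
  refine Finset.prod_congr rfl fun j hj => ?_
  rw [if_neg (Finset.ne_of_mem_erase hj)]

omit [Fintype κ] in
lemma measurable_update' (k : κ) :
    Measurable (fun p : ℝ × (κ → ℝ) => Function.update p.2 k p.1) := by
  refine measurable_pi_lambda _ fun j => ?_
  by_cases h : j = k
  · subst h
    simpa using measurable_fst
  · simp only [Function.update_of_ne h]
    exact (measurable_pi_apply j).comp measurable_snd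

/-- **Stein identity** in the coordinate `k` of a standard Gaussian vector. -/
theorem stein (k : κ) {F F' : (κ → ℝ) → ℂ} (hFm : Measurable F) (hF'm : Measurable F')
    (hF : ∀ x, HasDerivAt (fun t => F (Function.update x k t)) (F' x) (x k))
    {C C' : ℝ} (hC : ∀ x, ‖F x‖ ≤ C) (hC' : ∀ x, ‖F' x‖ ≤ C') :
    ∫ x, ((x k : ℝ) : ℂ) * F x ∂(Measure.pi fun _ : κ => gaussianReal 0 1) =
      ∫ x, F' x ∂(Measure.pi fun _ : κ => gaussianReal 0 1) := by
  set P : Measure (κ → ℝ) := Measure.pi fun _ : κ => gaussianReal 0 1 with hP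
  have hu := measurable_update' (κ := κ) k
  -- integrability of the coordinate
  have hint1 : Integrable (fun t : ℝ => (t : ℂ)) (gaussianReal 0 1) := by
    have h := (memLp_id_gaussianReal (μ := 0) (v := 1) 1)
    have h2 : Integrable (fun t : ℝ => t) (gaussianReal 0 1) := by
      exact (memLp_one_iff_integrable.1 (by simpa using h) : Integrable (id : ℝ → ℝ) (gaussianReal 0 1))
    exact h2.ofReal
  have hA : Integrable (fun p : ℝ × (κ → ℝ) => (p.1 : ℂ) * F (Function.update p.2 k p.1))
      ((gaussianReal 0 1).prod P) := by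
    have h1 : Integrable (fun p : ℝ × (κ → ℝ) => (p.1 : ℂ)) ((gaussianReal 0 1).prod P) :=
      hint1.comp_fst P
    have h2 := h1.bdd_mul (c := C) (f := fun p : ℝ × (κ → ℝ) => F (Function.update p.2 k p.1))
      (hFm.comp hu).aestronglyMeasurable (Filter.Eventually.of_forall fun p => hC _)
    refine h2.congr (Filter.Eventually.of_forall fun p => ?_)
    simp only
    ring
  have hB : Integrable (fun p : ℝ × (κ → ℝ) => F' (Function.update p.2 k p.1))
      ((gaussianReal 0 1).prod P) := by
    refine Integrable.of_bound (hF'm.comp hu).aestronglyMeasurable C'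
      (Filter.Eventually.of_forall fun p => hC' _)
  have e1 : ∫ x, ((x k : ℝ) : ℂ) * F x ∂P =
      ∫ p, ((p.1 : ℝ) : ℂ) * F (Function.update p.2 k p.1) ∂((gaussianReal 0 1).prod P) := by
    conv_lhs => rw [hP, ← map_update (κ := κ) k]
    rw [integral_map hu.aemeasurable]
    · refine integral_congr_ae (Filter.Eventually.of_forall fun p => ?_)
      simp
    · exact ((Complex.measurable_ofReal.comp (measurable_pi_apply k)).mul hFm).aestronglyMeasurable
  have e2 : ∫ x, F' x ∂P =
      ∫ p, F' (Function.update p.2 k p.1) ∂((gaussianReal 0 1).prod P) := by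
    conv_lhs => rw [hP, ← map_update (κ := κ) k]
    rw [integral_map hu.aemeasurable hF'm.aestronglyMeasurable]
  rw [e1, e2, integral_prod_symm _ hA, integral_prod_symm _ hB]
  refine integral_congr_ae (Filter.Eventually.of_forall fun y => ?_)
  simp only
  refine stein1 (f := fun t => F (Function.update y k t))
    (f' := fun t => F' (Function.update y k t)) (fun t => ?_) (C := C) (fun t => hC _)
    (C' := C') (fun t => hC' _)
  have := hF (Function.update y k t)
  simpa using this

end Crest.Agent.R166.Stein583
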