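import Crest.Agent.R166.Spine_419
import Crest.Agent.R166.Res_789
import Crest.Agent.R166.Gauss_286
import Crest.Agent.R166.Stein_583

/-!
Row 166 (helper583), section 60.1: the local law for the GOE at energy `0` down to the scale
`η = K / n`, by Gaussian integration by parts: for `P = 1 + z m + m²`,
`E |P|² ≤ 60 / K²` for `K ≥ 10`, `K ≤ n`.
-/

set_option autoImplicit false

open MeasureTheory ProbabilityTheory Matrix
open Crest.ProbabilityR.RandomMatrix

namespace Crest.Agent.R166.Goe583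

open Res789 (cx imM)

/-! ### deterministic facts on resolvents -/

section det

variable {V : Type*} [Fintype V] [DecidableEq V]

/-- squared Hilbert–Schmidt norm -/
noncomputable def hs (M : Matrix V V ℂ) : ℝ := ∑ i, ∑ j, ‖M i j‖ ^ 2

lemma ward_diag {H : Matrix V V ℝ} (hH : Hᵀ = H) {z : ℂ} (hz : 0 < z.im) (i : V) :
    (Res789.Res H z i i).im = z.im * ∑ j, ‖Res789.Res H z i j‖ ^ 2 := by
  have h := congrFun (congrFun (Res789.ward hH hz) i) i
  simp only [Res789.cx_apply, Res789.imM_apply, Matrix.smul_apply, Matrix.mul_apply,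
    Matrix.conjTranspose_apply, smul_eq_mul] at h
  have h2 : ∀ j, Res789.Res H z i j * star (Res789.Res H z i j) =
      ((‖Res789.Res H z i j‖ ^ 2 : ℝ) : ℂ) := by
    intro j
    rw [Complex.star_def, Complex.mul_conj, Complex.normSq_eq_norm_sq]
  simp only [h2] at h
  have h3 := congrArg Complex.re h
  rw [← Complex.ofReal_sum, ← Complex.ofReal_mul, Complex.ofReal_re, Complex.ofReal_re] at h3
  exact h3

lemma hs_res {H : Matrix V V ℝ} (hH : Hᵀ = H) {z : ℂ} (hz : 0 < z.im) :
    z.im * hs (Res789.Res H z) = (Res789.Res H z).trace.im := by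
  unfold hs
  rw [Finset.mul_sum, Matrix.trace, Complex.im_sum]
  exact Finset.sum_congr rfl fun i _ => (ward_diag hH hz i).symm

lemma norm_res_le {H : Matrix V V ℝ} (hH : Hᵀ = H) {z : ℂ} (hz : 0 < z.im) (i j : V) :
    ‖Res789.Res H z i j‖ ≤ 1 / z.im := by
  have hd : ∀ i j, ‖Res789.Res H z i j‖ ^ 2 ≤ ∑ j, ‖Res789.Res H z i j‖ ^ 2 := fun i j =>
    Finset.single_le_sum (f := fun j => ‖Res789.Res H z i j‖ ^ 2)
      (fun _ _ => by positivity) (Finset.mem_univ j)
  have h1 : ∀ i, z.im * ∑ j, ‖Res789.Res H z i j‖ ^ 2 ≤ ‖Res789.Res H z i i‖ := fun i => by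
    rw [← ward_diag hH hz i]
    exact (le_abs_self _).trans (Complex.abs_im_le_norm _)
  have h2 : ∀ i, ‖Res789.Res H z i i‖ ≤ 1 / z.im := by
    intro i
    rw [le_div_iff₀ hz]
    by_contra hcon
    push Not at hcon
    have h3 := h1 i
    have h4 := mul_le_mul_of_nonneg_left (hd i i) hz.le
    have h5 : 0 < ‖Res789.Res H z i i‖ := by
      by_contra h6
      have : ‖Res789.Res H z i i‖ = 0 := le_antisymm (not_lt.1 h6) (norm_nonneg _)
      rw [this] at hcon
      linarith
    nlinarith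
  have h6 : ‖Res789.Res H z i j‖ ^ 2 ≤ (1 / z.im) ^ 2 := by
    have h7 := h1 i
    have h8 := h2 i
    have h9 := hd i j
    have : z.im * ‖Res789.Res H z i j‖ ^ 2 ≤ 1 / z.im := by
      nlinarith [mul_le_mul_of_nonneg_left h9 hz.le]
    rw [one_div, inv_pow, ← one_div, le_div_iff₀ (by positivity)]
    rw [le_div_iff₀ hz] at this
    nlinarith
  exact (pow_le_pow_iff_left₀ (norm_nonneg _) (by positivity) two_ne_zero).1 h6

lemma norm_trace_mul_le {H : Matrix V V ℝ} (hH : Hᵀ = H) {z : ℂ} (hz : 0 < z.im) :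
    ‖(Res789.Res H z * Res789.Res H z).trace‖ ≤ hs (Res789.Res H z) := by
  have hT : ∀ i j, Res789.Res H z j i = Res789.Res H z i j := fun i j => by
    have := congrFun (congrFun (Res789.Res_transpose hH hz) i) j
    simpa using this
  simp only [Matrix.trace, Matrix.diag, Matrix.mul_apply, hs]
  refine (norm_sum_le _ _).trans (Finset.sum_le_sum fun i _ => ?_)
  refine (norm_sum_le _ _).trans (Finset.sum_le_sum fun j _ => ?_)
  rw [hT i j, norm_mul, sq]

/-- `Tr (R R^* R^*)` -/
lemma norm_trace_mul3_le {H : Matrix V V ℝ} (hH : Hᵀ = H) {z : ℂ} (hz : 0 < z.im) :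
    ‖(Res789.Res H z * ((Res789.Res H z)ᴴ * (Res789.Res H z)ᴴ)).trace‖ ≤
      hs (Res789.Res H z) / z.im := by
  have hne : (z.im : ℂ) ≠ 0 := by exact_mod_cast hz.ne'
  have h1 : Res789.Res H z * (Res789.Res H z)ᴴ = ((z.im : ℂ)⁻¹) • cx (imM (Res789.Res H z)) := by
    rw [Res789.ward hH hz, smul_smul, inv_mul_cancel₀ hne, one_smul]
  rw [← mul_assoc, h1, smul_mul_assoc, Matrix.trace_smul, norm_smul, norm_inv, Complex.norm_real,
    Real.norm_of_nonneg hz.le, div_eq_inv_mul]
  refine mul_le_mul_of_nonneg_left ?_ (by positivity)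
  simp only [Matrix.trace, Matrix.diag, Matrix.mul_apply, hs, Matrix.conjTranspose_apply,
    Res789.cx_apply, Res789.imM_apply]
  refine (norm_sum_le _ _).trans (Finset.sum_le_sum fun i _ => ?_)
  refine (norm_sum_le _ _).trans (Finset.sum_le_sum fun j _ => ?_)
  rw [norm_mul, norm_star, Complex.norm_real, sq]
  exact mul_le_mul_of_nonneg_right (Complex.abs_im_le_norm _) (norm_nonneg _)

/-- second resolvent identity -/
lemma res_sub_res {H H' : Matrix V V ℝ} (hH : Hᵀ = H) (hH' : H'ᵀ = H') {z : ℂ} (hz : 0 < z.im) :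
    Res789.Res H' z - Res789.Res H z = - (Res789.Res H' z * cx (H' - H) * Res789.Res H z) := by
  have h1 := Res789.Res_mul_sub hH' hz
  have h2 := Res789.sub_mul_Res hH hz
  have h3 : cx (H' - H) = (cx H' - z • (1 : Matrix V V ℂ)) - (cx H - z • 1) := by
    rw [Res789.cx_sub]; abel
  rw [h3, mul_sub, sub_mul, h1, one_mul, mul_assoc _ _ (Res789.Res H z), h2, mul_one]
  abel

end det

/-! ### the GOE matrix as a linear function of the disorder -/

section goe

variable {n : ℕ}

/-- GOE matrix as a function of the uncurried disorder -/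
noncomputable def Hx (x : Fin n × Fin n → ℝ) : Matrix (Fin n) (Fin n) ℝ :=
  goeMatrix fun i j => x (i, j)

/-- sorted pair -/
def srt (i j : Fin n) : Fin n × Fin n := if i ≤ j then (i, j) else (j, i)

/-- weight -/
noncomputable def wt (i j : Fin n) : ℝ := if i = j then Real.sqrt 2 / Real.sqrt n
  else 1 / Real.sqrt n

lemma Hx_apply (x : Fin n × Fin n → ℝ) (i j : Fin n) : Hx x i j = wt i j * x (srt i j) := by
  unfold Hx goeMatrix wt srt
  by_cases h : i = j
  · subst h
    simp only [if_true, le_refl]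
    ring
  · by_cases h2 : i < j
    · simp only [h, h2, h2.le, if_true, if_false]
      ring
    · have h3 : ¬ i ≤ j := fun h4 => h2 (lt_of_le_of_ne h4 h)
      simp only [h, h2, h3, if_false]
      ring

lemma srt_comm (i j : Fin n) : srt i j = srt j i := by
  unfold srt
  by_cases h : i ≤ j
  · by_cases h2 : j ≤ i
    · have := le_antisymm h h2
      subst this
      rfl
    · rw [if_pos h, if_neg h2]
  · have h2 : j ≤ i := le_of_not_ge h
    rw [if_neg h, if_pos h2]

lemma wt_comm (i j : Fin n) : wt i j = wt j i := by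
  unfold wt
  simp only [eq_comm]

lemma Hx_symm (x : Fin n × Fin n → ℝ) : (Hx x)ᵀ = Hx x := by
  ext i j
  rw [Matrix.transpose_apply, Hx_apply, Hx_apply, srt_comm, wt_comm]

/-- the direction of the coordinate `p` -/
noncomputable def Ap (p : Fin n × Fin n) : Matrix (Fin n) (Fin n) ℝ :=
  Matrix.of fun i j => wt i j * if srt i j = p then 1 else 0

lemma Ap_apply (p : Fin n × Fin n) (i j : Fin n) :
    Ap p i j = wt i j * if srt i j = p then 1 else 0 := rfl

lemma Ap_symm (p : Fin n × Fin n) : (Ap p)ᵀ = Ap p := by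
  ext i j
  rw [Matrix.transpose_apply, Ap_apply, Ap_apply, srt_comm, wt_comm]

lemma Hx_update (x : Fin n × Fin n → ℝ) (p : Fin n × Fin n) (t : ℝ) :
    Hx (Function.update x p t) = Hx x + (t - x p) • Ap p := by
  ext i j
  rw [Matrix.add_apply, Matrix.smul_apply, Hx_apply, Hx_apply, Ap_apply, smul_eq_mul]
  by_cases h : srt i j = p
  · subst h
    rw [Function.update_self, if_pos rfl]
    ring
  · rw [Function.update_of_ne h, if_neg h]
    ring

lemma Hx_sum (x : Fin n × Fin n → ℝ) (i j : Fin n) : Hx x i j = ∑ p, x p * Ap p i j := by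
  simp only [Ap_apply, Hx_apply]
  rw [Finset.sum_eq_single (srt i j)]
  · simp
    ring
  · intro b _ hb
    rw [if_neg (Ne.symm hb)]
    ring
  · simp

lemma srt_eq_iff (a b c d : Fin n) : srt a b = srt c d ↔ (a = c ∧ b = d) ∨ (a = d ∧ b = c) := by
  unfold srt
  constructor
  · intro h
    by_cases h1 : a ≤ b
    · by_cases h2 : c ≤ d
      · rw [if_pos h1, if_pos h2] at h
        exact Or.inl ⟨congrArg Prod.fst h, congrArg Prod.snd h⟩
      · rw [if_pos h1, if_neg h2] at h
        exact Or.inr ⟨congrArg Prod.fst h, congrArg Prod.snd h⟩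
    · by_cases h2 : c ≤ d
      · rw [if_neg h1, if_pos h2] at h
        exact Or.inr ⟨congrArg Prod.snd h, congrArg Prod.fst h⟩
      · rw [if_neg h1, if_neg h2] at h
        exact Or.inl ⟨congrArg Prod.snd h, congrArg Prod.fst h⟩
  · rintro (⟨rfl, rfl⟩ | ⟨rfl, rfl⟩)
    · rfl
    · exact srt_comm a b

/-- covariance structure of the GOE -/
lemma cov (hn : 0 < n) (a b c d : Fin n) : ∑ p, Ap p a b * Ap p c d =
    (1 / (n : ℝ)) * ((if a = c ∧ b = d then 1 else 0) + (if a = d ∧ b = c then 1 else 0)) := by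
  have hn' : (0 : ℝ) < n := by exact_mod_cast hn
  have h1 : ∑ p, Ap p a b * Ap p c d = wt a b * wt c d * if srt a b = srt c d then 1 else 0 := by
    simp only [Ap_apply]
    rw [Finset.sum_eq_single (srt c d)]
    · by_cases h : srt a b = srt c d
      · simp [h]
      · simp [h]
    · intro p _ hp
      rw [if_neg (c := srt c d = p) (Ne.symm hp)]
      ring
    · simp
  rw [h1]
  have hs2 : Real.sqrt 2 * Real.sqrt 2 = 2 := Real.mul_self_sqrt (by norm_num)
  have hsn : Real.sqrt n * Real.sqrt n = n := Real.mul_self_sqrt hn'.le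
  have hsn0 : Real.sqrt n ≠ 0 := (Real.sqrt_pos.2 hn').ne'
  have hw1 : Real.sqrt 2 / Real.sqrt n * (Real.sqrt 2 / Real.sqrt n) = (1 / (n : ℝ)) * 2 := by
    rw [div_mul_div_comm, hs2, hsn]; ring
  have hw2 : 1 / Real.sqrt n * (1 / Real.sqrt n) = (1 / (n : ℝ)) := by
    rw [div_mul_div_comm, hsn]; ring
  by_cases h : srt a b = srt c d
  · rw [if_pos h]
    rcases (srt_eq_iff a b c d).1 h with ⟨rfl, rfl⟩ | ⟨rfl, rfl⟩
    · by_cases hab : a = b
      · subst hab
        simp only [wt, if_true, and_self, mul_one]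
        rw [hw1]; norm_num
      · have : ¬ (a = b ∧ b = a) := fun h => hab h.1
        simp only [wt, if_neg hab, if_neg this, and_self, if_true, mul_one, add_zero]
        exact hw2
    · by_cases hab : a = b
      · subst hab
        simp only [wt, if_true, and_self, mul_one]
        rw [hw1]; norm_num
      · have h2 : ¬ (a = b ∧ b = a) := fun h => hab h.1
        have h3 : ¬ (b = a) := fun h => hab h.symm
        simp only [wt, if_neg hab, if_neg h3, if_neg h2, and_self, if_true, mul_one, zero_add]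
        exact hw2
  · rw [if_neg h]
    have h2 := fun h' => h ((srt_eq_iff a b c d).2 h')
    rw [if_neg (fun h' => h2 (Or.inl h')), if_neg (fun h' => h2 (Or.inr h'))]
    ring

lemma covC (hn : 0 < n) (a b c d : Fin n) : ∑ p, ((Ap p a b : ℝ) : ℂ) * ((Ap p c d : ℝ) : ℂ) =
    (1 / (n : ℂ)) * ((if a = c ∧ b = d then 1 else 0) + (if a = d ∧ b = c then 1 else 0)) := by
  have h : ((∑ p, Ap p a b * Ap p c d : ℝ) : ℂ) = (((1 / (n : ℝ)) *
      ((if a = c ∧ b = d then 1 else 0) + (if a = d ∧ b = c then 1 else 0)) : ℝ) : ℂ) := by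
    rw [cov hn a b c d]
  push_cast at h
  rw [h]
  split_ifs <;> simp

lemma sum_trace_four (hn : 0 < n) (X Y : Matrix (Fin n) (Fin n) ℂ) :
    ∑ p, (cx (Ap p) * X * cx (Ap p) * Y).trace =
      (1 / (n : ℂ)) * (X.trace * Y.trace + (X * Yᵀ).trace) := by
  have h1 : ∀ p : Fin n × Fin n, (cx (Ap p) * X * cx (Ap p) * Y).trace =
      ∑ a, ∑ d, ∑ c, ∑ b, (((Ap p a b : ℝ) : ℂ) * ((Ap p c d : ℝ) : ℂ)) * (X b c * Y d a) := by
    intro p
    simp only [Matrix.trace, Matrix.diag, Matrix.mul_apply, Finset.sum_mul, Res789.cx_apply]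
    refine Finset.sum_congr rfl fun a _ => Finset.sum_congr rfl fun d _ =>
      Finset.sum_congr rfl fun c _ => Finset.sum_congr rfl fun b _ => by ring
  simp only [h1]
  rw [Finset.sum_comm]
  have h2 : ∀ a : Fin n, ∑ p : Fin n × Fin n, ∑ d, ∑ c, ∑ b,
      (((Ap p a b : ℝ) : ℂ) * ((Ap p c d : ℝ) : ℂ)) * (X b c * Y d a) =
      ∑ d, ∑ c, ∑ b, (1 / (n : ℂ)) * ((if a = c ∧ b = d then 1 else 0) +
        (if a = d ∧ b = c then 1 else 0)) * (X b c * Y d a) := by
    intro a
    rw [Finset.sum_comm]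
    refine Finset.sum_congr rfl fun d _ => ?_
    rw [Finset.sum_comm]
    refine Finset.sum_congr rfl fun c _ => ?_
    rw [Finset.sum_comm]
    refine Finset.sum_congr rfl fun b _ => ?_
    rw [← Finset.sum_mul, covC hn]
  simp only [h2]
  simp only [mul_add, add_mul, Finset.sum_add_distrib]
  rw [add_comm]
  congr 1
  · simp only [ite_and, Matrix.trace, Matrix.diag, mul_ite, ite_mul, mul_one, mul_zero, zero_mul,
      Finset.sum_ite_eq, Finset.sum_ite_eq', Finset.mem_univ, if_true, Finset.sum_ite_irrel,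
      Finset.sum_const_zero]
    rw [Finset.sum_mul_sum, Finset.mul_sum, Finset.sum_comm]
    refine Finset.sum_congr rfl fun a _ => ?_
    rw [Finset.mul_sum]
  · simp only [ite_and, Matrix.trace, Matrix.diag, mul_ite, ite_mul, mul_one, mul_zero, zero_mul,
      Finset.sum_ite_eq, Finset.sum_ite_eq', Finset.mem_univ, if_true, Finset.sum_ite_irrel,
      Finset.sum_const_zero, Matrix.mul_apply, Matrix.transpose_apply]
    rw [Finset.mul_sum, Finset.sum_comm]
    refine Finset.sum_congr rfl fun a _ => ?_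
    rw [Finset.mul_sum]

lemma sum_trace_two (hn : 0 < n) (X Y : Matrix (Fin n) (Fin n) ℂ) :
    ∑ p, (cx (Ap p) * X).trace * (cx (Ap p) * Y).trace =
      (1 / (n : ℂ)) * ((X * Yᵀ).trace + (X * Y).trace) := by
  have h1 : ∀ p : Fin n × Fin n, (cx (Ap p) * X).trace * (cx (Ap p) * Y).trace =
      ∑ a, ∑ b, ∑ c, ∑ d, (((Ap p a b : ℝ) : ℂ) * ((Ap p c d : ℝ) : ℂ)) * (X b a * Y d c) := by
    intro p
    simp only [Matrix.trace, Matrix.diag, Matrix.mul_apply, Res789.cx_apply]
    rw [Finset.sum_mul]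
    refine Finset.sum_congr rfl fun a _ => ?_
    rw [Finset.sum_mul]
    refine Finset.sum_congr rfl fun b _ => ?_
    rw [Finset.mul_sum]
    refine Finset.sum_congr rfl fun c _ => ?_
    rw [Finset.mul_sum]
    refine Finset.sum_congr rfl fun d _ => by ring
  simp only [h1]
  rw [Finset.sum_comm]
  have h2 : ∀ a : Fin n, ∑ p : Fin n × Fin n, ∑ b, ∑ c, ∑ d,
      (((Ap p a b : ℝ) : ℂ) * ((Ap p c d : ℝ) : ℂ)) * (X b a * Y d c) =
      ∑ b, ∑ c, ∑ d, (1 / (n : ℂ)) * ((if a = c ∧ b = d then 1 else 0) +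
        (if a = d ∧ b = c then 1 else 0)) * (X b a * Y d c) := by
    intro a
    rw [Finset.sum_comm]
    refine Finset.sum_congr rfl fun b _ => ?_
    rw [Finset.sum_comm]
    refine Finset.sum_congr rfl fun c _ => ?_
    rw [Finset.sum_comm]
    refine Finset.sum_congr rfl fun d _ => ?_
    rw [← Finset.sum_mul, covC hn]
  simp only [h2]
  simp only [mul_add, add_mul, Finset.sum_add_distrib]
  congr 1
  · simp only [ite_and, Matrix.trace, Matrix.diag, mul_ite, ite_mul, mul_one, mul_zero, zero_mul,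
      Finset.sum_ite_eq, Finset.sum_ite_eq', Finset.mem_univ, if_true, Finset.sum_ite_irrel,
      Finset.sum_const_zero, Matrix.mul_apply, Matrix.transpose_apply]
    rw [Finset.mul_sum, Finset.sum_comm]
    refine Finset.sum_congr rfl fun a _ => ?_
    rw [Finset.mul_sum]
  · simp only [ite_and, Matrix.trace, Matrix.diag, mul_ite, ite_mul, mul_one, mul_zero, zero_mul,
      Finset.sum_ite_eq, Finset.sum_ite_eq', Finset.mem_univ, if_true, Finset.sum_ite_irrel,
      Finset.sum_const_zero, Matrix.mul_apply]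
    rw [Finset.mul_sum, Finset.sum_comm]
    refine Finset.sum_congr rfl fun a _ => ?_
    rw [Finset.mul_sum]

end goe

end Crest.Agent.R166.Goe583
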