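import Crest.Agent.R166.GoeLL_583

/-!
Row 166 (helper583), section 60.1, part 2: Gaussian integration by parts for the resolvent of
the GOE, `ImLimO`.
-/

set_option autoImplicit false

open MeasureTheory ProbabilityTheory Matrix
open Crest.ProbabilityR.RandomMatrix

namespace Crest.Agent.R166.Goe583

open Res789 (cx imM)

/-! ### bounded continuous functions -/

section nice

variable {X : Type*} [TopologicalSpace X]

/-- bounded and continuous -/
def Nice (f : X → ℂ) : Prop := Continuous f ∧ ∃ C : ℝ, ∀ x, ‖f x‖ ≤ C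

lemma Nice.const (c : ℂ) : Nice (fun _ : X => c) := ⟨continuous_const, ‖c‖, fun _ => le_rfl⟩

lemma Nice.add {f g : X → ℂ} (hf : Nice f) (hg : Nice g) : Nice (fun x => f x + g x) := by
  obtain ⟨h1, C, h2⟩ := hf
  obtain ⟨h3, D, h4⟩ := hg
  exact ⟨h1.add h3, C + D, fun x => (norm_add_le _ _).trans (add_le_add (h2 x) (h4 x))⟩

lemma Nice.mul {f g : X → ℂ} (hf : Nice f) (hg : Nice g) : Nice (fun x => f x * g x) := by
  obtain ⟨h1, C, h2⟩ := hf
  obtain ⟨h3, D, h4⟩ := hg
  refine ⟨h1.mul h3, |C| * |D|, fun x => ?_⟩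
  rw [norm_mul]
  exact mul_le_mul ((h2 x).trans (le_abs_self _)) ((h4 x).trans (le_abs_self _)) (norm_nonneg _)
    (abs_nonneg _)

lemma Nice.neg {f : X → ℂ} (hf : Nice f) : Nice (fun x => - f x) := by
  obtain ⟨h1, C, h2⟩ := hf
  exact ⟨h1.neg, C, fun x => by rw [norm_neg]; exact h2 x⟩

lemma Nice.star {f : X → ℂ} (hf : Nice f) : Nice (fun x => star (f x)) := by
  obtain ⟨h1, C, h2⟩ := hf
  exact ⟨h1.star, C, fun x => by rw [norm_star]; exact h2 x⟩

lemma Nice.sum {ι : Type*} (s : Finset ι) {f : ι → X → ℂ} (hf : ∀ i ∈ s, Nice (f i)) :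
    Nice (fun x => ∑ i ∈ s, f i x) := by
  classical
  induction s using Finset.induction_on with
  | empty => simpa using Nice.const 0
  | insert a s ha ih =>
    have h1 := (hf a (Finset.mem_insert_self a s)).add
      (ih fun i hi => hf i (Finset.mem_insert_of_mem hi))
    refine (?_ : (fun x => f a x + ∑ i ∈ s, f i x) = fun x => ∑ i ∈ insert a s, f i x) ▸ h1
    ext x
    rw [Finset.sum_insert ha]

lemma Nice.integrable [MeasurableSpace X] [OpensMeasurableSpace X] {f : X → ℂ} (hf : Nice f)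
    (μ : Measure X) [IsFiniteMeasure μ] : Integrable f μ := by
  obtain ⟨h1, C, h2⟩ := hf
  refine Integrable.of_bound ?_ C (Filter.Eventually.of_forall h2)
  exact h1.measurable.aestronglyMeasurable

/-- matrices with bounded continuous entries -/
def NiceM {V : Type*} (M : X → Matrix V V ℂ) : Prop := ∀ i j, Nice fun x => M x i j

variable {V : Type*} [Fintype V] [DecidableEq V]

lemma NiceM.const (M : Matrix V V ℂ) : NiceM (fun _ : X => M) := fun _ _ => Nice.const _

lemma NiceM.mul {M N : X → Matrix V V ℂ} (hM : NiceM M) (hN : NiceM N) :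
    NiceM fun x => M x * N x := fun i j => by
  simp only [Matrix.mul_apply]
  exact Nice.sum _ fun k _ => (hM i k).mul (hN k j)

lemma NiceM.conjTranspose {M : X → Matrix V V ℂ} (hM : NiceM M) :
    NiceM fun x => (M x)ᴴ := fun i j => by
  simp only [Matrix.conjTranspose_apply]
  exact (hM j i).star

lemma NiceM.trace {M : X → Matrix V V ℂ} (hM : NiceM M) : Nice fun x => (M x).trace := by
  simp only [Matrix.trace, Matrix.diag]
  exact Nice.sum _ fun i _ => hM i i

end nice

section goe

variable {n : ℕ}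

/-- resolvent of the GOE matrix as a function of the disorder -/
noncomputable def Rx (z : ℂ) (x : Fin n × Fin n → ℝ) : Matrix (Fin n) (Fin n) ℂ :=
  Res789.Res (Hx x) z

lemma Rx_transpose {z : ℂ} (hz : 0 < z.im) (x : Fin n × Fin n → ℝ) : (Rx z x)ᵀ = Rx z x :=
  Res789.Res_transpose (Hx_symm x) hz

lemma Rx_conj_transpose {z : ℂ} (hz : 0 < z.im) (x : Fin n × Fin n → ℝ) :
    ((Rx z x)ᴴ)ᵀ = (Rx z x)ᴴ := by
  ext i j
  have h := congrFun (congrFun (Rx_transpose hz x) i) j
  rw [Matrix.transpose_apply] at h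
  rw [Matrix.transpose_apply, Matrix.conjTranspose_apply, Matrix.conjTranspose_apply, h]

lemma continuous_Hx : Continuous fun x : Fin n × Fin n → ℝ => Hx x := by
  refine continuous_matrix fun i j => ?_
  simp only [Hx_apply]
  exact continuous_const.mul (continuous_apply _)

lemma continuous_Rx {z : ℂ} (hz : 0 < z.im) : Continuous fun x : Fin n × Fin n → ℝ => Rx z x := by
  have h1 : Continuous fun x : Fin n × Fin n → ℝ => cx (Hx x) - z • (1 : Matrix (Fin n) (Fin n) ℂ) := by
    refine Continuous.sub ?_ continuous_const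
    exact continuous_matrix fun i j => by
      simp only [Res789.cx_apply]
      exact Complex.continuous_ofReal.comp (continuous_Hx.matrix_elem i j)
  have h2 : (fun x : Fin n × Fin n → ℝ => Rx z x) = fun x =>
      ((cx (Hx x) - z • (1 : Matrix (Fin n) (Fin n) ℂ)).det)⁻¹ •
        (cx (Hx x) - z • (1 : Matrix (Fin n) (Fin n) ℂ)).adjugate := by
    ext1 x
    unfold Rx Res789.Res
    rw [Matrix.inv_def, Ring.inverse_eq_inv']
  rw [h2]
  have h3 : Continuous fun x : Fin n × Fin n → ℝ =>
      ((cx (Hx x) - z • (1 : Matrix (Fin n) (Fin n) ℂ)).det)⁻¹ :=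
    h1.matrix_det.inv₀ fun x => (Res789.isUnit_det_sub (Hx_symm x) hz).ne_zero
  exact h3.smul h1.matrix_adjugate

lemma niceM_Rx {z : ℂ} (hz : 0 < z.im) : NiceM fun x : Fin n × Fin n → ℝ => Rx z x := fun i j =>
  ⟨(continuous_Rx hz).matrix_elem i j, 1 / z.im, fun x => norm_res_le (Hx_symm x) hz i j⟩

lemma hasDerivAt_Rx {z : ℂ} (hz : 0 < z.im) (x : Fin n × Fin n → ℝ) (p : Fin n × Fin n)
    (i j : Fin n) :
    HasDerivAt (fun t => Rx z (Function.update x p t) i j)
      (-(Rx z x * cx (Ap p) * Rx z x) i j) (x p) := by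
  have key : ∀ t, Rx z (Function.update x p t) i j - Rx z x i j =
      ((t - x p : ℝ) : ℂ) * -(Rx z (Function.update x p t) * cx (Ap p) * Rx z x) i j := by
    intro t
    have h := res_sub_res (Hx_symm x) (Hx_symm (Function.update x p t)) hz
    have h2 : Hx (Function.update x p t) - Hx x = (t - x p) • Ap p := by
      rw [Hx_update]; abel
    rw [h2, Res789.cx_smul] at h
    have h3 := congrFun (congrFun h i) j
    rw [Matrix.sub_apply, Matrix.neg_apply, mul_smul_comm, smul_mul_assoc, Matrix.smul_apply,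
      smul_eq_mul] at h3
    unfold Rx
    rw [h3, mul_neg]
  have hcont : Continuous fun t : ℝ =>
      -(Rx z (Function.update x p t) * cx (Ap p) * Rx z x) i j := by
    have h1 : Continuous fun t : ℝ => Function.update x p t :=
      continuous_const.update p continuous_id
    have h2 : Continuous fun t : ℝ => Rx z (Function.update x p t) := (continuous_Rx hz).comp h1
    exact (((h2.matrix_mul continuous_const).matrix_mul continuous_const).matrix_elem i j).neg
  rw [hasDerivAt_iff_tendsto_slope]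
  have h3 : Filter.Tendsto (fun t : ℝ =>
      -(Rx z (Function.update x p t) * cx (Ap p) * Rx z x) i j) (nhdsWithin (x p) {x p}ᶜ)
      (nhds (-(Rx z x * cx (Ap p) * Rx z x) i j)) := by
    have h4 := (hcont.tendsto (x p)).mono_left (nhdsWithin_le_nhds (s := {x p}ᶜ))
    rwa [Function.update_eq_self] at h4
  refine h3.congr' ?_
  filter_upwards [self_mem_nhdsWithin] with t ht
  have ht' : ((t - x p : ℝ) : ℂ) ≠ 0 := by
    rw [Complex.ofReal_ne_zero]
    exact sub_ne_zero.2 ht
  rw [slope_def_module, Function.update_eq_self, key t, Complex.real_smul, ← mul_assoc,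
    Complex.ofReal_inv, inv_mul_cancel₀ ht', one_mul]

lemma hasDerivAt_trace {z : ℂ} (hz : 0 < z.im) (M : Matrix (Fin n) (Fin n) ℂ)
    (x : Fin n × Fin n → ℝ) (p : Fin n × Fin n) :
    HasDerivAt (fun t => (M * Rx z (Function.update x p t)).trace)
      (-(M * (Rx z x * cx (Ap p) * Rx z x)).trace) (x p) := by
  simp only [Matrix.trace, Matrix.diag, Matrix.mul_apply (M := M)]
  rw [← Finset.sum_neg_distrib]
  refine HasDerivAt.fun_sum fun i _ => ?_
  rw [← Finset.sum_neg_distrib]
  refine HasDerivAt.fun_sum fun k _ => ?_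
  have h := (hasDerivAt_Rx hz x p k i).const_mul (M i k)
  exact h.congr_deriv (by ring)

/-- normalised trace -/
noncomputable def mx (z : ℂ) (x : Fin n × Fin n → ℝ) : ℂ := (Rx z x).trace / n

/-- `P = 1 + z m + m²` -/
noncomputable def Px (z : ℂ) (x : Fin n × Fin n → ℝ) : ℂ := 1 + z * mx z x + mx z x * mx z x

lemma nice_mx {z : ℂ} (hz : 0 < z.im) : Nice fun x : Fin n × Fin n → ℝ => mx z x := by
  unfold mx
  simp only [div_eq_mul_inv]
  exact (niceM_Rx hz).trace.mul (Nice.const _)

lemma nice_Px {z : ℂ} (hz : 0 < z.im) : Nice fun x : Fin n × Fin n → ℝ => Px z x := by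
  unfold Px
  exact ((Nice.const 1).add ((Nice.const z).mul (nice_mx hz))).add ((nice_mx hz).mul (nice_mx hz))

lemma hasDerivAt_mx {z : ℂ} (hz : 0 < z.im) (x : Fin n × Fin n → ℝ) (p : Fin n × Fin n) :
    HasDerivAt (fun t => mx z (Function.update x p t))
      (-(Rx z x * cx (Ap p) * Rx z x).trace / n) (x p) := by
  have h := (hasDerivAt_trace hz 1 x p).div_const (n : ℂ)
  simp only [one_mul] at h
  exact h

lemma hasDerivAt_Px {z : ℂ} (hz : 0 < z.im) (x : Fin n × Fin n → ℝ) (p : Fin n × Fin n) :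
    HasDerivAt (fun t => Px z (Function.update x p t))
      ((z + 2 * mx z x) * (-(Rx z x * cx (Ap p) * Rx z x).trace / n)) (x p) := by
  have h := hasDerivAt_mx hz x p
  have h1 := ((hasDerivAt_const (x p) (1 : ℂ)).fun_add (h.const_mul z)).fun_add (h.fun_mul h)
  refine h1.congr_deriv ?_
  rw [Function.update_eq_self]
  ring

/-- the test function for the coordinate `p` -/
noncomputable def Fp (z : ℂ) (p : Fin n × Fin n) (x : Fin n × Fin n → ℝ) : ℂ :=
  (cx (Ap p) * Rx z x).trace * star (Px z x)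

/-- its derivative -/
noncomputable def Fp' (z : ℂ) (p : Fin n × Fin n) (x : Fin n × Fin n → ℝ) : ℂ :=
  -(cx (Ap p) * (Rx z x * cx (Ap p) * Rx z x)).trace * star (Px z x) +
    (cx (Ap p) * Rx z x).trace *
      star ((z + 2 * mx z x) * (-(Rx z x * cx (Ap p) * Rx z x).trace / n))

lemma hasDerivAt_Fp {z : ℂ} (hz : 0 < z.im) (x : Fin n × Fin n → ℝ) (p : Fin n × Fin n) :
    HasDerivAt (fun t => Fp z p (Function.update x p t)) (Fp' z p x) (x p) := by
  have h1 := hasDerivAt_trace hz (cx (Ap p)) x p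
  have h2 := (hasDerivAt_Px hz x p).star
  have h3 := h1.fun_mul h2
  refine h3.congr_deriv ?_
  rw [Function.update_eq_self]
  rfl

lemma nice_Fp {z : ℂ} (hz : 0 < z.im) (p : Fin n × Fin n) :
    Nice fun x : Fin n × Fin n → ℝ => Fp z p x :=
  ((NiceM.const _).mul (niceM_Rx hz)).trace.mul (nice_Px hz).star

lemma nice_Fp' {z : ℂ} (hz : 0 < z.im) (p : Fin n × Fin n) :
    Nice fun x : Fin n × Fin n → ℝ => Fp' z p x := by
  have hR := niceM_Rx (n := n) hz
  have hA : NiceM fun _ : Fin n × Fin n → ℝ => cx (Ap p) := NiceM.const _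
  have h1 := ((hR.mul hA).mul hR)
  unfold Fp'
  refine Nice.add ?_ ?_
  · exact ((hA.mul h1).trace.neg).mul (nice_Px hz).star
  · refine ((hA.mul hR).trace).mul (Nice.star ?_)
    simp only [div_eq_mul_inv]
    exact ((Nice.const z).add ((Nice.const 2).mul (nice_mx hz))).mul ((h1.trace.neg).mul
      (Nice.const _))

/-- sum of the test functions -/
lemma sum_Fp {z : ℂ} (hz : 0 < z.im) (x : Fin n × Fin n → ℝ) :
    ∑ p, ((x p : ℝ) : ℂ) * Fp z p x = (n + z * (Rx z x).trace) * star (Px z x) := by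
  unfold Fp
  have h1 : ∑ p, ((x p : ℝ) : ℂ) * (cx (Ap p) * Rx z x).trace = n + z * (Rx z x).trace := by
    have h2 : (cx (Hx x) * Rx z x).trace = n + z * (Rx z x).trace := by
      have h3 := Res789.sub_mul_Res (Hx_symm x) hz
      rw [sub_mul, smul_mul_assoc, one_mul] at h3
      have h4 : cx (Hx x) * Rx z x = 1 + z • Rx z x := by
        rw [← h3]
        unfold Rx
        abel
      rw [h4, Matrix.trace_add, Matrix.trace_smul, Matrix.trace_one, smul_eq_mul]
      simp
    rw [← h2]
    simp only [Matrix.trace, Matrix.diag, Matrix.mul_apply, Res789.cx_apply, Finset.mul_sum]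
    rw [Finset.sum_comm]
    refine Finset.sum_congr rfl fun i _ => ?_
    rw [Finset.sum_comm]
    refine Finset.sum_congr rfl fun j _ => ?_
    rw [Hx_sum x i j, Complex.ofReal_sum, Finset.sum_mul]
    refine Finset.sum_congr rfl fun p _ => ?_
    push_cast
    ring
  rw [← h1, Finset.sum_mul]
  exact Finset.sum_congr rfl fun p _ => by ring

lemma sum_Fp' (hn : 0 < n) {z : ℂ} (hz : 0 < z.im) (x : Fin n × Fin n → ℝ) :
    ∑ p, Fp' z p x = -(1 / (n : ℂ)) * ((Rx z x).trace * (Rx z x).trace +
        (Rx z x * Rx z x).trace) * star (Px z x) -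
      star (z + 2 * mx z x) / n * ((2 / (n : ℂ)) * (Rx z x * ((Rx z x)ᴴ * (Rx z x)ᴴ)).trace) := by
  unfold Fp'
  rw [Finset.sum_add_distrib]
  have h1 : ∑ p, -(cx (Ap p) * (Rx z x * cx (Ap p) * Rx z x)).trace * star (Px z x) =
      -(1 / (n : ℂ)) * ((Rx z x).trace * (Rx z x).trace +
        (Rx z x * Rx z x).trace) * star (Px z x) := by
    rw [← Finset.sum_mul, Finset.sum_neg_distrib]
    have h2 := sum_trace_four hn (Rx z x) (Rx z x)
    rw [Rx_transpose hz] at h2
    have h3 : ∑ p, (cx (Ap p) * (Rx z x * cx (Ap p) * Rx z x)).trace =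
        ∑ p, (cx (Ap p) * Rx z x * cx (Ap p) * Rx z x).trace :=
      Finset.sum_congr rfl fun p _ => by simp only [mul_assoc]
    rw [h3, h2]
    ring
  have h4 : ∀ p : Fin n × Fin n, star ((Rx z x * cx (Ap p) * Rx z x).trace) =
      (cx (Ap p) * ((Rx z x)ᴴ * (Rx z x)ᴴ)).trace := by
    intro p
    rw [← Matrix.trace_conjTranspose, Matrix.conjTranspose_mul, Matrix.conjTranspose_mul,
      Res789.cx_conjTranspose, Ap_symm, Matrix.trace_mul_comm, mul_assoc]
  have h5 : ∑ p, (cx (Ap p) * Rx z x).trace *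
      star ((z + 2 * mx z x) * (-(Rx z x * cx (Ap p) * Rx z x).trace / n)) =
      - (star (z + 2 * mx z x) / n * ((2 / (n : ℂ)) *
        (Rx z x * ((Rx z x)ᴴ * (Rx z x)ᴴ)).trace)) := by
    have h6 := sum_trace_two hn (Rx z x) ((Rx z x)ᴴ * (Rx z x)ᴴ)
    rw [Matrix.transpose_mul, Rx_conj_transpose hz] at h6
    have h7 : ∀ p : Fin n × Fin n, (cx (Ap p) * Rx z x).trace *
        star ((z + 2 * mx z x) * (-(Rx z x * cx (Ap p) * Rx z x).trace / n)) =
        -(star (z + 2 * mx z x) / n) * ((cx (Ap p) * Rx z x).trace *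
          (cx (Ap p) * ((Rx z x)ᴴ * (Rx z x)ᴴ)).trace) := by
      intro p
      rw [← h4 p, star_mul', star_div₀, star_neg, star_natCast]
      ring
    rw [Finset.sum_congr rfl fun p _ => h7 p, ← Finset.mul_sum, h6]
    ring
  rw [h1, h5]
  ring

/-- Gaussian measure -/
noncomputable abbrev gam (n : ℕ) : Measure (Fin n × Fin n → ℝ) :=
  Measure.pi fun _ => gaussianReal 0 1

lemma integrable_coord (p : Fin n × Fin n) :
    Integrable (fun x : Fin n × Fin n → ℝ => ((x p : ℝ) : ℂ)) (gam n) := by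
  have h : MeasurePreserving (fun x : Fin n × Fin n → ℝ => x p) (gam n) (gaussianReal 0 1) :=
    measurePreserving_eval (fun _ => gaussianReal 0 1) p
  have h1 : Integrable (fun t : ℝ => (t : ℂ)) (gaussianReal 0 1) := by
    have h := (memLp_id_gaussianReal (μ := 0) (v := 1) 1)
    have h2 : Integrable (fun t : ℝ => t) (gaussianReal 0 1) := by
      exact (memLp_one_iff_integrable.1 (by simpa using h) :
        Integrable (id : ℝ → ℝ) (gaussianReal 0 1))
    exact h2.ofReal
  exact h.integrable_comp_of_integrable h1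

lemma integral_identity (hn : 0 < n) {z : ℂ} (hz : 0 < z.im) :
    ∫ x, (n : ℂ) * (Px z x * star (Px z x)) ∂(gam n) =
      ∫ x, (-(1 / (n : ℂ)) * (Rx z x * Rx z x).trace * star (Px z x) -
        star (z + 2 * mx z x) / n *
          ((2 / (n : ℂ)) * (Rx z x * ((Rx z x)ᴴ * (Rx z x)ᴴ)).trace)) ∂(gam n) := by
  have hn' : (n : ℂ) ≠ 0 := by exact_mod_cast hn.ne'
  have h1 : ∑ p, ∫ x, ((x p : ℝ) : ℂ) * Fp z p x ∂(gam n) = ∑ p, ∫ x, Fp' z p x ∂(gam n) := by
    refine Finset.sum_congr rfl fun p _ => ?_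
    obtain ⟨C, hC⟩ := (nice_Fp (n := n) hz p).2
    obtain ⟨C', hC'⟩ := (nice_Fp' (n := n) hz p).2
    exact Stein583.stein p (nice_Fp hz p).1.measurable (nice_Fp' hz p).1.measurable
      (fun x => hasDerivAt_Fp hz x p) hC hC'
  rw [← integral_finsetSum _ (fun p _ => ?_), ← integral_finsetSum _ (fun p _ => ?_)] at h1
  · simp only [sum_Fp hz, sum_Fp' hn hz] at h1
    have hR := niceM_Rx (n := n) hz
    have hP := nice_Px (n := n) hz
    have hm := nice_mx (n := n) hz
    have i1 : Integrable (fun x => ((n : ℂ) + z * (Rx z x).trace) * star (Px z x)) (gam n) :=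
      (((Nice.const _).add ((Nice.const z).mul hR.trace)).mul hP.star).integrable _
    have i2 : Integrable (fun x => (1 / (n : ℂ)) * ((Rx z x).trace * (Rx z x).trace) *
        star (Px z x)) (gam n) :=
      (((Nice.const _).mul (hR.trace.mul hR.trace)).mul hP.star).integrable _
    have i3 : Integrable (fun x => -(1 / (n : ℂ)) * ((Rx z x).trace * (Rx z x).trace +
        (Rx z x * Rx z x).trace) * star (Px z x) -
      star (z + 2 * mx z x) / n *
        ((2 / (n : ℂ)) * (Rx z x * ((Rx z x)ᴴ * (Rx z x)ᴴ)).trace)) (gam n) := by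
      refine Nice.integrable ?_ _
      simp only [sub_eq_add_neg, div_eq_mul_inv (star _)]
      refine Nice.add ?_ (Nice.neg ?_)
      · exact ((Nice.const _).mul ((hR.trace.mul hR.trace).add (hR.mul hR).trace)).mul hP.star
      · exact (((Nice.const z).add ((Nice.const 2).mul hm)).star.mul (Nice.const _)).mul
          ((Nice.const _).mul (hR.mul (hR.conjTranspose.mul hR.conjTranspose)).trace)
    have h2 : ∫ x, (n : ℂ) * (Px z x * star (Px z x)) ∂(gam n) =
        ∫ x, ((n : ℂ) + z * (Rx z x).trace) * star (Px z x) ∂(gam n) +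
        ∫ x, (1 / (n : ℂ)) * ((Rx z x).trace * (Rx z x).trace) * star (Px z x) ∂(gam n) := by
      rw [← integral_add i1 i2]
      refine integral_congr_ae (Filter.Eventually.of_forall fun x => ?_)
      simp only
      have : (n : ℂ) * Px z x = n + z * (Rx z x).trace + 1 / (n : ℂ) *
          ((Rx z x).trace * (Rx z x).trace) := by
        unfold Px mx
        field_simp
      rw [← mul_assoc, this]
      ring
    rw [h2, h1, ← integral_add i3 i2]
    refine integral_congr_ae (Filter.Eventually.of_forall fun x => ?_)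
    simp only
    ring
  · exact (nice_Fp' hz p).integrable _
  · obtain ⟨hc, C, hC⟩ := nice_Fp (n := n) hz p
    have := (integrable_coord p).bdd_mul (c := C) hc.measurable.aestronglyMeasurable
      (Filter.Eventually.of_forall hC)
    refine this.congr (Filter.Eventually.of_forall fun x => ?_)
    simp only
    ring

end goe

end Crest.Agent.R166.Goe583
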