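import Crest.Agent.R166.GaussPi_93

/-!
# R166 / GoeRot_93 (helper93)

Orthogonal invariance of the GOE disorder: an explicit measure preserving linear map `theta O` of
the disorder with `goeMatrix (theta O g) = O * goeMatrix g * Oᵀ`; left/right rotations of iid
Gaussian arrays.
-/

set_option autoImplicit false

open MeasureTheory ProbabilityTheory Matrix WithLp
open scoped BigOperators RealInnerProductSpace
open Crest.ProbabilityR.RandomMatrix

namespace Crest.Agent.R166.GoeRot93

open Crest.Agent.R166.GaussPi93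

section rot
variable {I J : Type*} [Fintype I] [Fintype J]

lemma sum_sq_eq_trace (M : Matrix I J ℝ) : ∑ i, ∑ j, (M i j) ^ 2 = Matrix.trace (Mᵀ * M) := by
  simp only [Matrix.trace, Matrix.diag_apply, Matrix.mul_apply, Matrix.transpose_apply]
  rw [Finset.sum_comm]
  exact Finset.sum_congr rfl fun j _ => Finset.sum_congr rfl fun i _ => by ring

/-- Left rotation of an iid Gaussian array. -/
theorem mp_left [DecidableEq I] (O : Matrix I I ℝ) (hO : Oᵀ * O = 1) :
    MeasurePreserving (fun (G : I → J → ℝ) (i : I) (j : J) => (O * (Matrix.of G)) i j)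
      (gm I J) (gm I J) := by
  let T : (I → J → ℝ) →ₗ[ℝ] (I → J → ℝ) :=
    { toFun := fun G i j => (O * (Matrix.of G)) i j
      map_add' := fun x y => by
        ext i j
        change (O * (Matrix.of x + Matrix.of y)) i j = _
        rw [Matrix.mul_add]; rfl
      map_smul' := fun c x => by
        ext i j
        change (O * (c • Matrix.of x)) i j = _
        rw [Matrix.mul_smul]; rfl }
  refine mp_isometry₂ T ?_
  intro x
  have h1 := sum_sq_eq_trace (O * (Matrix.of x) : Matrix I J ℝ)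
  have h2 := sum_sq_eq_trace (Matrix.of x : Matrix I J ℝ)
  have h3 : (O * (Matrix.of x))ᵀ * (O * (Matrix.of x)) = (Matrix.of x)ᵀ * Matrix.of x := by
    rw [Matrix.transpose_mul, Matrix.mul_assoc, ← Matrix.mul_assoc Oᵀ, hO, Matrix.one_mul]
  rw [h3, ← h2] at h1
  exact h1

/-- Right rotation of an iid Gaussian array. -/
theorem mp_right [DecidableEq J] (O : Matrix J J ℝ) (hO : O * Oᵀ = 1) :
    MeasurePreserving (fun (G : I → J → ℝ) (i : I) (j : J) => ((Matrix.of G) * O) i j)
      (gm I J) (gm I J) := by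
  let T : (I → J → ℝ) →ₗ[ℝ] (I → J → ℝ) :=
    { toFun := fun G i j => ((Matrix.of G) * O) i j
      map_add' := fun x y => by
        ext i j
        change ((Matrix.of x + Matrix.of y) * O) i j = _
        rw [Matrix.add_mul]; rfl
      map_smul' := fun c x => by
        ext i j
        change ((c • Matrix.of x) * O) i j = _
        rw [Matrix.smul_mul]; rfl }
  refine mp_isometry₂ T ?_
  intro x
  have h1 := sum_sq_eq_trace (((Matrix.of x) * O : Matrix I J ℝ))ᵀ
  have h2 := sum_sq_eq_trace ((Matrix.of x : Matrix I J ℝ))ᵀ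
  have h3 : ((((Matrix.of x) * O : Matrix I J ℝ))ᵀ)ᵀ * (((Matrix.of x) * O : Matrix I J ℝ))ᵀ
      = ((Matrix.of x : Matrix I J ℝ)ᵀ)ᵀ * (Matrix.of x : Matrix I J ℝ)ᵀ := by
    rw [Matrix.transpose_transpose, Matrix.transpose_transpose, Matrix.transpose_mul,
      Matrix.mul_assoc, ← Matrix.mul_assoc O, hO, Matrix.one_mul]
  rw [h3, ← h2] at h1
  simp only [Matrix.transpose_apply] at h1
  rw [Finset.sum_comm, Finset.sum_comm (f := fun x_1 x_2 => Matrix.of x x_2 x_1 ^ 2)] at h1
  exact h1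

end rot

section goe
variable {N : ℕ}

/-- The orthogonal involution mixing the `(i,j)` and `(j,i)` coordinates. -/
noncomputable def rho : (Fin N → Fin N → ℝ) →ₗ[ℝ] (Fin N → Fin N → ℝ) where
  toFun A := fun i j => if i = j then A i i else
    if i < j then (A i j + A j i) / Real.sqrt 2 else (A j i - A i j) / Real.sqrt 2
  map_add' A B := by
    ext i j
    simp only [Pi.add_apply]
    split_ifs <;> ring
  map_smul' c A := by
    ext i j
    simp only [Pi.smul_apply, smul_eq_mul, RingHom.id_apply]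
    split_ifs <;> ring

lemma rho_apply (A : Fin N → Fin N → ℝ) (i j : Fin N) : rho A i j = if i = j then A i i else
    if i < j then (A i j + A j i) / Real.sqrt 2 else (A j i - A i j) / Real.sqrt 2 := rfl

lemma sqrt2_ne : Real.sqrt 2 ≠ 0 := by positivity

lemma rho_rho (A : Fin N → Fin N → ℝ) : rho (rho A) = A := by
  have h2' : Real.sqrt 2 ^ 2 = 2 := Real.sq_sqrt (by norm_num)
  have hne := sqrt2_ne
  ext i j
  rcases lt_trichotomy i j with h | h | h
  · have h1 : i ≠ j := ne_of_lt h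
    have h3 : ¬ j < i := not_lt.2 h.le
    simp only [rho_apply, h1, h1.symm, h, h3, if_true, if_false]
    field_simp
    rw [h2']; ring
  · subst h; simp [rho_apply]
  · have h1 : i ≠ j := ne_of_gt h
    have h3 : ¬ i < j := not_lt.2 h.le
    simp only [rho_apply, h1, h1.symm, h, h3, if_true, if_false]
    field_simp
    rw [h2']; ring

lemma rho_sq_pair (A : Fin N → Fin N → ℝ) (i j : Fin N) :
    (rho A i j) ^ 2 + (rho A j i) ^ 2 = (A i j) ^ 2 + (A j i) ^ 2 := by
  have h2 : Real.sqrt 2 ^ 2 = 2 := Real.sq_sqrt (by norm_num)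
  rcases lt_trichotomy i j with h | h | h
  · have h1 : i ≠ j := ne_of_lt h
    have h3 : ¬ j < i := not_lt.2 h.le
    simp only [rho_apply, h1, h1.symm, h, h3, if_true, if_false, div_pow, h2]
    ring
  · subst h; simp [rho_apply]
  · have h1 : i ≠ j := ne_of_gt h
    have h3 : ¬ i < j := not_lt.2 h.le
    simp only [rho_apply, h1, h1.symm, h, h3, if_true, if_false, div_pow, h2]
    ring

lemma rho_isom (A : Fin N → Fin N → ℝ) : ∑ i, ∑ j, (rho A i j) ^ 2 = ∑ i, ∑ j, (A i j) ^ 2 := by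
  have h1 : ∑ i, ∑ j, ((rho A i j) ^ 2 + (rho A j i) ^ 2)
      = ∑ i, ∑ j, ((A i j) ^ 2 + (A j i) ^ 2) :=
    Finset.sum_congr rfl fun i _ => Finset.sum_congr rfl fun j _ => rho_sq_pair A i j
  simp only [Finset.sum_add_distrib] at h1
  rw [Finset.sum_comm (f := fun i j => (rho A j i) ^ 2),
    Finset.sum_comm (f := fun i j => (A j i) ^ 2)] at h1
  linarith

lemma goeMatrix_rho (A : Fin N → Fin N → ℝ) :
    goeMatrix (rho A) = (Real.sqrt (2 * N))⁻¹ • (Matrix.of A + (Matrix.of A)ᵀ) := by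
  have h2 : Real.sqrt 2 * Real.sqrt 2 = 2 := Real.mul_self_sqrt (by norm_num)
  have hs : Real.sqrt (2 * (N:ℝ)) = Real.sqrt 2 * Real.sqrt N := Real.sqrt_mul (by norm_num) _
  ext i j
  simp only [goeMatrix, Matrix.smul_apply, Matrix.add_apply, Matrix.of_apply,
    Matrix.transpose_apply, smul_eq_mul, hs, mul_inv]
  rcases lt_trichotomy i j with h | h | h
  · have h1 : i ≠ j := ne_of_lt h
    simp only [rho_apply, h1, h, if_true, if_false, div_eq_mul_inv]
    ring
  · subst h
    simp only [rho_apply, if_true, div_eq_mul_inv]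
    have : (Real.sqrt 2)⁻¹ * 2 = Real.sqrt 2 := by
      field_simp; nlinarith [h2]
    calc Real.sqrt 2 * A i i * (Real.sqrt (N:ℝ))⁻¹
        = ((Real.sqrt 2)⁻¹ * 2) * A i i * (Real.sqrt (N:ℝ))⁻¹ := by rw [this]
      _ = _ := by ring
  · have h1 : i ≠ j := ne_of_gt h
    have h3 : ¬ i < j := not_lt.2 h.le
    simp only [rho_apply, h1, h1.symm, h, h3, if_true, if_false, div_eq_mul_inv]
    ring

/-- Conjugation by `O` as a linear map. -/
noncomputable def conjL (O : Matrix (Fin N) (Fin N) ℝ) :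
    (Fin N → Fin N → ℝ) →ₗ[ℝ] (Fin N → Fin N → ℝ) where
  toFun A := (O * (Matrix.of A) * Oᵀ : Matrix (Fin N) (Fin N) ℝ)
  map_add' x y := by
    change O * (Matrix.of x + Matrix.of y) * Oᵀ = _
    rw [Matrix.mul_add, Matrix.add_mul]; rfl
  map_smul' c x := by
    change O * (c • Matrix.of x) * Oᵀ = _
    rw [Matrix.mul_smul, Matrix.smul_mul]; rfl

lemma conjL_isom (O : Matrix (Fin N) (Fin N) ℝ) (hO : Oᵀ * O = 1) (x : Fin N → Fin N → ℝ) :
    ∑ i, ∑ j, (conjL O x i j) ^ 2 = ∑ i, ∑ j, (x i j) ^ 2 := by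
  have h1 := sum_sq_eq_trace (O * (Matrix.of x) * Oᵀ : Matrix (Fin N) (Fin N) ℝ)
  have h2 := sum_sq_eq_trace (Matrix.of x : Matrix (Fin N) (Fin N) ℝ)
  have h3 : (O * (Matrix.of x) * Oᵀ)ᵀ * (O * (Matrix.of x) * Oᵀ)
      = O * ((Matrix.of x)ᵀ * Matrix.of x) * Oᵀ := by
    rw [Matrix.transpose_mul, Matrix.transpose_mul, Matrix.transpose_transpose]
    calc O * ((Matrix.of x)ᵀ * Oᵀ) * (O * Matrix.of x * Oᵀ)
        = O * (Matrix.of x)ᵀ * (Oᵀ * O) * Matrix.of x * Oᵀ := by
          simp only [Matrix.mul_assoc]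
      _ = _ := by rw [hO, Matrix.mul_one]; simp only [Matrix.mul_assoc]
  rw [h3, Matrix.trace_mul_comm, ← Matrix.mul_assoc, hO, Matrix.one_mul, ← h2] at h1
  exact h1

/-- The disorder map realising conjugation by `O`. -/
noncomputable def theta (O : Matrix (Fin N) (Fin N) ℝ) :
    (Fin N → Fin N → ℝ) →ₗ[ℝ] (Fin N → Fin N → ℝ) := rho ∘ₗ conjL O ∘ₗ rho

theorem theta_mp (O : Matrix (Fin N) (Fin N) ℝ) (hO : Oᵀ * O = 1) :
    MeasurePreserving (fun g => theta O g) (goeDisorderLaw N) (goeDisorderLaw N) := by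
  refine mp_isometry₂ (theta O) ?_
  intro x
  simp only [theta, LinearMap.comp_apply]
  rw [rho_isom, conjL_isom O hO, rho_isom]

theorem goeMatrix_theta (O : Matrix (Fin N) (Fin N) ℝ) (g : GOEDisorder N) :
    goeMatrix (theta O g) = O * goeMatrix g * Oᵀ := by
  have h1 : goeMatrix (theta O g)
      = (Real.sqrt (2 * N))⁻¹ • (Matrix.of (conjL O (rho g)) + (Matrix.of (conjL O (rho g)))ᵀ) := by
    simp only [theta, LinearMap.comp_apply]
    exact goeMatrix_rho _
  have h2 : goeMatrix g = (Real.sqrt (2 * N))⁻¹ • (Matrix.of (rho g) + (Matrix.of (rho g))ᵀ) := by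
    conv_lhs => rw [← rho_rho g]
    exact goeMatrix_rho _
  rw [h1, h2]
  have h3 : (Matrix.of (conjL O (rho g)) : Matrix (Fin N) (Fin N) ℝ)
      = O * (Matrix.of (rho g)) * Oᵀ := rfl
  rw [h3, Matrix.mul_smul, Matrix.smul_mul, Matrix.mul_add, Matrix.add_mul]
  congr 2
  rw [Matrix.transpose_mul, Matrix.transpose_mul, Matrix.transpose_transpose, Matrix.mul_assoc]

end goe

end Crest.Agent.R166.GoeRot93
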