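import Crest.Agent.R166.Spec_B1_955

/-!
# Row 166 (helper980), F5/F6 part 1: from the negation of Theorem B to the extracted sequence
-/

set_option autoImplicit false

namespace Crest.Agent.R166.Hinge980

open MeasureTheory Filter Topology
open Crest.ProbabilityR.RandomMatrix Crest.Agent.R166
open Crest.Agent.R166.Seq980 (PS portLaw)

/-! ### The violated quantity -/

/-- summand of Theorem B -/
noncomputable def psi {k : ℕ} (ρ : ℝ) (τ : Fin k → Fin 2 → ℝ)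
    (χ : Matrix (Fin 2) (Fin 2) ℂ → ℝ) (B : Matrix (Fin 2) (Fin 2) ℂ) (x y : Fin k → ℝ) : ℂ :=
  (χ B : ℂ) * (Complex.exp (Complex.I * ((∑ i, (τ i 0 * x i + τ i 1 * y i) : ℝ) : ℂ)) -
    ((Real.exp (-(1 / 2) * ∑ i, ∑ a, ∑ b, τ i a * ((B a b).im / (Real.pi * ρ)) * τ i b) : ℝ) : ℂ))

/-- the quantity of Theorem B -/
noncomputable def viol {n k : ℕ} (s E ρ η : ℝ) (τ : Fin k → Fin 2 → ℝ)
    (χ : Matrix (Fin 2) (Fin 2) ℂ → ℝ) (G : SimpleGraph (Fin n)) (ω : Fin n → ℝ)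
    (F : Fin k → Fin n → ℝ) : ℂ :=
  (∑ p ∈ darts G, psi ρ τ χ (Blk (Res (Hm G s ω) (ze E η)) p.1 p.2) (fun i => F i p.1)
    (fun i => F i p.2)) / ((darts G).card : ℂ)

/-- Gaussian factor times the cut-off -/
noncomputable def chi2 {k : ℕ} (ρ : ℝ) (τ : Fin k → Fin 2 → ℝ)
    (χ : Matrix (Fin 2) (Fin 2) ℂ → ℝ) (B : Matrix (Fin 2) (Fin 2) ℂ) : ℝ :=
  χ B * Real.exp (-(1 / 2) * ∑ i, ∑ a, ∑ b, τ i a * ((B a b).im / (Real.pi * ρ)) * τ i b)

theorem continuous_chi2 {k : ℕ} (ρ : ℝ) (τ : Fin k → Fin 2 → ℝ)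
    {χ : Matrix (Fin 2) (Fin 2) ℂ → ℝ} (hχ : Continuous χ) : Continuous (chi2 ρ τ χ) := by
  unfold chi2
  refine hχ.mul (Real.continuous_exp.comp (continuous_const.mul ?_))
  refine continuous_finsetSum _ fun i _ => continuous_finsetSum _ fun a _ =>
    continuous_finsetSum _ fun b _ => ?_
  have h1 : Continuous fun B : Matrix (Fin 2) (Fin 2) ℂ => (B a b).im :=
    Complex.continuous_im.comp (continuous_id.matrix_elem a b)
  exact (continuous_const.mul (h1.div_const _)).mul continuous_const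

theorem hasCompactSupport_chi2 {k : ℕ} (ρ : ℝ) (τ : Fin k → Fin 2 → ℝ)
    {χ : Matrix (Fin 2) (Fin 2) ℂ → ℝ} (hs : HasCompactSupport χ) :
    HasCompactSupport (chi2 ρ τ χ) := hs.mul_right

theorem psi_eq {k : ℕ} (ρ : ℝ) (τ : Fin k → Fin 2 → ℝ) (χ : Matrix (Fin 2) (Fin 2) ℂ → ℝ)
    (B : Matrix (Fin 2) (Fin 2) ℂ) (x y : Fin k → ℝ) :
    psi ρ τ χ B x y = (χ B : ℂ) * Complex.exp (Complex.I *
      ((∑ i, (τ i 0 * x i + τ i 1 * y i) : ℝ) : ℂ)) - ((chi2 ρ τ χ B : ℝ) : ℂ) := by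
  unfold psi chi2
  rw [mul_sub]
  push_cast
  ring

theorem bounded_of_compact {χ : Matrix (Fin 2) (Fin 2) ℂ → ℝ} (hχ : Continuous χ)
    (hs : HasCompactSupport χ) : ∃ C : ℝ, ∀ B, |χ B| ≤ C := by
  obtain ⟨C, hC⟩ := hs.exists_bound_of_continuous hχ
  exact ⟨C, fun B => by simpa [Real.norm_eq_abs] using hC B⟩

theorem uc_of_compact {χ : Matrix (Fin 2) (Fin 2) ℂ → ℝ} (hχ : Continuous χ)
    (hs : HasCompactSupport χ) {θ : ℝ} (hθ : 0 < θ) :
    ∃ δ : ℝ, 0 < δ ∧ ∀ B B', bnorm (B - B') ≤ δ → |χ B - χ B'| ≤ θ := by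
  let χ' : (Fin 2 → Fin 2 → ℂ) → ℝ := χ
  have hχ' : Continuous χ' := hχ
  have hs' : HasCompactSupport χ' := hs
  have h1 : UniformContinuous χ' := hs'.uniformContinuous_of_continuous hχ'
  rw [Metric.uniformContinuous_iff] at h1
  obtain ⟨δ, hδ, h2⟩ := h1 θ hθ
  refine ⟨δ / 2, by positivity, fun B B' hB => ?_⟩
  have h3 : ∀ a b, ‖B a b - B' a b‖ ≤ δ / 2 := by
    intro a b
    have e1 : ‖(B - B') a b‖ ≤ bnorm (B - B') := by
      unfold bnorm
      fin_cases a <;> fin_cases b <;> simp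
    exact e1.trans hB
  have h4 : dist (show Fin 2 → Fin 2 → ℂ from B) (show Fin 2 → Fin 2 → ℂ from B') < δ := by
    refine lt_of_le_of_lt ?_ (half_lt_self hδ)
    refine (dist_pi_le_iff (by positivity)).2 fun a => (dist_pi_le_iff (by positivity)).2 fun b => ?_
    rw [dist_eq_norm]
    exact h3 a b
  have h5 := h2 h4
  rw [Real.dist_eq] at h5
  exact h5.le

theorem norm_psi_le {k : ℕ} (ρ : ℝ) (τ : Fin k → Fin 2 → ℝ)
    {χ : Matrix (Fin 2) (Fin 2) ℂ → ℝ} (hχ : Continuous χ) (hs : HasCompactSupport χ) :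
    ∃ C : ℝ, 0 < C ∧ ∀ B x y, ‖psi ρ τ χ B x y‖ ≤ C := by
  obtain ⟨C1, h1⟩ := bounded_of_compact hχ hs
  obtain ⟨C2, h2⟩ := bounded_of_compact (continuous_chi2 ρ τ hχ) (hasCompactSupport_chi2 ρ τ hs)
  refine ⟨|C1| + |C2| + 1, by positivity, fun B x y => ?_⟩
  rw [psi_eq]
  refine (norm_sub_le _ _).trans ?_
  rw [norm_mul, mul_comm Complex.I, Complex.norm_exp_ofReal_mul_I, Complex.norm_real,
    Complex.norm_real, mul_one, Real.norm_eq_abs, Real.norm_eq_abs]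
  have := h1 B
  have := h2 B
  have := le_abs_self C1
  have := le_abs_self C2
  linarith

theorem psi_uc {k : ℕ} (ρ : ℝ) (τ : Fin k → Fin 2 → ℝ)
    {χ : Matrix (Fin 2) (Fin 2) ℂ → ℝ} (hχ : Continuous χ) (hs : HasCompactSupport χ)
    {θ : ℝ} (hθ : 0 < θ) :
    ∃ δ : ℝ, 0 < δ ∧ ∀ B B', bnorm (B - B') ≤ δ → ∀ x y,
      ‖psi ρ τ χ B x y - psi ρ τ χ B' x y‖ ≤ θ := by
  obtain ⟨δ1, hδ1, h1⟩ := uc_of_compact hχ hs (θ := θ / 2) (by positivity)
  obtain ⟨δ2, hδ2, h2⟩ := uc_of_compact (continuous_chi2 ρ τ hχ) (hasCompactSupport_chi2 ρ τ hs)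
    (θ := θ / 2) (by positivity)
  refine ⟨min δ1 δ2, lt_min hδ1 hδ2, fun B B' hB x y => ?_⟩
  rw [psi_eq, psi_eq]
  have e : (χ B : ℂ) * Complex.exp (Complex.I * ((∑ i, (τ i 0 * x i + τ i 1 * y i) : ℝ) : ℂ)) -
        ((chi2 ρ τ χ B : ℝ) : ℂ) -
      ((χ B' : ℂ) * Complex.exp (Complex.I * ((∑ i, (τ i 0 * x i + τ i 1 * y i) : ℝ) : ℂ)) -
        ((chi2 ρ τ χ B' : ℝ) : ℂ)) =
      ((χ B - χ B' : ℝ) : ℂ) * Complex.exp (Complex.I *
        ((∑ i, (τ i 0 * x i + τ i 1 * y i) : ℝ) : ℂ)) -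
        ((chi2 ρ τ χ B - chi2 ρ τ χ B' : ℝ) : ℂ) := by
    push_cast
    ring
  rw [e]
  refine (norm_sub_le _ _).trans ?_
  rw [norm_mul, mul_comm Complex.I, Complex.norm_exp_ofReal_mul_I, Complex.norm_real,
    Complex.norm_real, mul_one, Real.norm_eq_abs, Real.norm_eq_abs]
  have := h1 B B' (hB.trans (min_le_left _ _))
  have := h2 B B' (hB.trans (min_le_right _ _))
  linarith

theorem bnorm_nonneg (B : Matrix (Fin 2) (Fin 2) ℂ) : 0 ≤ bnorm B :=
  (norm_nonneg (B 0 0)).trans ((le_max_left _ _).trans (le_max_left _ _))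

/-- comparison of the violated quantities at two spectral parameters -/
theorem viol_sub_le {n k : ℕ} {s E ρ : ℝ} {τ : Fin k → Fin 2 → ℝ}
    {χ : Matrix (Fin 2) (Fin 2) ℂ → ℝ} {C θ δ : ℝ} (hC : 0 ≤ C)
    (hCb : ∀ B x y, ‖psi ρ τ χ B x y‖ ≤ C) (hθ : 0 ≤ θ) (hδ : 0 < δ) (hδ1 : δ ≤ 1)
    (huc : ∀ B B', bnorm (B - B') ≤ δ → ∀ x y, ‖psi ρ τ χ B x y - psi ρ τ χ B' x y‖ ≤ θ)
    (η η' : ℝ) (G : SimpleGraph (Fin n)) (ω : Fin n → ℝ) (F : Fin k → Fin n → ℝ) :
    ‖viol s E ρ η τ χ G ω F - viol s E ρ η' τ χ G ω F‖ ≤ θ + 2 * C / δ *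
      eAvg G (fun u w => min 1 (bnorm (Blk (Res (Hm G s ω) (ze E η)) u w -
        Blk (Res (Hm G s ω) (ze E η')) u w))) := by
  classical
  unfold viol eAvg
  rw [← sub_div, ← Finset.sum_sub_distrib, norm_div]
  have hcard : ‖((darts G).card : ℂ)‖ = ((darts G).card : ℝ) := by simp
  rw [hcard]
  rcases Nat.eq_zero_or_pos (darts G).card with h0 | hpos
  · rw [h0]
    simp only [Nat.cast_zero, div_zero, mul_zero, add_zero]
    exact hθ
  have hpos' : (0 : ℝ) < (darts G).card := by exact_mod_cast hpos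
  rw [div_le_iff₀ hpos', add_mul, mul_assoc, div_mul_cancel₀ _ hpos'.ne']
  refine (norm_sum_le _ _).trans ?_
  have hterm : ∀ p ∈ darts G, ‖psi ρ τ χ (Blk (Res (Hm G s ω) (ze E η)) p.1 p.2)
      (fun i => F i p.1) (fun i => F i p.2) - psi ρ τ χ (Blk (Res (Hm G s ω) (ze E η')) p.1 p.2)
      (fun i => F i p.1) (fun i => F i p.2)‖ ≤ θ + 2 * C / δ *
      min 1 (bnorm (Blk (Res (Hm G s ω) (ze E η)) p.1 p.2 -
        Blk (Res (Hm G s ω) (ze E η')) p.1 p.2)) := by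
    intro p _
    have hmin0 : 0 ≤ min 1 (bnorm (Blk (Res (Hm G s ω) (ze E η)) p.1 p.2 -
        Blk (Res (Hm G s ω) (ze E η')) p.1 p.2)) := le_min zero_le_one (bnorm_nonneg _)
    rcases le_or_gt (bnorm (Blk (Res (Hm G s ω) (ze E η)) p.1 p.2 -
        Blk (Res (Hm G s ω) (ze E η')) p.1 p.2)) δ with hle | hgt
    · refine (huc _ _ hle _ _).trans ?_
      have : 0 ≤ 2 * C / δ * min 1 (bnorm (Blk (Res (Hm G s ω) (ze E η)) p.1 p.2 -
        Blk (Res (Hm G s ω) (ze E η')) p.1 p.2)) := by positivity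
      linarith
    · have h1 : δ ≤ min 1 (bnorm (Blk (Res (Hm G s ω) (ze E η)) p.1 p.2 -
        Blk (Res (Hm G s ω) (ze E η')) p.1 p.2)) := le_min hδ1 hgt.le
      refine (norm_sub_le _ _).trans ?_
      have h2 := hCb (Blk (Res (Hm G s ω) (ze E η)) p.1 p.2) (fun i => F i p.1) (fun i => F i p.2)
      have h3 := hCb (Blk (Res (Hm G s ω) (ze E η')) p.1 p.2) (fun i => F i p.1) (fun i => F i p.2)
      have h4 : 2 * C ≤ 2 * C / δ * min 1 (bnorm (Blk (Res (Hm G s ω) (ze E η)) p.1 p.2 -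
        Blk (Res (Hm G s ω) (ze E η')) p.1 p.2)) := by
        calc 2 * C = 2 * C / δ * δ := by field_simp
          _ ≤ _ := by gcongr
      linarith
  refine (Finset.sum_le_sum hterm).trans ?_
  rw [Finset.sum_add_distrib, Finset.sum_const, nsmul_eq_mul, ← Finset.mul_sum, mul_comm θ]

/-! ### From `Whp` statements to events of the port law -/

theorem portLaw_eq_zero {d n : ℕ} (h : ¬ (regularGraphs n d).Nonempty) (A : Set (PS d n)) :
    portLaw d n A = 0 := by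
  have h1 : ¬ (Ports n d).Nonempty := fun h2 => h (Ports_nonempty_iff.1 h2)
  rw [Finset.not_nonempty_iff_eq_empty] at h1
  rw [Seq980.portLaw_apply, h1]
  simp

/-- a `Whp` statement gives an event of the port law -/
theorem port_of_whp {d : ℕ} {ε : ℝ}
    {Q : ∀ n, SimpleGraph (Fin n) → (Fin n → ℝ) → Prop} {N : ℕ}
    (h : ∀ n : ℕ, N ≤ n → (regularGraphs n d).Nonempty → Whp n d ε (Q n)) (n : ℕ) (hn : N ≤ n) :
    portLaw d n {x | Q n (graphOf x.1) x.2}ᶜ ≤ ENNReal.ofReal ε := by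
  by_cases hne : (regularGraphs n d).Nonempty
  · exact (Seq980.Whp_iff_port ε (Q n)).1 (h n hn hne)
  · rw [portLaw_eq_zero hne]
    exact zero_le

theorem bnorm_add_le (A B : Matrix (Fin 2) (Fin 2) ℂ) : bnorm (A + B) ≤ bnorm A + bnorm B := by
  have h : ∀ (B : Matrix (Fin 2) (Fin 2) ℂ) a b, ‖B a b‖ ≤ bnorm B := by
    intro B a b
    unfold bnorm
    fin_cases a <;> fin_cases b <;> simp
  have h2 : ∀ a b, ‖(A + B) a b‖ ≤ bnorm A + bnorm B := fun a b =>
    (norm_add_le _ _).trans (add_le_add (h A a b) (h B a b))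
  unfold bnorm at h2 ⊢
  exact max_le (max_le (h2 0 0) (h2 0 1)) (max_le (h2 1 0) (h2 1 1))

theorem bnorm_neg (A : Matrix (Fin 2) (Fin 2) ℂ) : bnorm (-A) = bnorm A := by
  unfold bnorm
  simp [Matrix.neg_apply]

/-- consequence of `LocLim`: two small spectral parameters -/
theorem loc_pair {d : ℕ} {s E : ℝ} (hLoc : LocLim d s E) {δ : ℝ} (hδ : 0 < δ) :
    ∃ η0 : ℝ, 0 < η0 ∧ ∀ η η' : ℝ, 0 < η → η ≤ η0 → 0 < η' → η' ≤ η0 → ∃ N : ℕ, ∀ n : ℕ, N ≤ n →
      portLaw d n {x | eAvg (graphOf x.1) (fun u w => min 1 (bnorm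
        (Blk (Res (Hm (graphOf x.1) s x.2) (ze E η)) u w -
          Blk (Res (Hm (graphOf x.1) s x.2) (ze E η')) u w))) ≤ 2 * δ}ᶜ
        ≤ ENNReal.ofReal (2 * δ) := by
  obtain ⟨η0, hη0, K0, hK0, h⟩ := hLoc δ hδ
  refine ⟨η0, hη0, fun η η' hη hη1 hη' hη1' => ?_⟩
  obtain ⟨N1, h1⟩ := h η hη hη1 K0 le_rfl
  obtain ⟨N2, h2⟩ := h η' hη' hη1' K0 le_rfl
  refine ⟨max N1 N2, fun n hn => ?_⟩
  have e1 := port_of_whp (Q := fun n G ω => eAvg G (fun u w => min 1 (bnorm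
    (Blk (Res (Hm G s ω) (zz E K0 n)) u w - Blk (Res (Hm G s ω) (ze E η)) u w))) ≤ δ) h1 n
      (le_trans (le_max_left _ _) hn)
  have e2 := port_of_whp (Q := fun n G ω => eAvg G (fun u w => min 1 (bnorm
    (Blk (Res (Hm G s ω) (zz E K0 n)) u w - Blk (Res (Hm G s ω) (ze E η')) u w))) ≤ δ) h2 n
      (le_trans (le_max_right _ _) hn)
  have hsub : {x : PS d n | eAvg (graphOf x.1) (fun u w => min 1 (bnorm
        (Blk (Res (Hm (graphOf x.1) s x.2) (ze E η)) u w -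
          Blk (Res (Hm (graphOf x.1) s x.2) (ze E η')) u w))) ≤ 2 * δ}ᶜ ⊆
      {x : PS d n | eAvg (graphOf x.1) (fun u w => min 1 (bnorm
        (Blk (Res (Hm (graphOf x.1) s x.2) (zz E K0 n)) u w -
          Blk (Res (Hm (graphOf x.1) s x.2) (ze E η)) u w))) ≤ δ}ᶜ ∪
      {x : PS d n | eAvg (graphOf x.1) (fun u w => min 1 (bnorm
        (Blk (Res (Hm (graphOf x.1) s x.2) (zz E K0 n)) u w -
          Blk (Res (Hm (graphOf x.1) s x.2) (ze E η')) u w))) ≤ δ}ᶜ := by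
    intro x hx
    by_contra hcon
    simp only [Set.mem_union, not_or, Set.mem_compl_iff, not_not, Set.mem_ofPred_eq] at hcon hx
    apply hx
    obtain ⟨g1, g2⟩ := hcon
    refine le_trans ?_ (by linarith : _ ≤ 2 * δ) (b := eAvg (graphOf x.1) (fun u w => min 1 (bnorm
        (Blk (Res (Hm (graphOf x.1) s x.2) (zz E K0 n)) u w -
          Blk (Res (Hm (graphOf x.1) s x.2) (ze E η)) u w))) +
        eAvg (graphOf x.1) (fun u w => min 1 (bnorm
        (Blk (Res (Hm (graphOf x.1) s x.2) (zz E K0 n)) u w -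
          Blk (Res (Hm (graphOf x.1) s x.2) (ze E η')) u w))))
    unfold eAvg
    rw [← add_div, ← Finset.sum_add_distrib]
    refine div_le_div_of_nonneg_right (Finset.sum_le_sum fun p _ => ?_) (by positivity)
    set Z := Blk (Res (Hm (graphOf x.1) s x.2) (zz E K0 n)) p.1 p.2
    set A := Blk (Res (Hm (graphOf x.1) s x.2) (ze E η)) p.1 p.2
    set B := Blk (Res (Hm (graphOf x.1) s x.2) (ze E η')) p.1 p.2
    show min 1 (bnorm (A - B)) ≤ min 1 (bnorm (Z - A)) + min 1 (bnorm (Z - B))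
    have h3 : bnorm (A - B) ≤ bnorm (Z - A) + bnorm (Z - B) := by
      have : A - B = -(Z - A) + (Z - B) := by abel
      rw [this]
      refine (bnorm_add_le _ _).trans ?_
      rw [bnorm_neg]
    have h4 := bnorm_nonneg (Z - A)
    have h5 := bnorm_nonneg (Z - B)
    rcases le_total 1 (bnorm (Z - A)) with h6 | h6
    · rw [min_eq_left h6]
      have : 0 ≤ min 1 (bnorm (Z - B)) := le_min zero_le_one h5
      have := min_le_left 1 (bnorm (A - B))
      linarith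
    · rcases le_total 1 (bnorm (Z - B)) with h7 | h7
      · rw [min_eq_left h7]
        have : 0 ≤ min 1 (bnorm (Z - A)) := le_min zero_le_one h4
        have := min_le_left 1 (bnorm (A - B))
        linarith
      · rw [min_eq_right h6, min_eq_right h7]
        exact (min_le_right _ _).trans h3
  refine (measure_mono hsub).trans ((measure_union_le _ _).trans ((add_le_add e1 e2).trans ?_))
  rw [← ENNReal.ofReal_add hδ.le hδ.le, two_mul]

/-! ### The extraction -/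

/-- **From the failure of Theorem B to the extracted sequence.**  First the frame number, the test
function, the size `ε` of the violation, the budget `b` and the selection `Fs`; then, for every
sequence `ηs → 0` of spectral parameters and every family `G1 m i` of (level dependent) events
whose complements have probability at most `b / 4^i` for large `n`: the sequence. -/
theorem exists_counter {d : ℕ} [NeZero d] {s E ρ : ℝ} (hLoc : LocLim d s E)
    (hT : ¬ ThmB d s E ρ) :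
    ∃ (k : ℕ) (K' : ℝ) (τ : Fin k → Fin 2 → ℝ) (χ : Matrix (Fin 2) (Fin 2) ℂ → ℝ) (ε b : ℝ)
      (Fs : ℕ → ∀ n, SimpleGraph (Fin n) → (Fin n → ℝ) → Fin k → Fin n → ℝ),
      Continuous χ ∧ HasCompactSupport χ ∧ 0 < ε ∧ 0 < b ∧
      (∀ m n G ω, IsFrame (Hm G s ω) E K' k (Fs m n G ω) ∨ Fs m n G ω = 0) ∧
      ∀ (ηs : ℕ → ℝ), (∀ l, 0 < ηs l) → Tendsto ηs atTop (𝓝 0) →
      ∀ (G1 : ℕ → ℕ → ∀ n, Set (PS d n)),
        (∀ m i, ∃ N : ℕ, ∀ n, N ≤ n →
          portLaw d n (G1 m i n)ᶜ ≤ ENNReal.ofReal (b / 4 ^ i)) →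
      ∃ (S : Seq980.Seq d k) (m φ : ℕ → ℕ), (∀ j, j ≤ m j) ∧ StrictMono φ ∧
        (∀ j, ∀ x ∈ S.U j, IsFrame (Hm (graphOf x.1) s x.2) E K' k (S.F j x)) ∧
        (∀ j, ∀ x ∈ S.U j, S.F j x = Fs (m j) (S.n j) (graphOf x.1) x.2) ∧
        (∀ j, ∀ i ≤ j, S.U j ⊆ G1 (m j) i (S.n j)) ∧
        (∀ i, ∀ᶠ j in atTop, ∀ x ∈ S.U j,
          ε ≤ ‖viol s E ρ (ηs (φ i)) τ χ (graphOf x.1) x.2 (S.F j x)‖) := by
  classical
  unfold ThmB at hT
  push Not at hT
  obtain ⟨k, K', τ, χ, hχ, hχs, ε, hε, hT⟩ := hT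
  -- the levels
  have hlev : ∀ m : ℕ, ∃ η : ℝ, 0 < η ∧ η ≤ 1 / ((m : ℝ) + 1) ∧ ∀ N : ℕ, ∃ n : ℕ, N ≤ n ∧
      (regularGraphs n d).Nonempty ∧ ¬ Whp n d ε fun G ω => ∀ F : Fin k → Fin n → ℝ,
        IsFrame (Hm G s ω) E K' k F → ‖viol s E ρ η τ χ G ω F‖ ≤ ε := by
    intro m
    obtain ⟨η, hη, hη1, h⟩ := hT (1 / ((m : ℝ) + 1)) (by positivity)
    exact ⟨η, hη, hη1, h⟩
  choose ηm hηm hηm1 hbadn using hlev
  -- the selection
  let Fs : ℕ → ∀ n, SimpleGraph (Fin n) → (Fin n → ℝ) → Fin k → Fin n → ℝ := fun m n G ω =>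
    if h : ∃ F : Fin k → Fin n → ℝ, IsFrame (Hm G s ω) E K' k F ∧
      ε < ‖viol s E ρ (ηm m) τ χ G ω F‖ then h.choose else 0
  have hFs : ∀ m n (G : SimpleGraph (Fin n)) ω, (∃ F : Fin k → Fin n → ℝ,
      IsFrame (Hm G s ω) E K' k F ∧ ε < ‖viol s E ρ (ηm m) τ χ G ω F‖) →
      IsFrame (Hm G s ω) E K' k (Fs m n G ω) ∧
        ε < ‖viol s E ρ (ηm m) τ χ G ω (Fs m n G ω)‖ := by
    intro m n G ω h
    have : Fs m n G ω = h.choose := dif_pos h
    rw [this]
    exact h.choose_spec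
  have hFs0 : ∀ m n (G : SimpleGraph (Fin n)) ω, IsFrame (Hm G s ω) E K' k (Fs m n G ω) ∨
      Fs m n G ω = 0 := by
    intro m n G ω
    by_cases h : ∃ F : Fin k → Fin n → ℝ, IsFrame (Hm G s ω) E K' k F ∧
      ε < ‖viol s E ρ (ηm m) τ χ G ω F‖
    · exact Or.inl (hFs m n G ω h).1
    · exact Or.inr (dif_neg h)
  set ε1 : ℝ := min ε 1 with hε1
  have hε1pos : 0 < ε1 := lt_min hε one_pos
  refine ⟨k, K', τ, χ, ε / 2, ε1 / 128, Fs, hχ, hχs, by positivity, by positivity, hFs0, ?_⟩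
  intro ηs hηpos hηlim G1 hG1
  -- the accuracies
  set dl : ℕ → ℝ := fun i => ε1 / 4 ^ (i + 4) with hdl
  have hdlpos : ∀ i, 0 < dl i := fun i => by simp only [hdl]; positivity
  choose η0 hη0 hpair using fun i => loc_pair hLoc (hdlpos i)
  -- the subsequence of `ηs`
  have hsub : ∃ l : ℕ → ℕ, StrictMono l ∧ ∀ i, ηs (l i) ≤ η0 i := by
    have h1 : ∀ i, ∀ᶠ j in atTop, ηs j ≤ η0 i := fun i =>
      (hηlim.eventually (gt_mem_nhds (hη0 i))).mono fun j hj => hj.le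
    exact extraction_forall_of_eventually h1
  obtain ⟨l, hl, hlη⟩ := hsub
  let Good : ℕ → ℕ → ∀ n, Set (PS d n) := fun m i n =>
    {x | ηm m ≤ η0 i → eAvg (graphOf x.1) (fun u w => min 1 (bnorm
        (Blk (Res (Hm (graphOf x.1) s x.2) (ze E (ηm m))) u w -
          Blk (Res (Hm (graphOf x.1) s x.2) (ze E (ηs (l i)))) u w))) ≤ 2 * dl i} ∩ G1 m i n
  obtain ⟨S, m, hm, hPB, hUG0, hUG⟩ := Seq980.exists_seq (d := d) (k := k) ε hε
    (fun m n x F => IsFrame (Hm (graphOf x.1) s x.2) E K' k F ∧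
      F = Fs m n (graphOf x.1) x.2 ∧ ε < ‖viol s E ρ (ηm m) τ χ (graphOf x.1) x.2 F‖)
    (by
      intro m n x F hF i
      have h1 := hF.1.1 i i
      simp only [if_true] at h1
      rw [← h1]
      exact Finset.sum_congr rfl fun v _ => by ring)
    (by
      intro m N
      obtain ⟨n, hn, hne, hW⟩ := hbadn m N
      refine ⟨n, hn, ?_⟩
      rw [Seq980.Whp_iff_port, not_le] at hW
      refine hW.trans_le (measure_mono ?_)
      intro x hx
      have hx' : ∃ F : Fin k → Fin n → ℝ, IsFrame (Hm (graphOf x.1) s x.2) E K' k F ∧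
          ε < ‖viol s E ρ (ηm m) τ χ (graphOf x.1) x.2 F‖ := by
        have hx2 : ¬ ∀ F : Fin k → Fin n → ℝ, IsFrame (Hm (graphOf x.1) s x.2) E K' k F →
          ‖viol s E ρ (ηm m) τ χ (graphOf x.1) x.2 F‖ ≤ ε := hx
        push Not at hx2
        exact hx2
      obtain ⟨h1, h2⟩ := hFs m n (graphOf x.1) x.2 hx'
      exact ⟨_, h1, rfl, h2⟩)
    (fun _ _ => Set.univ) (fun i δ hδ => ⟨0, fun n _ => by simp⟩) Good
    (by
      intro m i
      obtain ⟨N2, hN2'⟩ := hG1 m i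
      have hb4 : ε1 / 128 / 4 ^ i = 2 * dl i := by
        simp only [hdl, pow_add]
        field_simp
        norm_num
      have hN2 : ∀ n, N2 ≤ n → portLaw d n (G1 m i n)ᶜ ≤ ENNReal.ofReal (2 * dl i) := by
        intro n hn
        rw [← hb4]
        exact hN2' n hn
      have harith : ENNReal.ofReal (2 * dl i) + ENNReal.ofReal (2 * dl i) ≤
          ENNReal.ofReal (ε / 4 ^ (i + 2)) := by
        have := hdlpos i
        rw [← ENNReal.ofReal_add (by positivity) (by positivity)]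
        apply ENNReal.ofReal_le_ofReal
        simp only [hdl]
        have h1 : ε1 ≤ ε := min_le_left _ _
        have h4 : (4 : ℝ) ^ (i + 4) = 4 ^ (i + 2) * 16 := by ring
        rw [h4]
        have h5 : 2 * (ε1 / (4 ^ (i + 2) * 16)) + 2 * (ε1 / (4 ^ (i + 2) * 16))
            = (ε1 / 4) / 4 ^ (i + 2) := by field_simp; ring
        rw [h5]
        apply div_le_div_of_nonneg_right _ (by positivity)
        linarith
      by_cases hmi : ηm m ≤ η0 i
      · obtain ⟨N1, hN1⟩ := hpair i (ηm m) (ηs (l i)) (hηm m) hmi (hηpos _) (hlη i)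
        refine ⟨max N1 N2, fun n hn => ?_⟩
        have e1 := hN1 n (le_trans (le_max_left _ _) hn)
        have e2 := hN2 n (le_trans (le_max_right _ _) hn)
        refine le_trans ?_ ((add_le_add e1 e2).trans harith)
        rw [Set.compl_inter]
        refine (measure_union_le _ _).trans (add_le_add (measure_mono ?_) le_rfl)
        intro x hx hx2
        exact hx fun _ => hx2
      · refine ⟨N2, fun n hn => ?_⟩
        have e2 := hN2 n hn
        refine le_trans (measure_mono ?_) (e2.trans ?_)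
        · intro x hx hx2
          exact hx ⟨fun h => absurd h hmi, hx2⟩
        · refine le_trans ?_ harith
          exact le_self_add)
  -- the modulus of continuity
  obtain ⟨C, hC, hCb⟩ := norm_psi_le ρ τ hχ hχs
  obtain ⟨δ', hδ', huc'⟩ := psi_uc ρ τ hχ hχs (θ := ε / 4) (by positivity)
  set δ : ℝ := min δ' 1 with hδdef
  have hδ : 0 < δ := lt_min hδ' one_pos
  have huc : ∀ B B', bnorm (B - B') ≤ δ → ∀ x y,
      ‖psi ρ τ χ B x y - psi ρ τ χ B' x y‖ ≤ ε / 4 := fun B B' hB =>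
    huc' B B' (hB.trans (min_le_left _ _))
  obtain ⟨i0, hi0⟩ : ∃ i0 : ℕ, ∀ i, i0 ≤ i → 2 * C / δ * (2 * dl i) ≤ ε / 4 := by
    have h1 : Tendsto (fun i : ℕ => 2 * C / δ * (2 * dl i)) atTop (𝓝 0) := by
      have h2 : Tendsto dl atTop (𝓝 0) := by
        have h3 : Tendsto (fun i : ℕ => (1 / 4 : ℝ) ^ i) atTop (𝓝 0) :=
          tendsto_pow_atTop_nhds_zero_of_lt_one (by norm_num) (by norm_num)
        have h4 : dl = fun i => ε1 / 256 * (1 / 4 : ℝ) ^ i := by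
          funext i
          simp only [hdl, pow_add, one_div, inv_pow]
          field_simp
          norm_num
        rw [h4]
        simpa using h3.const_mul (ε1 / 256)
      simpa using (h2.const_mul 2).const_mul (2 * C / δ)
    obtain ⟨i0, h⟩ := (h1.eventually (gt_mem_nhds (show (0 : ℝ) < ε / 4 by positivity))).exists_forall_of_atTop
    exact ⟨i0, fun i hi => (h i hi).le⟩
  refine ⟨S, m, fun i => l (i0 + i), hm, ?_, ?_, ?_, ?_, ?_⟩
  · intro a b hab
    exact hl (by omega)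
  · intro j x hx
    exact (hPB j x hx).1
  · intro j x hx
    exact (hPB j x hx).2.1
  · intro j i hi x hx
    exact (hUG j i hi hx).2
  · intro i
    have hev : ∀ᶠ j : ℕ in atTop, ηm (m j) ≤ η0 (i0 + i) := by
      have h1 : Tendsto (fun j : ℕ => 1 / ((j : ℝ) + 1)) atTop (𝓝 0) :=
        tendsto_one_div_add_atTop_nhds_zero_nat
      filter_upwards [h1.eventually (gt_mem_nhds (hη0 (i0 + i)))] with j hj
      refine (hηm1 (m j)).trans (le_trans ?_ hj.le)
      apply one_div_le_one_div_of_le (by positivity)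
      have : (j : ℝ) ≤ m j := by exact_mod_cast hm j
      linarith
    filter_upwards [hev, eventually_ge_atTop (i0 + i)] with j hj hji x hx
    have g1 := (hUG j (i0 + i) hji hx).1 hj
    have g2 := (hPB j x hx).2.2
    have g3 := viol_sub_le (s := s) (E := E) hC.le hCb (by positivity : 0 ≤ ε / 4) hδ
      (min_le_right _ _) huc (ηm (m j)) (ηs (l (i0 + i))) (graphOf x.1) x.2 (S.F j x)
    have g4 : 2 * C / δ * eAvg (graphOf x.1) (fun u w => min 1 (bnorm
        (Blk (Res (Hm (graphOf x.1) s x.2) (ze E (ηm (m j)))) u w -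
          Blk (Res (Hm (graphOf x.1) s x.2) (ze E (ηs (l (i0 + i))))) u w))) ≤
        2 * C / δ * (2 * dl (i0 + i)) := by gcongr
    have g5 := hi0 (i0 + i) (by omega)
    have g6 := norm_sub_norm_le (viol s E ρ (ηm (m j)) τ χ (graphOf x.1) x.2 (S.F j x))
      (viol s E ρ (ηs (l (i0 + i))) τ χ (graphOf x.1) x.2 (S.F j x))
    linarith

end Crest.Agent.R166.Hinge980
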