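import Crest.Agent.R166.UIH_566
import Crest.Agent.R166.Spec31_501
import Crest.Agent.R166.H1_811
import Crest.Agent.R166.SwP3_470
import Crest.Agent.R166.SwInv_356

/-!
Row 166, section 31.3 (helper566): the concrete instance of `Clean566.Hyp3` for the depth `L`
ball-boundary resampling `bsw L` (valid = `BVal`, non-exceptional centre = `TL L`), from
`Spec31.S2P`; and the first order transfer `TrV` for `H4.gV L`.
-/

set_option autoImplicit false
set_option linter.unusedSectionVars false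

open Finset

namespace Crest.Agent.R166.Clean566

open Crest.Agent.R166 Stab269 Sec269 SwP470

variable {n d : ℕ} [NeZero d]

/-! ### stability of the mean of `D²` -/

/-- `V` changes by `O(1/(nη))` under a move -/
theorem stab_Vb (hd : 2 ≤ d) (hn : 0 < n) {L : ℕ} (hL : 1 ≤ L) {rs : ℝ} (hrs : 0 < rs)
    (hrs1 : rs ≤ 1) (s : ℝ) (ω : Fin n → ℝ) {E η : ℝ} (hη : 0 < η) (hη1 : η ≤ 1)
    {p : Equiv.Perm (HE n d)} (hp : IsPort p) (m : HE n d × (BI d L → HE n d)) :
    |nuAvg (Finset.univ : Finset (HE n d))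
        (fun p h => DvA rs (mc d (ze E η)) (B0 p s ω (ze E η) h) ^ 2) (bsw L p m).1 -
      nuAvg (Finset.univ : Finset (HE n d))
        (fun p h => DvA rs (mc d (ze E η)) (B0 p s ω (ze E η) h) ^ 2) p| ≤
      2056 * Fintype.card (BI d L) * (1 / (n * η)) := by
  have hz : (ze E η).im = η := by simp [ze]
  have hz0 : 0 < (ze E η).im := by rw [hz]; exact hη
  have hroot := Root355.mc_isRoot hd hz0
  have hm : ‖mc d (ze E η)‖ ≤ 1 := by
    refine hroot.norm_le_one ?_ hz0.le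
    have : (2 : ℝ) ≤ d := by exact_mod_cast hd
    linarith
  have hn' : (0 : ℝ) < n := by exact_mod_cast hn
  have hd' : (2 : ℝ) ≤ d := by exact_mod_cast hd
  have hdpos : (0 : ℝ) < d := by linarith
  set p' := (bsw L p m).1 with hp'def
  have hp' : IsPort p' := by
    have := (moveSystem n d L hL).mem_left p (mem_Ports.2 hp) m (Finset.mem_univ _)
    exact mem_Ports.1 this
  have h1 := stab_ports hp hp' s ω hz0 (obsDv_isObs hrs hrs1 (mc d (ze E η)))
  have hc : ((Ch p p').card : ℝ) ≤ 4 * Fintype.card (BI d L) := by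
    exact_mod_cast card_Ch_bsw hp m
  set N : ℝ := (Fintype.card (BI d L) : ℝ) with hN
  have hN0 : 0 ≤ N := Nat.cast_nonneg _
  unfold nuAvg
  rw [← sub_div, ← Finset.sum_sub_distrib, Finset.card_univ, IsPort.card_HE, abs_div,
    Nat.abs_cast]
  have hnd : (0 : ℝ) < ((n * d : ℕ) : ℝ) := by push_cast; positivity
  rw [div_le_iff₀ hnd]
  refine (Finset.abs_sum_le_sum_abs _ _).trans (h1.trans ?_)
  rw [hz]
  have hb : (1 + (2 * rs + ‖mc d (ze E η)‖)) ^ 2 ≤ 16 := by
    have h0 := norm_nonneg (mc d (ze E η))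
    nlinarith
  push_cast
  have e1 : 8 * (1 + (2 * rs + ‖mc d (ze E η)‖)) ^ 2 * (2 + 2) * d * ((Ch p p').card : ℝ) / η ≤
      2048 * N * d / η := by
    apply div_le_div_of_nonneg_right _ hη.le
    calc 8 * (1 + (2 * rs + ‖mc d (ze E η)‖)) ^ 2 * (2 + 2) * d * ((Ch p p').card : ℝ) ≤
        8 * 16 * (2 + 2) * d * (4 * N) := by gcongr
      _ = 2048 * N * d := by ring
  have e2 : 2 * ((Ch p p').card : ℝ) ≤ 8 * N * d / η := by
    rw [le_div_iff₀ hη]
    calc 2 * ((Ch p p').card : ℝ) * η ≤ 2 * (4 * N) * 1 := by gcongr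
      _ = 8 * N * 1 := by ring
      _ ≤ 8 * N * d := by
        apply mul_le_mul_of_nonneg_left _ (by positivity)
        linarith
  calc _ ≤ 2048 * N * d / η + 8 * N * d / η := add_le_add e1 e2
    _ = 2056 * N * (1 / (n * η)) * (n * d) := by field_simp; ring

/-- **first order transfer for `H4.gV L`** -/
theorem trV_gV (hd : 2 ≤ d) (hn : 0 < n) {L : ℕ} (hL : 1 ≤ L) {rs : ℝ} (hrs : 0 < rs)
    (hrs1 : rs ≤ 1) (s : ℝ) (ω : Fin n → ℝ) {E η : ℝ} (hη : 0 < η) (hη1 : η ≤ 1) :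
    TrV (Ports n d) (fun p => SpecA.Vp rs p s ω (ze E η)) (fun p => H4.gV L rs s ω (ze E η) p)
      (2056 * Fintype.card (BI d L)) (1 / (n * η)) := by
  have h := trV_of_moves (moveSystem n d L hL) (H4.univ_nonempty L hn)
    (fun p h => DvA rs (mc d (ze E η)) (B0 p s ω (ze E η) h) ^ 2) (B := 1)
    (C := 2056 * Fintype.card (BI d L)) (κ := 1 / (n * η))
    (by
      intro p _ e _
      have h0 := DvA_nonneg hrs.le (mc d (ze E η)) (B0 p s ω (ze E η) e)
      have h1 := DvA_le rs (mc d (ze E η)) (B0 p s ω (ze E η) e)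
      rw [abs_of_nonneg (by positivity)]
      nlinarith)
    (by
      intro p hp m _
      rw [one_mul]
      exact stab_Vb hd hn hL hrs hrs1 s ω hη hη1 (mem_Ports.1 hp) m)
  have e1 : (fun p : Equiv.Perm (HE n d) => SpecA.Vp rs p s ω (ze E η)) =
      fun p => nuAvg (Finset.univ : Finset (HE n d))
        (fun p h => DvA rs (mc d (ze E η)) (B0 p s ω (ze E η) h) ^ 2) p := by
    funext p
    rw [H4.Vp_eq]
    rfl
  rw [e1]
  exact h

/-! ### the concrete moves -/

/-- the move at `h` with choices `b` -/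
noncomputable def swc {L : ℕ} (hL : 1 ≤ L) (p : {p // p ∈ Ports n d}) (h : HE n d)
    (b : BI d L → HE n d) : {p // p ∈ Ports n d} :=
  ⟨(bsw L p.1 (h, b)).1, (moveSystem n d L hL).mem_left p.1 p.2 (h, b) (Finset.mem_univ _)⟩

lemma swc_val {L : ℕ} (hL : 1 ≤ L) {p : {p // p ∈ Ports n d}} {h : HE n d}
    {b : BI d L → HE n d} (hb : BVal L p.1 h b) : (swc hL p h b).1 = np p.1 h b := by
  show (bsw L p.1 (h, b)).1 = _
  rw [bsw_pos (m := (h, b)) hb]

lemma sum_ports_dite (g : {p // p ∈ Ports n d} → ℝ) :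
    ∑ G, g G = ∑ p ∈ Ports n d, (if h : p ∈ Ports n d then g ⟨p, h⟩ else 0) := by
  classical
  rw [← Finset.sum_coe_sort (Ports n d) (fun p => if h : p ∈ Ports n d then g ⟨p, h⟩ else 0)]
  refine Finset.sum_congr rfl fun G _ => ?_
  rw [dif_pos G.2]

open Classical in
lemma trv_swc {L : ℕ} (hL : 1 ≤ L) (F : {p // p ∈ Ports n d} → HE n d → ℝ) :
    (∑ G : {p // p ∈ Ports n d}, ∑ e, ∑ b : BI d L → HE n d,
      if BVal L G.1 e b then F (swc hL G e b) e else 0) =
    ∑ G : {p // p ∈ Ports n d}, ∑ e, ∑ b : BI d L → HE n d,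
      if BVal L G.1 e b then F G e else 0 := by
  set F' : Equiv.Perm (HE n d) → HE n d × (BI d L → HE n d) → ℝ := fun p m =>
    if h : p ∈ Ports n d then (if BVal L p m.1 m.2 then F ⟨p, h⟩ m.1 else 0) else 0 with hF'
  have h1 := sum_change (moveSystem n d L hL) F'
  have h2 : (∑ G : {p // p ∈ Ports n d}, ∑ e, ∑ b : BI d L → HE n d,
      if BVal L G.1 e b then F G e else 0) = ∑ p ∈ Ports n d, ∑ m, F' p m := by
    rw [sum_ports_dite]
    refine Finset.sum_congr rfl fun p hp => ?_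
    rw [dif_pos hp, Fintype.sum_prod_type (f := fun m => F' p m)]
    refine Finset.sum_congr rfl fun e _ => Finset.sum_congr rfl fun b _ => ?_
    rw [hF']
    dsimp only
    rw [dif_pos hp]
  have h3 : (∑ G : {p // p ∈ Ports n d}, ∑ e, ∑ b : BI d L → HE n d,
      if BVal L G.1 e b then F (swc hL G e b) e else 0) =
      ∑ p ∈ Ports n d, ∑ m, F' (bsw L p m).1 (bsw L p m).2 := by
    rw [sum_ports_dite]
    refine Finset.sum_congr rfl fun p hp => ?_
    rw [dif_pos hp, Fintype.sum_prod_type (f := fun m => F' (bsw L p m).1 (bsw L p m).2)]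
    refine Finset.sum_congr rfl fun e _ => Finset.sum_congr rfl fun b _ => ?_
    have hmem := (moveSystem n d L hL).mem_left p hp (e, b) (Finset.mem_univ _)
    rw [hF']
    dsimp only
    rw [dif_pos hmem]
    by_cases hb : BVal L p e b
    · rw [if_pos hb, if_pos]
      · unfold swc
        have : (bsw L p (e, b)).2.1 = e := (moveSystem n d L hL).ctr_sw p hp (e, b)
          (Finset.mem_univ _)
        rw [this]
      · rw [bsw_pos (m := (e, b)) hb]
        exact hb.symm hL (mem_Ports.1 hp)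
    · rw [if_neg hb, if_neg]
      rw [bsw_neg (m := (e, b)) hb]
      exact hb
  rw [h2, h3, h1]

open Classical in
lemma many_swc {L : ℕ} (hn : 0 < n) (hnL : 2 * SwInv356.Cinv d L ≤ n) {p : Equiv.Perm (HE n d)}
    (hp : IsPort p) {h0 : HE n d} (htl : TL L p h0) :
    (1 / 2 : ℝ) ≤ av fun b : BI d L → HE n d => if BVal L p h0 b then (1 : ℝ) else 0 := by
  have hn' : (0 : ℝ) < n := by exact_mod_cast hn
  have hne : Nonempty (BI d L → HE n d) := ⟨fun _ => h0⟩
  have hc : (0 : ℝ) < Fintype.card (BI d L → HE n d) := by exact_mod_cast Fintype.card_pos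
  have h1 := SwInv356.card_inv_le hn hp htl
  have h2 : ((SwInv356.Cinv d L : ℝ) / n) ≤ 1 / 2 := by
    rw [div_le_iff₀ hn']
    have : (2 : ℝ) * SwInv356.Cinv d L ≤ n := by exact_mod_cast hnL
    linarith
  have h3 : (∑ b : BI d L → HE n d, if BVal L p h0 b then (1 : ℝ) else 0) =
      Fintype.card (BI d L → HE n d) -
        ((univ.filter fun b : BI d L → HE n d => ¬ BVal L p h0 b).card : ℝ) := by
    rw [Finset.sum_boole]
    have h4 := Finset.card_filter_add_card_filter_not (s := (univ : Finset (BI d L → HE n d)))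
      (fun b => BVal L p h0 b)
    rw [Finset.card_univ] at h4
    have h5 : ((univ.filter fun b : BI d L → HE n d => BVal L p h0 b).card : ℝ) +
        ((univ.filter fun b : BI d L → HE n d => ¬ BVal L p h0 b).card : ℝ) =
        Fintype.card (BI d L → HE n d) := by exact_mod_cast h4
    linarith
  unfold av
  rw [h3, le_div_iff₀ hc]
  nlinarith

lemma card_Sv_le (L : ℕ) (p : Equiv.Perm (HE n d)) (h0 : HE n d) :
    (Spec30.Sv L p h0).card ≤ Fintype.card (SwInv356.BW d L) := by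
  classical
  have h1 : Spec30.Sv L p h0 ⊆ Finset.univ.image (SwInv356.bvi p h0 : SwInv356.BW d L → Fin n) := by
    intro v hv
    unfold Spec30.Sv at hv
    simp only [Finset.mem_filter, Finset.mem_univ, true_and] at hv
    obtain ⟨s, w, hw, hl, rfl⟩ := hv
    obtain ⟨j, hj⟩ := SwInv356.exists_bvi (p := p) (h0 := h0) s hw hl
    rw [Finset.mem_image]
    exact ⟨j, Finset.mem_univ _, by rw [← hj]⟩
  exact (Finset.card_le_card h1).trans Finset.card_image_le

/-- entries of the edge block at a good half-edge -/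
lemma im_le_of_dev {p : Equiv.Perm (HE n d)} (hp : IsPort p) (hd : 3 ≤ d) (s : ℝ) (ω : Fin n → ℝ)
    {z : ℂ} (hz : 0 < z.im) {h : HE n d} (hD : SpecA.dev p s ω z h ≤ 1 / 16) :
    (Res789.Res (Hm (graphOf p) s ω) z h.1 h.1).im +
      (Res789.Res (Hm (graphOf p) s ω) z (p h).1 (p h).1).im ≤ 16 := by
  have hm := (Root355.mc_isRoot (d := d) (by omega) hz).b_normSq_le hz.le
  have hd' : (3 : ℝ) ≤ d := by exact_mod_cast hd
  have hm2 : 2 * Complex.normSq (mc d z) ≤ 1 := by
    have h0 := Complex.normSq_nonneg (mc d z)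
    nlinarith
  have h0 := norm_block_le (Stab269.regB_BE hp s ω hz h) hm2 hD 0 0
  have h1 := norm_block_le (Stab269.regB_BE hp s ω hz h) hm2 hD 1 1
  have e0 : BE p s ω z h 0 0 = Res (Hm (graphOf p) s ω) z h.1 h.1 := by
    simp [BE, Blk]
  have e1 : BE p s ω z h 1 1 = Res (Hm (graphOf p) s ω) z (p h).1 (p h).1 := by
    simp [BE, Blk]
  rw [e0] at h0
  rw [e1] at h1
  have h2 := (Complex.abs_im_le_norm (Res (Hm (graphOf p) s ω) z h.1 h.1)).trans h0
  have h3 := (Complex.abs_im_le_norm (Res (Hm (graphOf p) s ω) z (p h).1 (p h).1)).trans h1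
  rw [Rev811.Res_eq]
  have h4 := le_abs_self (Res (Hm (graphOf p) s ω) z h.1 h.1).im
  have h5 := le_abs_self (Res (Hm (graphOf p) s ω) z (p h).1 (p h).1).im
  linarith

/-- `Adm` is antitone in the threshold -/
lemma AdmP.mono {L : ℕ} {r1 r2 ε : ℝ} (h12 : r1 ≤ r2) {p : Equiv.Perm (HE n d)} {s : ℝ}
    {ω : Fin n → ℝ} {z : ℂ} {h0 : HE n d} {S : Finset (BI d L)} {b : BI d L → HE n d}
    (h : Rev811.Adm (fun x => r1 ≤ SpecA.dev p s ω z x)
      (Rev811.CpW (Spec30.Sv L p h0) (Res789.Res (Hm (graphOf p) s ω) z) p ε)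
      (Rev811.PrW (Res789.Res (Hm (graphOf p) s ω) z) p ε) S b) :
    Spec30.AdmP L r2 ε p s ω z h0 S b := by
  refine ⟨fun j hj => ?_, h.2⟩
  have h1 := h.1 j hj
  unfold Rev811.Wk at h1 ⊢
  rw [not_or] at h1 ⊢
  refine ⟨?_, h1.2⟩
  unfold Spec30.BadP SpecA.Dv
  intro h2
  apply h1.1
  exact h12.trans (h2.trans (min_le_right _ _))

open Classical in
/-- **the quadratic bound** -/
theorem quad_of_S2 {L : ℕ} (hd : 3 ≤ d) {A rs r r1 ρ ε s1 : ℝ} (hr : 0 < r) (hε : 0 < ε)
    (hρ : 0 < ρ) (hρ1 : 2 * ρ ≤ r1) (hρ2 : 2 * ρ ≤ 1 / 16) (hρ3 : 2 * ρ ≤ rs)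
    (hS2 : ∀ (n : ℕ) (E s η : ℝ) (ω : Fin n → ℝ), Spec30.Rng A n E s η ω → |s| ≤ s1 →
        ∀ p : Equiv.Perm (HE n d), IsPort p → ∀ (h0 : HE n d) (b : BI d L → HE n d),
          BVal L p h0 b → ∀ S : Finset (BI d L), S.card ≤ 2 →
            Spec30.AdmP L r1 ε p s ω (ze E η) h0 S b →
              SpecA.dev (np p h0 b) s ω (ze E η) h0 < r)
    {E s η : ℝ} {ω : Fin n → ℝ} (hR : Spec30.Rng A n E s η ω) (hs : |s| ≤ s1)
    (p : {p // p ∈ Ports n d}) (hL : 1 ≤ L) (h0 : HE n d) :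
    (av fun b : BI d L → HE n d => if BVal L p.1 h0 b ∧
      r < SpecA.Dv rs (swc hL p h0 b).1 s ω (ze E η) h0 then (1 : ℝ) else 0) ≤
      (4 * (Fintype.card (BI d L) : ℝ) ^ 4 *
        (1 + (2 * (Fintype.card (SwInv356.BW d L) + 4 : ℝ) + 2 * 16) / ε ^ 2) ^ 2) *
      (pp (fun (p : {p // p ∈ Ports n d}) h => SpecA.Dv rs p.1 s ω (ze E η) h) ρ p +
        1 / (n * η)) ^ 2 := by
  have hp := mem_Ports.1 p.2
  have hz : (ze E η).im = η := by simp [ze]
  have hz0 : 0 < (ze E η).im := by rw [hz]; exact hR.η0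
  have hn := hR.n0
  have hn' : (0 : ℝ) < n := by exact_mod_cast hn
  have hη := hR.η0
  have hdpos : 0 < d := by omega
  set Dt : (BI d L → HE n d) → ℝ := fun b => if BVal L p.1 h0 b then
    SpecA.dev (np p.1 h0 b) s ω (ze E η) h0 else 0 with hDt
  have h1 := Rev811.pr_bad_le (ι := BI d L) (N := Fintype.card (BI d L))
    (s0 := Fintype.card (SwInv356.BW d L)) (M := 16) (r := r) (r1 := 2 * ρ) (ε := ε)
    (by norm_num) hε rfl hdpos (Hm_symm (graphOf p.1) s ω) hz0 hn p.1 (Spec30.Sv L p.1 h0)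
    (card_Sv_le L p.1 h0) (fun x => SpecA.dev p.1 s ω (ze E η) x)
    (by
      intro x hx
      apply im_le_of_dev hp hd s ω hz0
      push Not at hx
      linarith)
    Dt
    (by
      intro b S hS hadm
      rw [hDt]
      dsimp only
      split_ifs with hb
      · exact hS2 n E s η ω hR hs p.1 hp h0 b hb S hS (AdmP.mono hρ1 hadm)
      · exact hr)
  rw [hz] at h1
  have h2 : (av fun b : BI d L → HE n d => if BVal L p.1 h0 b ∧
      r < SpecA.Dv rs (swc hL p h0 b).1 s ω (ze E η) h0 then (1 : ℝ) else 0) ≤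
      Rev811.pr (fun b => r ≤ Dt b) := by
    unfold Rev811.pr
    have e1 : ∀ f : (BI d L → HE n d) → ℝ, Rev811.av f = av f := fun f => rfl
    rw [e1]
    apply av_mono
    intro b
    by_cases hb : BVal L p.1 h0 b ∧ r < SpecA.Dv rs (swc hL p h0 b).1 s ω (ze E η) h0
    · rw [if_pos hb, if_pos]
      rw [hDt]
      dsimp only
      rw [if_pos hb.1]
      have h3 := hb.2
      rw [swc_val hL hb.1] at h3
      exact h3.le.trans (min_le_right _ _)
    · rw [if_neg hb]
      split_ifs <;> norm_num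
  have h3 : Rev811.pr1 (fun x => 2 * ρ ≤ SpecA.dev p.1 s ω (ze E η) x) ≤
      pp (fun (p : {p // p ∈ Ports n d}) h => SpecA.Dv rs p.1 s ω (ze E η) h) ρ p := by
    unfold Rev811.pr1 pp
    have e1 : ∀ f : HE n d → ℝ, Rev811.av1 f = av f := fun f => rfl
    rw [e1]
    apply av_mono
    intro x
    by_cases hx : 2 * ρ ≤ SpecA.dev p.1 s ω (ze E η) x
    · rw [if_pos hx, if_pos]
      unfold SpecA.Dv
      rw [lt_min_iff]
      constructor <;> linarith
    · rw [if_neg hx]
      split_ifs <;> norm_num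
  set Q : ℝ := (2 * (Fintype.card (SwInv356.BW d L) + 4 : ℝ) + 2 * 16) / ε ^ 2 with hQ
  have hQ0 : 0 ≤ Q := by positivity
  have hpp := pp_nonneg (fun (p : {p // p ∈ Ports n d}) h => SpecA.Dv rs p.1 s ω (ze E η) h) ρ p
  set P : ℝ := pp (fun (p : {p // p ∈ Ports n d}) h => SpecA.Dv rs p.1 s ω (ze E η) h) ρ p with hP
  have hκ : (0 : ℝ) ≤ 1 / (n * η) := by positivity
  have h4 : Rev811.pr1 (fun x => 2 * ρ ≤ SpecA.dev p.1 s ω (ze E η) x) + Q / (n * η) ≤
      (1 + Q) * (P + 1 / (n * η)) := by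
    have e1 : Q / (n * η) = Q * (1 / (n * η)) := by ring
    rw [e1]
    nlinarith
  refine h2.trans (h1.trans ?_)
  have h5 : 0 ≤ Rev811.pr1 (fun x => 2 * ρ ≤ SpecA.dev p.1 s ω (ze E η) x) + Q / (n * η) :=
    add_nonneg (Rev811.pr1_nonneg _) (by positivity)
  calc _ ≤ 4 * (Fintype.card (BI d L) : ℝ) ^ 4 * ((1 + Q) * (P + 1 / (n * η))) ^ 2 := by
        apply mul_le_mul_of_nonneg_left _ (by positivity)
        exact pow_le_pow_left₀ h5 h4 2
    _ = _ := by ring

end Crest.Agent.R166.Clean566
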