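import Crest.Agent.R166.PertMn_424

/-!
# R166 / ImLimS_424 (helper424)

Task E3 of 32G: `ImLim` (scale `K / n`) from `ImFix` (fixed small `η`), `LocLim` and uniform
integrability of `Im R_vv` at both scales; calculus of `Whp`.
-/

set_option autoImplicit false

open Matrix MeasureTheory
open scoped BigOperators ENNReal

namespace Crest.Agent.R166.ImLimS424

open Crest.Agent.R166 Crest.ProbabilityR.RandomMatrix Crest.Agent.R166.PertMn424

/-! ### calculus of `Whp` -/

section whp

variable {n d : ℕ}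

lemma gLaw_notMem_reg : gLaw n d {G | G ∉ regularGraphs n d} = 0 := by
  unfold gLaw
  rw [Measure.smul_apply, Measure.finsetSum_apply]
  have h : ∀ G ∈ regularGraphs n d,
      (Measure.dirac G : Measure (SimpleGraph (Fin n))) {G | G ∉ regularGraphs n d} = 0 := by
    intro G hG
    rw [Measure.dirac_apply' _ (MeasurableSet.of_discrete)]
    simp [hG]
  rw [Finset.sum_eq_zero h, smul_zero]

lemma law_notMem_reg : law n d {x | x.1 ∉ regularGraphs n d} = 0 := by
  have e : {x : SimpleGraph (Fin n) × (Fin n → ℝ) | x.1 ∉ regularGraphs n d} =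
      {G | G ∉ regularGraphs n d} ×ˢ Set.univ := by
    ext x; simp
  rw [e]
  have h := Measure.prod_prod_le (μ := gLaw n d) (ν := potentialLaw n)
    {G | G ∉ regularGraphs n d} Set.univ
  unfold law
  rw [gLaw_notMem_reg, zero_mul] at h
  exact le_antisymm h bot_le

/-- monotonicity: only regular graphs matter -/
theorem Whp.mono {ε ε' : ℝ} {P Q : SimpleGraph (Fin n) → (Fin n → ℝ) → Prop} (h : Whp n d ε P)
    (hε : ε ≤ ε') (hPQ : ∀ G ∈ regularGraphs n d, ∀ ω, P G ω → Q G ω) : Whp n d ε' Q := by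
  unfold Whp at *
  calc (law n d) {x | ¬ Q x.1 x.2}
      ≤ (law n d) ({x | ¬ P x.1 x.2} ∪ {x | x.1 ∉ regularGraphs n d}) := by
        refine measure_mono fun x hx => ?_
        by_cases hG : x.1 ∈ regularGraphs n d
        · left
          intro hP
          exact hx (hPQ _ hG _ hP)
        · right; exact hG
    _ ≤ (law n d) {x | ¬ P x.1 x.2} + (law n d) {x | x.1 ∉ regularGraphs n d} :=
        measure_union_le _ _
    _ ≤ ENNReal.ofReal ε' := by
        rw [law_notMem_reg, add_zero]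
        exact h.trans (ENNReal.ofReal_le_ofReal hε)

/-- union bound -/
theorem Whp.and {ε ε' : ℝ} {P Q : SimpleGraph (Fin n) → (Fin n → ℝ) → Prop} (hε : 0 ≤ ε)
    (hε' : 0 ≤ ε') (h : Whp n d ε P) (h' : Whp n d ε' Q) :
    Whp n d (ε + ε') fun G ω => P G ω ∧ Q G ω := by
  unfold Whp at *
  calc (law n d) {x | ¬ (P x.1 x.2 ∧ Q x.1 x.2)}
      ≤ (law n d) ({x | ¬ P x.1 x.2} ∪ {x | ¬ Q x.1 x.2}) := by
        refine measure_mono fun x hx => ?_
        by_cases hP : P x.1 x.2
        · right; exact fun hQ => hx ⟨hP, hQ⟩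
        · left; exact hP
    _ ≤ (law n d) {x | ¬ P x.1 x.2} + (law n d) {x | ¬ Q x.1 x.2} := measure_union_le _ _
    _ ≤ ENNReal.ofReal ε + ENNReal.ofReal ε' := add_le_add h h'
    _ = ENNReal.ofReal (ε + ε') := (ENNReal.ofReal_add hε hε').symm

end whp

/-! ### averages -/

section avg

variable {n d : ℕ}

lemma sum_darts (G : SimpleGraph (Fin n)) (hG : G ∈ regularGraphs n d) (f : Fin n → ℝ) :
    ∑ p ∈ darts G, f p.1 = d * ∑ v, f v := by
  classical
  have hdeg : ∀ v, (Finset.univ.filter fun w => G.Adj v w).card = d := by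
    have := hG
    unfold regularGraphs at this
    simpa using this
  unfold darts
  rw [Finset.sum_filter]
  rw [← Finset.univ_product_univ, Finset.sum_product]
  rw [Finset.mul_sum]
  refine Finset.sum_congr rfl fun v _ => ?_
  have : ∑ w : Fin n, (if G.Adj v w then f v else 0) = d * f v := by
    rw [← Finset.sum_filter, Finset.sum_const, nsmul_eq_mul]
    congr 2
    convert hdeg v
  convert this

lemma card_darts (G : SimpleGraph (Fin n)) (hG : G ∈ regularGraphs n d) :
    ((darts G).card : ℝ) = n * d := by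
  have h := sum_darts G hG fun _ => (1 : ℝ)
  simp only [Finset.sum_const, nsmul_eq_mul, mul_one, Finset.card_univ, Fintype.card_fin] at h
  rw [h]; ring

/-- the average over directed edges of a function of the first vertex -/
theorem eAvg_fst {G : SimpleGraph (Fin n)} (hd : 0 < d) (hG : G ∈ regularGraphs n d)
    (f : Fin n → ℝ) : eAvg G (fun u _ => f u) = vAvg f := by
  unfold eAvg vAvg
  rw [sum_darts G hG f, card_darts G hG]
  have : (d : ℝ) ≠ 0 := by exact_mod_cast hd.ne'
  rw [mul_comm (n : ℝ), mul_div_mul_left _ _ this]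

lemma eAvg_mono {G : SimpleGraph (Fin n)} {f g : Fin n → Fin n → ℝ} (h : ∀ u w, f u w ≤ g u w) :
    eAvg G f ≤ eAvg G g := by
  unfold eAvg
  exact div_le_div_of_nonneg_right (Finset.sum_le_sum fun p _ => h p.1 p.2) (Nat.cast_nonneg _)

lemma vAvg_mono {f g : Fin n → ℝ} (h : ∀ v, f v ≤ g v) : vAvg f ≤ vAvg g := by
  unfold vAvg
  exact div_le_div_of_nonneg_right (Finset.sum_le_sum fun v _ => h v) (Nat.cast_nonneg _)

lemma vAvg_add (f g : Fin n → ℝ) : vAvg (fun v => f v + g v) = vAvg f + vAvg g := by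
  unfold vAvg
  rw [Finset.sum_add_distrib, add_div]

lemma vAvg_sub (f g : Fin n → ℝ) : vAvg (fun v => f v - g v) = vAvg f - vAvg g := by
  unfold vAvg
  rw [Finset.sum_sub_distrib, sub_div]

lemma vAvg_const_mul (c : ℝ) (f : Fin n → ℝ) : vAvg (fun v => c * f v) = c * vAvg f := by
  unfold vAvg
  rw [← Finset.mul_sum, mul_div_assoc]

lemma abs_vAvg_le (f : Fin n → ℝ) : |vAvg f| ≤ vAvg fun v => |f v| := by
  unfold vAvg
  rw [abs_div, Nat.abs_cast]
  exact div_le_div_of_nonneg_right (Finset.abs_sum_le_sum_abs _ _) (Nat.cast_nonneg _)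

lemma mn_im (H : Matrix (Fin n) (Fin n) ℝ) (z : ℂ) :
    (mn H z).im = vAvg fun v => (Res H z v v).im := by
  unfold mn vAvg Matrix.trace
  rw [Complex.div_natCast_im, Complex.im_sum]
  rfl

/-- truncated first moments -/
noncomputable def tail (M : ℝ) (f : Fin n → ℝ) : ℝ := vAvg fun v => if M < f v then f v else 0

lemma tail_mono {M M' : ℝ} (h : M ≤ M') {f : Fin n → ℝ} (hf : ∀ v, 0 ≤ f v) :
    tail M' f ≤ tail M f := by
  refine vAvg_mono fun v => ?_
  by_cases h1 : M' < f v
  · rw [if_pos h1, if_pos (lt_of_le_of_lt h h1)]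
  · rw [if_neg h1]
    split_ifs
    · exact hf v
    · exact le_rfl

lemma abs_sub_le_trunc {a b M t : ℝ} (ha : 0 ≤ a) (hb : 0 ≤ b) (hM : 1 ≤ M) (ht : |a - b| ≤ t) :
    |a - b| ≤ M * min 1 t + (if M < a then a else 0) + (if M < b then b else 0) := by
  have hmin : 0 ≤ min 1 t := le_min zero_le_one ((abs_nonneg _).trans ht)
  by_cases h1 : M < a
  · by_cases h2 : M < b
    · rw [if_pos h1, if_pos h2]
      have : |a - b| ≤ a + b := by
        rw [abs_le]; constructor <;> linarith
      nlinarith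
    · rw [if_pos h1, if_neg h2]
      push Not at h2
      have : |a - b| ≤ a := by
        rw [abs_le]; constructor <;> linarith
      nlinarith
  · by_cases h2 : M < b
    · rw [if_neg h1, if_pos h2]
      push Not at h1
      have : |a - b| ≤ b := by
        rw [abs_le]; constructor <;> linarith
      nlinarith
    · rw [if_neg h1, if_neg h2]
      push Not at h1 h2
      have h3 : |a - b| ≤ M := by
        rw [abs_le]; constructor <;> linarith
      rcases le_total 1 t with h | h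
      · rw [min_eq_left h]; linarith
      · rw [min_eq_right h]
        have : 0 ≤ t := (abs_nonneg _).trans ht
        nlinarith

/-- deterministic comparison of the two scales -/
theorem abs_mn_im_sub_le {G : SimpleGraph (Fin n)} (hd : 0 < d) (hG : G ∈ regularGraphs n d)
    {H : Matrix (Fin n) (Fin n) ℝ} {z w : ℂ} (hz : ∀ v, 0 ≤ (Res H z v v).im)
    (hw : ∀ v, 0 ≤ (Res H w v v).im) {M : ℝ} (hM : 1 ≤ M) :
    |(mn H z).im - (mn H w).im| ≤
      M * eAvg G (fun u v => min 1 (bnorm (Blk (Res H z) u v - Blk (Res H w) u v))) +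
        tail M (fun v => (Res H z v v).im) + tail M (fun v => (Res H w v v).im) := by
  rw [mn_im, mn_im, ← vAvg_sub]
  refine (abs_vAvg_le _).trans ?_
  have h1 : vAvg (fun v => |(Res H z v v).im - (Res H w v v).im|) ≤
      vAvg (fun v => M * min 1 |(Res H z v v).im - (Res H w v v).im| +
        (if M < (Res H z v v).im then (Res H z v v).im else 0) +
        (if M < (Res H w v v).im then (Res H w v v).im else 0)) :=
    vAvg_mono fun v => abs_sub_le_trunc (hz v) (hw v) hM le_rfl
  refine h1.trans ?_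
  rw [vAvg_add, vAvg_add, vAvg_const_mul]
  refine add_le_add_left (add_le_add_left (mul_le_mul_of_nonneg_left ?_ (by linarith)) _) _
  rw [← eAvg_fst hd hG]
  refine eAvg_mono fun u v => min_le_min_left _ ?_
  have h2 : |(Res H z u u).im - (Res H w u u).im| ≤
      ‖(Blk (Res H z) u v - Blk (Res H w) u v) 0 0‖ := by
    rw [← Complex.sub_im]
    exact Complex.abs_im_le_norm _
  refine h2.trans ?_
  unfold bnorm
  exact (le_max_left _ _).trans (le_max_left _ _)

end avg

/-! ### the theorem -/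

/-- uniform integrability of `Im R_vv` at the scale `K / n` -/
def UIscale (d : ℕ) (s E : ℝ) : Prop :=
  ∀ ε : ℝ, 0 < ε → ∃ M : ℝ, ∃ K0 : ℝ, 0 < K0 ∧ ∀ K : ℝ, K0 ≤ K → ∃ N : ℕ, ∀ n : ℕ, N ≤ n →
    (regularGraphs n d).Nonempty →
    Whp n d ε fun G ω =>
      vAvg (fun v => if M < (Res (Hm G s ω) (zz E K n) v v).im then
        (Res (Hm G s ω) (zz E K n) v v).im else 0) ≤ ε

/-- uniform integrability of `Im R_vv` at fixed small `η` -/
def UIfix (d : ℕ) (s E : ℝ) : Prop :=
  ∀ ε : ℝ, 0 < ε → ∃ M : ℝ, ∃ η0 : ℝ, 0 < η0 ∧ ∀ η : ℝ, 0 < η → η ≤ η0 → ∃ N : ℕ, ∀ n : ℕ,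
    N ≤ n → (regularGraphs n d).Nonempty →
    Whp n d ε fun G ω =>
      vAvg (fun v => if M < (Res (Hm G s ω) (ze E η) v v).im then
        (Res (Hm G s ω) (ze E η) v v).im else 0) ≤ ε

lemma Hm_symm {n : ℕ} (G : SimpleGraph (Fin n)) (s : ℝ) (ω : Fin n → ℝ) :
    (Hm G s ω)ᵀ = Hm G s ω := by
  classical
  unfold Hm
  rw [Matrix.transpose_add, Matrix.transpose_smul, Matrix.diagonal_transpose,
    SimpleGraph.transpose_adjMatrix]

/-- diagonal entries of the resolvent have positive imaginary part -/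
lemma im_diag_pos {n : ℕ} {H : Matrix (Fin n) (Fin n) ℝ} (hH : Hᵀ = H) {z : ℂ} (hz : 0 < z.im)
    (v : Fin n) : 0 < (Res H z v v).im := by
  have h := (Res789.Res_sieg hH hz).posDef.diag_pos (i := v)
  exact h

/-- **E3** -/
theorem imLim_of {d : ℕ} (hd : 0 < d) {s E ρ : ℝ} (hfix : ImFix d s E ρ) (hloc : LocLim d s E)
    (hui : UIscale d s E) (huif : UIfix d s E) : ImLim d s E ρ := by
  intro ε hε
  set e1 : ℝ := ε / 8 with he1
  have he1p : 0 < e1 := by positivity
  obtain ⟨M1, K1, hK1, h1⟩ := hui e1 he1p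
  obtain ⟨M2, η1, hη1, h2⟩ := huif e1 he1p
  obtain ⟨η2, hη2, h3⟩ := hfix e1 he1p
  set M : ℝ := max 1 (max M1 M2) with hM
  have hM1 : 1 ≤ M := le_max_left _ _
  have hM0 : 0 < M := lt_of_lt_of_le one_pos hM1
  obtain ⟨η3, hη3, K2, hK2, h4⟩ := hloc (e1 / M) (by positivity)
  set η : ℝ := min η1 (min η2 η3) with hη
  have hηp : 0 < η := lt_min hη1 (lt_min hη2 hη3)
  have hηle1 : η ≤ η1 := min_le_left _ _
  have hηle2 : η ≤ η2 := (min_le_right _ _).trans (min_le_left _ _)
  have hηle3 : η ≤ η3 := (min_le_right _ _).trans (min_le_right _ _)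
  refine ⟨max K1 K2, lt_of_lt_of_le hK1 (le_max_left _ _), fun K hK => ?_⟩
  have hKpos : 0 < K := lt_of_lt_of_le hK1 ((le_max_left _ _).trans hK)
  obtain ⟨N1, g1⟩ := h1 K ((le_max_left _ _).trans hK)
  obtain ⟨N2, g2⟩ := h2 η hηp hηle1
  obtain ⟨N3, g3⟩ := h3 η hηp hηle2
  obtain ⟨N4, g4⟩ := h4 η hηp hηle3 K ((le_max_right _ _).trans hK)
  refine ⟨max (max N1 N2) (max (max N3 N4) 1), fun n hn hne => ?_⟩
  have hn1 : N1 ≤ n := ((le_max_left _ _).trans (le_max_left _ _)).trans hn
  have hn2 : N2 ≤ n := ((le_max_right _ _).trans (le_max_left _ _)).trans hn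
  have hn3 : N3 ≤ n :=
    (((le_max_left _ _).trans (le_max_left _ _)).trans (le_max_right _ _)).trans hn
  have hn4 : N4 ≤ n :=
    (((le_max_right _ _).trans (le_max_left _ _)).trans (le_max_right _ _)).trans hn
  have hn0 : 1 ≤ n := ((le_max_right _ _).trans (le_max_right _ _)).trans hn
  have hnpos : (0 : ℝ) < n := by exact_mod_cast hn0
  have he4 : e1 / M ≤ e1 := div_le_self he1p.le hM1
  have hall := Whp.and (by positivity) (by positivity)
    (Whp.and he1p.le he1p.le (g1 n hn1 hne) (g2 n hn2 hne))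
    (Whp.and he1p.le (by positivity) (g3 n hn3 hne) (g4 n hn4 hne))
  refine Whp.mono hall (by rw [he1] at *; linarith) fun G hG ω hω => ?_
  obtain ⟨⟨b1, b2⟩, b3, b4⟩ := hω
  have hH := Hm_symm G s ω
  have hp1 : ∀ v, 0 ≤ (Res (Hm G s ω) (zz E K n) v v).im := fun v =>
    (im_diag_pos hH (by rw [zz_im]; positivity) v).le
  have hp2 : ∀ v, 0 ≤ (Res (Hm G s ω) (ze E η) v v).im := fun v =>
    (im_diag_pos hH (by rw [ze_im]; exact hηp) v).le
  have h5 := abs_mn_im_sub_le hd hG hp1 hp2 hM1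
  have b1' : tail M (fun v => (Res (Hm G s ω) (zz E K n) v v).im) ≤ e1 :=
    (tail_mono ((le_max_left _ _).trans (le_max_right _ _)) hp1).trans b1
  have b2' : tail M (fun v => (Res (Hm G s ω) (ze E η) v v).im) ≤ e1 :=
    (tail_mono ((le_max_right _ _).trans (le_max_right _ _)) hp2).trans b2
  have b4' : M * eAvg G (fun u w => min 1 (bnorm (Blk (Res (Hm G s ω) (zz E K n)) u w -
        Blk (Res (Hm G s ω) (ze E η)) u w))) ≤ e1 := by
    calc _ ≤ M * (e1 / M) := mul_le_mul_of_nonneg_left b4 hM0.le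
      _ = e1 := mul_div_cancel₀ _ hM0.ne'
  have h6 : |(mn (Hm G s ω) (zz E K n)).im - Real.pi * ρ| ≤
      |(mn (Hm G s ω) (zz E K n)).im - (mn (Hm G s ω) (ze E η)).im| +
        |(mn (Hm G s ω) (ze E η)).im - Real.pi * ρ| := abs_sub_le _ _ _
  have : e1 = ε / 8 := he1
  linarith

end Crest.Agent.R166.ImLimS424
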