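import Crest.Agent.R166.TweedieRV_487
import Crest.Agent.R166.Freeze_487

/-!
Row 166, section 42.4 (helper487).  Abstract part of `Stmt_innov`.
-/

set_option autoImplicit false
set_option linter.unusedSectionVars false

namespace Crest.Agent.R166.Innov487

open MeasureTheory ProbabilityTheory Crest.Agent.R166.Tweedie487

section centering

variable {Ω : Type*} {m1 m2 mΩ : MeasurableSpace Ω} {P : Measure Ω} [IsProbabilityMeasure P]

/-- If `P[Z|m1] = P[Z|m2]`, `m2 ≤ m1`, and `D` is bounded, `m1`-measurable with `P[D|m2] = 0`, then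
`∫ Z D = 0`. -/
theorem integral_mul_eq_zero (h21 : m2 ≤ m1) (h1 : m1 ≤ mΩ) {Z D : Ω → ℝ} (hZ : Integrable Z P)
    (hτ : P[Z | m1] =ᵐ[P] P[Z | m2]) (hD : StronglyMeasurable[m1] D) {C : ℝ}
    (hDC : ∀ x, |D x| ≤ C) (hD0 : P[D | m2] =ᵐ[P] 0) : ∫ x, Z x * D x ∂P = 0 := by
  have h2 : m2 ≤ mΩ := h21.trans h1
  have hDm : AEStronglyMeasurable D P := (hD.mono h1).aestronglyMeasurable
  have hDi : Integrable D P := by
    refine Integrable.mono' (integrable_const C) hDm (Filter.Eventually.of_forall fun x => ?_)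
    rw [Real.norm_eq_abs]; exact hDC x
  have hmul : ∀ {F : Ω → ℝ}, Integrable F P → Integrable (F * D) P := by
    intro F hF
    refine (hF.abs.mul_const C).mono' (hF.aestronglyMeasurable.mul hDm)
      (Filter.Eventually.of_forall fun x => ?_)
    rw [Pi.mul_apply, Real.norm_eq_abs, abs_mul]
    exact mul_le_mul_of_nonneg_left (hDC x) (abs_nonneg _)
  have e1 : ∫ x, Z x * D x ∂P = ∫ x, (P[Z | m1]) x * D x ∂P := by
    have h3 := condExp_mul_of_stronglyMeasurable_right (μ := P) hD (hmul hZ) hZ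
    have h4 : ∫ x, (P[Z * D | m1]) x ∂P = ∫ x, (Z * D) x ∂P := integral_condExp h1
    have h5 : ∫ x, (P[Z * D | m1]) x ∂P = ∫ x, (P[Z | m1] * D) x ∂P := integral_congr_ae h3
    rw [h4] at h5
    exact h5
  have e2 : ∫ x, (P[Z | m1]) x * D x ∂P = ∫ x, (P[Z | m2]) x * D x ∂P := by
    refine integral_congr_ae ?_
    filter_upwards [hτ] with x hx
    rw [hx]
  have e3 : ∫ x, (P[Z | m2]) x * D x ∂P = 0 := by
    have h3 := condExp_mul_of_stronglyMeasurable_left (μ := P) (f := P[Z | m2]) (g := D)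
      stronglyMeasurable_condExp (hmul integrable_condExp) hDi
    have h4 : ∫ x, (P[P[Z | m2] * D | m2]) x ∂P = ∫ x, (P[Z | m2] * D) x ∂P :=
      integral_condExp h2
    have h5 : ∫ x, (P[P[Z | m2] * D | m2]) x ∂P = ∫ x, (P[Z | m2] * P[D | m2]) x ∂P :=
      integral_congr_ae h3
    have h6 : ∫ x, (P[Z | m2] * P[D | m2]) x ∂P = 0 := by
      apply integral_eq_zero_of_ae
      filter_upwards [hD0] with x hx
      simp [hx]
    rw [h4, h6] at h5
    exact h5
  rw [e1, e2, e3]

end centering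

section core

open Matrix

variable {Ω β ι : Type*} [Fintype ι] [DecidableEq ι] [MeasurableSpace β] [StandardBorelSpace β]
  [Nonempty β] {Env mΩ : MeasurableSpace Ω} {P : Measure Ω} [IsProbabilityMeasure P]

/-- core of 42.4: the conditional expectation of `w(I)` given the edge is `Env`-measurable. -/
theorem innov_core (hE : Env ≤ mΩ) {X N : Ω → (ι → ℝ)} {I : Ω → β}
    (hX : Measurable X) (hI : Measurable I) (hN : Measurable N)
    (hlaw : @Measure.map Ω ((Ω × ((ι → ℝ) × β)) × (ι → ℝ)) mΩ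
        (@Prod.instMeasurableSpace (Ω × ((ι → ℝ) × β)) (ι → ℝ)
          (@Prod.instMeasurableSpace Ω ((ι → ℝ) × β) Env _) _)
        (fun x => ((x, (X x, I x)), N x)) P =
      @Measure.prod (Ω × ((ι → ℝ) × β)) (ι → ℝ)
          (@Prod.instMeasurableSpace Ω ((ι → ℝ) × β) Env _) _
        (@Measure.map Ω (Ω × ((ι → ℝ) × β)) mΩ (@Prod.instMeasurableSpace Ω ((ι → ℝ) × β) Env _)
          (fun x => (x, (X x, I x))) P) (gs ι))
    {B Binv : Ω → Matrix ι ι ℝ} (hB : ∀ k l, Measurable[Env] fun a => B a k l)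
    (hBi : ∀ k l, Measurable[Env] fun a => Binv a k l)
    (hinv : ∀ᵐ x ∂P, Binv x * B x = 1)
    {Y : Ω → (ι → ℝ)} (hY : ∀ x, Y x = X x + B x *ᵥ N x) (hYm : Measurable Y)
    {star : MeasurableSpace Ω} (hstar : star ≤ mΩ)
    (hedge : Env ⊔ MeasurableSpace.comap Y inferInstance ≤ star)
    (hIs : Measurable[star] I)
    (hint : ∀ e, Integrable (fun x => (B x *ᵥ N x) e) P)
    (hτ : ∀ e, P[fun x => (B x *ᵥ N x) e | star] =ᵐ[P]
      P[fun x => (B x *ᵥ N x) e | Env ⊔ MeasurableSpace.comap Y inferInstance])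
    {w : β → ℝ} (hw : Measurable w) (C : ℝ) (hC : 0 ≤ C) (hwC : ∀ i, |w i| ≤ C) :
    ∃ wb : Ω → ℝ, Measurable[Env] wb ∧ (∀ a, |wb a| ≤ C) ∧
      P[fun x => w (I x) | Env ⊔ MeasurableSpace.comap Y inferInstance] =ᵐ[P] wb := by
  set edge := Env ⊔ MeasurableSpace.comap Y inferInstance with hedgedef
  have hedgeΩ : edge ≤ mΩ := hedge.trans hstar
  have hid : @Measurable Ω Ω mΩ Env id := fun s hs => hE s hs
  -- the pair `(id, Y)` with the environment σ-algebra
  have hUY : @Measurable Ω (Ω × (ι → ℝ)) mΩ (@Prod.instMeasurableSpace Ω (ι → ℝ) Env _)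
      (fun x => (x, Y x)) := Measurable.prodMk hid hYm
  have hcomap : MeasurableSpace.comap (fun x => (x, Y x))
      (@Prod.instMeasurableSpace Ω (ι → ℝ) Env _) = edge := by
    unfold Prod.instMeasurableSpace MeasurableSpace.prod
    rw [MeasurableSpace.comap_sup, MeasurableSpace.comap_comp, MeasurableSpace.comap_comp]
    have e1 : (Prod.fst : Ω × (ι → ℝ) → Ω) ∘ (fun x => (x, Y x)) = id := rfl
    have e2 : (Prod.snd : Ω × (ι → ℝ) → (ι → ℝ)) ∘ (fun x => (x, Y x)) = Y := rfl
    rw [e1, e2, MeasurableSpace.comap_id]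
  have hUYe : @Measurable Ω (Ω × (ι → ℝ)) edge (@Prod.instMeasurableSpace Ω (ι → ℝ) Env _)
      (fun x => (x, Y x)) := by
    rw [← hcomap]
    exact comap_measurable _
  -- version of the conditional expectation
  set ν := @condDistrib Ω (Ω × (ι → ℝ)) β _ _ _ mΩ (@Prod.instMeasurableSpace Ω (ι → ℝ) Env _)
    I (fun x => (x, Y x)) P _ with hν
  set G : Ω × (ι → ℝ) → ℝ := fun r => ∫ i, w i ∂(ν r) with hG
  have hGm : @Measurable (Ω × (ι → ℝ)) ℝ (@Prod.instMeasurableSpace Ω (ι → ℝ) Env _) _ G := by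
    have h1 : @StronglyMeasurable ((Ω × (ι → ℝ)) × β) ℝ _ (@Prod.instMeasurableSpace
        (Ω × (ι → ℝ)) β (@Prod.instMeasurableSpace Ω (ι → ℝ) Env _) _)
        (Function.uncurry fun (_ : Ω × (ι → ℝ)) (i : β) => w i) := by
      have h2 : @Measurable ((Ω × (ι → ℝ)) × β) β (@Prod.instMeasurableSpace
        (Ω × (ι → ℝ)) β (@Prod.instMeasurableSpace Ω (ι → ℝ) Env _) _) _ Prod.snd :=
        @measurable_snd (Ω × (ι → ℝ)) β (@Prod.instMeasurableSpace Ω (ι → ℝ) Env _) _
      exact (hw.comp h2).stronglyMeasurable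
    exact (h1.integral_kernel_prod_right (κ := ν)).measurable
  have hGC : ∀ r, |G r| ≤ C := by
    intro r
    have := norm_integral_le_of_norm_le_const (μ := ν r) (f := fun i : β => w i)
      (C := C) (Filter.Eventually.of_forall fun q => by
        rw [Real.norm_eq_abs]; exact hwC _)
    simpa using this
  have hwI : Measurable[mΩ] fun x => w (I x) := hw.comp hI
  have hwIi : Integrable (fun x => w (I x)) P := by
    refine Integrable.mono' (integrable_const C) hwI.aestronglyMeasurable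
      (Filter.Eventually.of_forall fun x => ?_)
    rw [Real.norm_eq_abs]; exact hwC _
  have hcond : P[fun x => w (I x) | edge] =ᵐ[P] fun x => G (x, Y x) := by
    have := condExp_ae_eq_integral_condDistrib (mα := mΩ)
      (mβ := @Prod.instMeasurableSpace Ω (ι → ℝ) Env _) (μ := P) (X := fun x => (x, Y x))
      (Y := I) hUY hI.aemeasurable hw.stronglyMeasurable hwIi
    rw [hcomap] at this
    exact this
  have hGY : StronglyMeasurable[edge] fun x => G (x, Y x) :=
    (hGm.comp hUYe).stronglyMeasurable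
  have hGYi : Integrable (fun x => G (x, Y x)) P := by
    refine Integrable.mono' (integrable_const C) (hGY.mono hedgeΩ).aestronglyMeasurable
      (Filter.Eventually.of_forall fun x => ?_)
    rw [Real.norm_eq_abs]; exact hGC _
  -- centred bounded functions
  have hcent : ∀ b : Ω × (ι → ℝ) → ℝ,
      @Measurable (Ω × (ι → ℝ)) ℝ (@Prod.instMeasurableSpace Ω (ι → ℝ) Env _) _ b →
      (∀ y, |b y| ≤ 1) →
      StronglyMeasurable[star] (fun x => (w (I x) - G (x, Y x)) * b (x, Y x)) ∧
      (∀ x, |(w (I x) - G (x, Y x)) * b (x, Y x)| ≤ 2 * C) ∧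
      P[fun x => (w (I x) - G (x, Y x)) * b (x, Y x) | edge] =ᵐ[P] 0 := by
    intro b hb hb1
    have hbY : StronglyMeasurable[edge] fun x => b (x, Y x) := (hb.comp hUYe).stronglyMeasurable
    have hbd : ∀ x, |(w (I x) - G (x, Y x)) * b (x, Y x)| ≤ 2 * C := by
      intro x
      rw [abs_mul]
      calc |w (I x) - G (x, Y x)| * |b (x, Y x)| ≤ (C + C) * 1 := by
            refine mul_le_mul ((abs_sub _ _).trans (add_le_add (hwC _) (hGC _))) (hb1 _)
              (abs_nonneg _) (by positivity)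
        _ = 2 * C := by ring
    refine ⟨?_, hbd, ?_⟩
    · refine StronglyMeasurable.mul (StronglyMeasurable.sub ?_ ?_) (hbY.mono hedge)
      · exact (hw.comp hIs).stronglyMeasurable
      · exact hGY.mono hedge
    · have h1 : Integrable ((fun x => w (I x) - G (x, Y x)) * fun x => b (x, Y x)) P := by
        refine Integrable.mono' (integrable_const (2 * C)) ?_
          (Filter.Eventually.of_forall fun x => ?_)
        · exact (hwI.aestronglyMeasurable.sub (hGY.mono hedgeΩ).aestronglyMeasurable).mul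
            (hbY.mono hedgeΩ).aestronglyMeasurable
        · rw [Real.norm_eq_abs]; exact hbd x
      have h2 := condExp_mul_of_stronglyMeasurable_right (μ := P) hbY h1 (hwIi.sub hGYi)
      have h3 : P[(fun x => w (I x)) - fun x => G (x, Y x) | edge] =ᵐ[P] 0 := by
        refine (condExp_sub hwIi hGYi edge).trans ?_
        have h4 : P[fun x => G (x, Y x) | edge] = fun x => G (x, Y x) :=
          condExp_of_stronglyMeasurable hedgeΩ hGY hGYi
        rw [h4]
        filter_upwards [hcond] with x hx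
        simp [hx]
      refine h2.trans ?_
      filter_upwards [h3] with x hx
      simp only [Pi.mul_apply, Pi.zero_apply]
      have hx' : (P[fun x => w (I x) - G (x, Y x) | edge]) x = 0 := hx
      rw [hx', zero_mul]
  have hYfun : (fun x => (x, X x + B x *ᵥ N x)) = fun x => (x, Y x) := by
    ext x
    · rfl
    · rw [hY x]
  obtain ⟨wb, hwb1, hwb2, hwb3⟩ := @tweedie_rv ι _ Ω β Ω Env _ mΩ P _ _ _ _ id X I N hid hX hI hN
    hlaw B Binv hB hBi hinv w hw C hC hwC G hGm hGC (by
      intro b hb hb1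
      obtain ⟨h1, h2, h3⟩ := hcent b hb hb1
      have h4 : ∫ x, (P[fun x => (w (I x) - G (x, Y x)) * b (x, Y x) | edge]) x ∂P =
          ∫ x, (w (I x) - G (x, Y x)) * b (x, Y x) ∂P := integral_condExp hedgeΩ
      have h5 : ∫ x, (P[fun x => (w (I x) - G (x, Y x)) * b (x, Y x) | edge]) x ∂P = 0 := by
        apply integral_eq_zero_of_ae h3
      rw [h4] at h5
      rw [← h5]
      congr 1
      ext x
      rw [hY x]
      rfl) (by
      intro e b hb hb1
      obtain ⟨h1, h2, h3⟩ := hcent b hb hb1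
      have := integral_mul_eq_zero (P := P) hedge hstar (hint e) (hτ e) h1 h2 h3
      rw [← this]
      congr 1
      ext x
      rw [hY x]
      rfl)
  refine ⟨wb, hwb1, hwb2, hcond.trans ?_⟩
  filter_upwards [hwb3] with x hx
  rw [hY x]
  exact hx

end core

end Crest.Agent.R166.Innov487
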