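import Crest.Agent.R166.Spec_B2_385

/-!
Row 166, section 42.4 (helper487).  Algebra of the star covariance.
-/

set_option autoImplicit false

namespace Crest.Agent.R166.Innov487

open Crest.Agent.R166.B2

theorem im_mul_identity (g x y : ℂ) :
    (g * x * y).im * g.im - (g * x).im * (g * y).im = -(Complex.normSq g * x.im * y.im) := by
  simp only [Complex.mul_im, Complex.mul_re, Complex.normSq_apply]
  ring

/-- quadratic form of the star covariance in the coordinates `(Z_v, W_i)`. -/
theorem quad_star {n : ℕ} (Q : Option (Fin n) → Option (Fin n) → ℝ) (g A : ℝ) (a β : Fin n → ℝ)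
    (h00 : Q none none = g) (h01 : ∀ i, Q none (some i) = β i * g)
    (h10 : ∀ i, Q (some i) none = β i * g)
    (h11 : ∀ i j, Q (some i) (some j) = (if i = j then a i else 0) - a i * a j / A +
      β i * β j * g) (c : Option (Fin n) → ℝ) :
    ∑ p, ∑ q, c p * c q * Q p q = (c none + ∑ i, β i * c (some i)) ^ 2 * g +
      (∑ i, a i * c (some i) ^ 2 - (∑ i, a i * c (some i)) ^ 2 / A) := by
  have e1 : ∑ q, c none * c q * Q none q = c none ^ 2 * g +
      c none * g * ∑ i, β i * c (some i) := by
    rw [Fintype.sum_option, h00, Finset.mul_sum]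
    congr 1
    · ring
    · exact Finset.sum_congr rfl fun i _ => by rw [h01]; ring
  have e2 : ∀ i, ∑ q, c (some i) * c q * Q (some i) q = c none * g * (β i * c (some i)) +
      (a i * c (some i) ^ 2 - a i * c (some i) / A * (∑ j, a j * c (some j)) +
        β i * c (some i) * g * (∑ j, β j * c (some j))) := by
    intro i
    rw [Fintype.sum_option, h10]
    congr 1
    · ring
    · have : ∀ j, c (some i) * c (some j) * Q (some i) (some j) =
          (if i = j then a i * c (some i) ^ 2 else 0) -
            a i * c (some i) / A * (a j * c (some j)) +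
            β i * c (some i) * g * (β j * c (some j)) := by
        intro j
        rw [h11]
        by_cases hij : i = j
        · subst hij
          simp only [if_true]
          ring
        · simp only [if_neg hij]
          ring
      simp_rw [this]
      rw [Finset.sum_add_distrib, Finset.sum_sub_distrib, ← Finset.mul_sum, ← Finset.mul_sum]
      simp
  rw [Fintype.sum_option, e1]
  simp_rw [e2]
  rw [Finset.sum_add_distrib, ← Finset.mul_sum, Finset.sum_add_distrib, Finset.sum_sub_distrib]
  have e3 : ∑ i, a i * c (some i) / A * ∑ j, a j * c (some j) =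
      (∑ i, a i * c (some i)) ^ 2 / A := by
    rw [← Finset.sum_mul, ← Finset.sum_div]
    ring
  have e4 : ∑ i, β i * c (some i) * g * ∑ j, β j * c (some j) =
      (∑ i, β i * c (some i)) ^ 2 * g := by
    rw [← Finset.sum_mul, ← Finset.sum_mul]
    ring
  rw [e3, e4]
  ring

/-- coefficients of `ξ·J + ζ·N` on the star -/
theorem quad_coeff {n : ℕ} (i0 : Fin n) (Q : Option (Fin n) → Option (Fin n) → ℝ) (g A R : ℝ)
    (a β : Fin n → ℝ) (hg : 0 < g) (hR : 0 < R) (ha0 : 0 < a i0) (hA : 0 < A)
    (hAa : 0 < A - a i0)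
    (h00 : Q none none = g) (h01 : ∀ i, Q none (some i) = β i * g)
    (h10 : ∀ i, Q (some i) none = β i * g)
    (h11 : ∀ i j, Q (some i) (some j) = (if i = j then a i else 0) - a i * a j / A +
      β i * β j * g) (ξ : Fin n → ℝ) (hξ : ξ i0 = 0) (z0 z1 : ℝ) (c : Option (Fin n) → ℝ)
    (hc : ∀ i, c (some i) = ξ i + (if i = i0 then z1 / Real.sqrt (a i0 * (A - a i0) / (A * R)) +
        (∑ j, a j * ξ j) / (A - a i0) else 0))
    (hc0 : c none = z0 / Real.sqrt (g / R) -
      β i0 * (z1 / Real.sqrt (a i0 * (A - a i0) / (A * R)) + (∑ j, a j * ξ j) / (A - a i0)) -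
      ∑ j, β j * ξ j) :
    (∑ p, ∑ q, c p * c q * Q p q) / R = z0 ^ 2 + z1 ^ 2 +
      (∑ i, a i * ξ i ^ 2 - (∑ i, a i * ξ i) ^ 2 / (A - a i0)) / R := by
  set σv := Real.sqrt (g / R) with hσv
  set σ0 := Real.sqrt (a i0 * (A - a i0) / (A * R)) with hσ0
  have hσv2 : σv ^ 2 = g / R := Real.sq_sqrt (by positivity)
  have hσ02 : σ0 ^ 2 = a i0 * (A - a i0) / (A * R) := Real.sq_sqrt (by positivity)
  have hσvp : 0 < σv := Real.sqrt_pos.2 (by positivity)
  have hσ0p : 0 < σ0 := Real.sqrt_pos.2 (by positivity)
  set S := ∑ j, a j * ξ j with hS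
  set T := ∑ j, a j * ξ j ^ 2 with hT
  set u := z1 / σ0 + S / (A - a i0) with hu
  rw [quad_star Q g A a β h00 h01 h10 h11 c]
  have e1 : ∑ i, β i * c (some i) = ∑ i, β i * ξ i + β i0 * u := by
    have : ∀ i, β i * c (some i) = β i * ξ i + (if i = i0 then β i0 * u else 0) := by
      intro i
      rw [hc i]
      by_cases h : i = i0
      · subst h; simp [mul_add]
      · simp [h]
    simp_rw [this]
    rw [Finset.sum_add_distrib]
    simp
  have e2 : ∑ i, a i * c (some i) = S + a i0 * u := by
    have : ∀ i, a i * c (some i) = a i * ξ i + (if i = i0 then a i0 * u else 0) := by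
      intro i
      rw [hc i]
      by_cases h : i = i0
      · subst h; simp [mul_add]
      · simp [h]
    simp_rw [this]
    rw [Finset.sum_add_distrib]
    simp [hS]
  have e3 : ∑ i, a i * c (some i) ^ 2 = T + a i0 * u ^ 2 := by
    have : ∀ i, a i * c (some i) ^ 2 = a i * ξ i ^ 2 + (if i = i0 then a i0 * u ^ 2 else 0) := by
      intro i
      rw [hc i]
      by_cases h : i = i0
      · subst h
        rw [hξ]
        simp
      · simp [h]
    simp_rw [this]
    rw [Finset.sum_add_distrib]
    simp [hT]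
  rw [e1, e2, e3, hc0]
  have e4 : z0 / σv - β i0 * u - ∑ j, β j * ξ j + (∑ i, β i * ξ i + β i0 * u) = z0 / σv := by
    ring
  rw [e4]
  have hRne : R ≠ 0 := hR.ne'
  have hAne : A ≠ 0 := hA.ne'
  have hAane : A - a i0 ≠ 0 := hAa.ne'
  have e5 : (z0 / σv) ^ 2 * g = z0 ^ 2 * R := by
    rw [div_pow, hσv2]
    field_simp
  have e6 : z1 / σ0 = u - S / (A - a i0) := by rw [hu]; ring
  have e7 : z1 ^ 2 = (u - S / (A - a i0)) ^ 2 * (a i0 * (A - a i0) / (A * R)) := by
    rw [← e6, div_pow, hσ02]
    field_simp
  rw [e5, e7]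
  field_simp
  ring

theorem g_facts (σ : ℂ) (hσ : 0 < σ.im) :
    0 < (-1 / σ).im ∧ (-1 / σ).im = σ.im * Complex.normSq (-1 / σ) := by
  have hne : σ ≠ 0 := by
    intro h; rw [h] at hσ; simp at hσ
  have hn : 0 < Complex.normSq σ := Complex.normSq_pos.2 hne
  have e1 : (-1 / σ).im = σ.im / Complex.normSq σ := by
    rw [neg_div, Complex.neg_im, one_div, Complex.inv_im]
    ring
  have e2 : Complex.normSq (-1 / σ) = 1 / Complex.normSq σ := by
    rw [map_div₀, Complex.normSq_neg, map_one]
  refine ⟨by rw [e1]; positivity, by rw [e1, e2]; ring⟩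

/-- `K_ij = a_i δ_ij - a_i a_j / A`. -/
theorem K_identity (g x y : ℂ) (A : ℝ) (hA : 0 < A) (hg : 0 < g.im)
    (hgA : g.im = A * Complex.normSq g) (δ : Prop) [Decidable δ] :
    (g * x * y + (if δ then x else 0)).im = (if δ then x.im else 0) - x.im * y.im / A +
      (g * (-x)).im / g.im * ((g * (-y)).im / g.im) * g.im := by
  have h1 := im_mul_identity g x y
  have hgn : g.im ≠ 0 := hg.ne'
  have hAn : A ≠ 0 := hA.ne'
  have e0 : (g * (-x)).im = -(g * x).im := by rw [mul_neg, Complex.neg_im]
  have e1 : (g * (-y)).im = -(g * y).im := by rw [mul_neg, Complex.neg_im]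
  have e2 : (g * x * y).im = -(x.im * y.im / A) + (g * x).im * (g * y).im / g.im := by
    have h2 : (g * x * y).im * g.im = (g * x).im * (g * y).im -
        Complex.normSq g * x.im * y.im := by linarith
    have h3 : Complex.normSq g = g.im / A := by rw [hgA]; field_simp
    rw [h3] at h2
    field_simp
    field_simp at h2
    linarith
  rw [Complex.add_im, e2, e0, e1]
  by_cases h : δ
  · simp only [h, if_true]
    field_simp
    ring
  · simp only [h, if_false, Complex.zero_im]
    field_simp
    ring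

end Crest.Agent.R166.Innov487
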