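import Crest.Agent.R166.MartSpec_663
import Crest.Agent.R166.InnovA_487
import Crest.Agent.R166.InnovB_487

/-!
Row 166, section 42.4 (helper487).  The whitened noise on the star of the limit process.
-/

set_option autoImplicit false
set_option linter.unusedSectionVars false
set_option linter.unusedVariables false

namespace Crest.Agent.R166.Innov487

open MeasureTheory ProbabilityTheory Crest.Agent.R166.B2 Crest.Agent.R166.Tweedie487
  Crest.Agent.R166.Mart663 Crest.Agent.R166.Freeze487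

section defs

variable {Ω : Type*}

/-- `Im` of the cavity value at neighbour `i` -/
noncomputable def aI (pp rr : Ω → Ω) (cav : Ω → ℂ) (i : ℕ) (h : Ω) : ℝ := (cav (mv pp rr i h)).im

/-- sum of the `a_i` -/
noncomputable def AI (pp rr : Ω → Ω) (d : ℕ) (cav : Ω → ℂ) (h : Ω) : ℝ :=
  ∑ i ∈ Finset.range d, aI pp rr cav i h

/-- standard deviation of `Z_v` -/
noncomputable def sV (pp rr : Ω → Ω) (d : ℕ) (s E ρ : ℝ) (om : Ω → ℝ) (cav : Ω → ℂ) (h : Ω) : ℝ :=
  Real.sqrt ((Gd pp rr d s E om cav h).im / (Real.pi * ρ))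

/-- standard deviation of `Z_0 - β_0 Z_v` -/
noncomputable def s0 (pp rr : Ω → Ω) (d : ℕ) (ρ : ℝ) (cav : Ω → ℂ) (h : Ω) : ℝ :=
  Real.sqrt (aI pp rr cav 0 h * (AI pp rr d cav h - aI pp rr cav 0 h) /
    (AI pp rr d cav h * (Real.pi * ρ)))

/-- whitened edge noise -/
noncomputable def NN {k : ℕ} (pp rr : Ω → Ω) (d : ℕ) (s E ρ : ℝ) (om : Ω → ℝ) (cav : Ω → ℂ)
    (Z : Ω → Fin k → ℝ) (h : Ω) : Fin 2 × Fin k → ℝ := fun q =>
  if q.1 = 0 then Z h q.2 / sV pp rr d s E ρ om cav h
  else (Z (pp h) q.2 - bet pp rr d s E om cav 0 h * Z h q.2) / s0 pp rr d ρ cav h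

/-- noise part of the innovations -/
noncomputable def JJ {k : ℕ} (pp rr : Ω → Ω) (d : ℕ) (s E : ℝ) (om : Ω → ℝ) (cav : Ω → ℂ)
    (Z : Ω → Fin k → ℝ) (h : Ω) : Fin d × Fin k → ℝ := fun q =>
  if (q.1 : ℕ) = 0 then 0 else
    (Z (mv pp rr q.1 h) q.2 - bet pp rr d s E om cav q.1 h * Z h q.2) +
      aI pp rr cav q.1 h / (AI pp rr d cav h - aI pp rr cav 0 h) *
        (Z (pp h) q.2 - bet pp rr d s E om cav 0 h * Z h q.2)

/-- the coefficient of neighbour `0` -/
noncomputable def uc {k : ℕ} (pp rr : Ω → Ω) (d : ℕ) (ρ : ℝ) (cav : Ω → ℂ)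
    (ξ : Fin d × Fin k → ℝ) (ζ : Fin 2 × Fin k → ℝ) (h : Ω) (l : Fin k) : ℝ :=
  ζ (1, l) / s0 pp rr d ρ cav h +
    (∑ j : Fin d, aI pp rr cav j h * (if (j : ℕ) = 0 then 0 else ξ (j, l))) /
      (AI pp rr d cav h - aI pp rr cav 0 h)

/-- star coefficients of `ξ·J + ζ·N` -/
noncomputable def cc {k : ℕ} (pp rr : Ω → Ω) (d : ℕ) (s E ρ : ℝ) (om : Ω → ℝ) (cav : Ω → ℂ)
    (ξ : Fin d × Fin k → ℝ) (ζ : Fin 2 × Fin k → ℝ) (h : Ω) (q : St d × Fin k) : ℝ :=
  match q.1 with
  | none => ζ (0, q.2) / sV pp rr d s E ρ om cav h -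
      bet pp rr d s E om cav 0 h * uc pp rr d ρ cav ξ ζ h q.2 -
      ∑ j : Fin d, bet pp rr d s E om cav j h * (if (j : ℕ) = 0 then 0 else ξ (j, q.2))
  | some i => (if (i : ℕ) = 0 then 0 else ξ (i, q.2)) +
      (if (i : ℕ) = 0 then uc pp rr d ρ cav ξ ζ h q.2 else 0)

/-- the linear identity -/
theorem cc_sum {k : ℕ} (pp rr : Ω → Ω) {d : ℕ} (hd : 0 < d) (s E ρ : ℝ) (om : Ω → ℝ) (cav : Ω → ℂ)
    (Z : Ω → Fin k → ℝ) (ξ : Fin d × Fin k → ℝ) (ζ : Fin 2 × Fin k → ℝ) (h : Ω) :
    ∑ q : St d × Fin k, cc pp rr d s E ρ om cav ξ ζ h q * Z (sv pp rr d h q.1) q.2 =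
      ∑ q, ξ q * JJ pp rr d s E om cav Z h q + ∑ q, ζ q * NN pp rr d s E ρ om cav Z h q := by
  rw [Fintype.sum_prod_type, Fintype.sum_prod_type, Fintype.sum_prod_type]
  rw [Finset.sum_comm, Finset.sum_comm (s := (Finset.univ : Finset (Fin d))),
    Finset.sum_comm (s := (Finset.univ : Finset (Fin 2))), ← Finset.sum_add_distrib]
  refine Finset.sum_congr rfl fun l _ => ?_
  rw [Fintype.sum_option, Fin.sum_univ_two]
  simp only [cc, NN, JJ, sv]
  set i0 : Fin d := ⟨0, hd⟩ with hi0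
  have hz : mv pp rr (0 : ℕ) h = pp h := rfl
  have e1 : ∑ i : Fin d, ((if (i : ℕ) = 0 then 0 else ξ (i, l)) +
      (if (i : ℕ) = 0 then uc pp rr d ρ cav ξ ζ h l else 0)) * Z (mv pp rr i h) l =
      ∑ i : Fin d, (if (i : ℕ) = 0 then 0 else ξ (i, l)) * Z (mv pp rr i h) l +
        uc pp rr d ρ cav ξ ζ h l * Z (pp h) l := by
    simp_rw [add_mul]
    rw [Finset.sum_add_distrib]
    congr 1
    rw [Finset.sum_eq_single i0]
    · simp [hi0, hz]
    · intro b _ hb
      have : (b : ℕ) ≠ 0 := fun h0 => hb (Fin.ext h0)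
      simp [this]
    · simp
  have e2 : ∑ x : Fin d, ξ (x, l) * (if (x : ℕ) = 0 then 0 else
        Z (mv pp rr x h) l - bet pp rr d s E om cav x h * Z h l +
        aI pp rr cav x h / (AI pp rr d cav h - aI pp rr cav 0 h) *
          (Z (pp h) l - bet pp rr d s E om cav 0 h * Z h l)) =
      ∑ i : Fin d, (if (i : ℕ) = 0 then 0 else ξ (i, l)) * Z (mv pp rr i h) l -
        (∑ j : Fin d, bet pp rr d s E om cav j h * (if (j : ℕ) = 0 then 0 else ξ (j, l))) *
          Z h l +
        ((∑ j : Fin d, aI pp rr cav j h * (if (j : ℕ) = 0 then 0 else ξ (j, l))) /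
          (AI pp rr d cav h - aI pp rr cav 0 h)) *
          (Z (pp h) l - bet pp rr d s E om cav 0 h * Z h l) := by
    rw [Finset.sum_mul, Finset.sum_div, Finset.sum_mul, ← Finset.sum_sub_distrib,
      ← Finset.sum_add_distrib]
    refine Finset.sum_congr rfl fun j _ => ?_
    by_cases hj : (j : ℕ) = 0
    · simp [hj]
    · simp only [hj, if_false]
      ring
  rw [e1, e2]
  simp only [if_true, one_ne_zero, if_false, uc]
  ring

end defs

section meas

variable {Ω : Type} {Env FX : MeasurableSpace Ω} [mΩ : MeasurableSpace Ω] {d k : ℕ}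
  {s E t ρ : ℝ} {P : Measure Ω} {pp rr : Ω → Ω} {om : Ω → ℝ} {cav : Ω → ℂ}
  {X Z : Ω → Fin k → ℝ}

theorem mv_mp (L : LimProc Env FX d k s E t ρ P pp rr om cav X Z) (j : ℕ) :
    MeasurePreserving (mv pp rr j) P P := L.pp_mp.comp (L.rr_mp.iterate j)

theorem mv_Env (L : LimProc Env FX d k s E t ρ P pp rr om cav X Z) (j : ℕ) :
    Measurable[Env, Env] (mv pp rr j) := by
  have h1 : Measurable[Env, Env] (rr^[j]) := by
    induction j with
    | zero => exact @measurable_id Ω Env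
    | succ n ih =>
      rw [Function.iterate_succ]
      exact ih.comp L.rr_Env
  exact L.pp_Env.comp h1

theorem mv_FX (L : LimProc Env FX d k s E t ρ P pp rr om cav X Z) (j : ℕ) :
    Measurable[FX, FX] (mv pp rr j) := by
  have h1 : Measurable[FX, FX] (rr^[j]) := by
    induction j with
    | zero => exact @measurable_id Ω FX
    | succ n ih =>
      rw [Function.iterate_succ]
      exact ih.comp L.rr_FX
  exact L.pp_FX.comp h1

theorem aI_Env (L : LimProc Env FX d k s E t ρ P pp rr om cav X Z) (j : ℕ) :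
    Measurable[Env] (aI pp rr cav j) :=
  Complex.measurable_im.comp (L.cav_meas.comp (mv_Env L j))

theorem AI_Env (L : LimProc Env FX d k s E t ρ P pp rr om cav X Z) :
    Measurable[Env] (AI pp rr d cav) := by
  unfold AI
  exact Finset.measurable_sum _ fun j _ => aI_Env L j

theorem Gd_Env (L : LimProc Env FX d k s E t ρ P pp rr om cav X Z) :
    Measurable[Env] (Gd pp rr d s E om cav) := by
  unfold Gd
  refine Measurable.div measurable_const ?_
  refine Measurable.add (Measurable.sub measurable_const ?_) ?_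
  · exact measurable_const.mul (Complex.measurable_ofReal.comp L.om_meas)
  · exact Finset.measurable_sum _ fun j _ => L.cav_meas.comp (mv_Env L j)

theorem bet_Env (L : LimProc Env FX d k s E t ρ P pp rr om cav X Z) (j : ℕ) :
    Measurable[Env] (bet pp rr d s E om cav j) := by
  unfold bet
  refine Measurable.div ?_ ?_
  · exact Complex.measurable_im.comp ((Gd_Env L).mul (L.cav_meas.comp (mv_Env L j)).neg)
  · exact Complex.measurable_im.comp (Gd_Env L)

theorem sV_Env (L : LimProc Env FX d k s E t ρ P pp rr om cav X Z) :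
    Measurable[Env] (sV pp rr d s E ρ om cav) := by
  unfold sV
  exact ((Complex.measurable_im.comp (Gd_Env L)).div_const _).sqrt

theorem s0_Env (L : LimProc Env FX d k s E t ρ P pp rr om cav X Z) :
    Measurable[Env] (s0 pp rr d ρ cav) := by
  unfold s0
  exact (((aI_Env L 0).mul ((AI_Env L).sub (aI_Env L 0))).div
    ((AI_Env L).mul_const _)).sqrt

theorem uc_Env (L : LimProc Env FX d k s E t ρ P pp rr om cav X Z)
    (ξ : Fin d × Fin k → ℝ) (ζ : Fin 2 × Fin k → ℝ) (l : Fin k) :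
    Measurable[Env] (fun h => uc pp rr d ρ cav ξ ζ h l) := by
  unfold uc
  have h0 : Measurable[Env] fun h : Ω => ζ (1, l) := @measurable_const _ _ _ Env _
  have h1 : Measurable[Env] fun h => ζ (1, l) / s0 pp rr d ρ cav h := h0.div (s0_Env L)
  have h2 : Measurable[Env] fun h =>
      ∑ j : Fin d, aI pp rr cav j h * (if (j : ℕ) = 0 then 0 else ξ (j, l)) :=
    Finset.measurable_sum _ fun j _ => (aI_Env L j).mul_const _
  have h3 : Measurable[Env] fun h => AI pp rr d cav h - aI pp rr cav 0 h :=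
    (AI_Env L).sub (aI_Env L 0)
  exact h1.add (h2.div h3)

theorem cc_Env (L : LimProc Env FX d k s E t ρ P pp rr om cav X Z)
    (ξ : Fin d × Fin k → ℝ) (ζ : Fin 2 × Fin k → ℝ) :
    Measurable[Env] (cc pp rr d s E ρ om cav ξ ζ) := by
  refine @measurable_pi_lambda Ω (St d × Fin k) (fun _ => ℝ) Env _ _ fun q => ?_
  obtain ⟨p, l⟩ := q
  cases p with
  | none =>
    simp only [cc]
    have h0 : Measurable[Env] fun h : Ω => ζ (0, l) := @measurable_const _ _ _ Env _
    have h1 : Measurable[Env] fun h => ζ (0, l) / sV pp rr d s E ρ om cav h := h0.div (sV_Env L)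
    have h2 : Measurable[Env] fun h => bet pp rr d s E om cav 0 h * uc pp rr d ρ cav ξ ζ h l :=
      (bet_Env L 0).mul (uc_Env L ξ ζ l)
    have h3 : Measurable[Env] fun h =>
        ∑ j : Fin d, bet pp rr d s E om cav j h * (if (j : ℕ) = 0 then 0 else ξ (j, l)) :=
      Finset.measurable_sum _ fun j _ => (bet_Env L j).mul_const _
    exact (h1.sub h2).sub h3
  | some i =>
    simp only [cc]
    by_cases hi : (i : ℕ) = 0
    · simp only [hi, if_true, zero_add]
      exact uc_Env L ξ ζ l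
    · simp only [hi, if_false, add_zero]
      exact @measurable_const _ _ _ Env _

/-- almost sure positivity facts -/
theorem pos_ae (L : LimProc Env FX d k s E t ρ P pp rr om cav X Z) :
    ∀ᵐ h ∂P, (∀ i : ℕ, 0 < aI pp rr cav i h) ∧ 0 < AI pp rr d cav h - aI pp rr cav 0 h ∧
      0 < AI pp rr d cav h ∧ 0 < (Gd pp rr d s E om cav h).im ∧
      (Gd pp rr d s E om cav h).im = AI pp rr d cav h *
        Complex.normSq (Gd pp rr d s E om cav h) := by
  have h1 : ∀ᵐ h ∂P, ∀ i : ℕ, 0 < aI pp rr cav i h := by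
    rw [ae_all_iff]
    intro i
    exact (mv_mp L i).quasiMeasurePreserving.ae L.cav_im
  filter_upwards [h1] with h hh
  have hd := L.hd
  have hA : AI pp rr d cav h - aI pp rr cav 0 h = ∑ i ∈ Finset.Ico 1 d, aI pp rr cav i h := by
    unfold AI
    rw [Finset.range_eq_Ico, Finset.sum_eq_sum_Ico_succ_bot (by omega)]
    ring
  have hA0 : 0 < AI pp rr d cav h - aI pp rr cav 0 h := by
    rw [hA]
    exact Finset.sum_pos (fun i _ => hh i) ⟨1, Finset.mem_Ico.2 ⟨le_rfl, by omega⟩⟩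
  have hAp : 0 < AI pp rr d cav h := by
    have := hh 0
    linarith
  have hσ : ((E : ℂ) - s * om h + ∑ i ∈ Finset.range d, cav (mv pp rr i h)).im =
      AI pp rr d cav h := by
    simp [AI, aI]
  obtain ⟨g1, g2⟩ := g_facts ((E : ℂ) - s * om h + ∑ i ∈ Finset.range d, cav (mv pp rr i h))
    (by rw [hσ]; exact hAp)
  refine ⟨hh, hA0, hAp, g1, ?_⟩
  rw [hσ] at g2
  exact g2

end meas

end Crest.Agent.R166.Innov487
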