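import Crest.Agent.R166.InnovC_487

/-!
Row 166, section 42.4 (helper487).  Conditional characteristic function of `(J, N)` given `FX`,
the joint law, integrability of `Z`.
-/

set_option autoImplicit false
set_option linter.unusedSectionVars false
set_option linter.unusedVariables false

namespace Crest.Agent.R166.Innov487

open MeasureTheory ProbabilityTheory Crest.Agent.R166.B2 Crest.Agent.R166.Tweedie487
  Crest.Agent.R166.Mart663 Crest.Agent.R166.Freeze487

variable {Ω : Type} {Env FX : MeasurableSpace Ω} [mΩ : MeasurableSpace Ω] {d k : ℕ}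
  {s E t ρ : ℝ} {P : Measure Ω} {pp rr : Ω → Ω} {om : Ω → ℝ} {cav : Ω → ℂ}
  {X Z : Ω → Fin k → ℝ}

/-- the part of the conditional characteristic function depending on `ξ` -/
noncomputable def psi0 {k : ℕ} (pp rr : Ω → Ω) (d : ℕ) (ρ : ℝ) (cav : Ω → ℂ)
    (ξ : Fin d × Fin k → ℝ) (h : Ω) : ℂ :=
  Complex.exp (((-(1 / 2) * ∑ l : Fin k,
    (∑ i : Fin d, aI pp rr cav i h * (if (i : ℕ) = 0 then 0 else ξ (i, l)) ^ 2 -
      (∑ i : Fin d, aI pp rr cav i h * (if (i : ℕ) = 0 then 0 else ξ (i, l))) ^ 2 /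
        (AI pp rr d cav h - aI pp rr cav 0 h)) / (Real.pi * ρ) : ℝ) : ℂ))

theorem AI_fin (pp rr : Ω → Ω) (d : ℕ) (cav : Ω → ℂ) (h : Ω) :
    AI pp rr d cav h = ∑ i : Fin d, aI pp rr cav i h := by
  unfold AI
  rw [Finset.sum_range]

/-- the quadratic form of the star covariance at the coefficients `cc` -/
theorem quad_cc (hd : 3 ≤ d) (hρ : 0 < ρ) (ξ : Fin d × Fin k → ℝ) (ζ : Fin 2 × Fin k → ℝ) (h : Ω)
    (h1 : ∀ i : ℕ, 0 < aI pp rr cav i h) (h2 : 0 < AI pp rr d cav h - aI pp rr cav 0 h)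
    (h3 : 0 < AI pp rr d cav h) (h4 : 0 < (Gd pp rr d s E om cav h).im)
    (h5 : (Gd pp rr d s E om cav h).im = AI pp rr d cav h *
        Complex.normSq (Gd pp rr d s E om cav h)) (l : Fin k) :
    (∑ a, ∑ b, cc pp rr d s E ρ om cav ξ ζ h (a, l) * cc pp rr d s E ρ om cav ξ ζ h (b, l) *
      (Gs pp rr d s E om cav h a b).im) / (Real.pi * ρ) =
    ζ (0, l) ^ 2 + ζ (1, l) ^ 2 +
      (∑ i : Fin d, aI pp rr cav i h * (if (i : ℕ) = 0 then 0 else ξ (i, l)) ^ 2 -
      (∑ i : Fin d, aI pp rr cav i h * (if (i : ℕ) = 0 then 0 else ξ (i, l))) ^ 2 /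
        (AI pp rr d cav h - aI pp rr cav 0 h)) / (Real.pi * ρ) := by
  set i0 : Fin d := ⟨0, by omega⟩ with hi0
  have hi0v : ∀ i : Fin d, (i : ℕ) = 0 ↔ i = i0 := fun i => by
    rw [hi0, Fin.ext_iff]
  have hgne := h4.ne'
  refine quad_coeff i0 (fun a b => (Gs pp rr d s E om cav h a b).im)
    (Gd pp rr d s E om cav h).im (AI pp rr d cav h) (Real.pi * ρ)
    (fun i => aI pp rr cav i h) (fun i => bet pp rr d s E om cav i h) h4 (by positivity)
    (h1 _) h3 h2 rfl ?_ ?_ ?_ (fun i => if (i : ℕ) = 0 then 0 else ξ (i, l)) (by simp [hi0])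
    (ζ (0, l)) (ζ (1, l)) (fun a => cc pp rr d s E ρ om cav ξ ζ h (a, l)) ?_ ?_
  · intro i
    simp only [Gs, bet]
    field_simp
  · intro i
    simp only [Gs, bet]
    field_simp
  · intro i j
    simp only [Gs, bet, aI]
    have := K_identity (Gd pp rr d s E om cav h) (cav (mv pp rr i h)) (cav (mv pp rr j h))
      (AI pp rr d cav h) h3 h4 h5 (i = j)
    rw [this]
  · intro i
    simp only [cc]
    by_cases hi : i = i0
    · subst hi
      simp only [hi0, if_true, uc, s0]
    · have : (i : ℕ) ≠ 0 := fun h0 => hi ((hi0v i).1 h0)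
      simp only [this, hi, if_false]
  · simp only [cc, uc, s0, sV, hi0]

theorem hJN (L : LimProc Env FX d k s E t ρ P pp rr om cav X Z) (ξ : Fin d × Fin k → ℝ)
    (ζ : Fin 2 × Fin k → ℝ) :
    P[fun h => Complex.exp (Complex.I * ((∑ q, ξ q * JJ pp rr d s E om cav Z h q +
      ∑ q, ζ q * NN pp rr d s E ρ om cav Z h q : ℝ) : ℂ)) | FX] =ᵐ[P]
    fun h => psi0 pp rr d ρ cav ξ h * ((Real.exp (-(∑ q, ζ q ^ 2) / 2) : ℝ) : ℂ) := by
  have := L.prob
  have hd := L.hd
  have hVm : Measurable fun h => fun q : St d × Fin k => Z (sv pp rr d h q.1) q.2 := by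
    refine measurable_pi_lambda _ fun q => ?_
    obtain ⟨p, l⟩ := q
    cases p with
    | none => exact (measurable_pi_apply l).comp L.Z_meas
    | some i => exact (measurable_pi_apply l).comp (L.Z_meas.comp (mv_mp L i).measurable)
  have hfr := freeze (P := P) L.FX_le hVm
    (φ := fun h x => Complex.exp (((-(1 / 2) * ∑ l : Fin k,
      (∑ a, ∑ b, x (a, l) * x (b, l) * (Gs pp rr d s E om cav h a b).im) / (Real.pi * ρ) : ℝ) : ℂ)))
    (fun h => by fun_prop) (by
      intro x
      have hZ := L.Z_gauss [] (fun j hj => by simp at hj) 0 (fun a l => x (a, l))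
      have e1 : (fun h => Complex.exp (Complex.I * ((∑ q : St d × Fin k,
          x q * Z (sv pp rr d h q.1) q.2 : ℝ) : ℂ))) =
          fun h => Complex.exp (Complex.I *
        ((∑ l, ((0 : Fin k → ℝ) l * Z (wd pp rr [] (pp h)) l +
          ∑ a, x (a, l) * Z (sv pp rr d h a) l) : ℝ) : ℂ)) := by
        ext h
        congr 3
        rw [Fintype.sum_prod_type, Finset.sum_comm]
        refine Finset.sum_congr rfl fun l _ => ?_
        simp
      rw [e1]
      refine hZ.trans (Filter.Eventually.of_forall fun h => ?_)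
      simp only [Pi.zero_apply, zero_mul, mul_zero, Finset.sum_const_zero, zero_add, ne_eq,
        OfNat.ofNat_ne_zero, not_false_eq_true, zero_pow])
    ((cc_Env L ξ ζ).mono L.Env_le le_rfl)
  have e2 : (fun h => Complex.exp (Complex.I * ((∑ q : St d × Fin k,
      cc pp rr d s E ρ om cav ξ ζ h q * Z (sv pp rr d h q.1) q.2 : ℝ) : ℂ))) =
      fun h => Complex.exp (Complex.I * ((∑ q, ξ q * JJ pp rr d s E om cav Z h q +
      ∑ q, ζ q * NN pp rr d s E ρ om cav Z h q : ℝ) : ℂ)) := by
    ext h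
    rw [cc_sum pp rr (by omega) s E ρ om cav Z ξ ζ h]
  rw [e2] at hfr
  refine hfr.trans ?_
  filter_upwards [pos_ae L] with h hh
  obtain ⟨h1, h2, h3, h4, h5⟩ := hh
  rw [psi0, ← Complex.ofReal_exp, ← Complex.ofReal_exp, ← Complex.ofReal_mul, ← Real.exp_add]
  congr 2
  have e3 : ∑ q : Fin 2 × Fin k, ζ q ^ 2 = ∑ l, (ζ (0, l) ^ 2 + ζ (1, l) ^ 2) := by
    rw [Fintype.sum_prod_type, Fin.sum_univ_two, ← Finset.sum_add_distrib]
  rw [e3]
  have e4 : ∀ l : Fin k, (∑ a, ∑ b, cc pp rr d s E ρ om cav ξ ζ h (a, l) *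
      cc pp rr d s E ρ om cav ξ ζ h (b, l) * (Gs pp rr d s E om cav h a b).im) / (Real.pi * ρ) =
      (ζ (0, l) ^ 2 + ζ (1, l) ^ 2) +
      (∑ i : Fin d, aI pp rr cav i h * (if (i : ℕ) = 0 then 0 else ξ (i, l)) ^ 2 -
      (∑ i : Fin d, aI pp rr cav i h * (if (i : ℕ) = 0 then 0 else ξ (i, l))) ^ 2 /
        (AI pp rr d cav h - aI pp rr cav 0 h)) / (Real.pi * ρ) := fun l =>
    quad_cc hd L.hρ ξ ζ h h1 h2 h3 h4 h5 l
  rw [Finset.sum_congr rfl fun l _ => e4 l, Finset.sum_add_distrib]
  ring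

theorem Z_star_meas (L : LimProc Env FX d k s E t ρ P pp rr om cav X Z) (j : ℕ) (l : Fin k) :
    Measurable fun h => Z (mv pp rr j h) l :=
  (measurable_pi_apply l).comp (L.Z_meas.comp (mv_mp L j).measurable)

theorem NN_meas (L : LimProc Env FX d k s E t ρ P pp rr om cav X Z) :
    Measurable (NN pp rr d s E ρ om cav Z) := by
  have hE : Env ≤ mΩ := L.Env_le.trans L.FX_le
  have hZ : ∀ l, Measurable fun h => Z h l := fun l => (measurable_pi_apply l).comp L.Z_meas
  refine measurable_pi_lambda _ fun q => ?_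
  unfold NN
  by_cases hq : q.1 = 0
  · simp only [hq, if_true]
    exact (hZ _).div ((sV_Env L).mono hE le_rfl)
  · simp only [hq, if_false]
    exact (((hZ _).comp L.pp_mp.measurable).sub
      (((bet_Env L 0).mono hE le_rfl).mul (hZ _))).div ((s0_Env L).mono hE le_rfl)

theorem JJ_meas (L : LimProc Env FX d k s E t ρ P pp rr om cav X Z) :
    Measurable (JJ pp rr d s E om cav Z) := by
  have hE : Env ≤ mΩ := L.Env_le.trans L.FX_le
  have hZ : ∀ l, Measurable fun h => Z h l := fun l => (measurable_pi_apply l).comp L.Z_meas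
  refine measurable_pi_lambda _ fun q => ?_
  unfold JJ
  by_cases hq : (q.1 : ℕ) = 0
  · simp only [hq, if_true]
    exact measurable_const
  · simp only [hq, if_false]
    refine Measurable.add ((Z_star_meas L _ _).sub
      (((bet_Env L _).mono hE le_rfl).mul (hZ _))) (Measurable.mul ?_ ?_)
    · exact ((aI_Env L _).mono hE le_rfl).div
        (((AI_Env L).mono hE le_rfl).sub ((aI_Env L 0).mono hE le_rfl))
    · exact ((hZ _).comp L.pp_mp.measurable).sub (((bet_Env L 0).mono hE le_rfl).mul (hZ _))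

/-- joint law of `(V, J, N)` for every `FX`-measurable `V`. -/
theorem law_VJN {E' : Type*} [MeasurableSpace E']
    (L : LimProc Env FX d k s E t ρ P pp rr om cav X Z) {V : Ω → E'} (hV : Measurable[FX] V) :
    P.map (fun h => ((V h, JJ pp rr d s E om cav Z h), NN pp rr d s E ρ om cav Z h)) =
      (P.map fun h => (V h, JJ pp rr d s E om cav Z h)).prod (gs (Fin 2 × Fin k)) := by
  have := L.prob
  exact map_prod_gs (P := P) L.FX_le (JJ_meas L) (NN_meas L) (fun ξ ζ => hJN L ξ ζ) hV

/-- `Z` is integrable. -/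
theorem Z_int (L : LimProc Env FX d k s E t ρ P pp rr om cav X Z) (l : Fin k) :
    Integrable (fun h => Z h l) P := by
  have := L.prob
  have hE : Env ≤ mΩ := L.Env_le.trans L.FX_le
  have hsV : Measurable[FX] (sV pp rr d s E ρ om cav) := (sV_Env L).mono L.Env_le le_rfl
  have hsV' : Measurable (sV pp rr d s E ρ om cav) := hsV.mono L.FX_le le_rfl
  have hsVi : Integrable (sV pp rr d s E ρ om cav) P := by
    refine ((L.G_int.abs.div_const (Real.pi * ρ)).add (integrable_const (1 : ℝ))).mono'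
      hsV'.aestronglyMeasurable (Filter.Eventually.of_forall fun h => ?_)
    have hR : 0 < Real.pi * ρ := mul_pos Real.pi_pos L.hρ
    have h0 : 0 ≤ sV pp rr d s E ρ om cav h := Real.sqrt_nonneg _
    rw [Real.norm_eq_abs, abs_of_nonneg h0]
    simp only [Pi.add_apply, sV]
    have h1 : Real.sqrt ((Gd pp rr d s E om cav h).im / (Real.pi * ρ)) ≤
        Real.sqrt (|(Gd pp rr d s E om cav h).im| / (Real.pi * ρ)) :=
      Real.sqrt_le_sqrt (div_le_div_of_nonneg_right (le_abs_self _) hR.le)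
    refine h1.trans ?_
    set y := |(Gd pp rr d s E om cav h).im| / (Real.pi * ρ) with hy
    have hy0 : 0 ≤ y := by positivity
    have h2 := Real.sq_sqrt hy0
    nlinarith [sq_nonneg (Real.sqrt y - 1), Real.sqrt_nonneg y]
  have hlaw := law_VJN L hsV
  have hN : P.map (fun h => (sV pp rr d s E ρ om cav h, NN pp rr d s E ρ om cav Z h)) =
      (P.map (sV pp rr d s E ρ om cav)).prod (gs (Fin 2 × Fin k)) := by
    have hm1 : Measurable fun h => ((sV pp rr d s E ρ om cav h, JJ pp rr d s E om cav Z h),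
        NN pp rr d s E ρ om cav Z h) := (hsV'.prodMk (JJ_meas L)).prodMk (NN_meas L)
    have e1 : (fun h => (sV pp rr d s E ρ om cav h, NN pp rr d s E ρ om cav Z h)) =
        (Prod.map Prod.fst id) ∘ fun h => ((sV pp rr d s E ρ om cav h,
          JJ pp rr d s E om cav Z h), NN pp rr d s E ρ om cav Z h) := rfl
    have e2 : (sV pp rr d s E ρ om cav) = Prod.fst ∘ fun h => (sV pp rr d s E ρ om cav h,
        JJ pp rr d s E om cav Z h) := rfl
    have : IsProbabilityMeasure (P.map fun h => (sV pp rr d s E ρ om cav h,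
        JJ pp rr d s E om cav Z h)) :=
      Measure.isProbabilityMeasure_map (hsV'.prodMk (JJ_meas L)).aemeasurable
    rw [e1, ← Measure.map_map (measurable_fst.prodMap measurable_id) hm1, hlaw,
      ← Measure.map_prod_map _ _ measurable_fst measurable_id, Measure.map_id,
      Measure.map_map measurable_fst (hsV'.prodMk (JJ_meas L))]
    rfl
  have h1 : Integrable (fun r : ℝ × (Fin 2 × Fin k → ℝ) => r.1 * r.2 (0, l))
      ((P.map (sV pp rr d s E ρ om cav)).prod (gs (Fin 2 × Fin k))) := by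
    refine Integrable.mul_prod (f := fun x : ℝ => x)
      (g := fun z : Fin 2 × Fin k → ℝ => z (0, l)) ?_ ?_
    · rw [integrable_map_measure (by fun_prop) hsV'.aemeasurable]
      exact hsVi
    · exact (integrable_gs_iff _).2 (integrable_coord_ph _)
  rw [← hN, integrable_map_measure (by fun_prop) (hsV'.prodMk (NN_meas L)).aemeasurable] at h1
  refine h1.congr ?_
  filter_upwards [pos_ae L] with h hh
  obtain ⟨_, _, _, h4, _⟩ := hh
  have hs : sV pp rr d s E ρ om cav h ≠ 0 := by
    unfold sV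
    have hR : 0 < Real.pi * ρ := mul_pos Real.pi_pos L.hρ
    exact (Real.sqrt_pos.2 (by positivity)).ne'
  simp only [Function.comp, NN, if_true]
  field_simp

end Crest.Agent.R166.Innov487
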