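import Crest.Agent.R166.Res2_789
import Crest.Agent.R166.Spine_419

/-!
Row 166, section 50 (helper348): algebra of the relative Cayley transform and of real Moebius maps.
-/

set_option autoImplicit false
set_option linter.unusedSectionVars false

namespace Crest.Agent.R166.InvA348

open Matrix Complex Crest.Agent.R166.Res789

variable {ι : Type*} [Fintype ι] [DecidableEq ι]

/-- Cayley transform (arbitrary index type) -/
noncomputable def CayI (C : Matrix ι ι ℝ) : Matrix ι ι ℂ :=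
  (cx C - I • (1 : Matrix ι ι ℂ)) * (cx C + I • (1 : Matrix ι ι ℂ))⁻¹

/-- relative Cayley transform: `A` = real part of the reference, `T Tᵀ` = imaginary part. -/
noncomputable def Uref (A T M : Matrix ι ι ℝ) : Matrix ι ι ℂ := CayI (T⁻¹ * (M - A) * (T⁻¹)ᵀ)

/-- entrywise complex conjugate -/
def cjM {α β : Type*} (Z : Matrix α β ℂ) : Matrix α β ℂ := Z.map (starRingEnd ℂ)

omit [Fintype ι] [DecidableEq ι] in
@[simp] lemma cjM_apply {α β : Type*} (Z : Matrix α β ℂ) (i : α) (j : β) :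
    cjM Z i j = (starRingEnd ℂ) (Z i j) := rfl

lemma cjM_mul (A B : Matrix ι ι ℂ) : cjM (A * B) = cjM A * cjM B := by
  unfold cjM; exact Matrix.map_mul

lemma cjM_one : cjM (1 : Matrix ι ι ℂ) = 1 := by
  unfold cjM; exact Matrix.map_one _ (by simp) (by simp)

lemma cjM_add (A B : Matrix ι ι ℂ) : cjM (A + B) = cjM A + cjM B := by
  ext i j; simp

lemma cjM_cx (A : Matrix ι ι ℝ) : cjM (cx A) = cx A := by
  ext i j; simp

lemma cjM_cjM (A : Matrix ι ι ℂ) : cjM (cjM A) = A := by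
  ext i j; simp

lemma cjM_transpose (A : Matrix ι ι ℂ) : (cjM A)ᵀ = cjM Aᵀ := rfl

lemma conjTranspose_eq (A : Matrix ι ι ℂ) : Aᴴ = cjM Aᵀ := by
  ext i j; simp

lemma isUnit_cjM {A : Matrix ι ι ℂ} (h : IsUnit A.det) : IsUnit (cjM A).det := by
  have h1 : (cjM A) * cjM A⁻¹ = 1 := by
    rw [← cjM_mul, Matrix.mul_nonsing_inv _ h, cjM_one]
  exact Matrix.isUnit_det_of_right_inverse h1

lemma cjM_inv {A : Matrix ι ι ℂ} (h : IsUnit A.det) : cjM A⁻¹ = (cjM A)⁻¹ := by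
  symm
  apply Matrix.inv_eq_right_inv
  rw [← cjM_mul, Matrix.mul_nonsing_inv _ h, cjM_one]

lemma isUnit_cx {T : Matrix ι ι ℝ} (hT : IsUnit T.det) : IsUnit (cx T).det := by
  have h1 : cx T * cx T⁻¹ = 1 := by
    rw [← cx_mul, Matrix.mul_nonsing_inv _ hT, cx_one]
  exact Matrix.isUnit_det_of_right_inverse h1

lemma sub_eq_im (Z : Matrix ι ι ℂ) : Z - cjM Z = (2 * I) • cx (imM Z) := by
  ext i j
  simp only [Matrix.sub_apply, cjM_apply, Matrix.smul_apply, cx_apply, imM_apply, smul_eq_mul]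
  apply Complex.ext <;> simp
  ring

lemma eq_re_im (Z : Matrix ι ι ℂ) : Z = cx (reM Z) + I • cx (imM Z) := by
  ext i j
  simp only [Matrix.add_apply, Matrix.smul_apply, cx_apply, imM_apply, reM_apply, smul_eq_mul]
  apply Complex.ext <;> simp

lemma cj_eq_re_im (Z : Matrix ι ι ℂ) : cjM Z = cx (reM Z) - I • cx (imM Z) := by
  ext i j
  simp only [Matrix.sub_apply, cjM_apply, Matrix.smul_apply, cx_apply, imM_apply, reM_apply,
    smul_eq_mul]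
  apply Complex.ext <;> simp

/-- the matrix `M - conj Z` is invertible for real symmetric `M` -/
lemma isUnit_sub_cj {Z : Matrix ι ι ℂ} (hZ : Sieg Z) {M : Matrix ι ι ℝ} (hM : Mᵀ = M) :
    IsUnit (cx M - cjM Z).det := by
  have h2 : Sieg (cx M - cjM Z) := by
    refine ⟨?_, ?_⟩
    · rw [Matrix.transpose_sub, cjM_transpose, hZ.symm, ← cx_transpose, hM]
    · intro u hu
      have : imM (cx M - cjM Z) = imM Z := by
        ext i j; simp
      rw [this]; exact hZ.pos u hu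
  exact h2.isUnit_det

lemma isUnit_sub {Z : Matrix ι ι ℂ} (hZ : Sieg Z) {M : Matrix ι ι ℝ} (hM : Mᵀ = M) :
    IsUnit (cx M - Z).det := by
  have h := isUnit_cjM (isUnit_sub_cj hZ hM)
  have h2 : cjM (cx M - cjM Z) = cx M - Z := by
    ext i j; simp
  rwa [h2] at h

/-- closed formula of the relative Cayley transform -/
theorem Uref_eq {Z : Matrix ι ι ℂ} (hZ : Sieg Z) {A T M : Matrix ι ι ℝ} (hT : IsUnit T.det)
    (hA : reM Z = A) (hTT : imM Z = T * Tᵀ) (hM : Mᵀ = M) :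
    Uref A T M = cx T⁻¹ * (cx M - Z) * (cx M - cjM Z)⁻¹ * cx T := by
  have hT' : IsUnit (cx T).det := isUnit_cx hT
  have h1 : cx (T⁻¹ * (M - A) * (T⁻¹)ᵀ) - I • (1 : Matrix ι ι ℂ) =
      cx T⁻¹ * (cx M - Z) * (cx T⁻¹)ᵀ := by
    have e1 : (1 : Matrix ι ι ℂ) = cx (T⁻¹ * (T * Tᵀ) * (T⁻¹)ᵀ) := by
      have : T⁻¹ * (T * Tᵀ) * (T⁻¹)ᵀ = 1 := by
        rw [← mul_assoc, Matrix.nonsing_inv_mul _ hT, one_mul, ← Matrix.transpose_mul,
          Matrix.nonsing_inv_mul _ hT, Matrix.transpose_one]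
      rw [this, cx_one]
    rw [e1, eq_re_im Z, hA, hTT]
    simp only [cx_mul, cx_sub, cx_transpose]
    simp only [mul_sub, sub_mul, mul_add, add_mul, Matrix.mul_smul, Matrix.smul_mul]
    abel
  have h2 : cx (T⁻¹ * (M - A) * (T⁻¹)ᵀ) + I • (1 : Matrix ι ι ℂ) =
      cx T⁻¹ * (cx M - cjM Z) * (cx T⁻¹)ᵀ := by
    have e1 : (1 : Matrix ι ι ℂ) = cx (T⁻¹ * (T * Tᵀ) * (T⁻¹)ᵀ) := by
      have : T⁻¹ * (T * Tᵀ) * (T⁻¹)ᵀ = 1 := by
        rw [← mul_assoc, Matrix.nonsing_inv_mul _ hT, one_mul, ← Matrix.transpose_mul,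
          Matrix.nonsing_inv_mul _ hT, Matrix.transpose_one]
      rw [this, cx_one]
    rw [e1, cj_eq_re_im Z, hA, hTT]
    simp only [cx_mul, cx_sub, cx_transpose]
    simp only [mul_sub, sub_mul, Matrix.mul_smul, Matrix.smul_mul]
    abel
  unfold Uref CayI
  rw [h1, h2, Matrix.mul_inv_rev, Matrix.mul_inv_rev]
  have h3 : (cx T⁻¹)ᵀ * ((cx T⁻¹)ᵀ)⁻¹ = 1 := by
    apply Matrix.mul_nonsing_inv
    rw [Matrix.det_transpose]
    have : cx T⁻¹ * cx T = 1 := by rw [← cx_mul, Matrix.nonsing_inv_mul _ hT, cx_one]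
    exact Matrix.isUnit_det_of_right_inverse this
  have h4 : (cx T⁻¹)⁻¹ = cx T := by
    apply Matrix.inv_eq_right_inv
    rw [← cx_mul, Matrix.nonsing_inv_mul _ hT, cx_one]
  rw [h4]
  calc cx T⁻¹ * (cx M - Z) * (cx T⁻¹)ᵀ * (((cx T⁻¹)ᵀ)⁻¹ * ((cx M - cjM Z)⁻¹ * cx T))
      = cx T⁻¹ * (cx M - Z) * ((cx T⁻¹)ᵀ * ((cx T⁻¹)ᵀ)⁻¹) * ((cx M - cjM Z)⁻¹ * cx T) := by
        simp only [mul_assoc]
    _ = cx T⁻¹ * (cx M - Z) * (cx M - cjM Z)⁻¹ * cx T := by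
        rw [h3, mul_one]; simp only [mul_assoc]

/-- pure algebra: difference of Moebius images -/
lemma mob_diff {X0 X m0 m w : Matrix ι ι ℂ} (hX : (1 + X0 * w) * X = X0)
    (hu : IsUnit (1 + X0 * w).det) (hm : m = m0 - m0 * w * m) :
    m - X = (1 + X0 * w)⁻¹ * (m0 - X0) * (1 - w * m) := by
  have h1 : (1 + X0 * w) * (m - X) = (m0 - X0) * (1 - w * m) := by
    rw [mul_sub, hX]
    have : (m0 - X0) * (1 - w * m) = (m0 - m0 * w * m) - X0 + X0 * w * m := by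
      rw [mul_sub, mul_one, ← mul_assoc, sub_mul, sub_mul]
      abel
    rw [this, ← hm, add_mul, one_mul]
    abel
  calc m - X = (1 + X0 * w)⁻¹ * ((1 + X0 * w) * (m - X)) := by
        rw [← mul_assoc, Matrix.nonsing_inv_mul _ hu, one_mul]
    _ = _ := by rw [h1, mul_assoc]

/-- the unitary attached to a real Moebius map and two factorised references -/
noncomputable def kap (T0 T W : Matrix ι ι ℝ) (Z0 : Matrix ι ι ℂ) : Matrix ι ι ℂ :=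
  cx T⁻¹ * (1 + Z0 * cx W)⁻¹ * cx T0

section Moebius

variable {Z0 : Matrix ι ι ℂ} {W T0 T M0 M : Matrix ι ι ℝ}

lemma im_mob (hZ0 : Sieg Z0) (hW : Wᵀ = W) :
    (1 + cjM Z0 * cx W) * cx (imM (Pm Z0 W)) * (1 + cx W * Z0) = cx (imM Z0) := by
  have hu1 := hZ0.isUnit_one_add hW
  have hu2 := hZ0.isUnit_one_add' hW
  have e1 : Pm Z0 W * (1 + cx W * Z0) = Z0 := by
    rw [hZ0.Pm_eq hW, mul_assoc, Matrix.nonsing_inv_mul _ hu2, mul_one]
  have e2 : (1 + Z0 * cx W) * Pm Z0 W = Z0 := by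
    rw [hZ0.Pm_eq' hW, ← mul_assoc, Matrix.mul_nonsing_inv _ hu1, one_mul]
  have e3 : (1 + cjM Z0 * cx W) * cjM (Pm Z0 W) = cjM Z0 := by
    have := congrArg cjM e2
    rwa [cjM_mul, cjM_add, cjM_one, cjM_mul, cjM_cx] at this
  have e4 : (1 + cjM Z0 * cx W) * (Pm Z0 W - cjM (Pm Z0 W)) * (1 + cx W * Z0) =
      Z0 - cjM Z0 := by
    rw [mul_sub, sub_mul, e3, mul_assoc, e1]
    rw [add_mul, one_mul, mul_add, mul_one, mul_assoc]
    abel
  rw [sub_eq_im, sub_eq_im] at e4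
  have h8 : (2 * I : ℂ) ≠ 0 := by simp
  have e5 := congrArg (fun M => (2 * I : ℂ)⁻¹ • M) e4
  simpa [smul_smul, inv_mul_cancel₀ h8, Matrix.mul_smul, Matrix.smul_mul] using e5

lemma kap_transpose (hZ0 : Sieg Z0) (hW : Wᵀ = W) (hT0 : IsUnit T0.det) (hT : IsUnit T.det)
    (hTT0 : imM Z0 = T0 * T0ᵀ) (hTT : imM (Pm Z0 W) = T * Tᵀ) :
    (kap T0 T W Z0)ᵀ = cx T0⁻¹ * (1 + cjM Z0 * cx W) * cx T := by
  have hu2 := hZ0.isUnit_one_add' hW
  have h1 := im_mob hZ0 hW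
  rw [hTT, hTT0, cx_mul, cx_mul] at h1
  have ht : (kap T0 T W Z0)ᵀ = (cx T0)ᵀ * (1 + cx W * Z0)⁻¹ * (cx T⁻¹)ᵀ := by
    unfold kap
    rw [Matrix.transpose_mul, Matrix.transpose_mul, Matrix.transpose_nonsing_inv,
      Matrix.transpose_add, Matrix.transpose_one, Matrix.transpose_mul, hZ0.symm,
      ← cx_transpose W, hW, mul_assoc]
  rw [ht]
  have h2 : cx T0⁻¹ * ((1 + cjM Z0 * cx W) * (cx T * cx Tᵀ) * (1 + cx W * Z0)) =
      (cx T0)ᵀ := by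
    rw [h1, ← mul_assoc, ← cx_mul, Matrix.nonsing_inv_mul _ hT0, cx_one, one_mul, cx_transpose]
  rw [← h2]
  have h3 : cx Tᵀ * (cx T⁻¹)ᵀ = 1 := by
    rw [← cx_transpose, ← cx_mul, ← Matrix.transpose_mul, Matrix.nonsing_inv_mul _ hT,
      Matrix.transpose_one, cx_one]
  calc cx T0⁻¹ * ((1 + cjM Z0 * cx W) * (cx T * cx Tᵀ) * (1 + cx W * Z0)) *
        (1 + cx W * Z0)⁻¹ * (cx T⁻¹)ᵀ
      = cx T0⁻¹ * ((1 + cjM Z0 * cx W) * (cx T * cx Tᵀ)) * ((1 + cx W * Z0) *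
        (1 + cx W * Z0)⁻¹) * (cx T⁻¹)ᵀ := by simp only [mul_assoc]
    _ = cx T0⁻¹ * (1 + cjM Z0 * cx W) * cx T * (cx Tᵀ * (cx T⁻¹)ᵀ) := by
        rw [Matrix.mul_nonsing_inv _ hu2, mul_one]; simp only [mul_assoc]
    _ = _ := by rw [h3, mul_one]

lemma kap_unitary (hZ0 : Sieg Z0) (hW : Wᵀ = W) (hT0 : IsUnit T0.det) (hT : IsUnit T.det)
    (hTT0 : imM Z0 = T0 * T0ᵀ) (hTT : imM (Pm Z0 W) = T * Tᵀ) :
    kap T0 T W Z0 * (kap T0 T W Z0)ᴴ = 1 := by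
  have hu1 := hZ0.isUnit_one_add hW
  rw [conjTranspose_eq, kap_transpose hZ0 hW hT0 hT hTT0 hTT, cjM_mul, cjM_mul, cjM_cx, cjM_cx,
    cjM_add, cjM_one, cjM_mul, cjM_cjM, cjM_cx]
  unfold kap
  calc cx T⁻¹ * (1 + Z0 * cx W)⁻¹ * cx T0 * (cx T0⁻¹ * (1 + Z0 * cx W) * cx T)
      = cx T⁻¹ * ((1 + Z0 * cx W)⁻¹ * (cx T0 * cx T0⁻¹) * (1 + Z0 * cx W)) * cx T := by
        simp only [mul_assoc]
    _ = cx T⁻¹ * cx T := by
        rw [← cx_mul, Matrix.mul_nonsing_inv _ hT0, cx_one, mul_one,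
          Matrix.nonsing_inv_mul _ hu1, mul_one]
    _ = 1 := by rw [← cx_mul, Matrix.nonsing_inv_mul _ hT, cx_one]

lemma kap_mem (hZ0 : Sieg Z0) (hW : Wᵀ = W) (hT0 : IsUnit T0.det) (hT : IsUnit T.det)
    (hTT0 : imM Z0 = T0 * T0ᵀ) (hTT : imM (Pm Z0 W) = T * Tᵀ) :
    kap T0 T W Z0 ∈ Matrix.unitaryGroup ι ℂ := by
  rw [Matrix.mem_unitaryGroup_iff]
  exact kap_unitary hZ0 hW hT0 hT hTT0 hTT

/-- `κᵀ κ = T0⁻¹ (1 + conj Z0 W) (1 + Z0 W)⁻¹ T0` -/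
lemma kap_transpose_mul (hZ0 : Sieg Z0) (hW : Wᵀ = W) (hT0 : IsUnit T0.det) (hT : IsUnit T.det)
    (hTT0 : imM Z0 = T0 * T0ᵀ) (hTT : imM (Pm Z0 W) = T * Tᵀ) :
    (kap T0 T W Z0)ᵀ * kap T0 T W Z0 =
      cx T0⁻¹ * ((1 + cjM Z0 * cx W) * (1 + Z0 * cx W)⁻¹) * cx T0 := by
  rw [kap_transpose hZ0 hW hT0 hT hTT0 hTT]
  unfold kap
  calc cx T0⁻¹ * (1 + cjM Z0 * cx W) * cx T * (cx T⁻¹ * (1 + Z0 * cx W)⁻¹ * cx T0)
      = cx T0⁻¹ * (1 + cjM Z0 * cx W) * (cx T * cx T⁻¹) * (1 + Z0 * cx W)⁻¹ * cx T0 := by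
        simp only [mul_assoc]
    _ = _ := by
        rw [← cx_mul, Matrix.mul_nonsing_inv _ hT, cx_one, mul_one]; simp only [mul_assoc]

/-- covariance of the relative Cayley transform under a real Moebius map -/
theorem Uref_mob (hZ0 : Sieg Z0) (hW : Wᵀ = W) (hT0 : IsUnit T0.det) (hT : IsUnit T.det)
    (hTT0 : imM Z0 = T0 * T0ᵀ) (hTT : imM (Pm Z0 W) = T * Tᵀ)
    (hM0 : M0ᵀ = M0) (hM : Mᵀ = M) (hrel : M = M0 - M0 * W * M) :
    Uref (reM (Pm Z0 W)) T M =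
      kap T0 T W Z0 * Uref (reM Z0) T0 M0 * (kap T0 T W Z0)ᵀ := by
  have hu1 := hZ0.isUnit_one_add hW
  have hZ : Sieg (Pm Z0 W) := hZ0.Pm hW
  rw [Uref_eq hZ hT rfl hTT hM, Uref_eq hZ0 hT0 rfl hTT0 hM0,
    kap_transpose hZ0 hW hT0 hT hTT0 hTT]
  have hrelc : cx M = cx M0 - cx M0 * cx W * cx M := by
    have := congrArg cx hrel
    rwa [cx_sub, cx_mul, cx_mul] at this
  have hrel2 : M = M0 - M * W * M0 := by
    have := congrArg Matrix.transpose hrel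
    rw [hM, Matrix.transpose_sub, Matrix.transpose_mul, Matrix.transpose_mul, hM0, hM, hW,
      ← mul_assoc] at this
    exact this
  have hrelc2 : cx M = cx M0 - cx M * cx W * cx M0 := by
    have := congrArg cx hrel2
    rwa [cx_sub, cx_mul, cx_mul] at this
  have e2 : (1 + Z0 * cx W) * Pm Z0 W = Z0 := by
    rw [hZ0.Pm_eq' hW, ← mul_assoc, Matrix.mul_nonsing_inv _ hu1, one_mul]
  have hu1c : IsUnit (1 + cjM Z0 * cx W).det := by
    have := isUnit_cjM hu1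
    rwa [cjM_add, cjM_one, cjM_mul, cjM_cx] at this
  have e3 : (1 + cjM Z0 * cx W) * cjM (Pm Z0 W) = cjM Z0 := by
    have := congrArg cjM e2
    rwa [cjM_mul, cjM_add, cjM_one, cjM_mul, cjM_cx] at this
  have d1 := mob_diff e2 hu1 hrelc
  have d2 := mob_diff e3 hu1c hrelc
  have hinv : (1 - cx W * cx M) * (1 + cx W * cx M0) = 1 := by
    have : (1 - cx W * cx M) * (1 + cx W * cx M0) =
        1 + cx W * ((cx M0 - cx M * cx W * cx M0) - cx M) := by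
      simp only [mul_add, mul_sub, sub_mul, mul_one, one_mul, mul_assoc]
      abel
    rw [this, ← hrelc2, sub_self, mul_zero, add_zero]
  have hu3 : IsUnit (1 - cx W * cx M).det := Matrix.isUnit_det_of_right_inverse hinv
  rw [d2, d1, Matrix.mul_inv_rev, Matrix.mul_inv_rev, Matrix.nonsing_inv_nonsing_inv _ hu1c]
  unfold kap
  have hTc : cx T0 * cx T0⁻¹ = 1 := by rw [← cx_mul, Matrix.mul_nonsing_inv _ hT0, cx_one]
  calc cx T⁻¹ * ((1 + Z0 * cx W)⁻¹ * (cx M0 - Z0) * (1 - cx W * cx M)) *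
        ((1 - cx W * cx M)⁻¹ * ((cx M0 - cjM Z0)⁻¹ * (1 + cjM Z0 * cx W))) * cx T
      = cx T⁻¹ * (1 + Z0 * cx W)⁻¹ * (cx M0 - Z0) * ((1 - cx W * cx M) *
        (1 - cx W * cx M)⁻¹) * (cx M0 - cjM Z0)⁻¹ * (1 + cjM Z0 * cx W) * cx T := by
        simp only [mul_assoc]
    _ = cx T⁻¹ * (1 + Z0 * cx W)⁻¹ * (cx T0 * cx T0⁻¹) * (cx M0 - Z0) *
        (cx M0 - cjM Z0)⁻¹ * (cx T0 * cx T0⁻¹) * (1 + cjM Z0 * cx W) * cx T := by
        rw [Matrix.mul_nonsing_inv _ hu3, hTc, mul_one, mul_one, mul_one]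
    _ = _ := by simp only [mul_assoc]

end Moebius

end Crest.Agent.R166.InvA348
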