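import Crest.Agent.R166.Spine_419

/-!
Row 166, section 50: common definitions for the unitary invariance (helper988).
-/

set_option autoImplicit false

namespace Crest.Agent.R166.Inv988

open MeasureTheory ProbabilityTheory Matrix Crest.ProbabilityR.RandomMatrix Crest.Agent.R166

/-- index type: ports of the edge `e₁`, ports of the edge `e₂`, tests -/
abbrev Idx (m : ℕ) := (Fin 2 ⊕ Fin 2) ⊕ Fin m

/-- 2x2 complex blocks -/
abbrev M2 := Matrix (Fin 2) (Fin 2) ℂ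

/-- Cayley transform over a general index type (`Cay` is the case `ι = Fin m`) -/
noncomputable def CayG {ι : Type*} [Fintype ι] [DecidableEq ι] (C : Matrix ι ι ℝ) :
    Matrix ι ι ℂ :=
  (C.map (fun x : ℝ => (x : ℂ)) - Complex.I • (1 : Matrix ι ι ℂ)) *
    (C.map (fun x : ℝ => (x : ℂ)) + Complex.I • (1 : Matrix ι ι ℂ))⁻¹

theorem Cay_eq {m : ℕ} (C : Matrix (Fin m) (Fin m) ℝ) : Cay C = CayG C := rfl

/-- directions: the four ports and the `m` tests `g / √n` -/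
noncomputable def dirs {n m : ℕ} (p1 p2 : Fin n × Fin n) (g : Fin n → Fin m → ℝ) :
    Matrix (Fin n) (Idx m) ℝ :=
  Matrix.of fun v j => match j with
    | Sum.inl (Sum.inl a) => if v = ![p1.1, p1.2] a then 1 else 0
    | Sum.inl (Sum.inr a) => if v = ![p2.1, p2.2] a then 1 else 0
    | Sum.inr k => g v k / Real.sqrt n

/-- real resolvent array -/
noncomputable def arr {n : ℕ} {ι : Type*} [Fintype ι] (H : Matrix (Fin n) (Fin n) ℝ) (e : ℝ)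
    (Q : Matrix (Fin n) ι ℝ) : Matrix ι ι ℝ :=
  Q.transpose * (H - e • (1 : Matrix (Fin n) (Fin n) ℝ))⁻¹ * Q

/-- entrywise real and imaginary parts -/
def rePart {ι : Type*} (Z : Matrix ι ι ℂ) : Matrix ι ι ℝ := Z.map Complex.re

def imPart {ι : Type*} (Z : Matrix ι ι ℂ) : Matrix ι ι ℝ := Z.map Complex.im

/-- reference scale -/
noncomputable def Tref {m : ℕ} (Ta Tb : Matrix (Fin 2) (Fin 2) ℝ) (ρ : ℝ) :
    Matrix (Idx m) (Idx m) ℝ :=
  Matrix.fromBlocks (Matrix.fromBlocks Ta 0 0 Tb) 0 0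
    (Real.sqrt (Real.pi * ρ) • (1 : Matrix (Fin m) (Fin m) ℝ))

/-- reference centre -/
noncomputable def Aref {m : ℕ} (Za Zb : M2) (a : ℝ) : Matrix (Idx m) (Idx m) ℝ :=
  Matrix.fromBlocks (Matrix.fromBlocks (rePart Za) 0 0 (rePart Zb)) 0 0
    (a • (1 : Matrix (Fin m) (Fin m) ℝ))

/-- the normalised symmetric unitary array (ports + tests) in the fixed reference frame -/
noncomputable def Uref {n m : ℕ} (H : Matrix (Fin n) (Fin n) ℝ) (E ρ K x : ℝ) (Za Zb : M2)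
    (Ta Tb : Matrix (Fin 2) (Fin 2) ℝ) (p1 p2 : Fin n × Fin n) (g : Fin n → Fin m → ℝ) :
    Matrix (Idx m) (Idx m) ℂ :=
  CayG ((Tref Ta Tb ρ)⁻¹ * (arr H (E + x / n) (dirs p1 p2 g) -
    Aref Za Zb (mn H (zz E K n)).re) * ((Tref Ta Tb ρ)⁻¹).transpose)

/-- the block of the resolvent at fixed `η` at the pair `p` -/
noncomputable def blk {n : ℕ} (H : Matrix (Fin n) (Fin n) ℝ) (E η : ℝ) (p : Fin n × Fin n) : M2 :=
  Blk (Res H (ze E η)) p.1 p.2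

/-- average over two independent uniform directed edges -/
noncomputable def eAvg2 {n : ℕ} (G : SimpleGraph (Fin n))
    (F : Fin n × Fin n → Fin n × Fin n → ℝ) : ℝ :=
  (∑ p1 ∈ darts G, ∑ p2 ∈ darts G, F p1 p2) / ((darts G).card : ℝ) ^ 2

/-- average over the tests and the energy shift -/
noncomputable def tAvg {n m : ℕ} (H : Matrix (Fin n) (Fin n) ℝ) (E ρ K δ : ℝ) (Za Zb : M2)
    (Ta Tb : Matrix (Fin 2) (Fin 2) ℝ) (f : Matrix (Idx m) (Idx m) ℂ → ℝ)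
    (p1 p2 : Fin n × Fin n) : ℝ :=
  δ⁻¹ * ∫ x in (0 : ℝ)..δ, ∫ g, f (Uref H E ρ K x Za Zb Ta Tb p1 p2 g) ∂(gaussM n m)

/-- port value with the environment cutoff `χ` (at fixed `η`) -/
noncomputable def PV {n m : ℕ} (G : SimpleGraph (Fin n)) (H : Matrix (Fin n) (Fin n) ℝ)
    (E ρ K δ η : ℝ) (Za Zb : M2) (Ta Tb : Matrix (Fin 2) (Fin 2) ℝ)
    (χ : M2 → M2 → ℝ) (f : Matrix (Idx m) (Idx m) ℂ → ℝ) : ℝ :=
  eAvg2 G fun p1 p2 => χ (blk H E η p1) (blk H E η p2) *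
    tAvg H E ρ K δ Za Zb Ta Tb f p1 p2

/-- the average of the cutoff -/
noncomputable def cAvg {n : ℕ} (G : SimpleGraph (Fin n)) (H : Matrix (Fin n) (Fin n) ℝ)
    (E η : ℝ) (χ : M2 → M2 → ℝ) : ℝ :=
  eAvg2 G fun p1 p2 => χ (blk H E η p1) (blk H E η p2)

/-- identification of the index types -/
def idxEquiv (m : ℕ) : Idx m ≃ Fin (4 + m) :=
  (Equiv.sumCongr (finSumFinEquiv (m := 2) (n := 2)) (Equiv.refl (Fin m))).trans
    (finSumFinEquiv (m := 4) (n := m))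

/-- KEY COMPARISON: ports + tests see the pure test law -/
def KeyCmp (d : ℕ) (s E ρ : ℝ) : Prop :=
  ∀ (m : ℕ) (Za Zb : M2) (Ta Tb : Matrix (Fin 2) (Fin 2) ℝ), Za.transpose = Za →
    Zb.transpose = Zb → Ta * Ta.transpose = imPart Za → Tb * Tb.transpose = imPart Zb →
    IsUnit Ta.det → IsUnit Tb.det →
    ∀ f : Matrix (Idx m) (Idx m) ℂ → ℝ, Continuous f → ∀ δ : ℝ, 0 < δ → ∀ ε : ℝ, 0 < ε →
    ∃ r0 : ℝ, 0 < r0 ∧ ∀ χ : M2 → M2 → ℝ, Continuous (fun b : M2 × M2 => χ b.1 b.2) →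
    (∀ b1 b2, 0 ≤ χ b1 b2 ∧ χ b1 b2 ≤ 1) →
    (∀ b1 b2, χ b1 b2 ≠ 0 → bnorm (b1 - Za) ≤ r0 ∧ bnorm (b2 - Zb) ≤ r0) →
    ∀ ε2 : ℝ, 0 < ε2 → ∃ K0 : ℝ, 0 < K0 ∧ ∀ K : ℝ, K0 ≤ K → ∃ η0 : ℝ, 0 < η0 ∧
    ∀ η : ℝ, 0 < η → η ≤ η0 → ∃ N : ℕ, ∀ n : ℕ, N ≤ n → (regularGraphs n d).Nonempty →
    Whp n d ε2 fun G ω =>
      |PV G (Hm G s ω) E ρ K δ η Za Zb Ta Tb χ f -
        cAvg G (Hm G s ω) E η χ * TestVal (Hm G s ω) E ρ K δ (4 + m)
          (fun U => f (U.submatrix (idxEquiv m) (idxEquiv m)))| ≤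
        ε * cAvg G (Hm G s ω) E η χ + ε2

end Crest.Agent.R166.Inv988
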