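import Crest.Agent.R166.InvA_348
import Crest.Agent.R166.InvDefs_988
import Crest.Agent.R166.Gen_85

/-!
Row 166, section 50 (helper348): the fixed unitary `k` of the edge switching, its covariance
property and the fact that it is not a scalar times a real orthogonal matrix.
-/

set_option autoImplicit false
set_option linter.unusedSectionVars false

namespace Crest.Agent.R166.InvB348

open Matrix Complex Crest.Agent.R166.Res789 Crest.Agent.R166.InvA348 Crest.Agent.R166.Inv988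

/-- the coupling of an edge -/
def W2 : Matrix (Fin 2) (Fin 2) ℝ := !![0, 1; 1, 0]

lemma W2_symm : W2ᵀ = W2 := by
  ext i j; fin_cases i <;> fin_cases j <;> simp [W2]

/-- coupling of both edges -/
def WI (m : ℕ) : Matrix (Idx m) (Idx m) ℝ := fromBlocks (fromBlocks W2 0 0 W2) 0 0 0

lemma WI_symm (m : ℕ) : (WI m)ᵀ = WI m := by
  unfold WI
  rw [fromBlocks_transpose, fromBlocks_transpose, W2_symm]
  simp

/-- exchange of the second port of the first edge and the first port of the second edge -/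
def tau (m : ℕ) : Equiv.Perm (Idx m) :=
  Equiv.swap (Sum.inl (Sum.inl 1)) (Sum.inl (Sum.inr 0))

/-- diagonal references -/
def xd (m : ℕ) (a1 a2 b1 b2 c : ℂ) : Idx m → ℂ :=
  Sum.elim (Sum.elim ![a1, a2] ![b1, b2]) (fun _ => c)

lemma xd_im {m : ℕ} {a1 a2 b1 b2 c : ℂ} (h1 : 0 < a1.im) (h2 : 0 < a2.im) (h3 : 0 < b1.im)
    (h4 : 0 < b2.im) (h5 : 0 < c.im) (i : Idx m) : 0 < (xd m a1 a2 b1 b2 c i).im := by
  rcases i with (i | i) | i
  · fin_cases i <;> simpa [xd]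
  · fin_cases i <;> simpa [xd]
  · simpa [xd]

lemma xd_tau (m : ℕ) (x1 x2 c : ℂ) (i : Idx m) :
    xd m x1 x2 x1 x2 c (tau m i) = xd m x1 x1 x2 x2 c i := by
  rcases i with (i | i) | i
  · fin_cases i
    · have : tau m (Sum.inl (Sum.inl 0)) = Sum.inl (Sum.inl 0) := by
        unfold tau; rw [Equiv.swap_apply_of_ne_of_ne] <;> simp
      simp [this, xd]
    · have : tau m (Sum.inl (Sum.inl 1)) = Sum.inl (Sum.inr 0) := by
        unfold tau; rw [Equiv.swap_apply_left]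
      simp [this, xd]
  · fin_cases i
    · have : tau m (Sum.inl (Sum.inr 0)) = Sum.inl (Sum.inl 1) := by
        unfold tau; rw [Equiv.swap_apply_right]
      simp [this, xd]
    · have : tau m (Sum.inl (Sum.inr 1)) = Sum.inl (Sum.inr 1) := by
        unfold tau; rw [Equiv.swap_apply_of_ne_of_ne] <;> simp
      simp [this, xd]
  · have : tau m (Sum.inr i) = Sum.inr i := by
      unfold tau; rw [Equiv.swap_apply_of_ne_of_ne] <;> simp
    simp [this, xd]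

section general

variable {ι : Type*} [Fintype ι] [DecidableEq ι]

lemma sieg_diagonal {x : ι → ℂ} (hx : ∀ i, 0 < (x i).im) : Sieg (diagonal x) := by
  refine ⟨diagonal_transpose x, fun u hu => ?_⟩
  have h1 : qf (imM (diagonal x)) u = ∑ i, (x i).im * ‖u i‖ ^ 2 := by
    rw [qf_expand]
    refine Finset.sum_congr rfl fun i _ => ?_
    rw [Finset.sum_eq_single i]
    · simp only [imM_apply, diagonal_apply_eq]
      rw [← Complex.normSq_eq_norm_sq, Complex.normSq_apply]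
    · intro j _ hj
      rw [imM_apply, diagonal_apply_ne _ (Ne.symm hj)]
      simp
    · simp
  rw [h1]
  obtain ⟨i, hi⟩ : ∃ i, u i ≠ 0 := by
    by_contra hcon
    push Not at hcon
    exact hu (funext hcon)
  refine Finset.sum_pos' (fun j _ => mul_nonneg (hx j).le (by positivity))
    ⟨i, Finset.mem_univ _, mul_pos (hx i) (by positivity)⟩

/-- factor of a diagonal reference -/
noncomputable def td (x : ι → ℂ) : Matrix ι ι ℝ := diagonal fun i => Real.sqrt (x i).im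

lemma td_mul {x : ι → ℂ} (hx : ∀ i, 0 < (x i).im) : imM (diagonal x) = td x * (td x)ᵀ := by
  unfold td
  rw [diagonal_transpose, diagonal_mul_diagonal]
  ext i j
  by_cases h : i = j
  · subst h
    simp [Real.mul_self_sqrt (hx i).le]
  · simp [diagonal_apply_ne _ h]

lemma isUnit_td {x : ι → ℂ} (hx : ∀ i, 0 < (x i).im) : IsUnit (td x).det := by
  unfold td
  rw [det_diagonal, isUnit_iff_ne_zero, Finset.prod_ne_zero_iff]
  intro i _
  exact (Real.sqrt_pos.2 (hx i)).ne'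

end general

section blocks

variable {α β : Type*} [Fintype α] [DecidableEq α] [Fintype β] [DecidableEq β]

lemma inv_fromBlocks_diag {A : Matrix α α ℂ} {D : Matrix β β ℂ} (hA : IsUnit A.det)
    (hD : IsUnit D.det) : (fromBlocks A 0 0 D)⁻¹ = fromBlocks A⁻¹ 0 0 D⁻¹ := by
  apply Matrix.inv_eq_right_inv
  rw [fromBlocks_multiply]
  simp [Matrix.mul_nonsing_inv _ hA, Matrix.mul_nonsing_inv _ hD]

lemma Pm_fromBlocks {Z1 : Matrix α α ℂ} {Z2 : Matrix β β ℂ} (h1 : Sieg Z1) (h2 : Sieg Z2)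
    {K1 : Matrix α α ℝ} {K2 : Matrix β β ℝ} (hK1 : K1ᵀ = K1) (hK2 : K2ᵀ = K2) :
    Pm (fromBlocks Z1 0 0 Z2) (fromBlocks K1 0 0 K2) =
      fromBlocks (Pm Z1 K1) 0 0 (Pm Z2 K2) := by
  have hcx : cx (fromBlocks K1 0 0 K2) = fromBlocks (cx K1) 0 0 (cx K2) := by
    unfold cx
    rw [fromBlocks_map]
    simp
  unfold Pm
  rw [inv_fromBlocks_diag h1.isUnit_det h2.isUnit_det, hcx, fromBlocks_add]
  simp only [add_zero]
  rw [inv_fromBlocks_diag (h1.isUnit_inv_add hK1) (h2.isUnit_inv_add hK2)]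

end blocks

/-- edge block with cavity values `a1, a2` -/
noncomputable def Ze2 (a1 a2 : ℂ) : Matrix (Fin 2) (Fin 2) ℂ := Pm (diagonal ![a1, a2]) W2

lemma vec2_im {a1 a2 : ℂ} (h1 : 0 < a1.im) (h2 : 0 < a2.im) (i : Fin 2) :
    0 < ((![a1, a2] : Fin 2 → ℂ) i).im := by
  fin_cases i <;> simpa

lemma sieg_Ze2 {a1 a2 : ℂ} (h1 : 0 < a1.im) (h2 : 0 < a2.im) : Sieg (Ze2 a1 a2) :=
  (sieg_diagonal (vec2_im h1 h2)).Pm W2_symm

lemma diagonal_xd (m : ℕ) (a1 a2 b1 b2 c : ℂ) :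
    diagonal (xd m a1 a2 b1 b2 c) =
      fromBlocks (fromBlocks (diagonal ![a1, a2]) 0 0 (diagonal ![b1, b2])) 0 0
        (c • (1 : Matrix (Fin m) (Fin m) ℂ)) := by
  unfold xd
  rw [← Matrix.fromBlocks_diagonal, ← Matrix.fromBlocks_diagonal]
  congr 1
  rw [← Matrix.diagonal_one, ← diagonal_smul]
  congr 1
  ext i
  simp

lemma Pm_xd {m : ℕ} {a1 a2 b1 b2 c : ℂ} (h1 : 0 < a1.im) (h2 : 0 < a2.im) (h3 : 0 < b1.im)
    (h4 : 0 < b2.im) (h5 : 0 < c.im) :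
    Pm (diagonal (xd m a1 a2 b1 b2 c)) (WI m) =
      fromBlocks (fromBlocks (Ze2 a1 a2) 0 0 (Ze2 b1 b2)) 0 0
        (c • (1 : Matrix (Fin m) (Fin m) ℂ)) := by
  have hc : Sieg (c • (1 : Matrix (Fin m) (Fin m) ℂ)) := by
    have : c • (1 : Matrix (Fin m) (Fin m) ℂ) = diagonal fun _ => c := by
      rw [← Matrix.diagonal_one, ← diagonal_smul]
      congr 1
      ext i
      simp
    rw [this]
    exact sieg_diagonal fun _ => h5
  have s1 : Sieg (fromBlocks (diagonal ![a1, a2]) 0 0 (diagonal ![b1, b2])) := by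
    rw [Matrix.fromBlocks_diagonal]
    apply sieg_diagonal
    rintro (i | i)
    · simpa using vec2_im h1 h2 i
    · simpa using vec2_im h3 h4 i
  rw [diagonal_xd]
  unfold WI
  rw [Pm_fromBlocks s1 hc (by rw [fromBlocks_transpose, W2_symm]; simp) (by simp),
    Pm_fromBlocks (sieg_diagonal (vec2_im h1 h2)) (sieg_diagonal (vec2_im h3 h4)) W2_symm W2_symm]
  have h6 : Pm (c • (1 : Matrix (Fin m) (Fin m) ℂ)) 0 = c • (1 : Matrix (Fin m) (Fin m) ℂ) := by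
    unfold Pm
    rw [cx_zero, add_zero, Matrix.nonsing_inv_nonsing_inv _ hc.isUnit_det]
  rw [h6]
  rfl

lemma reM_Pm_xd {m : ℕ} {a1 a2 b1 b2 : ℂ} {ρ a : ℝ} (h1 : 0 < a1.im) (h2 : 0 < a2.im)
    (h3 : 0 < b1.im) (h4 : 0 < b2.im) (hρ : 0 < ρ) :
    reM (Pm (diagonal (xd m a1 a2 b1 b2 ((a : ℂ) + I * ((Real.pi * ρ : ℝ) : ℂ)))) (WI m)) =
      Aref (Ze2 a1 a2) (Ze2 b1 b2) a := by
  have h5 : 0 < ((a : ℂ) + I * ((Real.pi * ρ : ℝ) : ℂ)).im := by
    simp only [Complex.add_im, Complex.ofReal_im, Complex.mul_im, Complex.I_re, Complex.I_im,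
      Complex.ofReal_re]
    have := mul_pos Real.pi_pos hρ
    simpa using this
  rw [Pm_xd h1 h2 h3 h4 h5]
  unfold reM Aref rePart
  rw [fromBlocks_map, fromBlocks_map]
  simp only [Matrix.map_zero _ Complex.zero_re]
  congr 1
  ext i j
  by_cases h : i = j
  · subst h; simp
  · simp [h]

lemma imM_Pm_xd {m : ℕ} {a1 a2 b1 b2 : ℂ} {ρ a : ℝ} (h1 : 0 < a1.im) (h2 : 0 < a2.im)
    (h3 : 0 < b1.im) (h4 : 0 < b2.im) (hρ : 0 < ρ) {Ta Tb : Matrix (Fin 2) (Fin 2) ℝ}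
    (hTa : Ta * Taᵀ = imPart (Ze2 a1 a2)) (hTb : Tb * Tbᵀ = imPart (Ze2 b1 b2)) :
    imM (Pm (diagonal (xd m a1 a2 b1 b2 ((a : ℂ) + I * ((Real.pi * ρ : ℝ) : ℂ)))) (WI m)) =
      (Tref Ta Tb ρ : Matrix (Idx m) (Idx m) ℝ) * (Tref Ta Tb ρ)ᵀ := by
  have hpr := mul_pos Real.pi_pos hρ
  have h5 : 0 < ((a : ℂ) + I * ((Real.pi * ρ : ℝ) : ℂ)).im := by
    simp only [Complex.add_im, Complex.ofReal_im, Complex.mul_im, Complex.I_re, Complex.I_im,
      Complex.ofReal_re]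
    simpa using hpr
  rw [Pm_xd h1 h2 h3 h4 h5]
  unfold imM Tref
  rw [fromBlocks_map, fromBlocks_map, fromBlocks_transpose, fromBlocks_transpose,
    fromBlocks_multiply, fromBlocks_multiply]
  simp only [Matrix.map_zero _ Complex.zero_im, transpose_zero, Matrix.mul_zero, Matrix.zero_mul,
    add_zero, zero_add, hTa, hTb, transpose_smul, transpose_one]
  congr 1
  ext i j
  by_cases h : i = j
  · subst h; simp [Real.mul_self_sqrt hpr.le]
  · simp [h]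

lemma isUnit_Tref {m : ℕ} {Ta Tb : Matrix (Fin 2) (Fin 2) ℝ} {ρ : ℝ} (hρ : 0 < ρ)
    (hTa : IsUnit Ta.det) (hTb : IsUnit Tb.det) :
    IsUnit (Tref Ta Tb ρ : Matrix (Idx m) (Idx m) ℝ).det := by
  have hpr := mul_pos Real.pi_pos hρ
  unfold Tref
  rw [det_fromBlocks_zero₂₁, det_fromBlocks_zero₂₁]
  refine (hTa.mul hTb).mul ?_
  rw [det_smul, det_one, mul_one, isUnit_iff_ne_zero]
  exact pow_ne_zero _ (Real.sqrt_pos.2 hpr).ne'

/-- the reference number on the tests -/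
noncomputable def cc (ρ a : ℝ) : ℂ := (a : ℂ) + I * ((Real.pi * ρ : ℝ) : ℂ)

lemma cc_im {ρ : ℝ} (hρ : 0 < ρ) (a : ℝ) : 0 < (cc ρ a).im := by
  unfold cc
  simp only [Complex.add_im, Complex.ofReal_im, Complex.mul_im, Complex.I_re, Complex.I_im,
    Complex.ofReal_re]
  simpa using mul_pos Real.pi_pos hρ

lemma td_cc {m : ℕ} (a1 a2 b1 b2 : ℂ) (ρ a : ℝ) :
    td (xd m a1 a2 b1 b2 (cc ρ a)) = td (xd m a1 a2 b1 b2 (cc ρ 0)) := by
  unfold td
  congr 1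
  ext i
  rcases i with (i | i) | i
  · rfl
  · rfl
  · simp [xd, cc]

lemma xd_mul_WI {m : ℕ} (a1 a2 b1 b2 c c' : ℂ) :
    diagonal (xd m a1 a2 b1 b2 c) * cx (WI m) = diagonal (xd m a1 a2 b1 b2 c') * cx (WI m) := by
  have hcx : cx (WI m) = fromBlocks (cx (fromBlocks W2 0 0 W2)) 0 0 0 := by
    unfold WI cx
    rw [fromBlocks_map]
    simp
  rw [diagonal_xd, diagonal_xd, hcx, fromBlocks_multiply, fromBlocks_multiply]
  simp

/-- the unitary attached to the removal of the edges, in the frame `(a1,a2 | b1,b2)` -/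
noncomputable def kp (m : ℕ) (a1 a2 b1 b2 : ℂ) (ρ : ℝ) (Ta Tb : Matrix (Fin 2) (Fin 2) ℝ) :
    Matrix (Idx m) (Idx m) ℂ :=
  kap (td (xd m a1 a2 b1 b2 (cc ρ 0))) (Tref Ta Tb ρ) (WI m) (diagonal (xd m a1 a2 b1 b2 (cc ρ 0)))

lemma kap_cc {m : ℕ} (a1 a2 b1 b2 : ℂ) (ρ a : ℝ) (Ta Tb : Matrix (Fin 2) (Fin 2) ℝ) :
    kap (td (xd m a1 a2 b1 b2 (cc ρ a))) (Tref Ta Tb ρ) (WI m)
      (diagonal (xd m a1 a2 b1 b2 (cc ρ a))) = kp m a1 a2 b1 b2 ρ Ta Tb := by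
  unfold kp kap
  rw [td_cc, xd_mul_WI a1 a2 b1 b2 (cc ρ a) (cc ρ 0)]

section kp

variable {m : ℕ} {a1 a2 b1 b2 : ℂ} {ρ : ℝ} {Ta Tb : Matrix (Fin 2) (Fin 2) ℝ}

/-- hypotheses on a frame -/
structure Frame (a1 a2 b1 b2 : ℂ) (ρ : ℝ) (Ta Tb : Matrix (Fin 2) (Fin 2) ℝ) : Prop where
  h1 : 0 < a1.im
  h2 : 0 < a2.im
  h3 : 0 < b1.im
  h4 : 0 < b2.im
  hρ : 0 < ρ
  ua : IsUnit Ta.det
  ub : IsUnit Tb.det
  hTa : Ta * Taᵀ = imPart (Ze2 a1 a2)
  hTb : Tb * Tbᵀ = imPart (Ze2 b1 b2)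

lemma kp_mem (h : Frame a1 a2 b1 b2 ρ Ta Tb) :
    kp m a1 a2 b1 b2 ρ Ta Tb ∈ unitaryGroup (Idx m) ℂ := by
  have hx : ∀ i, 0 < (xd m a1 a2 b1 b2 (cc ρ 0) i).im :=
    xd_im h.h1 h.h2 h.h3 h.h4 (cc_im h.hρ 0)
  exact kap_mem (sieg_diagonal hx) (WI_symm m) (isUnit_td hx) (isUnit_Tref h.hρ h.ua h.ub)
    (td_mul hx) (imM_Pm_xd h.h1 h.h2 h.h3 h.h4 h.hρ h.hTa h.hTb)

/-- covariance: array with edges versus array without edges -/
theorem CayG_kp (h : Frame a1 a2 b1 b2 ρ Ta Tb) (a : ℝ) {M0 M : Matrix (Idx m) (Idx m) ℝ}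
    (hM0 : M0ᵀ = M0) (hM : Mᵀ = M) (hrel : M = M0 - M0 * WI m * M) :
    CayG ((Tref Ta Tb ρ)⁻¹ * (M - Aref (Ze2 a1 a2) (Ze2 b1 b2) a) * ((Tref Ta Tb ρ)⁻¹)ᵀ) =
      kp m a1 a2 b1 b2 ρ Ta Tb *
        Uref (reM (diagonal (xd m a1 a2 b1 b2 (cc ρ a)))) (td (xd m a1 a2 b1 b2 (cc ρ a))) M0 *
        (kp m a1 a2 b1 b2 ρ Ta Tb)ᵀ := by
  have hx : ∀ i, 0 < (xd m a1 a2 b1 b2 (cc ρ a) i).im :=
    xd_im h.h1 h.h2 h.h3 h.h4 (cc_im h.hρ a)
  have := Uref_mob (sieg_diagonal hx) (WI_symm m) (isUnit_td hx) (isUnit_Tref h.hρ h.ua h.ub)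
    (td_mul hx) (imM_Pm_xd h.h1 h.h2 h.h3 h.h4 h.hρ h.hTa h.hTb) hM0 hM hrel
  rw [kap_cc] at this
  rw [← this]
  unfold cc
  rw [reM_Pm_xd h.h1 h.h2 h.h3 h.h4 h.hρ]
  rfl

end kp

end Crest.Agent.R166.InvB348
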