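import Crest.Agent.R166.InvB_348

/-!
Row 166, section 50 (helper348): the fixed unitary `kk` of the edge switching.
-/

set_option autoImplicit false
set_option linter.unusedSectionVars false

namespace Crest.Agent.R166.InvC348

open Matrix Complex Crest.Agent.R166.Res789 Crest.Agent.R166.InvA348 Crest.Agent.R166.Inv988
  Crest.Agent.R166.InvB348

lemma diag2_mul_W2 (a1 a2 : ℂ) :
    (1 : Matrix (Fin 2) (Fin 2) ℂ) + diagonal ![a1, a2] * cx W2 = !![1, a1; a2, 1] := by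
  ext i j
  fin_cases i <;> fin_cases j <;> simp [W2, Matrix.diagonal_mul]

lemma cx_WI (m : ℕ) : cx (WI m) = fromBlocks (fromBlocks (cx W2) 0 0 (cx W2)) 0 0 0 := by
  unfold WI cx
  rw [fromBlocks_map, fromBlocks_map]
  simp

lemma one_add_xd_WI {m : ℕ} (a1 a2 b1 b2 c : ℂ) :
    (1 : Matrix (Idx m) (Idx m) ℂ) + diagonal (xd m a1 a2 b1 b2 c) * cx (WI m) =
      fromBlocks (fromBlocks !![1, a1; a2, 1] 0 0 !![1, b1; b2, 1]) 0 0 1 := by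
  rw [diagonal_xd, cx_WI, fromBlocks_multiply, fromBlocks_multiply]
  simp only [Matrix.mul_zero, Matrix.zero_mul, add_zero, zero_add]
  rw [← Matrix.fromBlocks_one, ← Matrix.fromBlocks_one, fromBlocks_add, fromBlocks_add,
    diag2_mul_W2, diag2_mul_W2]
  simp

lemma det_ne {a1 a2 : ℂ} (h1 : 0 < a1.im) (h2 : 0 < a2.im) : 1 - a1 * a2 ≠ 0 := by
  intro h
  have h3 : a1 * a2 = 1 := by linear_combination -h
  have h4 : a2 ≠ 0 := by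
    rintro rfl
    simp at h2
  have h5 : a1 = a2⁻¹ := by field_simp; exact h3
  rw [h5, Complex.inv_im] at h1
  have h6 : 0 < Complex.normSq a2 := Complex.normSq_pos.2 h4
  have : -a2.im / Complex.normSq a2 < 0 := div_neg_of_neg_of_pos (by linarith) h6
  linarith

lemma isUnit_blk {a1 a2 : ℂ} (h1 : 0 < a1.im) (h2 : 0 < a2.im) :
    IsUnit (!![1, a1; a2, 1] : Matrix (Fin 2) (Fin 2) ℂ).det := by
  rw [Matrix.det_fin_two_of, isUnit_iff_ne_zero]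
  have := det_ne h1 h2
  simpa using this

/-- the block of `(1 + conj Z0 W) (1 + Z0 W)⁻¹` -/
noncomputable def nb (a1 a2 : ℂ) : Matrix (Fin 2) (Fin 2) ℂ :=
  !![1, (starRingEnd ℂ) a1; (starRingEnd ℂ) a2, 1] * (!![1, a1; a2, 1])⁻¹

lemma nb_01 {a1 a2 : ℂ} (h1 : 0 < a1.im) (h2 : 0 < a2.im) : nb a1 a2 0 1 ≠ 0 := by
  unfold nb
  intro h
  have hu := isUnit_blk h1 h2
  have h3 : nb a1 a2 * !![1, a1; a2, 1] = !![1, (starRingEnd ℂ) a1; (starRingEnd ℂ) a2, 1] := by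
    unfold nb
    rw [mul_assoc, Matrix.nonsing_inv_mul _ hu, mul_one]
  have h00 := congrFun (congrFun h3 0) 0
  have h01 := congrFun (congrFun h3 0) 1
  have hz : nb a1 a2 0 1 = 0 := h
  simp only [Matrix.mul_apply, Fin.sum_univ_two, Matrix.of_apply, Matrix.cons_val', 
    Matrix.cons_val_zero, Matrix.cons_val_one, Matrix.cons_val_fin_one, hz] at h00 h01
  simp at h00 h01
  rw [h00, one_mul] at h01
  have := congrArg Complex.im h01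
  simp at this
  linarith

lemma cjM_one_add {m : ℕ} (a1 a2 b1 b2 c : ℂ) :
    (1 : Matrix (Idx m) (Idx m) ℂ) + cjM (diagonal (xd m a1 a2 b1 b2 c)) * cx (WI m) =
      fromBlocks (fromBlocks !![1, (starRingEnd ℂ) a1; (starRingEnd ℂ) a2, 1] 0 0
        !![1, (starRingEnd ℂ) b1; (starRingEnd ℂ) b2, 1]) 0 0 1 := by
  have h := congrArg cjM (one_add_xd_WI (m := m) a1 a2 b1 b2 c)
  rw [cjM_add, cjM_one, cjM_mul, cjM_cx] at h
  rw [h]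
  unfold cjM
  rw [fromBlocks_map, fromBlocks_map]
  congr 1
  · congr 1
    · ext i j; fin_cases i <;> fin_cases j <;> simp
    · simp
    · simp
    · ext i j; fin_cases i <;> fin_cases j <;> simp
  · simp
  · simp
  · exact Matrix.map_one _ (by simp) (by simp)

section

variable {m : ℕ} {a1 a2 b1 b2 : ℂ} {ρ : ℝ} {Ta Tb : Matrix (Fin 2) (Fin 2) ℝ}

lemma N0_eq (h : Frame a1 a2 b1 b2 ρ Ta Tb) (c : ℂ) :
    ((1 : Matrix (Idx m) (Idx m) ℂ) + cjM (diagonal (xd m a1 a2 b1 b2 c)) * cx (WI m)) *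
      (1 + diagonal (xd m a1 a2 b1 b2 c) * cx (WI m))⁻¹ =
      fromBlocks (fromBlocks (nb a1 a2) 0 0 (nb b1 b2)) 0 0 1 := by
  rw [cjM_one_add, one_add_xd_WI]
  have u1 := isUnit_blk h.h1 h.h2
  have u2 := isUnit_blk h.h3 h.h4
  have u3 : IsUnit (fromBlocks !![1, a1; a2, 1] 0 0 !![1, b1; b2, 1] :
      Matrix (Fin 2 ⊕ Fin 2) (Fin 2 ⊕ Fin 2) ℂ).det := by
    rw [det_fromBlocks_zero₂₁]
    exact u1.mul u2
  have u4 : IsUnit (1 : Matrix (Fin m) (Fin m) ℂ).det := by simp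
  rw [inv_fromBlocks_diag u3 u4, inv_fromBlocks_diag u1 u2, fromBlocks_multiply,
    fromBlocks_multiply]
  simp [nb]

/-- `κᵀ κ` -/
noncomputable def SS (m : ℕ) (a1 a2 b1 b2 : ℂ) (ρ : ℝ) (Ta Tb : Matrix (Fin 2) (Fin 2) ℝ) :
    Matrix (Idx m) (Idx m) ℂ := (kp m a1 a2 b1 b2 ρ Ta Tb)ᵀ * kp m a1 a2 b1 b2 ρ Ta Tb

lemma SS_entry (h : Frame a1 a2 b1 b2 ρ Ta Tb) (i j : Idx m) :
    ((Real.sqrt (xd m a1 a2 b1 b2 (cc ρ 0) i).im : ℝ) : ℂ) * SS m a1 a2 b1 b2 ρ Ta Tb i j =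
      (fromBlocks (fromBlocks (nb a1 a2) 0 0 (nb b1 b2)) 0 0 1 : Matrix (Idx m) (Idx m) ℂ) i j *
        ((Real.sqrt (xd m a1 a2 b1 b2 (cc ρ 0) j).im : ℝ) : ℂ) := by
  have hx : ∀ i, 0 < (xd m a1 a2 b1 b2 (cc ρ 0) i).im :=
    xd_im h.h1 h.h2 h.h3 h.h4 (cc_im h.hρ 0)
  have h1 := kap_transpose_mul (sieg_diagonal hx) (WI_symm m) (isUnit_td hx)
    (isUnit_Tref h.hρ h.ua h.ub) (td_mul hx) (imM_Pm_xd h.h1 h.h2 h.h3 h.h4 h.hρ h.hTa h.hTb)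
  have h2 : SS m a1 a2 b1 b2 ρ Ta Tb = cx (td (xd m a1 a2 b1 b2 (cc ρ 0)))⁻¹ *
      (fromBlocks (fromBlocks (nb a1 a2) 0 0 (nb b1 b2)) 0 0 1) *
      cx (td (xd m a1 a2 b1 b2 (cc ρ 0))) := by
    rw [← N0_eq h (cc ρ 0)]
    exact h1
  have h3 : cx (td (xd m a1 a2 b1 b2 (cc ρ 0))) * SS m a1 a2 b1 b2 ρ Ta Tb =
      (fromBlocks (fromBlocks (nb a1 a2) 0 0 (nb b1 b2)) 0 0 1) *
      cx (td (xd m a1 a2 b1 b2 (cc ρ 0))) := by
    rw [h2, ← mul_assoc, ← mul_assoc, ← cx_mul, Matrix.mul_nonsing_inv _ (isUnit_td hx), cx_one,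
      one_mul]
  have h4 : cx (td (xd m a1 a2 b1 b2 (cc ρ 0))) =
      diagonal fun i => ((Real.sqrt (xd m a1 a2 b1 b2 (cc ρ 0) i).im : ℝ) : ℂ) := by
    unfold td
    ext i j
    by_cases hij : i = j
    · subst hij; simp
    · simp [hij]
  have h5 := congrFun (congrFun h3 i) j
  rw [h4, Matrix.diagonal_mul, Matrix.mul_diagonal] at h5
  exact h5

lemma sqrt_ne (h : Frame a1 a2 b1 b2 ρ Ta Tb) (i : Idx m) :
    ((Real.sqrt (xd m a1 a2 b1 b2 (cc ρ 0) i).im : ℝ) : ℂ) ≠ 0 := by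
  have hx : ∀ i, 0 < (xd m a1 a2 b1 b2 (cc ρ 0) i).im :=
    xd_im h.h1 h.h2 h.h3 h.h4 (cc_im h.hρ 0)
  exact_mod_cast (Real.sqrt_pos.2 (hx i)).ne'

lemma SS_01 (h : Frame a1 a2 b1 b2 ρ Ta Tb) :
    SS m a1 a2 b1 b2 ρ Ta Tb (Sum.inl (Sum.inl 0)) (Sum.inl (Sum.inl 1)) ≠ 0 := by
  intro h0
  have h1 := SS_entry (m := m) h (Sum.inl (Sum.inl 0)) (Sum.inl (Sum.inl 1))
  rw [h0, mul_zero] at h1
  have h2 := (mul_eq_zero.1 h1.symm).resolve_right (sqrt_ne h _)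
  exact nb_01 h.h1 h.h2 h2

lemma SS_02 (h : Frame a1 a2 b1 b2 ρ Ta Tb) :
    SS m a1 a2 b1 b2 ρ Ta Tb (Sum.inl (Sum.inl 0)) (Sum.inl (Sum.inr 0)) = 0 := by
  have h1 := SS_entry (m := m) h (Sum.inl (Sum.inl 0)) (Sum.inl (Sum.inr 0))
  have h2 : (fromBlocks (fromBlocks (nb a1 a2) 0 0 (nb b1 b2)) 0 0 1 :
      Matrix (Idx m) (Idx m) ℂ) (Sum.inl (Sum.inl 0)) (Sum.inl (Sum.inr 0)) = 0 := by
    simp
  rw [h2, zero_mul] at h1
  exact (mul_eq_zero.1 h1).resolve_left (sqrt_ne h _)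

end

/-- the fixed unitary of the switching: frame `(x1,x2 | x1,x2)` to frame `(x1,x1 | x2,x2)` -/
noncomputable def kk (m : ℕ) (x1 x2 : ℂ) (ρ : ℝ) (Ta Tc Td : Matrix (Fin 2) (Fin 2) ℝ) :
    Matrix (Idx m) (Idx m) ℂ :=
  kp m x1 x1 x2 x2 ρ Tc Td * ((kp m x1 x2 x1 x2 ρ Ta Ta)ᴴ).submatrix (tau m) id

section kk

variable {m : ℕ} {x1 x2 : ℂ} {ρ : ℝ} {Ta Tc Td : Matrix (Fin 2) (Fin 2) ℝ}

lemma submatrix_row_unitary {ι : Type*} [Fintype ι] [DecidableEq ι] {V : Matrix ι ι ℂ}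
    (hV : V ∈ unitaryGroup ι ℂ) (σ : Equiv.Perm ι) : V.submatrix σ id ∈ unitaryGroup ι ℂ := by
  rw [mem_unitaryGroup_iff] at hV ⊢
  have : star (V.submatrix σ id) = (star V).submatrix id σ := by
    rw [star_eq_conjTranspose, star_eq_conjTranspose, conjTranspose_submatrix]
  have h2 := Matrix.submatrix_mul_equiv V (star V) σ (Equiv.refl ι) σ
  simp only [Equiv.coe_refl] at h2
  rw [this, h2, hV]
  exact Matrix.submatrix_one_equiv σ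

lemma kk_mem (h : Frame x1 x2 x1 x2 ρ Ta Ta) (h' : Frame x1 x1 x2 x2 ρ Tc Td) :
    kk m x1 x2 ρ Ta Tc Td ∈ unitaryGroup (Idx m) ℂ := by
  refine mul_mem (kp_mem h') (submatrix_row_unitary ?_ _)
  have := kp_mem (m := m) h
  rw [← star_eq_conjTranspose]
  exact Unitary.star_mem this

lemma kk_not_orth (h : Frame x1 x2 x1 x2 ρ Ta Ta) (h' : Frame x1 x1 x2 x2 ρ Tc Td) :
    ¬ ∃ (c : ℂ) (O : Matrix (Idx m) (Idx m) ℝ), O ∈ orthogonalGroup (Idx m) ℝ ∧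
      kk m x1 x2 ρ Ta Tc Td = c • Gen85.toC O := by
  rintro ⟨c, O, hO, hk⟩
  set κ1 := kp m x1 x2 x1 x2 ρ Ta Ta with hκ1
  set κ2 := kp m x1 x1 x2 x2 ρ Tc Td with hκ2
  have hu2 : κ2ᴴ * κ2 = 1 := by
    have := kp_mem (m := m) h'
    rw [mem_unitaryGroup_iff'] at this
    exact this
  set L := (κ1ᴴ).submatrix (tau m) id with hL
  have e1 : L = c • (κ2ᴴ * Gen85.toC O) := by
    have : κ2ᴴ * (κ2 * L) = L := by rw [← mul_assoc, hu2, one_mul]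
    rw [← this, show κ2 * L = c • Gen85.toC O from hk, mul_smul_comm]
  have e2 : L * Lᵀ = (c * c) • (κ2ᴴ * (κ2ᴴ)ᵀ) := by
    rw [e1, transpose_smul, transpose_mul, smul_mul_smul_comm]
    congr 1
    calc κ2ᴴ * Gen85.toC O * ((Gen85.toC O)ᵀ * (κ2ᴴ)ᵀ)
        = κ2ᴴ * (Gen85.toC O * (Gen85.toC O)ᵀ) * (κ2ᴴ)ᵀ := by simp only [mul_assoc]
      _ = κ2ᴴ * (κ2ᴴ)ᵀ := by rw [Gen85.toC_orth hO, mul_one]
  have e3 : L * Lᵀ = (κ1ᴴ * (κ1ᴴ)ᵀ).submatrix (tau m) (tau m) := by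
    rw [hL, transpose_submatrix]
    have := Matrix.submatrix_mul_equiv κ1ᴴ (κ1ᴴ)ᵀ (tau m) (Equiv.refl (Idx m)) (tau m)
    simpa using this
  have key : ∀ κ : Matrix (Idx m) (Idx m) ℂ, κᴴ * (κᴴ)ᵀ = cjM (κᵀ * κ) := by
    intro κ
    rw [cjM_mul, conjTranspose_eq, cjM_transpose, transpose_transpose]
  rw [key] at e2 e3
  rw [e3] at e2
  have e4 := congrFun (congrFun e2 (Sum.inl (Sum.inl 0))) (Sum.inl (Sum.inr 0))
  have t0 : tau m (Sum.inl (Sum.inl 0)) = Sum.inl (Sum.inl 0) := by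
    unfold tau; rw [Equiv.swap_apply_of_ne_of_ne] <;> simp
  have t1 : tau m (Sum.inl (Sum.inr 0)) = Sum.inl (Sum.inl 1) := by
    unfold tau; rw [Equiv.swap_apply_right]
  rw [submatrix_apply, t0, t1, Matrix.smul_apply, cjM_apply, cjM_apply] at e4
  have e5 : (κ2ᵀ * κ2) (Sum.inl (Sum.inl 0)) (Sum.inl (Sum.inr 0)) = 0 := SS_02 h'
  rw [e5, map_zero, smul_zero] at e4
  have e6 : (κ1ᵀ * κ1) (Sum.inl (Sum.inl 0)) (Sum.inl (Sum.inl 1)) = 0 := by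
    simpa using e4
  exact SS_01 h e6

lemma UrefA_submatrix {ι : Type*} [Fintype ι] [DecidableEq ι] (A T M : Matrix ι ι ℝ)
    (σ : Equiv.Perm ι) :
    InvA348.Uref (A.submatrix σ σ) (T.submatrix σ σ) (M.submatrix σ σ) =
      (InvA348.Uref A T M).submatrix σ σ := by
  unfold InvA348.Uref
  have h1 : (T.submatrix σ σ)⁻¹ * (M.submatrix σ σ - A.submatrix σ σ) *
      ((T.submatrix σ σ)⁻¹)ᵀ = (T⁻¹ * (M - A) * (T⁻¹)ᵀ).submatrix σ σ := by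
    have h0 : M.submatrix σ σ - A.submatrix σ σ = (M - A).submatrix σ σ := rfl
    rw [Matrix.inv_submatrix_equiv, h0, Matrix.transpose_submatrix,
      Matrix.submatrix_mul_equiv, Matrix.submatrix_mul_equiv]
  rw [h1]
  unfold CayI
  have h2 : ∀ C : Matrix ι ι ℝ, cx (C.submatrix σ σ) = (cx C).submatrix σ σ := fun _ => rfl
  have h3 : (I • (1 : Matrix ι ι ℂ)) = (I • (1 : Matrix ι ι ℂ)).submatrix σ σ := by
    rw [Matrix.submatrix_smul, Pi.smul_apply, Pi.smul_apply, Matrix.submatrix_one_equiv]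
  rw [h2]
  conv_lhs => rw [h3]
  set X := cx (T⁻¹ * (M - A) * (T⁻¹)ᵀ) with hX
  have h4 : X.submatrix σ σ - (I • (1 : Matrix ι ι ℂ)).submatrix σ σ =
      (X - I • (1 : Matrix ι ι ℂ)).submatrix σ σ := rfl
  have h5 : X.submatrix σ σ + (I • (1 : Matrix ι ι ℂ)).submatrix σ σ =
      (X + I • (1 : Matrix ι ι ℂ)).submatrix σ σ := rfl
  rw [h4, h5, Matrix.inv_submatrix_equiv, Matrix.submatrix_mul_equiv]

/-- **covariance under the edge switching** -/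
theorem CayG_kk (h : Frame x1 x2 x1 x2 ρ Ta Ta) (h' : Frame x1 x1 x2 x2 ρ Tc Td) (a : ℝ)
    {M0 M M' : Matrix (Idx m) (Idx m) ℝ} (hM0 : M0ᵀ = M0) (hM : Mᵀ = M) (hM' : M'ᵀ = M')
    (hrel : M = M0 - M0 * WI m * M)
    (hrel' : M' = M0.submatrix (tau m) (tau m) - M0.submatrix (tau m) (tau m) * WI m * M') :
    CayG ((Tref Tc Td ρ)⁻¹ * (M' - Aref (Ze2 x1 x1) (Ze2 x2 x2) a) * ((Tref Tc Td ρ)⁻¹)ᵀ) =
      kk m x1 x2 ρ Ta Tc Td *
        CayG ((Tref Ta Ta ρ)⁻¹ * (M - Aref (Ze2 x1 x2) (Ze2 x1 x2) a) * ((Tref Ta Ta ρ)⁻¹)ᵀ) *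
        (kk m x1 x2 ρ Ta Tc Td)ᵀ := by
  have hM0' : (M0.submatrix (tau m) (tau m))ᵀ = M0.submatrix (tau m) (tau m) := by
    rw [transpose_submatrix, hM0]
  rw [CayG_kp h' a hM0' hM' hrel', CayG_kp h a hM0 hM hrel]
  set κ1 := kp m x1 x2 x1 x2 ρ Ta Ta with hκ1
  set κ2 := kp m x1 x1 x2 x2 ρ Tc Td with hκ2
  have hu1 : κ1ᴴ * κ1 = 1 := by
    have := kp_mem (m := m) h
    rw [mem_unitaryGroup_iff'] at this
    exact this
  have hd : diagonal (xd m x1 x1 x2 x2 (cc ρ a)) =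
      (diagonal (xd m x1 x2 x1 x2 (cc ρ a))).submatrix (tau m) (tau m) := by
    rw [Matrix.submatrix_diagonal_equiv]
    congr 1
    funext i
    exact (xd_tau m x1 x2 (cc ρ a) i).symm
  have ht : td (xd m x1 x1 x2 x2 (cc ρ a)) =
      (td (xd m x1 x2 x1 x2 (cc ρ a))).submatrix (tau m) (tau m) := by
    unfold td
    rw [Matrix.submatrix_diagonal_equiv]
    congr 1
    funext i
    rw [Function.comp_apply, xd_tau]
  rw [hd, ht]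
  have hre : reM ((diagonal (xd m x1 x2 x1 x2 (cc ρ a))).submatrix (tau m) (tau m)) =
      (reM (diagonal (xd m x1 x2 x1 x2 (cc ρ a)))).submatrix (tau m) (tau m) := rfl
  rw [hre, UrefA_submatrix]
  set U0 := InvA348.Uref (reM (diagonal (xd m x1 x2 x1 x2 (cc ρ a))))
    (td (xd m x1 x2 x1 x2 (cc ρ a))) M0 with hU0
  unfold kk
  rw [← hκ1, ← hκ2]
  set L := (κ1ᴴ).submatrix (tau m) id with hL
  have e1 : U0.submatrix (tau m) (tau m) = L * (κ1 * U0 * κ1ᵀ) * Lᵀ := by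
    have s1 : L * (κ1 * U0 * κ1ᵀ) * Lᵀ =
        (κ1ᴴ * (κ1 * U0 * κ1ᵀ) * (κ1ᴴ)ᵀ).submatrix (tau m) (tau m) := by
      rw [hL, transpose_submatrix]
      have h1 := Matrix.submatrix_mul_equiv κ1ᴴ (κ1 * U0 * κ1ᵀ) (tau m) (Equiv.refl (Idx m)) id
      have h2 := Matrix.submatrix_mul_equiv (κ1ᴴ * (κ1 * U0 * κ1ᵀ)) (κ1ᴴ)ᵀ (tau m)
        (Equiv.refl (Idx m)) (tau m)
      simp only [Equiv.coe_refl, Matrix.submatrix_id_id] at h1 h2
      rw [h1, h2]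
    have s2 : κ1ᴴ * (κ1 * U0 * κ1ᵀ) * (κ1ᴴ)ᵀ = U0 := by
      have h3 : κ1ᵀ * (κ1ᴴ)ᵀ = 1 := by
        rw [← transpose_mul, hu1, transpose_one]
      calc κ1ᴴ * (κ1 * U0 * κ1ᵀ) * (κ1ᴴ)ᵀ = (κ1ᴴ * κ1) * U0 * (κ1ᵀ * (κ1ᴴ)ᵀ) := by
            simp only [mul_assoc]
        _ = U0 := by rw [hu1, h3, one_mul, mul_one]
    rw [s1, s2]
  rw [e1, transpose_mul]
  simp only [mul_assoc]

end kk

end Crest.Agent.R166.InvC348
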