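import Crest.Agent.R166.InvDefs_988

/-!
Row 166, section 50 (helper988): Cayley transform estimates.
-/

set_option autoImplicit false
set_option linter.unusedSectionVars false
set_option linter.unusedSimpArgs false

namespace Crest.Agent.R166.Inv988

open MeasureTheory ProbabilityTheory Matrix Crest.ProbabilityR.RandomMatrix Crest.Agent.R166
open scoped Matrix.Norms.L2Operator ComplexOrder

variable {ι : Type*} [Fintype ι] [DecidableEq ι]

/-- complexification -/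
def cx (A : Matrix ι ι ℝ) : Matrix ι ι ℂ := A.map (fun x : ℝ => (x : ℂ))

omit [Fintype ι] [DecidableEq ι] in
@[simp] lemma cx_apply (A : Matrix ι ι ℝ) (i j : ι) : cx A i j = (A i j : ℂ) := rfl

lemma cx_mul (A B : Matrix ι ι ℝ) : cx (A * B) = cx A * cx B := by
  ext i j; simp [Matrix.mul_apply]

lemma cx_sub (A B : Matrix ι ι ℝ) : cx (A - B) = cx A - cx B := by
  ext i j; simp

lemma cx_one : cx (1 : Matrix ι ι ℝ) = 1 := by
  ext i j; by_cases h : i = j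
  · subst h; simp
  · simp [h]

lemma cx_transpose (A : Matrix ι ι ℝ) : cx Aᵀ = (cx A)ᴴ := by
  ext i j; simp

lemma cx_herm {C : Matrix ι ι ℝ} (hC : Cᵀ = C) : (cx C)ᴴ = cx C := by
  rw [← cx_transpose, hC]

/-- entrywise `ℓ¹` norm -/
def l1 (D : Matrix ι ι ℝ) : ℝ := ∑ a, ∑ b, |D a b|

lemma l1_nonneg (D : Matrix ι ι ℝ) : 0 ≤ l1 D := by unfold l1; positivity

lemma l1_add_le (D D' : Matrix ι ι ℝ) : l1 (D + D') ≤ l1 D + l1 D' := by
  unfold l1
  rw [← Finset.sum_add_distrib]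
  refine Finset.sum_le_sum fun a _ => ?_
  rw [← Finset.sum_add_distrib]
  exact Finset.sum_le_sum fun b _ => abs_add_le _ _

lemma norm_single (a b : ι) (c : ℂ) : ‖(Matrix.single a b c : Matrix ι ι ℂ)‖ = ‖c‖ := by
  have h := Matrix.l2_opNorm_conjTranspose_mul_self (Matrix.single a b c : Matrix ι ι ℂ)
  have h2 : (Matrix.single a b c : Matrix ι ι ℂ)ᴴ * Matrix.single a b c =
      Matrix.diagonal (Pi.single b (star c * c)) := by
    rw [Matrix.conjTranspose_single, Matrix.single_mul_single_same]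
    ext i j
    by_cases hi : b = i
    · subst hi
      by_cases hj : b = j
      · subst hj; simp
      · simp [Matrix.single_apply, hj, Matrix.diagonal_apply]
    · by_cases hij : i = j
      · subst hij; simp [Matrix.single_apply, hi, Matrix.diagonal_apply, Ne.symm hi]
      · simp [Matrix.single_apply, hi, Matrix.diagonal_apply, hij]
  rw [h2, Matrix.l2_opNorm_diagonal, Pi.norm_single, norm_mul, norm_star] at h
  nlinarith [norm_nonneg c, norm_nonneg (Matrix.single a b c : Matrix ι ι ℂ), h,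
    mul_self_inj (norm_nonneg (Matrix.single a b c : Matrix ι ι ℂ)) (norm_nonneg c)]

lemma norm_cx_le (D : Matrix ι ι ℝ) : ‖cx D‖ ≤ l1 D := by
  have h : cx D = ∑ a, ∑ b, Matrix.single a b ((D a b : ℝ) : ℂ) := by
    conv_lhs => rw [Matrix.matrix_eq_sum_single (cx D)]
    rfl
  rw [h]
  refine (norm_sum_le _ _).trans (Finset.sum_le_sum fun a _ => ?_)
  refine (norm_sum_le _ _).trans (Finset.sum_le_sum fun b _ => ?_)
  rw [norm_single, Complex.norm_real, Real.norm_eq_abs]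

lemma norm_one_le' : ‖(1 : Matrix ι ι ℂ)‖ ≤ 1 := by
  rw [← Matrix.diagonal_one, Matrix.l2_opNorm_diagonal]
  exact (pi_norm_le_iff_of_nonneg zero_le_one).2 fun i => by simp

/-- `C + i` -/
noncomputable def pl (C : Matrix ι ι ℝ) : Matrix ι ι ℂ := cx C + Complex.I • 1

/-- `C - i` -/
noncomputable def mi (C : Matrix ι ι ℝ) : Matrix ι ι ℂ := cx C - Complex.I • 1

lemma CayG_eq (C : Matrix ι ι ℝ) : CayG C = mi C * (pl C)⁻¹ := rfl

lemma pl_herm {C : Matrix ι ι ℝ} (hC : Cᵀ = C) : (pl C)ᴴ = mi C := by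
  unfold pl mi
  rw [Matrix.conjTranspose_add, cx_herm hC, Matrix.conjTranspose_smul, Matrix.conjTranspose_one]
  simp [sub_eq_add_neg]

lemma mi_herm {C : Matrix ι ι ℝ} (hC : Cᵀ = C) : (mi C)ᴴ = pl C := by
  rw [← pl_herm hC, Matrix.conjTranspose_conjTranspose]

lemma pl_mul_mi (C : Matrix ι ι ℝ) : pl C * mi C = cx C * cx C + 1 := by
  unfold pl mi
  simp only [Matrix.mul_sub, Matrix.add_mul, Matrix.mul_smul, Matrix.smul_mul, Matrix.mul_one,
    Matrix.one_mul, smul_smul, Complex.I_mul_I, smul_add]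
  simp only [neg_smul, one_smul]
  abel

lemma mi_mul_pl (C : Matrix ι ι ℝ) : mi C * pl C = cx C * cx C + 1 := by
  unfold pl mi
  simp only [Matrix.mul_add, Matrix.sub_mul, Matrix.mul_smul, Matrix.smul_mul, Matrix.mul_one,
    Matrix.one_mul, smul_smul, Complex.I_mul_I, smul_sub]
  simp only [neg_smul, one_smul]
  abel

lemma isUnit_sq {C : Matrix ι ι ℝ} (hC : Cᵀ = C) : IsUnit (cx C * cx C + 1).det := by
  have h1 : (cx C * cx C + 1).PosDef := by
    have h2 : (cx C * cx C).PosSemidef := by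
      have := Matrix.posSemidef_conjTranspose_mul_self (cx C)
      rwa [cx_herm hC] at this
    exact Matrix.PosDef.posSemidef_add h2 Matrix.PosDef.one
  exact isUnit_iff_ne_zero.2 h1.det_pos.ne'

lemma isUnit_pl {C : Matrix ι ι ℝ} (hC : Cᵀ = C) : IsUnit (pl C).det := by
  have h := isUnit_sq hC
  rw [← pl_mul_mi, Matrix.det_mul] at h
  exact isUnit_of_mul_isUnit_left h

lemma isUnit_mi {C : Matrix ι ι ℝ} (hC : Cᵀ = C) : IsUnit (mi C).det := by
  have h := isUnit_sq hC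
  rw [← pl_mul_mi, Matrix.det_mul] at h
  exact isUnit_of_mul_isUnit_right h

/-- `Cay C = 1 - 2 i (C+i)⁻¹` -/
lemma CayG_eq' {C : Matrix ι ι ℝ} (hC : Cᵀ = C) :
    CayG C = 1 - (2 * Complex.I) • (pl C)⁻¹ := by
  have h : mi C = pl C - (2 * Complex.I) • 1 := by
    unfold mi pl
    rw [mul_smul, two_smul]; abel
  rw [CayG_eq, h, Matrix.sub_mul, Matrix.mul_nonsing_inv _ (isUnit_pl hC), Matrix.smul_mul,
    Matrix.one_mul]

theorem CayG_mem_unitary {C : Matrix ι ι ℝ} (hC : Cᵀ = C) :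
    CayG C ∈ Matrix.unitaryGroup ι ℂ := by
  rw [Matrix.mem_unitaryGroup_iff', Matrix.star_eq_conjTranspose, CayG_eq,
    Matrix.conjTranspose_mul, Matrix.conjTranspose_nonsing_inv, pl_herm hC, mi_herm hC]
  have h1 : pl C * mi C = mi C * pl C := by rw [pl_mul_mi, mi_mul_pl]
  calc (mi C)⁻¹ * pl C * (mi C * (pl C)⁻¹) = (mi C)⁻¹ * (pl C * mi C) * (pl C)⁻¹ := by
        simp only [Matrix.mul_assoc]
    _ = ((mi C)⁻¹ * mi C) * (pl C * (pl C)⁻¹) := by
        rw [h1]; simp only [Matrix.mul_assoc]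
    _ = 1 := by
        rw [Matrix.nonsing_inv_mul _ (isUnit_mi hC), Matrix.mul_nonsing_inv _ (isUnit_pl hC),
          Matrix.mul_one]

theorem norm_CayG_le {C : Matrix ι ι ℝ} (hC : Cᵀ = C) : ‖CayG C‖ ≤ 1 := by
  have h := Matrix.mem_unitaryGroup_iff'.1 (CayG_mem_unitary hC)
  have h2 := Matrix.l2_opNorm_conjTranspose_mul_self (CayG C)
  rw [Matrix.star_eq_conjTranspose] at h
  rw [h] at h2
  have h3 := norm_one_le' (ι := ι)
  nlinarith [norm_nonneg (CayG C)]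

lemma norm_plinv_le {C : Matrix ι ι ℝ} (hC : Cᵀ = C) : ‖(pl C)⁻¹‖ ≤ 1 := by
  have h : (2 * Complex.I) • (pl C)⁻¹ = 1 - CayG C := by
    rw [CayG_eq' hC]; abel
  have h2 : ‖(2 * Complex.I) • (pl C)⁻¹‖ ≤ 2 := by
    rw [h]
    have h3 : ‖(1 : Matrix ι ι ℂ)‖ ≤ 1 := norm_one_le'
    have h4 := norm_CayG_le hC
    have h5 := norm_sub_le (1 : Matrix ι ι ℂ) (CayG C)
    linarith
  rw [norm_smul] at h2
  simp at h2
  linarith

lemma plinv_sub {C C' : Matrix ι ι ℝ} (hC : Cᵀ = C) (hC' : C'ᵀ = C') :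
    (pl C)⁻¹ - (pl C')⁻¹ = (pl C)⁻¹ * (cx C' - cx C) * (pl C')⁻¹ := by
  have h : cx C' - cx C = pl C' - pl C := by unfold pl; abel
  rw [h, Matrix.mul_sub, Matrix.sub_mul, Matrix.mul_assoc, Matrix.mul_nonsing_inv _ (isUnit_pl hC'),
    Matrix.mul_one, Matrix.nonsing_inv_mul _ (isUnit_pl hC), Matrix.one_mul]

lemma CayG_sub {C C' : Matrix ι ι ℝ} (hC : Cᵀ = C) (hC' : C'ᵀ = C') :
    CayG C - CayG C' = -((2 * Complex.I) • ((pl C)⁻¹ - (pl C')⁻¹)) := by
  rw [CayG_eq' hC, CayG_eq' hC', smul_sub]; abel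

theorem norm_CayG_sub_le {C C' : Matrix ι ι ℝ} (hC : Cᵀ = C) (hC' : C'ᵀ = C') :
    ‖CayG C - CayG C'‖ ≤ 2 * l1 (C - C') := by
  rw [CayG_sub hC hC', norm_neg, norm_smul, plinv_sub hC hC']
  have h1 : ‖(pl C)⁻¹ * (cx C' - cx C) * (pl C')⁻¹‖ ≤ l1 (C - C') := by
    calc _ ≤ ‖(pl C)⁻¹‖ * ‖cx C' - cx C‖ * ‖(pl C')⁻¹‖ :=
          (norm_mul_le _ _).trans (mul_le_mul_of_nonneg_right (norm_mul_le _ _) (norm_nonneg _))
      _ ≤ 1 * l1 (C - C') * 1 := by
          have h2 : ‖cx C' - cx C‖ ≤ l1 (C - C') := by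
            rw [norm_sub_rev, ← cx_sub]; exact norm_cx_le _
          have h3 := norm_plinv_le hC
          have h4 := norm_plinv_le hC'
          have h5 := l1_nonneg (C - C')
          have h6 : ‖(pl C)⁻¹‖ * ‖cx C' - cx C‖ ≤ 1 * l1 (C - C') :=
            mul_le_mul h3 h2 (norm_nonneg _) zero_le_one
          exact mul_le_mul h6 h4 (norm_nonneg _) (by linarith)
      _ = _ := by ring
  have h2 : ‖(2 * Complex.I : ℂ)‖ = 2 := by simp
  rw [h2]
  linarith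

lemma conj_symm {C : Matrix ι ι ℝ} (hC : Cᵀ = C) (W : Matrix ι ι ℝ) :
    (W * C * Wᵀ)ᵀ = W * C * Wᵀ := by
  simp only [Matrix.transpose_mul, Matrix.transpose_transpose, hC, Matrix.mul_assoc]

/-- uniform continuity of the congruence action -/
theorem norm_CayG_congr_le {C : Matrix ι ι ℝ} (hC : Cᵀ = C) {W : Matrix ι ι ℝ} {r : ℝ}
    (hW : ‖cx W - 1‖ ≤ r) (hr : r ≤ 1 / 2) :
    ‖CayG (W * C * Wᵀ) - CayG C‖ ≤ 12 * r := by
  have hr0 : 0 ≤ r := (norm_nonneg _).trans hW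
  set V := cx W with hV
  have hVt : cx Wᵀ = Vᴴ := cx_transpose W
  have hCW := conj_symm hC W
  set X := (pl C)⁻¹ with hX
  set Y := (pl (W * C * Wᵀ))⁻¹ with hY
  have nX : ‖X‖ ≤ 1 := norm_plinv_le hC
  have nY : ‖Y‖ ≤ 1 := norm_plinv_le hCW
  have hW' : ‖Vᴴ - 1‖ ≤ r := by
    have : Vᴴ - 1 = (V - 1)ᴴ := by rw [Matrix.conjTranspose_sub, Matrix.conjTranspose_one]
    rw [this, Matrix.l2_opNorm_conjTranspose]; exact hW
  -- invertibility of `Vᴴ`
  have hu : IsUnit Vᴴ := by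
    have h1 : ‖(1 : Matrix ι ι ℂ) - Vᴴ‖ < 1 := by
      rw [norm_sub_rev]; linarith
    have h2 := isUnit_one_sub_of_norm_lt_one h1
    simpa using h2
  have hud : IsUnit (Vᴴ).det := (Matrix.isUnit_iff_isUnit_det _).1 hu
  have nVi : ‖(Vᴴ)⁻¹‖ ≤ 2 := by
    have h1 : (Vᴴ)⁻¹ = 1 - (Vᴴ - 1) * (Vᴴ)⁻¹ := by
      rw [Matrix.sub_mul, Matrix.mul_nonsing_inv _ hud, Matrix.one_mul]; abel
    have h2 : ‖(Vᴴ)⁻¹‖ ≤ 1 + 1 / 2 * ‖(Vᴴ)⁻¹‖ := by
      calc ‖(Vᴴ)⁻¹‖ = ‖1 - (Vᴴ - 1) * (Vᴴ)⁻¹‖ := by rw [← h1]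
        _ ≤ ‖(1 : Matrix ι ι ℂ)‖ + ‖(Vᴴ - 1) * (Vᴴ)⁻¹‖ := norm_sub_le _ _
        _ ≤ 1 + ‖Vᴴ - 1‖ * ‖(Vᴴ)⁻¹‖ := add_le_add norm_one_le' (norm_mul_le _ _)
        _ ≤ 1 + 1 / 2 * ‖(Vᴴ)⁻¹‖ := by
            have := norm_nonneg (Vᴴ)⁻¹
            nlinarith
    linarith
  -- `C X = 1 - i X`
  have eCX : cx C * X = 1 - Complex.I • X := by
    have h1 : pl C * X = 1 := Matrix.mul_nonsing_inv _ (isUnit_pl hC)
    have h2 : cx C = pl C - Complex.I • 1 := by unfold pl; abel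
    rw [h2, Matrix.sub_mul, h1, Matrix.smul_mul, Matrix.one_mul]
  have nCX : ‖cx C * X‖ ≤ 2 := by
    rw [eCX]
    calc _ ≤ ‖(1 : Matrix ι ι ℂ)‖ + ‖Complex.I • X‖ := norm_sub_le _ _
      _ ≤ 1 + 1 := by
          refine add_le_add norm_one_le' ?_
          rw [norm_smul, Complex.norm_I, one_mul]; exact nX
      _ = 2 := by norm_num
  -- `Y V C = (1 - i Y) Vᴴ⁻¹`
  have eYC : Y * (V * cx C * Vᴴ) = 1 - Complex.I • Y := by
    have h1 : Y * pl (W * C * Wᵀ) = 1 := Matrix.nonsing_inv_mul _ (isUnit_pl hCW)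
    have h2 : V * cx C * Vᴴ = pl (W * C * Wᵀ) - Complex.I • 1 := by
      unfold pl; rw [cx_mul, cx_mul, hVt]; abel
    rw [h2, Matrix.mul_sub, h1, Matrix.mul_smul, Matrix.mul_one]
  have nYC : ‖Y * V * cx C‖ ≤ 4 := by
    have h1 : Y * V * cx C = (1 - Complex.I • Y) * (Vᴴ)⁻¹ := by
      rw [← eYC]
      simp only [Matrix.mul_assoc]
      rw [Matrix.mul_nonsing_inv _ hud, Matrix.mul_one]
    rw [h1]
    calc _ ≤ ‖1 - Complex.I • Y‖ * ‖(Vᴴ)⁻¹‖ := norm_mul_le _ _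
      _ ≤ 2 * 2 := by
          refine mul_le_mul ?_ nVi (norm_nonneg _) (by norm_num)
          calc _ ≤ ‖(1 : Matrix ι ι ℂ)‖ + ‖Complex.I • Y‖ := norm_sub_le _ _
            _ ≤ 1 + 1 := by
                refine add_le_add norm_one_le' ?_
                rw [norm_smul, Complex.norm_I, one_mul]; exact nY
            _ = 2 := by norm_num
      _ = 4 := by norm_num
  have key : Y - X = Y * (1 - V) * (cx C * X) + Y * V * cx C * (1 - Vᴴ) * X := by
    rw [hY, hX, plinv_sub hCW hC, ← hX, ← hY]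
    rw [cx_mul, cx_mul, hVt, ← hV]
    simp only [Matrix.mul_sub, Matrix.sub_mul, Matrix.mul_one, Matrix.mul_assoc]
    abel
  rw [CayG_sub hCW hC, norm_neg, norm_smul, ← hX, ← hY, key]
  have h2 : ‖(2 * Complex.I : ℂ)‖ = 2 := by simp
  rw [h2]
  have n1 : ‖1 - V‖ ≤ r := by rw [norm_sub_rev]; exact hW
  have n2 : ‖1 - Vᴴ‖ ≤ r := by rw [norm_sub_rev]; exact hW'
  have h3 : ‖Y * (1 - V) * (cx C * X)‖ ≤ 1 * r * 2 := by
    calc _ ≤ ‖Y‖ * ‖1 - V‖ * ‖cx C * X‖ :=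
          (norm_mul_le _ _).trans (mul_le_mul_of_nonneg_right (norm_mul_le _ _) (norm_nonneg _))
      _ ≤ 1 * r * 2 := by gcongr
  have h4 : ‖Y * V * cx C * (1 - Vᴴ) * X‖ ≤ 4 * r * 1 := by
    calc _ ≤ ‖Y * V * cx C‖ * ‖1 - Vᴴ‖ * ‖X‖ :=
          (norm_mul_le _ _).trans (mul_le_mul_of_nonneg_right (norm_mul_le _ _) (norm_nonneg _))
      _ ≤ 4 * r * 1 := by gcongr
  have h5 := norm_add_le (Y * (1 - V) * (cx C * X)) (Y * V * cx C * (1 - Vᴴ) * X)
  linarith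

/-! ### continuous functions of the Cayley transform -/

theorem exists_bound {f : Matrix ι ι ℂ → ℝ} (hf : Continuous f) :
    ∃ B : ℝ, 0 ≤ B ∧ ∀ C : Matrix ι ι ℝ, Cᵀ = C → |f (CayG C)| ≤ B := by
  have hc : IsCompact (Metric.closedBall (0 : Matrix ι ι ℂ) 1) := isCompact_closedBall _ _
  obtain ⟨B, hB⟩ := hc.exists_bound_of_continuousOn (f := f) hf.continuousOn
  refine ⟨max B 0, le_max_right _ _, fun C hC => ?_⟩
  refine le_trans ?_ (le_max_left _ _)
  rw [← Real.norm_eq_abs]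
  exact hB _ (by simpa using norm_CayG_le hC)

theorem unif {f : Matrix ι ι ℂ → ℝ} (hf : Continuous f) {ε : ℝ} (hε : 0 < ε) :
    ∃ r : ℝ, 0 < r ∧ ∀ U V : Matrix ι ι ℂ, ‖U‖ ≤ 1 → ‖V‖ ≤ 1 → ‖U - V‖ < r → |f U - f V| ≤ ε := by
  have hc : IsCompact (Metric.closedBall (0 : Matrix ι ι ℂ) 1) := isCompact_closedBall _ _
  have hu := hc.uniformContinuousOn_of_continuous hf.continuousOn
  rw [Metric.uniformContinuousOn_iff_le] at hu
  obtain ⟨r, hr, h⟩ := hu ε hε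
  refine ⟨r, hr, fun U V hU hV hUV => ?_⟩
  have := h U (by simpa using hU) V (by simpa using hV) (by rw [dist_eq_norm]; exact hUV.le)
  rwa [Real.dist_eq] at this

theorem almost_lip {f : Matrix ι ι ℂ → ℝ} (hf : Continuous f) {ε : ℝ} (hε : 0 < ε) :
    ∃ L : ℝ, 0 ≤ L ∧ ∀ C C' : Matrix ι ι ℝ, Cᵀ = C → C'ᵀ = C' →
      |f (CayG C) - f (CayG C')| ≤ ε + L * min 1 (l1 (C - C')) := by
  obtain ⟨B, hB0, hB⟩ := exists_bound hf
  obtain ⟨r, hr, h⟩ := unif hf hε
  refine ⟨2 * B * (2 / r + 1), by positivity, fun C C' hC hC' => ?_⟩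
  have hm : 0 ≤ min 1 (l1 (C - C')) := le_min zero_le_one (l1_nonneg _)
  by_cases hlt : ‖CayG C - CayG C'‖ < r
  · have h1 := h _ _ (norm_CayG_le hC) (norm_CayG_le hC') hlt
    have : 0 ≤ 2 * B * (2 / r + 1) * min 1 (l1 (C - C')) := by positivity
    linarith
  · push Not at hlt
    have h1 : |f (CayG C) - f (CayG C')| ≤ 2 * B := by
      have := hB C hC
      have := hB C' hC'
      calc _ ≤ |f (CayG C)| + |f (CayG C')| := abs_sub _ _
        _ ≤ 2 * B := by linarith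
    have h2 := norm_CayG_sub_le hC hC'
    have h3 : r / 2 ≤ l1 (C - C') := by linarith
    have h4 : 1 ≤ (2 / r + 1) * min 1 (l1 (C - C')) := by
      rcases le_total 1 (l1 (C - C')) with h5 | h5
      · rw [min_eq_left h5]
        have : 0 < 2 / r := by positivity
        linarith
      · rw [min_eq_right h5]
        have h6 : 2 / r * (r / 2) = 1 := by field_simp
        have h7 : 2 / r * (r / 2) ≤ 2 / r * l1 (C - C') := by gcongr
        have h8 := l1_nonneg (C - C')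
        nlinarith
    nlinarith

theorem congr_close {f : Matrix ι ι ℂ → ℝ} (hf : Continuous f) {ε : ℝ} (hε : 0 < ε) :
    ∃ r : ℝ, 0 < r ∧ r ≤ 1 / 2 ∧ ∀ C W : Matrix ι ι ℝ, Cᵀ = C → ‖cx W - 1‖ ≤ r →
      |f (CayG (W * C * Wᵀ)) - f (CayG C)| ≤ ε := by
  obtain ⟨r, hr, h⟩ := unif hf hε
  refine ⟨min (1 / 2) (r / 24), by positivity, min_le_left _ _, fun C W hC hW => ?_⟩
  apply h _ _ (norm_CayG_le (conj_symm hC W)) (norm_CayG_le hC)
  refine lt_of_le_of_lt (norm_CayG_congr_le hC hW (min_le_left _ _)) ?_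
  have : min (1 / 2) (r / 24) ≤ r / 24 := min_le_right _ _
  linarith

theorem continuous_CayG {X : Type*} [TopologicalSpace X] {C : X → Matrix ι ι ℝ}
    (hC : Continuous C) (hs : ∀ x, (C x)ᵀ = C x) : Continuous fun x => CayG (C x) := by
  have h1 : Continuous fun x => pl (C x) := by
    unfold pl cx
    exact (hC.matrix_map Complex.continuous_ofReal).add continuous_const
  have h2 : Continuous fun x => mi (C x) := by
    unfold mi cx
    exact (hC.matrix_map Complex.continuous_ofReal).sub continuous_const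
  have h3 : Continuous fun x => (pl (C x))⁻¹ := by
    simp only [Matrix.inv_def]
    have h4 : Continuous fun x => (pl (C x)).det := h1.matrix_det
    have h5 : Continuous fun x => Ring.inverse (pl (C x)).det := by
      simp only [Ring.inverse_eq_inv']
      exact h4.inv₀ fun x => (isUnit_pl (hs x)).ne_zero
    exact h5.smul h1.matrix_adjugate
  exact h2.matrix_mul h3

end Crest.Agent.R166.Inv988
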