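import Crest.Agent.R166.InvC_348
import Crest.Agent.R166.SwAvg_798
import Crest.Agent.R166.InvE_988

/-!
Row 166, section 50 (helper348): the port/test array under the edge switching.
-/

set_option autoImplicit false
set_option linter.unusedSectionVars false

namespace Crest.Agent.R166.InvD348

open Matrix Complex Crest.Agent.R166 Crest.Agent.R166.Inv988 Crest.Agent.R166.InvB348
  Crest.Agent.R166.InvC348 Crest.Agent.R166.SwAvg798 Crest.Agent.R166.Sw798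

variable {n m : ℕ}

/-- resolvent relation of the arrays -/
lemma arr_rel {ι : Type*} [Fintype ι] [DecidableEq ι] {H0 H : Matrix (Fin n) (Fin n) ℝ}
    {Q : Matrix (Fin n) ι ℝ} {W : Matrix ι ι ℝ} {e : ℝ}
    (hH : H = H0 + Q * W * Qᵀ)
    (h0 : IsUnit (H0 - e • (1 : Matrix (Fin n) (Fin n) ℝ)).det)
    (h1 : IsUnit (H - e • (1 : Matrix (Fin n) (Fin n) ℝ)).det) :
    arr H e Q = arr H0 e Q - arr H0 e Q * W * arr H e Q := by
  unfold arr
  set R0 := (H0 - e • (1 : Matrix (Fin n) (Fin n) ℝ))⁻¹ with hR0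
  set R := (H - e • (1 : Matrix (Fin n) (Fin n) ℝ))⁻¹ with hR
  have key : R = R0 - R0 * (Q * W * Qᵀ) * R := by
    have a : R0 * (H0 - e • (1 : Matrix (Fin n) (Fin n) ℝ)) = 1 := nonsing_inv_mul _ h0
    have b : (H - e • (1 : Matrix (Fin n) (Fin n) ℝ)) * R = 1 := mul_nonsing_inv _ h1
    have c : Q * W * Qᵀ = (H - e • (1 : Matrix (Fin n) (Fin n) ℝ)) -
        (H0 - e • (1 : Matrix (Fin n) (Fin n) ℝ)) := by rw [hH]; abel
    rw [c, Matrix.mul_sub, Matrix.sub_mul, Matrix.mul_assoc R0, b, a, Matrix.one_mul,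
      Matrix.mul_one]
    abel
  conv_lhs => rw [key]
  simp only [Matrix.mul_sub, Matrix.sub_mul, Matrix.mul_assoc]

lemma arr_symm {ι : Type*} [Fintype ι] {H : Matrix (Fin n) (Fin n) ℝ} (hH : Hᵀ = H) (e : ℝ)
    (Q : Matrix (Fin n) ι ℝ) : (arr H e Q)ᵀ = arr H e Q := by
  unfold arr
  have h1 : ((H - e • (1 : Matrix (Fin n) (Fin n) ℝ))⁻¹)ᵀ =
      (H - e • (1 : Matrix (Fin n) (Fin n) ℝ))⁻¹ := by
    rw [transpose_nonsing_inv, transpose_sub, hH, transpose_smul, transpose_one]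
  rw [transpose_mul, transpose_mul, transpose_transpose, h1, Matrix.mul_assoc]

lemma arr_submatrix {ι : Type*} [Fintype ι] (H : Matrix (Fin n) (Fin n) ℝ) (e : ℝ)
    (Q : Matrix (Fin n) ι ℝ) (σ : Equiv.Perm ι) :
    arr H e (Q.submatrix id σ) = (arr H e Q).submatrix σ σ := by
  unfold arr
  rfl

lemma tau_00 : tau m (Sum.inl (Sum.inl 0)) = Sum.inl (Sum.inl 0) := by
  unfold tau; rw [Equiv.swap_apply_of_ne_of_ne] <;> simp

lemma tau_01 : tau m (Sum.inl (Sum.inl 1)) = Sum.inl (Sum.inr 0) := by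
  unfold tau; rw [Equiv.swap_apply_left]

lemma tau_10 : tau m (Sum.inl (Sum.inr 0)) = Sum.inl (Sum.inl 1) := by
  unfold tau; rw [Equiv.swap_apply_right]

lemma tau_11 : tau m (Sum.inl (Sum.inr 1)) = Sum.inl (Sum.inr 1) := by
  unfold tau; rw [Equiv.swap_apply_of_ne_of_ne] <;> simp

lemma tau_k (k : Fin m) : tau m (Sum.inr k) = Sum.inr k := by
  unfold tau; rw [Equiv.swap_apply_of_ne_of_ne] <;> simp

lemma dirs_tau (p1 p2 : Fin n × Fin n) (g : Fin n → Fin m → ℝ) :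
    dirs (p1.1, p2.1) (p1.2, p2.2) g = (dirs p1 p2 g).submatrix id (tau m) := by
  ext v j
  rw [submatrix_apply]
  rcases j with (a | a) | k
  · fin_cases a
    · change _ = dirs p1 p2 g v (tau m (Sum.inl (Sum.inl 0)))
      rw [tau_00]; rfl
    · change _ = dirs p1 p2 g v (tau m (Sum.inl (Sum.inl 1)))
      rw [tau_01]; rfl
  · fin_cases a
    · change _ = dirs p1 p2 g v (tau m (Sum.inl (Sum.inr 0)))
      rw [tau_10]; rfl
    · change _ = dirs p1 p2 g v (tau m (Sum.inl (Sum.inr 1)))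
      rw [tau_11]; rfl
  · rw [tau_k]; rfl

lemma dirs_W {p1 p2 : Fin n × Fin n} (h1 : p1.1 ≠ p1.2) (h2 : p2.1 ≠ p2.2)
    (g : Fin n → Fin m → ℝ) :
    dirs p1 p2 g * WI m * (dirs p1 p2 g)ᵀ = Wp p1 + Wp p2 := by
  obtain ⟨x, y⟩ := p1
  obtain ⟨u, w⟩ := p2
  ext v v'
  rw [Matrix.mul_apply, Matrix.add_apply]
  simp only [Matrix.mul_apply, Fintype.sum_sum_type, Fin.sum_univ_two, transpose_apply, WI, W2,
    fromBlocks_apply₁₁, fromBlocks_apply₁₂, fromBlocks_apply₂₁, fromBlocks_apply₂₂, dirs,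
    Matrix.of_apply, Matrix.zero_apply, mul_zero, Finset.sum_const_zero, add_zero, zero_add,
    Matrix.cons_val', Matrix.cons_val_zero, Matrix.cons_val_one, Matrix.cons_val_fin_one,
    mul_one, zero_mul, Wp]
  simp only at h1 h2
  by_cases a1 : v = x <;> by_cases a2 : v = y <;> by_cases a3 : v' = x <;> by_cases a4 : v' = y <;>
    by_cases b1 : v = u <;> by_cases b2 : v = w <;> by_cases b3 : v' = u <;>
    by_cases b4 : v' = w <;> simp_all

/-- the array in the reference frame with a general centring `a` -/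
noncomputable def UC (H : Matrix (Fin n) (Fin n) ℝ) (e ρ a : ℝ) (Za Zb : M2)
    (Ta Tb : Matrix (Fin 2) (Fin 2) ℝ) (p1 p2 : Fin n × Fin n) (g : Fin n → Fin m → ℝ) :
    Matrix (Idx m) (Idx m) ℂ :=
  CayG ((Tref Ta Tb ρ)⁻¹ * (arr H e (dirs p1 p2 g) - Aref Za Zb a) *
    ((Tref Ta Tb ρ)⁻¹).transpose)

lemma Uref_eq (H : Matrix (Fin n) (Fin n) ℝ) (E ρ K x : ℝ) (Za Zb : M2)
    (Ta Tb : Matrix (Fin 2) (Fin 2) ℝ) (p1 p2 : Fin n × Fin n) (g : Fin n → Fin m → ℝ) :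
    Uref H E ρ K x Za Zb Ta Tb p1 p2 g =
      UC H (E + x / n) ρ (mn H (zz E K n)).re Za Zb Ta Tb p1 p2 g := rfl

theorem UC_sw {G : SimpleGraph (Fin n)} {p1 p2 : Fin n × Fin n}
    (hv : VSw G p1.1 p1.2 p2.1 p2.2) (s : ℝ) (ω : Fin n → ℝ) {x1 x2 : ℂ} {ρ : ℝ}
    {Ta Tc Td : Matrix (Fin 2) (Fin 2) ℝ} (h : Frame x1 x2 x1 x2 ρ Ta Ta)
    (h' : Frame x1 x1 x2 x2 ρ Tc Td) (e a : ℝ) (g : Fin n → Fin m → ℝ)
    (u0 : IsUnit (Hm G s ω - Wp p1 - Wp p2 - e • (1 : Matrix (Fin n) (Fin n) ℝ)).det)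
    (u1 : IsUnit (Hm G s ω - e • (1 : Matrix (Fin n) (Fin n) ℝ)).det)
    (u2 : IsUnit (Hm (Sw798.sw G p1.1 p1.2 p2.1 p2.2) s ω -
      e • (1 : Matrix (Fin n) (Fin n) ℝ)).det) :
    UC (Hm (Sw798.sw G p1.1 p1.2 p2.1 p2.2) s ω) e ρ a (Ze2 x1 x1) (Ze2 x2 x2) Tc Td
      (p1.1, p2.1) (p1.2, p2.2) g =
    kk m x1 x2 ρ Ta Tc Td * UC (Hm G s ω) e ρ a (Ze2 x1 x2) (Ze2 x1 x2) Ta Ta p1 p2 g *
      (kk m x1 x2 ρ Ta Tc Td)ᵀ := by
  set H0 := Hm G s ω - Wp p1 - Wp p2 with hH0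
  have hs : ∀ p : Fin n × Fin n, (Wp p)ᵀ = Wp p := by
    intro p
    ext i j
    simp only [transpose_apply, Wp]
    congr 1
    simp only [eq_iff_iff]
    tauto
  have sH : (Hm G s ω)ᵀ = Hm G s ω := by
    exact Crest.Agent.R166.Stab269.Hm_symm G s ω
  have sH2 : (Hm (Sw798.sw G p1.1 p1.2 p2.1 p2.2) s ω)ᵀ =
      Hm (Sw798.sw G p1.1 p1.2 p2.1 p2.2) s ω :=
    Crest.Agent.R166.Stab269.Hm_symm _ s ω
  have sH0 : H0ᵀ = H0 := by
    rw [hH0, transpose_sub, transpose_sub, hs, hs, sH]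
  have r1 : Hm G s ω = H0 + dirs p1 p2 g * WI m * (dirs p1 p2 g)ᵀ := by
    rw [dirs_W hv.xy.ne hv.uw.ne, hH0]; abel
  have r2 : Hm (Sw798.sw G p1.1 p1.2 p2.1 p2.2) s ω = H0 +
      dirs (p1.1, p2.1) (p1.2, p2.2) g * WI m * (dirs (p1.1, p2.1) (p1.2, p2.2) g)ᵀ := by
    have hxu : ((p1.1, p2.1) : Fin n × Fin n).1 ≠ ((p1.1, p2.1) : Fin n × Fin n).2 := hv.xu
    have hyw : ((p1.2, p2.2) : Fin n × Fin n).1 ≠ ((p1.2, p2.2) : Fin n × Fin n).2 := hv.yw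
    rw [dirs_W hxu hyw, Hm_sw_Wp hv, hH0]
    abel
  have e1 := arr_rel r1 u0 u1
  have e2 := arr_rel r2 u0 u2
  rw [dirs_tau, arr_submatrix H0] at e2
  have key := CayG_kk (m := m) h h' a (M0 := arr H0 e (dirs p1 p2 g))
    (M := arr (Hm G s ω) e (dirs p1 p2 g))
    (M' := arr (Hm (Sw798.sw G p1.1 p1.2 p2.1 p2.2) s ω) e
      ((dirs p1 p2 g).submatrix id (tau m)))
    (arr_symm sH0 _ _) (arr_symm sH _ _) (arr_symm sH2 _ _) e1 e2
  unfold UC
  rw [dirs_tau]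
  exact key

/-! ### change of the centring -/

/-- the test corner -/
def corner (m : ℕ) (t : ℝ) : Matrix (Idx m) (Idx m) ℝ :=
  fromBlocks 0 0 0 (t • (1 : Matrix (Fin m) (Fin m) ℝ))

lemma corner_symm (t : ℝ) : (corner m t)ᵀ = corner m t := by
  unfold corner
  rw [fromBlocks_transpose]
  simp

lemma Aref_sub (Za Zb : M2) (a a' : ℝ) :
    (Aref Za Zb a' : Matrix (Idx m) (Idx m) ℝ) - Aref Za Zb a = corner m (a' - a) := by
  unfold Aref corner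
  ext i j
  rcases i with (i | i) | i <;> rcases j with (j | j) | j <;> simp [sub_smul]

lemma Tref_mul_corner (Ta Tb : Matrix (Fin 2) (Fin 2) ℝ) (ρ t : ℝ) :
    (Tref Ta Tb ρ : Matrix (Idx m) (Idx m) ℝ) * corner m t =
      corner m (Real.sqrt (Real.pi * ρ) * t) := by
  unfold Tref corner
  rw [fromBlocks_multiply]
  simp [smul_smul, mul_comm]

lemma Tref_inv_corner {Ta Tb : Matrix (Fin 2) (Fin 2) ℝ} {ρ : ℝ} (hρ : 0 < ρ)
    (hT : IsUnit (Tref Ta Tb ρ : Matrix (Idx m) (Idx m) ℝ).det) (t : ℝ) :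
    (Tref Ta Tb ρ : Matrix (Idx m) (Idx m) ℝ)⁻¹ * corner m t =
      corner m (t / Real.sqrt (Real.pi * ρ)) := by
  have h0 : Real.sqrt (Real.pi * ρ) ≠ 0 := by
    have : 0 < Real.pi * ρ := by positivity
    positivity
  have h1 : corner m t = Tref Ta Tb ρ * corner m (t / Real.sqrt (Real.pi * ρ)) := by
    rw [Tref_mul_corner]
    congr 1
    field_simp
  rw [h1, ← Matrix.mul_assoc, Matrix.nonsing_inv_mul _ hT, Matrix.one_mul]

lemma Tref_inv_corner_inv {Ta Tb : Matrix (Fin 2) (Fin 2) ℝ} {ρ : ℝ} (hρ : 0 < ρ)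
    (hT : IsUnit (Tref Ta Tb ρ : Matrix (Idx m) (Idx m) ℝ).det) (t : ℝ) :
    (Tref Ta Tb ρ : Matrix (Idx m) (Idx m) ℝ)⁻¹ * corner m t *
      ((Tref Ta Tb ρ : Matrix (Idx m) (Idx m) ℝ)⁻¹).transpose =
      corner m (t / (Real.pi * ρ)) := by
  have h2 : ∀ t : ℝ, corner m t * ((Tref Ta Tb ρ : Matrix (Idx m) (Idx m) ℝ)⁻¹).transpose =
      corner m (t / Real.sqrt (Real.pi * ρ)) := by
    intro t
    have := congrArg Matrix.transpose (Tref_inv_corner hρ hT t)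
    rw [transpose_mul, corner_symm, corner_symm] at this
    exact this
  rw [Tref_inv_corner hρ hT, h2]
  congr 1
  have : 0 < Real.pi * ρ := by positivity
  rw [div_div, Real.mul_self_sqrt this.le]

lemma l1_corner (t : ℝ) : l1 (corner m t) = m * |t| := by
  unfold l1 corner
  simp only [Fintype.sum_sum_type, fromBlocks_apply₁₁, fromBlocks_apply₁₂, fromBlocks_apply₂₁,
    fromBlocks_apply₂₂, Matrix.zero_apply, abs_zero, Finset.sum_const_zero, add_zero, zero_add,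
    Matrix.smul_apply, Matrix.one_apply, smul_eq_mul, mul_ite, mul_one, mul_zero]
  have : ∀ a b : Fin m, |if a = b then t else 0| = if a = b then |t| else 0 := by
    intro a b
    split_ifs <;> simp
  simp [this]

open scoped Matrix.Norms.L2Operator in
theorem norm_UC_sub_le {H : Matrix (Fin n) (Fin n) ℝ} (hH : Hᵀ = H) (e : ℝ) {ρ : ℝ} (hρ : 0 < ρ)
    (a a' : ℝ) {Za Zb : M2} (hZa : Za.transpose = Za) (hZb : Zb.transpose = Zb)
    {Ta Tb : Matrix (Fin 2) (Fin 2) ℝ}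
    (hT : IsUnit (Tref Ta Tb ρ : Matrix (Idx m) (Idx m) ℝ).det)
    (p1 p2 : Fin n × Fin n) (g : Fin n → Fin m → ℝ) :
    ‖UC H e ρ a Za Zb Ta Tb p1 p2 g - UC H e ρ a' Za Zb Ta Tb p1 p2 g‖ ≤
      2 * (m * |(a' - a) / (Real.pi * ρ)|) := by
  have hA : ∀ a : ℝ, (Aref Za Zb a : Matrix (Idx m) (Idx m) ℝ)ᵀ = Aref Za Zb a := by
    intro a
    have h : ∀ Z : M2, Z.transpose = Z → (rePart Z)ᵀ = rePart Z := by
      intro Z hZ
      unfold rePart
      rw [← Matrix.transpose_map, hZ]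
    unfold Aref
    rw [fromBlocks_transpose, fromBlocks_transpose, h _ hZa, h _ hZb]
    simp
  have hs : ∀ a : ℝ, ((Tref Ta Tb ρ)⁻¹ * (arr H e (dirs p1 p2 g) - Aref Za Zb a) *
      ((Tref Ta Tb ρ)⁻¹).transpose)ᵀ = (Tref Ta Tb ρ)⁻¹ * (arr H e (dirs p1 p2 g) - Aref Za Zb a) *
      ((Tref Ta Tb ρ)⁻¹).transpose := by
    intro a
    refine conj_symm ?_ _
    rw [transpose_sub, hA, arr_symm hH]
  unfold UC
  refine (norm_CayG_sub_le (hs a) (hs a')).trans ?_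
  have h1 : (Tref Ta Tb ρ)⁻¹ * (arr H e (dirs p1 p2 g) - Aref Za Zb a) *
      ((Tref Ta Tb ρ)⁻¹).transpose - (Tref Ta Tb ρ)⁻¹ * (arr H e (dirs p1 p2 g) - Aref Za Zb a') *
      ((Tref Ta Tb ρ)⁻¹).transpose =
      (Tref Ta Tb ρ)⁻¹ * corner m (a' - a) * ((Tref Ta Tb ρ)⁻¹).transpose := by
    rw [← Aref_sub Za Zb a a', ← Matrix.sub_mul, ← Matrix.mul_sub]
    congr 2
    abel
  rw [h1, Tref_inv_corner_inv hρ hT, l1_corner]

end Crest.Agent.R166.InvD348
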