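import Crest.Agent.R166.InvD_348
import Crest.Agent.R166.MeasC_780

/-!
Row 166, section 50 (helper348): the averaged array under the edge switching.
-/

set_option autoImplicit false
set_option linter.unusedSectionVars false

namespace Crest.Agent.R166.InvD348

open Matrix Complex Crest.Agent.R166 Crest.Agent.R166.Inv988 Crest.Agent.R166.InvB348
  Crest.Agent.R166.InvC348 Crest.Agent.R166.SwAvg798 Crest.Agent.R166.Sw798
open MeasureTheory Crest.Agent.R166.MeasMat93 Crest.Agent.R166.MeasC780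

variable {n m : ℕ}

lemma finite_sing (H : Matrix (Fin n) (Fin n) ℝ) :
    {e : ℝ | ¬ IsUnit (H - e • (1 : Matrix (Fin n) (Fin n) ℝ)).det}.Finite := by
  have h1 : {e : ℝ | ¬ IsUnit (H - e • (1 : Matrix (Fin n) (Fin n) ℝ)).det} ⊆
      (H.charpoly.roots.toFinset : Set ℝ) := by
    intro e he
    simp only [Set.mem_ofPred_eq, isUnit_iff_ne_zero, not_not] at he
    rw [Finset.mem_coe, Multiset.mem_toFinset, Polynomial.mem_roots (H.charpoly_monic.ne_zero),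
      Polynomial.IsRoot.def, Matrix.eval_charpoly]
    have h2 : (Matrix.scalar (Fin n)) e - H = -(H - e • (1 : Matrix (Fin n) (Fin n) ℝ)) := by
      rw [neg_sub, Matrix.scalar_apply, ← Matrix.smul_one_eq_diagonal]
    rw [h2, Matrix.det_neg, he, mul_zero]
  exact (Finset.finite_toSet _).subset h1

lemma ae_isUnit (hn : 0 < n) (H : Matrix (Fin n) (Fin n) ℝ) (E : ℝ) :
    ∀ᵐ x : ℝ, IsUnit (H - (E + x / n) • (1 : Matrix (Fin n) (Fin n) ℝ)).det := by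
  have h1 : {x : ℝ | ¬ IsUnit (H - (E + x / n) • (1 : Matrix (Fin n) (Fin n) ℝ)).det} =
      (fun x : ℝ => E + x / n) ⁻¹'
        {e : ℝ | ¬ IsUnit (H - e • (1 : Matrix (Fin n) (Fin n) ℝ)).det} := rfl
  have h2 : Function.Injective (fun x : ℝ => E + x / n) := by
    intro x y hxy
    have hn' : (n : ℝ) ≠ 0 := by exact_mod_cast hn.ne'
    simp only [add_right_inj] at hxy
    field_simp at hxy
    exact hxy
  have h3 := (finite_sing H).preimage (f := fun x : ℝ => E + x / n) h2.injOn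
  rw [← h1] at h3
  exact h3.measure_zero _

/-- averages over `x ∈ [0,δ]` and a probability space, comparison -/
lemma avg_close {𝓖 : Type*} [MeasurableSpace 𝓖] (ν : Measure 𝓖) [IsProbabilityMeasure ν]
    {δ : ℝ} (hδ : 0 < δ) {F F' : ℝ → 𝓖 → ℝ} {B ε : ℝ} 
    (hF : Measurable fun q : ℝ × 𝓖 => F q.1 q.2) (hF' : Measurable fun q : ℝ × 𝓖 => F' q.1 q.2)
    (hB : ∀ x g, |F x g| ≤ B) (hB' : ∀ x g, |F' x g| ≤ B)
    (h : ∀ᵐ x : ℝ, ∀ g, |F x g - F' x g| ≤ ε) :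
    |δ⁻¹ * (∫ x in (0 : ℝ)..δ, ∫ g, F x g ∂ν) - δ⁻¹ * ∫ x in (0 : ℝ)..δ, ∫ g, F' x g ∂ν| ≤ ε := by
  have hm : ∀ {F : ℝ → 𝓖 → ℝ}, (Measurable fun q : ℝ × 𝓖 => F q.1 q.2) → (∀ x g, |F x g| ≤ B) →
      IntervalIntegrable (fun x => ∫ g, F x g ∂ν) volume 0 δ := by
    intro F hF hB
    have h1 : StronglyMeasurable fun q : ℝ => ∫ g, F q g ∂ν :=
      hF.stronglyMeasurable.integral_prod_right
    have h2 : ∀ x, ‖∫ g, F x g ∂ν‖ ≤ B := by
      intro x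
      have := norm_integral_le_of_norm_le_const (μ := ν) (f := F x) (C := B)
        (Filter.Eventually.of_forall fun g => by simpa [Real.norm_eq_abs] using hB x g)
      simpa using this
    constructor
    · exact Integrable.of_bound (h1.aestronglyMeasurable) B (Filter.Eventually.of_forall h2)
    · exact Integrable.of_bound (h1.aestronglyMeasurable) B (Filter.Eventually.of_forall h2)
  have hi : ∀ {F : ℝ → 𝓖 → ℝ}, (Measurable fun q : ℝ × 𝓖 => F q.1 q.2) → (∀ x g, |F x g| ≤ B) →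
      ∀ x, Integrable (F x) ν := by
    intro F hF hB x
    exact Integrable.of_bound (hF.comp measurable_prodMk_left).aestronglyMeasurable B
      (Filter.Eventually.of_forall fun g => by simpa [Real.norm_eq_abs] using hB x g)
  rw [← mul_sub, ← intervalIntegral.integral_sub (hm hF hB) (hm hF' hB')]
  have h1 : ∀ᵐ x : ℝ, x ∈ Set.uIoc 0 δ → ‖(∫ g, F x g ∂ν) - ∫ g, F' x g ∂ν‖ ≤ ε := by
    filter_upwards [h] with x hx _
    rw [← integral_sub (hi hF hB x) (hi hF' hB' x)]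
    have := norm_integral_le_of_norm_le_const (μ := ν) (f := fun g => F x g - F' x g) (C := ε)
      (Filter.Eventually.of_forall fun g => by simpa [Real.norm_eq_abs] using hx g)
    simpa using this
  have h2 := intervalIntegral.norm_integral_le_of_norm_le_const_ae h1
  rw [sub_zero, abs_of_pos hδ, Real.norm_eq_abs] at h2
  rw [abs_mul, abs_of_pos (inv_pos.2 hδ)]
  calc δ⁻¹ * |∫ x in (0 : ℝ)..δ, ((∫ g, F x g ∂ν) - ∫ g, F' x g ∂ν)| ≤ δ⁻¹ * (ε * δ) := by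
        gcongr
    _ = ε := by field_simp

lemma measurable_f_Uref (H : Matrix (Fin n) (Fin n) ℝ) (E ρ K : ℝ) (Za Zb : M2)
    (Ta Tb : Matrix (Fin 2) (Fin 2) ℝ) (p1 p2 : Fin n × Fin n)
    {f : Matrix (Idx m) (Idx m) ℂ → ℝ} (hf : Continuous f) :
    Measurable fun q : ℝ × (Fin n → Fin m → ℝ) => f (Uref H E ρ K q.1 Za Zb Ta Tb p1 p2 q.2) := by
  refine MM_comp (MM_Uref (A := fun _ : ℝ × (Fin n → Fin m → ℝ) => H)
    (fun i j => measurable_const) E ρ measurable_const measurable_fst Za Zb Ta Tb p1 p2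
    measurable_snd) hf

lemma im_symm {Z : M2} (hZ : Res789.Sieg Z) : Z.transpose = Z := hZ.1

lemma transpose_mem_unitary {ι : Type*} [Fintype ι] [DecidableEq ι] {κ : Matrix ι ι ℂ}
    (hκ : κ ∈ unitaryGroup ι ℂ) : κᵀ ∈ unitaryGroup ι ℂ := by
  rw [mem_unitaryGroup_iff]
  rw [mem_unitaryGroup_iff'] at hκ
  have h1 := congrArg Matrix.transpose hκ
  rw [transpose_mul, transpose_one] at h1
  have h2 : star κᵀ = (star κ)ᵀ := by
    ext i j
    simp [Matrix.star_apply]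
  rw [h2]
  exact h1

lemma Uref_mem_unitary {H : Matrix (Fin n) (Fin n) ℝ} (sH : Hᵀ = H) (E ρ K x : ℝ) {Za Zb : M2}
    (sa : Zaᵀ = Za) (sb : Zbᵀ = Zb) (Ta Tb : Matrix (Fin 2) (Fin 2) ℝ) (p1 p2 : Fin n × Fin n)
    (g : Fin n → Fin m → ℝ) :
    Uref H E ρ K x Za Zb Ta Tb p1 p2 g ∈ unitaryGroup (Idx m) ℂ := by
  unfold Uref
  refine CayG_mem_unitary (Inv988.conj_symm ?_ _)
  rw [transpose_sub, arr_symm sH, Aref_transpose sa sb]

lemma entry_act_le {ι : Type*} [Fintype ι] [DecidableEq ι] {κ U : Matrix ι ι ℂ}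
    (hκ : κ ∈ unitaryGroup ι ℂ) (hU : U ∈ unitaryGroup ι ℂ) (i j : ι) :
    ‖(κ * U * κᵀ) i j‖ ≤ 1 :=
  entry_norm_bound_of_unitary (mul_mem (mul_mem hκ hU) (transpose_mem_unitary hκ)) i j

open scoped Matrix.Norms.L2Operator in
set_option maxHeartbeats 800000 in
/-- the averaged array under the switching -/
theorem tAvg_sw {x1 x2 : ℂ} {ρ : ℝ} {Ta Tc Td : Matrix (Fin 2) (Fin 2) ℝ}
    (h : Frame x1 x2 x1 x2 ρ Ta Ta) (h' : Frame x1 x1 x2 x2 ρ Tc Td)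
    {f : Matrix (Idx m) (Idx m) ℂ → ℝ} (hf : Continuous f) {ε : ℝ} (hε : 0 < ε) :
    ∃ r : ℝ, 0 < r ∧ ∀ (n : ℕ) (G : SimpleGraph (Fin n)) (p1 p2 : Fin n × Fin n)
      (_ : VSw G p1.1 p1.2 p2.1 p2.2) (s : ℝ) (ω : Fin n → ℝ) (E K δ : ℝ), 0 < δ →
      ‖mn (Hm G s ω) (zz E K n) - mn (Hm (Sw798.sw G p1.1 p1.2 p2.1 p2.2) s ω) (zz E K n)‖ ≤ r →
      |tAvg (Hm (Sw798.sw G p1.1 p1.2 p2.1 p2.2) s ω) E ρ K δ (Ze2 x1 x1) (Ze2 x2 x2) Tc Td f
          (p1.1, p2.1) (p1.2, p2.2) -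
        tAvg (Hm G s ω) E ρ K δ (Ze2 x1 x2) (Ze2 x1 x2) Ta Ta
          (fun U => f (kk m x1 x2 ρ Ta Tc Td * U * (kk m x1 x2 ρ Ta Tc Td)ᵀ)) p1 p2| ≤ ε := by
  obtain ⟨r0, hr0, hr⟩ := Inv988.unif hf hε
  have hρ := h.hρ
  have hpr : 0 < Real.pi * ρ := by positivity
  refine ⟨r0 / 4 * (Real.pi * ρ) / (m + 1), by positivity, ?_⟩
  intro n G p1 p2 hv s ω E K δ hδ hmn
  have hn : 0 < n := lt_of_le_of_lt (Nat.zero_le _) p1.1.isLt
  set H := Hm G s ω with hH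
  set H2 := Hm (Sw798.sw G p1.1 p1.2 p2.1 p2.2) s ω with hH2
  set κ := kk m x1 x2 ρ Ta Tc Td with hκ
  have hκm : κ ∈ unitaryGroup (Idx m) ℂ := kk_mem h h'
  have sH : Hᵀ = H := Crest.Agent.R166.Stab269.Hm_symm G s ω
  have sH2 : H2ᵀ = H2 := Crest.Agent.R166.Stab269.Hm_symm _ s ω
  have sa := (sieg_Ze2 h.h1 h.h2).1
  have sc := (sieg_Ze2 h.h1 h.h1).1
  have sd := (sieg_Ze2 h.h2 h.h2).1
  have hfκ : Continuous fun U : Matrix (Idx m) (Idx m) ℂ => f (κ * U * κᵀ) :=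
    hf.comp ((continuous_const.matrix_mul continuous_id).matrix_mul continuous_const)
  -- bounds
  obtain ⟨B, hB0, hB⟩ := exists_boundG hf
  have hbU : ∀ x (g : Fin n → Fin m → ℝ), |f (Uref H2 E ρ K x (Ze2 x1 x1) (Ze2 x2 x2) Tc Td
      (p1.1, p2.1) (p1.2, p2.2) g)| ≤ B := fun x g =>
    hB _ fun i j => norm_Uref_le sH2 _ _ _ _ sc sd _ _ _ _ _ i j
  have hbU2 : ∀ x (g : Fin n → Fin m → ℝ), |f (κ * Uref H E ρ K x (Ze2 x1 x2) (Ze2 x1 x2) Ta Ta
      p1 p2 g * κᵀ)| ≤ B := by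
    intro x g
    exact hB _ fun i j => entry_act_le hκm (Uref_mem_unitary sH _ _ _ _ sa sa _ _ _ _ _) i j
  have m1 := measurable_f_Uref H2 E ρ K (Ze2 x1 x1) (Ze2 x2 x2) Tc Td (p1.1, p2.1) (p1.2, p2.2) hf
  have m2 := measurable_f_Uref H E ρ K (Ze2 x1 x2) (Ze2 x1 x2) Ta Ta p1 p2 hfκ
  refine avg_close (gaussM n m) hδ m1 m2 hbU hbU2 (ε := ε) ?_
  filter_upwards [ae_isUnit hn (H - Wp p1 - Wp p2) E, ae_isUnit hn H E, ae_isUnit hn H2 E]
    with x u0 u1 u2 g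
  have e1 := UC_sw hv s ω h h' (E + x / n) (mn H (zz E K n)).re g u0 u1 u2
  rw [Uref_eq, Uref_eq]
  rw [← hκ] at e1
  rw [← e1]
  have n1 : ∀ a, ‖UC H2 (E + x / n) ρ a (Ze2 x1 x1) (Ze2 x2 x2) Tc Td
      (p1.1, p2.1) (p1.2, p2.2) g‖ ≤ 1 := by
    intro a
    unfold UC
    refine Inv988.norm_CayG_le (Inv988.conj_symm ?_ _)
    rw [transpose_sub, arr_symm sH2, Aref_transpose sc sd]
  refine hr _ _ (n1 _) (n1 _) ?_
  have hT := isUnit_Tref (m := m) h.hρ h'.ua h'.ub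
  refine lt_of_le_of_lt (norm_UC_sub_le sH2 _ hρ _ _ sc sd hT _ _ _) ?_
  have h3 : |(mn H (zz E K n)).re - (mn H2 (zz E K n)).re| ≤ r0 / 4 * (Real.pi * ρ) / (m + 1) := by
    rw [← Complex.sub_re]
    exact (Complex.abs_re_le_norm _).trans hmn
  rw [abs_div, abs_of_pos hpr]
  have hm1 : (0 : ℝ) < (m : ℝ) + 1 := by positivity
  calc 2 * ((m : ℝ) * (|(mn H (zz E K n)).re - (mn H2 (zz E K n)).re| / (Real.pi * ρ)))
      ≤ 2 * ((m : ℝ) * (r0 / 4 * (Real.pi * ρ) / (m + 1) / (Real.pi * ρ))) := by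
        gcongr
    _ = r0 / 2 * (m / (m + 1)) := by field_simp; ring
    _ < r0 := by
        have : (m : ℝ) / (m + 1) ≤ 1 := by rw [div_le_one hm1]; linarith
        nlinarith

end Crest.Agent.R166.InvD348
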