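import Crest.Agent.R166.InvE_988

/-!
Row 166, section 50 (helper988): eigen-expansions.
-/

set_option autoImplicit false
set_option linter.unusedSectionVars false
set_option linter.unusedSimpArgs false

namespace Crest.Agent.R166.Inv988

open MeasureTheory ProbabilityTheory Matrix Crest.ProbabilityR.RandomMatrix Crest.Agent.R166

/-- `∑ i, φ i • v i v iᵀ` -/
def SM {J ι : Type*} [Fintype J] (φ : J → ℝ) (v : J → ι → ℝ) : Matrix ι ι ℝ :=
  Matrix.of fun a b => ∑ i, φ i * v i a * v i b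

lemma SM_apply {J ι : Type*} [Fintype J] (φ : J → ℝ) (v : J → ι → ℝ) (a b : ι) :
    SM φ v a b = ∑ i, φ i * v i a * v i b := rfl

lemma SM_symm {J ι : Type*} [Fintype J] (φ : J → ℝ) (v : J → ι → ℝ) : (SM φ v)ᵀ = SM φ v := by
  ext a b
  simp only [Matrix.transpose_apply, SM_apply]
  exact Finset.sum_congr rfl fun i _ => by ring

lemma SM_congr_mul {J ι κ : Type*} [Fintype J] [Fintype ι] (φ : J → ℝ) (v : J → ι → ℝ)
    (X : Matrix κ ι ℝ) : X * SM φ v * Xᵀ = SM φ fun i => X *ᵥ v i := by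
  ext a b
  simp only [Matrix.mul_apply, SM_apply, Matrix.transpose_apply, Matrix.mulVec, dotProduct,
    Finset.sum_mul, Finset.mul_sum]
  calc ∑ x, ∑ i, ∑ j, X a i * (φ j * v j i * v j x) * X b x
      = ∑ x, ∑ j, ∑ i, X a i * (φ j * v j i * v j x) * X b x :=
        Finset.sum_congr rfl fun x _ => Finset.sum_comm
    _ = ∑ j, ∑ x, ∑ i, X a i * (φ j * v j i * v j x) * X b x := Finset.sum_comm
    _ = _ := by
        refine Finset.sum_congr rfl fun j _ => ?_
        refine Finset.sum_congr rfl fun x _ => ?_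
        exact Finset.sum_congr rfl fun i _ => by ring

section spectral

variable {n : ℕ} {H : Matrix (Fin n) (Fin n) ℝ} (hH : H.IsHermitian)

/-- eigenvector matrix -/
noncomputable def eO : Matrix (Fin n) (Fin n) ℝ := (hH.eigenvectorUnitary : Matrix _ _ ℝ)

lemma eO_tmul : (eO hH)ᵀ * eO hH = 1 := by
  have := Matrix.mem_unitaryGroup_iff'.1 hH.eigenvectorUnitary.2
  rwa [Matrix.star_eq_conjTranspose, Matrix.conjTranspose_eq_transpose_of_trivial] at this

lemma eO_mult : eO hH * (eO hH)ᵀ = 1 := by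
  have := Matrix.mem_unitaryGroup_iff.1 hH.eigenvectorUnitary.2
  rwa [Matrix.star_eq_conjTranspose, Matrix.conjTranspose_eq_transpose_of_trivial] at this

lemma eH_eq : H = eO hH * Matrix.diagonal hH.eigenvalues * (eO hH)ᵀ := by
  have h := hH.spectral_theorem
  rw [Unitary.conjStarAlgAut_apply, Matrix.star_eq_conjTranspose,
    Matrix.conjTranspose_eq_transpose_of_trivial] at h
  exact h

lemma eO_orth (i j : Fin n) : ∑ v, eO hH v i * eO hH v j = if i = j then 1 else 0 := by
  have := congrFun (congrFun (eO_tmul hH) i) j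
  simpa [Matrix.mul_apply, Matrix.one_apply] using this

lemma sub_eq (e : ℝ) : H - e • (1 : Matrix (Fin n) (Fin n) ℝ) =
    eO hH * Matrix.diagonal (fun i => hH.eigenvalues i - e) * (eO hH)ᵀ := by
  have h1 : (Matrix.diagonal (fun i => hH.eigenvalues i - e) : Matrix (Fin n) (Fin n) ℝ) =
      Matrix.diagonal hH.eigenvalues - e • 1 := by
    ext i j
    by_cases hij : i = j
    · subst hij; simp
    · simp [hij]
  rw [h1, Matrix.mul_sub, Matrix.sub_mul, ← eH_eq hH, Matrix.mul_smul, Matrix.mul_one,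
    Matrix.smul_mul, eO_mult hH]

lemma inv_eq {e : ℝ} (he : ∀ i, hH.eigenvalues i ≠ e) :
    (H - e • (1 : Matrix (Fin n) (Fin n) ℝ))⁻¹ =
    eO hH * Matrix.diagonal (fun i => (hH.eigenvalues i - e)⁻¹) * (eO hH)ᵀ := by
  apply Matrix.inv_eq_right_inv
  rw [sub_eq hH]
  have h1 : Matrix.diagonal (fun i => hH.eigenvalues i - e) *
      Matrix.diagonal (fun i => (hH.eigenvalues i - e)⁻¹) =
      (1 : Matrix (Fin n) (Fin n) ℝ) := by
    rw [Matrix.diagonal_mul_diagonal, ← Matrix.diagonal_one]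
    congr 1
    ext i
    exact mul_inv_cancel₀ (sub_ne_zero.2 (he i))
  calc _ = eO hH * Matrix.diagonal (fun i => hH.eigenvalues i - e) * ((eO hH)ᵀ * eO hH) *
        Matrix.diagonal (fun i => (hH.eigenvalues i - e)⁻¹) * (eO hH)ᵀ := by
        simp only [Matrix.mul_assoc]
    _ = eO hH * (Matrix.diagonal (fun i => hH.eigenvalues i - e) *
        Matrix.diagonal (fun i => (hH.eigenvalues i - e)⁻¹)) * (eO hH)ᵀ := by
        rw [eO_tmul, Matrix.mul_one]; simp only [Matrix.mul_assoc]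
    _ = 1 := by rw [h1, Matrix.mul_one, eO_mult]

/-- rescaled eigenvalues -/
noncomputable def hl (E : ℝ) (i : Fin n) : ℝ := n * (hH.eigenvalues i - E)

/-- coordinates of the directions in the eigenbasis -/
noncomputable def qv {ι : Type*} (Q : Matrix (Fin n) ι ℝ) (i : Fin n) (a : ι) : ℝ :=
  Real.sqrt n * ∑ v, eO hH v i * Q v a

theorem arr_eq {ι : Type*} [Fintype ι] (hn : 0 < n) {E x : ℝ} (hx : ∀ i, hl hH E i ≠ x)
    (Q : Matrix (Fin n) ι ℝ) :
    arr H (E + x / n) Q = SM (fun i => (hl hH E i - x)⁻¹) (qv hH Q) := by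
  have hn' : (0 : ℝ) < n := by exact_mod_cast hn
  have he : ∀ i, hH.eigenvalues i ≠ E + x / n := by
    intro i h
    apply hx i
    unfold hl
    rw [h]
    field_simp
    ring
  unfold arr
  rw [inv_eq hH he]
  have h1 : Qᵀ * (eO hH * Matrix.diagonal (fun i => (hH.eigenvalues i - (E + x / n))⁻¹) *
      (eO hH)ᵀ) * Q = (Qᵀ * eO hH) * Matrix.diagonal (fun i =>
        (hH.eigenvalues i - (E + x / n))⁻¹) * ((eO hH)ᵀ * Q) := by
    simp only [Matrix.mul_assoc]
  rw [h1]
  ext a b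
  rw [Matrix.mul_apply, SM_apply]
  refine Finset.sum_congr rfl fun i _ => ?_
  rw [Matrix.mul_diagonal]
  have h2 : (Qᵀ * eO hH) a i = ∑ v, eO hH v i * Q v a := by
    rw [Matrix.mul_apply]; exact Finset.sum_congr rfl fun v _ => by
      rw [Matrix.transpose_apply, mul_comm]
  have h3 : ((eO hH)ᵀ * Q) i b = ∑ v, eO hH v i * Q v b := by
    rw [Matrix.mul_apply]; rfl
  rw [h2, h3]
  unfold qv
  have h4 : (hH.eigenvalues i - (E + x / n))⁻¹ = n * (hl hH E i - x)⁻¹ := by
    unfold hl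
    have h5 : hH.eigenvalues i - (E + x / n) ≠ 0 := sub_ne_zero.2 (he i)
    have h6 : (n : ℝ) * (hH.eigenvalues i - E) - x ≠ 0 := sub_ne_zero.2 (hx i)
    have h7 : (n : ℝ) * (hH.eigenvalues i - E) - x = n * (hH.eigenvalues i - (E + x / n)) := by
      field_simp
      ring
    rw [h7, mul_inv, ← mul_assoc, mul_inv_cancel₀ hn'.ne', one_mul]
  rw [h4]
  have h8 : Real.sqrt n * Real.sqrt n = n := Real.mul_self_sqrt hn'.le
  calc _ = (n : ℝ) * ((hl hH E i - x)⁻¹ * (∑ v, eO hH v i * Q v a) * ∑ v, eO hH v i * Q v b) := by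
        ring
    _ = Real.sqrt n * Real.sqrt n * ((hl hH E i - x)⁻¹ * (∑ v, eO hH v i * Q v a) *
          ∑ v, eO hH v i * Q v b) := by rw [h8]
    _ = _ := by ring

/-! ### complex resolvent -/

lemma Res_eq {z : ℂ} (hz : z.im ≠ 0) (u w : Fin n) :
    Res H z u w = ∑ i, (eO hH u i : ℂ) * (eO hH w i : ℂ) * ((hH.eigenvalues i : ℂ) - z)⁻¹ := by
  have hne : ∀ i, (hH.eigenvalues i : ℂ) - z ≠ 0 := by
    intro i h
    apply hz
    have : ((hH.eigenvalues i : ℂ) - z).im = 0 := by rw [h]; simp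
    simpa using this
  have h1 : Res H z = cx (eO hH) * Matrix.diagonal (fun i => ((hH.eigenvalues i : ℂ) - z)⁻¹) *
      cx (eO hH)ᵀ := by
    unfold Res
    apply Matrix.inv_eq_right_inv
    have h2 : (H.map (fun x : ℝ => (x : ℂ)) - z • (1 : Matrix (Fin n) (Fin n) ℂ)) =
        cx (eO hH) * Matrix.diagonal (fun i => (hH.eigenvalues i : ℂ) - z) * cx (eO hH)ᵀ := by
      have h3 : (Matrix.diagonal (fun i => (hH.eigenvalues i : ℂ) - z) :
          Matrix (Fin n) (Fin n) ℂ) = cx (Matrix.diagonal hH.eigenvalues) - z • 1 := by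
        ext i j
        by_cases hij : i = j
        · subst hij; simp
        · simp [hij]
      have h4 : cx H = cx (eO hH) * cx (Matrix.diagonal hH.eigenvalues) * cx (eO hH)ᵀ := by
        rw [← cx_mul, ← cx_mul, ← eH_eq hH]
      rw [h3, Matrix.mul_sub, Matrix.sub_mul, ← h4, Matrix.mul_smul, Matrix.mul_one,
        Matrix.smul_mul, ← cx_mul, eO_mult, cx_one]
      rfl
    have h5 : (Matrix.diagonal (fun i => (hH.eigenvalues i : ℂ) - z) :
        Matrix (Fin n) (Fin n) ℂ) * Matrix.diagonal (fun i => ((hH.eigenvalues i : ℂ) - z)⁻¹) =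
        1 := by
      rw [Matrix.diagonal_mul_diagonal, ← Matrix.diagonal_one]
      congr 1
      ext i
      exact mul_inv_cancel₀ (hne i)
    rw [h2]
    calc _ = cx (eO hH) * Matrix.diagonal (fun i => (hH.eigenvalues i : ℂ) - z) *
          (cx (eO hH)ᵀ * cx (eO hH)) *
          Matrix.diagonal (fun i => ((hH.eigenvalues i : ℂ) - z)⁻¹) * cx (eO hH)ᵀ := by
          simp only [Matrix.mul_assoc]
      _ = cx (eO hH) * (Matrix.diagonal (fun i => (hH.eigenvalues i : ℂ) - z) *
          Matrix.diagonal (fun i => ((hH.eigenvalues i : ℂ) - z)⁻¹)) * cx (eO hH)ᵀ := by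
          rw [← cx_mul (eO hH)ᵀ, eO_tmul, cx_one, Matrix.mul_one]; simp only [Matrix.mul_assoc]
      _ = 1 := by rw [h5, Matrix.mul_one, ← cx_mul, eO_mult, cx_one]
  rw [h1, Matrix.mul_apply]
  refine Finset.sum_congr rfl fun i _ => ?_
  rw [Matrix.mul_diagonal]
  simp only [cx_apply, Matrix.transpose_apply]
  ring

/-- normalised eigenvector values -/
noncomputable def eF (i : Fin n) (v : Fin n) : ℝ := Real.sqrt n * eO hH v i

/-- the coefficient `y / (y² + K²)` -/
noncomputable def cK (K y : ℝ) : ℝ := y / (y ^ 2 + K ^ 2)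

lemma inv_sub_zz (hn : 0 < n) {E K : ℝ} (hK : 0 < K) (i : Fin n) :
    ((hH.eigenvalues i : ℂ) - zz E K n)⁻¹ =
      ((n * cK K (hl hH E i) : ℝ) : ℂ) +
        Complex.I * ((n * (K / (hl hH E i ^ 2 + K ^ 2)) : ℝ) : ℂ) := by
  have hn' : (0 : ℝ) < n := by exact_mod_cast hn
  have hnc : (n : ℂ) ≠ 0 := by exact_mod_cast hn.ne'
  set y := hl hH E i with hy
  have hpos : 0 < y ^ 2 + K ^ 2 := by positivity
  have h1 : (hH.eigenvalues i : ℂ) - zz E K n = ((y : ℂ) - Complex.I * K) / n := by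
    unfold zz
    rw [hy]
    unfold hl
    push_cast
    field_simp
    ring
  have hd : ((y ^ 2 + K ^ 2 : ℝ) : ℂ) ≠ 0 := by exact_mod_cast hpos.ne'
  have h2 : ((y : ℂ) - Complex.I * K) * ((y : ℂ) + Complex.I * K) = ((y ^ 2 + K ^ 2 : ℝ) : ℂ) := by
    push_cast
    ring_nf
    rw [Complex.I_sq]
    ring
  have h3 : ((y : ℂ) - Complex.I * K) ≠ 0 := by
    intro h
    rw [h, zero_mul] at h2
    exact hd h2.symm
  rw [h1, inv_div, div_eq_iff h3]
  unfold cK
  push_cast at h2 hd ⊢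
  field_simp
  linear_combination (-1 : ℂ) * h2

lemma re_aux (a b p q : ℝ) :
    ((a : ℂ) * (b : ℂ) * ((p : ℂ) + Complex.I * (q : ℂ))).re = a * b * p := by
  simp

lemma im_aux (a b p q : ℝ) :
    ((a : ℂ) * (b : ℂ) * ((p : ℂ) + Complex.I * (q : ℂ))).im = a * b * q := by
  simp

theorem Res_zz_re (hn : 0 < n) {E K : ℝ} (hK : 0 < K) (u w : Fin n) :
    (Res H (zz E K n) u w).re = ∑ i, cK K (hl hH E i) * eF hH i u * eF hH i w := by
  have hn' : (0 : ℝ) < n := by exact_mod_cast hn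
  have hz : (zz E K n).im ≠ 0 := by
    have : (zz E K n).im = K / n := by simp [zz]
    rw [this]; positivity
  rw [Res_eq hH hz, Complex.re_sum]
  refine Finset.sum_congr rfl fun i _ => ?_
  rw [inv_sub_zz hH hn hK, re_aux]
  have h8 : Real.sqrt n * Real.sqrt n = n := Real.mul_self_sqrt hn'.le
  unfold eF
  linear_combination (-(cK K (hl hH E i) * eO hH u i * eO hH w i)) * h8

theorem Res_zz_im (hn : 0 < n) {E K : ℝ} (hK : 0 < K) (u w : Fin n) :
    (Res H (zz E K n) u w).im =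
      ∑ i, (K / (hl hH E i ^ 2 + K ^ 2)) * eF hH i u * eF hH i w := by
  have hn' : (0 : ℝ) < n := by exact_mod_cast hn
  have hz : (zz E K n).im ≠ 0 := by
    have : (zz E K n).im = K / n := by simp [zz]
    rw [this]; positivity
  rw [Res_eq hH hz, Complex.im_sum]
  refine Finset.sum_congr rfl fun i _ => ?_
  rw [inv_sub_zz hH hn hK, im_aux]
  have h8 : Real.sqrt n * Real.sqrt n = n := Real.mul_self_sqrt hn'.le
  unfold eF
  linear_combination (-((K / (hl hH E i ^ 2 + K ^ 2)) * eO hH u i * eO hH w i)) * h8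

lemma eF_orth (hn : 0 < n) (i j : Fin n) :
    ∑ v, eF hH i v * eF hH j v = if i = j then (n : ℝ) else 0 := by
  have hn' : (0 : ℝ) < n := by exact_mod_cast hn
  have h8 : Real.sqrt n * Real.sqrt n = n := Real.mul_self_sqrt hn'.le
  have h1 : ∑ v, eF hH i v * eF hH j v = n * ∑ v, eO hH v i * eO hH v j := by
    rw [Finset.mul_sum]
    refine Finset.sum_congr rfl fun v _ => ?_
    unfold eF
    linear_combination (eO hH v i * eO hH v j) * h8
  rw [h1, eO_orth]
  split_ifs <;> simp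

lemma sum_diag (hn : 0 < n) (c : Fin n → ℝ) :
    ∑ v, ∑ i, c i * eF hH i v * eF hH i v = n * ∑ i, c i := by
  rw [Finset.sum_comm, Finset.mul_sum]
  refine Finset.sum_congr rfl fun i _ => ?_
  have := eF_orth hH hn i i
  rw [if_pos rfl] at this
  calc ∑ v, c i * eF hH i v * eF hH i v = c i * ∑ v, eF hH i v * eF hH i v := by
        rw [Finset.mul_sum]; exact Finset.sum_congr rfl fun v _ => by ring
    _ = _ := by rw [this]; ring

theorem mn_zz_re (hn : 0 < n) {E K : ℝ} (hK : 0 < K) :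
    (mn H (zz E K n)).re = ∑ i, cK K (hl hH E i) := by
  have hn' : (0 : ℝ) < n := by exact_mod_cast hn
  unfold mn
  rw [Complex.div_natCast_re, Matrix.trace, Complex.re_sum]
  simp only [Matrix.diag_apply, Res_zz_re hH hn hK]
  rw [sum_diag hH hn]
  field_simp

theorem mn_zz_im (hn : 0 < n) {E K : ℝ} (hK : 0 < K) :
    (mn H (zz E K n)).im = ∑ i, K / (hl hH E i ^ 2 + K ^ 2) := by
  have hn' : (0 : ℝ) < n := by exact_mod_cast hn
  unfold mn
  rw [Complex.div_natCast_im, Matrix.trace, Complex.im_sum]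
  simp only [Matrix.diag_apply, Res_zz_im hH hn hK]
  rw [sum_diag hH hn]
  field_simp

lemma mulVec_eF (i : Fin n) : H *ᵥ (eF hH i) = hH.eigenvalues i • eF hH i := by
  have h1 : H * eO hH = eO hH * Matrix.diagonal hH.eigenvalues := by
    have h0 := eH_eq hH
    calc H * eO hH = (eO hH * Matrix.diagonal hH.eigenvalues * (eO hH)ᵀ) * eO hH :=
          congrArg (· * eO hH) h0
      _ = _ := by rw [Matrix.mul_assoc, eO_tmul, Matrix.mul_one]
  ext v
  have h2 := congrFun (congrFun h1 v) i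
  rw [Matrix.mul_diagonal, Matrix.mul_apply] at h2
  simp only [Matrix.mulVec, dotProduct, eF, Pi.smul_apply, smul_eq_mul]
  calc ∑ x, H v x * (Real.sqrt n * eO hH x i) = Real.sqrt n * ∑ x, H v x * eO hH x i := by
        rw [Finset.mul_sum]; exact Finset.sum_congr rfl fun x _ => by ring
    _ = _ := by rw [h2]; ring

/-- a family of distinct near eigenvectors is a frame -/
theorem isFrame_near (hn : 0 < n) {E K' : ℝ} {k : ℕ} (σ : Fin k → Fin n)
    (hσ : Function.Injective σ) (hK : ∀ j, |hl hH E (σ j)| ≤ K') :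
    IsFrame H E K' k (fun j => eF hH (σ j)) := by
  have hn' : (0 : ℝ) < n := by exact_mod_cast hn
  refine ⟨fun i j => ?_, fun j => ?_⟩
  · rw [eF_orth hH hn]
    simp only [hσ.eq_iff]
  · have h1 : ∀ v, ((H *ᵥ eF hH (σ j)) v - E * eF hH (σ j) v) ^ 2 =
        (hH.eigenvalues (σ j) - E) ^ 2 * (eF hH (σ j) v * eF hH (σ j) v) := by
      intro v
      rw [mulVec_eF]
      simp only [Pi.smul_apply, smul_eq_mul]
      ring
    simp only [h1]
    rw [← Finset.mul_sum, eF_orth hH hn, if_pos rfl]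
    have h2 : (hH.eigenvalues (σ j) - E) ^ 2 ≤ (K' / n) ^ 2 := by
      have h3 : hH.eigenvalues (σ j) - E = hl hH E (σ j) / n := by
        unfold hl; field_simp
      rw [h3, div_pow, div_pow]
      have := hK j
      have h4 : hl hH E (σ j) ^ 2 ≤ K' ^ 2 := by
        rw [← sq_abs (hl hH E (σ j))]
        exact pow_le_pow_left₀ (abs_nonneg _) this 2
      gcongr
    exact mul_le_mul_of_nonneg_right h2 hn'.le

end spectral

end Crest.Agent.R166.Inv988
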