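import Crest.Agent.R166.InvSw2_286

/-!
# R166, section 50, S2/S2b in the integrated form (helper286)
-/

set_option autoImplicit false
set_option linter.unusedSectionVars false

open Finset

namespace Crest.Agent.R166.InvSw286

open Crest.Agent.R166 Crest.Agent.R166.Sw798 Crest.Agent.R166.SwAvg798
open Crest.Agent.R166.Inv988 Crest.Agent.R166.InvB348 Crest.Agent.R166.MeasC780
open Crest.Agent.R166.MeasMat93
open Crest.ProbabilityR.RandomMatrix MeasureTheory
open Classical

section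

variable {n d : ℕ}

/-- a bound for the average over the graphs which holds for every potential -/
lemma EGo_le_of_forall {B c : ℝ} {Φ : SimpleGraph (Fin n) → (Fin n → ℝ) → ℝ} (hΦ : Good n B Φ)
    (h : ∀ ω, regularAverage n d (fun G => Φ G ω) ≤ c) : EGo n d Φ ≤ c := by
  have e : EGo n d Φ = ∫ ω, regularAverage n d (fun G => Φ G ω) ∂potentialLaw n := by
    unfold EGo regularAverage
    rw [← integral_finsetSum _ (fun G _ => hΦ.integrable G), integral_div]
  rw [e]
  have hi : Integrable (fun ω => regularAverage n d (fun G => Φ G ω)) (potentialLaw n) := by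
    unfold regularAverage
    exact (integrable_finsetSum _ fun G _ => hΦ.integrable G).div_const _
  calc ∫ ω, regularAverage n d (fun G => Φ G ω) ∂potentialLaw n
      ≤ ∫ _ω, c ∂potentialLaw n := integral_mono hi (integrable_const _) h
    _ = c := by simp

/-- the observable of the four blocks, averaged over the valid pairs -/
noncomputable def four (Φ : M2 → M2 → M2 → M2 → ℝ) (s E η : ℝ) (G : SimpleGraph (Fin n))
    (ω : Fin n → ℝ) : ℝ :=
  Inv988.eAvg2 G (fun p q => if VSw G p.1 p.2 q.1 q.2 then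
    Φ (blk (Hm G s ω) E η p) (blk (Hm G s ω) E η q)
      (blk (Hm (Sw798.sw G p.1 p.2 q.1 q.2) s ω) E η (p.1, q.1))
      (blk (Hm (Sw798.sw G p.1 p.2 q.1 q.2) s ω) E η (p.2, q.2)) else 0)

lemma measurable_four {Φ : M2 → M2 → M2 → M2 → ℝ}
    (hΦ : Continuous fun b : M2 × M2 × M2 × M2 => Φ b.1 b.2.1 b.2.2.1 b.2.2.2) (s E η : ℝ)
    (G : SimpleGraph (Fin n)) : Measurable (four Φ s E η G) := by
  unfold four
  refine measurable_eAvg2 G (F := fun ω p q => if VSw G p.1 p.2 q.1 q.2 then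
    Φ (blk (Hm G s ω) E η p) (blk (Hm G s ω) E η q)
      (blk (Hm (Sw798.sw G p.1 p.2 q.1 q.2) s ω) E η (p.1, q.1))
      (blk (Hm (Sw798.sw G p.1 p.2 q.1 q.2) s ω) E η (p.2, q.2)) else 0) ?_
  intro p q
  by_cases hv : VSw G p.1 p.2 q.1 q.2
  · simp only [hv, if_true]
    have hc : Continuous (fun v : Fin 4 → Fin 2 → Fin 2 → ℂ =>
        Φ (Matrix.of (v 0)) (Matrix.of (v 1)) (Matrix.of (v 2)) (Matrix.of (v 3))) := by
      have h1 : Continuous fun v : Fin 4 → Fin 2 → Fin 2 → ℂ =>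
          ((Matrix.of (v 0), Matrix.of (v 1), Matrix.of (v 2), Matrix.of (v 3)) :
            M2 × M2 × M2 × M2) := by
        refine Continuous.prodMk ?_ (Continuous.prodMk ?_ (Continuous.prodMk ?_ ?_))
        · exact continuous_apply 0
        · exact continuous_apply 1
        · exact continuous_apply 2
        · exact continuous_apply 3
      exact hΦ.comp h1
    have hm : ∀ (G' : SimpleGraph (Fin n)) (a : Fin n × Fin n),
        Measurable (fun ω : Fin n → ℝ => (fun i j => blk (Hm G' s ω) E η a i j :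
          Fin 2 → Fin 2 → ℂ)) := fun G' a =>
      measurable_pi_lambda _ fun i => measurable_pi_lambda _ fun j =>
        MM_blkη (MM_Hm G' s) E η a i j
    have hm4 : Measurable (fun ω : Fin n → ℝ =>
        (![fun i j => blk (Hm G s ω) E η p i j, fun i j => blk (Hm G s ω) E η q i j,
          fun i j => blk (Hm (Sw798.sw G p.1 p.2 q.1 q.2) s ω) E η (p.1, q.1) i j,
          fun i j => blk (Hm (Sw798.sw G p.1 p.2 q.1 q.2) s ω) E η (p.2, q.2) i j] :
          Fin 4 → Fin 2 → Fin 2 → ℂ)) := by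
      refine measurable_pi_lambda _ fun k => ?_
      fin_cases k
      · exact hm G p
      · exact hm G q
      · exact hm (Sw798.sw G p.1 p.2 q.1 q.2) (p.1, q.1)
      · exact hm (Sw798.sw G p.1 p.2 q.1 q.2) (p.2, q.2)
    exact hc.measurable.comp hm4
  · simp only [hv, if_false]
    exact measurable_const

/-- **(S2b), transfer, integrated over the potential** -/
theorem transfer_int {Φ : M2 → M2 → M2 → M2 → ℝ}
    (hΦ : Continuous fun b : M2 × M2 × M2 × M2 => Φ b.1 b.2.1 b.2.2.1 b.2.2.2)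
    (h0 : ∀ a1 a2 b1 b2 : ℂ, 0 < a1.im → 0 < a2.im → 0 < b1.im → 0 < b2.im →
      Φ (Ze2 a1 a2) (Ze2 b1 b2) (Ze2 a1 b1) (Ze2 a2 b2) = 0)
    {η : ℝ} (hη : 0 < η) {ε : ℝ} (hε : 0 < ε) :
    ∃ N : ℕ, ∀ n : ℕ, N ≤ n → ∀ (d : ℕ) (s E : ℝ),
      EGo n d (four (fun b1 b2 b3 b4 => |Φ b1 b2 b3 b4|) s E η) ≤ ε := by
  obtain ⟨C, hC, h⟩ := transfer hΦ h0 hη (half_pos hε)
  obtain ⟨N, hN⟩ := exists_nat_gt (2 * C / ε)
  refine ⟨N + 1, fun n hn d s E => ?_⟩
  have hn0 : (0 : ℝ) < n := by
    have : 0 < n := by omega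
    exact_mod_cast this
  have hCn : C / n ≤ ε / 2 := by
    have h1 : 2 * C / ε < n := hN.trans (by exact_mod_cast (by omega : N < n))
    rw [div_lt_iff₀ hε] at h1
    rw [div_le_iff₀ hn0]
    nlinarith
  have hΦ' : Continuous fun b : M2 × M2 × M2 × M2 => |Φ b.1 b.2.1 b.2.2.1 b.2.2.2| := hΦ.abs
  obtain ⟨M, hM0, hM⟩ := bdd4 hΦ (1 / η)
  have hG : Good n M (four (n := n) (fun b1 b2 b3 b4 => |Φ b1 b2 b3 b4|) s E η) := by
    refine ⟨measurable_four hΦ' s E η, fun G ω => ?_⟩
    unfold four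
    refine abs_eAvg2_le G hM0 ?_
    intro p q
    have hz : 0 < (ze E η).im := by rw [ze_im']; exact hη
    have hb : ∀ (G' : SimpleGraph (Fin n)) (a : Fin n × Fin n) (i j : Fin 2),
        ‖blk (Hm G' s ω) E η a i j‖ ≤ 1 / η := by
      intro G' a i j
      have := norm_apply_le (Stab269.Hm_symm G' s ω) hz (![a.1, a.2] i) (![a.1, a.2] j)
      rw [ze_im'] at this
      exact this
    split_ifs
    · rw [abs_abs]
      exact hM _ _ _ _ (hb _ _) (hb _ _) (hb _ _) (hb _ _)
    · simpa using hM0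
  refine EGo_le_of_forall hG fun ω => ?_
  have h1 := h n d s E ω
  have h2 : ε / 2 + C / n ≤ ε := by linarith
  exact h1.trans h2

/-- the `4 × 4` block of the ports without the two edges -/
noncomputable def Z4 (G : SimpleGraph (Fin n)) (s : ℝ) (ω : Fin n → ℝ) (E η : ℝ)
    (p q : Fin n × Fin n) : Matrix (Fin 4) (Fin 4) ℂ :=
  (Res (Hm G s ω - Wp p - Wp q) (ze E η)).submatrix ![p.1, p.2, q.1, q.2] ![p.1, p.2, q.1, q.2]

/-- sum of the squares of its off-diagonal entries -/
noncomputable def offZ (G : SimpleGraph (Fin n)) (s : ℝ) (ω : Fin n → ℝ) (E η : ℝ)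
    (p q : Fin n × Fin n) : ℝ :=
  ∑ i : Fin 4, ∑ j : Fin 4, (if i = j then 0 else ‖Z4 G s ω E η p q i j‖ ^ 2)

lemma offZ_eq (G : SimpleGraph (Fin n)) (s : ℝ) (ω : Fin n → ℝ) (E η : ℝ)
    (p q : Fin n × Fin n) : offZ G s ω E η p q = offSq (R0 G s ω (ze E η) p q) p q := by
  unfold offZ offSq
  refine Finset.sum_congr rfl fun i _ => Finset.sum_congr rfl fun j _ => ?_
  by_cases h : i = j
  · simp [h]
  · rw [if_neg h, if_pos h]
    rfl

lemma offZ_nonneg (G : SimpleGraph (Fin n)) (s : ℝ) (ω : Fin n → ℝ) (E η : ℝ)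
    (p q : Fin n × Fin n) : 0 ≤ offZ G s ω E η p q := by
  rw [offZ_eq]; exact offSq_nonneg _ _ _

lemma measurable_offZ (G : SimpleGraph (Fin n)) (s E η : ℝ) (p q : Fin n × Fin n) :
    Measurable fun ω => offZ G s ω E η p q := by
  unfold offZ
  refine Finset.measurable_sum _ fun i _ => Finset.measurable_sum _ fun j _ => ?_
  by_cases h : i = j
  · simp [h]
  · simp only [h, if_false]
    have h1 : MM (fun ω : Fin n → ℝ => Res (Hm G s ω - Wp p - Wp q) (ze E η)) :=
      MM_res (((MM_Hm G s).sub (MM.const _)).sub (MM.const _)) (z := fun _ => ze E η)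
        measurable_const
    exact ((h1 _ _).norm).pow_const 2

lemma offZ_le (G : SimpleGraph (Fin n)) (s : ℝ) (ω : Fin n → ℝ) (E : ℝ) {η : ℝ} (hη : 0 < η)
    (p q : Fin n × Fin n) : offZ G s ω E η p q ≤ 16 / η ^ 2 := by
  have hz : 0 < (ze E η).im := by rw [ze_im']; exact hη
  have hH := sub_Wp_symm (sub_Wp_symm (Stab269.Hm_symm G s ω) p) q
  have h1 : ∀ i j : Fin 4, (if i = j then 0 else ‖Z4 G s ω E η p q i j‖ ^ 2) ≤ 1 / η ^ 2 := by
    intro i j
    split_ifs
    · positivity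
    · have h2 := norm_apply_le hH hz ((![p.1, p.2, q.1, q.2] : Fin 4 → Fin n) i)
        ((![p.1, p.2, q.1, q.2] : Fin 4 → Fin n) j)
      rw [ze_im'] at h2
      have h3 := pow_le_pow_left₀ (norm_nonneg _) h2 2
      rw [div_pow, one_pow] at h3
      exact h3
  calc offZ G s ω E η p q ≤ ∑ _i : Fin 4, ∑ _j : Fin 4, 1 / η ^ 2 :=
        Finset.sum_le_sum fun i _ => Finset.sum_le_sum fun j _ => h1 i j
    _ = 16 / η ^ 2 := by simp; ring

/-- **(S2)** off-diagonal entries of the port block are `O(1/n)` on average; the constant does not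
depend on `d, s, E, n` -/
theorem offdiag' {η : ℝ} (hη : 0 < η) (n d : ℕ) (s E : ℝ) :
    regularAverage n d (fun G => ∫ ω, Inv988.eAvg2 G (fun p q => if VSw G p.1 p.2 q.1 q.2 then
      offZ G s ω E η p q else 0) ∂potentialLaw n) ≤ 48 * (1 + 2 / η) ^ 4 / η ^ 2 / n := by
  have hz : 0 < (ze E η).im := by rw [ze_im']; exact hη
  have hG : Good n (16 / η ^ 2) (fun (G : SimpleGraph (Fin n)) ω =>
      Inv988.eAvg2 G (fun p q => if VSw G p.1 p.2 q.1 q.2 then offZ G s ω E η p q else 0)) := by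
    refine ⟨fun G => ?_, fun G ω => ?_⟩
    · refine measurable_eAvg2 G (F := fun ω p q => if VSw G p.1 p.2 q.1 q.2 then
        offZ G s ω E η p q else 0) fun p q => ?_
      by_cases hv : VSw G p.1 p.2 q.1 q.2
      · simp only [hv, if_true]
        exact measurable_offZ G s E η p q
      · simp only [hv, if_false]
        exact measurable_const
    · refine abs_eAvg2_le G (by positivity) fun p q => ?_
      split_ifs
      · rw [abs_of_nonneg (offZ_nonneg _ _ _ _ _ _ _)]
        exact offZ_le G s ω E hη p q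
      · rw [abs_zero]; positivity
  refine EGo_le_of_forall hG fun ω => ?_
  have h := vE_offSq (n := n) (d := d) s ω hz
  rw [ze_im'] at h
  refine le_trans (le_of_eq ?_) h
  unfold vE
  simp only [offZ_eq]

/-- the form used by helper348 -/
theorem offdiag {d : ℕ} (_hd : 0 < d) (s E : ℝ) {η : ℝ} (hη : 0 < η) :
    ∃ C : ℝ, ∀ n, 0 < n → regularAverage n d (fun G => ∫ ω, Inv988.eAvg2 G
      (fun p q => if VSw G p.1 p.2 q.1 q.2 then
        ∑ i : Fin 4, ∑ j : Fin 4, (if i = j then 0 else ‖(Res (Hm G s ω - Wp p - Wp q)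
          (ze E η)).submatrix ![p.1, p.2, q.1, q.2] ![p.1, p.2, q.1, q.2] i j‖ ^ 2) else 0)
      ∂potentialLaw n) ≤ C / n :=
  ⟨48 * (1 + 2 / η) ^ 4 / η ^ 2, fun n _ => offdiag' hη n d s E⟩

end

end Crest.Agent.R166.InvSw286
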