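import Crest.Agent.R166.Res3_789
import Crest.Agent.R166.CayG_424

/-!
# R166 / PertMn_424 (helper424)

Leaf L3 of section C: the normalised trace of the resolvent is stable under perturbations on a fixed
number of vertices: `|m_n(H + emb f K)(z) - m_n(H)(z)| ≤ #P / (n Im z)`, hence `≤ #P / K` at
`z = E + i K / n`; the effect on the centring of the test arrays.
-/

set_option autoImplicit false
set_option linter.unusedSectionVars false

open Matrix
open scoped BigOperators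

namespace Crest.Agent.R166.PertMn424

open Crest.Agent.R166 Crest.Agent.R166.Res789 Crest.Agent.R166.Inv988 Crest.Agent.R166.CayG424

variable {V P : Type*} [Fintype V] [DecidableEq V] [Fintype P] [DecidableEq P]

/-- trace of the resolvent under a finite rank perturbation -/
theorem norm_trace_Res_emb_sub_le {H : Matrix V V ℝ} (hH : Hᵀ = H) {z : ℂ} (hz : 0 < z.im)
    {f : P → V} (hf : Function.Injective f) {K : Matrix P P ℝ} (hK : Kᵀ = K) :
    ‖(Res789.Res (H + emb f K) z).trace - (Res789.Res H z).trace‖ ≤ Fintype.card P / z.im := by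
  rw [← Matrix.trace_sub, Matrix.trace]
  calc ‖∑ v, (Res789.Res (H + emb f K) z - Res789.Res H z).diag v‖
      ≤ ∑ v, gam f (Res789.Res H z) v ^ 2 := by
        refine norm_sum_le_of_le _ fun v _ => ?_
        rw [sq]
        exact norm_Res_emb_sub_le hH hz hf hK v v
    _ = _ := sum_gam_sq hH hz hf

/-- normalised trace under a finite rank perturbation -/
theorem norm_mn_emb_sub_le {n : ℕ} {H : Matrix (Fin n) (Fin n) ℝ} (hH : Hᵀ = H) {z : ℂ}
    (hz : 0 < z.im) {f : P → Fin n} (hf : Function.Injective f) {K : Matrix P P ℝ} (hK : Kᵀ = K) :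
    ‖mn (H + emb f K) z - mn H z‖ ≤ Fintype.card P / (n * z.im) := by
  unfold mn
  rw [← sub_div, norm_div, Complex.norm_natCast]
  have h := norm_trace_Res_emb_sub_le hH hz hf hK
  rcases Nat.eq_zero_or_pos n with h0 | h0
  · subst h0; simp
  · have hn : (0 : ℝ) < n := by exact_mod_cast h0
    rw [div_le_div_iff₀ hn (by positivity)]
    rw [le_div_iff₀ hz] at h
    calc ‖(Crest.Agent.R166.Res (H + emb f K) z).trace - (Crest.Agent.R166.Res H z).trace‖ *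
          (n * z.im) = (‖(Res789.Res (H + emb f K) z).trace - (Res789.Res H z).trace‖ * z.im) * n :=
          by rw [← Res_eq419, ← Res_eq419]; ring
      _ ≤ Fintype.card P * n := mul_le_mul_of_nonneg_right h hn.le

@[simp] lemma zz_im (E K : ℝ) (n : ℕ) : (zz E K n).im = K / n := by
  simp only [zz, Complex.add_im, Complex.ofReal_im, Complex.mul_im, Complex.I_re, Complex.I_im,
    Complex.ofReal_re]
  ring

@[simp] lemma zz_re (E K : ℝ) (n : ℕ) : (zz E K n).re = E := by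
  simp [zz]

@[simp] lemma ze_im (E η : ℝ) : (ze E η).im = η := by simp [ze]

@[simp] lemma ze_re (E η : ℝ) : (ze E η).re = E := by simp [ze]

/-- normalised trace at the scale `K / n` -/
theorem norm_mn_zz_emb_sub_le {n : ℕ} (hn : 0 < n) {H : Matrix (Fin n) (Fin n) ℝ} (hH : Hᵀ = H)
    (E : ℝ) {K : ℝ} (hK0 : 0 < K) {f : P → Fin n} (hf : Function.Injective f) {W : Matrix P P ℝ}
    (hW : Wᵀ = W) :
    ‖mn (H + emb f W) (zz E K n) - mn H (zz E K n)‖ ≤ Fintype.card P / K := by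
  have hn' : (0 : ℝ) < n := by exact_mod_cast hn
  have h := norm_mn_emb_sub_le hH (z := zz E K n) (by rw [zz_im]; positivity) hf hW
  rw [zz_im, mul_div_cancel₀ _ hn'.ne'] at h
  exact h

/-- real part version -/
theorem abs_re_mn_zz_emb_sub_le {n : ℕ} (hn : 0 < n) {H : Matrix (Fin n) (Fin n) ℝ} (hH : Hᵀ = H)
    (E : ℝ) {K : ℝ} (hK0 : 0 < K) {f : P → Fin n} (hf : Function.Injective f) {W : Matrix P P ℝ}
    (hW : Wᵀ = W) :
    |(mn (H + emb f W) (zz E K n)).re - (mn H (zz E K n)).re| ≤ Fintype.card P / K := by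
  rw [← Complex.sub_re]
  exact (Complex.abs_re_le_norm _).trans (norm_mn_zz_emb_sub_le hn hH E hK0 hf hW)

/-- at fixed `η` -/
theorem norm_mn_ze_emb_sub_le {n : ℕ} {H : Matrix (Fin n) (Fin n) ℝ} (hH : Hᵀ = H)
    (E : ℝ) {η : ℝ} (hη : 0 < η) {f : P → Fin n} (hf : Function.Injective f) {W : Matrix P P ℝ}
    (hW : Wᵀ = W) :
    ‖mn (H + emb f W) (ze E η) - mn H (ze E η)‖ ≤ Fintype.card P / (n * η) := by
  have h := norm_mn_emb_sub_le hH (z := ze E η) (by rw [ze_im]; exact hη) hf hW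
  rwa [ze_im] at h

/-! ### the centring of the arrays -/

/-- changing the centring of the pure test array by at most `θ` -/
theorem unif_cont_centre {m : ℕ} {f : Matrix (Fin m) (Fin m) ℂ → ℝ} (hf : Continuous f)
    {ρ : ℝ} (hρ : 0 < ρ) {ε : ℝ} (hε : 0 < ε) :
    ∃ θ : ℝ, 0 < θ ∧ ∀ (M : Matrix (Fin m) (Fin m) ℝ), Mᵀ = M → ∀ a a' : ℝ, |a - a'| ≤ θ →
      |f (Cay ((1 / (Real.pi * ρ)) • (M - a • (1 : Matrix (Fin m) (Fin m) ℝ)))) -
        f (Cay ((1 / (Real.pi * ρ)) • (M - a' • (1 : Matrix (Fin m) (Fin m) ℝ))))| ≤ ε := by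
  obtain ⟨δ, hδ, h⟩ := unif_cont_CayG hf hε
  have hp : 0 < Real.pi * ρ := mul_pos Real.pi_pos hρ
  refine ⟨δ * (Real.pi * ρ), by positivity, fun M hM a a' ha => ?_⟩
  have hs : ∀ b : ℝ, ((1 / (Real.pi * ρ)) • (M - b • (1 : Matrix (Fin m) (Fin m) ℝ)))ᵀ =
      (1 / (Real.pi * ρ)) • (M - b • (1 : Matrix (Fin m) (Fin m) ℝ)) := by
    intro b
    rw [Matrix.transpose_smul, Matrix.transpose_sub, Matrix.transpose_smul, Matrix.transpose_one,
      hM]
  refine h _ _ (hs a) (hs a') fun i j => ?_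
  simp only [Matrix.smul_apply, Matrix.sub_apply, smul_eq_mul]
  have e : 1 / (Real.pi * ρ) * (M i j - a * (1 : Matrix (Fin m) (Fin m) ℝ) i j) -
      1 / (Real.pi * ρ) * (M i j - a' * (1 : Matrix (Fin m) (Fin m) ℝ) i j) =
      -((a - a') / (Real.pi * ρ)) * (1 : Matrix (Fin m) (Fin m) ℝ) i j := by ring
  rw [e, abs_mul, abs_neg, abs_div, abs_of_pos hp]
  have h1 : |(1 : Matrix (Fin m) (Fin m) ℝ) i j| ≤ 1 := by
    by_cases hij : i = j
    · subst hij; simp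
    · rw [Matrix.one_apply_ne hij]; simp
  have h2 : |a - a'| / (Real.pi * ρ) ≤ δ := by
    rw [div_le_iff₀ hp]; exact ha
  calc |a - a'| / (Real.pi * ρ) * |(1 : Matrix (Fin m) (Fin m) ℝ) i j|
      ≤ δ * 1 := mul_le_mul h2 h1 (abs_nonneg _) hδ.le
    _ = δ := mul_one δ

/-- test array of the perturbed matrix with the centring of the original one: replacing the centring
costs at most `ε` once `K ≥ K0` -/
theorem unif_cont_mn {m : ℕ} {f : Matrix (Fin m) (Fin m) ℂ → ℝ} (hf : Continuous f)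
    {ρ : ℝ} (hρ : 0 < ρ) (P : Type*) [Fintype P] [DecidableEq P] {ε : ℝ} (hε : 0 < ε) :
    ∃ K0 : ℝ, 0 < K0 ∧ ∀ K : ℝ, K0 ≤ K → ∀ (M : Matrix (Fin m) (Fin m) ℝ), Mᵀ = M →
      ∀ (n : ℕ), 0 < n → ∀ (H : Matrix (Fin n) (Fin n) ℝ), Hᵀ = H → ∀ (E : ℝ) (i : P → Fin n),
      Function.Injective i → ∀ W : Matrix P P ℝ, Wᵀ = W →
      |f (Cay ((1 / (Real.pi * ρ)) • (M - (mn (H + emb i W) (zz E K n)).re •
          (1 : Matrix (Fin m) (Fin m) ℝ)))) -
        f (Cay ((1 / (Real.pi * ρ)) • (M - (mn H (zz E K n)).re •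
          (1 : Matrix (Fin m) (Fin m) ℝ))))| ≤ ε := by
  obtain ⟨θ, hθ, h⟩ := unif_cont_centre hf hρ hε
  refine ⟨(Fintype.card P + 1) / θ, by positivity, fun K hK M hM n hn H hH E i hi W hW => ?_⟩
  have hK0 : 0 < K := lt_of_lt_of_le (by positivity) hK
  refine h M hM _ _ ((abs_re_mn_zz_emb_sub_le hn hH E hK0 hi hW).trans ?_)
  rw [div_le_iff₀ hK0]
  rw [div_le_iff₀ hθ] at hK
  linarith

section Ref

variable {m : ℕ}

lemma Aref_sub (Za Zb : M2) (a a' : ℝ) :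
    Aref (m := m) Za Zb a - Aref (m := m) Za Zb a' =
      Matrix.fromBlocks 0 0 0 ((a - a') • (1 : Matrix (Fin m) (Fin m) ℝ)) := by
  unfold Aref
  ext i j
  rcases i with i | i <;> rcases j with j | j <;>
    simp [Matrix.sub_apply, sub_mul]

lemma Tref_det (Ta Tb : Matrix (Fin 2) (Fin 2) ℝ) (ρ : ℝ) :
    (Tref (m := m) Ta Tb ρ).det = Ta.det * Tb.det * Real.sqrt (Real.pi * ρ) ^ m := by
  unfold Tref
  rw [Matrix.det_fromBlocks_zero₂₁, Matrix.det_fromBlocks_zero₂₁, Matrix.det_smul,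
    Matrix.det_one, mul_one, Fintype.card_fin]

lemma Tref_isUnit {Ta Tb : Matrix (Fin 2) (Fin 2) ℝ} (ha : IsUnit Ta.det) (hb : IsUnit Tb.det)
    {ρ : ℝ} (hρ : 0 < ρ) : IsUnit (Tref (m := m) Ta Tb ρ).det := by
  rw [Tref_det]
  refine (ha.mul hb).mul ?_
  refine IsUnit.pow _ (isUnit_iff_ne_zero.2 ?_)
  exact (Real.sqrt_pos.2 (mul_pos Real.pi_pos hρ)).ne'

lemma Tref_inv {Ta Tb : Matrix (Fin 2) (Fin 2) ℝ} (ha : IsUnit Ta.det) (hb : IsUnit Tb.det)
    {ρ : ℝ} (hρ : 0 < ρ) : (Tref (m := m) Ta Tb ρ)⁻¹ =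
      Matrix.fromBlocks (Matrix.fromBlocks Ta⁻¹ 0 0 Tb⁻¹) 0 0
        ((Real.sqrt (Real.pi * ρ))⁻¹ • (1 : Matrix (Fin m) (Fin m) ℝ)) := by
  have hs : Real.sqrt (Real.pi * ρ) ≠ 0 := (Real.sqrt_pos.2 (mul_pos Real.pi_pos hρ)).ne'
  apply Matrix.inv_eq_right_inv
  unfold Tref
  rw [Matrix.fromBlocks_multiply, Matrix.fromBlocks_multiply]
  simp only [Matrix.mul_zero, Matrix.zero_mul, add_zero, zero_add, Matrix.smul_mul,
    Matrix.mul_smul, Matrix.one_mul, smul_smul, smul_zero]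
  rw [Matrix.mul_nonsing_inv _ ha, Matrix.mul_nonsing_inv _ hb, inv_mul_cancel₀ hs, one_smul,
    Matrix.fromBlocks_one, Matrix.fromBlocks_one]

/-- changing the centring of the full reference array -/
theorem ref_centre_sub {Ta Tb : Matrix (Fin 2) (Fin 2) ℝ} (ha : IsUnit Ta.det)
    (hb : IsUnit Tb.det) {ρ : ℝ} (hρ : 0 < ρ) (Za Zb : M2) (M : Matrix (Idx m) (Idx m) ℝ)
    (a a' : ℝ) :
    (Tref Ta Tb ρ)⁻¹ * (M - Aref Za Zb a) * ((Tref (m := m) Ta Tb ρ)⁻¹)ᵀ -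
      (Tref Ta Tb ρ)⁻¹ * (M - Aref Za Zb a') * ((Tref (m := m) Ta Tb ρ)⁻¹)ᵀ =
      Matrix.fromBlocks 0 0 0 (((a' - a) / (Real.pi * ρ)) • (1 : Matrix (Fin m) (Fin m) ℝ)) := by
  have hp : 0 < Real.pi * ρ := mul_pos Real.pi_pos hρ
  rw [← Matrix.sub_mul, ← Matrix.mul_sub]
  have e : M - Aref (m := m) Za Zb a - (M - Aref Za Zb a') =
      Aref (m := m) Za Zb a' - Aref Za Zb a := by abel
  rw [e, Aref_sub, Tref_inv ha hb hρ, Matrix.fromBlocks_transpose, Matrix.fromBlocks_multiply,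
    Matrix.fromBlocks_multiply]
  simp only [Matrix.mul_zero, Matrix.zero_mul, add_zero, zero_add, Matrix.smul_mul,
    Matrix.mul_smul, Matrix.one_mul, smul_smul, Matrix.transpose_smul, Matrix.transpose_one,
    Matrix.transpose_zero, smul_zero]
  congr 2
  have hs : (Real.sqrt (Real.pi * ρ))⁻¹ * (Real.sqrt (Real.pi * ρ))⁻¹ = (Real.pi * ρ)⁻¹ := by
    rw [← mul_inv, Real.mul_self_sqrt hp.le]
  rw [div_eq_mul_inv, ← hs]
  ring

lemma ref_symm {M A T : Matrix (Idx m) (Idx m) ℝ} (hM : Mᵀ = M) (hA : Aᵀ = A) :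
    (T * (M - A) * Tᵀ)ᵀ = T * (M - A) * Tᵀ := by
  rw [Matrix.transpose_mul, Matrix.transpose_mul, Matrix.transpose_transpose,
    Matrix.transpose_sub, hM, hA, Matrix.mul_assoc]

lemma rePart_symm {Z : M2} (hZ : Zᵀ = Z) : (rePart Z)ᵀ = rePart Z := by
  unfold rePart
  rw [← Matrix.transpose_map, hZ]

lemma Aref_symm {Za Zb : M2} (ha : Zaᵀ = Za) (hb : Zbᵀ = Zb) (a : ℝ) :
    (Aref (m := m) Za Zb a)ᵀ = Aref Za Zb a := by
  unfold Aref
  rw [Matrix.fromBlocks_transpose, Matrix.fromBlocks_transpose, rePart_symm ha, rePart_symm hb,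
    Matrix.transpose_smul, Matrix.transpose_one]
  simp

lemma inv_symm {n : ℕ} {H : Matrix (Fin n) (Fin n) ℝ} (hH : Hᵀ = H) (e : ℝ) :
    ((H - e • (1 : Matrix (Fin n) (Fin n) ℝ))⁻¹)ᵀ =
      (H - e • (1 : Matrix (Fin n) (Fin n) ℝ))⁻¹ := by
  rw [Matrix.transpose_nonsing_inv, Matrix.transpose_sub, hH, Matrix.transpose_smul,
    Matrix.transpose_one]

lemma arr_symm {n : ℕ} {ι : Type*} [Fintype ι] {H : Matrix (Fin n) (Fin n) ℝ} (hH : Hᵀ = H)
    (e : ℝ) (Q : Matrix (Fin n) ι ℝ) : (arr H e Q)ᵀ = arr H e Q := by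
  unfold arr
  rw [Matrix.transpose_mul, Matrix.transpose_mul, Matrix.transpose_transpose, inv_symm hH,
    Matrix.mul_assoc]

/-- changing the centring of the full reference array by at most `θ`: uniform in the array -/
theorem unif_cont_ref {f : Matrix (Idx m) (Idx m) ℂ → ℝ} (hf : Continuous f)
    {Ta Tb : Matrix (Fin 2) (Fin 2) ℝ} (hta : IsUnit Ta.det)
    (htb : IsUnit Tb.det) {ρ : ℝ} (hρ : 0 < ρ) {Za Zb : M2} (hZa : Zaᵀ = Za) (hZb : Zbᵀ = Zb)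
    {ε : ℝ} (hε : 0 < ε) :
    ∃ θ : ℝ, 0 < θ ∧ ∀ M : Matrix (Idx m) (Idx m) ℝ, Mᵀ = M → ∀ a a' : ℝ, |a - a'| ≤ θ →
      |f (CayG ((Tref Ta Tb ρ)⁻¹ * (M - Aref Za Zb a) * ((Tref Ta Tb ρ)⁻¹)ᵀ)) -
        f (CayG ((Tref Ta Tb ρ)⁻¹ * (M - Aref Za Zb a') * ((Tref Ta Tb ρ)⁻¹)ᵀ))| ≤ ε := by
  obtain ⟨δ, hδ, h⟩ := unif_cont_CayG hf hε
  have hp : 0 < Real.pi * ρ := mul_pos Real.pi_pos hρ
  refine ⟨δ * (Real.pi * ρ), by positivity, fun M hM a a' haa => ?_⟩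
  refine h _ _ (ref_symm hM (Aref_symm hZa hZb a)) (ref_symm hM (Aref_symm hZa hZb a'))
    fun i j => ?_
  rw [← Matrix.sub_apply, ref_centre_sub hta htb hρ]
  have h2 : |a' - a| / (Real.pi * ρ) ≤ δ := by
    rw [div_le_iff₀ hp, abs_sub_comm]; exact haa
  rcases i with i | i <;> rcases j with j | j
  · simpa using hδ.le
  · simpa using hδ.le
  · simpa using hδ.le
  · rw [Matrix.fromBlocks_apply₂₂, Matrix.smul_apply, smul_eq_mul, abs_mul, abs_div,
      abs_of_pos hp]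
    have h1 : |(1 : Matrix (Fin m) (Fin m) ℝ) i j| ≤ 1 := by
      by_cases hij : i = j
      · subst hij; simp
      · rw [Matrix.one_apply_ne hij]; simp
    calc |a' - a| / (Real.pi * ρ) * |(1 : Matrix (Fin m) (Fin m) ℝ) i j|
        ≤ δ * 1 := mul_le_mul h2 h1 (abs_nonneg _) hδ.le
      _ = δ := mul_one δ

/-- the full reference array of a perturbed matrix with the centring of the original one -/
theorem unif_cont_ref_mn {f : Matrix (Idx m) (Idx m) ℂ → ℝ} (hf : Continuous f)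
    {Ta Tb : Matrix (Fin 2) (Fin 2) ℝ} (hta : IsUnit Ta.det)
    (htb : IsUnit Tb.det) {ρ : ℝ} (hρ : 0 < ρ) {Za Zb : M2} (hZa : Zaᵀ = Za) (hZb : Zbᵀ = Zb)
    (P : Type*) [Fintype P] [DecidableEq P] {ε : ℝ} (hε : 0 < ε) :
    ∃ K0 : ℝ, 0 < K0 ∧ ∀ K : ℝ, K0 ≤ K → ∀ M : Matrix (Idx m) (Idx m) ℝ, Mᵀ = M →
      ∀ (n : ℕ), 0 < n → ∀ (H : Matrix (Fin n) (Fin n) ℝ), Hᵀ = H → ∀ (E : ℝ) (i : P → Fin n),
      Function.Injective i → ∀ W : Matrix P P ℝ, Wᵀ = W →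
      |f (CayG ((Tref Ta Tb ρ)⁻¹ * (M - Aref Za Zb (mn (H + emb i W) (zz E K n)).re) *
          ((Tref Ta Tb ρ)⁻¹)ᵀ)) -
        f (CayG ((Tref Ta Tb ρ)⁻¹ * (M - Aref Za Zb (mn H (zz E K n)).re) *
          ((Tref Ta Tb ρ)⁻¹)ᵀ))| ≤ ε := by
  obtain ⟨θ, hθ, h⟩ := unif_cont_ref hf hta htb hρ hZa hZb hε
  refine ⟨(Fintype.card P + 1) / θ, by positivity, fun K hK M hM n hn H hH E i hi W hW => ?_⟩
  have hK0 : 0 < K := lt_of_lt_of_le (by positivity) hK
  refine h M hM _ _ ((abs_re_mn_zz_emb_sub_le hn hH E hK0 hi hW).trans ?_)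
  rw [div_le_iff₀ hK0]
  rw [div_le_iff₀ hθ] at hK
  linarith

end Ref

end Crest.Agent.R166.PertMn424
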