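import Crest.Agent.R166.InvP6_348
import Crest.Agent.R166.InvDb_348
import Crest.Agent.R166.InvSw3_286
import Crest.Agent.R166.PertMn_424

/-!
Row 166, section 50 (helper348): expectations of the port values under the switching.
-/

set_option autoImplicit false
set_option linter.unusedSectionVars false

namespace Crest.Agent.R166.InvG348

open Matrix Complex Topology MeasureTheory Crest.ProbabilityR.RandomMatrix
open Crest.Agent.R166.InvB348 Crest.Agent.R166.InvC348 Crest.Agent.R166.InvD348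
open Crest.Agent.R166.InvP348
open Crest.Agent.R166.SwAvg798 (Wp)
open Crest.Agent.R166.Sw798 (VSw)
open Crest.Agent.R166.Inv988 (M2 Idx blk eAvg2 tAvg PV cAvg KeyCmp idxEquiv imPart)
open Crest.Agent.R166.MeasC780 (Good EGo)

/-- (S2b) -/
theorem offB {d : ℕ} (hd : 0 < d) (s E : ℝ) : OffB d s E := by
  intro η hη
  obtain ⟨C, hC⟩ := InvSw286.offdiag hd s E hη
  exact ⟨C, hC⟩

variable {n m : ℕ}

/-- (L3) the centring under the switching -/
lemma mn_sw {G : SimpleGraph (Fin n)} {x y u w : Fin n} (h : VSw G x y u w) (s : ℝ)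
    (ω : Fin n → ℝ) (E : ℝ) {K : ℝ} (hK : 0 < K) :
    ‖mn (Hm G s ω) (zz E K n) - mn (Hm (Sw798.sw G x y u w) s ω) (zz E K n)‖ ≤ 4 / K := by
  have hn : 0 < n := lt_of_le_of_lt (Nat.zero_le _) x.isLt
  have hinj : Function.Injective (![x, y, u, w] : Fin 4 → Fin n) := by
    have h1 := h.xy.ne
    have h2 := h.uw.ne
    have h3 := h.xu
    have h4 := h.xw
    have h5 := h.yu
    have h6 := h.yw
    intro i j hij
    fin_cases i <;> fin_cases j <;> simp_all
  rw [norm_sub_rev, SwAvg798.Hm_sw h]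
  have := PertMn424.norm_mn_zz_emb_sub_le hn (Stab269.Hm_symm G s ω) E hK hinj
    SwAvg798.Ksw_symm
  simpa using this

/-- the summand of `PV` -/
noncomputable def pvt (H : Matrix (Fin n) (Fin n) ℝ) (E ρ K δ η : ℝ) (Za Zb : M2)
    (Ta Tb : Matrix (Fin 2) (Fin 2) ℝ) (χ : M2 → M2 → ℝ) (f : Matrix (Idx m) (Idx m) ℂ → ℝ)
    (p q : Fin n × Fin n) : ℝ :=
  χ (blk H E η p) (blk H E η q) * tAvg H E ρ K δ Za Zb Ta Tb f p q

lemma PV_eq (G : SimpleGraph (Fin n)) (H : Matrix (Fin n) (Fin n) ℝ) (E ρ K δ η : ℝ) (Za Zb : M2)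
    (Ta Tb : Matrix (Fin 2) (Fin 2) ℝ) (χ : M2 → M2 → ℝ) (f : Matrix (Idx m) (Idx m) ℂ → ℝ) :
    PV G H E ρ K δ η Za Zb Ta Tb χ f = eAvg2 G (pvt H E ρ K δ η Za Zb Ta Tb χ f) := rfl

/-- interchange of the average over pairs of edges and the potential -/
lemma integral_eAvg2 {Ω : Type*} [MeasurableSpace Ω] {μ : Measure Ω} (G : SimpleGraph (Fin n))
    {Φ : Ω → Fin n × Fin n → Fin n × Fin n → ℝ} (h : ∀ p q, Integrable (fun ω => Φ ω p q) μ) :
    ∫ ω, eAvg2 G (Φ ω) ∂μ = eAvg2 G fun p q => ∫ ω, Φ ω p q ∂μ := by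
  unfold Inv988.eAvg2
  rw [integral_div]
  congr 1
  rw [integral_finsetSum _ fun p _ => integrable_finsetSum _ fun q _ => h p q]
  refine Finset.sum_congr rfl fun p _ => ?_
  rw [integral_finsetSum _ fun q _ => h p q]

lemma measurable_pvt (G : SimpleGraph (Fin n)) (s E ρ K δ η : ℝ) (Za Zb : M2)
    (Ta Tb : Matrix (Fin 2) (Fin 2) ℝ) {χ : M2 → M2 → ℝ}
    (hχ : Continuous fun b : M2 × M2 => χ b.1 b.2) {f : Matrix (Idx m) (Idx m) ℂ → ℝ}
    (hf : Continuous f) (p q : Fin n × Fin n) :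
    Measurable fun ω : Fin n → ℝ => pvt (Hm G s ω) E ρ K δ η Za Zb Ta Tb χ f p q :=
  (MeasC780.MM_comp2 (MeasC780.MM_blkη (MeasC780.MM_Hm G s) E η p)
    (MeasC780.MM_blkη (MeasC780.MM_Hm G s) E η q) hχ).mul
    (MeasC780.measurable_tAvg (MeasC780.MM_Hm G s) E ρ K δ Za Zb Ta Tb hf p q)

lemma abs_pvt_le {H : Matrix (Fin n) (Fin n) ℝ} (hH : Hᵀ = H) (E ρ K δ η : ℝ) {Za Zb : M2}
    (hZa : Za.transpose = Za) (hZb : Zb.transpose = Zb)
    (Ta Tb : Matrix (Fin 2) (Fin 2) ℝ) {χ : M2 → M2 → ℝ}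
    (hχ1 : ∀ b1 b2, |χ b1 b2| ≤ 1) {f : Matrix (Idx m) (Idx m) ℂ → ℝ}
    {B : ℝ} (hB : 0 ≤ B)
    (hfB : ∀ U : Matrix (Idx m) (Idx m) ℂ, (∀ i j, ‖U i j‖ ≤ 1) → |f U| ≤ B)
    (p q : Fin n × Fin n) :
    |pvt H E ρ K δ η Za Zb Ta Tb χ f p q| ≤ B := by
  unfold pvt
  rw [abs_mul]
  calc |χ (blk H E η p) (blk H E η q)| * |tAvg H E ρ K δ Za Zb Ta Tb f p q| ≤ 1 * B :=
        mul_le_mul (hχ1 _ _) (MeasC780.abs_tAvg_le hH _ _ _ _ hZa hZb _ _ _ _ hB hfB)
          (abs_nonneg _) zero_le_one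
    _ = B := one_mul _

lemma integrable_pvt (G : SimpleGraph (Fin n)) (s E ρ K δ η : ℝ) {Za Zb : M2}
    (hZa : Za.transpose = Za) (hZb : Zb.transpose = Zb)
    (Ta Tb : Matrix (Fin 2) (Fin 2) ℝ) {χ : M2 → M2 → ℝ}
    (hχ : Continuous fun b : M2 × M2 => χ b.1 b.2)
    (hχ1 : ∀ b1 b2, |χ b1 b2| ≤ 1) {f : Matrix (Idx m) (Idx m) ℂ → ℝ} (hf : Continuous f)
    (p q : Fin n × Fin n) :
    Integrable (fun ω : Fin n → ℝ => pvt (Hm G s ω) E ρ K δ η Za Zb Ta Tb χ f p q)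
      (potentialLaw n) := by
  obtain ⟨B, hB, hfB⟩ := MeasC780.exists_boundG hf
  exact Integrable.of_bound (measurable_pvt G s E ρ K δ η Za Zb Ta Tb hχ hf p q).aestronglyMeasurable
    B (Filter.Eventually.of_forall fun ω => by
      rw [Real.norm_eq_abs]
      exact abs_pvt_le (Stab269.Hm_symm G s ω) E ρ K δ η hZa hZb Ta Tb hχ1 hB hfB p q)

/-- expectation of `PV` -/
lemma EGo_PV {d : ℕ} (s E ρ K δ η : ℝ) {Za Zb : M2}
    (hZa : Za.transpose = Za) (hZb : Zb.transpose = Zb)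
    (Ta Tb : Matrix (Fin 2) (Fin 2) ℝ) {χ : M2 → M2 → ℝ}
    (hχ : Continuous fun b : M2 × M2 => χ b.1 b.2)
    (hχ1 : ∀ b1 b2, |χ b1 b2| ≤ 1) {f : Matrix (Idx m) (Idx m) ℂ → ℝ} (hf : Continuous f) :
    EGo n d (fun G ω => PV G (Hm G s ω) E ρ K δ η Za Zb Ta Tb χ f) =
      regularAverage n d fun G => eAvg2 G fun p q =>
        ∫ ω, pvt (Hm G s ω) E ρ K δ η Za Zb Ta Tb χ f p q ∂potentialLaw n := by
  unfold MeasC780.EGo
  congr 1
  funext G
  exact integral_eAvg2 G fun p q => integrable_pvt G s E ρ K δ η hZa hZb Ta Tb hχ hχ1 hf p q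

/-- product cutoff -/
def pc (φ ψ : M2 → ℝ) : M2 → M2 → ℝ := fun b1 b2 => φ b1 * ψ b2

lemma pc_cont {φ ψ : M2 → ℝ} (h1 : Continuous φ) (h2 : Continuous ψ) :
    Continuous fun b : M2 × M2 => pc φ ψ b.1 b.2 :=
  (h1.comp continuous_fst).mul (h2.comp continuous_snd)

lemma pc_abs {φ ψ : M2 → ℝ} (h1 : ∀ b, |φ b| ≤ 1) (h2 : ∀ b, |ψ b| ≤ 1) (b1 b2 : M2) :
    |pc φ ψ b1 b2| ≤ 1 := by
  unfold pc
  rw [abs_mul]
  exact mul_le_one₀ (h1 _) (abs_nonneg _) (h2 _)

open Classical in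
/-- **the port values under the switching, in mean** -/
theorem switch_PV {x1 x2 : ℂ} {ρ : ℝ} {Ta Tc Td : Matrix (Fin 2) (Fin 2) ℝ}
    (h : Frame x1 x2 x1 x2 ρ Ta Ta) (h' : Frame x1 x1 x2 x2 ρ Tc Td)
    {r : ℝ} {φa φc φd : M2 → ℝ} (ha : Cut x1 x2 r φa) (hc : Cut x1 x1 r φc)
    (hd : Cut x2 x2 r φd) {f : Matrix (Idx m) (Idx m) ℂ → ℝ} (hf : Continuous f)
    {ε : ℝ} (hε : 0 < ε) :
    ∃ K0 : ℝ, 0 < K0 ∧ ∀ K : ℝ, K0 ≤ K → ∀ η : ℝ, 0 < η → ∀ (d : ℕ), 0 < d → ∀ s E δ : ℝ, 0 < δ →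
      ∃ N : ℕ, ∀ n : ℕ, N ≤ n →
        |EGo n d (fun G ω => PV G (Hm G s ω) E ρ K δ η (Ze2 x1 x1) (Ze2 x2 x2) Tc Td
            (pc φc φd) f) -
          EGo n d (fun G ω => PV G (Hm G s ω) E ρ K δ η (Ze2 x1 x2) (Ze2 x1 x2) Ta Ta
            (pc φa φa) (fun U => f (kk m x1 x2 ρ Ta Tc Td * U * (kk m x1 x2 ρ Ta Tc Td)ᵀ)))| ≤
        ε := by
  obtain ⟨B, hB, hfB⟩ := MeasC780.exists_boundG hf
  set κ := kk m x1 x2 ρ Ta Tc Td with hκ
  have hfκ : Continuous fun U : Matrix (Idx m) (Idx m) ℂ => f (κ * U * κᵀ) :=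
    hf.comp ((continuous_const.matrix_mul continuous_id).matrix_mul continuous_const)
  obtain ⟨B1, hB1, hfB1⟩ := MeasC780.exists_boundG hfκ
  obtain ⟨r0, hr0, htA⟩ := tAvg_sw h h' hf (ε := ε / 8) (by positivity)
  have sa := (sieg_Ze2 h.h1 h.h2).1
  have sc := (sieg_Ze2 h.h1 h.h1).1
  have sd := (sieg_Ze2 h.h2 h.h2).1
  have cχ1 := pc_cont ha.cont ha.cont
  have cχ2 := pc_cont hc.cont hd.cont
  have aχ1 : ∀ b1 b2, |pc φa φa b1 b2| ≤ 1 := pc_abs ha.abs_le ha.abs_le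
  have aχ2 : ∀ b1 b2, |pc φc φd b1 b2| ≤ 1 := pc_abs hc.abs_le hd.abs_le
  refine ⟨4 / r0, by positivity, ?_⟩
  intro K hK η hη d hd0 s E δ hδ
  have hKp : 0 < K := lt_of_lt_of_le (by positivity) hK
  have hKr : 4 / K ≤ r0 := by
    rw [div_le_iff₀ hKp]
    rw [div_le_iff₀ hr0] at hK
    linarith
  obtain ⟨C, hC0, henv⟩ := env_sw ha hc hd hη (ε := ε / (8 * (B + 1))) (by positivity)
  obtain ⟨C1, hC1⟩ := offB hd0 s E η hη
  obtain ⟨N, hN⟩ := exists_nat_gt
    ((2 * (d + 2) * B + 2 * (d + 2) * B1 + B * C * |C1|) / (ε / 2))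
  refine ⟨max N 1, fun n hn => ?_⟩
  have hn1 : 0 < n := by omega
  have hn' : (0 : ℝ) < n := by exact_mod_cast hn1
  have hnN : (N : ℝ) ≤ n := by exact_mod_cast (le_max_left N 1).trans hn
  rw [EGo_PV s E ρ K δ η sc sd Tc Td cχ2 aχ2 hf, EGo_PV s E ρ K δ η sa sa Ta Ta cχ1 aχ1 hfκ]
  set F2 : SimpleGraph (Fin n) → Fin n × Fin n → Fin n × Fin n → ℝ := fun G p q =>
    ∫ ω, pvt (Hm G s ω) E ρ K δ η (Ze2 x1 x1) (Ze2 x2 x2) Tc Td (pc φc φd) f p q
      ∂potentialLaw n with hF2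
  set F1 : SimpleGraph (Fin n) → Fin n × Fin n → Fin n × Fin n → ℝ := fun G p q =>
    ∫ ω, pvt (Hm G s ω) E ρ K δ η (Ze2 x1 x2) (Ze2 x1 x2) Ta Ta (pc φa φa)
      (fun U => f (κ * U * κᵀ)) p q ∂potentialLaw n with hF1
  have bF2 : ∀ G p q, |F2 G p q| ≤ B := by
    intro G p q
    have := norm_integral_le_of_norm_le_const (μ := potentialLaw n)
      (f := fun ω => pvt (Hm G s ω) E ρ K δ η (Ze2 x1 x1) (Ze2 x2 x2) Tc Td (pc φc φd) f p q)
      (C := B) (Filter.Eventually.of_forall fun ω => by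
        rw [Real.norm_eq_abs]
        exact abs_pvt_le (Stab269.Hm_symm G s ω) E ρ K δ η sc sd Tc Td aχ2 hB hfB p q)
    simpa [Real.norm_eq_abs] using this
  have bF1 : ∀ G p q, |F1 G p q| ≤ B1 := by
    intro G p q
    have := norm_integral_le_of_norm_le_const (μ := potentialLaw n)
      (f := fun ω => pvt (Hm G s ω) E ρ K δ η (Ze2 x1 x2) (Ze2 x1 x2) Ta Ta (pc φa φa)
        (fun U => f (κ * U * κᵀ)) p q)
      (C := B1) (Filter.Eventually.of_forall fun ω => by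
        rw [Real.norm_eq_abs]
        exact abs_pvt_le (Stab269.Hm_symm G s ω) E ρ K δ η sa sa Ta Ta aχ1 hB1 hfB1 p q)
    simpa [Real.norm_eq_abs] using this
  have s1 := SwAvg798.switch_avg_valid (d := d) hn1 hd0 F2 bF2
  have s2 := SwAvg798.avg_valid (d := d) hn1 hd0 F1 hB1 (fun G p q _ => bF1 G p q)
  -- the middle comparison
  have hmid : ∀ (G : SimpleGraph (Fin n)) (p q : Fin n × Fin n), VSw G p.1 p.2 q.1 q.2 →
      |F2 (Sw798.sw G p.1 p.2 q.1 q.2) (p.1, q.1) (p.2, q.2) - F1 G p q| ≤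
      (ε / 4) + B * C * ∫ ω, offsq ((Res789.Res (Hm G s ω - Wp p - Wp q) (ze E η)).submatrix
        ![p.1, p.2, q.1, q.2] ![p.1, p.2, q.1, q.2]) ∂potentialLaw n := by
    intro G p q hv
    have hoi : Integrable (fun ω : Fin n → ℝ => offsq ((Res789.Res (Hm G s ω - Wp p - Wp q)
        (ze E η)).submatrix ![p.1, p.2, q.1, q.2] ![p.1, p.2, q.1, q.2])) (potentialLaw n) :=
      Integrable.of_bound (measurable_offsq G s E η p q).aestronglyMeasurable (16 * (1 / η) ^ 2)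
        (Filter.Eventually.of_forall fun ω => by
          rw [Real.norm_eq_abs, abs_of_nonneg (offsq_nonneg _)]
          exact offsq_res_le (Stab269.Hm_symm G s ω) p q E hη)
    have i2 := integrable_pvt (Sw798.sw G p.1 p.2 q.1 q.2) s E ρ K δ η sc sd Tc Td cχ2 aχ2 hf
      (p.1, q.1) (p.2, q.2)
    have i1 := integrable_pvt G s E ρ K δ η sa sa Ta Ta cχ1 aχ1 hfκ p q
    have hpt : ∀ ω : Fin n → ℝ,
        |pvt (Hm (Sw798.sw G p.1 p.2 q.1 q.2) s ω) E ρ K δ η (Ze2 x1 x1) (Ze2 x2 x2) Tc Td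
            (pc φc φd) f (p.1, q.1) (p.2, q.2) -
          pvt (Hm G s ω) E ρ K δ η (Ze2 x1 x2) (Ze2 x1 x2) Ta Ta (pc φa φa)
            (fun U => f (κ * U * κᵀ)) p q| ≤
        ε / 4 + B * C * offsq ((Res789.Res (Hm G s ω - Wp p - Wp q) (ze E η)).submatrix
          ![p.1, p.2, q.1, q.2] ![p.1, p.2, q.1, q.2]) := by
      intro ω
      have e1 := henv n G p q hv s ω E
      have e2 := htA n G p q hv s ω E K δ hδ ((mn_sw hv s ω E hKp).trans hKr)
      have e3 : |tAvg (Hm (Sw798.sw G p.1 p.2 q.1 q.2) s ω) E ρ K δ (Ze2 x1 x1) (Ze2 x2 x2) Tc Td f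
          (p.1, q.1) (p.2, q.2)| ≤ B :=
        MeasC780.abs_tAvg_le (Stab269.Hm_symm _ s ω) _ _ _ _ sc sd _ _ _ _ hB hfB
      have e4 : |pc φa φa (blk (Hm G s ω) E η p) (blk (Hm G s ω) E η q)| ≤ 1 := aχ1 _ _
      set X2 := φc (blk (Hm (Sw798.sw G p.1 p.2 q.1 q.2) s ω) E η (p.1, q.1)) *
          φd (blk (Hm (Sw798.sw G p.1 p.2 q.1 q.2) s ω) E η (p.2, q.2)) with hX2
      set X1 := φa (blk (Hm G s ω) E η p) * φa (blk (Hm G s ω) E η q) with hX1
      set O := offsq ((Res789.Res (Hm G s ω - Wp p - Wp q) (ze E η)).submatrix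
          ![p.1, p.2, q.1, q.2] ![p.1, p.2, q.1, q.2]) with hO
      have hO0 : 0 ≤ O := offsq_nonneg _
      set t2 := tAvg (Hm (Sw798.sw G p.1 p.2 q.1 q.2) s ω) E ρ K δ (Ze2 x1 x1) (Ze2 x2 x2) Tc Td f
          (p.1, q.1) (p.2, q.2) with ht2
      set t1 := tAvg (Hm G s ω) E ρ K δ (Ze2 x1 x2) (Ze2 x1 x2) Ta Ta
          (fun U => f (κ * U * κᵀ)) p q with ht1
      have e4' : |X1| ≤ 1 := e4
      have hgoal : |X2 * t2 - X1 * t1| ≤ ε / 4 + B * C * O := by
        have e5 : X2 * t2 - X1 * t1 = (X2 - X1) * t2 + X1 * (t2 - t1) := by ring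
        rw [e5]
        refine (abs_add_le _ _).trans ?_
        rw [abs_mul, abs_mul]
        have e6 : |X2 - X1| * |t2| ≤ (ε / (8 * (B + 1)) + C * O) * B :=
          mul_le_mul e1 e3 (abs_nonneg _) (by positivity)
        have e7 : |X1| * |t2 - t1| ≤ 1 * (ε / 8) :=
          mul_le_mul e4' e2 (abs_nonneg _) zero_le_one
        have e8 : ε / (8 * (B + 1)) * B ≤ ε / 8 := by
          rw [div_mul_eq_mul_div, div_le_div_iff₀ (by positivity) (by norm_num)]
          nlinarith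
        have e9 : (ε / (8 * (B + 1)) + C * O) * B = ε / (8 * (B + 1)) * B + B * C * O := by ring
        rw [e9] at e6
        linarith
      exact hgoal
    simp only [hF2, hF1]
    rw [← integral_sub i2 i1]
    refine (abs_integral_le_integral_abs).trans ?_
    refine (integral_mono (i2.sub i1).abs ((integrable_const _).add (hoi.const_mul _)) hpt).trans
      (le_of_eq ?_)
    simp only [Pi.add_apply]
    rw [integral_add (integrable_const _) (hoi.const_mul _), integral_const_mul]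
    simp
  have hmidA : |regularAverage n d (fun G => eAvg2 G (fun p q => if VSw G p.1 p.2 q.1 q.2 then
        F2 (Sw798.sw G p.1 p.2 q.1 q.2) (p.1, q.1) (p.2, q.2) else 0)) -
      regularAverage n d (fun G => eAvg2 G (fun p q => if VSw G p.1 p.2 q.1 q.2 then
        F1 G p q else 0))| ≤ ε / 4 + B * C * (C1 / n) := by
    rw [← MeasC780.regularAverage_sub]
    have hb : ∀ G : SimpleGraph (Fin n),
        |eAvg2 G (fun p q => if VSw G p.1 p.2 q.1 q.2 then
          F2 (Sw798.sw G p.1 p.2 q.1 q.2) (p.1, q.1) (p.2, q.2) else 0) -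
        eAvg2 G (fun p q => if VSw G p.1 p.2 q.1 q.2 then F1 G p q else 0)| ≤
        ε / 4 + B * C * ∫ ω, offA G s ω E η ∂potentialLaw n := by
      intro G
      have hoA : ∫ ω, offA G s ω E η ∂potentialLaw n = eAvg2 G (fun p q =>
          if VSw G p.1 p.2 q.1 q.2 then ∫ ω, offsq ((Res789.Res (Hm G s ω - Wp p - Wp q)
            (ze E η)).submatrix ![p.1, p.2, q.1, q.2] ![p.1, p.2, q.1, q.2]) ∂potentialLaw n
          else 0) := by
        unfold offA
        rw [integral_eAvg2]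
        · congr 1
          funext p q
          split_ifs
          · rfl
          · simp
        · intro p q
          split_ifs
          · exact Integrable.of_bound (measurable_offsq G s E η p q).aestronglyMeasurable
              (16 * (1 / η) ^ 2) (Filter.Eventually.of_forall fun ω => by
                rw [Real.norm_eq_abs, abs_of_nonneg (offsq_nonneg _)]
                exact offsq_res_le (Stab269.Hm_symm G s ω) p q E hη)
          · simp
      rw [hoA]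
      have e0 : eAvg2 G (fun p q => if VSw G p.1 p.2 q.1 q.2 then
          F2 (Sw798.sw G p.1 p.2 q.1 q.2) (p.1, q.1) (p.2, q.2) else 0) -
        eAvg2 G (fun p q => if VSw G p.1 p.2 q.1 q.2 then F1 G p q else 0) =
        eAvg2 G (fun p q => (if VSw G p.1 p.2 q.1 q.2 then
          F2 (Sw798.sw G p.1 p.2 q.1 q.2) (p.1, q.1) (p.2, q.2) else 0) -
          (if VSw G p.1 p.2 q.1 q.2 then F1 G p q else 0)) := by
        unfold Inv988.eAvg2
        simp only [Finset.sum_sub_distrib, sub_div]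
      rw [e0]
      have e1 : |eAvg2 G (fun p q => (if VSw G p.1 p.2 q.1 q.2 then
          F2 (Sw798.sw G p.1 p.2 q.1 q.2) (p.1, q.1) (p.2, q.2) else 0) -
          (if VSw G p.1 p.2 q.1 q.2 then F1 G p q else 0))| ≤
          eAvg2 G (fun p q => |(if VSw G p.1 p.2 q.1 q.2 then
          F2 (Sw798.sw G p.1 p.2 q.1 q.2) (p.1, q.1) (p.2, q.2) else 0) -
          (if VSw G p.1 p.2 q.1 q.2 then F1 G p q else 0)|) := by
        unfold Inv988.eAvg2
        rw [abs_div, abs_of_nonneg (by positivity : (0 : ℝ) ≤ ((darts G).card : ℝ) ^ 2)]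
        refine div_le_div_of_nonneg_right ?_ (by positivity)
        exact (Finset.abs_sum_le_sum_abs _ _).trans
          (Finset.sum_le_sum fun p _ => Finset.abs_sum_le_sum_abs _ _)
      refine e1.trans ?_
      have e2 : eAvg2 G (fun p q => |(if VSw G p.1 p.2 q.1 q.2 then
          F2 (Sw798.sw G p.1 p.2 q.1 q.2) (p.1, q.1) (p.2, q.2) else 0) -
          (if VSw G p.1 p.2 q.1 q.2 then F1 G p q else 0)|) ≤
          eAvg2 G (fun p q => ε / 4 + B * C * (if VSw G p.1 p.2 q.1 q.2 then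
            ∫ ω, offsq ((Res789.Res (Hm G s ω - Wp p - Wp q)
            (ze E η)).submatrix ![p.1, p.2, q.1, q.2] ![p.1, p.2, q.1, q.2]) ∂potentialLaw n
          else 0)) := by
        refine MeasC780.eAvg2_mono G fun p q => ?_
        by_cases hv : VSw G p.1 p.2 q.1 q.2
        · simp only [if_pos hv]
          exact hmid G p q hv
        · simp only [if_neg hv]
          simp only [sub_zero, abs_zero, mul_zero, add_zero]
          positivity
      refine e2.trans ?_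
      rw [eAvg2_add, eAvg2_const_mul]
      have e3 : eAvg2 G (fun _ _ => ε / 4) ≤ ε / 4 :=
        (le_abs_self _).trans (MeasC780.abs_eAvg2_le G (by positivity) fun _ _ => by
          rw [abs_of_nonneg (by positivity)])
      linarith
    have hb2 : |regularAverage n d (fun G => eAvg2 G (fun p q => if VSw G p.1 p.2 q.1 q.2 then
          F2 (Sw798.sw G p.1 p.2 q.1 q.2) (p.1, q.1) (p.2, q.2) else 0) -
        eAvg2 G (fun p q => if VSw G p.1 p.2 q.1 q.2 then F1 G p q else 0))| ≤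
        regularAverage n d fun G => ε / 4 + B * C * ∫ ω, offA G s ω E η ∂potentialLaw n := by
      unfold regularAverage
      rw [abs_div, abs_of_nonneg (Nat.cast_nonneg _ : (0 : ℝ) ≤ ((regularGraphs n d).card : ℝ))]
      refine div_le_div_of_nonneg_right ?_ (Nat.cast_nonneg _)
      exact (Finset.abs_sum_le_sum_abs _ _).trans (Finset.sum_le_sum fun G _ => hb G)
    refine hb2.trans ?_
    rw [MeasC780.regularAverage_add, MeasC780.regularAverage_const_mul]
    have e1 : regularAverage n d (fun _ => ε / 4) ≤ ε / 4 :=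
      (le_abs_self _).trans (MeasC780.abs_regularAverage_le (by positivity) fun _ => by
        rw [abs_of_nonneg (by positivity)])
    have e2 := hC1 n hn1
    have e3 : B * C * regularAverage n d (fun G => ∫ ω, offA G s ω E η ∂potentialLaw n) ≤
        B * C * (C1 / n) := by gcongr
    linarith
  have hfin : 2 * (d + 2) * B / n + 2 * (d + 2) * B1 / n + B * C * (|C1| / n) ≤ ε / 2 := by
    have e1 : 2 * (d + 2) * B / n + 2 * (d + 2) * B1 / n + B * C * (|C1| / n) =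
        (2 * (d + 2) * B + 2 * (d + 2) * B1 + B * C * |C1|) / n := by ring
    rw [e1, div_le_iff₀ hn']
    rw [div_lt_iff₀ (by positivity)] at hN
    have : (N : ℝ) * (ε / 2) ≤ n * (ε / 2) := by gcongr
    linarith
  have hC1le : B * C * (C1 / n) ≤ B * C * (|C1| / n) := by
    gcongr
    exact le_abs_self _
  rw [abs_sub_comm] at s2
  have t1 := abs_sub_le (regularAverage n d fun G => eAvg2 G (F2 G))
    (regularAverage n d (fun G => eAvg2 G (fun p q => if VSw G p.1 p.2 q.1 q.2 then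
        F2 (Sw798.sw G p.1 p.2 q.1 q.2) (p.1, q.1) (p.2, q.2) else 0)))
    (regularAverage n d fun G => eAvg2 G (F1 G))
  have t2 := abs_sub_le
    (regularAverage n d (fun G => eAvg2 G (fun p q => if VSw G p.1 p.2 q.1 q.2 then
        F2 (Sw798.sw G p.1 p.2 q.1 q.2) (p.1, q.1) (p.2, q.2) else 0)))
    (regularAverage n d (fun G => eAvg2 G (fun p q => if VSw G p.1 p.2 q.1 q.2 then
        F1 G p q else 0)))
    (regularAverage n d fun G => eAvg2 G (F1 G))
  have hgoal : |(regularAverage n d fun G => eAvg2 G (F2 G)) -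
      regularAverage n d fun G => eAvg2 G (F1 G)| ≤ ε := by linarith
  exact hgoal

end Crest.Agent.R166.InvG348
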