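import Crest.Agent.R166.InvG1_348

/-!
Row 166, section 50 (helper348): asymptotic invariance under the switching unitary.
-/

set_option autoImplicit false
set_option linter.unusedSectionVars false

namespace Crest.Agent.R166.InvG348

open Matrix Complex Topology MeasureTheory Crest.ProbabilityR.RandomMatrix
open Crest.Agent.R166.InvB348 Crest.Agent.R166.InvC348 Crest.Agent.R166.InvD348
open Crest.Agent.R166.InvP348
open Crest.Agent.R166.SwAvg798 (Wp)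
open Crest.Agent.R166.Sw798 (VSw)
open Crest.Agent.R166.Inv988 (M2 Idx blk eAvg2 tAvg PV cAvg KeyCmp idxEquiv imPart)
open Crest.Agent.R166.MeasC780 (Good EGo)

variable {n : ℕ}

lemma cAvg_pc (G : SimpleGraph (Fin n)) (H : Matrix (Fin n) (Fin n) ℝ) (E η : ℝ) (φ ψ : M2 → ℝ) :
    cAvg G H E η (pc φ ψ) = eAvg G (fun u w => φ (Blk (Res H (ze E η)) u w)) *
      eAvg G (fun u w => ψ (Blk (Res H (ze E η)) u w)) := by
  unfold Inv988.cAvg Inv988.eAvg2 eAvg pc Inv988.blk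
  rw [div_mul_div_comm, Finset.sum_mul_sum, sq]

lemma abs_eAvg_cut (G : SimpleGraph (Fin n)) (H : Matrix (Fin n) (Fin n) ℝ) (E η : ℝ)
    {φ : M2 → ℝ} (h : ∀ b, |φ b| ≤ 1) :
    |eAvg G (fun u w => φ (Blk (Res H (ze E η)) u w))| ≤ 1 :=
  MeasC780.abs_eAvg_le G zero_le_one fun _ _ => h _

/-- concentration of the cutoff averages -/
lemma conc {d : ℕ} {s E : ℝ} (hEnv : EnvDet d s E) {φ ψ : M2 → ℝ} (c1 : Continuous φ)
    (c2 : Continuous ψ) (s1 : HasCompactSupport φ) (s2 : HasCompactSupport ψ)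
    (b1 : ∀ b, |φ b| ≤ 1) (b2 : ∀ b, |ψ b| ≤ 1) {η : ℝ} (hη : 0 < η) {ε : ℝ} (hε : 0 < ε) :
    ∃ N : ℕ, ∀ n : ℕ, N ≤ n → (regularGraphs n d).Nonempty →
      Whp n d ε fun G ω => |cAvg G (Hm G s ω) E η (pc φ ψ) -
        EGo n d (fun G ω => cAvg G (Hm G s ω) E η (pc φ ψ))| ≤ ε := by
  obtain ⟨A, hA⟩ := hEnv φ c1 s1 η hη
  obtain ⟨C, hC⟩ := hEnv ψ c2 s2 η hη
  set c0 := 2 * (1 + |A|) + 2 * (1 + |A * C|) + 2 with hc0
  have hc0p : 0 < c0 := by positivity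
  set ε' := ε / c0 with hε'
  have hε'p : 0 < ε' := by positivity
  have hε'e : c0 * ε' = ε := by rw [hε']; field_simp
  obtain ⟨N1, hN1⟩ := hA ε' hε'p
  obtain ⟨N2, hN2⟩ := hC ε' hε'p
  refine ⟨max N1 N2, fun n hn hne => ?_⟩
  have w1 := hN1 n (by omega) hne
  have w2 := hN2 n (by omega) hne
  have w := whp_and hε'p.le hε'p.le w1 w2
  have w' : Whp n d (ε' + ε') fun G ω =>
      |cAvg G (Hm G s ω) E η (pc φ ψ) - A * C| ≤ (1 + |A|) * ε' := by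
    refine whp_mono w fun G ω hG => ?_
    rw [cAvg_pc]
    set a := eAvg G (fun u w => φ (Blk (Res (Hm G s ω) (ze E η)) u w)) with ha
    set b := eAvg G (fun u w => ψ (Blk (Res (Hm G s ω) (ze E η)) u w)) with hb
    have e : a * b - A * C = (a - A) * b + A * (b - C) := by ring
    rw [e]
    refine (abs_add_le _ _).trans ?_
    rw [abs_mul, abs_mul]
    have hb1 : |b| ≤ 1 := abs_eAvg_cut G _ E η b2
    have h1 : |a - A| * |b| ≤ ε' * 1 := mul_le_mul hG.1 hb1 (abs_nonneg _) hε'p.le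
    have h2 : |A| * |b - C| ≤ |A| * ε' := mul_le_mul_of_nonneg_left hG.2 (abs_nonneg _)
    linarith
  have g1 : Good n 1 fun G ω => cAvg G (Hm G s ω) E η (pc φ ψ) :=
    MeasC780.good_cAvg s E η (pc_cont c1 c2) (pc_abs b1 b2)
  have g2 : Good n |A * C| fun _ _ => A * C := ⟨fun _ => measurable_const, fun _ _ => le_rfl⟩
  have e1 := MeasC780.abs_EGo_sub_le_of_whp (by positivity) (by positivity) g1 g2 hne w'
  rw [MeasC780.EGo_const hne] at e1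
  have hεε : ε' + ε' ≤ ε := by
    have : 0 ≤ |A| := abs_nonneg _
    have : 0 ≤ |A * C| := abs_nonneg _
    nlinarith
  refine whp_mono_eps (whp_mono w' fun G ω hG => ?_) hεε
  have t := abs_sub_le (cAvg G (Hm G s ω) E η (pc φ ψ)) (A * C)
    (EGo n d (fun G ω => cAvg G (Hm G s ω) E η (pc φ ψ)))
  rw [abs_sub_comm (A * C)] at t
  have : (1 + |A|) * ε' + ((1 + |A|) * ε' + (1 + |A * C|) * (ε' + ε')) ≤ ε := by
    rw [← hε'e, hc0]
    nlinarith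
  linarith

lemma tAvg_one {m : ℕ} (H : Matrix (Fin n) (Fin n) ℝ) (E ρ K : ℝ) {δ : ℝ} (hδ : 0 < δ)
    (Za Zb : M2) (Ta Tb : Matrix (Fin 2) (Fin 2) ℝ) (p q : Fin n × Fin n) :
    tAvg (m := m) H E ρ K δ Za Zb Ta Tb (fun _ => 1) p q = 1 := by
  unfold Inv988.tAvg
  simp
  field_simp

lemma PV_one {m : ℕ} (G : SimpleGraph (Fin n)) (H : Matrix (Fin n) (Fin n) ℝ) (E ρ K : ℝ)
    {δ : ℝ} (hδ : 0 < δ) (η : ℝ) (Za Zb : M2) (Ta Tb : Matrix (Fin 2) (Fin 2) ℝ)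
    (χ : M2 → M2 → ℝ) :
    PV (m := m) G H E ρ K δ η Za Zb Ta Tb χ (fun _ => 1) = cAvg G H E η χ := by
  unfold Inv988.PV Inv988.cAvg
  congr 1
  funext p q
  rw [tAvg_one _ _ _ _ hδ, mul_one]

/-- final arithmetic -/
lemma arith {α γ P1 P2 T1 T2 ε1 t B : ℝ} (hα0 : 0 ≤ α) (hε1 : 0 ≤ ε1) (ht : 0 ≤ t)
    (hε11 : ε1 ≤ 1)
    (hT2 : |T2| ≤ B)
    (h1 : |P1 - α * T1| ≤ ε1 * (α + t) + t + t * B + 2 * B * (2 * t))
    (h2 : |P2 - γ * T2| ≤ ε1 * (γ + t) + t + t * B + 2 * B * (2 * t))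
    (h3 : |P2 - P1| ≤ t) (h4 : |γ - α| ≤ t) :
    α * |T1 - T2| ≤ 2 * ε1 * α + t * (6 + 11 * B) := by
  have hB : 0 ≤ B := (abs_nonneg _).trans hT2
  have e : α * (T1 - T2) = -(P1 - α * T1) + (P2 - γ * T2) - (P2 - P1) + (γ - α) * T2 := by ring
  have e2 : α * |T1 - T2| = |α * (T1 - T2)| := by rw [abs_mul, abs_of_nonneg hα0]
  rw [e2, e]
  have h5 : |(γ - α) * T2| ≤ t * B := by
    rw [abs_mul]
    exact mul_le_mul h4 hT2 (abs_nonneg _) ht
  have h6 : γ ≤ α + t := by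
    have := (abs_le.1 h4).2
    linarith
  have h7 : ε1 * γ ≤ ε1 * α + ε1 * t := by nlinarith
  have h8 : ε1 * t ≤ t := by nlinarith
  calc |-(P1 - α * T1) + (P2 - γ * T2) - (P2 - P1) + (γ - α) * T2|
      ≤ |P1 - α * T1| + |P2 - γ * T2| + |P2 - P1| + |(γ - α) * T2| := by
        have a1 := abs_add_le (-(P1 - α * T1) + (P2 - γ * T2) - (P2 - P1)) ((γ - α) * T2)
        have a2 := abs_sub (-(P1 - α * T1) + (P2 - γ * T2)) (P2 - P1)
        have a3 := abs_add_le (-(P1 - α * T1)) (P2 - γ * T2)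
        rw [abs_neg] at a3
        linarith
    _ ≤ _ := by nlinarith

lemma sub_cont {k : ℕ} {f : Matrix (Idx k) (Idx k) ℂ → ℝ} (hf : Continuous f) :
    Continuous fun U : Matrix (Fin (4 + k)) (Fin (4 + k)) ℂ =>
      f (U.submatrix (idxEquiv k) (idxEquiv k)) :=
  hf.comp (continuous_id.matrix_submatrix _ _)

set_option maxHeartbeats 1600000 in
/-- **asymptotic invariance under the switching unitary** -/
theorem kk_inv {d : ℕ} (hd : 0 < d) {s E ρ : ℝ} (hEnv : EnvDet d s E) (hKey : KeyCmp d s E ρ)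
    {x1 x2 : ℂ} (hsup : ∀ χ : M2 → ℝ, Continuous χ → HasCompactSupport χ →
      (∀ b, 0 ≤ χ b) → 0 < χ (Ze2 x1 x2) → PosE d s E χ)
    {Ta Tc Td : Matrix (Fin 2) (Fin 2) ℝ}
    (h : Frame x1 x2 x1 x2 ρ Ta Ta) (h' : Frame x1 x1 x2 x2 ρ Tc Td) (k : ℕ)
    {f : Matrix (Idx k) (Idx k) ℂ → ℝ} (hf : Continuous f) {δ : ℝ} (hδ : 0 < δ) {ε : ℝ}
    (hε : 0 < ε) :
    ∃ K0 : ℝ, 0 < K0 ∧ ∀ K : ℝ, K0 ≤ K → ∃ N : ℕ, ∀ n : ℕ, N ≤ n →
      (regularGraphs n d).Nonempty →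
      |EG n d s (fun H => TestVal H E ρ K δ (4 + k) fun U =>
          f (kk k x1 x2 ρ Ta Tc Td * U.submatrix (idxEquiv k) (idxEquiv k) *
            (kk k x1 x2 ρ Ta Tc Td)ᵀ)) -
        EG n d s (fun H => TestVal H E ρ K δ (4 + k) fun U =>
          f (U.submatrix (idxEquiv k) (idxEquiv k)))| ≤ ε := by
  set κ := kk k x1 x2 ρ Ta Tc Td with hκ
  set f1 : Matrix (Idx k) (Idx k) ℂ → ℝ := fun U => f (κ * U * κᵀ) with hf1def
  have hf1 : Continuous f1 :=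
    hf.comp ((continuous_const.matrix_mul continuous_id).matrix_mul continuous_const)
  obtain ⟨B0, hB0, hfB0⟩ := MeasC780.exists_boundG hf
  obtain ⟨B1, hB1, hfB1⟩ := MeasC780.exists_boundG hf1
  set B := max B0 B1 with hBdef
  have hB : 0 ≤ B := hB0.trans (le_max_left _ _)
  have hfB : ∀ U : Matrix (Idx k) (Idx k) ℂ, (∀ i j, ‖U i j‖ ≤ 1) → |f U| ≤ B :=
    fun U hU => (hfB0 U hU).trans (le_max_left _ _)
  have hf1B : ∀ U : Matrix (Idx k) (Idx k) ℂ, (∀ i j, ‖U i j‖ ≤ 1) → |f1 U| ≤ B :=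
    fun U hU => (hfB1 U hU).trans (le_max_right _ _)
  have sa := (sieg_Ze2 h.h1 h.h2).1
  have sc := (sieg_Ze2 h.h1 h.h1).1
  have sd := (sieg_Ze2 h.h2 h.h2).1
  set ε1 := min (ε / 4) 1 with hε1def
  have hε1 : 0 < ε1 := by positivity
  have hε11 : ε1 ≤ 1 := min_le_right _ _
  have hε1ε : ε1 ≤ ε / 4 := min_le_left _ _
  obtain ⟨r1, hr1, hk1⟩ := hKey k (Ze2 x1 x2) (Ze2 x1 x2) Ta Ta sa sa h.hTa h.hTa h.ua h.ua
    f1 hf1 δ hδ ε1 hε1
  obtain ⟨r2, hr2, hk2⟩ := hKey k (Ze2 x1 x1) (Ze2 x2 x2) Tc Td sc sd h'.hTa h'.hTb h'.ua h'.ub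
    f hf δ hδ ε1 hε1
  set R := min r1 r2 with hRdef
  have hR : 0 < R := by positivity
  obtain ⟨ra, hra, hca⟩ := exists_cut h.h1 h.h2 hR
  obtain ⟨rc, hrc, hcc⟩ := exists_cut h.h1 h.h1 hR
  obtain ⟨rd, hrd, hcd⟩ := exists_cut h.h2 h.h2 hR
  set r := min ra (min rc rd) with hrdef
  have hr : 0 < r := by positivity
  obtain ⟨φa, a1, a2, a3, a4, a5⟩ := hca r hr (min_le_left _ _)
  obtain ⟨φc, c1, c2, c3, c4, c5⟩ := hcc r hr ((min_le_right _ _).trans (min_le_left _ _))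
  obtain ⟨φd, d1, d2, d3, d4, d5⟩ := hcd r hr ((min_le_right _ _).trans (min_le_right _ _))
  have Ca : Cut x1 x2 r φa := ⟨a1, a2, fun b => (a3 b).1, fun b => (a3 b).2, a5⟩
  have Cc : Cut x1 x1 r φc := ⟨c1, c2, fun b => (c3 b).1, fun b => (c3 b).2, c5⟩
  have Cd : Cut x2 x2 r φd := ⟨d1, d2, fun b => (d3 b).1, fun b => (d3 b).2, d5⟩
  have cχ1 := pc_cont a1 a1
  have cχ2 := pc_cont c1 d1
  have aχ1 : ∀ b1 b2, |pc φa φa b1 b2| ≤ 1 := pc_abs Ca.abs_le Ca.abs_le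
  have aχ2 : ∀ b1 b2, |pc φc φd b1 b2| ≤ 1 := pc_abs Cc.abs_le Cd.abs_le
  have nχ1 : ∀ b1 b2, 0 ≤ pc φa φa b1 b2 ∧ pc φa φa b1 b2 ≤ 1 := fun b1 b2 =>
    ⟨mul_nonneg (Ca.nn _) (Ca.nn _), (le_abs_self _).trans (aχ1 b1 b2)⟩
  have nχ2 : ∀ b1 b2, 0 ≤ pc φc φd b1 b2 ∧ pc φc φd b1 b2 ≤ 1 := fun b1 b2 =>
    ⟨mul_nonneg (Cc.nn _) (Cd.nn _), (le_abs_self _).trans (aχ2 b1 b2)⟩
  have sχ1 : ∀ b1 b2, pc φa φa b1 b2 ≠ 0 →
      bnorm (b1 - Ze2 x1 x2) ≤ r1 ∧ bnorm (b2 - Ze2 x1 x2) ≤ r1 := fun b1 b2 hb =>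
    ⟨(a4 _ (left_ne_zero_of_mul hb)).trans (min_le_left _ _),
      (a4 _ (right_ne_zero_of_mul hb)).trans (min_le_left _ _)⟩
  have sχ2 : ∀ b1 b2, pc φc φd b1 b2 ≠ 0 →
      bnorm (b1 - Ze2 x1 x1) ≤ r2 ∧ bnorm (b2 - Ze2 x2 x2) ≤ r2 := fun b1 b2 hb =>
    ⟨(c4 _ (left_ne_zero_of_mul hb)).trans (min_le_right _ _),
      (d4 _ (right_ne_zero_of_mul hb)).trans (min_le_right _ _)⟩
  -- positivity of the environment
  have hpos : 0 < φa (Ze2 x1 x2) := by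
    rw [Ca.eval h.h1 h.h2]
    simp [bmp_zero]
  obtain ⟨a0, ha0, ηP, hηP, hPos⟩ := hsup φa a1 a2 (fun b => (a3 b).1) hpos
  set α0 := a0 ^ 2 / 2 with hα0def
  have hα0 : 0 < α0 := by positivity
  set t := min (min (α0 * (ε / 2) / (6 + 11 * B)) (1 / 4)) α0 with htdef
  have ht : 0 < t := by positivity
  have ht1 : t ≤ α0 * (ε / 2) / (6 + 11 * B) := (min_le_left _ _).trans (min_le_left _ _)
  have ht2 : t ≤ 1 / 4 := (min_le_left _ _).trans (min_le_right _ _)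
  have ht3 : t ≤ α0 := min_le_right _ _
  obtain ⟨K1, hK1, hk1⟩ := hk1 (pc φa φa) cχ1 nχ1 sχ1 t ht
  obtain ⟨K2, hK2, hk2⟩ := hk2 (pc φc φd) cχ2 nχ2 sχ2 t ht
  obtain ⟨K3, hK3, hk3⟩ := switch_PV (m := k) h h' Ca Cc Cd hf ht
  obtain ⟨K4, hK4, hk4⟩ := switch_PV (m := k) h h' Ca Cc Cd
    (f := fun _ => (1 : ℝ)) continuous_const ht
  refine ⟨max (max K1 K2) (max K3 K4), by positivity, fun K hK => ?_⟩
  have hKK1 : K1 ≤ K := ((le_max_left _ _).trans (le_max_left _ _)).trans hK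
  have hKK2 : K2 ≤ K := ((le_max_right _ _).trans (le_max_left _ _)).trans hK
  have hKK3 : K3 ≤ K := ((le_max_left _ _).trans (le_max_right _ _)).trans hK
  have hKK4 : K4 ≤ K := ((le_max_right _ _).trans (le_max_right _ _)).trans hK
  obtain ⟨η1, hη1, hk1⟩ := hk1 K hKK1
  obtain ⟨η2, hη2, hk2⟩ := hk2 K hKK2
  set η := min ηP (min η1 η2) with hηdef
  have hη : 0 < η := by positivity
  have hηP' : η ≤ ηP := min_le_left _ _
  have hη1' : η ≤ η1 := (min_le_right _ _).trans (min_le_left _ _)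
  have hη2' : η ≤ η2 := (min_le_right _ _).trans (min_le_right _ _)
  obtain ⟨N1, hN1⟩ := hk1 η hη hη1'
  obtain ⟨N2, hN2⟩ := hk2 η hη hη2'
  obtain ⟨N3, hN3⟩ := hk3 K hKK3 η hη d hd s E δ hδ
  obtain ⟨N4, hN4⟩ := hk4 K hKK4 η hη d hd s E δ hδ
  obtain ⟨N5, hN5⟩ := conc hEnv a1 a1 a2 a2 Ca.abs_le Ca.abs_le hη ht
  obtain ⟨N6, hN6⟩ := conc hEnv c1 d1 c2 d2 Cc.abs_le Cd.abs_le hη ht
  obtain ⟨N7, hN7⟩ := hPos η hη hηP' (1 / 4) (by norm_num)
  refine ⟨max (max (max N1 N2) (max N3 N4)) (max (max N5 N6) N7), fun n hn hne => ?_⟩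
  have w1 := hN1 n (by omega) hne
  have w2 := hN2 n (by omega) hne
  have e3 := hN3 n (by omega)
  have e4 := hN4 n (by omega)
  have w5 := hN5 n (by omega) hne
  have w6 := hN6 n (by omega) hne
  have w7 := hN7 n (by omega) hne
  -- the averages of the cutoffs
  set α := EGo n d (fun G ω => cAvg G (Hm G s ω) E η (pc φa φa)) with hα
  set γ := EGo n d (fun G ω => cAvg G (Hm G s ω) E η (pc φc φd)) with hγ
  have hαb : |α| ≤ 1 := MeasC780.abs_EGo_le zero_le_one fun G ω =>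
    (MeasC780.good_cAvg s E η cχ1 aχ1).bdd G ω
  have hγb : |γ| ≤ 1 := MeasC780.abs_EGo_le zero_le_one fun G ω =>
    (MeasC780.good_cAvg s E η cχ2 aχ2).bdd G ω
  have hαlow : α0 ≤ α := by
    have w := whp_and ht.le (by norm_num) w5 w7
    obtain ⟨G, ω, g5, g7⟩ := whp_exists hne w (by linarith)
    rw [cAvg_pc] at g5
    have h1 : a0 ^ 2 ≤ eAvg G (fun u w => φa (Blk (Res (Hm G s ω) (ze E η)) u w)) *
        eAvg G (fun u w => φa (Blk (Res (Hm G s ω) (ze E η)) u w)) := by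
      rw [sq]
      exact mul_le_mul g7 g7 ha0.le (ha0.le.trans g7)
    have h2 := (abs_le.1 g5).2
    have h3 : a0 ^ 2 = 2 * α0 := by rw [hα0def]; ring
    linarith
  have hα0' : 0 ≤ α := hα0.le.trans hαlow
  have hγα : |γ - α| ≤ t := by
    simp only [PV_one _ _ _ _ _ hδ] at e4
    exact e4
  have hγ0 : 0 ≤ γ := by
    have := (abs_le.1 hγα).1
    linarith
  -- test values
  have gT1 : Good n B fun G ω => TestVal (Hm G s ω) E ρ K δ (4 + k)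
      (fun U => f1 (U.submatrix (idxEquiv k) (idxEquiv k))) :=
    MeasC780.good_TestVal s E ρ K δ (sub_cont hf1) hB fun U hU => hf1B _ fun i j => hU _ _
  have gT2 : Good n B fun G ω => TestVal (Hm G s ω) E ρ K δ (4 + k)
      (fun U => f (U.submatrix (idxEquiv k) (idxEquiv k))) :=
    MeasC780.good_TestVal s E ρ K δ (sub_cont hf) hB fun U hU => hfB _ fun i j => hU _ _
  have gP1 : Good n B fun G ω => PV G (Hm G s ω) E ρ K δ η (Ze2 x1 x2) (Ze2 x1 x2) Ta Ta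
      (pc φa φa) f1 := MeasC780.good_PV s E ρ K δ η sa sa Ta Ta cχ1 aχ1 hf1 hB hf1B
  have gP2 : Good n B fun G ω => PV G (Hm G s ω) E ρ K δ η (Ze2 x1 x1) (Ze2 x2 x2) Tc Td
      (pc φc φd) f := MeasC780.good_PV s E ρ K δ η sc sd Tc Td cχ2 aχ2 hf hB hfB
  have key : ∀ {P T : SimpleGraph (Fin n) → (Fin n → ℝ) → ℝ} {χ : M2 → M2 → ℝ} {c : ℝ},
      Good n B P → Good n B T → |c| ≤ 1 → 0 ≤ c →
      Whp n d t (fun G ω => |P G ω - cAvg G (Hm G s ω) E η χ * T G ω| ≤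
        ε1 * cAvg G (Hm G s ω) E η χ + t) →
      Whp n d t (fun G ω => |cAvg G (Hm G s ω) E η χ - c| ≤ t) →
      |EGo n d P - c * EGo n d T| ≤ ε1 * (c + t) + t + t * B + 2 * B * (2 * t) := by
    intro P T χ c gP gT hc hc0 w w'
    have gcT : Good n B fun G ω => c * T G ω :=
      (gT.const_mul c).mono (by
        calc |c| * B ≤ 1 * B := by gcongr
          _ = B := one_mul _)
    have ww := whp_and ht.le ht.le w w'
    have ww2 : Whp n d (t + t) fun G ω => |P G ω - c * T G ω| ≤ ε1 * (c + t) + t + t * B := by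
      refine whp_mono ww fun G ω hG => ?_
      have h1 := hG.1
      have h2 := hG.2
      have h3 : cAvg G (Hm G s ω) E η χ ≤ c + t := by
        have := (abs_le.1 h2).2
        linarith
      have h4 : |(cAvg G (Hm G s ω) E η χ - c) * T G ω| ≤ t * B := by
        rw [abs_mul]
        exact mul_le_mul h2 (gT.bdd G ω) (abs_nonneg _) ht.le
      have h5 : P G ω - c * T G ω = (P G ω - cAvg G (Hm G s ω) E η χ * T G ω) +
          (cAvg G (Hm G s ω) E η χ - c) * T G ω := by ring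
      rw [h5]
      refine (abs_add_le _ _).trans ?_
      have h6 : ε1 * cAvg G (Hm G s ω) E η χ ≤ ε1 * (c + t) := by gcongr
      linarith
    have h7 := MeasC780.abs_EGo_sub_le_of_whp (by positivity) (by positivity) gP gcT hne ww2
    rw [MeasC780.EGo_const_mul] at h7
    refine h7.trans (le_of_eq ?_)
    ring
  have k1 := key gP1 gT1 hαb hα0' w1 w5
  have k2 := key gP2 gT2 hγb hγ0 w2 w6
  have hT2 : |EGo n d fun G ω => TestVal (Hm G s ω) E ρ K δ (4 + k)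
      (fun U => f (U.submatrix (idxEquiv k) (idxEquiv k)))| ≤ B :=
    MeasC780.abs_EGo_le hB fun G ω => gT2.bdd G ω
  have fin := arith hα0' hε1.le ht.le hε11 hT2 k1 k2 e3 hγα
  set T1 := EGo n d fun G ω => TestVal (Hm G s ω) E ρ K δ (4 + k)
      (fun U => f1 (U.submatrix (idxEquiv k) (idxEquiv k))) with hT1def
  set T2 := EGo n d fun G ω => TestVal (Hm G s ω) E ρ K δ (4 + k)
      (fun U => f (U.submatrix (idxEquiv k) (idxEquiv k))) with hT2def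
  have hgoal : |T1 - T2| ≤ ε := by
    have h1 : t * (6 + 11 * B) ≤ α0 * (ε / 2) := by
      rw [le_div_iff₀ (by positivity)] at ht1
      exact ht1
    have h2 : α0 * (ε / 2) ≤ α * (ε / 2) := by gcongr
    have h3 : 2 * ε1 * α ≤ α * (ε / 2) := by nlinarith
    have h4 : α * |T1 - T2| ≤ α * ε := by linarith
    exact le_of_mul_le_mul_left h4 (lt_of_lt_of_le hα0 hαlow)
  exact hgoal

end Crest.Agent.R166.InvG348
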