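import Crest.Agent.R166.InvL_988

/-!
Row 166, section 50 (helper988): the comparison at a fixed good energy shift `x`.
-/

set_option autoImplicit false
set_option linter.unusedSectionVars false
set_option linter.unusedSimpArgs false

namespace Crest.Agent.R166.Inv988

open MeasureTheory ProbabilityTheory Matrix Crest.ProbabilityR.RandomMatrix Crest.Agent.R166
open Crest.Agent.R166.Gauss286
open Crest.Agent.R166.SW341 (XK gm2 sw2)

lemma SM_restrict {J ι : Type*} [Fintype J] {k : ℕ} (φ : J → ℝ) (v : J → ι → ℝ) (σ : Fin k → J)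
    (hσ : Function.Injective σ) (h0 : ∀ i, i ∉ Set.range σ → φ i = 0) :
    SM φ v = SM (fun j => φ (σ j)) (fun j => v (σ j)) := by
  classical
  ext a b
  rw [SM_apply, SM_apply]
  have h1 : ∑ i ∈ Finset.univ.image σ, φ i * v i a * v i b = ∑ i, φ i * v i a * v i b := by
    apply Finset.sum_subset (Finset.subset_univ _)
    intro i _ hi
    have : i ∉ Set.range σ := by
      rintro ⟨j, rfl⟩
      exact hi (Finset.mem_image_of_mem _ (Finset.mem_univ _))
    rw [h0 i this]; ring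
  rw [← h1, Finset.sum_image (fun x _ y _ hxy => hσ hxy)]

section

variable {n m k : ℕ} {H : Matrix (Fin n) (Fin n) ℝ} (hH : H.IsHermitian)

/-- marks of the near eigenvectors at a directed edge -/
noncomputable def qm (σ : Fin k → Fin n) (p : Fin n × Fin n) : XK k :=
  fun j a => eF hH (σ j) (![p.1, p.2] a)

lemma near_port_eq {f : Matrix (Idx m) (Idx m) ℂ → ℝ} (hf : Continuous f)
    (S : Matrix (Idx m) (Idx m) ℝ) (φ : Fin n → ℝ) (σ : Fin k → Fin n)
    (hσ : Function.Injective σ) (h0 : ∀ i, i ∉ Set.range σ → φ i = 0) (p1 p2 : Fin n × Fin n) :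
    ∫ g, f (CayG (S * SM φ (qq hH p1 p2 g) * Sᵀ)) ∂(gm (Fin n) (Fin m)) =
      Jin f S (fun j => φ (σ j)) (qm hH σ p1, qm hH σ p2) := by
  have h1 : ∀ g : Fin n → Fin m → ℝ, SM φ (qq hH p1 p2 g) =
      SM (fun j => φ (σ j)) (mk3 (qm hH σ p1) (qm hH σ p2) fun j => g (σ j)) := by
    intro g
    rw [SM_restrict φ _ σ hσ h0]
    rfl
  simp only [h1]
  unfold Jin
  exact integral_sel (J := Fin n) (κ := Fin m) σ hσ
    (F := fun g => f (CayG (S * SM (fun j => φ (σ j)) (mk3 (qm hH σ p1) (qm hH σ p2) g) * Sᵀ)))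
    (cont_f_cay hf (cont_conj (cont_SM3 continuous_const fun i a =>
      cont_mk3 continuous_const continuous_const continuous_id i a) S)
      fun g => conj_symm (SM_symm _ _) S)

lemma near_test_eq {ι : Type*} [Fintype ι] [DecidableEq ι] {f : Matrix ι ι ℂ → ℝ}
    (hf : Continuous f) (S : Matrix ι ι ℝ) (φ : Fin n → ℝ) (σ : Fin k → Fin n)
    (hσ : Function.Injective σ) (h0 : ∀ i, i ∉ Set.range σ → φ i = 0) :
    ∫ g, f (CayG (S * SM φ g * Sᵀ)) ∂(gm (Fin n) ι) =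
      ∫ g, f (CayG (S * SM (fun j => φ (σ j)) g * Sᵀ)) ∂(gm (Fin k) ι) := by
  have h1 : ∀ g : Fin n → ι → ℝ, SM φ g = SM (fun j => φ (σ j)) (fun j => g (σ j)) := fun g =>
    SM_restrict φ _ σ hσ h0
  simp only [h1]
  exact integral_sel (J := Fin n) (κ := ι) σ hσ
    (F := fun g => f (CayG (S * SM (fun j => φ (σ j)) g * Sᵀ)))
    (cont_f_cay hf (cont_conj (continuous_SM' _) S) fun g => conj_symm (SM_symm _ _) S)

lemma CayG_submatrix {ι ι' : Type*} [Fintype ι] [DecidableEq ι] [Fintype ι'] [DecidableEq ι']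
    (C : Matrix ι ι ℝ) (e : ι' ≃ ι) : (CayG C).submatrix e e = CayG (C.submatrix e e) := by
  unfold CayG
  rw [← Matrix.submatrix_mul_equiv _ _ _ e, ← Matrix.inv_submatrix_equiv]
  congr 1
  · ext i j
    by_cases h : i = j
    · subst h; simp
    · simp [h]
  · congr 1
    ext i j
    by_cases h : i = j
    · subst h; simp
    · simp [h]

lemma conj_smul_one {ι : Type*} [Fintype ι] [DecidableEq ι] {ρ : ℝ} (hρ : 0 < ρ)
    (M : Matrix ι ι ℝ) :
    ((Real.sqrt (Real.pi * ρ))⁻¹ • (1 : Matrix ι ι ℝ)) * M *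
      ((Real.sqrt (Real.pi * ρ))⁻¹ • (1 : Matrix ι ι ℝ))ᵀ = (1 / (Real.pi * ρ)) • M := by
  have hπ : 0 < Real.pi * ρ := by positivity
  rw [Matrix.transpose_smul, Matrix.transpose_one, Matrix.smul_mul, Matrix.one_mul,
    Matrix.mul_smul, Matrix.mul_one, smul_smul, ← mul_inv, Real.mul_self_sqrt hπ.le, one_div]

/-- spectral form of the test integral with the index type `Idx m` -/
theorem test_conv {f : Matrix (Idx m) (Idx m) ℂ → ℝ} (hf : Continuous f) (hn : 0 < n)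
    (E ρ K : ℝ) (hρ : 0 < ρ) {x : ℝ} (hx : ∀ i, hl hH E i ≠ x) :
    ∫ g, f ((uOf H E ρ K x g).submatrix (idxEquiv m) (idxEquiv m)) ∂(gaussM n (4 + m)) =
      ∫ g, f (CayG (((Real.sqrt (Real.pi * ρ))⁻¹ • (1 : Matrix (Idx m) (Idx m) ℝ)) *
        (SM (fun i => (hl hH E i - x)⁻¹) g - (mn H (zz E K n)).re • (1 : Matrix (Idx m) (Idx m) ℝ)) *
        ((Real.sqrt (Real.pi * ρ))⁻¹ • (1 : Matrix (Idx m) (Idx m) ℝ))ᵀ))
        ∂(gm (Fin n) (Idx m)) := by
  have h1 := SpArr286.integral_uOf (m := 4 + m) hH hn E ρ K (x := x) hx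
    (fun U => f (U.submatrix (idxEquiv m) (idxEquiv m)))
  refine h1.trans ?_
  have h2 : ∀ g : Fin n → Fin (4 + m) → ℝ, f ((Cay ((1 / (Real.pi * ρ)) •
      (SpArr286.spArr (fun i => (SpArr286.hl hH E i - x)⁻¹) g -
        (mn H (zz E K n)).re • (1 : Matrix (Fin (4 + m)) (Fin (4 + m)) ℝ)))).submatrix
        (idxEquiv m) (idxEquiv m)) =
      f (CayG (((Real.sqrt (Real.pi * ρ))⁻¹ • (1 : Matrix (Idx m) (Idx m) ℝ)) *
        (SM (fun i => (hl hH E i - x)⁻¹) (fun i k' => g i (idxEquiv m k')) -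
          (mn H (zz E K n)).re • (1 : Matrix (Idx m) (Idx m) ℝ)) *
        ((Real.sqrt (Real.pi * ρ))⁻¹ • (1 : Matrix (Idx m) (Idx m) ℝ))ᵀ)) := by
    intro g
    rw [Cay_eq, CayG_submatrix, conj_smul_one hρ]
    congr 2
    ext i j
    simp only [Matrix.submatrix_apply, Matrix.smul_apply, Matrix.sub_apply, smul_eq_mul]
    have e1 : (1 : Matrix (Fin (4 + m)) (Fin (4 + m)) ℝ) (idxEquiv m i) (idxEquiv m j) =
        (1 : Matrix (Idx m) (Idx m) ℝ) i j := by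
      rw [Matrix.one_apply, Matrix.one_apply]
      simp only [(idxEquiv m).injective.eq_iff]
    rw [e1]
    rfl
  simp only [h2]
  have hs : ∀ g : Fin n → Idx m → ℝ, (SM (fun i => (hl hH E i - x)⁻¹) g -
      (mn H (zz E K n)).re • (1 : Matrix (Idx m) (Idx m) ℝ))ᵀ =
      SM (fun i => (hl hH E i - x)⁻¹) g -
      (mn H (zz E K n)).re • (1 : Matrix (Idx m) (Idx m) ℝ) := fun g => by
    rw [Matrix.transpose_sub, SM_symm, Matrix.transpose_smul, Matrix.transpose_one]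
  exact integral_cols (J := Fin n) (κ := Fin (4 + m)) (idxEquiv m)
    (F := fun g => f (CayG (((Real.sqrt (Real.pi * ρ))⁻¹ • (1 : Matrix (Idx m) (Idx m) ℝ)) *
        (SM (fun i => (hl hH E i - x)⁻¹) g - (mn H (zz E K n)).re • (1 : Matrix (Idx m) (Idx m) ℝ)) *
        ((Real.sqrt (Real.pi * ρ))⁻¹ • (1 : Matrix (Idx m) (Idx m) ℝ))ᵀ)))
    (cont_f_cay hf (cont_conj ((continuous_SM' _).sub continuous_const) _)
      fun g => conj_symm (hs g) _)

/-! ### the coefficient `φ` -/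

/-- the coefficient `1/(y-x) - y/(y²+K²)` -/
noncomputable def phi (K x y : ℝ) : ℝ := (y - x)⁻¹ - cK K y

lemma cK_abs_le {K : ℝ} (hK : 1 ≤ K) (y : ℝ) : |cK K y| ≤ 1 := by
  unfold cK
  rw [abs_div, div_le_one (by positivity), abs_of_pos (by positivity : 0 < y ^ 2 + K ^ 2)]
  have : |y| ^ 2 = y ^ 2 := sq_abs y
  nlinarith [abs_nonneg y, sq_nonneg (|y| - 1)]

lemma cK_sq_le {K : ℝ} (hK : 0 < K) (y : ℝ) : cK K y ^ 2 ≤ (K / (y ^ 2 + K ^ 2)) / K := by
  unfold cK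
  have h : 0 < y ^ 2 + K ^ 2 := by positivity
  rw [div_pow, div_div, div_le_div_iff₀ (by positivity) (by positivity)]
  have : 0 ≤ K ^ 2 * (y ^ 2 + K ^ 2) := by positivity
  nlinarith [mul_pos hK h]

lemma phi_far {K δ x y : ℝ} (hK : 1 ≤ K) (hδ : 0 < δ) (hKδ : 2 * δ ≤ K ^ 2) (hx0 : 0 ≤ x)
    (hx1 : x ≤ δ) (hy : K ^ 2 < |y|) :
    |phi K x y| ≤ 2 * (1 + δ) / K * (K / (y ^ 2 + K ^ 2)) := by
  have hK0 : 0 < K := by linarith
  have hD : 0 < y ^ 2 + K ^ 2 := by positivity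
  have hya : 0 < |y| := lt_of_le_of_lt (by positivity) hy
  have h1 : |y| / 2 ≤ |y - x| := by
    have h2 : |y| ≤ |y - x| + |x| := by
      have := abs_add_le (y - x) x
      simpa using this
    rw [abs_of_nonneg hx0] at h2
    linarith
  have hne : y - x ≠ 0 := by
    intro h
    rw [h, abs_zero] at h1
    linarith
  have h3 : phi K x y = (K ^ 2 + x * y) / ((y - x) * (y ^ 2 + K ^ 2)) := by
    unfold phi cK
    field_simp
    ring
  rw [h3, abs_div, abs_mul, abs_of_pos hD]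
  have h4 : |K ^ 2 + x * y| ≤ (1 + δ) * |y| := by
    calc |K ^ 2 + x * y| ≤ |K ^ 2| + |x * y| := abs_add_le _ _
      _ = K ^ 2 + x * |y| := by rw [abs_of_nonneg (sq_nonneg K), abs_mul, abs_of_nonneg hx0]
      _ ≤ |y| + δ * |y| := by
          have := mul_le_mul_of_nonneg_right hx1 hya.le
          linarith
      _ = _ := by ring
  have h5 : 2 * (1 + δ) / K * (K / (y ^ 2 + K ^ 2)) = 2 * (1 + δ) / (y ^ 2 + K ^ 2) := by
    field_simp
  rw [h5, div_le_div_iff₀ (mul_pos (by linarith) hD) hD]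
  have h6 : |K ^ 2 + x * y| ≤ 2 * (1 + δ) * |y - x| := by
    calc |K ^ 2 + x * y| ≤ (1 + δ) * |y| := h4
      _ ≤ (1 + δ) * (2 * |y - x|) := by
          have : (0 : ℝ) ≤ 1 + δ := by linarith
          exact mul_le_mul_of_nonneg_left (by linarith) this
      _ = _ := by ring
  calc |K ^ 2 + x * y| * (y ^ 2 + K ^ 2) ≤ 2 * (1 + δ) * |y - x| * (y ^ 2 + K ^ 2) :=
        mul_le_mul_of_nonneg_right h6 hD.le
    _ = _ := by ring

lemma phi_near {K x y τ : ℝ} (hK : 1 ≤ K) (hτ : 0 < τ) (hy : τ ≤ |y - x|) :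
    |phi K x y| ≤ 1 / τ + 1 := by
  unfold phi
  calc |(y - x)⁻¹ - cK K y| ≤ |(y - x)⁻¹| + |cK K y| := abs_sub _ _
    _ ≤ 1 / τ + 1 := by
        refine add_le_add ?_ (cK_abs_le hK y)
        rw [abs_inv, ← one_div]
        exact one_div_le_one_div_of_le hτ hy

/-- number of near eigenvalues -/
lemma near_card (hn : 0 < n) {E K Y : ℝ} (hK : 1 ≤ K) (hY : (mn H (zz E K n)).im ≤ Y) :
    ((Finset.univ.filter fun i => |hl hH E i| ≤ K ^ 2).card : ℝ) ≤ Y * (K ^ 3 + K) := by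
  have hK0 : 0 < K := by linarith
  rw [mn_zz_im hH hn hK0] at hY
  have h1 : ∀ i ∈ Finset.univ.filter (fun i => |hl hH E i| ≤ K ^ 2),
      1 / (K ^ 3 + K) ≤ K / (hl hH E i ^ 2 + K ^ 2) := by
    intro i hi
    have h2 := (Finset.mem_filter.1 hi).2
    have h3 : hl hH E i ^ 2 ≤ (K ^ 2) ^ 2 := by
      rw [← sq_abs]; exact pow_le_pow_left₀ (abs_nonneg _) h2 2
    rw [div_le_div_iff₀ (by positivity) (by positivity)]
    nlinarith
  have h2 : ((Finset.univ.filter fun i => |hl hH E i| ≤ K ^ 2).card : ℝ) * (1 / (K ^ 3 + K)) ≤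
      Y := by
    calc _ = ∑ _i ∈ Finset.univ.filter (fun i => |hl hH E i| ≤ K ^ 2), 1 / (K ^ 3 + K) := by
          rw [Finset.sum_const, nsmul_eq_mul]
      _ ≤ ∑ i ∈ Finset.univ.filter (fun i => |hl hH E i| ≤ K ^ 2),
          K / (hl hH E i ^ 2 + K ^ 2) := Finset.sum_le_sum h1
      _ ≤ ∑ i, K / (hl hH E i ^ 2 + K ^ 2) :=
          Finset.sum_le_sum_of_subset_of_nonneg (Finset.filter_subset _ _)
            fun i _ _ => by positivity
      _ ≤ Y := hY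
  have hp : 0 < K ^ 3 + K := by positivity
  rw [mul_one_div, div_le_iff₀ hp] at h2
  exact h2

lemma sum_cK_sq_le (hn : 0 < n) {E K Y : ℝ} (hK : 0 < K) (hY : (mn H (zz E K n)).im ≤ Y) :
    ∑ i, cK K (hl hH E i) ^ 2 ≤ Y / K := by
  rw [mn_zz_im hH hn hK] at hY
  calc ∑ i, cK K (hl hH E i) ^ 2 ≤ ∑ i, (K / (hl hH E i ^ 2 + K ^ 2)) / K :=
        Finset.sum_le_sum fun i _ => cK_sq_le hK _
    _ = (∑ i, K / (hl hH E i ^ 2 + K ^ 2)) / K := by rw [Finset.sum_div]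
    _ ≤ Y / K := by gcongr

lemma sum_far_le (hn : 0 < n) {E K Y δ x : ℝ} (hK : 1 ≤ K) (hδ : 0 < δ)
    (hKδ : 2 * δ ≤ K ^ 2) (hx0 : 0 ≤ x) (hx1 : x ≤ δ) (hY : (mn H (zz E K n)).im ≤ Y) :
    ∑ i, |if |hl hH E i| ≤ K ^ 2 then (0 : ℝ) else phi K x (hl hH E i)| ≤
      2 * (1 + δ) / K * Y := by
  have hK0 : 0 < K := by linarith
  rw [mn_zz_im hH hn hK0] at hY
  calc _ ≤ ∑ i, 2 * (1 + δ) / K * (K / (hl hH E i ^ 2 + K ^ 2)) := by
        refine Finset.sum_le_sum fun i _ => ?_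
        split_ifs with h
        · rw [abs_zero]; positivity
        · push Not at h
          exact phi_far hK hδ hKδ hx0 hx1 h
    _ = 2 * (1 + δ) / K * ∑ i, (K / (hl hH E i ^ 2 + K ^ 2)) := by rw [Finset.mul_sum]
    _ ≤ 2 * (1 + δ) / K * Y := by gcongr

end

end Crest.Agent.R166.Inv988
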