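import Crest.Agent.R166.InvJ_988

/-!
Row 166, section 50 (helper988): the comparison at a fixed good energy shift `x`, assembled.
-/

set_option autoImplicit false
set_option linter.unusedSectionVars false
set_option linter.unusedSimpArgs false

namespace Crest.Agent.R166.Inv988

open MeasureTheory ProbabilityTheory Matrix Crest.ProbabilityR.RandomMatrix Crest.Agent.R166
open Crest.Agent.R166.Gauss286
open Crest.Agent.R166.SW341 (XK gm2 sw2)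

variable {n m d : ℕ} {H : Matrix (Fin n) (Fin n) ℝ} (hH : H.IsHermitian)
  {G : SimpleGraph (Fin n)}

/-- the conclusion of `sw2` for the near eigenvectors -/
def SWprop (E K η Φ ε3 : ℝ) (G : SimpleGraph (Fin n)) (f : Matrix (Idx m) (Idx m) ℂ → ℝ)
    (S : Matrix (Idx m) (Idx m) ℝ) (χ : M2 → M2 → ℝ)
    (A : Fin n × Fin n → Matrix (Fin 2) (Fin 2) ℝ) : Prop :=
  ∀ σ : Fin (Finset.univ.filter fun i => |hl hH E i| ≤ K ^ 2).card → Fin n,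
    Function.Injective σ → (∀ j, |hl hH E (σ j)| ≤ K ^ 2) →
    ∀ φ : Fin (Finset.univ.filter fun i => |hl hH E i| ≤ K ^ 2).card → Set.Icc (-Φ) Φ,
      |eAvg2 G (fun p1 p2 => Fk f S χ Φ φ (blk H E η p1, blk H E η p2)
        (qm hH σ p1, qm hH σ p2) -
        ∫ g, Fk f S χ Φ φ (blk H E η p1, blk H E η p2)
          (fun i => A p1 *ᵥ g.1 i, fun i => A p2 *ᵥ g.2 i) ∂(gm2 _))| ≤ ε3

lemma final_arith {P P1 P2 T J0 c ε1 ε3 L L' N2 F F' S2 S2' θ ΔB r0 : ℝ} (hθ : 0 < θ)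
    (hL : 0 ≤ L) (hL' : 0 ≤ L') (hN20 : 0 ≤ N2) (hc0 : 0 ≤ c) (hc1 : c ≤ 1) (hS0 : 0 ≤ S2)
    (hF0 : 0 ≤ F) (hS : S2 ≤ S2') (hF : F ≤ F')
    (h1 : |P - P1| ≤ ε1 * c + L * (N2 * (F + ((θ + 3 * S2 / θ) + ΔB + r0 * c))))
    (h2 : |P1 - P2| ≤ ε3) (h3 : |P2 - c * J0| ≤ ε1 * c)
    (h4 : |T - J0| ≤ ε1 + L' * (N2 * (F + (θ + 3 * S2 / θ)))) :
    |P - c * T| ≤ (3 * ε1 + L * (N2 * r0)) * c +
      ((L + L') * (N2 * (F' + (θ + 3 * S2' / θ))) + L * (N2 * ΔB) + ε3) := by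
  have hq1 : θ + 3 * S2 / θ ≤ θ + 3 * S2' / θ := by gcongr
  have h4' : |T - J0| ≤ ε1 + L' * (N2 * (F' + (θ + 3 * S2' / θ))) := by
    refine h4.trans ?_
    gcongr
  have h1' : |P - P1| ≤ ε1 * c + L * (N2 * (F' + ((θ + 3 * S2' / θ) + ΔB + r0 * c))) := by
    refine h1.trans ?_
    gcongr
  have h6 : |c * (J0 - T)| ≤ c * (ε1 + L' * (N2 * (F' + (θ + 3 * S2' / θ)))) := by
    rw [abs_mul, abs_of_nonneg hc0, abs_sub_comm]
    exact mul_le_mul_of_nonneg_left h4' hc0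
  have h7 : |P - c * T| ≤ |P - P1| + |P1 - P2| + |P2 - c * J0| + |c * (J0 - T)| := by
    have e : P - c * T = (P - P1) + (P1 - P2) + (P2 - c * J0) + c * (J0 - T) := by ring
    rw [e]
    refine (abs_add_le _ _).trans (add_le_add ?_ le_rfl)
    refine (abs_add_le _ _).trans (add_le_add ?_ le_rfl)
    exact abs_add_le _ _
  set Q := F' + (θ + 3 * S2' / θ) with hQ
  have hQ0 : 0 ≤ Q := by
    have : 0 ≤ S2' := hS0.trans hS
    have : 0 ≤ F' := hF0.trans hF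
    rw [hQ]
    positivity
  have h8 : c * (ε1 + L' * (N2 * Q)) ≤ ε1 * c + L' * (N2 * Q) := by
    have : 0 ≤ L' * (N2 * Q) := by positivity
    nlinarith
  have h9 : ε1 * c + L * (N2 * (F' + ((θ + 3 * S2' / θ) + ΔB + r0 * c))) =
      ε1 * c + L * (N2 * Q) + L * (N2 * ΔB) + L * (N2 * r0) * c := by
    rw [hQ]; ring
  rw [h9] at h1'
  have h10 : (3 * ε1 + L * (N2 * r0)) * c + ((L + L') * (N2 * Q) + L * (N2 * ΔB) + ε3) =
      (ε1 * c + L * (N2 * Q) + L * (N2 * ΔB) + L * (N2 * r0) * c) + ε3 + ε1 * c +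
        (ε1 * c + L' * (N2 * Q)) := by ring
  rw [h10]
  linarith

theorem pointwise (hG : G ∈ regularGraphs n d) (hn : 0 < n) (hd : 0 < d)
    {E ρ K η δ x Y θ τ ε1 ε3 L L' r r0 : ℝ} (hρ : 0 < ρ) (hK : 1 ≤ K) (hδ : 0 < δ)
    (hKδ : 2 * δ ≤ K ^ 2) (hx0 : 0 ≤ x) (hx1 : x ≤ δ) (hx : ∀ i, hl hH E i ≠ x)
    (hτ : 0 < τ) (hxτ : ∀ i, |hl hH E i| ≤ K ^ 2 → τ ≤ |hl hH E i - x|) (hθ : 0 < θ)
    (hY : (mn H (zz E K n)).im ≤ Y)
    {Za Zb : M2} (hZa : Zaᵀ = Za) (hZb : Zbᵀ = Zb) {Ta Tb : Matrix (Fin 2) (Fin 2) ℝ}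
    (hTa : Ta * Taᵀ = imPart Za) (hTb : Tb * Tbᵀ = imPart Zb) (ha : IsUnit Ta.det)
    (hb : IsUnit Tb.det) {f : Matrix (Idx m) (Idx m) ℂ → ℝ} (hf : Continuous f)
    (hL : 0 ≤ L) (hfL : ∀ M M' : Matrix (Idx m) (Idx m) ℝ, Mᵀ = M → M'ᵀ = M' →
      |f (CayG ((Tref Ta Tb ρ)⁻¹ * M * ((Tref Ta Tb ρ)⁻¹)ᵀ)) -
        f (CayG ((Tref Ta Tb ρ)⁻¹ * M' * ((Tref Ta Tb ρ)⁻¹)ᵀ))| ≤
        ε1 + L * ∑ a, ∑ b, min 1 |M a b - M' a b|)
    (hL' : 0 ≤ L') (hfL' : ∀ M M' : Matrix (Idx m) (Idx m) ℝ, Mᵀ = M → M'ᵀ = M' →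
      |f (CayG (((Real.sqrt (Real.pi * ρ))⁻¹ • (1 : Matrix (Idx m) (Idx m) ℝ)) * M *
        ((Real.sqrt (Real.pi * ρ))⁻¹ • (1 : Matrix (Idx m) (Idx m) ℝ))ᵀ)) -
        f (CayG (((Real.sqrt (Real.pi * ρ))⁻¹ • (1 : Matrix (Idx m) (Idx m) ℝ)) * M' *
          ((Real.sqrt (Real.pi * ρ))⁻¹ • (1 : Matrix (Idx m) (Idx m) ℝ))ᵀ))| ≤
        ε1 + L' * ∑ a, ∑ b, min 1 |M a b - M' a b|)
    (hr : ∀ C W : Matrix (Idx m) (Idx m) ℝ, Cᵀ = C →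
      (open scoped Matrix.Norms.L2Operator in ‖cx W - 1‖ ≤ r) →
      |f (CayG (W * C * Wᵀ)) - f (CayG C)| ≤ ε1) (hr0 : 0 ≤ r0)
    (hr0r : 16 * (l1 Ta⁻¹ ^ 2 + l1 Tb⁻¹ ^ 2) * r0 ≤ r)
    {χ : M2 → M2 → ℝ} (hχ01 : ∀ b1 b2, 0 ≤ χ b1 b2 ∧ χ b1 b2 ≤ 1)
    (hχs : ∀ b1 b2, χ b1 b2 ≠ 0 → bnorm (b1 - Za) ≤ r0 ∧ bnorm (b2 - Zb) ≤ r0)
    {A : Fin n × Fin n → Matrix (Fin 2) (Fin 2) ℝ}
    (hA : ∀ p, A p * (A p)ᵀ = Matrix.of fun a c => (blk H E η p a c).im / (Real.pi * ρ))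
    (hsw : SWprop hH E K η (1 / τ + 1) ε3 G f ((Tref Ta Tb ρ)⁻¹) χ A) :
    |eAvg2 G (fun p1 p2 => χ (blk H E η p1) (blk H E η p2) *
        ∫ g, f (Uref H E ρ K x Za Zb Ta Tb p1 p2 g) ∂(gaussM n m)) -
      cAvg G H E η χ * ∫ g, f ((uOf H E ρ K x g).submatrix (idxEquiv m) (idxEquiv m))
        ∂(gaussM n (4 + m))| ≤
    (3 * ε1 + L * ((Fintype.card (Idx m) : ℝ) ^ 2 * r0)) * cAvg G H E η χ +
      ((L + L') * ((Fintype.card (Idx m) : ℝ) ^ 2 *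
        (2 * (1 + δ) / K * Y + (θ + 3 * (Y / K) / θ))) +
      L * ((Fintype.card (Idx m) : ℝ) ^ 2 * eAvg G (fun u v => min 1
        (bnorm (Blk (Res H (zz E K n)) u v - Blk (Res H (ze E η)) u v)))) + ε3) := by
  have hK0 : 0 < K := by linarith
  have hpos := card_darts_pos hG hn hd
  set S := (Tref (m := m) Ta Tb ρ)⁻¹ with hS
  set S1 : Matrix (Idx m) (Idx m) ℝ := (Real.sqrt (Real.pi * ρ))⁻¹ • 1 with hS1
  set w : Fin n × Fin n → Fin n × Fin n → ℝ := fun p1 p2 => χ (blk H E η p1) (blk H E η p2)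
    with hw
  set c := cAvg G H E η χ with hc
  have hcw : eAvg2 G w = c := rfl
  have hw0 : ∀ p1 p2, 0 ≤ w p1 p2 := fun p1 p2 => (hχ01 _ _).1
  have hw1 : ∀ p1 p2, w p1 p2 ≤ 1 := fun p1 p2 => (hχ01 _ _).2
  have hc0 : 0 ≤ c := by
    rw [← hcw, ← eAvg2_const (G := G) hpos 0]; exact eAvg2_mono fun p1 p2 => hw0 p1 p2
  have hc1 : c ≤ 1 := by
    rw [← hcw, ← eAvg2_const (G := G) hpos 1]; exact eAvg2_mono fun p1 p2 => hw1 p1 p2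
  set ψ : Fin n → ℝ := fun i => (hl hH E i - x)⁻¹ with hψ
  set φn : Fin n → ℝ := fun i => if |hl hH E i| ≤ K ^ 2 then phi K x (hl hH E i) else 0 with hφn
  set φf : Fin n → ℝ := fun i => if |hl hH E i| ≤ K ^ 2 then 0 else phi K x (hl hH E i) with hφf
  set cc : Fin n → ℝ := fun i => cK K (hl hH E i) with hcc
  have hdec : ∀ i, ψ i = φn i + φf i + cc i := by
    intro i
    simp only [hψ, hφn, hφf, hcc]
    unfold phi
    split_ifs <;> ring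
  have hS2 : ∑ i, cK K (hl hH E i) ^ 2 ≤ Y / K := sum_cK_sq_le hH hn hK0 hY
  have hFar : ∑ i, |φf i| ≤ 2 * (1 + δ) / K * Y := sum_far_le hH hn hK hδ hKδ hx0 hx1 hY
  set ΔB := eAvg G (fun u v => min 1
        (bnorm (Blk (Res H (zz E K n)) u v - Blk (Res H (ze E η)) u v))) with hΔB
  set N2 : ℝ := (Fintype.card (Idx m) : ℝ) ^ 2 with hN2
  have hN20 : 0 ≤ N2 := sq_nonneg _
  -- step 1
  have e1 : eAvg2 G (fun p1 p2 => χ (blk H E η p1) (blk H E η p2) *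
        ∫ g, f (Uref H E ρ K x Za Zb Ta Tb p1 p2 g) ∂(gaussM n m)) =
      eAvg2 G (fun p1 p2 => w p1 p2 * ∫ g, f (CayG (S * (SM ψ (qq hH p1 p2 g) -
        Aref Za Zb (mn H (zz E K n)).re) * Sᵀ)) ∂(gm (Fin n) (Fin m))) := by
    congr 1
    ext p1 p2
    rw [integral_Uref hH hn E ρ K hx Za Zb Ta Tb p1 p2 f]
    rfl
  have h1 := port_trunc (m := m) hH hG hn hd (η := η) hK0 hZa hZb hθ w hw0 hw1
    (fun p1 p2 hne => hχs _ _ hne) hr0 hf S hL hfL ψ φn φf hdec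
  rw [hcw, ← hΔB] at h1
  -- the near indices
  set near := Finset.univ.filter fun i => |hl hH E i| ≤ K ^ 2 with hnear
  set σ : Fin near.card → Fin n := fun j => (near.equivFin.symm j : Fin n) with hσ
  have hσi : Function.Injective σ := fun a b hab =>
    near.equivFin.symm.injective (Subtype.ext hab)
  have hσn : ∀ j, |hl hH E (σ j)| ≤ K ^ 2 := fun j =>
    (Finset.mem_filter.1 (near.equivFin.symm j).2).2
  have hσ0 : ∀ i, i ∉ Set.range σ → φn i = 0 := by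
    intro i hi
    simp only [hφn]
    rw [if_neg]
    intro hle
    apply hi
    refine ⟨near.equivFin ⟨i, Finset.mem_filter.2 ⟨Finset.mem_univ _, hle⟩⟩, ?_⟩
    simp [hσ]
  have hφb : ∀ j, φn (σ j) ∈ Set.Icc (-(1 / τ + 1)) (1 / τ + 1) := by
    intro j
    refine Set.mem_Icc.2 (abs_le.1 ?_)
    simp only [hφn]
    rw [if_pos (hσn j)]
    exact phi_near hK hτ (hxτ _ (hσn j))
  set φ' : Fin near.card → Set.Icc (-(1 / τ + 1)) (1 / τ + 1) := fun j => ⟨φn (σ j), hφb j⟩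
    with hφ'
  -- step 2
  have e2 : eAvg2 G (fun p1 p2 => w p1 p2 * ∫ g, f (CayG (S * SM φn (qq hH p1 p2 g) * Sᵀ))
        ∂(gm (Fin n) (Fin m))) =
      eAvg2 G (fun p1 p2 => Fk f S χ (1 / τ + 1) φ' (blk H E η p1, blk H E η p2)
        (qm hH σ p1, qm hH σ p2)) := by
    congr 1
    ext p1 p2
    rw [near_port_eq hH hf S φn σ hσi hσ0 p1 p2]
    rfl
  have h2 := hsw σ hσi hσn φ'
  rw [eAvg2_sub, ← e2] at h2
  -- step 3
  set J0 := ∫ g, f (CayG (S1 * SM (fun j => φn (σ j)) g * S1ᵀ)) ∂(gm (Fin near.card) (Idx m))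
    with hJ0
  have h3 : |eAvg2 G (fun p1 p2 => ∫ g, Fk f S χ (1 / τ + 1) φ' (blk H E η p1, blk H E η p2)
          (fun i => A p1 *ᵥ g.1 i, fun i => A p2 *ᵥ g.2 i) ∂(gm2 near.card)) - c * J0| ≤
      ε1 * c := by
    have e3 : c * J0 = eAvg2 G (fun p1 p2 => w p1 p2 * J0) := by
      rw [eAvg2_mul_right, hcw]
    rw [e3, ← eAvg2_sub]
    refine (abs_eAvg2_le _).trans ?_
    rw [← hcw, ← eAvg2_mul_left]
    refine eAvg2_mono fun p1 p2 => ?_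
    have e4 : ∫ g, Fk f S χ (1 / τ + 1) φ' (blk H E η p1, blk H E η p2)
          (fun i => A p1 *ᵥ g.1 i, fun i => A p2 *ᵥ g.2 i) ∂(gm2 near.card) =
        w p1 p2 * ∫ p, Jin f S (fun j => φn (σ j)) (fun i => A p1 *ᵥ p.1 i,
          fun i => A p2 *ᵥ p.2 i) ∂(gm2 near.card) := by
      rw [← integral_const_mul]
      rfl
    rw [e4, ← mul_sub, abs_mul, abs_of_nonneg (hw0 p1 p2), mul_comm]
    by_cases hne : w p1 p2 = 0
    · rw [hne]; simp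
    · have h5 := hχs _ _ hne
      refine mul_le_mul_of_nonneg_right ?_ (hw0 p1 p2)
      exact gauss_compare hf hρ hTa hTb ha hb (hA p1) (hA p2) hr h5.1 h5.2 hr0r _
  -- step 4
  have e5 := test_conv hH hf hn E ρ K hρ hx
  have h4 := test_trunc (J := Fin n) hf S1 hθ hL' hfL' ψ φn φf cc hdec
  rw [← mn_zz_re hH hn hK0, near_test_eq hf S1 φn σ hσi hσ0, ← e5, ← hJ0] at h4
  rw [e1]
  set P := eAvg2 G (fun p1 p2 => w p1 p2 * ∫ g, f (CayG (S * (SM ψ (qq hH p1 p2 g) -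
        Aref Za Zb (mn H (zz E K n)).re) * Sᵀ)) ∂(gm (Fin n) (Fin m)))
  set P1 := eAvg2 G (fun p1 p2 => w p1 p2 * ∫ g, f (CayG (S * SM φn (qq hH p1 p2 g) * Sᵀ))
        ∂(gm (Fin n) (Fin m)))
  set P2 := eAvg2 G (fun p1 p2 => ∫ g, Fk f S χ (1 / τ + 1) φ' (blk H E η p1, blk H E η p2)
          (fun i => A p1 *ᵥ g.1 i, fun i => A p2 *ᵥ g.2 i) ∂(gm2 near.card))
  set T := ∫ g, f ((uOf H E ρ K x g).submatrix (idxEquiv m) (idxEquiv m)) ∂(gaussM n (4 + m))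
  have hS0 : 0 ≤ ∑ i, cK K (hl hH E i) ^ 2 := Finset.sum_nonneg fun _ _ => sq_nonneg _
  have hF0 : 0 ≤ ∑ i, |φf i| := Finset.sum_nonneg fun _ _ => abs_nonneg _
  exact final_arith hθ hL hL' hN20 hc0 hc1 hS0 hF0 hS2 hFar h1 h2 h3 h4

end Crest.Agent.R166.Inv988
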