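import Crest.Agent.R166.InvK1_988

/-!
Row 166, section 50 (helper988): integration over the energy shift.
-/

set_option autoImplicit false
set_option linter.unusedSectionVars false
set_option linter.unusedSimpArgs false

namespace Crest.Agent.R166.Inv988

open MeasureTheory ProbabilityTheory Matrix Crest.ProbabilityR.RandomMatrix Crest.Agent.R166
open Crest.Agent.R166.Gauss286
open Crest.Agent.R166.SW341 (XK gm2 sw2)

variable {n m d : ℕ} {H : Matrix (Fin n) (Fin n) ℝ} (hH : H.IsHermitian)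
  {G : SimpleGraph (Fin n)}

lemma ii_sum {α : Type*} (s : Finset α) {F : α → ℝ → ℝ} {a b : ℝ}
    (h : ∀ i ∈ s, IntervalIntegrable (F i) volume a b) :
    IntervalIntegrable (fun x => ∑ i ∈ s, F i x) volume a b := by
  have e : (fun x => ∑ i ∈ s, F i x) = ∑ i ∈ s, F i := by
    ext x; rw [Finset.sum_apply]
  rw [e]
  exact IntervalIntegrable.sum s h

lemma ae_good (E : ℝ) : ∀ᵐ x ∂(volume : Measure ℝ), ∀ i, hl hH E i ≠ x := by
  have hfin : (Set.range (hl hH E)).Finite := Set.finite_range _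
  have hae : ∀ᵐ x ∂(volume : Measure ℝ), x ∉ Set.range (hl hH E) :=
    measure_eq_zero_iff_ae_notMem.mp (Set.Finite.measure_zero hfin volume)
  filter_upwards [hae] with x hx i h
  exact hx ⟨i, h⟩

lemma psi_meas (E : ℝ) : Measurable fun x : ℝ => fun i => (hl hH E i - x)⁻¹ :=
  measurable_pi_lambda _ fun _ => (measurable_const.sub measurable_id).inv

/-- bounded a.e. measurable functions are interval integrable -/
lemma ii_of_ae {h h' : ℝ → ℝ} {B : ℝ} (hm : Measurable h') (hB : ∀ x, |h' x| ≤ B)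
    (he : h =ᵐ[volume] h') (a b : ℝ) : IntervalIntegrable h volume a b := by
  have h1 : IntervalIntegrable h' volume a b :=
    (intervalIntegrable_const (c := B)).mono_fun' hm.aestronglyMeasurable
      (Filter.Eventually.of_forall fun x => hB x)
  exact h1.congr_ae (ae_restrict_of_ae he.symm)

include hH in
/-- port side -/
theorem port_ii (hn : 0 < n) (E ρ K : ℝ) {Za Zb : M2} (hZa : Zaᵀ = Za) (hZb : Zbᵀ = Zb)
    (Ta Tb : Matrix (Fin 2) (Fin 2) ℝ) {f : Matrix (Idx m) (Idx m) ℂ → ℝ} (hf : Continuous f)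
    {B : ℝ} (hB : ∀ C : Matrix (Idx m) (Idx m) ℝ, Cᵀ = C → |f (CayG C)| ≤ B)
    (p1 p2 : Fin n × Fin n) (a b : ℝ) :
    IntervalIntegrable (fun x => ∫ g, f (Uref H E ρ K x Za Zb Ta Tb p1 p2 g) ∂(gaussM n m))
      volume a b ∧
    ∀ᵐ x ∂(volume : Measure ℝ),
      |∫ g, f (Uref H E ρ K x Za Zb Ta Tb p1 p2 g) ∂(gaussM n m)| ≤ B := by
  set S := (Tref (m := m) Ta Tb ρ)⁻¹ with hS
  set A := Aref (m := m) Za Zb (mn H (zz E K n)).re with hA
  have hs : ∀ (φ : Fin n → ℝ) (g : Fin n → Fin m → ℝ), (SM φ (qq hH p1 p2 g) - A)ᵀ =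
      SM φ (qq hH p1 p2 g) - A := fun φ g => by
    rw [Matrix.transpose_sub, SM_symm, hA, Aref_symm hZa hZb]
  have hb : ∀ φ : Fin n → ℝ, |∫ g, f (CayG (S * (SM φ (qq hH p1 p2 g) - A) * Sᵀ))
      ∂(gaussM n m)| ≤ B := by
    intro φ
    rw [← Real.norm_eq_abs]
    refine (norm_integral_le_of_norm_le (integrable_const (μ := gm (Fin n) (Fin m)) B)
      (Filter.Eventually.of_forall fun g => ?_)).trans (by simp)
    exact hB _ (conj_symm (hs φ g) S)
  have hc : Continuous fun φ : Fin n → ℝ => ∫ g, f (CayG (S * (SM φ (qq hH p1 p2 g) - A) * Sᵀ))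
      ∂(gaussM n m) := by
    refine continuous_of_dominated (bound := fun _ => B) ?_ ?_
      (integrable_const (μ := gm (Fin n) (Fin m)) B) ?_
    · intro φ
      exact (cont_f_cay hf (cont_conj ((cont_SM_qq hH φ p1 p2).sub continuous_const) S)
        fun g => conj_symm (hs φ g) S).aestronglyMeasurable
    · intro φ
      exact Filter.Eventually.of_forall fun g => hB _ (conj_symm (hs φ g) S)
    · refine Filter.Eventually.of_forall fun g => ?_
      refine cont_f_cay hf (cont_conj (Continuous.sub ?_ continuous_const) S)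
        fun φ => conj_symm (hs φ g) S
      refine continuous_matrix fun a b => ?_
      simp only [SM_apply]
      exact continuous_finsetSum _ fun i _ => by fun_prop
  have he : (fun x => ∫ g, f (Uref H E ρ K x Za Zb Ta Tb p1 p2 g) ∂(gaussM n m)) =ᵐ[volume]
      fun x => ∫ g, f (CayG (S * (SM (fun i => (hl hH E i - x)⁻¹) (qq hH p1 p2 g) - A) * Sᵀ))
        ∂(gaussM n m) := by
    filter_upwards [ae_good hH E] with x hx
    exact integral_Uref hH hn E ρ K hx Za Zb Ta Tb p1 p2 f
  refine ⟨ii_of_ae (hc.measurable.comp (psi_meas hH E)) (fun x => hb _) he a b, ?_⟩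
  filter_upwards [he] with x hx
  rw [hx]
  exact hb _

include hH in
/-- test side -/
theorem test_ii (hn : 0 < n) (E K : ℝ) {ρ : ℝ} (hρ : 0 < ρ)
    {f : Matrix (Idx m) (Idx m) ℂ → ℝ} (hf : Continuous f)
    {B : ℝ} (hB : ∀ C : Matrix (Idx m) (Idx m) ℝ, Cᵀ = C → |f (CayG C)| ≤ B) (a b : ℝ) :
    IntervalIntegrable (fun x => ∫ g, f ((uOf H E ρ K x g).submatrix (idxEquiv m) (idxEquiv m))
        ∂(gaussM n (4 + m))) volume a b ∧
    ∀ᵐ x ∂(volume : Measure ℝ),
      |∫ g, f ((uOf H E ρ K x g).submatrix (idxEquiv m) (idxEquiv m))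
        ∂(gaussM n (4 + m))| ≤ B := by
  set S : Matrix (Idx m) (Idx m) ℝ := (Real.sqrt (Real.pi * ρ))⁻¹ • 1 with hS
  set A : Matrix (Idx m) (Idx m) ℝ := (mn H (zz E K n)).re • 1 with hA
  have hs : ∀ (φ : Fin n → ℝ) (g : Fin n → Idx m → ℝ), (SM φ g - A)ᵀ =
      SM φ g - A := fun φ g => by
    rw [Matrix.transpose_sub, SM_symm, hA, Matrix.transpose_smul, Matrix.transpose_one]
  have hb : ∀ φ : Fin n → ℝ, |∫ g, f (CayG (S * (SM φ g - A) * Sᵀ))
      ∂(gm (Fin n) (Idx m))| ≤ B := by
    intro φ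
    rw [← Real.norm_eq_abs]
    refine (norm_integral_le_of_norm_le (integrable_const (μ := gm (Fin n) (Idx m)) B)
      (Filter.Eventually.of_forall fun g => ?_)).trans (by simp)
    exact hB _ (conj_symm (hs φ g) S)
  have hc : Continuous fun φ : Fin n → ℝ => ∫ g, f (CayG (S * (SM φ g - A) * Sᵀ))
      ∂(gm (Fin n) (Idx m)) := by
    refine continuous_of_dominated (bound := fun _ => B) ?_ ?_
      (integrable_const (μ := gm (Fin n) (Idx m)) B) ?_
    · intro φ
      exact (cont_f_cay hf (cont_conj ((continuous_SM' φ).sub continuous_const) S)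
        fun g => conj_symm (hs φ g) S).aestronglyMeasurable
    · intro φ
      exact Filter.Eventually.of_forall fun g => hB _ (conj_symm (hs φ g) S)
    · refine Filter.Eventually.of_forall fun g => ?_
      refine cont_f_cay hf (cont_conj (Continuous.sub ?_ continuous_const) S)
        fun φ => conj_symm (hs φ g) S
      refine continuous_matrix fun a b => ?_
      simp only [SM_apply]
      exact continuous_finsetSum _ fun i _ => by fun_prop
  have he : (fun x => ∫ g, f ((uOf H E ρ K x g).submatrix (idxEquiv m) (idxEquiv m))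
        ∂(gaussM n (4 + m))) =ᵐ[volume]
      fun x => ∫ g, f (CayG (S * (SM (fun i => (hl hH E i - x)⁻¹) g - A) * Sᵀ))
        ∂(gm (Fin n) (Idx m)) := by
    filter_upwards [ae_good hH E] with x hx
    exact test_conv hH hf hn E ρ K hρ hx
  refine ⟨ii_of_ae (hc.measurable.comp (psi_meas hH E)) (fun x => hb _) he a b, ?_⟩
  filter_upwards [he] with x hx
  rw [hx]
  exact hb _

lemma eAvg2_integral {F : ℝ → Fin n × Fin n → Fin n × Fin n → ℝ} {a b : ℝ}
    (hF : ∀ p1 p2, IntervalIntegrable (fun x => F x p1 p2) volume a b) :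
    ∫ x in a..b, eAvg2 G (F x) = eAvg2 G fun p1 p2 => ∫ x in a..b, F x p1 p2 := by
  unfold eAvg2
  rw [intervalIntegral.integral_div]
  congr 1
  rw [intervalIntegral.integral_finsetSum fun p1 _ => ?_]
  · refine Finset.sum_congr rfl fun p1 _ => ?_
    rw [intervalIntegral.integral_finsetSum fun p2 _ => hF p1 p2]
  · exact ii_sum (darts G) (F := fun p2 x => F x p1 p2) fun p2 _ => hF p1 p2

include hH in
/-- integration over the energy shift -/
theorem xint (hG : G ∈ regularGraphs n d) (hn : 0 < n) (hd : 0 < d) {E K η : ℝ} {ρ δ : ℝ}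
    (hρ : 0 < ρ) (hδ : 0 < δ)
    {Za Zb : M2} (hZa : Zaᵀ = Za) (hZb : Zbᵀ = Zb) (Ta Tb : Matrix (Fin 2) (Fin 2) ℝ)
    {f : Matrix (Idx m) (Idx m) ℂ → ℝ} (hf : Continuous f)
    {B : ℝ} (hB0 : 0 ≤ B) (hB : ∀ C : Matrix (Idx m) (Idx m) ℝ, Cᵀ = C → |f (CayG C)| ≤ B)
    {χ : M2 → M2 → ℝ} (hχ01 : ∀ b1 b2, 0 ≤ χ b1 b2 ∧ χ b1 b2 ≤ 1) {e τ : ℝ} (he : 0 ≤ e)
    (hτ : 0 < τ) (hpt : ∀ x, 0 ≤ x → x ≤ δ → (∀ i, hl hH E i ≠ x) →
      (∀ i, |hl hH E i| ≤ K ^ 2 → τ ≤ |hl hH E i - x|) →
      |eAvg2 G (fun p1 p2 => χ (blk H E η p1) (blk H E η p2) *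
        ∫ g, f (Uref H E ρ K x Za Zb Ta Tb p1 p2 g) ∂(gaussM n m)) -
      cAvg G H E η χ * ∫ g, f ((uOf H E ρ K x g).submatrix (idxEquiv m) (idxEquiv m))
        ∂(gaussM n (4 + m))| ≤ e) :
    |PV G H E ρ K δ η Za Zb Ta Tb χ f - cAvg G H E η χ * TestVal H E ρ K δ (4 + m)
        (fun U => f (U.submatrix (idxEquiv m) (idxEquiv m)))| ≤
      e + δ⁻¹ * ((Finset.univ.filter fun i => |hl hH E i| ≤ K ^ 2).card * (4 * B * τ)) := by
  have hpos := card_darts_pos hG hn hd
  set c := cAvg G H E η χ with hc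
  have hc0 : 0 ≤ c := by
    rw [hc]; unfold cAvg
    rw [← eAvg2_const (G := G) hpos 0]; exact eAvg2_mono fun p1 p2 => (hχ01 _ _).1
  have hc1 : c ≤ 1 := by
    rw [hc]; unfold cAvg
    rw [← eAvg2_const (G := G) hpos 1]; exact eAvg2_mono fun p1 p2 => (hχ01 _ _).2
  set u : ℝ → Fin n × Fin n → Fin n × Fin n → ℝ := fun x p1 p2 =>
    ∫ g, f (Uref H E ρ K x Za Zb Ta Tb p1 p2 g) ∂(gaussM n m) with hu
  set t : ℝ → ℝ := fun x => ∫ g, f ((uOf H E ρ K x g).submatrix (idxEquiv m) (idxEquiv m))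
        ∂(gaussM n (4 + m)) with ht
  have hui : ∀ p1 p2, IntervalIntegrable (fun x => u x p1 p2) volume 0 δ := fun p1 p2 =>
    (port_ii hH hn E ρ K hZa hZb Ta Tb hf hB p1 p2 0 δ).1
  have hub : ∀ᵐ x ∂(volume : Measure ℝ), ∀ p1 p2, |u x p1 p2| ≤ B := by
    rw [ae_all_iff]; intro p1
    rw [ae_all_iff]; intro p2
    exact (port_ii hH hn E ρ K hZa hZb Ta Tb hf hB p1 p2 0 δ).2
  obtain ⟨hti, htb⟩ := test_ii hH hn E K hρ hf hB 0 δ
  -- rewriting
  have e1 : PV G H E ρ K δ η Za Zb Ta Tb χ f = δ⁻¹ * ∫ x in (0 : ℝ)..δ,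
      eAvg2 G (fun p1 p2 => χ (blk H E η p1) (blk H E η p2) * u x p1 p2) := by
    rw [eAvg2_integral (F := fun x p1 p2 => χ (blk H E η p1) (blk H E η p2) * u x p1 p2)
      fun p1 p2 => (hui p1 p2).const_mul _]
    rw [← eAvg2_mul_left]
    unfold PV tAvg
    congr 1
    ext p1 p2
    rw [intervalIntegral.integral_const_mul]
    simp only [hu]
    ring
  have e2 : c * TestVal H E ρ K δ (4 + m)
        (fun U => f (U.submatrix (idxEquiv m) (idxEquiv m))) =
      δ⁻¹ * ∫ x in (0 : ℝ)..δ, c * t x := by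
    rw [intervalIntegral.integral_const_mul]
    unfold TestVal
    simp only [ht]
    ring
  have hPi : IntervalIntegrable (fun x => eAvg2 G (fun p1 p2 => χ (blk H E η p1) (blk H E η p2) *
      u x p1 p2)) volume 0 δ := by
    unfold eAvg2
    refine IntervalIntegrable.div_const ?_ _
    have h1 : ∀ p1, IntervalIntegrable (fun x => ∑ p2 ∈ darts G,
        χ (blk H E η p1) (blk H E η p2) * u x p1 p2) volume 0 δ := by
      intro p1
      exact ii_sum (darts G) (F := fun p2 x =>
        χ (blk H E η p1) (blk H E η p2) * u x p1 p2) fun p2 _ => (hui p1 p2).const_mul _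
    exact ii_sum (darts G) (F := fun p1 x => ∑ p2 ∈ darts G,
        χ (blk H E η p1) (blk H E η p2) * u x p1 p2) fun p1 _ => h1 p1
  rw [e1, e2, ← mul_sub, ← intervalIntegral.integral_sub hPi (hti.const_mul c), abs_mul,
    abs_of_pos (inv_pos.2 hδ)]
  -- the dominating function
  set near := Finset.univ.filter fun i => |hl hH E i| ≤ K ^ 2 with hnear
  set bd' : ℝ → ℝ := fun x => e + ∑ i ∈ near, (Set.Ioo (hl hH E i - τ) (hl hH E i + τ)).indicator
    (fun _ => 2 * B) x with hbd
  have hind : ∀ i, IntervalIntegrable ((Set.Ioo (hl hH E i - τ) (hl hH E i + τ)).indicator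
      (fun _ => 2 * B)) volume 0 δ := by
    intro i
    refine (intervalIntegrable_const (c := 2 * B)).mono_fun'
      (measurable_const.indicator measurableSet_Ioo).aestronglyMeasurable
      (Filter.Eventually.of_forall fun x => ?_)
    show ‖(Set.Ioo (hl hH E i - τ) (hl hH E i + τ)).indicator (fun _ => 2 * B) x‖ ≤ 2 * B
    rw [Real.norm_eq_abs, abs_of_nonneg (Set.indicator_nonneg (fun _ _ => by positivity) _)]
    exact Set.indicator_le_self' (fun _ _ => by positivity) _
  have hbi : IntervalIntegrable bd' volume 0 δ := by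
    refine intervalIntegrable_const.add ?_
    exact ii_sum near (F := fun i =>
      (Set.Ioo (hl hH E i - τ) (hl hH E i + τ)).indicator (fun _ => 2 * B)) fun i _ => hind i
  have hle : ∀ᵐ x ∂(volume : Measure ℝ), x ∈ Set.Ioc 0 δ →
      ‖eAvg2 G (fun p1 p2 => χ (blk H E η p1) (blk H E η p2) * u x p1 p2) - c * t x‖ ≤ bd' x := by
    filter_upwards [hub, htb, ae_good hH E] with x hx1 hx2 hx3 hxI
    have hnn : ∀ i, 0 ≤ (Set.Ioo (hl hH E i - τ) (hl hH E i + τ)).indicator
        (fun _ => 2 * B) x := fun i => Set.indicator_nonneg (fun _ _ => by positivity) _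
    rw [Real.norm_eq_abs]
    by_cases hgood : ∀ i, |hl hH E i| ≤ K ^ 2 → τ ≤ |hl hH E i - x|
    · refine (hpt x hxI.1.le hxI.2 hx3 hgood).trans ?_
      simp only [hbd]
      have : 0 ≤ ∑ i ∈ near, (Set.Ioo (hl hH E i - τ) (hl hH E i + τ)).indicator
        (fun _ => 2 * B) x := Finset.sum_nonneg fun i _ => hnn i
      linarith
    · push Not at hgood
      obtain ⟨i, hi1, hi2⟩ := hgood
      have hmem : i ∈ near := Finset.mem_filter.2 ⟨Finset.mem_univ i, hi1⟩
      have h1 : |eAvg2 G (fun p1 p2 => χ (blk H E η p1) (blk H E η p2) * u x p1 p2)| ≤ B := by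
        refine (abs_eAvg2_le _).trans ?_
        rw [← eAvg2_const (G := G) hpos B]
        refine eAvg2_mono fun p1 p2 => ?_
        rw [abs_mul, abs_of_nonneg (hχ01 _ _).1]
        have h2 := (hχ01 (blk H E η p1) (blk H E η p2)).2
        have h3 := (hχ01 (blk H E η p1) (blk H E η p2)).1
        nlinarith [hx1 p1 p2, abs_nonneg (u x p1 p2)]
      have h2 : |c * t x| ≤ B := by
        rw [abs_mul, abs_of_nonneg hc0]
        nlinarith [hx2, abs_nonneg (t x)]
      have h3 : x ∈ Set.Ioo (hl hH E i - τ) (hl hH E i + τ) := by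
        rw [abs_lt] at hi2
        constructor <;> linarith [hi2.1, hi2.2]
      have h4 : 2 * B ≤ ∑ i ∈ near, (Set.Ioo (hl hH E i - τ) (hl hH E i + τ)).indicator
        (fun _ => 2 * B) x := by
        have h5 : (Set.Ioo (hl hH E i - τ) (hl hH E i + τ)).indicator (fun _ => 2 * B) x =
            2 * B := Set.indicator_of_mem h3 _
        refine h5.ge.trans ?_
        exact Finset.single_le_sum (f := fun i => (Set.Ioo (hl hH E i - τ)
          (hl hH E i + τ)).indicator (fun _ => 2 * B) x) (fun i _ => hnn i) hmem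
      calc _ ≤ |eAvg2 G (fun p1 p2 => χ (blk H E η p1) (blk H E η p2) * u x p1 p2)| + |c * t x| :=
            abs_sub _ _
        _ ≤ 2 * B := by linarith
        _ ≤ bd' x := by simp only [hbd]; linarith
  have hmain := intervalIntegral.norm_integral_le_of_norm_le hδ.le hle hbi
  rw [Real.norm_eq_abs] at hmain
  have hint : ∫ x in (0 : ℝ)..δ, bd' x ≤ δ * e + near.card * (4 * B * τ) := by
    simp only [hbd]
    rw [intervalIntegral.integral_add intervalIntegrable_const]
    · rw [intervalIntegral.integral_finsetSum fun i _ => hind i]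
      simp only [intervalIntegral.integral_const, sub_zero, smul_eq_mul]
      have h1 : ∀ i, ∫ x in (0 : ℝ)..δ, (Set.Ioo (hl hH E i - τ) (hl hH E i + τ)).indicator
          (fun _ => 2 * B) x ≤ 4 * B * τ := by
        intro i
        rw [intervalIntegral.integral_of_le hδ.le]
        have h2 : ∫ x in Set.Ioc 0 δ, (Set.Ioo (hl hH E i - τ) (hl hH E i + τ)).indicator
            (fun _ => 2 * B) x ≤ ∫ x, (Set.Ioo (hl hH E i - τ) (hl hH E i + τ)).indicator
            (fun _ => 2 * B) x := by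
          apply setIntegral_le_integral
          · refine (integrable_indicator_iff measurableSet_Ioo).2 ?_
            exact integrableOn_const (by simp)
          · exact Filter.Eventually.of_forall fun x =>
              Set.indicator_nonneg (fun _ _ => by positivity) _
        refine h2.trans (le_of_eq ?_)
        rw [integral_indicator measurableSet_Ioo, setIntegral_const, Real.volume_real_Ioo_of_le
          (by linarith), smul_eq_mul]
        ring
      have h3 : ∑ i ∈ near, ∫ x in (0 : ℝ)..δ, (Set.Ioo (hl hH E i - τ)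
          (hl hH E i + τ)).indicator (fun _ => 2 * B) x ≤ near.card * (4 * B * τ) := by
        rw [← nsmul_eq_mul]
        exact Finset.sum_le_card_nsmul _ _ _ fun i _ => h1 i
      linarith
    · exact ii_sum near (F := fun i =>
        (Set.Ioo (hl hH E i - τ) (hl hH E i + τ)).indicator (fun _ => 2 * B)) fun i _ => hind i
  calc _ ≤ δ⁻¹ * (δ * e + near.card * (4 * B * τ)) :=
        mul_le_mul_of_nonneg_left (hmain.trans hint) (inv_nonneg.2 hδ.le)
    _ = _ := by
        rw [mul_add, ← mul_assoc, inv_mul_cancel₀ hδ.ne', one_mul]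

end Crest.Agent.R166.Inv988
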