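import Crest.Agent.R166.InvK2_988
import Crest.Agent.R166.DosB_420

/-!
Row 166, section 50 (helper988): ingredients for the final quantifier assembly.
-/

set_option autoImplicit false
set_option linter.unusedSectionVars false
set_option linter.unusedSimpArgs false

namespace Crest.Agent.R166.Inv988

open MeasureTheory ProbabilityTheory Matrix Crest.ProbabilityR.RandomMatrix Crest.Agent.R166
open Crest.Agent.R166.Gauss286
open Crest.Agent.R166.SW341 (XK gm2 sw2)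

variable {n m d : ℕ} {H : Matrix (Fin n) (Fin n) ℝ} (hH : H.IsHermitian)
  {G : SimpleGraph (Fin n)}

include hH in
/-- the imaginary parts of the blocks are of the form `A Aᵀ` -/
theorem exists_A (hn : 0 < n) {E η ρ : ℝ} (hη : 0 < η) (hρ : 0 < ρ) :
    ∃ A : Fin n × Fin n → Matrix (Fin 2) (Fin 2) ℝ,
      ∀ p, A p * (A p)ᵀ = Matrix.of fun a c => (blk H E η p a c).im / (Real.pi * ρ) := by
  have hn' : (0 : ℝ) < n := by exact_mod_cast hn
  have hπ : 0 < Real.pi * ρ := by positivity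
  have hz : ze E η = zz E (n * η) n := by
    unfold ze zz
    congr 3
    field_simp
  have hK : 0 < (n : ℝ) * η := by positivity
  have key : ∀ p : Fin n × Fin n, ∃ A : Matrix (Fin 2) (Fin 2) ℝ,
      A * Aᵀ = Matrix.of fun a c => (blk H E η p a c).im / (Real.pi * ρ) := by
    intro p
    apply SW341.exists_mul_transpose
    set Q : Matrix (Fin 2) (Fin n) ℝ := Matrix.of fun a i =>
      Real.sqrt ((n * η) / (hl hH E i ^ 2 + (n * η) ^ 2) / (Real.pi * ρ)) *
        eF hH i (![p.1, p.2] a) with hQ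
    have h1 : (Matrix.of fun a c => (blk H E η p a c).im / (Real.pi * ρ)) = Q * Qᴴ := by
      ext a c
      rw [Matrix.mul_apply]
      simp only [Matrix.of_apply, hQ, Matrix.conjTranspose_apply, star_trivial]
      unfold blk Blk
      rw [Matrix.submatrix_apply, hz, Res_zz_im hH hn hK, Finset.sum_div]
      refine Finset.sum_congr rfl fun i _ => ?_
      have h2 : 0 ≤ (n * η) / (hl hH E i ^ 2 + (n * η) ^ 2) / (Real.pi * ρ) := by positivity
      have h3 := Real.mul_self_sqrt h2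
      calc _ = ((n * η) / (hl hH E i ^ 2 + (n * η) ^ 2) / (Real.pi * ρ)) *
            (eF hH i (![p.1, p.2] a) * eF hH i (![p.1, p.2] c)) := by ring
        _ = (Real.sqrt ((n * η) / (hl hH E i ^ 2 + (n * η) ^ 2) / (Real.pi * ρ)) *
              Real.sqrt ((n * η) / (hl hH E i ^ 2 + (n * η) ^ 2) / (Real.pi * ρ))) *
            (eF hH i (![p.1, p.2] a) * eF hH i (![p.1, p.2] c)) := by rw [h3]
        _ = _ := by ring
    rw [h1]
    exact Matrix.posSemidef_self_mul_conjTranspose _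
  choose A hA using key
  exact ⟨A, hA⟩

include hH in
/-- second moments of the marks -/
theorem moment (hG : G ∈ regularGraphs n d) (hn : 0 < n) {k : ℕ} (σ : Fin k → Fin n) :
    ∑ p ∈ darts G, ∑ i, ∑ a, (qm hH σ p i a) ^ 2 ≤ (2 * k : ℝ) * ((darts G).card : ℝ) := by
  have h1 : ∑ p ∈ darts G, ∑ i, ∑ a, (qm hH σ p i a) ^ 2 =
      ∑ i : Fin k, ∑ a : Fin 2, ∑ p ∈ darts G, (eF hH (σ i) (![p.1, p.2] a)) ^ 2 := by
    rw [Finset.sum_comm]
    refine Finset.sum_congr rfl fun i _ => ?_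
    rw [Finset.sum_comm]
    rfl
  rw [h1]
  have h2 : ∀ (i : Fin k) (a : Fin 2), ∑ p ∈ darts G, (eF hH (σ i) (![p.1, p.2] a)) ^ 2 =
      d * n := by
    intro i a
    rw [sum_darts_port hG a fun v => (eF hH (σ i) v) ^ 2]
    have h3 := eF_orth hH hn (σ i) (σ i)
    rw [if_pos rfl] at h3
    rw [← h3]
    congr 1
    exact Finset.sum_congr rfl fun v _ => by ring
  simp only [h2]
  rw [card_darts hG]
  simp only [Finset.sum_const, Finset.card_univ, Fintype.card_fin, nsmul_eq_mul]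
  apply le_of_eq
  push_cast
  ring

/-- the compact set of blocks -/
def Kset (Z : M2) (r : ℝ) : Set M2 :=
  Set.pi Set.univ fun i => Set.pi Set.univ fun j => Metric.closedBall (Z i j) r

lemma isCompact_Kset (Z : M2) (r : ℝ) : IsCompact (Kset Z r) :=
  isCompact_univ_pi fun _ => isCompact_univ_pi fun _ => isCompact_closedBall _ _

lemma mem_Kset {Z b : M2} {r : ℝ} (h : bnorm (b - Z) ≤ r) : b ∈ Kset Z r := by
  intro i _ j _
  rw [Metric.mem_closedBall, dist_eq_norm]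
  exact (norm_le_bnorm (b - Z) i j).trans h

/-- the input from theorem B for a fixed number of near eigenvectors -/
structure TB (k : ℕ) where
  N : ℕ
  τ : Fin N → XK k
  χ : Fin N → M2 → ℝ
  ε : ℝ
  hε : 0 < ε
  hχ : ∀ j, Continuous (χ j) ∧ HasCompactSupport (χ j)

/-- the event of theorem B -/
def TBev {k : ℕ} (T : TB k) (j : Fin T.N) (H : Matrix (Fin n) (Fin n) ℝ) (G : SimpleGraph (Fin n))
    (E K' η ρ ε : ℝ) : Prop :=
  ∀ F : Fin k → Fin n → ℝ, IsFrame H E K' k F →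
      ‖(∑ p ∈ darts G, (T.χ j (Blk (Res H (ze E η)) p.1 p.2) : ℂ) *
        (Complex.exp (Complex.I *
            ((∑ i, (T.τ j i 0 * F i p.1 + T.τ j i 1 * F i p.2) : ℝ) : ℂ)) -
          ((Real.exp (-(1 / 2) * ∑ i, ∑ a, ∑ b, T.τ j i a *
            ((Blk (Res H (ze E η)) p.1 p.2 a b).im / (Real.pi * ρ)) * T.τ j i b) : ℝ) : ℂ)))
        / ((darts G).card : ℂ)‖ ≤ ε

/-- from theorem B to `SWprop`: for every `k` there are finitely many test functions -/
theorem exists_TB {f : Matrix (Idx m) (Idx m) ℂ → ℝ} (hf : Continuous f)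
    (S : Matrix (Idx m) (Idx m) ℝ) {χ : M2 → M2 → ℝ}
    (hχc : Continuous fun b : M2 × M2 => χ b.1 b.2) (hχ01 : ∀ b1 b2, 0 ≤ χ b1 b2 ∧ χ b1 b2 ≤ 1)
    {Za Zb : M2} {r0 : ℝ}
    (hχs : ∀ b1 b2, χ b1 b2 ≠ 0 → bnorm (b1 - Za) ≤ r0 ∧ bnorm (b2 - Zb) ≤ r0)
    (ρ Φ : ℝ) {ε3 : ℝ} (hε3 : 0 < ε3) (k : ℕ) :
    ∃ T : TB k, ∀ {n d : ℕ} {H : Matrix (Fin n) (Fin n) ℝ} (hH : H.IsHermitian)
      {G : SimpleGraph (Fin n)}, G ∈ regularGraphs n d → 0 < n → 0 < d → ∀ (E K η : ℝ)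
      (A : Fin n × Fin n → Matrix (Fin 2) (Fin 2) ℝ),
      (∀ p, A p * (A p)ᵀ = Matrix.of fun a c => (blk H E η p a c).im / (Real.pi * ρ)) →
      (∀ j, TBev T j H G E (K ^ 2) η ρ T.ε) → ∀ σ : Fin k → Fin n,
      Function.Injective σ → (∀ j, |hl hH E (σ j)| ≤ K ^ 2) →
      ∀ φ : Fin k → Set.Icc (-Φ) Φ,
      |eAvg2 G (fun p1 p2 => Fk f S χ Φ φ (blk H E η p1, blk H E η p2)
        (qm hH σ p1, qm hH σ p2) -
        ∫ g, Fk f S χ Φ φ (blk H E η p1, blk H E η p2)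
          (fun i => A p1 *ᵥ g.1 i, fun i => A p2 *ᵥ g.2 i) ∂(gm2 _))| ≤ ε3 := by
  obtain ⟨B, hB0, hB⟩ := exists_bound hf
  obtain ⟨N, τ, χ', ε, hε, hχ', hmain⟩ := sw2 (P := Fin k → Set.Icc (-Φ) Φ) (k := k) (ρ := ρ)
    (Fk f S χ Φ) (Fk_cont hf S hχc Φ) (CF := B) (by
      intro φ b x
      unfold Fk
      rw [abs_mul, abs_of_nonneg (hχ01 _ _).1]
      have h1 := Fk_bound hB S (fun i => (φ i : ℝ)) x
      have h2 := (hχ01 b.1 b.2).2
      have h3 := (hχ01 b.1 b.2).1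
      nlinarith [abs_nonneg (∫ g, f (CayG (S * SM (fun i => (φ i : ℝ)) (mk3 x.1 x.2 g) * Sᵀ))
        ∂(gm (Fin k) (Fin m)))])
    (Kb := Kset Za r0 ∪ Kset Zb r0) ((isCompact_Kset _ _).union (isCompact_Kset _ _)) (by
      intro φ b x hne
      have h1 : χ b.1 b.2 ≠ 0 := by
        intro h0
        apply hne
        unfold Fk
        rw [h0, zero_mul]
      have h2 := hχs _ _ h1
      exact ⟨Or.inl (mem_Kset h2.1), Or.inr (mem_Kset h2.2)⟩) (2 * k : ℝ) hε3
  refine ⟨⟨N, τ, χ', ε, hε, hχ'⟩, ?_⟩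
  intro n d H hH G hG hn hd E K η A hA hev σ hσ hσn φ
  have hpos := card_darts_pos hG hn hd
  have hne : (darts G).Nonempty := by
    rw [← Finset.card_pos]
    exact_mod_cast hpos
  have h1 := hmain (darts G) (blk H E η) (qm hH σ) A hne (fun p _ => hA p)
    (moment hH hG hn σ) ?_ φ
  · exact h1
  · intro j
    have h2 := hev j (fun j => eF hH (σ j)) (isFrame_near hH hn σ hσ hσn)
    exact h2

lemma exists_pos_le {κ : Type*} [Fintype κ] (f : κ → ℝ) (hf : ∀ i, 0 < f i) :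
    ∃ c : ℝ, 0 < c ∧ ∀ i, c ≤ f i := by
  have h0 : ∀ i, 0 < (f i)⁻¹ := fun i => inv_pos.2 (hf i)
  have hs : 0 ≤ ∑ i, (f i)⁻¹ := Finset.sum_nonneg fun i _ => (h0 i).le
  refine ⟨(1 + ∑ i, (f i)⁻¹)⁻¹, by positivity, fun i => ?_⟩
  rw [inv_le_comm₀ (by positivity) (hf i)]
  have := Finset.single_le_sum (f := fun i => (f i)⁻¹) (fun i _ => (h0 i).le) (Finset.mem_univ i)
  linarith

end Crest.Agent.R166.Inv988
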