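import Crest.Agent.R166.InvM_988

/-!
Row 166, section 50 (helper988): the near part; comparison with the Gaussian reference.
-/

set_option autoImplicit false
set_option linter.unusedSectionVars false
set_option linter.unusedSimpArgs false

namespace Crest.Agent.R166.Inv988

open MeasureTheory ProbabilityTheory Matrix Crest.ProbabilityR.RandomMatrix Crest.Agent.R166
open Crest.Agent.R166.Gauss286
open Crest.Agent.R166.SW341 (XK gm2 sw2)
open scoped Matrix.Norms.L2Operator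

variable {m k : ℕ}

/-- change of both port factors -/
theorem gm2_change {A1 A1' A2 A2' : Matrix (Fin 2) (Fin 2) ℝ} (h1 : A1 * A1ᵀ = A1' * A1'ᵀ)
    (h2 : A2 * A2ᵀ = A2' * A2'ᵀ) {F : XK k × XK k → ℝ} (hF : Continuous F) {B : ℝ}
    (hB : ∀ y, |F y| ≤ B) :
    ∫ p, F (fun i => A1 *ᵥ p.1 i, fun i => A2 *ᵥ p.2 i) ∂(gm2 k) =
      ∫ p, F (fun i => A1' *ᵥ p.1 i, fun i => A2' *ᵥ p.2 i) ∂(gm2 k) := by
  have hcm : ∀ A : Matrix (Fin 2) (Fin 2) ℝ, Continuous fun (g : XK k) i => A *ᵥ g i := fun A =>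
    continuous_pi fun i => Continuous.matrix_mulVec continuous_const (continuous_apply i)
  have hI : ∀ A A' : Matrix (Fin 2) (Fin 2) ℝ, Integrable (fun p : XK k × XK k =>
      F (fun i => A *ᵥ p.1 i, fun i => A' *ᵥ p.2 i)) (gm2 k) := by
    intro A A'
    refine Integrable.of_bound (C := B) ?_ (Filter.Eventually.of_forall fun p => hB _)
    exact (hF.comp (((hcm A).comp continuous_fst).prodMk
      ((hcm A').comp continuous_snd))).aestronglyMeasurable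
  rw [integral_prod _ (hI A1 A2), integral_prod _ (hI A1' A2')]
  have e1 : ∀ q : XK k, ∫ g, F (q, fun i => A2 *ᵥ g i) ∂(gm (Fin k) (Fin 2)) =
      ∫ g, F (q, fun i => A2' *ᵥ g i) ∂(gm (Fin k) (Fin 2)) := fun q =>
    integral_mulVec_eq h2 (F := fun g => F (q, g)) (hF.comp (continuous_const.prodMk continuous_id))
  simp only [e1]
  refine integral_mulVec_eq h1 (F := fun q => ∫ g, F (q, fun i => A2' *ᵥ g i)
    ∂(gm (Fin k) (Fin 2))) ?_
  refine continuous_of_dominated (bound := fun _ => B) ?_ ?_ (integrable_const B) ?_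
  · intro q
    exact (hF.comp (continuous_const.prodMk (hcm A2'))).aestronglyMeasurable
  · intro q
    exact Filter.Eventually.of_forall fun g => hB _
  · exact Filter.Eventually.of_forall fun g => hF.comp (continuous_id.prodMk continuous_const)

lemma l1_im_sub_le (b Z : M2) : l1 (imPart b - imPart Z) ≤ 4 * bnorm (b - Z) := by
  unfold l1
  have h : ∀ i j, |(imPart b - imPart Z) i j| ≤ bnorm (b - Z) := by
    intro i j
    have e : (imPart b - imPart Z) i j = ((b - Z) i j).im := by simp [imPart]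
    rw [e]
    exact (Complex.abs_im_le_norm _).trans (norm_le_bnorm _ i j)
  calc ∑ a, ∑ c, |(imPart b - imPart Z) a c| ≤ ∑ _a : Fin 2, ∑ _c : Fin 2, bnorm (b - Z) :=
        Finset.sum_le_sum fun a _ => Finset.sum_le_sum fun c _ => h a c
    _ = _ := by simp; ring

/-- choice of the factor near the reference -/
theorem exists_factor {Z b : M2} {T A : Matrix (Fin 2) (Fin 2) ℝ} {ρ : ℝ} (hρ : 0 < ρ)
    (hT : T * Tᵀ = imPart Z) (hTu : IsUnit T.det)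
    (hA : A * Aᵀ = Matrix.of fun a c => (b a c).im / (Real.pi * ρ)) :
    ∃ W : Matrix (Fin 2) (Fin 2) ℝ,
      A * Aᵀ = ((Real.sqrt (Real.pi * ρ))⁻¹ • (T * W)) *
        ((Real.sqrt (Real.pi * ρ))⁻¹ • (T * W))ᵀ ∧
      l1 (W - 1) ≤ 16 * l1 T⁻¹ ^ 2 * bnorm (b - Z) := by
  have hπ : 0 < Real.pi * ρ := by positivity
  set s := (Real.sqrt (Real.pi * ρ))⁻¹ with hs
  have hss : s * s * (Real.pi * ρ) = 1 := by
    rw [hs, ← mul_inv, Real.mul_self_sqrt hπ.le, inv_mul_cancel₀ hπ.ne']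
  have hb : imPart b = (Real.pi * ρ) • (A * Aᵀ) := by
    rw [hA]
    ext i j
    simp only [imPart, Matrix.map_apply, Matrix.smul_apply, Matrix.of_apply, smul_eq_mul]
    field_simp
  set Q := T⁻¹ * imPart b * (T⁻¹)ᵀ with hQ
  have hQp : Q.PosSemidef := by
    have h1 : Q = (Real.sqrt (Real.pi * ρ) • (T⁻¹ * A)) *
        (Real.sqrt (Real.pi * ρ) • (T⁻¹ * A))ᴴ := by
      rw [hQ, hb, Matrix.conjTranspose_eq_transpose_of_trivial, Matrix.transpose_smul,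
        Matrix.transpose_mul]
      simp only [Matrix.smul_mul, Matrix.mul_smul, smul_smul, Real.mul_self_sqrt hπ.le,
        Matrix.mul_assoc]
    rw [h1]
    exact Matrix.posSemidef_self_mul_conjTranspose _
  obtain ⟨W, hW1, hW2⟩ := exists_sqrt_near hQp
  refine ⟨W, ?_, ?_⟩
  · have h2 : T * Q * Tᵀ = imPart b := by
      rw [hQ]
      have e1 : (T⁻¹)ᵀ * Tᵀ = 1 := by
        rw [← Matrix.transpose_mul, Matrix.mul_nonsing_inv _ hTu, Matrix.transpose_one]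
      calc T * (T⁻¹ * imPart b * (T⁻¹)ᵀ) * Tᵀ = (T * T⁻¹) * imPart b * ((T⁻¹)ᵀ * Tᵀ) := by
            simp only [Matrix.mul_assoc]
        _ = _ := by rw [e1, Matrix.mul_nonsing_inv _ hTu, Matrix.one_mul, Matrix.mul_one]
    rw [Matrix.transpose_smul, Matrix.smul_mul, Matrix.mul_smul, smul_smul, Matrix.transpose_mul]
    have e2 : T * W * (Wᵀ * Tᵀ) = imPart b := by
      rw [← h2, ← hW1]; simp only [Matrix.mul_assoc]
    rw [e2, hb, smul_smul, hss, one_smul]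
  · have h3 : Q - 1 = T⁻¹ * (imPart b - imPart Z) * (T⁻¹)ᵀ := by
      have e1 : T⁻¹ * imPart Z * (T⁻¹)ᵀ = 1 := by
        rw [← hT]
        calc T⁻¹ * (T * Tᵀ) * (T⁻¹)ᵀ = (T⁻¹ * T) * (Tᵀ * (T⁻¹)ᵀ) := by
              simp only [Matrix.mul_assoc]
          _ = 1 := by
              rw [Matrix.nonsing_inv_mul _ hTu, ← Matrix.transpose_mul,
                Matrix.nonsing_inv_mul _ hTu, Matrix.transpose_one, Matrix.one_mul]
      rw [Matrix.mul_sub, Matrix.sub_mul, e1, hQ]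
    have h4 : l1 (Q - 1) ≤ l1 T⁻¹ ^ 2 * (4 * bnorm (b - Z)) := by
      rw [h3]
      exact (l1_conj_le _ _).trans (mul_le_mul_of_nonneg_left (l1_im_sub_le b Z) (sq_nonneg _))
    have h5 : (Fintype.card (Fin 2) : ℝ) ^ 2 = 4 := by norm_num
    rw [h5] at hW2
    calc l1 (W - 1) ≤ 4 * l1 (Q - 1) := hW2
      _ ≤ 4 * (l1 T⁻¹ ^ 2 * (4 * bnorm (b - Z))) := by linarith
      _ = _ := by ring

/-- tests integrated -/
noncomputable def Jin (f : Matrix (Idx m) (Idx m) ℂ → ℝ) (S : Matrix (Idx m) (Idx m) ℝ)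
    (φ : Fin k → ℝ) (q : XK k × XK k) : ℝ :=
  ∫ g, f (CayG (S * SM φ (mk3 q.1 q.2 g) * Sᵀ)) ∂(gm (Fin k) (Fin m))

lemma Jin_cont {f : Matrix (Idx m) (Idx m) ℂ → ℝ} (hf : Continuous f)
    (S : Matrix (Idx m) (Idx m) ℝ) (φ : Fin k → ℝ) : Continuous (Jin f S φ) := by
  have h := (Fk_inner_cont (k := k) hf S).comp
    ((continuous_const (y := φ)).prodMk (continuous_id (X := XK k × XK k)))
  exact h

lemma Jin_bound {f : Matrix (Idx m) (Idx m) ℂ → ℝ} {B : ℝ}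
    (hB : ∀ C : Matrix (Idx m) (Idx m) ℝ, Cᵀ = C → |f (CayG C)| ≤ B)
    (S : Matrix (Idx m) (Idx m) ℝ) (φ : Fin k → ℝ) (q : XK k × XK k) : |Jin f S φ q| ≤ B :=
  Fk_bound hB S φ q

lemma Jin_integrand_int {f : Matrix (Idx m) (Idx m) ℂ → ℝ} (hf : Continuous f)
    (S : Matrix (Idx m) (Idx m) ℝ) (φ : Fin k → ℝ) (q : XK k × XK k) :
    Integrable (fun g : Fin k → Fin m → ℝ => f (CayG (S * SM φ (mk3 q.1 q.2 g) * Sᵀ)))
      (gm (Fin k) (Fin m)) :=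
  int_f_cay hf (cont_conj (cont_SM3 continuous_const fun i a =>
      cont_mk3 continuous_const continuous_const continuous_id i a) S)
      fun g => conj_symm (SM_symm _ _) S

/-- pointwise identity of arrays -/
lemma frame_id {Ta Tb W1 W2 : Matrix (Fin 2) (Fin 2) ℝ} (ha : IsUnit Ta.det) (hb : IsUnit Tb.det)
    (s : ℝ) (φ : Fin k → ℝ) (p : XK k × XK k) (g : Fin k → Fin m → ℝ) :
    bd Ta⁻¹ Tb⁻¹ s * SM φ (mk3 (fun i => (s • (Ta * W1)) *ᵥ p.1 i)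
      (fun i => (s • (Tb * W2)) *ᵥ p.2 i) g) * (bd Ta⁻¹ Tb⁻¹ s)ᵀ =
    bd W1 W2 1 * ((s • (1 : Matrix (Idx m) (Idx m) ℝ)) * SM φ (mk3 p.1 p.2 g) *
      (s • (1 : Matrix (Idx m) (Idx m) ℝ))ᵀ) * (bd W1 W2 1)ᵀ := by
  rw [SM_congr_mul, SM_congr_mul, SM_congr_mul]
  congr 1
  funext i
  have e1 : (s • (1 : Matrix (Idx m) (Idx m) ℝ)) *ᵥ mk3 p.1 p.2 g i =
      Sum.elim (Sum.elim (s • p.1 i) (s • p.2 i)) (s • g i) := by
    rw [Matrix.smul_mulVec, Matrix.one_mulVec]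
    ext a
    rcases a with (a | a) | a <;> rfl
  have t1 : ∀ (T W : Matrix (Fin 2) (Fin 2) ℝ) (x : Fin 2 → ℝ), IsUnit T.det →
      T⁻¹ *ᵥ ((s • (T * W)) *ᵥ x) = W *ᵥ (s • x) := by
    intro T W x hT
    rw [Matrix.smul_mulVec, Matrix.mulVec_smul, Matrix.mulVec_mulVec, ← Matrix.mul_assoc,
      Matrix.nonsing_inv_mul _ hT, Matrix.one_mul, Matrix.mulVec_smul]
  rw [e1, bd_mulVec]
  have e2 : mk3 (fun i => (s • (Ta * W1)) *ᵥ p.1 i) (fun i => (s • (Tb * W2)) *ᵥ p.2 i) g i =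
      (Sum.elim (Sum.elim ((s • (Ta * W1)) *ᵥ p.1 i) ((s • (Tb * W2)) *ᵥ p.2 i)) (g i) :
        Idx m → ℝ) := rfl
  rw [e2, bd_mulVec, t1 Ta W1 _ ha, t1 Tb W2 _ hb, one_smul]

/-- comparison of the Gaussian integrals in two frames related by `V` near `1` -/
lemma Jin_close {f : Matrix (Idx m) (Idx m) ℂ → ℝ} (hf : Continuous f)
    {Ta Tb W1 W2 : Matrix (Fin 2) (Fin 2) ℝ} (ha : IsUnit Ta.det) (hb : IsUnit Tb.det)
    {ε r : ℝ} (hr : ∀ C W : Matrix (Idx m) (Idx m) ℝ, Cᵀ = C → ‖cx W - 1‖ ≤ r →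
      |f (CayG (W * C * Wᵀ)) - f (CayG C)| ≤ ε) (s : ℝ) (φ : Fin k → ℝ)
    (hV : ‖cx (bd (m := m) W1 W2 1) - 1‖ ≤ r) (p : XK k × XK k) :
    |Jin f (bd Ta⁻¹ Tb⁻¹ s) φ (fun i => (s • (Ta * W1)) *ᵥ p.1 i,
        fun i => (s • (Tb * W2)) *ᵥ p.2 i) -
      Jin f (s • (1 : Matrix (Idx m) (Idx m) ℝ)) φ p| ≤ ε := by
  unfold Jin
  rw [← integral_sub (Jin_integrand_int hf _ φ _) (Jin_integrand_int hf _ φ _),
    ← Real.norm_eq_abs]
  refine (norm_integral_le_of_norm_le (integrable_const ε)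
    (Filter.Eventually.of_forall fun g => ?_)).trans (by simp)
  rw [Real.norm_eq_abs]
  rw [frame_id ha hb s φ p g]
  exact hr _ _ (conj_symm (SM_symm _ _) _) hV

/-- Gaussian marks with covariance near the reference -/
theorem gauss_compare {f : Matrix (Idx m) (Idx m) ℂ → ℝ} (hf : Continuous f) {ρ : ℝ}
    (hρ : 0 < ρ) {Za Zb b1 b2 : M2} {Ta Tb A1 A2 : Matrix (Fin 2) (Fin 2) ℝ}
    (hTa : Ta * Taᵀ = imPart Za) (hTb : Tb * Tbᵀ = imPart Zb) (ha : IsUnit Ta.det)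
    (hb : IsUnit Tb.det)
    (hA1 : A1 * A1ᵀ = Matrix.of fun a c => (b1 a c).im / (Real.pi * ρ))
    (hA2 : A2 * A2ᵀ = Matrix.of fun a c => (b2 a c).im / (Real.pi * ρ))
    {ε r : ℝ} (hr : ∀ C W : Matrix (Idx m) (Idx m) ℝ, Cᵀ = C → ‖cx W - 1‖ ≤ r →
      |f (CayG (W * C * Wᵀ)) - f (CayG C)| ≤ ε) {r0 : ℝ}
    (h1 : bnorm (b1 - Za) ≤ r0) (h2 : bnorm (b2 - Zb) ≤ r0)
    (hr0 : 16 * (l1 Ta⁻¹ ^ 2 + l1 Tb⁻¹ ^ 2) * r0 ≤ r) (φ : Fin k → ℝ) :
    |∫ p, Jin f ((Tref Ta Tb ρ)⁻¹) φ (fun i => A1 *ᵥ p.1 i, fun i => A2 *ᵥ p.2 i) ∂(gm2 k) -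
      ∫ g, f (CayG (((Real.sqrt (Real.pi * ρ))⁻¹ • (1 : Matrix (Idx m) (Idx m) ℝ)) * SM φ g *
        ((Real.sqrt (Real.pi * ρ))⁻¹ • (1 : Matrix (Idx m) (Idx m) ℝ))ᵀ))
        ∂(gm (Fin k) (Idx m))| ≤ ε := by
  obtain ⟨B, hB0, hB⟩ := exists_bound hf
  obtain ⟨W1, hW1, hW1'⟩ := exists_factor hρ hTa ha hA1
  obtain ⟨W2, hW2, hW2'⟩ := exists_factor hρ hTb hb hA2
  have key := gm2_change (k := k) hW1 hW2 (F := Jin f ((Tref Ta Tb ρ)⁻¹) φ)
    (Jin_cont hf _ φ) (B := B) (Jin_bound hB _ φ)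
  rw [key, Tref_inv ha hb hρ]
  have hg := gauss_eq hf ((Real.sqrt (Real.pi * ρ))⁻¹ • (1 : Matrix (Idx m) (Idx m) ℝ)) φ
  rw [← hg]
  have hV1 : ‖cx (bd (m := m) W1 W2 1) - 1‖ ≤ r := by
    rw [← cx_one, ← cx_sub]
    refine (norm_cx_le _).trans ?_
    rw [l1_bd_sub_one]
    refine le_trans ?_ hr0
    have e1 : l1 (W1 - 1) ≤ 16 * l1 Ta⁻¹ ^ 2 * r0 :=
      hW1'.trans (mul_le_mul_of_nonneg_left h1 (by positivity))
    have e2 : l1 (W2 - 1) ≤ 16 * l1 Tb⁻¹ ^ 2 * r0 :=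
      hW2'.trans (mul_le_mul_of_nonneg_left h2 (by positivity))
    linarith
  have hcm : ∀ A : Matrix (Fin 2) (Fin 2) ℝ, Continuous fun (g : XK k) i => A *ᵥ g i := fun A =>
    continuous_pi fun i => Continuous.matrix_mulVec continuous_const (continuous_apply i)
  have hI2 : ∀ (S' : Matrix (Idx m) (Idx m) ℝ) (A A' : Matrix (Fin 2) (Fin 2) ℝ),
      Integrable (fun p : XK k × XK k => Jin f S' φ (fun i => A *ᵥ p.1 i,
        fun i => A' *ᵥ p.2 i)) (gm2 k) := by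
    intro S' A A'
    refine Integrable.of_bound (C := B) ?_ (Filter.Eventually.of_forall fun p =>
      Jin_bound hB S' φ _)
    exact ((Jin_cont hf S' φ).comp (((hcm A).comp continuous_fst).prodMk
      ((hcm A').comp continuous_snd))).aestronglyMeasurable
  have hI3 : Integrable (fun p : XK k × XK k =>
      Jin f ((Real.sqrt (Real.pi * ρ))⁻¹ • (1 : Matrix (Idx m) (Idx m) ℝ)) φ p) (gm2 k) := by
    refine Integrable.of_bound (C := B) ?_ (Filter.Eventually.of_forall fun p =>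
      Jin_bound hB _ φ p)
    exact (Jin_cont hf _ φ).aestronglyMeasurable
  have hfin : |∫ p, Jin f (bd Ta⁻¹ Tb⁻¹ (Real.sqrt (Real.pi * ρ))⁻¹) φ
      (fun i => ((Real.sqrt (Real.pi * ρ))⁻¹ • (Ta * W1)) *ᵥ p.1 i,
        fun i => ((Real.sqrt (Real.pi * ρ))⁻¹ • (Tb * W2)) *ᵥ p.2 i) ∂(gm2 k) -
      ∫ p, Jin f ((Real.sqrt (Real.pi * ρ))⁻¹ • (1 : Matrix (Idx m) (Idx m) ℝ)) φ p
        ∂(gm2 k)| ≤ ε := by
    rw [← integral_sub (hI2 _ _ _) hI3, ← Real.norm_eq_abs]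
    refine (norm_integral_le_of_norm_le (integrable_const ε)
      (Filter.Eventually.of_forall fun p => ?_)).trans (by simp)
    exact Jin_close hf ha hb hr _ φ hV1 p
  exact hfin

end Crest.Agent.R166.Inv988
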