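import Crest.Agent.R166.InvN_988

/-!
Row 166, section 50 (helper988): the near part; from Theorem B to the Gaussian array, part 2.
-/

set_option autoImplicit false
set_option linter.unusedSectionVars false
set_option linter.unusedSimpArgs false

namespace Crest.Agent.R166.Inv988

open MeasureTheory ProbabilityTheory Matrix Crest.ProbabilityR.RandomMatrix Crest.Agent.R166
open Crest.Agent.R166.Gauss286
open Crest.Agent.R166.SW341 (XK gm2 sw2)
open scoped Matrix.Norms.L2Operator

variable {m k : ℕ}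

/-- port marks and tests put together -/
def mk3 (q1 q2 : XK k) (g : Fin k → Fin m → ℝ) (i : Fin k) : Idx m → ℝ :=
  Sum.elim (Sum.elim (q1 i) (q2 i)) (g i)

/-- the near functional with the tests integrated -/
noncomputable def Fk (f : Matrix (Idx m) (Idx m) ℂ → ℝ) (S : Matrix (Idx m) (Idx m) ℝ)
    (χ : M2 → M2 → ℝ) (Φ : ℝ) (φ : Fin k → Set.Icc (-Φ) Φ) (b : M2 × M2) (q : XK k × XK k) : ℝ :=
  χ b.1 b.2 * ∫ g, f (CayG (S * SM (fun i => (φ i : ℝ)) (mk3 q.1 q.2 g) * Sᵀ))
    ∂(gm (Fin k) (Fin m))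

lemma cont_mk3 {X : Type*} [TopologicalSpace X] {q1 q2 : X → XK k} {g : X → Fin k → Fin m → ℝ}
    (h1 : Continuous q1) (h2 : Continuous q2) (h3 : Continuous g) (i : Fin k) (a : Idx m) :
    Continuous fun x => mk3 (q1 x) (q2 x) (g x) i a := by
  unfold mk3
  rcases a with (a | a) | l
  · exact (continuous_apply a).comp ((continuous_apply i).comp h1)
  · exact (continuous_apply a).comp ((continuous_apply i).comp h2)
  · exact (continuous_apply l).comp ((continuous_apply i).comp h3)

lemma cont_SM3 {X : Type*} [TopologicalSpace X] {φ : X → Fin k → ℝ} {v : X → Fin k → Idx m → ℝ}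
    (h1 : Continuous φ) (h2 : ∀ i a, Continuous fun x => v x i a) :
    Continuous fun x => SM (φ x) (v x) :=
  continuous_matrix fun a b => by
    simp only [SM_apply]
    exact continuous_finsetSum _ fun i _ =>
      (((continuous_apply i).comp h1).mul (h2 i a)).mul (h2 i b)

lemma Fk_bound {f : Matrix (Idx m) (Idx m) ℂ → ℝ} {B : ℝ}
    (hB : ∀ C : Matrix (Idx m) (Idx m) ℝ, Cᵀ = C → |f (CayG C)| ≤ B)
    (S : Matrix (Idx m) (Idx m) ℝ) (φ : Fin k → ℝ) (q : XK k × XK k) :
    |∫ g, f (CayG (S * SM φ (mk3 q.1 q.2 g) * Sᵀ)) ∂(gm (Fin k) (Fin m))| ≤ B := by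
  rw [← Real.norm_eq_abs]
  refine (norm_integral_le_of_norm_le (integrable_const B)
    (Filter.Eventually.of_forall fun g => ?_)).trans (by simp)
  exact hB _ (conj_symm (SM_symm _ _) S)

lemma Fk_inner_cont {f : Matrix (Idx m) (Idx m) ℂ → ℝ} (hf : Continuous f)
    (S : Matrix (Idx m) (Idx m) ℝ) :
    Continuous fun y : (Fin k → ℝ) × (XK k × XK k) =>
      ∫ g, f (CayG (S * SM y.1 (mk3 y.2.1 y.2.2 g) * Sᵀ)) ∂(gm (Fin k) (Fin m)) := by
  obtain ⟨B, hB0, hB⟩ := exists_bound hf
  refine continuous_of_dominated (bound := fun _ => B) ?_ ?_ (integrable_const B) ?_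
  · intro y
    refine (cont_f_cay hf (cont_conj (cont_SM3 continuous_const fun i a =>
      cont_mk3 continuous_const continuous_const continuous_id i a) S)
      fun g => conj_symm (SM_symm _ _) S).aestronglyMeasurable
  · intro y
    exact Filter.Eventually.of_forall fun g => hB _ (conj_symm (SM_symm _ _) S)
  · refine Filter.Eventually.of_forall fun g => ?_
    exact cont_f_cay hf (cont_conj (cont_SM3 continuous_fst fun i a =>
      cont_mk3 (continuous_fst.comp continuous_snd) (continuous_snd.comp continuous_snd)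
        continuous_const i a) S) fun g => conj_symm (SM_symm _ _) S

lemma Fk_cont {f : Matrix (Idx m) (Idx m) ℂ → ℝ} (hf : Continuous f)
    (S : Matrix (Idx m) (Idx m) ℝ) {χ : M2 → M2 → ℝ}
    (hχ : Continuous fun b : M2 × M2 => χ b.1 b.2) (Φ : ℝ) :
    Continuous fun y : (Fin k → Set.Icc (-Φ) Φ) × (M2 × M2) × (XK k × XK k) =>
      Fk f S χ Φ y.1 y.2.1 y.2.2 := by
  have h1 : Continuous fun y : (Fin k → Set.Icc (-Φ) Φ) × (M2 × M2) × (XK k × XK k) =>
      ((fun i => (y.1 i : ℝ)), y.2.2) := by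
    refine Continuous.prodMk (continuous_pi fun i => ?_) (continuous_snd.comp continuous_snd)
    exact continuous_subtype_val.comp ((continuous_apply i).comp continuous_fst)
  have h2 := (Fk_inner_cont (k := k) hf S).comp h1
  have h3 := (hχ.comp (continuous_fst.comp (continuous_snd (X := (Fin k → Set.Icc (-Φ) Φ))
    (Y := (M2 × M2) × (XK k × XK k)))))
  exact h3.mul h2

/-- integrating the port marks in the Gaussian reference -/
theorem gauss_eq {f : Matrix (Idx m) (Idx m) ℂ → ℝ} (hf : Continuous f)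
    (S : Matrix (Idx m) (Idx m) ℝ) (φ : Fin k → ℝ) :
    ∫ p, (∫ g, f (CayG (S * SM φ (mk3 p.1 p.2 g) * Sᵀ)) ∂(gm (Fin k) (Fin m))) ∂(gm2 k) =
      ∫ g, f (CayG (S * SM φ g * Sᵀ)) ∂(gm (Fin k) (Idx m)) := by
  have h1 := gm_sum (J := Fin k) (κ := Fin 2) (κ' := Fin 2)
  have h2 := gm_sum (J := Fin k) (κ := Fin 2 ⊕ Fin 2) (κ' := Fin m)
  have hc2 : Continuous fun g : Fin k → Idx m → ℝ => f (CayG (S * SM φ g * Sᵀ)) :=
    cont_f_cay hf (cont_conj (continuous_SM' φ) S) fun g => conj_symm (SM_symm _ _) S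
  have m2 : Measurable fun (p : (Fin k → (Fin 2 ⊕ Fin 2) → ℝ) × (Fin k → Fin m → ℝ)) (i : Fin k) =>
      Sum.elim (p.1 i) (p.2 i) := by
    refine measurable_pi_lambda _ fun i => measurable_pi_lambda _ fun a => ?_
    rcases a with a | a
    · exact (measurable_pi_apply a).comp ((measurable_pi_apply i).comp measurable_fst)
    · exact (measurable_pi_apply a).comp ((measurable_pi_apply i).comp measurable_snd)
  have m1 : Measurable fun (p : (Fin k → Fin 2 → ℝ) × (Fin k → Fin 2 → ℝ)) (i : Fin k) =>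
      Sum.elim (p.1 i) (p.2 i) := by
    refine measurable_pi_lambda _ fun i => measurable_pi_lambda _ fun a => ?_
    rcases a with a | a
    · exact (measurable_pi_apply a).comp ((measurable_pi_apply i).comp measurable_fst)
    · exact (measurable_pi_apply a).comp ((measurable_pi_apply i).comp measurable_snd)
  have hI : Integrable (fun p : (Fin k → (Fin 2 ⊕ Fin 2) → ℝ) × (Fin k → Fin m → ℝ) =>
      f (CayG (S * SM φ (fun i => Sum.elim (p.1 i) (p.2 i)) * Sᵀ)))
      ((gm (Fin k) (Fin 2 ⊕ Fin 2)).prod (gm (Fin k) (Fin m))) := by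
    obtain ⟨B, hB0, hB⟩ := exists_bound hf
    refine Integrable.of_bound (C := B) ?_ (Filter.Eventually.of_forall fun p =>
      hB _ (conj_symm (SM_symm _ _) S))
    have := hc2.measurable.comp m2
    exact this.aestronglyMeasurable
  rw [← h2, integral_map m2.aemeasurable hc2.aestronglyMeasurable, integral_prod _ hI, ← h1]
  rw [integral_map m1.aemeasurable]
  · rfl
  · rw [h1]
    exact hI.aestronglyMeasurable.integral_prod_right'

end Crest.Agent.R166.Inv988
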