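import Crest.Agent.R166.InvZ_988
import Crest.Agent.R166.SW_341

/-!
Row 166, section 50 (helper988): the near part; from Theorem B to the Gaussian array.
-/

set_option autoImplicit false
set_option linter.unusedSectionVars false
set_option linter.unusedSimpArgs false

namespace Crest.Agent.R166.Inv988

open MeasureTheory ProbabilityTheory Matrix Crest.ProbabilityR.RandomMatrix Crest.Agent.R166
open Crest.Agent.R166.Gauss286
open Crest.Agent.R166.SW341 (XK gm2 sw2)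
open scoped Matrix.Norms.L2Operator

section sqrt

variable {ι : Type*} [Fintype ι] [DecidableEq ι]

lemma entry_le_norm (A : Matrix ι ι ℂ) (i j : ι) : ‖A i j‖ ≤ ‖A‖ := by
  have h : Matrix.single i i (1 : ℂ) * A * Matrix.single j j (1 : ℂ) =
      Matrix.single i j (A i j) := by
    ext a b
    simp [Matrix.mul_apply, Matrix.single_apply]
    by_cases h1 : i = a
    · by_cases h2 : j = b
      · simp [h1, h2]
      · simp [h1, h2]
    · simp [h1]
  rw [← norm_single i j (A i j), ← h]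
  calc _ ≤ ‖Matrix.single i i (1 : ℂ)‖ * ‖A‖ * ‖Matrix.single j j (1 : ℂ)‖ :=
        (norm_mul_le _ _).trans (mul_le_mul_of_nonneg_right (norm_mul_le _ _) (norm_nonneg _))
    _ = ‖A‖ := by rw [norm_single, norm_single]; simp

lemma l1_le_card (D : Matrix ι ι ℝ) {t : ℝ} (h : ‖cx D‖ ≤ t) :
    l1 D ≤ (Fintype.card ι : ℝ) ^ 2 * t := by
  unfold l1
  have h1 : ∀ a b, |D a b| ≤ t := by
    intro a b
    have := entry_le_norm (cx D) a b
    rw [cx_apply, Complex.norm_real, Real.norm_eq_abs] at this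
    exact this.trans h
  calc ∑ a, ∑ b, |D a b| ≤ ∑ a : ι, ∑ b : ι, t :=
        Finset.sum_le_sum fun a _ => Finset.sum_le_sum fun b _ => h1 a b
    _ = _ := by simp [Finset.sum_const, Finset.card_univ]; ring

lemma norm_orth_le {O : Matrix ι ι ℝ} (hO : Oᵀ * O = 1) : ‖cx O‖ ≤ 1 := by
  have h2 := Matrix.l2_opNorm_conjTranspose_mul_self (cx O)
  rw [← cx_transpose, ← cx_mul, hO, cx_one] at h2
  have h3 := norm_one_le' (ι := ι)
  nlinarith [norm_nonneg (cx O)]

theorem exists_sqrt_near {Q : Matrix ι ι ℝ} (hQ : Q.PosSemidef) :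
    ∃ W : Matrix ι ι ℝ, W * Wᵀ = Q ∧ l1 (W - 1) ≤ (Fintype.card ι : ℝ) ^ 2 * l1 (Q - 1) := by
  obtain ⟨O, h1, h2, h3⟩ := Gauss286.exists_diag hQ.isHermitian
  set q := hQ.isHermitian.eigenvalues with hq
  have hq0 : ∀ i, 0 ≤ q i := hQ.eigenvalues_nonneg
  set D : Matrix ι ι ℝ := Matrix.diagonal fun i => Real.sqrt (q i) with hD
  refine ⟨Oᵀ * D * O, ?_, ?_⟩
  · have h4 : D * D = Matrix.diagonal q := by
      rw [hD, Matrix.diagonal_mul_diagonal]
      congr 1; ext i; exact Real.mul_self_sqrt (hq0 i)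
    have h5 : (Oᵀ * D * O)ᵀ = Oᵀ * D * O := by
      simp only [Matrix.transpose_mul, Matrix.transpose_transpose, hD, Matrix.diagonal_transpose,
        Matrix.mul_assoc]
    rw [h5]
    calc Oᵀ * D * O * (Oᵀ * D * O) = Oᵀ * D * (O * Oᵀ) * D * O := by
          simp only [Matrix.mul_assoc]
      _ = Oᵀ * (D * D) * O := by rw [h1, Matrix.mul_one]; simp only [Matrix.mul_assoc]
      _ = Q := by rw [h4]; exact h3.symm
  · apply l1_le_card
    have h6 : Oᵀ * D * O - 1 = Oᵀ * (D - 1) * O := by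
      rw [Matrix.mul_sub, Matrix.sub_mul, Matrix.mul_one, h2]
    have h7 : (Matrix.diagonal q - 1 : Matrix ι ι ℝ) = O * (Q - 1) * Oᵀ := by
      have : O * (Q - 1) * Oᵀ = (O * Oᵀ) * Matrix.diagonal q * (O * Oᵀ) - O * Oᵀ := by
        conv_lhs => rw [h3]
        rw [Matrix.mul_sub, Matrix.sub_mul, Matrix.mul_one]
        simp only [Matrix.mul_assoc]
      rw [this, h1, Matrix.one_mul, Matrix.mul_one]
    have n1 : ‖cx (Oᵀ * (D - 1) * O)‖ ≤ ‖cx (D - 1)‖ := by
      rw [cx_mul, cx_mul]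
      have hO1 : ‖cx O‖ ≤ 1 := norm_orth_le h2
      have hO2 : ‖cx Oᵀ‖ ≤ 1 := norm_orth_le (by rw [Matrix.transpose_transpose]; exact h1)
      calc _ ≤ ‖cx Oᵀ‖ * ‖cx (D - 1)‖ * ‖cx O‖ :=
            (norm_mul_le _ _).trans (mul_le_mul_of_nonneg_right (norm_mul_le _ _) (norm_nonneg _))
        _ ≤ 1 * ‖cx (D - 1)‖ * 1 := by gcongr
        _ = _ := by ring
    have n2 : ‖cx (Matrix.diagonal q - 1)‖ ≤ ‖cx (Q - 1)‖ := by
      rw [h7, cx_mul, cx_mul]
      have hO1 : ‖cx O‖ ≤ 1 := norm_orth_le h2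
      have hO2 : ‖cx Oᵀ‖ ≤ 1 := norm_orth_le (by rw [Matrix.transpose_transpose]; exact h1)
      calc _ ≤ ‖cx O‖ * ‖cx (Q - 1)‖ * ‖cx Oᵀ‖ :=
            (norm_mul_le _ _).trans (mul_le_mul_of_nonneg_right (norm_mul_le _ _) (norm_nonneg _))
        _ ≤ 1 * ‖cx (Q - 1)‖ * 1 := by gcongr
        _ = _ := by ring
    have n3 : ‖cx (D - 1)‖ ≤ ‖cx (Matrix.diagonal q - 1)‖ := by
      have e1 : cx (D - 1) = Matrix.diagonal fun i => ((Real.sqrt (q i) - 1 : ℝ) : ℂ) := by
        ext i j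
        by_cases hij : i = j
        · subst hij; simp [hD]
        · simp [hD, hij]
      have e2 : cx (Matrix.diagonal q - 1) = Matrix.diagonal fun i => ((q i - 1 : ℝ) : ℂ) := by
        ext i j
        by_cases hij : i = j
        · subst hij; simp
        · simp [hij]
      rw [e1, e2, Matrix.l2_opNorm_diagonal, Matrix.l2_opNorm_diagonal]
      refine (pi_norm_le_iff_of_nonneg (norm_nonneg _)).2 fun i => ?_
      refine le_trans ?_ (norm_le_pi_norm _ i)
      rw [Complex.norm_real, Complex.norm_real, Real.norm_eq_abs, Real.norm_eq_abs]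
      have h8 : q i - 1 = (Real.sqrt (q i) - 1) * (Real.sqrt (q i) + 1) := by
        have := Real.mul_self_sqrt (hq0 i)
        nlinarith
      rw [h8, abs_mul]
      have h9 : 1 ≤ |Real.sqrt (q i) + 1| := by
        rw [abs_of_nonneg (by positivity)]
        linarith [Real.sqrt_nonneg (q i)]
      nlinarith [abs_nonneg (Real.sqrt (q i) - 1)]
    rw [h6]
    exact n1.trans (n3.trans (n2.trans (norm_cx_le _)))

end sqrt

/-! ### block-diagonal frames -/

section frame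

variable {m : ℕ}

/-- block diagonal matrix -/
def bd (A B : Matrix (Fin 2) (Fin 2) ℝ) (t : ℝ) : Matrix (Idx m) (Idx m) ℝ :=
  Matrix.fromBlocks (Matrix.fromBlocks A 0 0 B) 0 0 (t • (1 : Matrix (Fin m) (Fin m) ℝ))

lemma bd_mul (A B A' B' : Matrix (Fin 2) (Fin 2) ℝ) (t t' : ℝ) :
    bd (m := m) A B t * bd A' B' t' = bd (A * A') (B * B') (t * t') := by
  unfold bd
  rw [Matrix.fromBlocks_multiply, Matrix.fromBlocks_multiply]
  simp [smul_smul, mul_comm t t']

lemma bd_one : bd (m := m) 1 1 1 = 1 := by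
  unfold bd
  rw [Matrix.fromBlocks_one, one_smul, Matrix.fromBlocks_one]

lemma bd_transpose (A B : Matrix (Fin 2) (Fin 2) ℝ) (t : ℝ) :
    (bd (m := m) A B t)ᵀ = bd Aᵀ Bᵀ t := by
  unfold bd
  rw [Matrix.fromBlocks_transpose, Matrix.fromBlocks_transpose]
  simp

lemma Tref_inv {Ta Tb : Matrix (Fin 2) (Fin 2) ℝ} (ha : IsUnit Ta.det) (hb : IsUnit Tb.det)
    {ρ : ℝ} (hρ : 0 < ρ) :
    (Tref (m := m) Ta Tb ρ)⁻¹ = bd Ta⁻¹ Tb⁻¹ (Real.sqrt (Real.pi * ρ))⁻¹ := by
  apply Matrix.inv_eq_right_inv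
  have h : Real.sqrt (Real.pi * ρ) ≠ 0 := (Real.sqrt_pos.2 (by positivity)).ne'
  change bd Ta Tb (Real.sqrt (Real.pi * ρ)) * _ = 1
  rw [bd_mul, Matrix.mul_nonsing_inv _ ha, Matrix.mul_nonsing_inv _ hb, mul_inv_cancel₀ h, bd_one]

lemma bd_mulVec (A B : Matrix (Fin 2) (Fin 2) ℝ) (t : ℝ) (x y : Fin 2 → ℝ) (z : Fin m → ℝ) :
    bd A B t *ᵥ (Sum.elim (Sum.elim x y) z) = Sum.elim (Sum.elim (A *ᵥ x) (B *ᵥ y)) (t • z) := by
  unfold bd
  rw [Matrix.fromBlocks_mulVec]
  congr 1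
  · have e1 : (Sum.elim (Sum.elim x y) z : Idx m → ℝ) ∘ Sum.inl = Sum.elim x y := rfl
    rw [e1, Matrix.fromBlocks_mulVec]
    simp
  · simp [Matrix.smul_mulVec]

lemma l1_bd_sub_one (A B : Matrix (Fin 2) (Fin 2) ℝ) :
    l1 (bd (m := m) A B 1 - 1) = l1 (A - 1) + l1 (B - 1) := by
  unfold l1
  have h : bd (m := m) A B 1 - 1 = bd (m := m) (A - 1) (B - 1) 0 := by
    rw [← bd_one (m := m)]
    unfold bd
    ext i j
    rcases i with (i | i) | i <;> rcases j with (j | j) | j <;> simp [Matrix.one_apply]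
  rw [h]
  simp only [Fintype.sum_sum_type]
  simp [bd]

end frame

/-! ### law of linear images -/

theorem integral_mulVec_eq {k : ℕ} {A A' : Matrix (Fin 2) (Fin 2) ℝ} (h : A * Aᵀ = A' * A'ᵀ)
    {F : XK k → ℝ} (hF : Continuous F) :
    ∫ g, F (fun i => A *ᵥ g i) ∂(gm (Fin k) (Fin 2)) =
      ∫ g, F (fun i => A' *ᵥ g i) ∂(gm (Fin k) (Fin 2)) := by
  have h1 : ∀ B : Matrix (Fin 2) (Fin 2) ℝ, (gm (Fin k) (Fin 2)).map (fun g i => B *ᵥ g i) =
      Measure.pi fun _ => (gv (Fin 2)).map fun x => B *ᵥ x := by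
    intro B
    have : ∀ _ : Fin k, SigmaFinite ((gv (Fin 2)).map fun x => B *ᵥ x) := fun _ => by
      have : IsProbabilityMeasure ((gv (Fin 2)).map fun x => B *ᵥ x) :=
        Measure.isProbabilityMeasure_map (measurable_mulVec B).aemeasurable
      infer_instance
    exact Measure.pi_map_pi fun _ => (measurable_mulVec B).aemeasurable
  have h2 := gv_map_eq_of A A' h
  have hm : ∀ B : Matrix (Fin 2) (Fin 2) ℝ, Measurable fun (g : XK k) i => B *ᵥ g i := fun B =>
    measurable_pi_lambda _ fun i => (measurable_mulVec B).comp (measurable_pi_apply i)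
  have h3 : (gm (Fin k) (Fin 2)).map (fun g i => A *ᵥ g i) =
      (gm (Fin k) (Fin 2)).map (fun g i => A' *ᵥ g i) := by
    rw [h1, h1, h2]
  calc ∫ g, F (fun i => A *ᵥ g i) ∂(gm (Fin k) (Fin 2))
      = ∫ y, F y ∂((gm (Fin k) (Fin 2)).map (fun g i => A *ᵥ g i)) :=
        (integral_map (hm A).aemeasurable hF.aestronglyMeasurable).symm
    _ = ∫ y, F y ∂((gm (Fin k) (Fin 2)).map (fun g i => A' *ᵥ g i)) := by rw [h3]
    _ = _ := integral_map (hm A').aemeasurable hF.aestronglyMeasurable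

end Crest.Agent.R166.Inv988
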