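import Crest.Agent.R166.InvP1_348
import Crest.Agent.R166.InvD_348

/-!
Row 166, section 50 (helper348): cutoffs in the cavity variables.
-/

set_option autoImplicit false
set_option linter.unusedSectionVars false

namespace Crest.Agent.R166.InvP348

open Matrix Complex Crest.Agent.R166.Res789 Crest.Agent.R166.InvB348 Topology
open Crest.Agent.R166.Inv988 (M2 blk eAvg2)

lemma Pm_Pm_neg {P : Type*} [Fintype P] [DecidableEq P] {Z : Matrix P P ℂ} (h : Sieg Z)
    {K : Matrix P P ℝ} (hK : Kᵀ = K) : Pm (Pm Z K) (-K) = Z := by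
  have h1 : Pm (Pm Z K) (-K) = ((Z⁻¹ + cx K)⁻¹⁻¹ + cx (-K))⁻¹ := rfl
  rw [h1, Matrix.nonsing_inv_nonsing_inv _ (h.isUnit_inv_add hK), cx_neg, add_neg_cancel_right,
    Matrix.nonsing_inv_nonsing_inv _ h.isUnit_det]

/-- cavity matrix of a block -/
noncomputable def Zc (b : M2) : M2 := Pm b (-W2)

lemma negW2_symm : (-W2)ᵀ = -W2 := by rw [Matrix.transpose_neg, W2_symm]

lemma Pm_Zc {b : M2} (h : Sieg b) : Pm (Zc b) W2 = b := by
  have := Pm_Pm_neg h negW2_symm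
  rwa [neg_neg] at this

lemma sieg_Zc {b : M2} (h : Sieg b) : Sieg (Zc b) := h.Pm negW2_symm

lemma Zc_Ze2 {a1 a2 : ℂ} (h1 : 0 < a1.im) (h2 : 0 < a2.im) :
    Zc (Ze2 a1 a2) = diagonal ![a1, a2] :=
  Pm_Pm_neg (sieg_diagonal (vec2_im h1 h2)) W2_symm

lemma continuousAt_inv {X : Type*} [TopologicalSpace X] {P : Type*} [Fintype P] [DecidableEq P]
    {A : X → Matrix P P ℂ} {x : X} (hA : ContinuousAt A x) (h : (A x).det ≠ 0) :
    ContinuousAt (fun y => (A y)⁻¹) x := by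
  simp only [Matrix.inv_def, Ring.inverse_eq_inv']
  have h1 : ContinuousAt (fun y => (A y).det) x :=
    (Continuous.matrix_det (continuous_id (X := Matrix P P ℂ))).continuousAt.comp hA
  have h2 : ContinuousAt (fun y => (A y).adjugate) x :=
    (Continuous.matrix_adjugate (continuous_id (X := Matrix P P ℂ))).continuousAt.comp hA
  exact (h1.inv₀ h).smul h2

lemma continuousAt_Pm {P : Type*} [Fintype P] [DecidableEq P] (K : Matrix P P ℝ)
    {b : Matrix P P ℂ} (h1 : b.det ≠ 0) (h2 : (b⁻¹ + cx K).det ≠ 0) :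
    ContinuousAt (fun b => Pm b K) b := by
  unfold Pm
  exact continuousAt_inv ((continuousAt_inv continuousAt_id h1).add continuousAt_const) h2

lemma continuous_of' : Continuous (fun u : Fin 2 → Fin 2 → ℂ => (Matrix.of u : M2)) :=
  continuous_id

lemma nhds_bnorm {b0 : M2} {U : Set M2} (hU : U ∈ 𝓝 b0) :
    ∃ r : ℝ, 0 < r ∧ ∀ b : M2, bnorm (b - b0) ≤ r → b ∈ U := by
  have hU' : (fun u : Fin 2 → Fin 2 → ℂ => (Matrix.of u : M2)) ⁻¹' U ∈
      𝓝 (fun i j => b0 i j : Fin 2 → Fin 2 → ℂ) :=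
    continuous_of'.continuousAt.preimage_mem_nhds hU
  obtain ⟨r, hr, h⟩ := Metric.mem_nhds_iff.1 hU'
  refine ⟨r / 2, by positivity, fun b hb => ?_⟩
  rw [bnorm_le_iff] at hb
  have h1 : (fun i j => b i j : Fin 2 → Fin 2 → ℂ) ∈
      Metric.ball (fun i j => b0 i j : Fin 2 → Fin 2 → ℂ) r := by
    rw [Metric.mem_ball, dist_pi_lt_iff hr]
    intro i
    rw [dist_pi_lt_iff hr]
    intro j
    rw [dist_eq_norm]
    have := hb i j
    rw [Matrix.sub_apply] at this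
    linarith
  exact h h1

lemma continuous_bnorm : Continuous (bnorm : M2 → ℝ) := by
  unfold bnorm
  have h : ∀ i j : Fin 2, Continuous fun B : M2 => ‖B i j‖ := fun i j =>
    (continuous_id.matrix_elem i j).norm
  exact ((h 0 0).max (h 0 1)).max ((h 1 0).max (h 1 1))

lemma bnorm_nonneg (B : M2) : 0 ≤ bnorm B :=
  (norm_nonneg _).trans ((le_max_left _ _).trans (le_max_left _ _))

lemma isCompact_bnorm (b0 : M2) (r : ℝ) : IsCompact {b : M2 | bnorm (b - b0) ≤ r} := by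
  by_cases hr : 0 ≤ r
  · have h1 : {b : M2 | bnorm (b - b0) ≤ r} =
        (fun u : Fin 2 → Fin 2 → ℂ => (Matrix.of u : M2)) ''
          (Metric.closedBall (fun i j => b0 i j : Fin 2 → Fin 2 → ℂ) r) := by
      ext b
      constructor
      · intro h
        refine ⟨fun i j => b i j, ?_, rfl⟩
        rw [Metric.mem_closedBall, dist_pi_le_iff hr]
        intro i
        rw [dist_pi_le_iff hr]
        intro j
        rw [dist_eq_norm]
        exact (bnorm_le_iff _ _).1 h i j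
      · rintro ⟨u, hu, rfl⟩
        rw [Metric.mem_closedBall, dist_pi_le_iff hr] at hu
        refine (bnorm_le_iff _ _).2 fun i j => ?_
        have := (dist_pi_le_iff hr).1 (hu i) j
        rwa [dist_eq_norm] at this
    rw [h1]
    exact (isCompact_closedBall _ _).image continuous_of'
  · have : {b : M2 | bnorm (b - b0) ≤ r} = ∅ := by
      ext b
      simp only [Set.mem_ofPred_eq, Set.mem_empty_iff_false, iff_false, not_le]
      exact lt_of_lt_of_le (not_le.1 hr) (bnorm_nonneg _)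
    rw [this]
    exact isCompact_empty

/-- tent function -/
noncomputable def bmp (r t : ℝ) : ℝ := max 0 (1 - t / r)

lemma bmp_nonneg (r t : ℝ) : 0 ≤ bmp r t := le_max_left _ _

lemma bmp_le_one {r t : ℝ} (hr : 0 < r) (ht : 0 ≤ t) : bmp r t ≤ 1 := by
  unfold bmp
  have : 0 ≤ t / r := by positivity
  exact max_le zero_le_one (by linarith)

lemma bmp_zero (r : ℝ) : bmp r 0 = 1 := by
  unfold bmp; simp

lemma bmp_ne {r t : ℝ} (hr : 0 < r) (h : bmp r t ≠ 0) : t < r := by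
  by_contra h1
  push Not at h1
  apply h
  unfold bmp
  have : 1 ≤ t / r := by rw [le_div_iff₀ hr]; linarith
  exact max_eq_left (by linarith)

lemma continuous_bmp (r : ℝ) : Continuous (bmp r) := by
  unfold bmp
  fun_prop

/-- cutoff in the cavity matrix -/
noncomputable def gz (x1 x2 : ℂ) (r : ℝ) (Z : M2) : ℝ :=
  bmp r ‖Z 0 0 - x1‖ * bmp r ‖Z 1 1 - x2‖ * bmp r ‖Z 0 1‖

lemma continuous_gz (x1 x2 : ℂ) (r : ℝ) : Continuous (gz x1 x2 r) := by
  unfold gz
  have h : ∀ i j : Fin 2, Continuous fun B : M2 => B i j := fun i j =>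
    continuous_id.matrix_elem i j
  exact (((continuous_bmp r).comp ((h 0 0).sub continuous_const).norm).mul
    ((continuous_bmp r).comp ((h 1 1).sub continuous_const).norm)).mul
    ((continuous_bmp r).comp (h 0 1).norm)

lemma gz_nonneg (x1 x2 : ℂ) (r : ℝ) (Z : M2) : 0 ≤ gz x1 x2 r Z :=
  mul_nonneg (mul_nonneg (bmp_nonneg _ _) (bmp_nonneg _ _)) (bmp_nonneg _ _)

lemma gz_le_one (x1 x2 : ℂ) {r : ℝ} (hr : 0 < r) (Z : M2) : gz x1 x2 r Z ≤ 1 := by
  unfold gz
  have h1 := bmp_le_one hr (norm_nonneg (Z 0 0 - x1))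
  have h2 := bmp_le_one hr (norm_nonneg (Z 1 1 - x2))
  have h3 := bmp_le_one hr (norm_nonneg (Z 0 1))
  have p1 := bmp_nonneg r ‖Z 0 0 - x1‖
  have p2 := bmp_nonneg r ‖Z 1 1 - x2‖
  have p3 := bmp_nonneg r ‖Z 0 1‖
  exact mul_le_one₀ (mul_le_one₀ h1 p2 h2) p3 h3

lemma gz_diag (x1 x2 a1 a2 : ℂ) (r : ℝ) :
    gz x1 x2 r (diagonal ![a1, a2]) = bmp r ‖a1 - x1‖ * bmp r ‖a2 - x2‖ := by
  unfold gz
  simp [bmp_zero]

/-- the cutoff on blocks -/
theorem exists_cut {x1 x2 : ℂ} (h1 : 0 < x1.im) (h2 : 0 < x2.im) {R : ℝ} (hR : 0 < R) :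
    ∃ r : ℝ, 0 < r ∧ ∀ r' : ℝ, 0 < r' → r' ≤ r → ∃ φ : M2 → ℝ, Continuous φ ∧
      HasCompactSupport φ ∧ (∀ b, 0 ≤ φ b ∧ φ b ≤ 1) ∧
      (∀ b, φ b ≠ 0 → bnorm (b - Ze2 x1 x2) ≤ R) ∧
      ∀ b, Sieg b → φ b = gz x1 x2 r' (Zc b) := by
  set Za := Ze2 x1 x2 with hZa
  have sZa : Sieg Za := sieg_Ze2 h1 h2
  have sX := sieg_diagonal (vec2_im h1 h2)
  -- neighbourhood where `Zc` is continuous
  have hU : {b : M2 | b.det ≠ 0 ∧ (b⁻¹ + cx (-W2)).det ≠ 0} ∈ 𝓝 Za := by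
    have c1 : ContinuousAt (fun b : M2 => b.det) Za :=
      (Continuous.matrix_det (continuous_id (X := M2))).continuousAt
    have c2 : ContinuousAt (fun b : M2 => (b⁻¹ + cx (-W2)).det) Za :=
      (Continuous.matrix_det (continuous_id (X := M2))).continuousAt.comp
        ((continuousAt_inv continuousAt_id (isUnit_iff_ne_zero.1 sZa.isUnit_det)).add
          continuousAt_const)
    have e1 := c1.eventually_ne (isUnit_iff_ne_zero.1 sZa.isUnit_det)
    have e2 := c2.eventually_ne (isUnit_iff_ne_zero.1 (sZa.isUnit_inv_add negW2_symm))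
    exact e1.and e2
  obtain ⟨r0, hr0, hr0U⟩ := nhds_bnorm hU
  set r1 := min (r0 / 2) (R / 2) with hr1
  have hr1p : 0 < r1 := by positivity
  have hr10 : 2 * r1 ≤ r0 := by
    have := min_le_left (r0 / 2) (R / 2)
    linarith
  have hr1R : 2 * r1 ≤ R := by
    have := min_le_right (r0 / 2) (R / 2)
    linarith
  -- continuity of `Pm · W2`
  have hV : {Z : M2 | bnorm (Pm Z W2 - Za) < r1} ∈ 𝓝 (diagonal ![x1, x2] : M2) := by
    have c1 : ContinuousAt (fun Z : M2 => Pm Z W2) (diagonal ![x1, x2]) :=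
      continuousAt_Pm W2 (isUnit_iff_ne_zero.1 sX.isUnit_det)
        (isUnit_iff_ne_zero.1 (sX.isUnit_inv_add W2_symm))
    have c2 : ContinuousAt (fun Z : M2 => bnorm (Pm Z W2 - Za)) (diagonal ![x1, x2]) :=
      continuous_bnorm.continuousAt.comp (c1.sub continuousAt_const)
    have e0 : bnorm (Pm (diagonal ![x1, x2]) W2 - Za) < r1 := by
      have : Pm (diagonal ![x1, x2]) W2 - Za = 0 := sub_self _
      rw [this]
      simpa [bnorm] using hr1p
    exact c2.eventually_lt continuousAt_const e0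
  obtain ⟨r, hr, hrV⟩ := nhds_bnorm hV
  refine ⟨r, hr, fun r' hr' hr'r => ?_⟩
  set ζ : M2 → ℝ := fun b => min 1 (max 0 (2 - bnorm (b - Za) / r1)) with hζ
  have cζ : Continuous ζ := by
    have : Continuous fun b : M2 => bnorm (b - Za) :=
      continuous_bnorm.comp (continuous_id.sub continuous_const)
    exact continuous_const.min (continuous_const.max (continuous_const.sub (this.div_const _)))
  have ζ0 : ∀ b, 0 ≤ ζ b := fun b => le_min zero_le_one (le_max_left _ _)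
  have ζ1 : ∀ b, ζ b ≤ 1 := fun b => min_le_left _ _
  have ζs : ∀ b, ζ b ≠ 0 → bnorm (b - Za) ≤ 2 * r1 := by
    intro b hb
    by_contra h
    push Not at h
    apply hb
    have : 2 ≤ bnorm (b - Za) / r1 := by rw [le_div_iff₀ hr1p]; exact h.le
    have h3 : max 0 (2 - bnorm (b - Za) / r1) = 0 := max_eq_left (by linarith)
    rw [hζ]
    simp only [h3]
    exact min_eq_right zero_le_one
  have ζi : ∀ b, bnorm (b - Za) ≤ r1 → ζ b = 1 := by
    intro b hb
    have : bnorm (b - Za) / r1 ≤ 1 := by rw [div_le_one hr1p]; exact hb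
    rw [hζ]
    simp only
    exact min_eq_left ((by linarith : (1 : ℝ) ≤ 2 - bnorm (b - Za) / r1).trans (le_max_right _ _))
  have hsupp : Function.support (fun b => ζ b * gz x1 x2 r' (Zc b)) ⊆
      {b : M2 | bnorm (b - Za) ≤ 2 * r1} := by
    intro b hb
    exact ζs b (left_ne_zero_of_mul hb)
  have hclosed : IsClosed {b : M2 | bnorm (b - Za) ≤ 2 * r1} :=
    isClosed_le (continuous_bnorm.comp (continuous_id.sub continuous_const)) continuous_const
  have htsupp : tsupport (fun b => ζ b * gz x1 x2 r' (Zc b)) ⊆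
      {b : M2 | bnorm (b - Za) ≤ 2 * r1} := closure_minimal hsupp hclosed
  refine ⟨fun b => ζ b * gz x1 x2 r' (Zc b), ?_, ?_, ?_, ?_, ?_⟩
  · refine continuous_of_tsupport fun b hb => ?_
    have hb1 := htsupp hb
    have hb2 := hr0U b (le_trans hb1 hr10)
    have c1 : ContinuousAt (fun b : M2 => Zc b) b := continuousAt_Pm (-W2) hb2.1 hb2.2
    exact cζ.continuousAt.mul ((continuous_gz x1 x2 r').continuousAt.comp c1)
  · exact (isCompact_bnorm Za (2 * r1)).of_isClosed_subset (isClosed_tsupport _) htsupp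
  · intro b
    refine ⟨mul_nonneg (ζ0 b) (gz_nonneg _ _ _ _), ?_⟩
    exact mul_le_one₀ (ζ1 b) (gz_nonneg _ _ _ _) (gz_le_one _ _ hr' _)
  · intro b hb
    exact (ζs b (left_ne_zero_of_mul hb)).trans hr1R
  · intro b hb
    by_cases h0 : gz x1 x2 r' (Zc b) = 0
    · simp only [h0, mul_zero]
    · have h3 : bmp r' ‖Zc b 0 1‖ ≠ 0 := right_ne_zero_of_mul h0
      have h4 : bmp r' ‖Zc b 1 1 - x2‖ ≠ 0 := right_ne_zero_of_mul (left_ne_zero_of_mul h0)
      have h5 : bmp r' ‖Zc b 0 0 - x1‖ ≠ 0 := left_ne_zero_of_mul (left_ne_zero_of_mul h0)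
      have k3 := bmp_ne hr' h3
      have k4 := bmp_ne hr' h4
      have k5 := bmp_ne hr' h5
      have hs := (sieg_Zc hb).1
      have h10 : Zc b 1 0 = Zc b 0 1 := by
        have := congrFun (congrFun hs 0) 1
        simpa using this
      have hclose : bnorm (Zc b - diagonal ![x1, x2]) ≤ r := by
        rw [bnorm_le_iff]
        intro i j
        rw [Matrix.sub_apply]
        fin_cases i <;> fin_cases j
        · simpa using (k5.le.trans hr'r)
        · simpa using (k3.le.trans hr'r)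
        · simpa [h10] using (k3.le.trans hr'r)
        · simpa using (k4.le.trans hr'r)
      have h6 : bnorm (Pm (Zc b) W2 - Za) < r1 := hrV _ hclose
      rw [Pm_Zc hb] at h6
      simp only [ζi b h6.le, one_mul]

/-- uniform continuity of continuous functions with compact support, in `bnorm` -/
lemma unif_bnorm {φ : M2 → ℝ} (hc : Continuous φ) (hs : HasCompactSupport φ) {ε : ℝ}
    (hε : 0 < ε) : ∃ θ : ℝ, 0 < θ ∧ ∀ b b' : M2, bnorm (b - b') ≤ θ → |φ b - φ b'| ≤ ε := by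
  have h1 : Continuous (fun u : Fin 2 → Fin 2 → ℂ => φ (Matrix.of u)) := hc.comp continuous_of'
  have h2 : HasCompactSupport (fun u : Fin 2 → Fin 2 → ℂ => φ (Matrix.of u)) := hs
  have h3 := h2.uniformContinuous_of_continuous h1
  rw [Metric.uniformContinuous_iff] at h3
  obtain ⟨θ, hθ, h⟩ := h3 ε hε
  refine ⟨θ / 2, by positivity, fun b b' hb => ?_⟩
  rw [bnorm_le_iff] at hb
  have h4 : dist (fun i j => b i j : Fin 2 → Fin 2 → ℂ) (fun i j => b' i j) < θ := by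
    rw [dist_pi_lt_iff hθ]
    intro i
    rw [dist_pi_lt_iff hθ]
    intro j
    rw [dist_eq_norm]
    have := hb i j
    rw [Matrix.sub_apply] at this
    linarith
  have h5 := h h4
  rw [Real.dist_eq] at h5
  exact h5.le

lemma abs_mul_sub_le {a b a' b' ε : ℝ} (ha : |a| ≤ 1) (hb' : |b'| ≤ 1)
    (h1 : |a - a'| ≤ ε) (h2 : |b - b'| ≤ ε) : |a * b - a' * b'| ≤ 2 * ε := by
  have e : a * b - a' * b' = a * (b - b') + (a - a') * b' := by ring
  rw [e]
  refine (abs_add_le _ _).trans ?_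
  rw [abs_mul, abs_mul]
  have := abs_nonneg (b - b')
  have := abs_nonneg (a - a')
  nlinarith [abs_nonneg a, abs_nonneg b']

/-- a cutoff attached to the cavity values -/
structure Cut (x1 x2 : ℂ) (r : ℝ) (φ : M2 → ℝ) : Prop where
  cont : Continuous φ
  supp : HasCompactSupport φ
  nn : ∀ b, 0 ≤ φ b
  le : ∀ b, φ b ≤ 1
  eq : ∀ b, Sieg b → φ b = gz x1 x2 r (Zc b)

lemma Cut.eval {x1 x2 : ℂ} {r : ℝ} {φ : M2 → ℝ} (h : Cut x1 x2 r φ) {a1 a2 : ℂ}
    (h1 : 0 < a1.im) (h2 : 0 < a2.im) :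
    φ (Ze2 a1 a2) = bmp r ‖a1 - x1‖ * bmp r ‖a2 - x2‖ := by
  rw [h.eq _ (sieg_Ze2 h1 h2), Zc_Ze2 h1 h2, gz_diag]

lemma Cut.abs_le {x1 x2 : ℂ} {r : ℝ} {φ : M2 → ℝ} (h : Cut x1 x2 r φ) (b : M2) : |φ b| ≤ 1 := by
  rw [abs_of_nonneg (h.nn b)]
  exact h.le b

/-- **the cutoffs under the switching** -/
theorem env_sw {x1 x2 : ℂ} {r : ℝ} {φa φc φd : M2 → ℝ} (ha : Cut x1 x2 r φa)
    (hc : Cut x1 x1 r φc) (hd : Cut x2 x2 r φd) {η : ℝ} (hη : 0 < η) {ε : ℝ} (hε : 0 < ε) :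
    ∃ C : ℝ, 0 ≤ C ∧ ∀ (n : ℕ) (G : SimpleGraph (Fin n)) (p q : Fin n × Fin n)
      (_ : Sw798.VSw G p.1 p.2 q.1 q.2) (s : ℝ) (ω : Fin n → ℝ) (E : ℝ),
      |φc (blk (Hm (Sw798.sw G p.1 p.2 q.1 q.2) s ω) E η (p.1, q.1)) *
          φd (blk (Hm (Sw798.sw G p.1 p.2 q.1 q.2) s ω) E η (p.2, q.2)) -
        φa (blk (Hm G s ω) E η p) * φa (blk (Hm G s ω) E η q)| ≤
      ε + C * offsq ((Res789.Res (Hm G s ω - SwAvg798.Wp p - SwAvg798.Wp q) (ze E η)).submatrix
        ![p.1, p.2, q.1, q.2] ![p.1, p.2, q.1, q.2]) := by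
  obtain ⟨θa, hθa, ua⟩ := unif_bnorm ha.cont ha.supp (ε := ε / 4) (by positivity)
  obtain ⟨θc, hθc, uc⟩ := unif_bnorm hc.cont hc.supp (ε := ε / 4) (by positivity)
  obtain ⟨θd, hθd, ud⟩ := unif_bnorm hd.cont hd.supp (ε := ε / 4) (by positivity)
  set θ := min θa (min θc θd) with hθ
  have hθp : 0 < θ := by positivity
  have hθa' : θ ≤ θa := min_le_left _ _
  have hθc' : θ ≤ θc := (min_le_right _ _).trans (min_le_left _ _)
  have hθd' : θ ≤ θd := (min_le_right _ _).trans (min_le_right _ _)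
  set c0 := (1 + 1 / η) ^ 2 with hc0
  have hc0p : 0 < c0 := by positivity
  refine ⟨16 * c0 ^ 2 / θ ^ 2, by positivity, ?_⟩
  intro n G p q hv s ω E
  set H := Hm G s ω with hH
  set H2 := Hm (Sw798.sw G p.1 p.2 q.1 q.2) s ω with hH2
  set H0 := H - SwAvg798.Wp p - SwAvg798.Wp q with hH0
  set O := offsq ((Res789.Res H0 (ze E η)).submatrix
        ![p.1, p.2, q.1, q.2] ![p.1, p.2, q.1, q.2]) with hO
  have hO0 : 0 ≤ O := offsq_nonneg _
  have hs : ∀ p : Fin n × Fin n, (SwAvg798.Wp p)ᵀ = SwAvg798.Wp p := by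
    intro p
    ext i j
    simp only [Matrix.transpose_apply, SwAvg798.Wp]
    congr 1
    simp only [eq_iff_iff]
    tauto
  have sH : Hᵀ = H := Crest.Agent.R166.Stab269.Hm_symm G s ω
  have sH0 : H0ᵀ = H0 := by
    rw [hH0, Matrix.transpose_sub, Matrix.transpose_sub, hs, hs, sH]
  set f := pf p q with hf
  set f2 := pf (p.1, q.1) (p.2, q.2) with hf2
  have if1 : Function.Injective f :=
    pf_injective hv.xy.ne hv.uw.ne hv.xu hv.xw hv.yu hv.yw
  have if2 : Function.Injective f2 :=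
    pf_injective (p := (p.1, q.1)) (q := (p.2, q.2)) hv.xu hv.yw hv.xy.ne hv.xw
      (by exact hv.yu.symm) (by exact hv.uw.ne)
  have e1 : H = H0 + emb f W4 := by
    rw [hf, emb_W4 hv.xy.ne hv.uw.ne, hH0]; abel
  have e2 : H2 = H0 + emb f2 W4 := by
    have hxu : ((p.1, q.1) : Fin n × Fin n).1 ≠ ((p.1, q.1) : Fin n × Fin n).2 := hv.xu
    have hyw : ((p.2, q.2) : Fin n × Fin n).1 ≠ ((p.2, q.2) : Fin n × Fin n).2 := hv.yw
    rw [hf2, emb_W4 hxu hyw, hH2, SwAvg798.Hm_sw_Wp hv, hH0, hH]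
    abel
  have k1 := blk_close sH0 if1 E hη
  have k2 := blk_close sH0 if2 E hη
  rw [← e1] at k1
  rw [← e2] at k2
  have hz : 0 < (ze E η).im := by rw [ze_im]; exact hη
  have hpos : ∀ v, 0 < (Res789.Res H0 (ze E η) v v).im := fun v => res_im_pos sH0 hz v
  have o1 : off ((Res789.Res H0 (ze E η)).submatrix f f) ^ 2 ≤ 16 * O := by
    have := off_sq_le ((Res789.Res H0 (ze E η)).submatrix f f)
    rw [hf, offsq_sub] at this
    rw [hf, hO]
    refine this.trans (le_of_eq ?_)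
    norm_num [Fintype.card_sum]
  have o2 : off ((Res789.Res H0 (ze E η)).submatrix f2 f2) ^ 2 ≤ 16 * O := by
    have := off_sq_le ((Res789.Res H0 (ze E η)).submatrix f2 f2)
    rw [hf2, offsq_sub, offsq_swap] at this
    rw [hf2, hO]
    refine this.trans (le_of_eq ?_)
    norm_num [Fintype.card_sum]
  have B1 : |φc (blk H2 E η (p.1, q.1)) * φd (blk H2 E η (p.2, q.2)) -
      φa (blk H E η p) * φa (blk H E η q)| ≤ 1 := by
    have m1 := mul_nonneg (hc.nn (blk H2 E η (p.1, q.1))) (hd.nn (blk H2 E η (p.2, q.2)))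
    have m2 := mul_nonneg (ha.nn (blk H E η p)) (ha.nn (blk H E η q))
    have m3 := mul_le_one₀ (hc.le (blk H2 E η (p.1, q.1))) (hd.nn (blk H2 E η (p.2, q.2)))
      (hd.le (blk H2 E η (p.2, q.2)))
    have m4 := mul_le_one₀ (ha.le (blk H E η p)) (ha.nn (blk H E η q)) (ha.le (blk H E η q))
    rw [abs_le]
    constructor <;> linarith
  by_cases hsmall : 16 * c0 ^ 2 * O ≤ θ ^ 2
  · have t1 : c0 * off ((Res789.Res H0 (ze E η)).submatrix f f) ≤ θ := by
      refine abs_le_of_sq_le_sq' ?_ hθp.le |>.2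
      calc (c0 * off ((Res789.Res H0 (ze E η)).submatrix f f)) ^ 2
          = c0 ^ 2 * off ((Res789.Res H0 (ze E η)).submatrix f f) ^ 2 := by ring
        _ ≤ c0 ^ 2 * (16 * O) := by gcongr
        _ ≤ θ ^ 2 := by linarith
    have t2 : c0 * off ((Res789.Res H0 (ze E η)).submatrix f2 f2) ≤ θ := by
      refine abs_le_of_sq_le_sq' ?_ hθp.le |>.2
      calc (c0 * off ((Res789.Res H0 (ze E η)).submatrix f2 f2)) ^ 2
          = c0 ^ 2 * off ((Res789.Res H0 (ze E η)).submatrix f2 f2) ^ 2 := by ring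
        _ ≤ c0 ^ 2 * (16 * O) := by gcongr
        _ ≤ θ ^ 2 := by linarith
    have a1 := ua _ _ ((k1.1.trans t1).trans hθa')
    have a2 := ua _ _ ((k1.2.trans t1).trans hθa')
    have c1 := uc _ _ ((k2.1.trans t2).trans hθc')
    have d1 := ud _ _ ((k2.2.trans t2).trans hθd')
    rw [ha.eval (hpos _) (hpos _)] at a1 a2
    rw [hc.eval (hpos _) (hpos _)] at c1
    rw [hd.eval (hpos _) (hpos _)] at d1
    set D0 := Res789.Res H0 (ze E η) p.1 p.1 with hD0
    set D1 := Res789.Res H0 (ze E η) p.2 p.2 with hD1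
    set D2 := Res789.Res H0 (ze E η) q.1 q.1 with hD2
    set D3 := Res789.Res H0 (ze E η) q.2 q.2 with hD3
    have a1' : |φa (blk H E η p) - bmp r ‖D0 - x1‖ * bmp r ‖D1 - x2‖| ≤ ε / 4 := a1
    have a2' : |φa (blk H E η q) - bmp r ‖D2 - x1‖ * bmp r ‖D3 - x2‖| ≤ ε / 4 := a2
    have c1' : |φc (blk H2 E η (p.1, q.1)) - bmp r ‖D0 - x1‖ * bmp r ‖D2 - x1‖| ≤ ε / 4 := c1
    have d1' : |φd (blk H2 E η (p.2, q.2)) - bmp r ‖D1 - x2‖ * bmp r ‖D3 - x2‖| ≤ ε / 4 := d1
    -- bounds of the limits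
    have lim_le : ∀ {y1 y2 a1 a2 : ℂ} {φ : M2 → ℝ} (hφ : Cut y1 y2 r φ), 0 < a1.im → 0 < a2.im →
        |bmp r ‖a1 - y1‖ * bmp r ‖a2 - y2‖| ≤ 1 := by
      intro y1 y2 a1 a2 φ hφ h1 h2
      rw [← hφ.eval h1 h2]
      exact hφ.abs_le _
    have m1 := abs_mul_sub_le (hc.abs_le _) (lim_le hd (hpos p.2) (hpos q.2)) c1' d1'
    have m2 := abs_mul_sub_le (ha.abs_le _) (lim_le ha (hpos q.1) (hpos q.2)) a1' a2'
    have e3 : bmp r ‖D0 - x1‖ * bmp r ‖D2 - x1‖ * (bmp r ‖D1 - x2‖ * bmp r ‖D3 - x2‖) =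
        bmp r ‖D0 - x1‖ * bmp r ‖D1 - x2‖ * (bmp r ‖D2 - x1‖ * bmp r ‖D3 - x2‖) := by ring
    rw [e3] at m1
    have hCO : 0 ≤ 16 * c0 ^ 2 / θ ^ 2 * O := by positivity
    have tri := abs_sub_le (φc (blk H2 E η (p.1, q.1)) * φd (blk H2 E η (p.2, q.2)))
      (bmp r ‖D0 - x1‖ * bmp r ‖D1 - x2‖ * (bmp r ‖D2 - x1‖ * bmp r ‖D3 - x2‖))
      (φa (blk H E η p) * φa (blk H E η q))
    rw [abs_sub_comm] at m2
    linarith
  · push Not at hsmall
    have : 1 ≤ 16 * c0 ^ 2 / θ ^ 2 * O := by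
      rw [div_mul_eq_mul_div, le_div_iff₀ (by positivity)]
      linarith
    linarith

end Crest.Agent.R166.InvP348
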