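import Crest.Agent.R166.InvP2_348
import Crest.Agent.R166.MeasC_780

/-!
Row 166, section 50 (helper348): the environment; dichotomy for the limit of the averages of a
cutoff.
-/

set_option autoImplicit false
set_option linter.unusedSectionVars false

namespace Crest.Agent.R166.InvP348

open Matrix Complex Topology MeasureTheory Crest.ProbabilityR.RandomMatrix
open Crest.Agent.R166.Inv988 (M2 blk eAvg2)

/-! ### calculus of `Whp` -/

section whp

variable {n d : ℕ} {a b : ℝ} {P Q : SimpleGraph (Fin n) → (Fin n → ℝ) → Prop}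

lemma whp_mono (h : Whp n d a P) (hPQ : ∀ G ω, P G ω → Q G ω) : Whp n d a Q := by
  refine le_trans (measure_mono ?_) h
  intro x hx hP
  exact hx (hPQ _ _ hP)

lemma whp_mono_eps (h : Whp n d a P) (hab : a ≤ b) : Whp n d b P :=
  le_trans h (ENNReal.ofReal_le_ofReal hab)

lemma whp_and (ha : 0 ≤ a) (hb : 0 ≤ b) (h1 : Whp n d a P) (h2 : Whp n d b Q) :
    Whp n d (a + b) fun G ω => P G ω ∧ Q G ω := by
  unfold Whp at *
  have hsub : {x : SimpleGraph (Fin n) × (Fin n → ℝ) | ¬ (P x.1 x.2 ∧ Q x.1 x.2)} ⊆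
      {x | ¬ P x.1 x.2} ∪ {x | ¬ Q x.1 x.2} := by
    intro x hx
    by_cases hP : P x.1 x.2
    · right
      intro hQ
      exact hx ⟨hP, hQ⟩
    · left
      exact hP
  calc (law n d) {x | ¬ (P x.1 x.2 ∧ Q x.1 x.2)} ≤
        (law n d) ({x | ¬ P x.1 x.2} ∪ {x | ¬ Q x.1 x.2}) := measure_mono hsub
    _ ≤ (law n d) {x | ¬ P x.1 x.2} + (law n d) {x | ¬ Q x.1 x.2} := measure_union_le _ _
    _ ≤ ENNReal.ofReal a + ENNReal.ofReal b := add_le_add h1 h2
    _ = ENNReal.ofReal (a + b) := (ENNReal.ofReal_add ha hb).symm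

lemma whp_exists (hne : (regularGraphs n d).Nonempty) (h : Whp n d a P) (ha : a < 1) :
    ∃ G ω, P G ω := by
  by_contra hcon
  push Not at hcon
  have hP := MeasC780.law_prob hne
  unfold Whp at h
  have h1 : {x : SimpleGraph (Fin n) × (Fin n → ℝ) | ¬ P x.1 x.2} = Set.univ := by
    ext x
    simp only [Set.mem_ofPred_eq, Set.mem_univ, iff_true]
    exact hcon _ _
  rw [h1, measure_univ] at h
  have h2 : ENNReal.ofReal a < 1 := by
    rw [← ENNReal.ofReal_one]
    exact (ENNReal.ofReal_lt_ofReal_iff zero_lt_one).2 ha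
  exact absurd h (not_le.2 h2)

lemma whp_true (ha : 0 ≤ a) (h : ∀ G ω, P G ω) : Whp n d a P := by
  unfold Whp
  have h1 : {x : SimpleGraph (Fin n) × (Fin n → ℝ) | ¬ P x.1 x.2} = ∅ := by
    ext x
    simp [h]
  rw [h1]
  simp

end whp

/-! ### averages over directed edges -/

section avg

variable {n : ℕ} {G : SimpleGraph (Fin n)}

lemma eAvg_add (F F' : Fin n → Fin n → ℝ) :
    eAvg G (fun u w => F u w + F' u w) = eAvg G F + eAvg G F' := by
  unfold eAvg
  rw [Finset.sum_add_distrib, add_div]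

lemma eAvg_sub (F F' : Fin n → Fin n → ℝ) :
    eAvg G (fun u w => F u w - F' u w) = eAvg G F - eAvg G F' := by
  unfold eAvg
  rw [Finset.sum_sub_distrib, sub_div]

lemma eAvg_const_mul (c : ℝ) (F : Fin n → Fin n → ℝ) :
    eAvg G (fun u w => c * F u w) = c * eAvg G F := by
  unfold eAvg
  rw [← Finset.mul_sum, mul_div_assoc]

lemma eAvg_const_le {c : ℝ} (hc : 0 ≤ c) : eAvg G (fun _ _ => c) ≤ c := by
  have := MeasC780.abs_eAvg_le G hc (F := fun _ _ => c) (fun _ _ => by rw [abs_of_nonneg hc])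
  exact (le_abs_self _).trans this

lemma abs_eAvg_le' (F : Fin n → Fin n → ℝ) : |eAvg G F| ≤ eAvg G fun u w => |F u w| := by
  unfold eAvg
  rw [abs_div, abs_of_nonneg (Nat.cast_nonneg _ : (0 : ℝ) ≤ ((darts G).card : ℝ))]
  exact div_le_div_of_nonneg_right (Finset.abs_sum_le_sum_abs _ _) (Nat.cast_nonneg _)

end avg

/-- a bound for continuous functions with compact support -/
lemma exists_bd {χ : M2 → ℝ} (hc : Continuous χ) (hs : HasCompactSupport χ) :
    ∃ B : ℝ, 0 < B ∧ ∀ b, |χ b| ≤ B := by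
  obtain ⟨B, hB⟩ := hs.exists_bound_of_continuous hc
  refine ⟨max B 1, lt_of_lt_of_le one_pos (le_max_right _ _), fun b => ?_⟩
  rw [← Real.norm_eq_abs]
  exact (hB b).trans (le_max_left _ _)

/-- comparison of the averages of a cutoff over two families of blocks -/
lemma avg_cut_close {χ : M2 → ℝ} (hc : Continuous χ) (hs : HasCompactSupport χ) {ε : ℝ}
    (hε : 0 < ε) : ∃ κ : ℝ, 0 < κ ∧ ∀ (n : ℕ) (G : SimpleGraph (Fin n))
      (b b' : Fin n → Fin n → M2), eAvg G (fun u w => min 1 (bnorm (b u w - b' u w))) ≤ κ →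
      |eAvg G (fun u w => χ (b u w)) - eAvg G (fun u w => χ (b' u w))| ≤ ε := by
  obtain ⟨B, hB0, hB⟩ := exists_bd hc hs
  obtain ⟨θ0, hθ0, hu⟩ := unif_bnorm hc hs (ε := ε / 2) (by positivity)
  set θ := min θ0 1 with hθ
  have hθp : 0 < θ := by positivity
  have hθ1 : θ ≤ 1 := min_le_right _ _
  have hθ0' : θ ≤ θ0 := min_le_left _ _
  refine ⟨ε / 2 / (2 * B / θ), by positivity, fun n G b b' h => ?_⟩
  rw [← eAvg_sub]
  refine (abs_eAvg_le' _).trans ?_
  have h1 : ∀ u w, |χ (b u w) - χ (b' u w)| ≤ ε / 2 + 2 * B / θ *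
      min 1 (bnorm (b u w - b' u w)) := by
    intro u w
    have hm : 0 ≤ min 1 (bnorm (b u w - b' u w)) := le_min zero_le_one (bnorm_nonneg _)
    by_cases hlt : bnorm (b u w - b' u w) ≤ θ
    · have := hu _ _ (hlt.trans hθ0')
      have : 0 ≤ 2 * B / θ * min 1 (bnorm (b u w - b' u w)) := by positivity
      linarith
    · push Not at hlt
      have h2 : |χ (b u w) - χ (b' u w)| ≤ 2 * B := by
        refine (abs_sub _ _).trans ?_
        have := hB (b u w)
        have := hB (b' u w)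
        linarith
      have h3 : θ ≤ min 1 (bnorm (b u w - b' u w)) := le_min hθ1 hlt.le
      have h4 : 2 * B = 2 * B / θ * θ := by field_simp
      have h5 : 2 * B / θ * θ ≤ 2 * B / θ * min 1 (bnorm (b u w - b' u w)) := by gcongr
      linarith
  refine (MeasC780.eAvg_mono G h1).trans ?_
  rw [eAvg_add, eAvg_const_mul]
  have h2 := eAvg_const_le (G := G) (c := ε / 2) (by positivity)
  have h3 : 2 * B / θ * eAvg G (fun u w => min 1 (bnorm (b u w - b' u w))) ≤
      2 * B / θ * (ε / 2 / (2 * B / θ)) := by gcongr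
  have h4 : 2 * B / θ * (ε / 2 / (2 * B / θ)) = ε / 2 := by field_simp
  linarith

/-! ### the dichotomy -/

/-- the averages of `χ` stay bounded below as `η → 0` -/
def PosE (d : ℕ) (s E : ℝ) (χ : M2 → ℝ) : Prop :=
  ∃ a : ℝ, 0 < a ∧ ∃ η0 : ℝ, 0 < η0 ∧ ∀ η : ℝ, 0 < η → η ≤ η0 → ∀ ε : ℝ, 0 < ε →
    ∃ N : ℕ, ∀ n : ℕ, N ≤ n → (regularGraphs n d).Nonempty →
      Whp n d ε fun G ω => a ≤ eAvg G (fun u w => χ (Blk (Res (Hm G s ω) (ze E η)) u w))

/-- the averages of `χ` tend to `0` as `η → 0` -/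
def NegE (d : ℕ) (s E : ℝ) (χ : M2 → ℝ) : Prop :=
  ∀ ε : ℝ, 0 < ε → ∃ η0 : ℝ, 0 < η0 ∧ ∀ η : ℝ, 0 < η → η ≤ η0 →
    ∃ N : ℕ, ∀ n : ℕ, N ≤ n → (regularGraphs n d).Nonempty →
      Whp n d ε fun G ω => eAvg G (fun u w => χ (Blk (Res (Hm G s ω) (ze E η)) u w)) ≤ ε

theorem dichotomy {d : ℕ} {s E : ℝ} (hEnv : EnvDet d s E) (hLoc : LocLim d s E)
    (hne : ∀ N : ℕ, ∃ n : ℕ, N ≤ n ∧ (regularGraphs n d).Nonempty)
    {χ : M2 → ℝ} (hc : Continuous χ) (hs : HasCompactSupport χ) (h : ¬ PosE d s E χ) :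
    NegE d s E χ := by
  intro ε hε
  choose c hcE using hEnv χ hc hs
  -- the constants are Cauchy
  have hCauchy : ∃ η1 : ℝ, 0 < η1 ∧ ∀ η (hη : 0 < η), η ≤ η1 → ∀ η' (hη' : 0 < η'), η' ≤ η1 →
      |c η hη - c η' hη'| ≤ ε / 4 := by
    obtain ⟨κ, hκ, hclose⟩ := avg_cut_close hc hs (ε := ε / 16) (by positivity)
    obtain ⟨η1, hη1, K0, hK0, hL⟩ := hLoc (min κ (1 / 8)) (by positivity)
    refine ⟨η1, hη1, ?_⟩
    intro η hη hηle η' hη' hη'le
    obtain ⟨N1, hN1⟩ := hL η hη hηle K0 le_rfl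
    obtain ⟨N2, hN2⟩ := hL η' hη' hη'le K0 le_rfl
    obtain ⟨N3, hN3⟩ := hcE η hη (min (ε / 16) (1 / 8)) (by positivity)
    obtain ⟨N4, hN4⟩ := hcE η' hη' (min (ε / 16) (1 / 8)) (by positivity)
    obtain ⟨n, hn, hnne⟩ := hne (max (max N1 N2) (max N3 N4))
    have w1 := whp_mono_eps (hN1 n (by omega) hnne) (min_le_right _ _)
    have w2 := whp_mono_eps (hN2 n (by omega) hnne) (min_le_right _ _)
    have w3 := whp_mono_eps (hN3 n (by omega) hnne) (min_le_right _ _)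
    have w4 := whp_mono_eps (hN4 n (by omega) hnne) (min_le_right _ _)
    have w := whp_and (by norm_num) (by norm_num)
      (whp_and (by norm_num) (by norm_num) w1 w2) (whp_and (by norm_num) (by norm_num) w3 w4)
    obtain ⟨G, ω, ⟨g1, g2⟩, g3, g4⟩ := whp_exists hnne w (by norm_num)
    have k1 := hclose n G _ _ (g1.trans (min_le_left _ _))
    have k2 := hclose n G _ _ (g2.trans (min_le_left _ _))
    have k3 := g3.trans (min_le_left _ _)
    have k4 := g4.trans (min_le_left _ _)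
    rw [abs_le] at k1 k2 k3 k4 ⊢
    constructor <;> linarith [k1.1, k1.2, k2.1, k2.2, k3.1, k3.2, k4.1, k4.2]
  obtain ⟨η1, hη1, hCau⟩ := hCauchy
  -- some `c η` is small
  have hsmall : ∃ (η : ℝ) (hη : 0 < η), η ≤ η1 ∧ c η hη ≤ ε / 4 := by
    by_contra hcon
    push Not at hcon
    apply h
    refine ⟨ε / 8, by positivity, η1, hη1, fun η hη hηle ε' hε' => ?_⟩
    obtain ⟨N, hN⟩ := hcE η hη (min ε' (ε / 8)) (by positivity)
    refine ⟨N, fun n hn hnne => ?_⟩
    refine whp_mono (whp_mono_eps (hN n hn hnne) (min_le_left _ _)) fun G ω hG => ?_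
    have h1 := hcon η hη hηle
    have h2 := hG.trans (min_le_right _ _)
    rw [abs_le] at h2
    linarith [h2.1]
  obtain ⟨η2, hη2, hη2le, hc2⟩ := hsmall
  refine ⟨η1, hη1, fun η hη hηle => ?_⟩
  obtain ⟨N, hN⟩ := hcE η hη (ε / 2) (by positivity)
  refine ⟨N, fun n hn hnne => ?_⟩
  refine whp_mono (whp_mono_eps (hN n hn hnne) (by linarith)) fun G ω hG => ?_
  have h1 := hCau η hη hηle η2 hη2 hη2le
  rw [abs_le] at h1 hG
  linarith [h1.2, hG.2]

end Crest.Agent.R166.InvP348
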