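import Crest.Agent.R166.InvP3_348

/-!
Row 166, section 50 (helper348): compactness of the non-degenerate blocks.
-/

set_option autoImplicit false
set_option linter.unusedSectionVars false

namespace Crest.Agent.R166.InvP348

open Matrix Complex Topology MeasureTheory Crest.ProbabilityR.RandomMatrix
open Crest.Agent.R166.Res789 Crest.Agent.R166.InvB348
open Crest.Agent.R166.Inv988 (M2 blk eAvg2)

/-- non-degenerate bounded blocks -/
def KK (M δ : ℝ) : Set M2 :=
  {b | bᵀ = b ∧ bnorm b ≤ M ∧ ∀ x : Fin 2 → ℝ, δ * (x 0 ^ 2 + x 1 ^ 2) ≤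
    ∑ a, ∑ c, x a * (b a c).im * x c}

lemma isClosed_KK (M δ : ℝ) : IsClosed (KK M δ) := by
  have h1 : IsClosed {b : M2 | bᵀ = b} := isClosed_eq continuous_id.matrix_transpose continuous_id
  have h2 : IsClosed {b : M2 | bnorm b ≤ M} := isClosed_le continuous_bnorm continuous_const
  have h3 : IsClosed {b : M2 | ∀ x : Fin 2 → ℝ, δ * (x 0 ^ 2 + x 1 ^ 2) ≤
      ∑ a, ∑ c, x a * (b a c).im * x c} := by
    rw [Set.ofPred_forall]
    refine isClosed_iInter fun x => isClosed_le continuous_const ?_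
    refine continuous_finsetSum _ fun a _ => continuous_finsetSum _ fun c _ => ?_
    exact (continuous_const.mul (Complex.continuous_im.comp (continuous_id.matrix_elem a c))).mul
      continuous_const
  exact (h1.inter (h2.inter h3))

lemma isCompact_KK (M δ : ℝ) : IsCompact (KK M δ) := by
  refine (isCompact_bnorm 0 M).of_isClosed_subset (isClosed_KK M δ) ?_
  intro b hb
  have := hb.2.1
  simpa using this

lemma sieg_KK {M δ : ℝ} (hδ : 0 < δ) {b : M2} (hb : b ∈ KK M δ) : Sieg b := by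
  refine ⟨hb.1, fun u hu => ?_⟩
  rw [qf_expand]
  have h1 := hb.2.2 (fun i => (u i).re)
  have h2 := hb.2.2 (fun i => (u i).im)
  have h3 : ∑ i, ∑ j, imM b i j * ((u i).re * (u j).re + (u i).im * (u j).im) =
      (∑ a, ∑ c, (u a).re * (b a c).im * (u c).re) +
        ∑ a, ∑ c, (u a).im * (b a c).im * (u c).im := by
    rw [← Finset.sum_add_distrib]
    refine Finset.sum_congr rfl fun i _ => ?_
    rw [← Finset.sum_add_distrib]
    refine Finset.sum_congr rfl fun j _ => ?_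
    rw [imM_apply]
    ring
  rw [h3]
  have h4 : 0 < ((u 0).re ^ 2 + (u 1).re ^ 2) + ((u 0).im ^ 2 + (u 1).im ^ 2) := by
    by_contra hcon
    push Not at hcon
    apply hu
    have a1 : (u 0).re = 0 := by nlinarith [sq_nonneg (u 0).re, sq_nonneg (u 1).re, sq_nonneg (u 0).im, sq_nonneg (u 1).im]
    have a2 : (u 1).re = 0 := by nlinarith [sq_nonneg (u 0).re, sq_nonneg (u 1).re, sq_nonneg (u 0).im, sq_nonneg (u 1).im]
    have a3 : (u 0).im = 0 := by nlinarith [sq_nonneg (u 0).re, sq_nonneg (u 1).re, sq_nonneg (u 0).im, sq_nonneg (u 1).im]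
    have a4 : (u 1).im = 0 := by nlinarith [sq_nonneg (u 0).re, sq_nonneg (u 1).re, sq_nonneg (u 0).im, sq_nonneg (u 1).im]
    ext i
    fin_cases i
    · exact Complex.ext a1 a3
    · exact Complex.ext a2 a4
  have h5 : 0 < δ * (((u 0).re ^ 2 + (u 1).re ^ 2) + ((u 0).im ^ 2 + (u 1).im ^ 2)) := by positivity
  have h6 := add_le_add h1 h2
  refine lt_of_lt_of_le h5 (le_trans (le_of_eq ?_) h6)
  ring

lemma continuousAt_Zc {b : M2} (hb : Sieg b) : ContinuousAt (fun b => Zc b) b :=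
  continuousAt_Pm (-W2) (isUnit_iff_ne_zero.1 hb.isUnit_det)
    (isUnit_iff_ne_zero.1 (hb.isUnit_inv_add negW2_symm))

lemma continuousOn_Zc {M δ : ℝ} (hδ : 0 < δ) : ContinuousOn (fun b => Zc b 0 1) (KK M δ) := by
  intro b hb
  have h1 := continuousAt_Zc (sieg_KK hδ hb)
  have h2 : Continuous fun B : M2 => B 0 1 := continuous_id.matrix_elem 0 1
  exact (h2.continuousAt.comp h1).continuousWithinAt

lemma Ze2_of_off {b : M2} (h : Sieg b) (h0 : Zc b 0 1 = 0) :
    ∃ x1 x2 : ℂ, 0 < x1.im ∧ 0 < x2.im ∧ b = Ze2 x1 x2 := by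
  have hs := sieg_Zc h
  have hd : ∀ i, 0 < (Zc b i i).im := by
    intro i
    have := hs.posDef.diag_pos (i := i)
    simpa using this
  refine ⟨Zc b 0 0, Zc b 1 1, hd 0, hd 1, ?_⟩
  have h10 : Zc b 1 0 = 0 := by
    have := congrFun (congrFun hs.1 0) 1
    simp only [Matrix.transpose_apply] at this
    rw [this, h0]
  have h1 : Zc b = diagonal ![Zc b 0 0, Zc b 1 1] := by
    ext i j
    fin_cases i <;> fin_cases j
    · simp
    · simpa using h0
    · simpa using h10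
    · simp
  unfold Ze2
  rw [← h1, Pm_Zc h]

/-- **compactness** -/
theorem compact_cover {M δ : ℝ} (hδ : 0 < δ) (F : Set (M2 → ℝ))
    (hF : ∀ χ ∈ F, Continuous χ ∧ ∀ b, 0 ≤ χ b)
    (hcov : ∀ x1 x2 : ℂ, 0 < x1.im → 0 < x2.im → ∃ χ ∈ F, 0 < χ (Ze2 x1 x2)) :
    ∃ T : Finset (M2 → ℝ), (∀ χ ∈ T, χ ∈ F) ∧ ∃ κ : ℝ, 0 < κ ∧ ∃ θ : ℝ, 0 < θ ∧
      ∀ b ∈ KK M δ, ‖Zc b 0 1‖ ≤ θ → κ ≤ ∑ χ ∈ T, χ b := by
  classical
  set K0 : Set M2 := KK M δ ∩ (fun b => Zc b 0 1) ⁻¹' {0} with hK0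
  have cK0 : IsCompact K0 := by
    refine (isCompact_KK M δ).of_isClosed_subset ?_ Set.inter_subset_left
    exact (continuousOn_Zc hδ).preimage_isClosed_of_isClosed (isClosed_KK M δ) isClosed_singleton
  have hex : ∀ b : M2, ∃ χ ∈ F, b ∈ K0 → 0 < χ b := by
    intro b
    by_cases hb : b ∈ K0
    · obtain ⟨x1, x2, h1, h2, hx⟩ := Ze2_of_off (sieg_KK hδ hb.1) hb.2
      obtain ⟨χ, hχ, hpos⟩ := hcov x1 x2 h1 h2
      exact ⟨χ, hχ, fun _ => by rw [hx]; exact hpos⟩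
    · obtain ⟨χ, hχ, _⟩ := hcov Complex.I Complex.I (by simp) (by simp)
      exact ⟨χ, hχ, fun h => absurd h hb⟩
  choose χ hχF hχpos using hex
  have hnhds : ∀ b ∈ K0, {b' : M2 | 0 < χ b b'} ∈ 𝓝 b := by
    intro b hb
    exact (isOpen_lt continuous_const (hF _ (hχF b)).1).mem_nhds (hχpos b hb)
  obtain ⟨t, ht, hcover⟩ := cK0.elim_nhds_subcover _ hnhds
  set T := t.image χ with hT
  have hTF : ∀ φ ∈ T, φ ∈ F := by
    intro φ hφ
    obtain ⟨b, _, rfl⟩ := Finset.mem_image.1 hφ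
    exact hχF b
  set g : M2 → ℝ := fun b => ∑ φ ∈ T, φ b with hg
  have cg : Continuous g := continuous_finsetSum _ fun φ hφ => (hF φ (hTF φ hφ)).1
  have g0 : ∀ b, 0 ≤ g b := fun b => Finset.sum_nonneg fun φ hφ => (hF φ (hTF φ hφ)).2 b
  have gpos : ∀ b ∈ K0, 0 < g b := by
    intro b hb
    have h1 := hcover hb
    simp only [Set.mem_iUnion, Set.mem_ofPred_eq, exists_prop] at h1
    obtain ⟨b', hb', h2⟩ := h1
    refine lt_of_lt_of_le h2 ?_
    exact Finset.single_le_sum (f := fun φ : M2 → ℝ => φ b)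
      (fun φ hφ => (hF φ (hTF φ hφ)).2 b) (Finset.mem_image_of_mem χ hb')
  refine ⟨T, hTF, ?_⟩
  rcases (KK M δ).eq_empty_or_nonempty with hemp | hne
  · refine ⟨1, one_pos, 1, one_pos, fun b hb => ?_⟩
    rw [hemp] at hb
    exact absurd hb (Set.notMem_empty b)
  have cΦ : ContinuousOn (fun b => max (g b) ‖Zc b 0 1‖) (KK M δ) :=
    (cg.continuousOn).sup (continuousOn_Zc hδ).norm
  obtain ⟨b0, hb0, hmin⟩ := (isCompact_KK M δ).exists_isMinOn hne cΦ
  set m := max (g b0) ‖Zc b0 0 1‖ with hm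
  have hmpos : 0 < m := by
    by_cases hb : b0 ∈ K0
    · exact lt_of_lt_of_le (gpos b0 hb) (le_max_left _ _)
    · refine lt_of_lt_of_le ?_ (le_max_right _ _)
      rw [norm_pos_iff]
      intro h0
      exact hb ⟨hb0, h0⟩
  refine ⟨m, hmpos, m / 2, by positivity, fun b hb hθ => ?_⟩
  have h1 : m ≤ max (g b) ‖Zc b 0 1‖ := hmin hb
  rcases le_max_iff.1 h1 with h2 | h2
  · exact h2
  · linarith

end Crest.Agent.R166.InvP348
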