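import Crest.Agent.R166.InvP4_348

/-!
Row 166, section 50 (helper348): existence of a support point of the environment.
-/

set_option autoImplicit false
set_option linter.unusedSectionVars false

namespace Crest.Agent.R166.InvP348

open Matrix Complex Topology MeasureTheory Crest.ProbabilityR.RandomMatrix
open Crest.Agent.R166.Res789 Crest.Agent.R166.InvB348
open Crest.Agent.R166.SwAvg798 (Wp)
open Crest.Agent.R166.Sw798 (VSw)
open Crest.Agent.R166.Inv988 (M2 blk eAvg2)

section det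

variable {n : ℕ}

lemma Wp_symm (p : Fin n × Fin n) : (Wp p)ᵀ = Wp p := by
  ext i j
  simp only [Matrix.transpose_apply, Wp]
  congr 1
  simp only [eq_iff_iff]
  tauto

/-- resolvent identity -/
lemma res_id {V : Type*} [Fintype V] [DecidableEq V] {H K : Matrix V V ℝ} (hH : Hᵀ = H)
    (hK : Kᵀ = K) {z : ℂ} (hz : 0 < z.im) :
    Res789.Res (H + K) z = Res789.Res H z - Res789.Res H z * cx K * Res789.Res (H + K) z := by
  have hHK : (H + K)ᵀ = H + K := by rw [Matrix.transpose_add, hH, hK]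
  have a := Res_mul_sub hH hz
  have b := sub_mul_Res hHK hz
  have c : cx K = (cx (H + K) - z • (1 : Matrix V V ℂ)) - (cx H - z • (1 : Matrix V V ℂ)) := by
    rw [cx_add]; abel
  rw [c, Matrix.mul_sub, Matrix.sub_mul, Matrix.mul_assoc (Res789.Res H z), b, a, Matrix.one_mul,
    Matrix.mul_one]
  abel

lemma mul_Wp_apply {p : Fin n × Fin n} (hp : p.1 ≠ p.2) (A B : Matrix (Fin n) (Fin n) ℂ)
    (i j : Fin n) :
    (A * cx (Wp p) * B) i j = A i p.1 * B p.2 j + A i p.2 * B p.1 j := by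
  have h1 : ∀ b, (A * cx (Wp p)) i b = (if b = p.2 then A i p.1 else 0) +
      (if b = p.1 then A i p.2 else 0) := by
    intro b
    rw [Matrix.mul_apply]
    have h2 : ∀ a, A i a * cx (Wp p) a b = (if a = p.1 then (if b = p.2 then A i a else 0) else 0) +
        (if a = p.2 then (if b = p.1 then A i a else 0) else 0) := by
      intro a
      rw [cx_apply]
      unfold SwAvg798.Wp
      by_cases c1 : a = p.1 <;> by_cases c2 : a = p.2 <;> by_cases c3 : b = p.1 <;>
        by_cases c4 : b = p.2 <;> simp_all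
    rw [Finset.sum_congr rfl fun a _ => h2 a, Finset.sum_add_distrib]
    simp
  rw [Matrix.mul_apply]
  rw [Finset.sum_congr rfl fun b _ => by rw [h1 b]]
  simp [add_mul, Finset.sum_add_distrib]

lemma entry_sq_le {P : Type*} [Fintype P] [DecidableEq P] (Z : Matrix P P ℂ) {i j : P}
    (h : i ≠ j) : ‖Z i j‖ ^ 2 ≤ offsq Z := by
  unfold offsq
  have h1 : ‖Z i j‖ ^ 2 = if i = j then 0 else ‖Z i j‖ ^ 2 := by rw [if_neg h]
  rw [h1]
  refine (Finset.single_le_sum (f := fun l => if i = l then (0 : ℝ) else ‖Z i l‖ ^ 2)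
    (fun l _ => by split_ifs <;> positivity) (Finset.mem_univ j)).trans ?_
  exact Finset.single_le_sum (f := fun k => ∑ l, if k = l then (0 : ℝ) else ‖Z k l‖ ^ 2)
    (fun k _ => Finset.sum_nonneg fun l _ => by split_ifs <;> positivity) (Finset.mem_univ i)

/-- the off-diagonal cavity entry of a block -/
theorem Zc_blk_le {H : Matrix (Fin n) (Fin n) ℝ} (hH : Hᵀ = H) {p q : Fin n × Fin n}
    (hp : p.1 ≠ p.2) (hq : q.1 ≠ q.2) (E : ℝ) {η : ℝ} (hη : 0 < η) :
    ‖Zc (blk H E η p) 0 1‖ ≤ (1 + 2 / η) * Real.sqrt (offsq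
      ((Res789.Res (H - Wp p - Wp q) (ze E η)).submatrix ![p.1, p.2, q.1, q.2]
        ![p.1, p.2, q.1, q.2])) := by
  have hz : 0 < (ze E η).im := by rw [ze_im]; exact hη
  set H0 := H - Wp p - Wp q with hH0
  have sH0 : H0ᵀ = H0 := by
    rw [hH0, Matrix.transpose_sub, Matrix.transpose_sub, Wp_symm, Wp_symm, hH]
  have hinj : Function.Injective (![p.1, p.2] : Fin 2 → Fin n) := by
    intro i j hij
    fin_cases i <;> fin_cases j
    · rfl
    · exact absurd hij hp
    · exact absurd hij.symm hp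
    · rfl
  have e1 : emb (![p.1, p.2] : Fin 2 → Fin n) (-W2) = -Wp p := by
    obtain ⟨x, y⟩ := p
    ext a b
    rw [emb_apply]
    simp only at hp
    simp only [Fin.sum_univ_two, W2, Matrix.neg_apply, Matrix.of_apply, Matrix.cons_val',
      Matrix.cons_val_zero, Matrix.cons_val_one, Matrix.cons_val_fin_one, SwAvg798.Wp]
    have hp' : y ≠ x := fun h => hp h.symm
    by_cases c1 : x = a
    · subst c1
      by_cases c3 : x = b
      · subst c3; simp [hp, hp']
      · by_cases c4 : y = b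
        · subst c4; simp [hp, hp']
        · simp [c3, c4, hp, hp', Ne.symm (a := y) (b := b) c4]
    · by_cases c2 : y = a
      · subst c2
        by_cases c3 : x = b
        · subst c3; simp [hp, hp']
        · simp [c3, hp, hp', Ne.symm (a := x) (b := b) c3]
      · simp [c1, c2, Ne.symm (a := x) (b := a) c1, Ne.symm (a := y) (b := a) c2]
  have e2 : Zc (blk H E η p) 0 1 = Res789.Res (H0 + Wp q) (ze E η) p.1 p.2 := by
    have h1 := Res_emb_block hH hz hinj (K := -W2) negW2_symm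
    rw [e1] at h1
    have h2 : H + -Wp p = H0 + Wp q := by rw [hH0]; abel
    rw [h2] at h1
    have h3 := congrFun (congrFun h1 0) 1
    rw [Matrix.submatrix_apply] at h3
    exact h3.symm
  set O := offsq ((Res789.Res H0 (ze E η)).submatrix ![p.1, p.2, q.1, q.2]
        ![p.1, p.2, q.1, q.2]) with hO
  have hO0 : 0 ≤ O := offsq_nonneg _
  have b1 : ‖Res789.Res H0 (ze E η) p.1 p.2‖ ≤ Real.sqrt O :=
    Real.le_sqrt_of_sq_le (entry_sq_le ((Res789.Res H0 (ze E η)).submatrix ![p.1, p.2, q.1, q.2]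
        ![p.1, p.2, q.1, q.2]) (i := 0) (j := 1) (by decide))
  have b2 : ‖Res789.Res H0 (ze E η) p.1 q.1‖ ≤ Real.sqrt O :=
    Real.le_sqrt_of_sq_le (entry_sq_le ((Res789.Res H0 (ze E η)).submatrix ![p.1, p.2, q.1, q.2]
        ![p.1, p.2, q.1, q.2]) (i := 0) (j := 2) (by decide))
  have b3 : ‖Res789.Res H0 (ze E η) p.1 q.2‖ ≤ Real.sqrt O :=
    Real.le_sqrt_of_sq_le (entry_sq_le ((Res789.Res H0 (ze E η)).submatrix ![p.1, p.2, q.1, q.2]
        ![p.1, p.2, q.1, q.2]) (i := 0) (j := 3) (by decide))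
  have sH1 : (H0 + Wp q)ᵀ = H0 + Wp q := by rw [Matrix.transpose_add, sH0, Wp_symm]
  have c1 : ∀ v v', ‖Res789.Res (H0 + Wp q) (ze E η) v v'‖ ≤ 1 / η := by
    intro v v'
    have := norm_Res_le sH1 hz v v'
    rwa [ze_im] at this
  rw [e2, res_id sH0 (Wp_symm q) hz, Matrix.sub_apply, mul_Wp_apply hq]
  have hs0 := Real.sqrt_nonneg O
  calc _ ≤ ‖Res789.Res H0 (ze E η) p.1 p.2‖ +
        (‖Res789.Res H0 (ze E η) p.1 q.1‖ * ‖Res789.Res (H0 + Wp q) (ze E η) q.2 p.2‖ +
          ‖Res789.Res H0 (ze E η) p.1 q.2‖ * ‖Res789.Res (H0 + Wp q) (ze E η) q.1 p.2‖) := by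
        refine (norm_sub_le _ _).trans (add_le_add le_rfl ?_)
        refine (norm_add_le _ _).trans (le_of_eq ?_)
        rw [norm_mul, norm_mul]
    _ ≤ Real.sqrt O + (Real.sqrt O * (1 / η) + Real.sqrt O * (1 / η)) := by
        refine add_le_add b1 (add_le_add ?_ ?_)
        · exact mul_le_mul b2 (c1 _ _) (norm_nonneg _) hs0
        · exact mul_le_mul b3 (c1 _ _) (norm_nonneg _) hs0
    _ = _ := by ring

lemma blk_symm {H : Matrix (Fin n) (Fin n) ℝ} (hH : Hᵀ = H) (E : ℝ) {η : ℝ} (hη : 0 < η)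
    (p : Fin n × Fin n) : (blk H E η p)ᵀ = blk H E η p := by
  have hz : 0 < (ze E η).im := by rw [ze_im]; exact hη
  have h1 : (Crest.Agent.R166.Res H (ze E η))ᵀ = Crest.Agent.R166.Res H (ze E η) :=
    Res_transpose hH hz
  unfold Inv988.blk Blk
  rw [Matrix.transpose_submatrix, h1]

lemma blk_bnorm_le {H : Matrix (Fin n) (Fin n) ℝ} (hH : Hᵀ = H) (E : ℝ) {η : ℝ} (hη : 0 < η)
    (p : Fin n × Fin n) : bnorm (blk H E η p) ≤ 1 / η := by
  have hz : 0 < (ze E η).im := by rw [ze_im]; exact hη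
  rw [bnorm_le_iff]
  intro i j
  have := norm_Res_le hH hz (![p.1, p.2] i) (![p.1, p.2] j)
  rw [ze_im] at this
  exact this

end det

/-! ### the off-diagonal estimate -/

open Classical in
/-- average over valid pairs of the off-diagonal mass of the four ports -/
noncomputable def offA {n : ℕ} (G : SimpleGraph (Fin n)) (s : ℝ) (ω : Fin n → ℝ) (E η : ℝ) : ℝ :=
  eAvg2 G fun p q => if VSw G p.1 p.2 q.1 q.2 then
    offsq ((Res789.Res (Hm G s ω - Wp p - Wp q) (ze E η)).submatrix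
      ![p.1, p.2, q.1, q.2] ![p.1, p.2, q.1, q.2]) else 0

/-- (S2b) the off-diagonal cavity entries are small at fixed `η` -/
def OffB (d : ℕ) (s E : ℝ) : Prop :=
  ∀ η : ℝ, 0 < η → ∃ C : ℝ, ∀ n : ℕ, 0 < n →
    regularAverage n d (fun G => ∫ ω, offA G s ω E η ∂potentialLaw n) ≤ C / n

section offA

variable {n : ℕ}

lemma offsq_le {P : Type*} [Fintype P] [DecidableEq P] {Z : Matrix P P ℂ} {c : ℝ} (hc : 0 ≤ c)
    (h : ∀ i j, ‖Z i j‖ ≤ c) : offsq Z ≤ (Fintype.card P : ℝ) ^ 2 * c ^ 2 := by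
  unfold offsq
  have h1 : ∀ k l, (if k = l then (0 : ℝ) else ‖Z k l‖ ^ 2) ≤ c ^ 2 := by
    intro k l
    split_ifs
    · positivity
    · exact pow_le_pow_left₀ (norm_nonneg _) (h k l) 2
  refine (Finset.sum_le_sum fun k _ => Finset.sum_le_sum fun l _ => h1 k l).trans (le_of_eq ?_)
  simp only [Finset.sum_const, Finset.card_univ, nsmul_eq_mul]
  ring

lemma offsq_res_le {H : Matrix (Fin n) (Fin n) ℝ} (hH : Hᵀ = H) (p q : Fin n × Fin n) (E : ℝ)
    {η : ℝ} (hη : 0 < η) :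
    offsq ((Res789.Res (H - Wp p - Wp q) (ze E η)).submatrix
      ![p.1, p.2, q.1, q.2] ![p.1, p.2, q.1, q.2]) ≤ 16 * (1 / η) ^ 2 := by
  have hz : 0 < (ze E η).im := by rw [ze_im]; exact hη
  have sH0 : (H - Wp p - Wp q)ᵀ = H - Wp p - Wp q := by
    rw [Matrix.transpose_sub, Matrix.transpose_sub, Wp_symm, Wp_symm, hH]
  refine (offsq_le (c := 1 / η) (by positivity) fun i j => ?_).trans (le_of_eq ?_)
  · rw [Matrix.submatrix_apply]
    have := norm_Res_le sH0 hz (![p.1, p.2, q.1, q.2] i) (![p.1, p.2, q.1, q.2] j)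
    rwa [ze_im] at this
  · norm_num

open MeasMat93 in
lemma measurable_offsq (G : SimpleGraph (Fin n)) (s E η : ℝ) (p q : Fin n × Fin n) :
    Measurable fun ω : Fin n → ℝ => offsq ((Res789.Res (Hm G s ω - Wp p - Wp q)
      (ze E η)).submatrix ![p.1, p.2, q.1, q.2] ![p.1, p.2, q.1, q.2]) := by
  have h1 : MM (fun ω : Fin n → ℝ => Hm G s ω - Wp p - Wp q) :=
    ((MeasC780.MM_Hm G s).sub (MM.const _)).sub (MM.const _)
  have h2 : MM (fun ω : Fin n → ℝ => Crest.Agent.R166.Res (Hm G s ω - Wp p - Wp q) (ze E η)) :=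
    MeasC780.MM_res h1 (z := fun _ => ze E η) measurable_const
  have h3 := MeasC780.MM_submatrix h2 ![p.1, p.2, q.1, q.2] ![p.1, p.2, q.1, q.2]
  unfold offsq
  refine Finset.measurable_sum _ fun k _ => Finset.measurable_sum _ fun l _ => ?_
  split_ifs
  · exact measurable_const
  · exact (h3 k l).norm.pow_const 2

lemma good_offA (s E : ℝ) {η : ℝ} (hη : 0 < η) :
    MeasC780.Good n (16 * (1 / η) ^ 2) fun G ω => offA G s ω E η := by
  constructor
  · intro G
    unfold offA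
    refine MeasC780.measurable_eAvg2 G fun p q => ?_
    split_ifs
    · exact measurable_offsq G s E η p q
    · exact measurable_const
  · intro G ω
    refine MeasC780.abs_eAvg2_le G (by positivity) fun p q => ?_
    split_ifs
    · rw [abs_of_nonneg (offsq_nonneg _)]
      exact offsq_res_le (Stab269.Hm_symm G s ω) p q E hη
    · simp only [abs_zero]
      positivity

lemma eAvg2_nonneg {G : SimpleGraph (Fin n)} {F : Fin n × Fin n → Fin n × Fin n → ℝ}
    (h : ∀ p q, 0 ≤ F p q) : 0 ≤ eAvg2 G F := by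
  unfold Inv988.eAvg2
  exact div_nonneg (Finset.sum_nonneg fun _ _ => Finset.sum_nonneg fun _ _ => h _ _)
    (by positivity)

lemma offA_nonneg (G : SimpleGraph (Fin n)) (s : ℝ) (ω : Fin n → ℝ) (E η : ℝ) :
    0 ≤ offA G s ω E η := by
  unfold offA
  refine eAvg2_nonneg fun p q => ?_
  split_ifs
  · exact offsq_nonneg _
  · exact le_rfl

/-- Markov's inequality -/
lemma whp_of_EGo {d : ℕ} {B a ε : ℝ} {Φ : SimpleGraph (Fin n) → (Fin n → ℝ) → ℝ}
    (hΦ : MeasC780.Good n B Φ) (h0 : ∀ G ω, 0 ≤ Φ G ω) (ha : 0 < a)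
    (hne : (regularGraphs n d).Nonempty) (h : MeasC780.EGo n d Φ ≤ a * ε) :
    Whp n d ε fun G ω => Φ G ω ≤ a := by
  have hP := MeasC780.law_prob hne
  rw [MeasC780.EGo_eq_integral hΦ hne] at h
  have h1 := mul_meas_ge_le_integral_of_nonneg (μ := law n d)
    (f := fun x : SimpleGraph (Fin n) × (Fin n → ℝ) => Φ x.1 x.2)
    (Filter.Eventually.of_forall fun x => h0 x.1 x.2) (hΦ.integrable_law hne) a
  have h2 : (law n d).real {x | a ≤ Φ x.1 x.2} ≤ ε := by
    have := h1.trans h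
    exact le_of_mul_le_mul_left this ha
  unfold Whp
  have h3 : {x : SimpleGraph (Fin n) × (Fin n → ℝ) | ¬ Φ x.1 x.2 ≤ a} ⊆
      {x | a ≤ Φ x.1 x.2} := by
    intro x hx
    exact (not_le.1 hx).le
  refine (measure_mono h3).trans ?_
  rw [← ENNReal.ofReal_toReal (measure_ne_top (law n d) {x | a ≤ Φ x.1 x.2})]
  exact ENNReal.ofReal_le_ofReal h2

lemma whp_offA {d : ℕ} {s E : ℝ} (hO : OffB d s E) {η : ℝ} (hη : 0 < η) {t ε : ℝ} (ht : 0 < t)
    (hε : 0 < ε) : ∃ N : ℕ, ∀ n : ℕ, N ≤ n → (regularGraphs n d).Nonempty →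
      Whp n d ε fun G ω => offA G s ω E η ≤ t := by
  obtain ⟨C, hC⟩ := hO η hη
  obtain ⟨N, hN⟩ := exists_nat_gt (C / (t * ε))
  refine ⟨max N 1, fun n hn hne => ?_⟩
  have hn1 : 0 < n := by omega
  have hnN : (N : ℝ) ≤ n := by exact_mod_cast (le_max_left N 1).trans hn
  refine whp_of_EGo (good_offA s E hη) (fun G ω => offA_nonneg G s ω E η) ht hne ?_
  refine (hC n hn1).trans ?_
  have hn' : (0 : ℝ) < n := by exact_mod_cast hn1
  rw [div_le_iff₀ hn']
  have h1 : C < (n : ℝ) * (t * ε) := by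
    rw [div_lt_iff₀ (by positivity)] at hN
    have : (N : ℝ) * (t * ε) ≤ n * (t * ε) := by gcongr
    linarith
  linarith

end offA

end Crest.Agent.R166.InvP348
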