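import Crest.Agent.R166.InvP5_348

/-!
Row 166, section 50 (helper348): existence of a support point of the environment.
-/

set_option autoImplicit false
set_option linter.unusedSectionVars false

namespace Crest.Agent.R166.InvP348

open Matrix Complex Topology MeasureTheory Crest.ProbabilityR.RandomMatrix
open Crest.Agent.R166.Res789 Crest.Agent.R166.InvB348
open Crest.Agent.R166.SwAvg798 (Wp)
open Crest.Agent.R166.Sw798 (VSw)
open Crest.Agent.R166.Inv988 (M2 blk eAvg2)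

lemma negE_add {d : ℕ} {s E : ℝ} {χ1 χ2 : M2 → ℝ} (h1 : NegE d s E χ1) (h2 : NegE d s E χ2) :
    NegE d s E fun b => χ1 b + χ2 b := by
  intro ε hε
  obtain ⟨η1, hη1, H1⟩ := h1 (ε / 2) (by positivity)
  obtain ⟨η2, hη2, H2⟩ := h2 (ε / 2) (by positivity)
  refine ⟨min η1 η2, by positivity, fun η hη hle => ?_⟩
  obtain ⟨N1, hN1⟩ := H1 η hη (hle.trans (min_le_left _ _))
  obtain ⟨N2, hN2⟩ := H2 η hη (hle.trans (min_le_right _ _))
  refine ⟨max N1 N2, fun n hn hne => ?_⟩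
  have w := whp_and (by positivity) (by positivity) (hN1 n (by omega) hne) (hN2 n (by omega) hne)
  refine whp_mono_eps (whp_mono w fun G ω hG => ?_) (by linarith)
  rw [eAvg_add]
  linarith [hG.1, hG.2]

lemma negE_zero (d : ℕ) (s E : ℝ) : NegE d s E fun _ => 0 := by
  intro ε hε
  refine ⟨1, one_pos, fun η hη _ => ⟨0, fun n _ _ => ?_⟩⟩
  refine whp_true hε.le fun G ω => ?_
  exact (eAvg_const_le le_rfl).trans hε.le

lemma negE_sum {d : ℕ} {s E : ℝ} (T : Finset (M2 → ℝ)) (h : ∀ χ ∈ T, NegE d s E χ) :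
    NegE d s E fun b => ∑ χ ∈ T, χ b := by
  classical
  induction T using Finset.induction_on with
  | empty => simpa using negE_zero d s E
  | insert χ T hχ ih =>
    have h1 := negE_add (h χ (Finset.mem_insert_self _ _))
      (ih fun φ hφ => h φ (Finset.mem_insert_of_mem hφ))
    simpa [Finset.sum_insert hχ] using h1

lemma entry_le_bnorm (B : M2) (i j : Fin 2) : ‖B i j‖ ≤ bnorm B := (bnorm_le_iff B _).1 le_rfl i j

lemma bnorm_add_le (A B : M2) : bnorm (A + B) ≤ bnorm A + bnorm B := by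
  rw [bnorm_le_iff]
  intro i j
  rw [Matrix.add_apply]
  exact (norm_add_le _ _).trans (add_le_add (entry_le_bnorm _ _ _) (entry_le_bnorm _ _ _))

lemma bnorm_sub_comm (A B : M2) : bnorm (A - B) = bnorm (B - A) := by
  apply le_antisymm
  · rw [bnorm_le_iff]
    intro i j
    rw [Matrix.sub_apply, norm_sub_rev, ← Matrix.sub_apply]
    exact entry_le_bnorm _ _ _
  · rw [bnorm_le_iff]
    intro i j
    rw [Matrix.sub_apply, norm_sub_rev, ← Matrix.sub_apply]
    exact entry_le_bnorm _ _ _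

/-- the law charges regular graphs only -/
lemma whp_regular (n d : ℕ) : Whp n d 0 fun G _ => G ∈ regularGraphs n d := by
  unfold Whp law
  have h1 : {x : SimpleGraph (Fin n) × (Fin n → ℝ) | ¬ x.1 ∈ regularGraphs n d} =
      {G | ¬ G ∈ regularGraphs n d} ×ˢ Set.univ := by
    ext x
    simp
  have := MeasC780.gaussM_prob
  rw [h1, Measure.prod_prod]
  have h2 : (gLaw n d) {G | ¬ G ∈ regularGraphs n d} = 0 := by
    unfold gLaw
    rw [Measure.smul_apply, Measure.finsetSum_apply]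
    have h3 : ∑ G ∈ regularGraphs n d, (Measure.dirac G : Measure (SimpleGraph (Fin n)))
        {G | ¬ G ∈ regularGraphs n d} = 0 := by
      refine Finset.sum_eq_zero fun G hG => ?_
      rw [Measure.dirac_apply, Set.indicator_of_notMem]
      simpa using hG
    rw [h3]
    simp
  rw [h2, zero_mul]
  simp

section avg2

variable {n : ℕ} {G : SimpleGraph (Fin n)}

lemma eAvg2_add (F F' : Fin n × Fin n → Fin n × Fin n → ℝ) :
    eAvg2 G (fun p q => F p q + F' p q) = eAvg2 G F + eAvg2 G F' := by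
  unfold Inv988.eAvg2
  simp only [Finset.sum_add_distrib, add_div]

lemma eAvg2_const_mul (c : ℝ) (F : Fin n × Fin n → Fin n × Fin n → ℝ) :
    eAvg2 G (fun p q => c * F p q) = c * eAvg2 G F := by
  unfold Inv988.eAvg2
  simp only [← Finset.mul_sum, mul_div_assoc]

lemma eAvg2_fst (hG : (darts G).Nonempty) (F : Fin n → Fin n → ℝ) :
    eAvg2 G (fun p _ => F p.1 p.2) = eAvg G F := by
  have hc : (0 : ℝ) < (darts G).card := by exact_mod_cast Finset.card_pos.2 hG
  unfold Inv988.eAvg2 eAvg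
  simp only [Finset.sum_const, nsmul_eq_mul, ← Finset.mul_sum]
  field_simp

lemma eAvg2_one (hG : (darts G).Nonempty) : eAvg2 G (fun _ _ => 1) = 1 := by
  have hc : (0 : ℝ) < (darts G).card := by exact_mod_cast Finset.card_pos.2 hG
  unfold Inv988.eAvg2
  simp only [Finset.sum_const, nsmul_eq_mul, mul_one]
  field_simp

open Classical in
lemma eAvg2_invalid {d : ℕ} (hn : 0 < n) (hd : 0 < d) (hG : G ∈ regularGraphs n d) :
    eAvg2 G (fun p q => if VSw G p.1 p.2 q.1 q.2 then 0 else 1) ≤ 2 * (d + 2) / n := by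
  have hn' : (0 : ℝ) < n := by exact_mod_cast hn
  have hd' : (0 : ℝ) < d := by exact_mod_cast hd
  rw [SwAvg798.eAvg2_eq hG]
  have h1 : ∑ e ∈ SwAvg798.dd G, (if VSw G e.1.1 e.1.2 e.2.1 e.2.2 then (0 : ℝ) else 1) =
      ((SwAvg798.dd G).filter fun e => ¬ VSw G e.1.1 e.1.2 e.2.1 e.2.2).card := by
    rw [Finset.card_filter]
    push_cast
    refine Finset.sum_congr rfl fun e _ => ?_
    by_cases h : VSw G e.1.1 e.1.2 e.2.1 e.2.2 <;> simp [h]
  rw [h1]
  have hG' : G ∈ Sw798.Reg (Fin n) d := by rwa [← Sw798.regularGraphs_eq]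
  have h2 := SwAvg798.card_bad hG'
  rw [Fintype.card_fin] at h2
  have h3 : (((SwAvg798.dd G).filter fun e => ¬ VSw G e.1.1 e.1.2 e.2.1 e.2.2).card : ℝ) ≤
      (n * d) * (2 * d * (d + 2)) := by exact_mod_cast h2
  rw [div_le_div_iff₀ (by positivity) hn']
  calc (((SwAvg798.dd G).filter fun e => ¬ VSw G e.1.1 e.1.2 e.2.1 e.2.2).card : ℝ) * n
      ≤ (n * d) * (2 * d * (d + 2)) * n := by gcongr
    _ = 2 * (d + 2) * (n * d) ^ 2 := by ring

end avg2

/-- **support point of the environment** -/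
theorem exists_support {d : ℕ} (hd : 0 < d) {s E : ℝ} (hEnv : EnvDet d s E) (hLoc : LocLim d s E)
    (hND : NonDeg d s E) (hOff : OffB d s E)
    (hne : ∀ N : ℕ, ∃ n : ℕ, N ≤ n ∧ (regularGraphs n d).Nonempty) :
    ∃ x1 x2 : ℂ, 0 < x1.im ∧ 0 < x2.im ∧ ∀ χ : M2 → ℝ, Continuous χ → HasCompactSupport χ →
      (∀ b, 0 ≤ χ b) → 0 < χ (Ze2 x1 x2) → PosE d s E χ := by
  classical
  by_contra hcon
  push Not at hcon
  set F : Set (M2 → ℝ) := {χ | Continuous χ ∧ HasCompactSupport χ ∧ (∀ b, 0 ≤ χ b) ∧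
    ¬ PosE d s E χ} with hF
  obtain ⟨η1, hη1, K1, hK1, hL⟩ := hLoc (1 / 32) (by norm_num)
  obtain ⟨δ, hδ, η2, hη2, hN2⟩ := hND (1 / 8) (by norm_num)
  obtain ⟨T, hTF, κ, hκ, θ, hθ, hcomp⟩ := compact_cover (M := 1 + 1 / η1) hδ F
    (fun χ hχ => ⟨hχ.1, hχ.2.2.1⟩) (by
      intro x1 x2 h1 h2
      obtain ⟨χ, a1, a2, a3, a4, a5⟩ := hcon x1 x2 h1 h2
      exact ⟨χ, ⟨a1, a2, a3, a5⟩, a4⟩)
  have hNeg : NegE d s E fun b => ∑ χ ∈ T, χ b := negE_sum T fun χ hχ =>
    dichotomy hEnv hLoc hne (hTF χ hχ).1 (hTF χ hχ).2.1 (hTF χ hχ).2.2.2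
  obtain ⟨η3, hη3, hN3⟩ := hNeg (min (κ / 8) (1 / 8)) (by positivity)
  set η := min η1 (min η2 η3) with hηdef
  have hη : 0 < η := by positivity
  have hηle1 : η ≤ η1 := min_le_left _ _
  have hηle2 : η ≤ η2 := (min_le_right _ _).trans (min_le_left _ _)
  have hηle3 : η ≤ η3 := (min_le_right _ _).trans (min_le_right _ _)
  set t0 := (θ / (1 + 2 / η)) ^ 2 with ht0
  have ht0p : 0 < t0 := by positivity
  obtain ⟨M1, hM1⟩ := hL η hη hηle1 K1 le_rfl
  obtain ⟨M2', hM2⟩ := hL η1 hη1 le_rfl K1 le_rfl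
  obtain ⟨M3, hM3⟩ := hN2 η hη hηle2
  obtain ⟨M4, hM4⟩ := hN3 η hη hηle3
  obtain ⟨M5, hM5⟩ := whp_offA hOff hη (t := t0 / 8) (ε := 1 / 8) (by positivity) (by norm_num)
  obtain ⟨n, hn, hnne⟩ := hne (max (max (max M1 M2') (max M3 M4)) (max M5 (16 * (d + 2) + 1)))
  have hn0 : 0 < n := by omega
  have w1 := hM1 n (by omega) hnne
  have w2 := hM2 n (by omega) hnne
  have w3 := hM3 n (by omega) hnne
  have w4 := whp_mono_eps (hM4 n (by omega) hnne) (min_le_right _ _)
  have w5 := hM5 n (by omega) hnne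
  have w6 := whp_regular n d
  have w := whp_and (by norm_num) (by norm_num)
    (whp_and (by norm_num) (by norm_num) (whp_and (by norm_num) (by norm_num) w1 w2)
      (whp_and (by norm_num) (by norm_num) w3 w4))
    (whp_and (by norm_num) (by norm_num) w5 w6)
  obtain ⟨G, ω, ⟨⟨g1, g2⟩, g3, g4⟩, g5, g6⟩ := whp_exists hnne w (by norm_num)
  have hn' : (0 : ℝ) < n := by exact_mod_cast hn0
  have hdarts : (darts G).Nonempty := by
    rw [← Finset.card_pos]
    have := SwAvg798.card_darts_real g6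
    have h2 : (0 : ℝ) < (darts G).card := by rw [this]; positivity
    exact_mod_cast h2
  have hinv := eAvg2_invalid hn0 hd g6
  set H := Hm G s ω with hH
  have sH : Hᵀ = H := Stab269.Hm_symm G s ω
  -- the pointwise inequality
  have hpt : ∀ p q : Fin n × Fin n, (1 : ℝ) ≤
      ((min 1 (bnorm (Blk (Res H (zz E K1 n)) p.1 p.2 - Blk (Res H (ze E η)) p.1 p.2)) +
        min 1 (bnorm (Blk (Res H (zz E K1 n)) p.1 p.2 - Blk (Res H (ze E η1)) p.1 p.2))) +
      ((if ∀ x : Fin 2 → ℝ, δ * (x 0 ^ 2 + x 1 ^ 2) ≤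
          ∑ a, ∑ b, x a * (Blk (Res H (ze E η)) p.1 p.2 a b).im * x b then 0 else 1) +
        κ⁻¹ * ∑ χ ∈ T, χ (Blk (Res H (ze E η)) p.1 p.2))) +
      (t0⁻¹ * (if VSw G p.1 p.2 q.1 q.2 then
        offsq ((Res789.Res (H - Wp p - Wp q) (ze E η)).submatrix
          ![p.1, p.2, q.1, q.2] ![p.1, p.2, q.1, q.2]) else 0) +
        (if VSw G p.1 p.2 q.1 q.2 then 0 else 1)) := by
    intro p q
    by_contra hlt
    push Not at hlt
    have m1 : 0 ≤ min 1 (bnorm (Blk (Res H (zz E K1 n)) p.1 p.2 - Blk (Res H (ze E η)) p.1 p.2)) :=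
      le_min zero_le_one (bnorm_nonneg _)
    have m2 : 0 ≤ min 1 (bnorm (Blk (Res H (zz E K1 n)) p.1 p.2 - Blk (Res H (ze E η1)) p.1 p.2)) :=
      le_min zero_le_one (bnorm_nonneg _)
    have m3 : (0 : ℝ) ≤ (if ∀ x : Fin 2 → ℝ, δ * (x 0 ^ 2 + x 1 ^ 2) ≤
          ∑ a, ∑ b, x a * (Blk (Res H (ze E η)) p.1 p.2 a b).im * x b then 0 else 1) := by
      split_ifs <;> norm_num
    have m4 : 0 ≤ κ⁻¹ * ∑ χ ∈ T, χ (Blk (Res H (ze E η)) p.1 p.2) :=
      mul_nonneg (by positivity) (Finset.sum_nonneg fun χ hχ => (hTF χ hχ).2.2.1 _)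
    have m5 : 0 ≤ t0⁻¹ * (if VSw G p.1 p.2 q.1 q.2 then
        offsq ((Res789.Res (H - Wp p - Wp q) (ze E η)).submatrix
          ![p.1, p.2, q.1, q.2] ![p.1, p.2, q.1, q.2]) else 0) := by
      refine mul_nonneg (by positivity) ?_
      split_ifs
      · exact offsq_nonneg _
      · exact le_rfl
    have hv : VSw G p.1 p.2 q.1 q.2 := by
      by_contra hv
      rw [if_neg hv, if_neg hv] at hlt
      linarith
    rw [if_pos hv, if_pos hv] at hlt
    rw [if_pos hv] at m5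
    have hnd : ∀ x : Fin 2 → ℝ, δ * (x 0 ^ 2 + x 1 ^ 2) ≤
          ∑ a, ∑ b, x a * (Blk (Res H (ze E η)) p.1 p.2 a b).im * x b := by
      by_contra hnd
      rw [if_neg hnd] at hlt
      linarith
    rw [if_pos hnd] at hlt
    -- the bound of the block
    have hM : bnorm (Blk (Res H (ze E η)) p.1 p.2) ≤ 1 + 1 / η1 := by
      set Z := Blk (Res H (zz E K1 n)) p.1 p.2
      set b := Blk (Res H (ze E η)) p.1 p.2
      set b' := Blk (Res H (ze E η1)) p.1 p.2 with hb'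
      have a1 : bnorm (Z - b) < 1 := by
        by_contra hc
        push Not at hc
        rw [min_eq_left hc] at hlt
        linarith
      have a2 : bnorm (Z - b') < 1 := by
        by_contra hc
        push Not at hc
        rw [min_eq_left hc] at hlt
        linarith
      rw [min_eq_right a1.le, min_eq_right a2.le] at hlt
      rw [min_eq_right a1.le] at m1
      have a3 : b = (b - Z) + ((Z - b') + b') := by abel
      have a4 : bnorm b' ≤ 1 / η1 := blk_bnorm_le sH E hη1 p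
      have a5 := bnorm_add_le (b - Z) ((Z - b') + b')
      have a6 := bnorm_add_le (Z - b') b'
      rw [← a3, bnorm_sub_comm] at a5
      linarith
    have hK : Blk (Res H (ze E η)) p.1 p.2 ∈ KK (1 + 1 / η1) δ :=
      ⟨blk_symm sH E hη p, hM, hnd⟩
    -- the off-diagonal entry
    have hoff : ‖Zc (Blk (Res H (ze E η)) p.1 p.2) 0 1‖ ≤ θ := by
      have z1 := Zc_blk_le sH hv.xy.ne hv.uw.ne E hη (p := p) (q := q)
      refine z1.trans ?_
      have z2 : offsq ((Res789.Res (H - Wp p - Wp q) (ze E η)).submatrix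
          ![p.1, p.2, q.1, q.2] ![p.1, p.2, q.1, q.2]) ≤ t0 := by
        by_contra hc
        push Not at hc
        have : 1 ≤ t0⁻¹ * offsq ((Res789.Res (H - Wp p - Wp q) (ze E η)).submatrix
          ![p.1, p.2, q.1, q.2] ![p.1, p.2, q.1, q.2]) := by
          rw [inv_mul_eq_div, le_div_iff₀ ht0p]
          linarith
        linarith
      have z3 := Real.sqrt_le_sqrt z2
      have hpos : 0 < 1 + 2 / η := by positivity
      rw [ht0, Real.sqrt_sq (by positivity)] at z3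
      calc (1 + 2 / η) * Real.sqrt _ ≤ (1 + 2 / η) * (θ / (1 + 2 / η)) := by gcongr
        _ = θ := by field_simp
    have hfin := hcomp _ hK hoff
    have : 1 ≤ κ⁻¹ * ∑ χ ∈ T, χ (Blk (Res H (ze E η)) p.1 p.2) := by
      rw [inv_mul_eq_div, le_div_iff₀ hκ]
      linarith
    linarith
  -- average
  have havg := MeasC780.eAvg2_mono G hpt
  rw [eAvg2_one hdarts, eAvg2_add, eAvg2_add (F := fun p q => t0⁻¹ * _), eAvg2_const_mul] at havg
  rw [eAvg2_fst hdarts (fun u w => (min 1 (bnorm (Blk (Res H (zz E K1 n)) u w -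
      Blk (Res H (ze E η)) u w)) +
      min 1 (bnorm (Blk (Res H (zz E K1 n)) u w - Blk (Res H (ze E η1)) u w))) +
      ((if ∀ x : Fin 2 → ℝ, δ * (x 0 ^ 2 + x 1 ^ 2) ≤
          ∑ a, ∑ b, x a * (Blk (Res H (ze E η)) u w a b).im * x b then 0 else 1) +
        κ⁻¹ * ∑ χ ∈ T, χ (Blk (Res H (ze E η)) u w)))] at havg
  rw [eAvg_add, eAvg_add] at havg
  have hsplit := eAvg_add (G := G) (fun u w => (if ∀ x : Fin 2 → ℝ, δ * (x 0 ^ 2 + x 1 ^ 2) ≤
          ∑ a, ∑ b, x a * (Blk (Res H (ze E η)) u w a b).im * x b then (0 : ℝ) else 1))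
        (fun u w => κ⁻¹ * ∑ χ ∈ T, χ (Blk (Res H (ze E η)) u w))
  rw [hsplit, eAvg_const_mul] at havg
  have i3 : 2 * ((d : ℝ) + 2) / n ≤ 1 / 8 := by
    rw [div_le_div_iff₀ hn' (by norm_num)]
    have : (16 * (d + 2) + 1 : ℕ) ≤ n := by omega
    have h2 : ((16 * (d + 2) + 1 : ℕ) : ℝ) ≤ n := by exact_mod_cast this
    push_cast at h2
    linarith
  have i4 : κ⁻¹ * eAvg G (fun u w => ∑ χ ∈ T, χ (Blk (Res H (ze E η)) u w)) ≤ 1 / 8 := by
    have := g4.trans (min_le_left _ _)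
    rw [inv_mul_eq_div, div_le_iff₀ hκ]
    linarith
  have i5 : t0⁻¹ * offA G s ω E η ≤ 1 / 8 := by
    rw [inv_mul_eq_div, div_le_iff₀ ht0p]
    linarith
  unfold offA at i5
  linarith

end Crest.Agent.R166.InvP348
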