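import Crest.Agent.R166.InvSw_286
import Crest.Agent.R166.InvB_348
import Crest.Agent.R166.MeasC_780

/-!
# R166, section 50, S2b: the edge blocks of the graph and of the switched graph are functions of the
same four numbers `R0 a a` (up to `O(off)`), helper286
-/

set_option autoImplicit false
set_option linter.unusedSectionVars false

open Finset

namespace Crest.Agent.R166.InvSw286

open Crest.Agent.R166 Crest.Agent.R166.Sw798 Crest.Agent.R166.SwAvg798
open Crest.Agent.R166.Inv988 Crest.Agent.R166.InvB348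
open Crest.ProbabilityR.RandomMatrix MeasureTheory
open Classical

/-- a possible value of a diagonal entry of a resolvent at distance `η` of the real line -/
structure CavV (η : ℝ) (a : ℂ) : Prop where
  pos : 0 < a.im
  le : η * ‖a‖ ^ 2 ≤ a.im

lemma CavV.norm_le {η : ℝ} (hη : 0 < η) {a : ℂ} (h : CavV η a) : ‖a‖ ≤ 1 / η := by
  have h2 : a.im ≤ ‖a‖ := (le_abs_self _).trans (Complex.abs_im_le_norm _)
  have h0 : 0 < ‖a‖ := lt_of_lt_of_le h.pos h2
  rw [le_div_iff₀ hη]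
  have h3 : ‖a‖ * (‖a‖ * η) ≤ ‖a‖ * 1 := by nlinarith [h.le]
  exact le_of_mul_le_mul_left h3 h0

lemma CavV.ne {η : ℝ} {a : ℂ} (h : CavV η a) : a ≠ 0 := by
  rintro rfl
  have := h.pos
  simp at this

lemma CavV.norm_sub_ge {η : ℝ} {a b : ℂ} (h : CavV η a) (hb : 0 < b.im) :
    η * ‖a‖ ≤ ‖1 - a * b‖ := by
  have ha := h.ne
  have e : 1 - a * b = a * (a⁻¹ - b) := by field_simp
  have h1 : (a⁻¹ - b).im ≤ -η := by
    rw [Complex.sub_im, Complex.inv_im]
    have hn : 0 < Complex.normSq a := Complex.normSq_pos.2 ha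
    have h2 : η ≤ a.im / Complex.normSq a := by
      rw [le_div_iff₀ hn, Complex.normSq_eq_norm_sq]
      exact h.le
    rw [neg_div]
    linarith
  have h2 : η ≤ ‖a⁻¹ - b‖ := by
    have := (neg_le_abs (a⁻¹ - b).im).trans (Complex.abs_im_le_norm _)
    linarith
  rw [e, norm_mul, mul_comm η]
  exact mul_le_mul_of_nonneg_left h2 (norm_nonneg _)

lemma CavV.one_sub_ne {η : ℝ} (hη : 0 < η) {a b : ℂ} (h : CavV η a) (hb : 0 < b.im) :
    1 - a * b ≠ 0 := by
  intro h0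
  have := h.norm_sub_ge hb
  rw [h0, norm_zero] at this
  have h1 : 0 < ‖a‖ := norm_pos_iff.2 h.ne
  nlinarith

lemma CavV.div_le {η : ℝ} (hη : 0 < η) {a b : ℂ} (h : CavV η a) (hb : 0 < b.im) :
    ‖a / (1 - a * b)‖ ≤ 1 / η := by
  rw [norm_div, div_le_div_iff₀ (norm_pos_iff.2 (h.one_sub_ne hη hb)) hη, one_mul, mul_comm]
  exact h.norm_sub_ge hb

/-- explicit form of the edge block -/
lemma Ze2_eq {a1 a2 : ℂ} (h1 : 0 < a1.im) (h2 : 0 < a2.im) (hne : 1 - a1 * a2 ≠ 0) :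
    Ze2 a1 a2 = !![a1 / (1 - a1 * a2), -(a2 * (a1 / (1 - a1 * a2)));
      -(a2 * (a1 / (1 - a1 * a2))), a2 / (1 - a1 * a2)] := by
  have hs := sieg_diagonal (vec2_im h1 h2)
  unfold Ze2
  rw [hs.Pm_eq W2_symm]
  have e1 : (1 + Res789.cx W2 * Matrix.diagonal ![a1, a2] : Matrix (Fin 2) (Fin 2) ℂ) =
      !![1, a2; a1, 1] := by
    ext i j
    fin_cases i <;> fin_cases j <;> simp [W2, Res789.cx, Matrix.mul_diagonal]
  have e2 : (!![1, a2; a1, 1] : Matrix (Fin 2) (Fin 2) ℂ)⁻¹ =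
      (1 - a1 * a2)⁻¹ • !![1, -a2; -a1, 1] := by
    apply Matrix.inv_eq_right_inv
    ext i j
    fin_cases i <;> fin_cases j <;>
      simp [Matrix.mul_apply, Fin.sum_univ_two] <;> field_simp <;> ring
  rw [e1, e2]
  ext i j
  rw [Matrix.diagonal_mul]
  fin_cases i <;> fin_cases j
  · simp [div_eq_mul_inv]
  · simp [div_eq_mul_inv]; ring
  · simp only [Fin.mk_one, Fin.zero_eta, Matrix.smul_apply, Matrix.of_apply, Matrix.cons_val',
      Matrix.cons_val_zero, Matrix.cons_val_one, Matrix.cons_val_fin_one, smul_eq_mul,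
      div_eq_mul_inv]
    ring
  · simp [div_eq_mul_inv]

lemma norm_Ze2_le {η : ℝ} (hη : 0 < η) {a1 a2 : ℂ} (h1 : CavV η a1) (h2 : CavV η a2) (i j : Fin 2) :
    ‖Ze2 a1 a2 i j‖ ≤ 1 / η + 1 / η ^ 2 := by
  rw [Ze2_eq h1.pos h2.pos (h1.one_sub_ne hη h2.pos)]
  have k1 := h1.div_le hη h2.pos
  have k2 := h2.div_le hη h1.pos
  rw [mul_comm a2 a1] at k2
  have k3 := h2.norm_le hη
  have k4 : (1 / η ^ 2) = 1 / η * (1 / η) := by field_simp
  have k5 : ‖-(a2 * (a1 / (1 - a1 * a2)))‖ ≤ 1 / η * (1 / η) := by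
    rw [norm_neg, norm_mul]
    exact mul_le_mul k3 k1 (norm_nonneg _) (by positivity)
  have k6 : 0 < 1 / η := by positivity
  have k7 : 0 < 1 / η * (1 / η) := by positivity
  rw [k4]
  fin_cases i <;> fin_cases j <;> simp only [Fin.zero_eta, Fin.mk_one, Matrix.of_apply,
    Matrix.cons_val', Matrix.cons_val_zero, Matrix.cons_val_one, Matrix.cons_val_fin_one] <;>
    linarith

lemma mul3_le {A B C : Matrix (Fin 2) (Fin 2) ℂ} {a b c : ℝ} (hA : ∀ i j, ‖A i j‖ ≤ a)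
    (hB : ∀ i j, ‖B i j‖ ≤ b) (hC : ∀ i j, ‖C i j‖ ≤ c) (i j : Fin 2) :
    ‖(A * B * C) i j‖ ≤ 4 * a * b * c := by
  have ha : 0 ≤ a := (norm_nonneg _).trans (hA 0 0)
  have hb : 0 ≤ b := (norm_nonneg _).trans (hB 0 0)
  have hc : 0 ≤ c := (norm_nonneg _).trans (hC 0 0)
  have h1 : ∀ i j, ‖(A * B) i j‖ ≤ 2 * (a * b) := by
    intro i j
    rw [Matrix.mul_apply, Fin.sum_univ_two]
    refine (norm_add_le _ _).trans ?_
    rw [norm_mul, norm_mul]
    have := mul_le_mul (hA i 0) (hB 0 j) (norm_nonneg _) ha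
    have := mul_le_mul (hA i 1) (hB 1 j) (norm_nonneg _) ha
    linarith
  rw [Matrix.mul_apply, Fin.sum_univ_two]
  refine (norm_add_le _ _).trans ?_
  rw [norm_mul, norm_mul]
  have h2 : (0 : ℝ) ≤ 2 * (a * b) := by positivity
  have := mul_le_mul (h1 i 0) (hC 0 j) (norm_nonneg _) h2
  have := mul_le_mul (h1 i 1) (hC 1 j) (norm_nonneg _) h2
  linarith

/-- the constant of the block comparison -/
noncomputable def cB (η : ℝ) : ℝ :=
  4 * (1 + 1 / η) * (1 + 2 / η) * (1 + (1 / η + 1 / η ^ 2))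

lemma cB_nonneg {η : ℝ} (hη : 0 < η) : 0 ≤ cB η := by unfold cB; positivity

lemma Pm_sub_Pm {Z D : Matrix (Fin 2) (Fin 2) ℂ} (hZ : Res789.Sieg Z) (hD : Res789.Sieg D)
    {K : Matrix (Fin 2) (Fin 2) ℝ} (hK : K.transpose = K) :
    Res789.Pm Z K - Res789.Pm D K =
      (1 - Res789.Pm Z K * Res789.cx K) * (Z - D) * (1 - Res789.cx K * Res789.Pm D K) := by
  have u1 := hZ.isUnit_inv_add hK
  have u2 := hD.isUnit_inv_add hK
  have e1 : Res789.Pm Z K * (Z⁻¹ + Res789.cx K) = 1 := Matrix.nonsing_inv_mul _ u1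
  have e2 : (D⁻¹ + Res789.cx K) * Res789.Pm D K = 1 := Matrix.mul_nonsing_inv _ u2
  have f1 : 1 - Res789.Pm Z K * Res789.cx K = Res789.Pm Z K * Z⁻¹ := by
    rw [mul_add] at e1
    rw [← e1]; abel
  have f2 : 1 - Res789.cx K * Res789.Pm D K = D⁻¹ * Res789.Pm D K := by
    rw [add_mul] at e2
    rw [← e2]; abel
  rw [f1, f2]
  have g1 : Res789.Pm Z K * Z⁻¹ * (Z - D) * (D⁻¹ * Res789.Pm D K) =
      Res789.Pm Z K * (Z⁻¹ * Z) * (D⁻¹ * Res789.Pm D K) -
        Res789.Pm Z K * Z⁻¹ * ((D * D⁻¹) * Res789.Pm D K) := by noncomm_ring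
  rw [g1, hZ.inv_mul, hD.mul_inv, mul_one, one_mul]
  have g2 : Res789.Pm Z K * (D⁻¹ * Res789.Pm D K) - Res789.Pm Z K * Z⁻¹ * Res789.Pm D K =
      Res789.Pm Z K * ((D⁻¹ + Res789.cx K) * Res789.Pm D K) -
        (Res789.Pm Z K * (Z⁻¹ + Res789.cx K)) * Res789.Pm D K := by noncomm_ring
  rw [g2, e1, e2]
  simp

section Blocks

variable {n : ℕ}

lemma diag_cavV {H : Matrix (Fin n) (Fin n) ℝ} (hH : H.transpose = H) {z : ℂ} (hz : 0 < z.im)
    (u : Fin n) : CavV z.im (Res H z u u) := by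
  have h := row_sq hH hz u
  have h1 : ‖Res H z u u‖ ^ 2 ≤ ∑ v, ‖Res H z u v‖ ^ 2 :=
    Finset.single_le_sum (f := fun v => ‖Res H z u v‖ ^ 2) (fun _ _ => by positivity)
      (Finset.mem_univ u)
  have h2 : z.im * ‖Res H z u u‖ ^ 2 ≤ (Res H z u u).im := by
    rw [← h]; exact mul_le_mul_of_nonneg_left h1 hz.le
  refine ⟨?_, h2⟩
  have h3 := (Res789.Res_sieg hH hz).submatrix (f := fun _ : Fin 1 => u)
    (Function.injective_of_subsingleton _)
  have h4 := h3.pos (fun _ => 1) (by intro h0; have := congrFun h0 0; simp at this)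
  rw [Res789.qf_expand] at h4
  have h5 : 0 < (Res789.Res H z u u).im := by simpa using h4
  exact h5

lemma inj2 {a b : Fin n} (h : a ≠ b) : Function.Injective ![a, b] := by
  intro i j hij
  fin_cases i <;> fin_cases j
  · rfl
  · exact absurd hij h
  · exact absurd hij h.symm
  · rfl

lemma Wp_eq_emb {p : Fin n × Fin n} (hp : p.1 ≠ p.2) :
    Wp p = Res789.emb ![p.1, p.2] W2 := by
  ext i j
  by_cases h1 : i = p.1 ∧ j = p.2
  · obtain ⟨rfl, rfl⟩ := h1
    have := Res789.emb_apply_range (inj2 hp) W2 0 1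
    simp only [Matrix.cons_val_zero, Matrix.cons_val_one] at this
    rw [this]
    simp [Wp, W2]
  · by_cases h2 : i = p.2 ∧ j = p.1
    · obtain ⟨rfl, rfl⟩ := h2
      have := Res789.emb_apply_range (inj2 hp) W2 1 0
      simp only [Matrix.cons_val_zero, Matrix.cons_val_one] at this
      rw [this]
      simp [Wp, W2]
    · rw [Res789.emb_apply]
      have e : Wp p i j = 0 := by simp [Wp, h1, h2]
      rw [e]
      symm
      refine Finset.sum_eq_zero fun a _ => Finset.sum_eq_zero fun b _ => ?_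
      split_ifs with hc
      · fin_cases a <;> fin_cases b
        · simp [W2]
        · exact absurd ⟨hc.1.symm, hc.2.symm⟩ h1
        · exact absurd ⟨hc.1.symm, hc.2.symm⟩ h2
        · simp [W2]
      · rfl

/-- the block after adding the edge `p` is the Moebius image of the block before -/
lemma Blk_add {H : Matrix (Fin n) (Fin n) ℝ} (hH : H.transpose = H) {z : ℂ} (hz : 0 < z.im)
    {p : Fin n × Fin n} (hp : p.1 ≠ p.2) :
    Blk (Res (H + Wp p) z) p.1 p.2 = Res789.Pm (Blk (Res H z) p.1 p.2) W2 := by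
  rw [Wp_eq_emb hp]
  exact Res789.Res_emb_block hH hz (inj2 hp) W2_symm

lemma sieg_Blk {H : Matrix (Fin n) (Fin n) ℝ} (hH : H.transpose = H) {z : ℂ} (hz : 0 < z.im)
    {a b : Fin n} (h : a ≠ b) : Res789.Sieg (Blk (Res H z) a b) :=
  (Res789.Res_sieg hH hz).submatrix (inj2 h)

/-- the cavity block at `p` when the edge `q` is present -/
lemma cav_near {H : Matrix (Fin n) (Fin n) ℝ} (hH : H.transpose = H) {z : ℂ} (hz : 0 < z.im)
    {p q : Fin n × Fin n} (hq : q.1 ≠ q.2) {t : ℝ}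
    (h0 : ‖Res H z p.1 p.2‖ ≤ t) (h11 : ‖Res H z p.1 q.1‖ ≤ t) (h12 : ‖Res H z p.1 q.2‖ ≤ t)
    (h21 : ‖Res H z p.2 q.1‖ ≤ t) (h22 : ‖Res H z p.2 q.2‖ ≤ t) (i j : Fin 2) :
    ‖(Blk (Res (H + Wp q) z) p.1 p.2 - Matrix.diagonal ![Res H z p.1 p.1, Res H z p.2 p.2]) i j‖ ≤
      (1 + 2 / z.im) * t := by
  have hs := add_Wp_symm hH q
  have key : ∀ a b : Fin n, ‖Res H z b q.1‖ ≤ t → ‖Res H z b q.2‖ ≤ t →
      ‖Res (H + Wp q) z a b - Res H z a b‖ ≤ 2 / z.im * t := by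
    intro a b g1 g2
    have h := Res_add_apply (c := q.1) (c' := q.2) hH hz hq a b
    rw [Prod.mk.eta] at h
    rw [h, norm_neg]
    refine (norm_add_le _ _).trans ?_
    rw [norm_mul, norm_mul]
    rw [Res_symm hH hz] at g1 g2
    have k1 := mul_le_mul (norm_apply_le hs hz a q.1) g2 (norm_nonneg _) (by positivity)
    have k2 := mul_le_mul (norm_apply_le hs hz a q.2) g1 (norm_nonneg _) (by positivity)
    have : 2 / z.im * t = 1 / z.im * t + 1 / z.im * t := by ring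
    linarith
  have ht : 0 ≤ t := (norm_nonneg _).trans h0
  have k11 := key p.1 p.1 h11 h12
  have k12 := key p.1 p.2 h21 h22
  have k21 := key p.2 p.1 h11 h12
  have k22 := key p.2 p.2 h21 h22
  have h0' : ‖Res H z p.2 p.1‖ ≤ t := by rw [Res_symm hH hz]; exact h0
  have e12 : ‖Res (H + Wp q) z p.1 p.2‖ ≤ 2 / z.im * t + t := by
    have : Res (H + Wp q) z p.1 p.2 =
      (Res (H + Wp q) z p.1 p.2 - Res H z p.1 p.2) + Res H z p.1 p.2 := by ring
    rw [this]
    exact (norm_add_le _ _).trans (add_le_add k12 h0)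
  have e21 : ‖Res (H + Wp q) z p.2 p.1‖ ≤ 2 / z.im * t + t := by
    have : Res (H + Wp q) z p.2 p.1 =
      (Res (H + Wp q) z p.2 p.1 - Res H z p.2 p.1) + Res H z p.2 p.1 := by ring
    rw [this]
    exact (norm_add_le _ _).trans (add_le_add k21 h0')
  fin_cases i <;> fin_cases j
  · simp only [Blk, Matrix.sub_apply, Matrix.submatrix_apply, Fin.zero_eta, Matrix.cons_val_zero,
      Matrix.diagonal_apply_eq]
    linarith
  · simp only [Blk, Matrix.sub_apply, Matrix.submatrix_apply, Fin.zero_eta, Fin.mk_one,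
      Matrix.cons_val_zero, Matrix.cons_val_one]
    rw [Matrix.diagonal_apply_ne _ (by decide), sub_zero]
    linarith
  · simp only [Blk, Matrix.sub_apply, Matrix.submatrix_apply, Fin.zero_eta, Fin.mk_one,
      Matrix.cons_val_zero, Matrix.cons_val_one]
    rw [Matrix.diagonal_apply_ne _ (by decide), sub_zero]
    linarith
  · simp only [Blk, Matrix.sub_apply, Matrix.submatrix_apply, Fin.mk_one, Matrix.cons_val_one,
      Matrix.diagonal_apply_eq, Matrix.cons_val_fin_one]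
    linarith

/-- **the full edge block** -/
theorem blk_near {H : Matrix (Fin n) (Fin n) ℝ} (hH : H.transpose = H) {z : ℂ} (hz : 0 < z.im)
    {p q : Fin n × Fin n} (hp : p.1 ≠ p.2) (hq : q.1 ≠ q.2) {t : ℝ}
    (h0 : ‖Res H z p.1 p.2‖ ≤ t) (h11 : ‖Res H z p.1 q.1‖ ≤ t) (h12 : ‖Res H z p.1 q.2‖ ≤ t)
    (h21 : ‖Res H z p.2 q.1‖ ≤ t) (h22 : ‖Res H z p.2 q.2‖ ≤ t) (i j : Fin 2) :
    ‖(Blk (Res (H + Wp q + Wp p) z) p.1 p.2 - Ze2 (Res H z p.1 p.1) (Res H z p.2 p.2)) i j‖ ≤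
      cB z.im * t := by
  have hs := add_Wp_symm hH q
  have hs2 := add_Wp_symm hs p
  have c1 := diag_cavV hH hz p.1
  have c2 := diag_cavV hH hz p.2
  have hZ := sieg_Blk hs hz hp
  have hD := sieg_diagonal (vec2_im c1.pos c2.pos)
  rw [Blk_add hs hz hp]
  unfold Ze2
  rw [Pm_sub_Pm hZ hD W2_symm]
  have ht : 0 ≤ t := (norm_nonneg _).trans h0
  have k1 : ∀ i j, ‖(1 - Res789.Pm (Blk (Res (H + Wp q) z) p.1 p.2) W2 * Res789.cx W2) i j‖ ≤
      1 + 1 / z.im := by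
    rw [← Blk_add hs hz hp]
    intro i j
    rw [Matrix.sub_apply]
    refine (_root_.norm_sub_le _ _).trans (add_le_add ?_ ?_)
    · rw [Matrix.one_apply]; split_ifs <;> simp
    · have : (Blk (Res (H + Wp q + Wp p) z) p.1 p.2 * Res789.cx W2) i j =
          Blk (Res (H + Wp q + Wp p) z) p.1 p.2 i (if j = 0 then 1 else 0) := by
        rw [Matrix.mul_apply, Fin.sum_univ_two]
        fin_cases j <;> simp [W2, Res789.cx]
      rw [this]
      exact norm_apply_le hs2 hz _ _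
  have k2 : ∀ i j, ‖(1 - Res789.cx W2 * Res789.Pm (Matrix.diagonal ![Res H z p.1 p.1,
      Res H z p.2 p.2]) W2) i j‖ ≤ 1 + (1 / z.im + 1 / z.im ^ 2) := by
    intro i j
    rw [Matrix.sub_apply]
    refine (_root_.norm_sub_le _ _).trans (add_le_add ?_ ?_)
    · rw [Matrix.one_apply]; split_ifs <;> simp
    · have : (Res789.cx W2 * Res789.Pm (Matrix.diagonal ![Res H z p.1 p.1,
          Res H z p.2 p.2]) W2) i j =
          Ze2 (Res H z p.1 p.1) (Res H z p.2 p.2) (if i = 0 then 1 else 0) j := by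
        unfold Ze2
        rw [Matrix.mul_apply, Fin.sum_univ_two]
        fin_cases i <;> simp [W2, Res789.cx]
      rw [this]
      exact norm_Ze2_le hz c1 c2 _ _
  have k3 := cav_near hH hz hq h0 h11 h12 h21 h22
  refine (mul3_le k1 k3 k2 i j).trans (le_of_eq ?_)
  unfold cB
  ring

/-- an off-diagonal entry is bounded by the square root of `offSq` -/
lemma off_le (R : Matrix (Fin n) (Fin n) ℂ) (p q : Fin n × Fin n) {a b : Fin 4} (h : a ≠ b) :
    ‖R (port p q a) (port p q b)‖ ≤ Real.sqrt (offSq R p q) := by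
  apply Real.le_sqrt_of_sq_le
  unfold offSq
  have h1 : ‖R (port p q a) (port p q b)‖ ^ 2 =
      (if a ≠ b then ‖R (port p q a) (port p q b)‖ ^ 2 else 0) := by rw [if_pos h]
  rw [h1]
  refine le_trans (Finset.single_le_sum
    (f := fun b => if a ≠ b then ‖R (port p q a) (port p q b)‖ ^ 2 else 0) (fun b _ => ?_)
    (Finset.mem_univ b)) ?_
  · split_ifs <;> positivity
  · refine Finset.single_le_sum
      (f := fun a => ∑ b, if a ≠ b then ‖R (port p q a) (port p q b)‖ ^ 2 else 0) (fun a _ => ?_)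
      (Finset.mem_univ a)
    exact Finset.sum_nonneg fun b _ => by split_ifs <;> positivity

lemma offSq_nonneg (R : Matrix (Fin n) (Fin n) ℂ) (p q : Fin n × Fin n) : 0 ≤ offSq R p q :=
  Finset.sum_nonneg fun _ _ => Finset.sum_nonneg fun _ _ => by split_ifs <;> positivity

/-! ### the four blocks -/

section Four

variable {G : SimpleGraph (Fin n)} {p q : Fin n × Fin n}

lemma off_bounds (s : ℝ) (ω : Fin n → ℝ) {z : ℂ} (hz : 0 < z.im) (p q : Fin n × Fin n)
    (i j : Fin 4) (h : i ≠ j) :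
    ‖R0 G s ω z p q (port p q i) (port p q j)‖ ≤ Real.sqrt (offSq (R0 G s ω z p q) p q) :=
  off_le _ p q h

/-- block of the graph at the first edge -/
theorem blk1 (h : VSw G p.1 p.2 q.1 q.2) (s : ℝ) (ω : Fin n → ℝ) {z : ℂ} (hz : 0 < z.im)
    (i j : Fin 2) :
    ‖(Blk (Res (Hm G s ω) z) p.1 p.2 -
      Ze2 (R0 G s ω z p q p.1 p.1) (R0 G s ω z p q p.2 p.2)) i j‖ ≤
      cB z.im * Real.sqrt (offSq (R0 G s ω z p q) p q) := by
  have e : Hm G s ω = Hm G s ω - Wp p - Wp q + Wp q + Wp p := by abel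
  have hH := sub_Wp_symm (sub_Wp_symm (Stab269.Hm_symm G s ω) p) q
  have := blk_near hH hz h.xy.ne h.uw.ne (t := Real.sqrt (offSq (R0 G s ω z p q) p q))
    (off_bounds s ω hz p q 0 1 (by decide)) (off_bounds s ω hz p q 0 2 (by decide))
    (off_bounds s ω hz p q 0 3 (by decide)) (off_bounds s ω hz p q 1 2 (by decide))
    (off_bounds s ω hz p q 1 3 (by decide)) i j
  rw [← e] at this
  exact this

/-- block of the graph at the second edge -/
theorem blk2 (h : VSw G p.1 p.2 q.1 q.2) (s : ℝ) (ω : Fin n → ℝ) {z : ℂ} (hz : 0 < z.im)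
    (i j : Fin 2) :
    ‖(Blk (Res (Hm G s ω) z) q.1 q.2 -
      Ze2 (R0 G s ω z p q q.1 q.1) (R0 G s ω z p q q.2 q.2)) i j‖ ≤
      cB z.im * Real.sqrt (offSq (R0 G s ω z p q) p q) := by
  have e : Hm G s ω = Hm G s ω - Wp p - Wp q + Wp p + Wp q := by abel
  have hH := sub_Wp_symm (sub_Wp_symm (Stab269.Hm_symm G s ω) p) q
  have := blk_near hH hz h.uw.ne h.xy.ne (t := Real.sqrt (offSq (R0 G s ω z p q) p q))
    (off_bounds s ω hz p q 2 3 (by decide)) (off_bounds s ω hz p q 2 0 (by decide))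
    (off_bounds s ω hz p q 2 1 (by decide)) (off_bounds s ω hz p q 3 0 (by decide))
    (off_bounds s ω hz p q 3 1 (by decide)) i j
  rw [← e] at this
  exact this

/-- block of the switched graph at the first new edge -/
theorem blk3 (h : VSw G p.1 p.2 q.1 q.2) (s : ℝ) (ω : Fin n → ℝ) {z : ℂ} (hz : 0 < z.im)
    (i j : Fin 2) :
    ‖(Blk (Res (Hm (Sw798.sw G p.1 p.2 q.1 q.2) s ω) z) p.1 q.1 -
      Ze2 (R0 G s ω z p q p.1 p.1) (R0 G s ω z p q q.1 q.1)) i j‖ ≤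
      cB z.im * Real.sqrt (offSq (R0 G s ω z p q) p q) := by
  have e : Hm (Sw798.sw G p.1 p.2 q.1 q.2) s ω =
      Hm G s ω - Wp p - Wp q + Wp (p.2, q.2) + Wp (p.1, q.1) := by
    rw [← H0_sw h]; abel
  have hH := sub_Wp_symm (sub_Wp_symm (Stab269.Hm_symm G s ω) p) q
  have := blk_near (p := (p.1, q.1)) (q := (p.2, q.2)) hH hz h.xu h.yw
    (t := Real.sqrt (offSq (R0 G s ω z p q) p q))
    (off_bounds s ω hz p q 0 2 (by decide)) (off_bounds s ω hz p q 0 1 (by decide))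
    (off_bounds s ω hz p q 0 3 (by decide)) (off_bounds s ω hz p q 2 1 (by decide))
    (off_bounds s ω hz p q 2 3 (by decide)) i j
  rw [← e] at this
  exact this

/-- block of the switched graph at the second new edge -/
theorem blk4 (h : VSw G p.1 p.2 q.1 q.2) (s : ℝ) (ω : Fin n → ℝ) {z : ℂ} (hz : 0 < z.im)
    (i j : Fin 2) :
    ‖(Blk (Res (Hm (Sw798.sw G p.1 p.2 q.1 q.2) s ω) z) p.2 q.2 -
      Ze2 (R0 G s ω z p q p.2 p.2) (R0 G s ω z p q q.2 q.2)) i j‖ ≤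
      cB z.im * Real.sqrt (offSq (R0 G s ω z p q) p q) := by
  have e : Hm (Sw798.sw G p.1 p.2 q.1 q.2) s ω =
      Hm G s ω - Wp p - Wp q + Wp (p.1, q.1) + Wp (p.2, q.2) := by
    rw [← H0_sw h]; abel
  have hH := sub_Wp_symm (sub_Wp_symm (Stab269.Hm_symm G s ω) p) q
  have := blk_near (p := (p.2, q.2)) (q := (p.1, q.1)) hH hz h.yw h.xu
    (t := Real.sqrt (offSq (R0 G s ω z p q) p q))
    (off_bounds s ω hz p q 1 3 (by decide)) (off_bounds s ω hz p q 1 0 (by decide))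
    (off_bounds s ω hz p q 1 2 (by decide)) (off_bounds s ω hz p q 3 0 (by decide))
    (off_bounds s ω hz p q 3 2 (by decide)) i j
  rw [← e] at this
  exact this

/-- cavity block of the graph at the first edge (first edge removed, second present) -/
theorem cav1 (h : VSw G p.1 p.2 q.1 q.2) (s : ℝ) (ω : Fin n → ℝ) {z : ℂ} (hz : 0 < z.im)
    (i j : Fin 2) :
    ‖(Blk (Res (Hm G s ω - Wp p) z) p.1 p.2 -
      Matrix.diagonal ![R0 G s ω z p q p.1 p.1, R0 G s ω z p q p.2 p.2]) i j‖ ≤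
      (1 + 2 / z.im) * Real.sqrt (offSq (R0 G s ω z p q) p q) := by
  have e : Hm G s ω - Wp p = Hm G s ω - Wp p - Wp q + Wp q := by abel
  have hH := sub_Wp_symm (sub_Wp_symm (Stab269.Hm_symm G s ω) p) q
  have := cav_near hH hz h.uw.ne (p := p) (t := Real.sqrt (offSq (R0 G s ω z p q) p q))
    (off_bounds s ω hz p q 0 1 (by decide)) (off_bounds s ω hz p q 0 2 (by decide))
    (off_bounds s ω hz p q 0 3 (by decide)) (off_bounds s ω hz p q 1 2 (by decide))
    (off_bounds s ω hz p q 1 3 (by decide)) i j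
  rw [← e] at this
  exact this

/-- cavity block of the graph at the second edge -/
theorem cav2 (h : VSw G p.1 p.2 q.1 q.2) (s : ℝ) (ω : Fin n → ℝ) {z : ℂ} (hz : 0 < z.im)
    (i j : Fin 2) :
    ‖(Blk (Res (Hm G s ω - Wp q) z) q.1 q.2 -
      Matrix.diagonal ![R0 G s ω z p q q.1 q.1, R0 G s ω z p q q.2 q.2]) i j‖ ≤
      (1 + 2 / z.im) * Real.sqrt (offSq (R0 G s ω z p q) p q) := by
  have e : Hm G s ω - Wp q = Hm G s ω - Wp p - Wp q + Wp p := by abel
  have hH := sub_Wp_symm (sub_Wp_symm (Stab269.Hm_symm G s ω) p) q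
  have := cav_near hH hz h.xy.ne (p := q) (t := Real.sqrt (offSq (R0 G s ω z p q) p q))
    (off_bounds s ω hz p q 2 3 (by decide)) (off_bounds s ω hz p q 2 0 (by decide))
    (off_bounds s ω hz p q 2 1 (by decide)) (off_bounds s ω hz p q 3 0 (by decide))
    (off_bounds s ω hz p q 3 1 (by decide)) i j
  rw [← e] at this
  exact this

/-- cavity block of the switched graph at the first new edge -/
theorem cav3 (h : VSw G p.1 p.2 q.1 q.2) (s : ℝ) (ω : Fin n → ℝ) {z : ℂ} (hz : 0 < z.im)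
    (i j : Fin 2) :
    ‖(Blk (Res (Hm (Sw798.sw G p.1 p.2 q.1 q.2) s ω - Wp (p.1, q.1)) z) p.1 q.1 -
      Matrix.diagonal ![R0 G s ω z p q p.1 p.1, R0 G s ω z p q q.1 q.1]) i j‖ ≤
      (1 + 2 / z.im) * Real.sqrt (offSq (R0 G s ω z p q) p q) := by
  have e : Hm (Sw798.sw G p.1 p.2 q.1 q.2) s ω - Wp (p.1, q.1) =
      Hm G s ω - Wp p - Wp q + Wp (p.2, q.2) := by
    rw [← H0_sw h]; abel
  have hH := sub_Wp_symm (sub_Wp_symm (Stab269.Hm_symm G s ω) p) q
  have := cav_near (p := (p.1, q.1)) (q := (p.2, q.2)) hH hz h.yw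
    (t := Real.sqrt (offSq (R0 G s ω z p q) p q))
    (off_bounds s ω hz p q 0 2 (by decide)) (off_bounds s ω hz p q 0 1 (by decide))
    (off_bounds s ω hz p q 0 3 (by decide)) (off_bounds s ω hz p q 2 1 (by decide))
    (off_bounds s ω hz p q 2 3 (by decide)) i j
  rw [← e] at this
  exact this

/-- cavity block of the switched graph at the second new edge -/
theorem cav4 (h : VSw G p.1 p.2 q.1 q.2) (s : ℝ) (ω : Fin n → ℝ) {z : ℂ} (hz : 0 < z.im)
    (i j : Fin 2) :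
    ‖(Blk (Res (Hm (Sw798.sw G p.1 p.2 q.1 q.2) s ω - Wp (p.2, q.2)) z) p.2 q.2 -
      Matrix.diagonal ![R0 G s ω z p q p.2 p.2, R0 G s ω z p q q.2 q.2]) i j‖ ≤
      (1 + 2 / z.im) * Real.sqrt (offSq (R0 G s ω z p q) p q) := by
  have e : Hm (Sw798.sw G p.1 p.2 q.1 q.2) s ω - Wp (p.2, q.2) =
      Hm G s ω - Wp p - Wp q + Wp (p.1, q.1) := by
    rw [← H0_sw h]; abel
  have hH := sub_Wp_symm (sub_Wp_symm (Stab269.Hm_symm G s ω) p) q
  have := cav_near (p := (p.2, q.2)) (q := (p.1, q.1)) hH hz h.xu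
    (t := Real.sqrt (offSq (R0 G s ω z p q) p q))
    (off_bounds s ω hz p q 1 3 (by decide)) (off_bounds s ω hz p q 1 0 (by decide))
    (off_bounds s ω hz p q 1 2 (by decide)) (off_bounds s ω hz p q 3 0 (by decide))
    (off_bounds s ω hz p q 3 2 (by decide)) i j
  rw [← e] at this
  exact this

end Four

end Blocks

/-! ### transfer of continuous observables of the four blocks -/

section Transfer

variable {n : ℕ}

/-- continuous function of four blocks: uniform continuity and boundedness on the blocks with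
entries bounded by `B` -/
lemma unif4 {Φ : M2 → M2 → M2 → M2 → ℝ}
    (hΦ : Continuous fun b : M2 × M2 × M2 × M2 => Φ b.1 b.2.1 b.2.2.1 b.2.2.2) (B : ℝ) {ε : ℝ}
    (hε : 0 < ε) :
    ∃ δ > 0, ∀ b1 b2 b3 b4 c1 c2 c3 c4 : M2, (∀ i j, ‖b1 i j‖ ≤ B) → (∀ i j, ‖b2 i j‖ ≤ B) →
      (∀ i j, ‖b3 i j‖ ≤ B) → (∀ i j, ‖b4 i j‖ ≤ B) → (∀ i j, ‖c1 i j‖ ≤ B) →
      (∀ i j, ‖c2 i j‖ ≤ B) → (∀ i j, ‖c3 i j‖ ≤ B) → (∀ i j, ‖c4 i j‖ ≤ B) →
      (∀ i j, ‖(b1 - c1) i j‖ ≤ δ) → (∀ i j, ‖(b2 - c2) i j‖ ≤ δ) →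
      (∀ i j, ‖(b3 - c3) i j‖ ≤ δ) → (∀ i j, ‖(b4 - c4) i j‖ ≤ δ) →
      |Φ b1 b2 b3 b4 - Φ c1 c2 c3 c4| ≤ ε := by
  set Ψ : (Fin 4 → Fin 2 → Fin 2 → ℂ) → ℝ := fun v =>
    Φ (Matrix.of (v 0)) (Matrix.of (v 1)) (Matrix.of (v 2)) (Matrix.of (v 3)) with hΨ
  have hΨc : Continuous Ψ := by
    have h1 : Continuous fun v : Fin 4 → Fin 2 → Fin 2 → ℂ =>
        ((Matrix.of (v 0), Matrix.of (v 1), Matrix.of (v 2), Matrix.of (v 3)) :
          M2 × M2 × M2 × M2) := by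
      refine Continuous.prodMk ?_ (Continuous.prodMk ?_ (Continuous.prodMk ?_ ?_))
      · exact continuous_apply 0
      · exact continuous_apply 1
      · exact continuous_apply 2
      · exact continuous_apply 3
    exact hΦ.comp h1
  have hK : IsCompact (Metric.closedBall (0 : Fin 4 → Fin 2 → Fin 2 → ℂ) (max B 0)) :=
    isCompact_closedBall _ _
  have hu := hK.uniformContinuousOn_of_continuous hΨc.continuousOn
  rw [Metric.uniformContinuousOn_iff_le] at hu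
  obtain ⟨δ, hδ, hu⟩ := hu ε hε
  refine ⟨δ, hδ, ?_⟩
  intro b1 b2 b3 b4 c1 c2 c3 c4 g1 g2 g3 g4 g5 g6 g7 g8 k1 k2 k3 k4
  have mem : ∀ a1 a2 a3 a4 : M2, (∀ i j, ‖a1 i j‖ ≤ B) → (∀ i j, ‖a2 i j‖ ≤ B) →
      (∀ i j, ‖a3 i j‖ ≤ B) → (∀ i j, ‖a4 i j‖ ≤ B) →
      (![fun i j => a1 i j, fun i j => a2 i j, fun i j => a3 i j, fun i j => a4 i j] :
        Fin 4 → Fin 2 → Fin 2 → ℂ) ∈ Metric.closedBall (0 : Fin 4 → Fin 2 → Fin 2 → ℂ) (max B 0) := by
    intro a1 a2 a3 a4 l1 l2 l3 l4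
    rw [mem_closedBall_zero_iff, pi_norm_le_iff_of_nonneg (le_max_right _ _)]
    intro k
    rw [pi_norm_le_iff_of_nonneg (le_max_right _ _)]
    intro i
    rw [pi_norm_le_iff_of_nonneg (le_max_right _ _)]
    intro j
    fin_cases k
    · exact (l1 i j).trans (le_max_left _ _)
    · exact (l2 i j).trans (le_max_left _ _)
    · exact (l3 i j).trans (le_max_left _ _)
    · exact (l4 i j).trans (le_max_left _ _)
  have h := hu _ (mem b1 b2 b3 b4 g1 g2 g3 g4) _ (mem c1 c2 c3 c4 g5 g6 g7 g8) (by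
    rw [dist_pi_le_iff hδ.le]
    intro k
    rw [dist_pi_le_iff hδ.le]
    intro i
    rw [dist_pi_le_iff hδ.le]
    intro j
    rw [dist_eq_norm]
    fin_cases k
    · exact k1 i j
    · exact k2 i j
    · exact k3 i j
    · exact k4 i j)
  rw [Real.dist_eq] at h
  exact h

lemma bdd4 {Φ : M2 → M2 → M2 → M2 → ℝ}
    (hΦ : Continuous fun b : M2 × M2 × M2 × M2 => Φ b.1 b.2.1 b.2.2.1 b.2.2.2) (B : ℝ) :
    ∃ M, 0 ≤ M ∧ ∀ b1 b2 b3 b4 : M2, (∀ i j, ‖b1 i j‖ ≤ B) → (∀ i j, ‖b2 i j‖ ≤ B) →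
      (∀ i j, ‖b3 i j‖ ≤ B) → (∀ i j, ‖b4 i j‖ ≤ B) → |Φ b1 b2 b3 b4| ≤ M := by
  set Ψ : (Fin 4 → Fin 2 → Fin 2 → ℂ) → ℝ := fun v =>
    Φ (Matrix.of (v 0)) (Matrix.of (v 1)) (Matrix.of (v 2)) (Matrix.of (v 3)) with hΨ
  have hΨc : Continuous Ψ := by
    have h1 : Continuous fun v : Fin 4 → Fin 2 → Fin 2 → ℂ =>
        ((Matrix.of (v 0), Matrix.of (v 1), Matrix.of (v 2), Matrix.of (v 3)) :
          M2 × M2 × M2 × M2) := by
      refine Continuous.prodMk ?_ (Continuous.prodMk ?_ (Continuous.prodMk ?_ ?_))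
      · exact continuous_apply 0
      · exact continuous_apply 1
      · exact continuous_apply 2
      · exact continuous_apply 3
    exact hΦ.comp h1
  have hK : IsCompact (Metric.closedBall (0 : Fin 4 → Fin 2 → Fin 2 → ℂ) (max B 0)) :=
    isCompact_closedBall _ _
  obtain ⟨M, hM⟩ := hK.exists_bound_of_continuousOn hΨc.continuousOn
  refine ⟨max M 0, le_max_right _ _, ?_⟩
  intro a1 a2 a3 a4 l1 l2 l3 l4
  refine le_trans (hM ![fun i j => a1 i j, fun i j => a2 i j, fun i j => a3 i j,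
    fun i j => a4 i j] ?_) (le_max_left _ _)
  rw [mem_closedBall_zero_iff, pi_norm_le_iff_of_nonneg (le_max_right _ _)]
  intro k
  rw [pi_norm_le_iff_of_nonneg (le_max_right _ _)]
  intro i
  rw [pi_norm_le_iff_of_nonneg (le_max_right _ _)]
  intro j
  fin_cases k
  · exact (l1 i j).trans (le_max_left _ _)
  · exact (l2 i j).trans (le_max_left _ _)
  · exact (l3 i j).trans (le_max_left _ _)
  · exact (l4 i j).trans (le_max_left _ _)

lemma ze_im' (E η : ℝ) : (ze E η).im = η := by simp [ze]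

lemma vE_one_le {d : ℕ} {c : ℝ} (hc : 0 ≤ c) : vE n d (fun _ _ _ => c) ≤ c := by
  refine regAvg_le hc fun G hG => ?_
  unfold Inv988.eAvg2
  rcases Nat.eq_zero_or_pos (darts G).card with h0 | h0
  · rw [h0]; simpa using hc
  have h0' : (0 : ℝ) < (darts G).card := by exact_mod_cast h0
  rw [div_le_iff₀ (by positivity)]
  calc _ ≤ ∑ _p1 ∈ darts G, ∑ _p2 ∈ darts G, c :=
        Finset.sum_le_sum fun _ _ => Finset.sum_le_sum fun _ _ => by split_ifs <;> simp [hc]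
    _ = _ := by simp only [Finset.sum_const, nsmul_eq_mul]; ring

/-- **(S2b), transfer.** A continuous observable of the four blocks (first edge, second edge of `G`,
first and second new edge of the switched graph) which vanishes at the decoupled values is small on
average, at every fixed `η`, uniformly in the potential. -/
theorem transfer {Φ : M2 → M2 → M2 → M2 → ℝ}
    (hΦ : Continuous fun b : M2 × M2 × M2 × M2 => Φ b.1 b.2.1 b.2.2.1 b.2.2.2)
    (h0 : ∀ a1 a2 b1 b2 : ℂ, 0 < a1.im → 0 < a2.im → 0 < b1.im → 0 < b2.im →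
      Φ (Ze2 a1 a2) (Ze2 b1 b2) (Ze2 a1 b1) (Ze2 a2 b2) = 0)
    {η : ℝ} (hη : 0 < η) {ε : ℝ} (hε : 0 < ε) :
    ∃ C : ℝ, 0 ≤ C ∧ ∀ (n d : ℕ) (s E : ℝ) (ω : Fin n → ℝ),
      vE n d (fun G p q => |Φ (blk (Hm G s ω) E η p) (blk (Hm G s ω) E η q)
        (blk (Hm (Sw798.sw G p.1 p.2 q.1 q.2) s ω) E η (p.1, q.1))
        (blk (Hm (Sw798.sw G p.1 p.2 q.1 q.2) s ω) E η (p.2, q.2))|) ≤ ε + C / n := by
  set B : ℝ := 1 / η + 1 / η ^ 2 with hB
  have hB1 : 1 / η ≤ B := by rw [hB]; have : 0 < 1 / η ^ 2 := by positivity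
                             linarith
  obtain ⟨δ, hδ, hu⟩ := unif4 hΦ B hε
  obtain ⟨M, hM0, hM⟩ := bdd4 hΦ B
  have hcB := cB_nonneg hη
  refine ⟨M * (cB η ^ 2 / δ ^ 2) * (48 * (1 + 2 / η) ^ 4 / η ^ 2), by positivity, ?_⟩
  intro n d s E ω
  have hz : 0 < (ze E η).im := by rw [ze_im']; exact hη
  have point : ∀ (G : SimpleGraph (Fin n)) (p q : Fin n × Fin n), VSw G p.1 p.2 q.1 q.2 →
      |Φ (blk (Hm G s ω) E η p) (blk (Hm G s ω) E η q)
        (blk (Hm (Sw798.sw G p.1 p.2 q.1 q.2) s ω) E η (p.1, q.1))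
        (blk (Hm (Sw798.sw G p.1 p.2 q.1 q.2) s ω) E η (p.2, q.2))| ≤
      ε + M * (cB η ^ 2 / δ ^ 2) * offSq (R0 G s ω (ze E η) p q) p q := by
    intro G p q hv
    have hH0 := sub_Wp_symm (sub_Wp_symm (Stab269.Hm_symm G s ω) p) q
    have cv : ∀ u, CavV η (R0 G s ω (ze E η) p q u u) := by
      intro u
      have := diag_cavV hH0 hz u
      rw [ze_im'] at this
      exact this
    have hb : ∀ (G' : SimpleGraph (Fin n)) (a : Fin n × Fin n) (i j : Fin 2),
        ‖blk (Hm G' s ω) E η a i j‖ ≤ B := by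
      intro G' a i j
      have := norm_apply_le (Stab269.Hm_symm G' s ω) hz (![a.1, a.2] i) (![a.1, a.2] j)
      rw [ze_im'] at this
      exact this.trans hB1
    have hoff := offSq_nonneg (R0 G s ω (ze E η) p q) p q
    by_cases hsm : cB η * Real.sqrt (offSq (R0 G s ω (ze E η) p q) p q) ≤ δ
    · have h1 := blk1 hv s ω hz
      have h2 := blk2 hv s ω hz
      have h3 := blk3 hv s ω hz
      have h4 := blk4 hv s ω hz
      rw [ze_im'] at h1 h2 h3 h4
      have h := hu _ _ _ _ _ _ _ _ (hb G p) (hb G q)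
        (hb (Sw798.sw G p.1 p.2 q.1 q.2) (p.1, q.1)) (hb (Sw798.sw G p.1 p.2 q.1 q.2) (p.2, q.2))
        (fun i j => norm_Ze2_le hη (cv p.1) (cv p.2) i j)
        (fun i j => norm_Ze2_le hη (cv q.1) (cv q.2) i j)
        (fun i j => norm_Ze2_le hη (cv p.1) (cv q.1) i j)
        (fun i j => norm_Ze2_le hη (cv p.2) (cv q.2) i j)
        (fun i j => (h1 i j).trans hsm) (fun i j => (h2 i j).trans hsm)
        (fun i j => (h3 i j).trans hsm) (fun i j => (h4 i j).trans hsm)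
      rw [h0 _ _ _ _ (cv p.1).pos (cv p.2).pos (cv q.1).pos (cv q.2).pos, sub_zero] at h
      refine h.trans ?_
      have : 0 ≤ M * (cB η ^ 2 / δ ^ 2) * offSq (R0 G s ω (ze E η) p q) p q := by positivity
      linarith
    · push Not at hsm
      have h1 := hM _ _ _ _ (hb G p) (hb G q)
        (hb (Sw798.sw G p.1 p.2 q.1 q.2) (p.1, q.1)) (hb (Sw798.sw G p.1 p.2 q.1 q.2) (p.2, q.2))
      have h2 : 1 ≤ cB η ^ 2 / δ ^ 2 * offSq (R0 G s ω (ze E η) p q) p q := by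
        rw [div_mul_eq_mul_div, le_div_iff₀ (by positivity), one_mul]
        have := pow_le_pow_left₀ hδ.le hsm.le 2
        rwa [mul_pow, Real.sq_sqrt hoff] at this
      refine h1.trans ?_
      have h3 : M * 1 ≤ M * (cB η ^ 2 / δ ^ 2 * offSq (R0 G s ω (ze E η) p q) p q) :=
        mul_le_mul_of_nonneg_left h2 hM0
      rw [← mul_assoc] at h3
      linarith
  refine (vE_mono point).trans ?_
  rw [vE_add, vE_mul]
  have h1 := vE_one_le (n := n) (d := d) hε.le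
  have h2 := vE_offSq (n := n) (d := d) s ω hz
  rw [ze_im'] at h2
  have h3 : 0 ≤ M * (cB η ^ 2 / δ ^ 2) := by positivity
  have h4 := mul_le_mul_of_nonneg_left h2 h3
  have e : M * (cB η ^ 2 / δ ^ 2) * (48 * (1 + 2 / η) ^ 4 / η ^ 2) / (n : ℝ) =
      M * (cB η ^ 2 / δ ^ 2) * (48 * (1 + 2 / η) ^ 4 / η ^ 2 / n) := by ring
  rw [e]
  exact add_le_add h1 h4

end Transfer

end Crest.Agent.R166.InvSw286
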