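import Crest.Agent.R166.Schur_93
import Crest.Agent.R166.GoeRot_93

/-!
# R166 / MeasMat_93 (helper93)

Measurability of matrix valued functions (entrywise), in particular of inverses and of the Cayley
transform; uniform continuity of continuous functions on the set of matrices with entries of
modulus `≤ 1`.
-/

set_option autoImplicit false
set_option linter.unusedSectionVars false

open Matrix MeasureTheory
open scoped BigOperators

namespace Crest.Agent.R166.MeasMat93

open Crest.Agent.R166 Crest.Agent.R166.CayDet93 Crest.Agent.R166.Schur93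
open Crest.ProbabilityR.RandomMatrix

/-- entrywise measurability -/
def MM {Ω : Type*} [MeasurableSpace Ω] {n k : Type*} {R : Type*} [MeasurableSpace R]
    (A : Ω → Matrix n k R) : Prop := ∀ i j, Measurable fun p => A p i j

section tools
variable {Ω : Type*} [MeasurableSpace Ω]

lemma MM.const {n k R : Type*} [MeasurableSpace R] (A : Matrix n k R) :
    MM (fun _ : Ω => A) := fun _ _ => measurable_const

lemma MM.transpose {n k R : Type*} [MeasurableSpace R] {A : Ω → Matrix n k R} (hA : MM A) :
    MM (fun p => (A p)ᵀ) := fun i j => hA j i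

section ring
variable {R : Type*} [MeasurableSpace R] [CommRing R] [MeasurableAdd₂ R] [MeasurableMul₂ R]
  [MeasurableSub₂ R] [MeasurableNeg R]

lemma MM.mul {n k l : Type*} [Fintype k] {A : Ω → Matrix n k R} {B : Ω → Matrix k l R}
    (hA : MM A) (hB : MM B) : MM (fun p => A p * B p) := by
  intro i j
  simp only [Matrix.mul_apply]
  exact Finset.measurable_sum _ fun t _ => (hA i t).mul (hB t j)

lemma MM.add {n k : Type*} {A B : Ω → Matrix n k R}
    (hA : MM A) (hB : MM B) : MM (fun p => A p + B p) := fun i j => (hA i j).add (hB i j)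

lemma MM.sub {n k : Type*} {A B : Ω → Matrix n k R}
    (hA : MM A) (hB : MM B) : MM (fun p => A p - B p) := fun i j => (hA i j).sub (hB i j)

lemma MM.smul {n k : Type*} {a : Ω → R} {A : Ω → Matrix n k R}
    (ha : Measurable a) (hA : MM A) : MM (fun p => a p • A p) := fun i j => ha.mul (hA i j)

lemma MM.det {n : Type*} [Fintype n] [DecidableEq n] {A : Ω → Matrix n n R} (hA : MM A) :
    Measurable fun p => (A p).det := by
  simp only [Matrix.det_apply]
  refine Finset.measurable_sum _ fun σ _ => ?_
  have h : Measurable fun p => ∏ i, A p (σ i) i := Finset.measurable_prod _ fun i _ => hA _ _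
  rcases Int.units_eq_one_or (Equiv.Perm.sign σ) with hs | hs
  · simp only [hs, one_smul]; exact h
  · simp only [hs, Units.neg_smul, one_smul]; exact h.neg

lemma MM.adjugate {n : Type*} [Fintype n] [DecidableEq n] {A : Ω → Matrix n n R} (hA : MM A) :
    MM (fun p => (A p).adjugate) := by
  intro i j
  simp only [Matrix.adjugate_apply]
  refine MM.det (A := fun p => (A p).updateRow j (Pi.single i 1)) ?_
  intro a b
  by_cases h : a = j
  · subst h
    simp only [Matrix.updateRow_self]
    exact measurable_const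
  · simp only [Matrix.updateRow_ne h]
    exact hA a b

end ring

lemma MM.inv_real {n : Type*} [Fintype n] [DecidableEq n] {A : Ω → Matrix n n ℝ} (hA : MM A) :
    MM (fun p => (A p)⁻¹) := by
  intro i j
  simp only [Matrix.inv_def, Matrix.smul_apply, smul_eq_mul, Ring.inverse_eq_inv']
  exact (hA.det.inv).mul (hA.adjugate i j)

lemma MM.inv_complex {n : Type*} [Fintype n] [DecidableEq n] {A : Ω → Matrix n n ℂ} (hA : MM A) :
    MM (fun p => (A p)⁻¹) := by
  intro i j
  simp only [Matrix.inv_def, Matrix.smul_apply, smul_eq_mul, Ring.inverse_eq_inv']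
  exact (hA.det.inv).mul (hA.adjugate i j)

lemma MM.cx {m : ℕ} {A : Ω → Matrix (Fin m) (Fin m) ℝ} (hA : MM A) :
    MM (fun p => cx (A p)) := fun i j => Complex.measurable_ofReal.comp (hA i j)

lemma MM.cay {m : ℕ} {A : Ω → Matrix (Fin m) (Fin m) ℝ} (hA : MM A) :
    MM (fun p => Cay (A p)) := by
  have h1 : MM (fun p => CayDet93.cx (A p) - Complex.I • (1 : Matrix (Fin m) (Fin m) ℂ)) :=
    hA.cx.sub (MM.const _)
  have h2 : MM (fun p => CayDet93.cx (A p) + Complex.I • (1 : Matrix (Fin m) (Fin m) ℂ)) :=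
    hA.cx.add (MM.const _)
  exact h1.mul h2.inv_complex

lemma MM.arr {n m : ℕ} {A : Ω → Matrix (Fin n) (Fin n) ℝ} {G : Ω → Fin n → Fin m → ℝ}
    (hA : MM A) (hG : ∀ i j, Measurable fun p => G p i j) :
    MM (fun p => Schur93.arr (A p) (G p)) := by
  have h : MM (fun p => Matrix.of (G p)) := hG
  exact ((h.transpose).mul hA.inv_real).mul h

lemma MM.comp_continuous {m : ℕ} {A : Ω → Matrix (Fin m) (Fin m) ℂ} (hA : MM A)
    {f : Matrix (Fin m) (Fin m) ℂ → ℝ} (hf : Continuous f) : Measurable fun p => f (A p) := by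
  have h1 : Measurable (fun u : Fin m → Fin m → ℂ => f (Matrix.of u)) := by
    have : Continuous (fun u : Fin m → Fin m → ℂ => f (Matrix.of u)) := hf
    exact this.measurable
  have h2 : Measurable (fun p => (fun i j => A p i j : Fin m → Fin m → ℂ)) :=
    measurable_pi_lambda _ fun i => measurable_pi_lambda _ fun j => hA i j
  exact h1.comp h2

end tools

section unif
variable {m : ℕ}

/-- bound of a continuous function on the matrices with entries of modulus `≤ 1`. -/
lemma exists_bound {f : Matrix (Fin m) (Fin m) ℂ → ℝ} (hf : Continuous f) :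
    ∃ B : ℝ, 0 ≤ B ∧ ∀ U : Matrix (Fin m) (Fin m) ℂ, (∀ i j, ‖U i j‖ ≤ 1) → |f U| ≤ B := by
  have hf' : Continuous (fun u : Fin m → Fin m → ℂ => f (Matrix.of u)) := hf
  have hK : IsCompact (Metric.closedBall (0 : Fin m → Fin m → ℂ) 1) := isCompact_closedBall _ _
  obtain ⟨B, hB⟩ := (hK.image hf').isBounded.exists_norm_le
  refine ⟨max B 0, le_max_right _ _, fun U hU => ?_⟩
  have hmem : (fun i j => U i j : Fin m → Fin m → ℂ) ∈
      Metric.closedBall (0 : Fin m → Fin m → ℂ) 1 := by
    rw [mem_closedBall_zero_iff, pi_norm_le_iff_of_nonneg zero_le_one]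
    intro i
    rw [pi_norm_le_iff_of_nonneg zero_le_one]
    exact fun j => hU i j
  have := hB _ ⟨_, hmem, rfl⟩
  rw [Real.norm_eq_abs] at this
  exact this.trans (le_max_left _ _)

/-- uniform continuity on the matrices with entries of modulus `≤ 1`. -/
lemma exists_unif {f : Matrix (Fin m) (Fin m) ℂ → ℝ} (hf : Continuous f) {ε : ℝ} (hε : 0 < ε) :
    ∃ η : ℝ, 0 < η ∧ ∀ U V : Matrix (Fin m) (Fin m) ℂ, (∀ i j, ‖U i j‖ ≤ 1) →
      (∀ i j, ‖V i j‖ ≤ 1) → (∀ i j, ‖U i j - V i j‖ < η) → |f U - f V| ≤ ε := by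
  have hf' : Continuous (fun u : Fin m → Fin m → ℂ => f (Matrix.of u)) := hf
  have hK : IsCompact (Metric.closedBall (0 : Fin m → Fin m → ℂ) 1) := isCompact_closedBall _ _
  have hu := hK.uniformContinuousOn_of_continuous hf'.continuousOn
  rw [Metric.uniformContinuousOn_iff] at hu
  obtain ⟨η, hη, h⟩ := hu ε hε
  refine ⟨η, hη, fun U V hU hV hUV => ?_⟩
  have hmem : ∀ U : Matrix (Fin m) (Fin m) ℂ, (∀ i j, ‖U i j‖ ≤ 1) →
      (fun i j => U i j : Fin m → Fin m → ℂ) ∈ Metric.closedBall (0 : Fin m → Fin m → ℂ) 1 := by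
    intro U hU
    rw [mem_closedBall_zero_iff, pi_norm_le_iff_of_nonneg zero_le_one]
    intro i
    rw [pi_norm_le_iff_of_nonneg zero_le_one]
    exact fun j => hU i j
  have h1 := h (fun i j => U i j) (hmem U hU) (fun i j => V i j) (hmem V hV) (by
    rw [dist_pi_lt_iff hη]
    intro i
    rw [dist_pi_lt_iff hη]
    intro j
    rw [dist_eq_norm]
    exact hUV i j)
  rw [Real.dist_eq] at h1
  exact h1.le

end unif

section goe

lemma MM_goeMatrix {N : ℕ} : MM (fun g : GOEDisorder N => goeMatrix g) := by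
  intro i j
  simp only [goeMatrix]
  split_ifs
  · fun_prop
  · fun_prop
  · fun_prop

lemma goeMatrix_transpose {N : ℕ} (g : GOEDisorder N) : (goeMatrix g)ᵀ = goeMatrix g := by
  ext i j
  simp only [goeMatrix, Matrix.transpose_apply]
  rcases lt_trichotomy i j with h | h | h
  · simp [h.ne, h.ne', h, not_lt.2 h.le]
  · subst h; rfl
  · simp [h.ne, h.ne', h, not_lt.2 h.le]

end goe

end Crest.Agent.R166.MeasMat93
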