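import Crest.Agent.R166.SwAvg_798
import Crest.Agent.R166.MeasMat_93

/-!
# R166, section 50, S2: entries of the resolvent between the ports of two independent edges
(helper286)
-/

set_option autoImplicit false
set_option linter.unusedSectionVars false

open Finset

namespace Crest.Agent.R166.InvSw286

open Crest.Agent.R166 Crest.Agent.R166.Sw798 Crest.Agent.R166.SwAvg798
open Crest.ProbabilityR.RandomMatrix MeasureTheory
open Classical

section Det

variable {n : ℕ}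

/-- Ward identity for the rows -/
lemma row_sq {H : Matrix (Fin n) (Fin n) ℝ} (hH : H.transpose = H) {z : ℂ} (hz : 0 < z.im)
    (u : Fin n) :
    z.im * ∑ v, ‖Res H z u v‖ ^ 2 = (Res H z u u).im := by
  have h := Res789.ward hH hz
  have h1 := congrArg Complex.re (congrFun (congrFun h u) u)
  simp only [Res789.cx, Res789.imM, Matrix.map_apply, Matrix.smul_apply, Matrix.mul_apply,
    Matrix.conjTranspose_apply, smul_eq_mul, Complex.ofRealHom_eq_coe, Complex.ofReal_re] at h1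
  have e1 : (Res H z u u).im = (Res789.Res H z u u).im := rfl
  rw [e1, h1, Complex.re_ofReal_mul, Complex.re_sum]
  congr 1
  refine Finset.sum_congr rfl fun v _ => ?_
  change ‖Res789.Res H z u v‖ ^ 2 = _
  rw [← Complex.normSq_eq_norm_sq, Complex.normSq_apply]
  simp

lemma norm_diag_le {H : Matrix (Fin n) (Fin n) ℝ} (hH : H.transpose = H) {z : ℂ} (hz : 0 < z.im)
    (u : Fin n) : ‖Res H z u u‖ ≤ 1 / z.im := by
  have h := row_sq hH hz u
  have h1 : ‖Res H z u u‖ ^ 2 ≤ ∑ v, ‖Res H z u v‖ ^ 2 :=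
    Finset.single_le_sum (f := fun v => ‖Res H z u v‖ ^ 2) (fun _ _ => by positivity)
      (Finset.mem_univ u)
  have h2 : (Res H z u u).im ≤ ‖Res H z u u‖ := (le_abs_self _).trans (Complex.abs_im_le_norm _)
  have h3 : z.im * ‖Res H z u u‖ ^ 2 ≤ ‖Res H z u u‖ := by
    calc z.im * ‖Res H z u u‖ ^ 2 ≤ z.im * ∑ v, ‖Res H z u v‖ ^ 2 :=
          mul_le_mul_of_nonneg_left h1 hz.le
      _ ≤ _ := by rw [h]; exact h2
  rcases eq_or_lt_of_le (norm_nonneg (Res H z u u)) with h0 | h0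
  · rw [← h0]; positivity
  · rw [le_div_iff₀ hz]
    have : ‖Res H z u u‖ * (‖Res H z u u‖ * z.im) ≤ ‖Res H z u u‖ * 1 := by nlinarith
    exact le_of_mul_le_mul_left this h0

lemma row_sq_le {H : Matrix (Fin n) (Fin n) ℝ} (hH : H.transpose = H) {z : ℂ} (hz : 0 < z.im)
    (u : Fin n) : ∑ v, ‖Res H z u v‖ ^ 2 ≤ 1 / z.im ^ 2 := by
  have h := row_sq hH hz u
  have h2 : (Res H z u u).im ≤ 1 / z.im :=
    ((le_abs_self _).trans (Complex.abs_im_le_norm _)).trans (norm_diag_le hH hz u)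
  rw [← h] at h2
  have h3 : ∑ v, ‖Res H z u v‖ ^ 2 ≤ (1 / z.im) / z.im := by
    rw [le_div_iff₀ hz]; linarith
  calc _ ≤ _ := h3
    _ = _ := by rw [div_div, sq]

lemma norm_apply_le {H : Matrix (Fin n) (Fin n) ℝ} (hH : H.transpose = H) {z : ℂ} (hz : 0 < z.im)
    (u v : Fin n) : ‖Res H z u v‖ ≤ 1 / z.im := by
  have h1 : ‖Res H z u v‖ ^ 2 ≤ ∑ v, ‖Res H z u v‖ ^ 2 :=
    Finset.single_le_sum (f := fun v => ‖Res H z u v‖ ^ 2) (fun _ _ => by positivity)
      (Finset.mem_univ v)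
  have h2 := h1.trans (row_sq_le hH hz u)
  have h3 : (1 / z.im ^ 2) = (1 / z.im) ^ 2 := by rw [div_pow, one_pow]
  rw [h3] at h2
  exact le_of_sq_le_sq h2 (by positivity)

lemma Res_symm {H : Matrix (Fin n) (Fin n) ℝ} (hH : H.transpose = H) {z : ℂ} (hz : 0 < z.im)
    (u v : Fin n) : Res H z u v = Res H z v u := by
  have := congrFun (congrFun (Res789.Res_transpose hH hz) v) u
  exact this

/-- resolvent identity for two matrices -/
lemma Res_sub_mat {H H' : Matrix (Fin n) (Fin n) ℝ} (hH : H.transpose = H)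
    (hH' : H'.transpose = H') {z : ℂ} (hz : 0 < z.im) :
    Res H z - Res H' z = Res H z * Res789.cx (H' - H) * Res H' z := by
  have h1 := Res789.Res_mul_sub hH hz
  have h2 := Res789.sub_mul_Res hH' hz
  have e : Res789.cx (H' - H) = (Res789.cx H' - z • (1 : Matrix (Fin n) (Fin n) ℂ)) -
      (Res789.cx H - z • 1) := by
    rw [Res789.cx_sub]; abel
  change Res789.Res H z - Res789.Res H' z = Res789.Res H z * Res789.cx (H' - H) * Res789.Res H' z
  rw [e, mul_sub, sub_mul, mul_assoc, h2, mul_one, h1, one_mul]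

lemma Wp_symm (c c' : Fin n) : (Wp (c, c')).transpose = Wp (c, c') := by
  ext i j
  simp only [Matrix.transpose_apply, Wp]
  congr 1
  exact propext ⟨fun h => by tauto, fun h => by tauto⟩

lemma mul_Wp_mul {c c' : Fin n} (hc : c ≠ c') (M N : Matrix (Fin n) (Fin n) ℂ) (a b : Fin n) :
    (M * Res789.cx (Wp (c, c')) * N) a b = M a c * N c' b + M a c' * N c b := by
  have e : ∀ i j, Res789.cx (Wp (c, c')) i j =
      (if i = c then (if j = c' then (1 : ℂ) else 0) else 0) +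
      (if i = c' then (if j = c then (1 : ℂ) else 0) else 0) := by
    intro i j
    simp only [Res789.cx, Matrix.map_apply, Wp, Complex.ofRealHom_eq_coe]
    by_cases h1 : i = c
    · subst h1
      by_cases h2 : j = c'
      · simp [h2, hc]
      · simp [h2, hc]
    · by_cases h2 : i = c'
      · subst h2
        by_cases h3 : j = c
        · simp [h3, h1]
        · simp [h3, h1]
      · simp [h1, h2]
  have e2 : ∀ x, (M * Res789.cx (Wp (c, c'))) a x =
      (if x = c' then M a c else 0) + (if x = c then M a c' else 0) := by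
    intro x
    rw [Matrix.mul_apply]
    simp only [e, mul_add, Finset.sum_add_distrib, mul_ite, mul_one, mul_zero]
    congr 1
    · rw [Finset.sum_ite_eq' Finset.univ c (fun j => if x = c' then M a j else 0)]
      simp
    · rw [Finset.sum_ite_eq' Finset.univ c' (fun j => if x = c then M a j else 0)]
      simp
  rw [Matrix.mul_apply]
  simp only [e2, add_mul, ite_mul, zero_mul, Finset.sum_add_distrib, Finset.sum_ite_eq',
    Finset.mem_univ, if_true]

/-- adding the edge `{c, c'}`: entries of the resolvent -/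
lemma Res_add_apply {H : Matrix (Fin n) (Fin n) ℝ} (hH : H.transpose = H) {z : ℂ} (hz : 0 < z.im)
    {c c' : Fin n} (hc : c ≠ c') (a b : Fin n) :
    Res (H + Wp (c, c')) z a b - Res H z a b =
      - (Res (H + Wp (c, c')) z a c * Res H z c' b + Res (H + Wp (c, c')) z a c' * Res H z c b) := by
  have hH' : (H + Wp (c, c')).transpose = H + Wp (c, c') := by
    rw [Matrix.transpose_add, hH, Wp_symm]
  have h := Res_sub_mat hH' hH hz
  have e : Res789.cx (H - (H + Wp (c, c'))) = - Res789.cx (Wp (c, c')) := by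
    rw [← Res789.cx_neg]; congr 1; abel
  rw [e, mul_neg, neg_mul] at h
  have h1 := congrFun (congrFun h a) b
  rw [Matrix.neg_apply, mul_Wp_mul hc] at h1
  exact h1

/-- removing the edge `{c, c'}`: entries of the resolvent -/
lemma Res_sub_apply {H : Matrix (Fin n) (Fin n) ℝ} (hH : H.transpose = H) {z : ℂ} (hz : 0 < z.im)
    {c c' : Fin n} (hc : c ≠ c') (a b : Fin n) :
    Res (H - Wp (c, c')) z a b - Res H z a b =
      Res (H - Wp (c, c')) z a c * Res H z c' b + Res (H - Wp (c, c')) z a c' * Res H z c b := by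
  have hH' : (H - Wp (c, c')).transpose = H - Wp (c, c') := by
    rw [Matrix.transpose_sub, hH, Wp_symm]
  have h := Res_sub_mat hH' hH hz
  have e : Res789.cx (H - (H - Wp (c, c'))) = Res789.cx (Wp (c, c')) := by
    congr 1; abel
  rw [e] at h
  have h1 := congrFun (congrFun h a) b
  rw [mul_Wp_mul hc] at h1
  exact h1

lemma sub_Wp_symm {H : Matrix (Fin n) (Fin n) ℝ} (hH : H.transpose = H) (p : Fin n × Fin n) :
    (H - Wp p).transpose = H - Wp p := by
  rw [Matrix.transpose_sub, hH, Wp_symm]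

lemma add_Wp_symm {H : Matrix (Fin n) (Fin n) ℝ} (hH : H.transpose = H) (p : Fin n × Fin n) :
    (H + Wp p).transpose = H + Wp p := by
  rw [Matrix.transpose_add, hH, Wp_symm]

/-- one removal: an entry `(a, b)` is controlled by the entries `(a, b)`, `(c, b)`, `(c', b)`
before -/
lemma norm_sub_le {H : Matrix (Fin n) (Fin n) ℝ} (hH : H.transpose = H) {z : ℂ} (hz : 0 < z.im)
    {c c' : Fin n} (hc : c ≠ c') {a b : Fin n} {t : ℝ} (h1 : ‖Res H z a b‖ ≤ t)
    (h2 : ‖Res H z c b‖ ≤ t) (h3 : ‖Res H z c' b‖ ≤ t) :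
    ‖Res (H - Wp (c, c')) z a b‖ ≤ (1 + 2 / z.im) * t := by
  have h := Res_sub_apply hH hz hc a b
  have hs := sub_Wp_symm hH (c, c')
  have e : Res (H - Wp (c, c')) z a b = Res H z a b +
      (Res (H - Wp (c, c')) z a c * Res H z c' b + Res (H - Wp (c, c')) z a c' * Res H z c b) := by
    rw [← h]; ring
  rw [e]
  have k1 : ‖Res (H - Wp (c, c')) z a c * Res H z c' b‖ ≤ 1 / z.im * t := by
    rw [norm_mul]
    exact mul_le_mul (norm_apply_le hs hz a c) h3 (norm_nonneg _) (by positivity)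
  have k2 : ‖Res (H - Wp (c, c')) z a c' * Res H z c b‖ ≤ 1 / z.im * t := by
    rw [norm_mul]
    exact mul_le_mul (norm_apply_le hs hz a c') h2 (norm_nonneg _) (by positivity)
  calc _ ≤ ‖Res H z a b‖ + (‖Res (H - Wp (c, c')) z a c * Res H z c' b‖ +
        ‖Res (H - Wp (c, c')) z a c' * Res H z c b‖) :=
        (norm_add_le _ _).trans (add_le_add_right (norm_add_le _ _) _)
    _ ≤ t + (1 / z.im * t + 1 / z.im * t) := by linarith
    _ = _ := by ring

/-- **cross entries after the removal of two edges** (pointwise bound) -/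
theorem cross_le {H : Matrix (Fin n) (Fin n) ℝ} (hH : H.transpose = H) {z : ℂ} (hz : 0 < z.im)
    {p q : Fin n × Fin n} (hp : p.1 ≠ p.2) (hq : q.1 ≠ q.2) {t : ℝ}
    (h : ∀ a ∈ ({p.1, p.2} : Set (Fin n)), ∀ b ∈ ({q.1, q.2} : Set (Fin n)), ‖Res H z a b‖ ≤ t) :
    ∀ a ∈ ({p.1, p.2} : Set (Fin n)), ∀ b ∈ ({q.1, q.2} : Set (Fin n)),
      ‖Res (H - Wp p - Wp q) z a b‖ ≤ (1 + 2 / z.im) ^ 2 * t := by
  have s1 := sub_Wp_symm hH p
  have s2 := sub_Wp_symm s1 q
  have h1 : ∀ a ∈ ({p.1, p.2} : Set (Fin n)), ∀ b ∈ ({q.1, q.2} : Set (Fin n)),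
      ‖Res (H - Wp p) z a b‖ ≤ (1 + 2 / z.im) * t := by
    intro a ha b hb
    exact norm_sub_le (c := p.1) (c' := p.2) hH hz hp (h a ha b hb)
      (h p.1 (Or.inl rfl) b hb) (h p.2 (Or.inr rfl) b hb)
  intro a ha b hb
  rw [Res_symm s2 hz, sq, mul_assoc]
  refine norm_sub_le (c := q.1) (c' := q.2) s1 hz hq ?_ ?_ ?_
  · rw [Res_symm s1 hz]; exact h1 a ha b hb
  · rw [Res_symm s1 hz]; exact h1 a ha q.1 (Or.inl rfl)
  · rw [Res_symm s1 hz]; exact h1 a ha q.2 (Or.inr rfl)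

/-- sum of the squares of the four cross entries -/
noncomputable def crossSq (R : Matrix (Fin n) (Fin n) ℂ) (p q : Fin n × Fin n) : ℝ :=
  ‖R p.1 q.1‖ ^ 2 + ‖R p.1 q.2‖ ^ 2 + ‖R p.2 q.1‖ ^ 2 + ‖R p.2 q.2‖ ^ 2

lemma crossSq_nonneg (R : Matrix (Fin n) (Fin n) ℂ) (p q : Fin n × Fin n) : 0 ≤ crossSq R p q := by
  unfold crossSq; positivity

/-- square form -/
theorem cross_sq_le {H : Matrix (Fin n) (Fin n) ℝ} (hH : H.transpose = H) {z : ℂ} (hz : 0 < z.im)
    {p q : Fin n × Fin n} (hp : p.1 ≠ p.2) (hq : q.1 ≠ q.2)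
    {a b : Fin n} (ha : a ∈ ({p.1, p.2} : Set (Fin n))) (hb : b ∈ ({q.1, q.2} : Set (Fin n))) :
    ‖Res (H - Wp p - Wp q) z a b‖ ^ 2 ≤ (1 + 2 / z.im) ^ 4 * crossSq (Res H z) p q := by
  have h0 := crossSq_nonneg (Res H z) p q
  have h := cross_le hH hz hp hq (t := Real.sqrt (crossSq (Res H z) p q)) (by
    intro a ha b hb
    apply Real.le_sqrt_of_sq_le
    unfold crossSq
    have g1 : 0 ≤ ‖Res H z p.1 q.1‖ ^ 2 := by positivity
    have g2 : 0 ≤ ‖Res H z p.1 q.2‖ ^ 2 := by positivity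
    have g3 : 0 ≤ ‖Res H z p.2 q.1‖ ^ 2 := by positivity
    have g4 : 0 ≤ ‖Res H z p.2 q.2‖ ^ 2 := by positivity
    rcases ha with rfl | rfl <;> rcases hb with rfl | rfl <;> linarith) a ha b hb
  have h2 := pow_le_pow_left₀ (norm_nonneg _) h 2
  calc _ ≤ _ := h2
    _ = (1 + 2 / z.im) ^ 4 * (Real.sqrt (crossSq (Res H z) p q)) ^ 2 := by ring
    _ = _ := by rw [Real.sq_sqrt h0]

end Det

section Sums

variable {n : ℕ}

lemma sum_darts_fst {d : ℕ} {G : SimpleGraph (Fin n)} (hG : G ∈ Reg (Fin n) d) (g : Fin n → ℝ) :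
    ∑ p ∈ Sw798.darts G, g p.1 = d * ∑ v, g v := by
  unfold Sw798.darts
  rw [Finset.sum_filter, ← Finset.univ_product_univ, Finset.sum_product, Finset.mul_sum]
  refine Finset.sum_congr rfl fun v _ => ?_
  simp only
  rw [← Finset.sum_filter, Finset.sum_const, nsmul_eq_mul]
  congr 1
  exact_mod_cast (mem_Reg.1 hG) v

lemma sum_darts_snd {d : ℕ} {G : SimpleGraph (Fin n)} (hG : G ∈ Reg (Fin n) d) (g : Fin n → ℝ) :
    ∑ p ∈ Sw798.darts G, g p.2 = d * ∑ v, g v := by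
  rw [← sum_darts_fst hG g]
  refine Finset.sum_nbij' Prod.swap Prod.swap ?_ ?_ ?_ ?_ ?_
  · intro p hp; rw [Sw798.mem_darts] at hp ⊢; exact hp.symm
  · intro p hp; rw [Sw798.mem_darts] at hp ⊢; exact hp.symm
  · intro p _; rfl
  · intro p _; rfl
  · intro p _; rfl

lemma sum_dd_crossSq {d : ℕ} {G : SimpleGraph (Fin n)} (hG : G ∈ Reg (Fin n) d)
    (R : Matrix (Fin n) (Fin n) ℂ) :
    ∑ e ∈ dd G, crossSq R e.1 e.2 = 4 * d ^ 2 * ∑ a, ∑ b, ‖R a b‖ ^ 2 := by
  unfold dd crossSq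
  rw [Finset.sum_product]
  simp only [Finset.sum_add_distrib]
  have h11 : ∑ p ∈ Sw798.darts G, ∑ q ∈ Sw798.darts G, ‖R p.1 q.1‖ ^ 2 =
      d ^ 2 * ∑ a, ∑ b, ‖R a b‖ ^ 2 := by
    rw [Finset.sum_congr rfl fun p _ => sum_darts_fst hG fun b => ‖R p.1 b‖ ^ 2,
      ← Finset.mul_sum, sum_darts_fst hG fun a => ∑ b, ‖R a b‖ ^ 2]
    ring
  have h12 : ∑ p ∈ Sw798.darts G, ∑ q ∈ Sw798.darts G, ‖R p.1 q.2‖ ^ 2 =
      d ^ 2 * ∑ a, ∑ b, ‖R a b‖ ^ 2 := by
    rw [Finset.sum_congr rfl fun p _ => sum_darts_snd hG fun b => ‖R p.1 b‖ ^ 2,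
      ← Finset.mul_sum, sum_darts_fst hG fun a => ∑ b, ‖R a b‖ ^ 2]
    ring
  have h21 : ∑ p ∈ Sw798.darts G, ∑ q ∈ Sw798.darts G, ‖R p.2 q.1‖ ^ 2 =
      d ^ 2 * ∑ a, ∑ b, ‖R a b‖ ^ 2 := by
    rw [Finset.sum_congr rfl fun p _ => sum_darts_fst hG fun b => ‖R p.2 b‖ ^ 2,
      ← Finset.mul_sum, sum_darts_snd hG fun a => ∑ b, ‖R a b‖ ^ 2]
    ring
  have h22 : ∑ p ∈ Sw798.darts G, ∑ q ∈ Sw798.darts G, ‖R p.2 q.2‖ ^ 2 =
      d ^ 2 * ∑ a, ∑ b, ‖R a b‖ ^ 2 := by
    rw [Finset.sum_congr rfl fun p _ => sum_darts_snd hG fun b => ‖R p.2 b‖ ^ 2,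
      ← Finset.mul_sum, sum_darts_snd hG fun a => ∑ b, ‖R a b‖ ^ 2]
    ring
  rw [h11, h12, h21, h22]
  ring

/-- the cross entries of the full resolvent, averaged over two darts -/
theorem eAvg2_crossSq_le {d : ℕ} {G : SimpleGraph (Fin n)} (hG : G ∈ regularGraphs n d) (s : ℝ)
    (ω : Fin n → ℝ) {z : ℂ} (hz : 0 < z.im) :
    Inv988.eAvg2 G (fun p q => crossSq (Res (Hm G s ω) z) p q) ≤ 4 / z.im ^ 2 / n := by
  rw [eAvg2_eq hG, sum_dd_crossSq (by rwa [regularGraphs_eq] at hG)]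
  have h1 : ∑ a, ∑ b, ‖Res (Hm G s ω) z a b‖ ^ 2 ≤ n * (1 / z.im ^ 2) := by
    calc _ ≤ ∑ _a : Fin n, 1 / z.im ^ 2 :=
          Finset.sum_le_sum fun a _ => row_sq_le (Stab269.Hm_symm G s ω) hz a
      _ = _ := by simp
  rcases Nat.eq_zero_or_pos n with hn | hn
  · subst hn
    simp
  rcases Nat.eq_zero_or_pos d with hd | hd
  · subst hd
    simp only [Nat.cast_zero, mul_zero]
    norm_num
    positivity
  have hn' : (0 : ℝ) < n := by exact_mod_cast hn
  have hd' : (0 : ℝ) < d := by exact_mod_cast hd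
  calc (4 * (d : ℝ) ^ 2 * ∑ a, ∑ b, ‖Res (Hm G s ω) z a b‖ ^ 2) / ((n : ℝ) * d) ^ 2 ≤
        (4 * (d : ℝ) ^ 2 * (n * (1 / z.im ^ 2))) / ((n : ℝ) * d) ^ 2 := by gcongr
    _ = _ := by field_simp

lemma regAvg_mono {d : ℕ} {F F' : SimpleGraph (Fin n) → ℝ}
    (h : ∀ G ∈ regularGraphs n d, F G ≤ F' G) :
    regularAverage n d F ≤ regularAverage n d F' := by
  unfold regularAverage
  exact div_le_div_of_nonneg_right (Finset.sum_le_sum h) (by positivity)

lemma regAvg_le {d : ℕ} {F : SimpleGraph (Fin n) → ℝ} {c : ℝ} (hc : 0 ≤ c)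
    (h : ∀ G ∈ regularGraphs n d, F G ≤ c) : regularAverage n d F ≤ c := by
  unfold regularAverage
  rcases Nat.eq_zero_or_pos (regularGraphs n d).card with h0 | h0
  · rw [h0]; simpa using hc
  rw [div_le_iff₀ (by exact_mod_cast h0)]
  refine (Finset.sum_le_card_nsmul _ _ c h).trans (le_of_eq ?_)
  rw [nsmul_eq_mul, mul_comm]

lemma regAvg_add {d : ℕ} (F F' : SimpleGraph (Fin n) → ℝ) :
    regularAverage n d (fun G => F G + F' G) = regularAverage n d F + regularAverage n d F' := by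
  unfold regularAverage
  rw [Finset.sum_add_distrib, add_div]

lemma regAvg_mul {d : ℕ} (c : ℝ) (F : SimpleGraph (Fin n) → ℝ) :
    regularAverage n d (fun G => c * F G) = c * regularAverage n d F := by
  unfold regularAverage
  rw [← Finset.mul_sum, mul_div_assoc]

lemma eAvg2_mono {G : SimpleGraph (Fin n)} {F F' : Fin n × Fin n → Fin n × Fin n → ℝ}
    (h : ∀ p q, G.Adj p.1 p.2 → G.Adj q.1 q.2 → F p q ≤ F' p q) :
    Inv988.eAvg2 G F ≤ Inv988.eAvg2 G F' := by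
  unfold Inv988.eAvg2
  refine div_le_div_of_nonneg_right ?_ (by positivity)
  refine Finset.sum_le_sum fun p hp => Finset.sum_le_sum fun q hq => h p q ?_ ?_
  · rw [darts_eq, Sw798.mem_darts] at hp; exact hp
  · rw [darts_eq, Sw798.mem_darts] at hq; exact hq

lemma eAvg2_add (G : SimpleGraph (Fin n)) (F F' : Fin n × Fin n → Fin n × Fin n → ℝ) :
    Inv988.eAvg2 G (fun p q => F p q + F' p q) = Inv988.eAvg2 G F + Inv988.eAvg2 G F' := by
  unfold Inv988.eAvg2
  simp only [Finset.sum_add_distrib, add_div]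

lemma eAvg2_mul (G : SimpleGraph (Fin n)) (c : ℝ) (F : Fin n × Fin n → Fin n × Fin n → ℝ) :
    Inv988.eAvg2 G (fun p q => c * F p q) = c * Inv988.eAvg2 G F := by
  unfold Inv988.eAvg2
  simp only [← Finset.mul_sum, mul_div_assoc]

/-- average over the regular graphs and over the valid pairs of darts -/
noncomputable def vE (n d : ℕ)
    (F : SimpleGraph (Fin n) → Fin n × Fin n → Fin n × Fin n → ℝ) : ℝ :=
  regularAverage n d (fun G => Inv988.eAvg2 G
    (fun p q => if VSw G p.1 p.2 q.1 q.2 then F G p q else 0))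

lemma vE_mono {d : ℕ} {F F' : SimpleGraph (Fin n) → Fin n × Fin n → Fin n × Fin n → ℝ}
    (h : ∀ G p q, VSw G p.1 p.2 q.1 q.2 → F G p q ≤ F' G p q) : vE n d F ≤ vE n d F' := by
  refine regAvg_mono fun G _ => eAvg2_mono fun p q _ _ => ?_
  by_cases hv : VSw G p.1 p.2 q.1 q.2
  · rw [if_pos hv, if_pos hv]; exact h G p q hv
  · rw [if_neg hv, if_neg hv]

lemma vE_congr {d : ℕ} {F F' : SimpleGraph (Fin n) → Fin n × Fin n → Fin n × Fin n → ℝ}
    (h : ∀ G p q, VSw G p.1 p.2 q.1 q.2 → F G p q = F' G p q) : vE n d F = vE n d F' :=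
  le_antisymm (vE_mono fun G p q hv => (h G p q hv).le) (vE_mono fun G p q hv => (h G p q hv).ge)

lemma vE_add {d : ℕ} (F F' : SimpleGraph (Fin n) → Fin n × Fin n → Fin n × Fin n → ℝ) :
    vE n d (fun G p q => F G p q + F' G p q) = vE n d F + vE n d F' := by
  unfold vE
  rw [← regAvg_add]
  congr 1
  ext G
  rw [← eAvg2_add]
  congr 1
  ext p q
  split_ifs <;> simp

lemma vE_mul {d : ℕ} (c : ℝ) (F : SimpleGraph (Fin n) → Fin n × Fin n → Fin n × Fin n → ℝ) :
    vE n d (fun G p q => c * F G p q) = c * vE n d F := by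
  unfold vE
  rw [← regAvg_mul]
  congr 1
  ext G
  rw [← eAvg2_mul]
  congr 1
  ext p q
  split_ifs <;> simp

lemma vE_sum {d : ℕ} {ι : Type*} (S : Finset ι)
    (F : ι → SimpleGraph (Fin n) → Fin n × Fin n → Fin n × Fin n → ℝ) :
    vE n d (fun G p q => ∑ i ∈ S, F i G p q) = ∑ i ∈ S, vE n d (F i) := by
  induction S using Finset.induction_on with
  | empty =>
    simp only [Finset.sum_empty]
    have := vE_mul (n := n) (d := d) 0 (fun _ _ _ => 0)
    simpa using this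
  | insert a S ha ih =>
    simp only [Finset.sum_insert ha]
    rw [vE_add, ih]

/-- the exact change of variables -/
lemma vE_switch {d : ℕ} (F : SimpleGraph (Fin n) → Fin n × Fin n → Fin n × Fin n → ℝ) :
    vE n d F = vE n d (fun G p q => F (Sw798.sw G p.1 p.2 q.1 q.2) (p.1, q.1) (p.2, q.2)) :=
  switch_avg_exact F

/-- the resolvent without the two edges -/
noncomputable def R0 (G : SimpleGraph (Fin n)) (s : ℝ) (ω : Fin n → ℝ) (z : ℂ)
    (p q : Fin n × Fin n) : Matrix (Fin n) (Fin n) ℂ := Res (Hm G s ω - Wp p - Wp q) z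

/-- the matrix without the two edges is the same for the switched graph -/
lemma H0_sw {G : SimpleGraph (Fin n)} {p q : Fin n × Fin n} (h : VSw G p.1 p.2 q.1 q.2) (s : ℝ)
    (ω : Fin n → ℝ) :
    Hm (Sw798.sw G p.1 p.2 q.1 q.2) s ω - Wp (p.1, q.1) - Wp (p.2, q.2) =
      Hm G s ω - Wp p - Wp q := by
  rw [Hm_sw_Wp h]
  simp only [Prod.mk.eta]
  abel

lemma R0_sw {G : SimpleGraph (Fin n)} {p q : Fin n × Fin n} (h : VSw G p.1 p.2 q.1 q.2) (s : ℝ)
    (ω : Fin n → ℝ) (z : ℂ) :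
    R0 (Sw798.sw G p.1 p.2 q.1 q.2) s ω z (p.1, q.1) (p.2, q.2) = R0 G s ω z p q := by
  unfold R0
  rw [H0_sw h]

/-- cross entries, any choice of the two ports -/
theorem vE_cross_entry {d : ℕ} (s : ℝ) (ω : Fin n → ℝ) {z : ℂ} (hz : 0 < z.im)
    (fa fb : Fin n × Fin n → Fin n) (ha : ∀ p, fa p = p.1 ∨ fa p = p.2)
    (hb : ∀ p, fb p = p.1 ∨ fb p = p.2) :
    vE n d (fun G p q => ‖R0 G s ω z p q (fa p) (fb q)‖ ^ 2) ≤
      (1 + 2 / z.im) ^ 4 * (4 / z.im ^ 2 / n) := by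
  have h1 : vE n d (fun G p q => ‖R0 G s ω z p q (fa p) (fb q)‖ ^ 2) ≤
      vE n d (fun G p q => (1 + 2 / z.im) ^ 4 * crossSq (Res (Hm G s ω) z) p q) := by
    refine vE_mono fun G p q hv => ?_
    exact cross_sq_le (Stab269.Hm_symm G s ω) hz hv.xy.ne hv.uw.ne (ha p) (hb q)
  refine h1.trans ?_
  rw [vE_mul]
  refine mul_le_mul_of_nonneg_left ?_ (by positivity)
  refine regAvg_le (by positivity) fun G hG => ?_
  refine le_trans (eAvg2_mono fun p q _ _ => ?_) (eAvg2_crossSq_le hG s ω hz)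
  split_ifs
  · exact le_rfl
  · exact crossSq_nonneg _ _ _

/-- the entry inside the first edge -/
theorem vE_same_entry1 {d : ℕ} (s : ℝ) (ω : Fin n → ℝ) {z : ℂ} (hz : 0 < z.im) :
    vE n d (fun G p q => ‖R0 G s ω z p q p.1 p.2‖ ^ 2) ≤
      (1 + 2 / z.im) ^ 4 * (4 / z.im ^ 2 / n) := by
  rw [vE_switch]
  refine le_trans (le_of_eq (vE_congr fun G p q hv => ?_))
    (vE_cross_entry s ω hz Prod.fst Prod.fst (fun _ => Or.inl rfl) (fun _ => Or.inl rfl))
  rw [R0_sw hv]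

/-- the entry inside the second edge -/
theorem vE_same_entry2 {d : ℕ} (s : ℝ) (ω : Fin n → ℝ) {z : ℂ} (hz : 0 < z.im) :
    vE n d (fun G p q => ‖R0 G s ω z p q q.1 q.2‖ ^ 2) ≤
      (1 + 2 / z.im) ^ 4 * (4 / z.im ^ 2 / n) := by
  rw [vE_switch]
  refine le_trans (le_of_eq (vE_congr fun G p q hv => ?_))
    (vE_cross_entry s ω hz Prod.snd Prod.snd (fun _ => Or.inr rfl) (fun _ => Or.inr rfl))
  rw [R0_sw hv]

/-- the four ports -/
def port (p q : Fin n × Fin n) : Fin 4 → Fin n := ![p.1, p.2, q.1, q.2]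

/-- sum of the squares of the off-diagonal entries between the four ports -/
noncomputable def offSq (R : Matrix (Fin n) (Fin n) ℂ) (p q : Fin n × Fin n) : ℝ :=
  ∑ a, ∑ b, if a ≠ b then ‖R (port p q a) (port p q b)‖ ^ 2 else 0

lemma offSq_eq {R : Matrix (Fin n) (Fin n) ℂ} (hR : ∀ i j, R i j = R j i) (p q : Fin n × Fin n) :
    offSq R p q = 2 * (‖R p.1 p.2‖ ^ 2 + ‖R q.1 q.2‖ ^ 2 + crossSq R p q) := by
  unfold offSq crossSq port
  simp only [Fin.sum_univ_four]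
  simp
  rw [hR p.2 p.1, hR q.2 q.1, hR q.1 p.1, hR q.2 p.1, hR q.1 p.2, hR q.2 p.2]
  ring

/-- **(S2)**, for every potential -/
theorem vE_offSq {d : ℕ} (s : ℝ) (ω : Fin n → ℝ) {z : ℂ} (hz : 0 < z.im) :
    vE n d (fun G p q => offSq (R0 G s ω z p q) p q) ≤
      48 * (1 + 2 / z.im) ^ 4 / z.im ^ 2 / n := by
  have hs : ∀ (G : SimpleGraph (Fin n)) p q (i j : Fin n),
      R0 G s ω z p q i j = R0 G s ω z p q j i := by
    intro G p q i j
    exact Res_symm (sub_Wp_symm (sub_Wp_symm (Stab269.Hm_symm G s ω) p) q) hz i j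
  have e : vE n d (fun G p q => offSq (R0 G s ω z p q) p q) =
      2 * (vE n d (fun G p q => ‖R0 G s ω z p q p.1 p.2‖ ^ 2) +
        vE n d (fun G p q => ‖R0 G s ω z p q q.1 q.2‖ ^ 2) +
        (vE n d (fun G p q => ‖R0 G s ω z p q p.1 q.1‖ ^ 2) +
         vE n d (fun G p q => ‖R0 G s ω z p q p.1 q.2‖ ^ 2) +
         vE n d (fun G p q => ‖R0 G s ω z p q p.2 q.1‖ ^ 2) +
         vE n d (fun G p q => ‖R0 G s ω z p q p.2 q.2‖ ^ 2))) := by
    simp only [← vE_add, ← vE_mul]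
    refine vE_congr fun G p q _ => ?_
    rw [offSq_eq (hs G p q)]
    rfl
  rw [e]
  have h1 := vE_same_entry1 (n := n) (d := d) s ω hz
  have h2 := vE_same_entry2 (n := n) (d := d) s ω hz
  have h3 := vE_cross_entry (n := n) (d := d) s ω hz Prod.fst Prod.fst (fun _ => Or.inl rfl)
    (fun _ => Or.inl rfl)
  have h4 := vE_cross_entry (n := n) (d := d) s ω hz Prod.fst Prod.snd (fun _ => Or.inl rfl)
    (fun _ => Or.inr rfl)
  have h5 := vE_cross_entry (n := n) (d := d) s ω hz Prod.snd Prod.fst (fun _ => Or.inr rfl)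
    (fun _ => Or.inl rfl)
  have h6 := vE_cross_entry (n := n) (d := d) s ω hz Prod.snd Prod.snd (fun _ => Or.inr rfl)
    (fun _ => Or.inr rfl)
  have e2 : 48 * (1 + 2 / z.im) ^ 4 / z.im ^ 2 / (n : ℝ) =
      12 * ((1 + 2 / z.im) ^ 4 * (4 / z.im ^ 2 / n)) := by ring
  rw [e2]
  linarith

end Sums

end Crest.Agent.R166.InvSw286
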