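import Crest.Agent.R166.InvF_988
import Crest.Agent.R166.GaussQ_286
import Crest.Agent.R166.SpArr_286

/-!
Row 166, section 50 (helper988): Gaussian moments and changes of variables.
-/

set_option autoImplicit false
set_option linter.unusedSectionVars false
set_option linter.unusedSimpArgs false

namespace Crest.Agent.R166.Inv988

open MeasureTheory ProbabilityTheory Matrix Crest.ProbabilityR.RandomMatrix Crest.Agent.R166
open Crest.Agent.R166.Gauss286

variable {J κ : Type*} [Fintype J] [Fintype κ]

lemma gm_sum_indep {Y : J → (κ → ℝ) → ℝ} (hY : ∀ i, MemLp (Y i) 2 (gv κ))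
    (h0 : ∀ i, ∫ x, Y i x ∂(gv κ) = 0) :
    ∫ g, (∑ i, Y i (g i)) ^ 2 ∂(gm J κ) = ∑ i, ∫ x, Y i x ^ 2 ∂(gv κ) := by
  have h := variance_sum_pi (μ := fun _ : J => gv κ) hY
  have hi : ∀ i, Integrable (fun x : J → κ → ℝ => Y i (x i)) (gm J κ) := fun i =>
    integrable_comp_eval ((hY i).integrable (by norm_num))
  have hm : AEMeasurable (∑ i, fun x : J → κ → ℝ => Y i (x i)) (gm J κ) :=
    Finset.aemeasurable_sum _ fun i _ => (hi i).aemeasurable
  rw [variance_eq_integral hm] at h
  have e0 : ∫ x, (∑ i, fun x : J → κ → ℝ => Y i (x i)) x ∂(gm J κ) = 0 := by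
    simp only [Finset.sum_apply]
    rw [integral_finsetSum _ fun i _ => hi i]
    refine Finset.sum_eq_zero fun i _ => ?_
    rw [integral_comp_eval (hY i).aestronglyMeasurable]
    exact h0 i
  rw [e0] at h
  simp only [Finset.sum_apply, sub_zero] at h
  rw [h]
  refine Finset.sum_congr rfl fun i _ => ?_
  rw [variance_eq_integral (hY i).aemeasurable, h0 i]
  simp

lemma memLp_coord (k : κ) : MemLp (fun x : κ → ℝ => x k) 2 (gv κ) := by
  have h := (memLp_id_gaussianReal (μ := 0) (v := 1) 2)
  exact h.comp_measurePreserving (measurePreserving_eval (fun _ : κ => gaussianReal 0 1) k)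

lemma int_coord (k : κ) : ∫ x, x k ∂(gv κ) = 0 := by
  have h := integral_comp_eval (μ := fun _ : κ => gaussianReal 0 1) (i := k)
    (f := fun t : ℝ => t) (by fun_prop)
  rw [h]; exact Gauss286.int_x

lemma int_coord_sq (k : κ) : ∫ x, x k ^ 2 ∂(gv κ) = 1 := by
  have h := integral_comp_eval (μ := fun _ : κ => gaussianReal 0 1) (i := k)
    (f := fun t : ℝ => t ^ 2) (by fun_prop)
  rw [h]; exact Gauss286.int_x2

lemma int_coord_four (k : κ) : ∫ x, x k ^ 4 ∂(gv κ) = 3 := by
  have h := integral_comp_eval (μ := fun _ : κ => gaussianReal 0 1) (i := k)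
    (f := fun t : ℝ => t ^ 4) (by fun_prop)
  rw [h]; exact Gauss286.int_x4

lemma integrable_coord_sq (k : κ) : Integrable (fun x : κ → ℝ => x k ^ 2) (gv κ) :=
  integrable_comp_eval (μ := fun _ : κ => gaussianReal 0 1) (i := k) (f := fun t : ℝ => t ^ 2)
    Gauss286.integrable_x2

lemma integrable_coord_four (k : κ) : Integrable (fun x : κ → ℝ => x k ^ 4) (gv κ) :=
  integrable_comp_eval (μ := fun _ : κ => gaussianReal 0 1) (i := k) (f := fun t : ℝ => t ^ 4)
    Gauss286.integrable_x4

variable [DecidableEq κ]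

lemma int_prod (k l : κ) : ∫ x, x k * x l ∂(gv κ) = if k = l then 1 else 0 := by
  by_cases h : k = l
  · subst h
    rw [if_pos rfl]
    have := int_coord_sq k
    simpa [sq] using this
  · rw [if_neg h]
    have h1 : ∀ x : κ → ℝ, x k * x l = ∏ j, (if j = k ∨ j = l then x j else 1) := by
      intro x
      rw [Finset.prod_ite]
      simp only [Finset.prod_const_one, mul_one]
      have : (Finset.univ.filter fun j => j = k ∨ j = l) = {k, l} := by
        ext j; simp
      rw [this, Finset.prod_pair h]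
    simp only [h1]
    have h2 := integral_fintype_prod_eq_prod (μ := fun _ : κ => gaussianReal 0 1)
      (f := fun (j : κ) (t : ℝ) => if j = k ∨ j = l then t else 1)
    rw [h2]
    apply Finset.prod_eq_zero (Finset.mem_univ k)
    simp [Gauss286.int_x]

lemma integrable_prod (k l : κ) : Integrable (fun x : κ → ℝ => x k * x l) (gv κ) :=
  (memLp_coord k).integrable_mul (memLp_coord l)

lemma memLp_prod (k l : κ) :
    MemLp (fun x : κ → ℝ => x k * x l - if k = l then (1 : ℝ) else 0) 2 (gv κ) := by
  rw [memLp_two_iff_integrable_sq (by fun_prop)]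
  have h : ∀ x : κ → ℝ, (x k * x l - if k = l then (1 : ℝ) else 0) ^ 2 ≤
      x k ^ 4 + x l ^ 4 + 2 := by
    intro x
    by_cases hkl : k = l
    · rw [if_pos hkl]
      nlinarith [sq_nonneg (x k * x l + 1), sq_nonneg (x k ^ 2 - x l ^ 2), sq_nonneg (x k * x l)]
    · rw [if_neg hkl]
      nlinarith [sq_nonneg (x k ^ 2 - x l ^ 2)]
  refine Integrable.mono' (((integrable_coord_four k).add (integrable_coord_four l)).add
    (integrable_const 2)) (by fun_prop) (Filter.Eventually.of_forall fun x => ?_)
  rw [Real.norm_eq_abs, abs_of_nonneg (sq_nonneg _)]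
  exact h x

lemma int_prod_sub (k l : κ) :
    ∫ x, (x k * x l - if k = l then (1 : ℝ) else 0) ∂(gv κ) = 0 := by
  rw [integral_sub (integrable_prod k l) (integrable_const _), int_prod]
  simp

lemma int_prod_sq_le (k l : κ) :
    ∫ x, (x k * x l - if k = l then (1 : ℝ) else 0) ^ 2 ∂(gv κ) ≤ 3 := by
  have h : ∀ x : κ → ℝ, (x k * x l - if k = l then (1 : ℝ) else 0) ^ 2 ≤
      (x k ^ 4 + x l ^ 4) / 2 + (if k = l then (1 : ℝ) else 0) -
        2 * (if k = l then (1 : ℝ) else 0) * (x k * x l) := by
    intro x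
    by_cases hkl : k = l
    · rw [if_pos hkl]
      nlinarith [sq_nonneg (x k ^ 2 - x l ^ 2)]
    · rw [if_neg hkl]
      nlinarith [sq_nonneg (x k ^ 2 - x l ^ 2)]
  have h4 := integrable_coord_four k
  have h4' := integrable_coord_four l
  have hp := integrable_prod k l
  have h5 : ∫ x, ((x k ^ 4 + x l ^ 4) / 2 + (if k = l then (1 : ℝ) else 0) -
        2 * (if k = l then (1 : ℝ) else 0) * (x k * x l)) ∂(gv κ) ≤ 3 := by
    have e1 : Integrable (fun x : κ → ℝ => (x k ^ 4 + x l ^ 4) / 2) (gv κ) :=
      (h4.add h4').div_const 2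
    have e2 : Integrable (fun x : κ → ℝ => (x k ^ 4 + x l ^ 4) / 2 +
      (if k = l then (1 : ℝ) else 0)) (gv κ) := e1.add (integrable_const _)
    rw [integral_sub e2 (hp.const_mul _), integral_add e1 (integrable_const _), integral_div,
      integral_add h4 h4', int_coord_four, int_coord_four, integral_const_mul, int_prod]
    simp only [integral_const, probReal_univ, smul_eq_mul]
    split_ifs <;> norm_num
  refine le_trans (integral_mono ((memLp_prod k l).integrable_sq) ?_ h) h5
  exact (((h4.add h4').div_const 2).add (integrable_const _)).sub (hp.const_mul _)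

omit [DecidableEq κ] in
lemma gm_lin (a : J → ℝ) (k : κ) : ∫ g, (∑ i, a i * g i k) ^ 2 ∂(gm J κ) = ∑ i, a i ^ 2 := by
  rw [gm_sum_indep (Y := fun i x => a i * x k) (fun i => (memLp_coord k).const_mul _)
    (fun i => by rw [integral_const_mul, int_coord, mul_zero])]
  refine Finset.sum_congr rfl fun i _ => ?_
  simp only [mul_pow]
  rw [integral_const_mul, int_coord_sq, mul_one]

lemma gm_quad_le (a : J → ℝ) (k l : κ) :
    ∫ g, (∑ i, a i * (g i k * g i l - if k = l then (1 : ℝ) else 0)) ^ 2 ∂(gm J κ) ≤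
      3 * ∑ i, a i ^ 2 := by
  rw [gm_sum_indep (Y := fun i x => a i * (x k * x l - if k = l then (1 : ℝ) else 0))
    (fun i => (memLp_prod k l).const_mul _)
    (fun i => by rw [integral_const_mul, int_prod_sub, mul_zero]), Finset.mul_sum]
  refine Finset.sum_le_sum fun i _ => ?_
  simp only [mul_pow]
  rw [integral_const_mul]
  have := int_prod_sq_le k l
  nlinarith [sq_nonneg (a i)]

/-! ### integrability in `gm` -/

omit [DecidableEq κ] in
lemma gm_memLp {Y : J → (κ → ℝ) → ℝ} (hY : ∀ i, MemLp (Y i) 2 (gv κ)) :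
    MemLp (fun g : J → κ → ℝ => ∑ i, Y i (g i)) 2 (gm J κ) :=
  memLp_finsetSum _ fun i _ =>
    (hY i).comp_measurePreserving (measurePreserving_eval (fun _ : J => gv κ) i)

omit [DecidableEq κ] in
lemma gm_lin_int (a : J → ℝ) (k : κ) :
    Integrable (fun g : J → κ → ℝ => (∑ i, a i * g i k) ^ 2) (gm J κ) :=
  (gm_memLp (Y := fun i x => a i * x k) fun _ => (memLp_coord k).const_mul _).integrable_sq

lemma gm_quad_int (a : J → ℝ) (k l : κ) :
    Integrable (fun g : J → κ → ℝ =>
      (∑ i, a i * (g i k * g i l - if k = l then (1 : ℝ) else 0)) ^ 2) (gm J κ) :=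
  (gm_memLp (Y := fun i x => a i * (x k * x l - if k = l then (1 : ℝ) else 0))
    fun _ => (memLp_prod k l).const_mul _).integrable_sq

omit [DecidableEq κ] in
lemma gm_coord_sq (i : J) (k : κ) : ∫ g, (g i k) ^ 2 ∂(gm J κ) = 1 := by
  have h := integral_comp_eval (μ := fun _ : J => gv κ) (i := i)
    (f := fun x : κ → ℝ => x k ^ 2) (integrable_coord_sq k).aestronglyMeasurable
  rw [h]; exact int_coord_sq k

omit [DecidableEq κ] in
lemma gm_coord_sq_int (i : J) (k : κ) : Integrable (fun g : J → κ → ℝ => (g i k) ^ 2) (gm J κ) :=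
  integrable_comp_eval (μ := fun _ : J => gv κ) (i := i) (f := fun x : κ → ℝ => x k ^ 2)
    (integrable_coord_sq k)

/-! ### changes of variables -/

/-- restriction of the rows -/
theorem gm_sel {J' : Type*} [Fintype J'] (σ : J' → J) (hσ : Function.Injective σ) :
    (gm J κ).map (fun g i' => g (σ i')) = gm J' κ := by
  classical
  have h := gm_map_left (κ := κ) (Matrix.of fun (i' : J') (i : J) => if i = σ i' then (1 : ℝ) else 0)
    (by
      ext a b
      simp only [Matrix.mul_apply, Matrix.of_apply, Matrix.transpose_apply, Matrix.one_apply]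
      rw [Finset.sum_eq_single (σ a)]
      · simp [hσ.eq_iff]
      · intro c _ hc; simp [hc]
      · simp)
  have e : (fun (g : J → κ → ℝ) (i' : J') (k : κ) => ∑ i, (Matrix.of fun (i' : J') (i : J) =>
      if i = σ i' then (1 : ℝ) else 0) i' i * g i k) = fun g i' => g (σ i') := by
    ext g i' k
    rw [Finset.sum_eq_single (σ i')]
    · simp
    · intro c _ hc; simp [hc]
    · simp
  rwa [e] at h

theorem integral_sel {J' : Type*} [Fintype J'] (σ : J' → J) (hσ : Function.Injective σ)
    {F : (J' → κ → ℝ) → ℝ} (hF : Continuous F) :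
    ∫ g, F (fun i' => g (σ i')) ∂(gm J κ) = ∫ g, F g ∂(gm J' κ) := by
  rw [← gm_sel (κ := κ) σ hσ, integral_map]
  · exact (measurable_pi_lambda _ fun i' => measurable_pi_apply _).aemeasurable
  · exact hF.aestronglyMeasurable

/-- relabelling of the columns -/
theorem gm_colsEquiv {κ' : Type*} [Fintype κ'] (e : κ' ≃ κ) :
    (gm J κ).map (fun g i k' => g i (e k')) = gm J κ' := by
  classical
  have h := gm_map_right (ι := J) (κ' := κ')
    (Matrix.of fun (k : κ) (k' : κ') => if k = e k' then (1 : ℝ) else 0)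
    (by
      ext a b
      simp only [Matrix.mul_apply, Matrix.of_apply, Matrix.transpose_apply, Matrix.one_apply]
      rw [Finset.sum_eq_single (e a)]
      · simp
      · intro c _ hc; simp [hc]
      · simp)
  have e1 : (fun (g : J → κ → ℝ) (i : J) (k' : κ') => ∑ k, g i k * (Matrix.of fun (k : κ)
      (k' : κ') => if k = e k' then (1 : ℝ) else 0) k k') = fun g i k' => g i (e k') := by
    ext g i k'
    rw [Finset.sum_eq_single (e k')]
    · simp
    · intro c _ hc; simp [hc]
    · simp
  rwa [e1] at h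

theorem integral_cols {κ' : Type*} [Fintype κ'] (e : κ' ≃ κ)
    {F : (J → κ' → ℝ) → ℝ} (hF : Continuous F) :
    ∫ g, F (fun i k' => g i (e k')) ∂(gm J κ) = ∫ g, F g ∂(gm J κ') := by
  rw [← gm_colsEquiv (J := J) e, integral_map]
  · exact (measurable_pi_lambda _ fun i => measurable_pi_lambda _ fun k' =>
      (measurable_pi_apply (e k')).comp (measurable_pi_apply i)).aemeasurable
  · exact hF.aestronglyMeasurable

omit [DecidableEq κ] in
/-- splitting of the columns -/
theorem gm_sum {κ' : Type*} [Fintype κ'] :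
    ((gm J κ).prod (gm J κ')).map (fun p i => Sum.elim (p.1 i) (p.2 i)) = gm J (κ ⊕ κ') := by
  classical
  -- transposed version
  have h1 := measurePreserving_sumPiEquivProdPi_symm (X := fun _ : κ ⊕ κ' => J → ℝ)
    (fun _ => gv J)
  have h1' : ((gm κ J).prod (gm κ' J)).map
      (MeasurableEquiv.sumPiEquivProdPi (fun _ : κ ⊕ κ' => J → ℝ)).symm = gm (κ ⊕ κ') J :=
    h1.map_eq
  have hκ := gm_map_transpose (ι := J) (κ := κ)
  have hκ' := gm_map_transpose (ι := J) (κ := κ')
  have hs := gm_map_transpose (ι := κ ⊕ κ') (κ := J)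
  have m1 : Measurable (fun (g : J → κ → ℝ) (b : κ) (a : J) => g a b) :=
    measurable_pi_lambda _ fun b => measurable_pi_lambda _ fun a =>
      (measurable_pi_apply b).comp (measurable_pi_apply a)
  have m2 : Measurable (fun (g : J → κ' → ℝ) (b : κ') (a : J) => g a b) :=
    measurable_pi_lambda _ fun b => measurable_pi_lambda _ fun a =>
      (measurable_pi_apply b).comp (measurable_pi_apply a)
  have m3 : Measurable (fun (g : (κ ⊕ κ') → J → ℝ) (b : J) (a : κ ⊕ κ') => g a b) :=
    measurable_pi_lambda _ fun b => measurable_pi_lambda _ fun a =>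
      (measurable_pi_apply b).comp (measurable_pi_apply a)
  have h2 : (gm κ J).prod (gm κ' J) = ((gm J κ).prod (gm J κ')).map
      (Prod.map (fun g k i => g i k) (fun g k i => g i k)) := by
    rw [← Measure.map_prod_map _ _ m1 m2, hκ, hκ']
  rw [← hs, ← h1', h2, Measure.map_map (MeasurableEquiv.measurable _) (m1.prodMap m2),
    Measure.map_map m3 ((MeasurableEquiv.measurable _).comp (m1.prodMap m2))]
  congr 1
  ext p i k
  rcases k with k | k <;> rfl

end Crest.Agent.R166.Inv988
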