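import Crest.Agent.R166.InvT_988

/-!
Row 166, section 50 (helper988): port averages, truncation of the array.
-/

set_option autoImplicit false
set_option linter.unusedSectionVars false
set_option linter.unusedSimpArgs false

namespace Crest.Agent.R166.Inv988

open MeasureTheory ProbabilityTheory Matrix Crest.ProbabilityR.RandomMatrix Crest.Agent.R166
open Crest.Agent.R166.Gauss286

/-! ### darts -/

section darts

variable {n d : ℕ} {G : SimpleGraph (Fin n)}

lemma deg_eq (hG : G ∈ regularGraphs n d) (v : Fin n) [DecidablePred fun w => G.Adj v w] :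
    (Finset.univ.filter fun w => G.Adj v w).card = d := by
  classical
  unfold regularGraphs at hG
  have h := (Finset.mem_filter.1 hG).2 v
  convert h

lemma mem_darts {p : Fin n × Fin n} : p ∈ darts G ↔ G.Adj p.1 p.2 := by
  classical
  unfold darts
  simp

lemma sum_darts (f : Fin n × Fin n → ℝ) [∀ v, DecidablePred fun w => G.Adj v w] :
    ∑ p ∈ darts G, f p = ∑ v, ∑ w ∈ Finset.univ.filter (fun w => G.Adj v w), f (v, w) := by
  classical
  have h : darts G = Finset.univ.filter fun p : Fin n × Fin n => G.Adj p.1 p.2 := by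
    ext p; rw [mem_darts]; simp
  rw [h, Finset.sum_filter, Fintype.sum_prod_type]
  refine Finset.sum_congr rfl fun v _ => ?_
  rw [Finset.sum_filter]

lemma sum_darts_fst (hG : G ∈ regularGraphs n d) (h : Fin n → ℝ) :
    ∑ p ∈ darts G, h p.1 = d * ∑ v, h v := by
  classical
  rw [sum_darts (fun p => h p.1), Finset.mul_sum]
  refine Finset.sum_congr rfl fun v _ => ?_
  show ∑ w ∈ Finset.univ.filter (fun w => G.Adj v w), h v = d * h v
  rw [Finset.sum_const, deg_eq hG, nsmul_eq_mul]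

lemma sum_darts_snd (hG : G ∈ regularGraphs n d) (h : Fin n → ℝ) :
    ∑ p ∈ darts G, h p.2 = d * ∑ v, h v := by
  classical
  have h1 : ∑ p ∈ darts G, h p.2 = ∑ p ∈ darts G, h p.1 := by
    refine Finset.sum_nbij' (fun p => (p.2, p.1)) (fun p => (p.2, p.1)) ?_ ?_ ?_ ?_ ?_
    · intro p hp; rw [mem_darts] at hp ⊢; exact hp.symm
    · intro p hp; rw [mem_darts] at hp ⊢; exact hp.symm
    · intro p _; rfl
    · intro p _; rfl
    · intro p _; rfl
  rw [h1, sum_darts_fst hG]

lemma sum_darts_port (hG : G ∈ regularGraphs n d) (a : Fin 2) (h : Fin n → ℝ) :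
    ∑ p ∈ darts G, h (![p.1, p.2] a) = d * ∑ v, h v := by
  fin_cases a
  · exact sum_darts_fst hG h
  · exact sum_darts_snd hG h

lemma card_darts (hG : G ∈ regularGraphs n d) : ((darts G).card : ℝ) = d * n := by
  have h := sum_darts_fst hG (fun _ => (1 : ℝ))
  simpa using h

lemma card_darts_pos (hG : G ∈ regularGraphs n d) (hn : 0 < n) (hd : 0 < d) :
    (0 : ℝ) < (darts G).card := by
  rw [card_darts hG]
  positivity

/-- average over a uniform directed edge -/
noncomputable def dAvg {n : ℕ} (G : SimpleGraph (Fin n)) (f : Fin n × Fin n → ℝ) : ℝ :=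
  (∑ p ∈ darts G, f p) / (darts G).card

lemma dAvg_port (hG : G ∈ regularGraphs n d) (hn : 0 < n) (hd : 0 < d) (a : Fin 2)
    (h : Fin n → ℝ) : dAvg G (fun p => h (![p.1, p.2] a)) = (∑ v, h v) / n := by
  unfold dAvg
  rw [sum_darts_port hG, card_darts hG]
  have h1 : (0 : ℝ) < n := by exact_mod_cast hn
  have h2 : (0 : ℝ) < d := by exact_mod_cast hd
  field_simp

lemma eAvg_eq_dAvg (f : Fin n → Fin n → ℝ) : eAvg G f = dAvg G fun p => f p.1 p.2 := rfl

lemma eAvg2_eq (F : Fin n × Fin n → Fin n × Fin n → ℝ) :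
    eAvg2 G F = dAvg G fun p1 => dAvg G fun p2 => F p1 p2 := by
  unfold eAvg2 dAvg
  rw [← Finset.sum_div, div_div, sq]

lemma dAvg_mono {f g : Fin n × Fin n → ℝ} (h : ∀ p, f p ≤ g p) : dAvg G f ≤ dAvg G g := by
  unfold dAvg
  gcongr with p _
  exact h p

lemma dAvg_const (hpos : (0 : ℝ) < (darts G).card) (c : ℝ) : dAvg G (fun _ => c) = c := by
  unfold dAvg
  rw [Finset.sum_const, nsmul_eq_mul, mul_comm, mul_div_assoc, div_self hpos.ne', mul_one]

lemma eAvg2_mono {F F' : Fin n × Fin n → Fin n × Fin n → ℝ} (h : ∀ p1 p2, F p1 p2 ≤ F' p1 p2) :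
    eAvg2 G F ≤ eAvg2 G F' := by
  unfold eAvg2
  gcongr with p1 _ p2 _
  exact h p1 p2

lemma eAvg2_const (hpos : (0 : ℝ) < (darts G).card) (c : ℝ) : eAvg2 G (fun _ _ => c) = c := by
  rw [eAvg2_eq]; simp only [dAvg_const hpos]

lemma eAvg2_fst (hpos : (0 : ℝ) < (darts G).card) (f : Fin n × Fin n → ℝ) :
    eAvg2 G (fun p1 _ => f p1) = dAvg G f := by
  rw [eAvg2_eq]; simp only [dAvg_const hpos]

lemma eAvg2_snd (hpos : (0 : ℝ) < (darts G).card) (f : Fin n × Fin n → ℝ) :
    eAvg2 G (fun _ p2 => f p2) = dAvg G f := by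
  rw [eAvg2_eq]; simp only [dAvg_const hpos]

lemma eAvg2_add (F F' : Fin n × Fin n → Fin n × Fin n → ℝ) :
    eAvg2 G (fun p1 p2 => F p1 p2 + F' p1 p2) = eAvg2 G F + eAvg2 G F' := by
  unfold eAvg2
  simp only [Finset.sum_add_distrib, add_div]

lemma eAvg2_sub (F F' : Fin n × Fin n → Fin n × Fin n → ℝ) :
    eAvg2 G (fun p1 p2 => F p1 p2 - F' p1 p2) = eAvg2 G F - eAvg2 G F' := by
  unfold eAvg2
  simp only [Finset.sum_sub_distrib, sub_div]

lemma eAvg2_mul_left (c : ℝ) (F : Fin n × Fin n → Fin n × Fin n → ℝ) :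
    eAvg2 G (fun p1 p2 => c * F p1 p2) = c * eAvg2 G F := by
  unfold eAvg2
  simp only [← Finset.mul_sum, mul_div_assoc]

lemma eAvg2_mul_right (c : ℝ) (F : Fin n × Fin n → Fin n × Fin n → ℝ) :
    eAvg2 G (fun p1 p2 => F p1 p2 * c) = eAvg2 G F * c := by
  simp only [mul_comm _ c]
  exact eAvg2_mul_left c F

lemma eAvg2_sum {α : Type*} (s : Finset α) (F : α → Fin n × Fin n → Fin n × Fin n → ℝ) :
    eAvg2 G (fun p1 p2 => ∑ i ∈ s, F i p1 p2) = ∑ i ∈ s, eAvg2 G (F i) := by
  classical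
  induction s using Finset.induction_on with
  | empty => simp [eAvg2]
  | insert a s ha ih =>
    simp only [Finset.sum_insert ha]
    rw [eAvg2_add, ih]

lemma abs_eAvg2_le (F : Fin n × Fin n → Fin n × Fin n → ℝ) :
    |eAvg2 G F| ≤ eAvg2 G fun p1 p2 => |F p1 p2| := by
  unfold eAvg2
  rw [abs_div, abs_of_nonneg (sq_nonneg ((darts G).card : ℝ))]
  gcongr
  exact (Finset.abs_sum_le_sum_abs _ _).trans
    (Finset.sum_le_sum fun p1 _ => Finset.abs_sum_le_sum_abs _ _)

end darts

/-! ### the rotated coordinates -/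

section coords

variable {n m : ℕ} {H : Matrix (Fin n) (Fin n) ℝ} (hH : H.IsHermitian)

/-- coordinates of ports and (rotated) tests in the eigenbasis -/
noncomputable def qq (p1 p2 : Fin n × Fin n) (g : Fin n → Fin m → ℝ) (i : Fin n) : Idx m → ℝ :=
  Sum.elim (Sum.elim (fun a => eF hH i (![p1.1, p1.2] a)) (fun a => eF hH i (![p2.1, p2.2] a)))
    (g i)

lemma qv_dirs (hn : 0 < n) (p1 p2 : Fin n × Fin n) (g : Fin n → Fin m → ℝ) :
    qv hH (dirs p1 p2 g) = qq hH p1 p2 (fun i k => ∑ j, (eO hH)ᵀ i j * g j k) := by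
  have hn' : (0 : ℝ) < n := by exact_mod_cast hn
  ext i a
  unfold qv dirs qq eF
  rcases a with (a | a) | k
  · simp only [Matrix.of_apply, Sum.elim_inl]
    congr 1
    simp
  · simp only [Matrix.of_apply, Sum.elim_inl, Sum.elim_inr]
    congr 1
    simp
  · simp only [Matrix.of_apply, Sum.elim_inr, Matrix.transpose_apply]
    rw [Finset.mul_sum]
    refine Finset.sum_congr rfl fun v _ => ?_
    have : Real.sqrt n ≠ 0 := (Real.sqrt_pos.2 hn').ne'
    field_simp

theorem integral_Uref (hn : 0 < n) (E ρ K : ℝ) {x : ℝ} (hx : ∀ i, hl hH E i ≠ x) (Za Zb : M2)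
    (Ta Tb : Matrix (Fin 2) (Fin 2) ℝ) (p1 p2 : Fin n × Fin n)
    (f : Matrix (Idx m) (Idx m) ℂ → ℝ) :
    ∫ g, f (Uref H E ρ K x Za Zb Ta Tb p1 p2 g) ∂(gaussM n m) =
      ∫ g, f (CayG ((Tref Ta Tb ρ)⁻¹ * (SM (fun i => (hl hH E i - x)⁻¹) (qq hH p1 p2 g) -
        Aref Za Zb (mn H (zz E K n)).re) * ((Tref Ta Tb ρ)⁻¹).transpose)) ∂(gaussM n m) := by
  unfold Uref
  simp only [arr_eq hH hn hx, qv_dirs hH hn]
  exact SpArr286.integral_left (κ := Fin m) ((eO hH)ᵀ)
    (by rw [Matrix.transpose_transpose]; exact eO_tmul hH)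
    (by rw [Matrix.transpose_transpose]; exact eO_mult hH)
    (fun g => f (CayG ((Tref Ta Tb ρ)⁻¹ * (SM (fun i => (hl hH E i - x)⁻¹) (qq hH p1 p2 g) -
        Aref Za Zb (mn H (zz E K n)).re) * ((Tref Ta Tb ρ)⁻¹).transpose)))

end coords

/-! ### deterministic truncation -/

section trunc

variable {ι : Type*} [Fintype ι] [DecidableEq ι]

lemma min_one_mul_le {c t : ℝ} (hc : 1 ≤ c) : min 1 (c * t) ≤ c * min 1 t := by
  rcases le_total 1 t with h | h
  · rw [min_eq_left h]
    exact (min_le_left _ _).trans (by linarith)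
  · rw [min_eq_right h]; exact min_le_right _ _

lemma min_one_sum_le {α : Type*} (s : Finset α) (t : α → ℝ) (ht : ∀ i, 0 ≤ t i) :
    min 1 (∑ i ∈ s, t i) ≤ ∑ i ∈ s, min 1 (t i) := by
  classical
  induction s using Finset.induction_on with
  | empty => simp
  | insert a s ha ih =>
    rw [Finset.sum_insert ha, Finset.sum_insert ha]
    have h1 : 0 ≤ ∑ i ∈ s, t i := Finset.sum_nonneg fun i _ => ht i
    have h2 : min 1 (t a + ∑ i ∈ s, t i) ≤ min 1 (t a) + min 1 (∑ i ∈ s, t i) := by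
      rcases le_total 1 (t a) with h | h
      · rw [min_eq_left h]
        exact (min_le_left _ _).trans (le_add_of_nonneg_right (le_min zero_le_one h1))
      · rcases le_total 1 (∑ i ∈ s, t i) with h' | h'
        · rw [min_eq_left h']
          exact (min_le_left _ _).trans (le_add_of_nonneg_left (le_min zero_le_one (ht a)))
        · rw [min_eq_right h, min_eq_right h']; exact min_le_right _ _
    linarith

lemma l1_conj_le (T D : Matrix ι ι ℝ) : l1 (T * D * Tᵀ) ≤ l1 T ^ 2 * l1 D := by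
  unfold l1
  have h1 : ∀ a b, |(T * D * Tᵀ) a b| ≤ ∑ c, ∑ e, |T a e| * |D e c| * |T b c| := by
    intro a b
    rw [Matrix.mul_apply]
    refine (Finset.abs_sum_le_sum_abs _ _).trans (Finset.sum_le_sum fun c _ => ?_)
    rw [Matrix.mul_apply, Matrix.transpose_apply, abs_mul, ← Finset.sum_mul]
    gcongr
    refine (Finset.abs_sum_le_sum_abs _ _).trans (Finset.sum_le_sum fun e _ => ?_)
    rw [abs_mul]
  calc ∑ a, ∑ b, |(T * D * Tᵀ) a b| ≤ ∑ a, ∑ b, ∑ c, ∑ e, |T a e| * |D e c| * |T b c| :=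
        Finset.sum_le_sum fun a _ => Finset.sum_le_sum fun b _ => h1 a b
    _ = ∑ c, ∑ e, |D e c| * (∑ a, |T a e|) * (∑ b, |T b c|) := by
        simp only [Finset.sum_mul, Finset.mul_sum]
        calc ∑ a, ∑ b, ∑ c, ∑ e, |T a e| * |D e c| * |T b c|
            = ∑ a, ∑ c, ∑ b, ∑ e, |T a e| * |D e c| * |T b c| :=
              Finset.sum_congr rfl fun a _ => Finset.sum_comm
          _ = ∑ c, ∑ a, ∑ b, ∑ e, |T a e| * |D e c| * |T b c| := Finset.sum_comm
          _ = ∑ c, ∑ a, ∑ e, ∑ b, |T a e| * |D e c| * |T b c| :=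
              Finset.sum_congr rfl fun c _ => Finset.sum_congr rfl fun a _ => Finset.sum_comm
          _ = ∑ c, ∑ e, ∑ a, ∑ b, |T a e| * |D e c| * |T b c| :=
              Finset.sum_congr rfl fun c _ => Finset.sum_comm
          _ = _ := by
              refine Finset.sum_congr rfl fun c _ => Finset.sum_congr rfl fun e _ => ?_
              rw [Finset.sum_comm]
              refine Finset.sum_congr rfl fun b _ => Finset.sum_congr rfl fun a _ => ?_
              ring
    _ ≤ ∑ c, ∑ e, |D e c| * l1 T * l1 T := by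
        have h2 : ∀ e, ∑ a, |T a e| ≤ l1 T := by
          intro e
          unfold l1
          refine Finset.sum_le_sum fun a _ => ?_
          exact Finset.single_le_sum (f := fun b => |T a b|) (fun b _ => abs_nonneg _)
            (Finset.mem_univ e)
        refine Finset.sum_le_sum fun c _ => Finset.sum_le_sum fun e _ => ?_
        have h3 := l1_nonneg T
        have h4 : |D e c| * (∑ a, |T a e|) ≤ |D e c| * l1 T :=
          mul_le_mul_of_nonneg_left (h2 e) (abs_nonneg _)
        exact mul_le_mul h4 (h2 c) (Finset.sum_nonneg fun _ _ => abs_nonneg _)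
          (mul_nonneg (abs_nonneg _) h3)
    _ = l1 T ^ 2 * ∑ a, ∑ b, |D a b| := by
        rw [Finset.sum_comm, Finset.mul_sum]
        refine Finset.sum_congr rfl fun e _ => ?_
        rw [Finset.mul_sum]
        exact Finset.sum_congr rfl fun c _ => by ring

/-- deterministic comparison of two arrays in a fixed frame `T` -/
theorem trunc_det {f : Matrix ι ι ℂ → ℝ} (hf : Continuous f) (T : Matrix ι ι ℝ) {ε : ℝ}
    (hε : 0 < ε) : ∃ L : ℝ, 0 ≤ L ∧ ∀ M M' : Matrix ι ι ℝ, Mᵀ = M → M'ᵀ = M' →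
      |f (CayG (T * M * Tᵀ)) - f (CayG (T * M' * Tᵀ))| ≤
        ε + L * ∑ a, ∑ b, min 1 |M a b - M' a b| := by
  obtain ⟨L, hL, h⟩ := almost_lip hf hε
  refine ⟨L * (l1 T ^ 2 + 1), by positivity, fun M M' hM hM' => ?_⟩
  refine (h _ _ (conj_symm hM T) (conj_symm hM' T)).trans ?_
  have h1 : T * M * Tᵀ - T * M' * Tᵀ = T * (M - M') * Tᵀ := by
    rw [Matrix.mul_sub, Matrix.sub_mul]
  rw [h1]
  have h2 : min 1 (l1 (T * (M - M') * Tᵀ)) ≤ (l1 T ^ 2 + 1) * ∑ a, ∑ b, min 1 |M a b - M' a b| := by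
    calc min 1 (l1 (T * (M - M') * Tᵀ)) ≤ min 1 ((l1 T ^ 2 + 1) * l1 (M - M')) := by
          refine min_le_min le_rfl ((l1_conj_le T _).trans ?_)
          have := l1_nonneg (M - M')
          nlinarith
      _ ≤ (l1 T ^ 2 + 1) * min 1 (l1 (M - M')) :=
          min_one_mul_le (by nlinarith [sq_nonneg (l1 T)])
      _ ≤ (l1 T ^ 2 + 1) * ∑ a, ∑ b, min 1 |M a b - M' a b| := by
          gcongr
          unfold l1
          refine (min_one_sum_le _ _ fun a => Finset.sum_nonneg fun _ _ => abs_nonneg _).trans ?_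
          refine Finset.sum_le_sum fun a _ => ?_
          exact min_one_sum_le _ _ fun b => abs_nonneg _
  nlinarith

end trunc

end Crest.Agent.R166.Inv988
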