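import Crest.Agent.R166.InvX_988

/-!
Row 166, section 50 (helper988): expectation estimates for the truncation.
-/

set_option autoImplicit false
set_option linter.unusedSectionVars false
set_option linter.unusedSimpArgs false

namespace Crest.Agent.R166.Inv988

open MeasureTheory ProbabilityTheory Matrix Crest.ProbabilityR.RandomMatrix Crest.Agent.R166
open Crest.Agent.R166.Gauss286

lemma min_one_abs_le {t θ : ℝ} (hθ : 0 < θ) : min 1 |t| ≤ θ + t ^ 2 / θ := by
  refine (min_le_right _ _).trans ?_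
  by_cases h : |t| ≤ θ
  · have : 0 ≤ t ^ 2 / θ := by positivity
    linarith
  · push Not at h
    have h1 : |t| ≤ t ^ 2 / θ := by
      rw [le_div_iff₀ hθ, ← sq_abs t, sq]
      exact mul_le_mul_of_nonneg_left h.le (abs_nonneg _)
    linarith

lemma min_one_add_le (a b : ℝ) : min 1 |a + b| ≤ |a| + min 1 |b| := by
  have h0 := abs_nonneg a
  rcases le_total 1 |b| with h | h
  · rw [min_eq_left h]
    exact (min_le_left _ _).trans (by linarith)
  · rw [min_eq_right h]
    exact (min_le_right _ _).trans (abs_add_le _ _)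

section

variable {n : ℕ} {H : Matrix (Fin n) (Fin n) ℝ} (hH : H.IsHermitian)

lemma parseval (hn : 0 < n) (b : Fin n → ℝ) :
    ∑ w, (∑ i, b i * eF hH i w) ^ 2 = n * ∑ i, b i ^ 2 := by
  have h1 : ∀ w, (∑ i, b i * eF hH i w) ^ 2 =
      ∑ i, ∑ j, b i * b j * (eF hH i w * eF hH j w) := by
    intro w
    rw [sq, Finset.sum_mul_sum]
    refine Finset.sum_congr rfl fun i _ => Finset.sum_congr rfl fun j _ => by ring
  simp only [h1]
  rw [Finset.sum_comm]
  rw [Finset.mul_sum]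
  refine Finset.sum_congr rfl fun i _ => ?_
  rw [Finset.sum_comm]
  simp only [← Finset.mul_sum, eF_orth hH hn]
  simp only [mul_ite, mul_zero, Finset.sum_ite_eq, Finset.mem_univ, if_true]
  ring

lemma sum_eF_sq (hn : 0 < n) (i : Fin n) : (∑ v, eF hH i v ^ 2) / n = 1 := by
  have hn' : (0 : ℝ) < n := by exact_mod_cast hn
  have := eF_orth hH hn i i
  rw [if_pos rfl] at this
  simp only [sq]
  rw [this, div_self hn'.ne']

variable {m d : ℕ} {G : SimpleGraph (Fin n)}

/-- continuity of the coordinates -/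
lemma continuous_qq (p1 p2 : Fin n × Fin n) (i : Fin n) (a : Idx m) :
    Continuous fun g : Fin n → Fin m → ℝ => qq hH p1 p2 g i a := by
  unfold qq
  rcases a with (a | a) | k
  · exact continuous_const
  · exact continuous_const
  · exact (continuous_apply k).comp (continuous_apply i)

lemma continuous_SM_qq (φ : Fin n → ℝ) (p1 p2 : Fin n × Fin n) (a b : Idx m) :
    Continuous fun g : Fin n → Fin m → ℝ => SM φ (qq hH p1 p2 g) a b := by
  simp only [SM_apply]
  exact continuous_finsetSum _ fun i _ =>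
    (continuous_const.mul (continuous_qq hH p1 p2 i a)).mul (continuous_qq hH p1 p2 i b)

lemma integrable_qq_sq (p1 p2 : Fin n × Fin n) (i : Fin n) (a : Idx m) :
    Integrable (fun g : Fin n → Fin m → ℝ => qq hH p1 p2 g i a ^ 2) (gm (Fin n) (Fin m)) := by
  unfold qq
  rcases a with (a | a) | k
  · simp only [Sum.elim_inl]
    exact integrable_const _
  · simp only [Sum.elim_inl, Sum.elim_inr]
    exact integrable_const _
  · exact gm_coord_sq_int i k

lemma eAvg2_qq_sq (hG : G ∈ regularGraphs n d) (hn : 0 < n) (hd : 0 < d) (i : Fin n)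
    (a : Idx m) :
    eAvg2 G (fun p1 p2 => ∫ g, qq hH p1 p2 g i a ^ 2 ∂(gm (Fin n) (Fin m))) = 1 := by
  have hpos := card_darts_pos hG hn hd
  unfold qq
  rcases a with (a | a) | k
  · simp only [Sum.elim_inl, integral_const, probReal_univ, smul_eq_mul, one_mul]
    rw [eAvg2_fst hpos fun p1 => eF hH i (![p1.1, p1.2] a) ^ 2]
    rw [dAvg_port hG hn hd a fun v => eF hH i v ^ 2, sum_eF_sq hH hn]
  · simp only [Sum.elim_inl, Sum.elim_inr, integral_const, probReal_univ, smul_eq_mul, one_mul]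
    rw [eAvg2_snd hpos fun p1 => eF hH i (![p1.1, p1.2] a) ^ 2]
    rw [dAvg_port hG hn hd a fun v => eF hH i v ^ 2, sum_eF_sq hH hn]
  · simp only [Sum.elim_inr]
    have := gm_coord_sq (κ := Fin m) i k
    simp only [this]
    exact eAvg2_const hpos 1

/-- the far part -/
lemma far_bound (hG : G ∈ regularGraphs n d) (hn : 0 < n) (hd : 0 < d) (φ : Fin n → ℝ)
    (a b : Idx m) :
    eAvg2 G (fun p1 p2 => ∫ g, |SM φ (qq hH p1 p2 g) a b| ∂(gm (Fin n) (Fin m))) ≤
      ∑ i, |φ i| := by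
  have h1 : ∀ p1 p2 : Fin n × Fin n, ∫ g, |SM φ (qq hH p1 p2 g) a b| ∂(gm (Fin n) (Fin m)) ≤
      ∑ i, |φ i| * ((∫ g, qq hH p1 p2 g i a ^ 2 ∂(gm (Fin n) (Fin m)) +
        ∫ g, qq hH p1 p2 g i b ^ 2 ∂(gm (Fin n) (Fin m))) / 2) := by
    intro p1 p2
    have hI : Integrable (fun g : Fin n → Fin m → ℝ => ∑ i, |φ i| *
        ((qq hH p1 p2 g i a ^ 2 + qq hH p1 p2 g i b ^ 2) / 2)) (gm (Fin n) (Fin m)) :=
      integrable_finsetSum _ fun i _ =>
        (((integrable_qq_sq hH p1 p2 i a).add (integrable_qq_sq hH p1 p2 i b)).div_const 2).const_mul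
          |φ i|
    have h2 : ∀ g : Fin n → Fin m → ℝ, |SM φ (qq hH p1 p2 g) a b| ≤ ∑ i, |φ i| *
        ((qq hH p1 p2 g i a ^ 2 + qq hH p1 p2 g i b ^ 2) / 2) := by
      intro g
      rw [SM_apply]
      refine (Finset.abs_sum_le_sum_abs _ _).trans (Finset.sum_le_sum fun i _ => ?_)
      rw [mul_assoc, abs_mul]
      gcongr
      rw [abs_mul]
      nlinarith [sq_nonneg (|qq hH p1 p2 g i a| - |qq hH p1 p2 g i b|),
        sq_abs (qq hH p1 p2 g i a), sq_abs (qq hH p1 p2 g i b)]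
    have h3 : Integrable (fun g : Fin n → Fin m → ℝ => |SM φ (qq hH p1 p2 g) a b|)
        (gm (Fin n) (Fin m)) :=
      hI.mono' (continuous_SM_qq hH φ p1 p2 a b).abs.aestronglyMeasurable
        (Filter.Eventually.of_forall fun g => by
          rw [Real.norm_eq_abs, abs_abs]; exact h2 g)
    refine (integral_mono h3 hI h2).trans (le_of_eq ?_)
    rw [integral_finsetSum]
    · refine Finset.sum_congr rfl fun i _ => ?_
      rw [integral_const_mul, integral_div, integral_add (integrable_qq_sq hH p1 p2 i a)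
        (integrable_qq_sq hH p1 p2 i b)]
    · intro i _
      exact (((integrable_qq_sq hH p1 p2 i a).add
        (integrable_qq_sq hH p1 p2 i b)).div_const 2).const_mul |φ i|
  refine (eAvg2_mono h1).trans (le_of_eq ?_)
  rw [eAvg2_sum]
  refine Finset.sum_congr rfl fun i _ => ?_
  rw [eAvg2_mul_left]
  simp only [add_div]
  rw [eAvg2_add]
  simp only [div_eq_mul_inv]
  rw [eAvg2_mul_right, eAvg2_mul_right, eAvg2_qq_sq hH hG hn hd, eAvg2_qq_sq hH hG hn hd]
  norm_num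

/-- second moment of the cross entries -/
lemma cross_sq (hG : G ∈ regularGraphs n d) (hn : 0 < n) (hd : 0 < d) (c : Fin n → ℝ) :
    (∀ a b : Fin 2, eAvg2 G (fun p1 p2 =>
      (∑ i, c i * eF hH i (![p1.1, p1.2] a) * eF hH i (![p2.1, p2.2] b)) ^ 2) = ∑ i, c i ^ 2) ∧
    (∀ (a : Fin 2) (k : Fin m), dAvg G (fun p =>
      ∫ g, (∑ i, c i * eF hH i (![p.1, p.2] a) * g i k) ^ 2 ∂(gm (Fin n) (Fin m))) =
        ∑ i, c i ^ 2) := by
  have hn' : (0 : ℝ) < n := by exact_mod_cast hn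
  have key : (∑ v, ∑ i, (c i * eF hH i v) ^ 2) / n = ∑ i, c i ^ 2 := by
    rw [Finset.sum_comm, Finset.sum_div]
    refine Finset.sum_congr rfl fun i _ => ?_
    simp only [mul_pow]
    rw [← Finset.mul_sum, mul_div_assoc, sum_eF_sq hH hn, mul_one]
  refine ⟨fun a b => ?_, fun a k => ?_⟩
  · rw [eAvg2_eq]
    have h1 : ∀ p1 : Fin n × Fin n, dAvg G (fun p2 =>
        (∑ i, c i * eF hH i (![p1.1, p1.2] a) * eF hH i (![p2.1, p2.2] b)) ^ 2) =
        ∑ i, (c i * eF hH i (![p1.1, p1.2] a)) ^ 2 := by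
      intro p1
      rw [dAvg_port hG hn hd b fun w => (∑ i, c i * eF hH i (![p1.1, p1.2] a) * eF hH i w) ^ 2]
      rw [parseval hH hn (fun i => c i * eF hH i (![p1.1, p1.2] a))]
      field_simp
    simp only [h1]
    rw [dAvg_port hG hn hd a fun v => ∑ i, (c i * eF hH i v) ^ 2, key]
  · simp only [gm_lin (J := Fin n) (κ := Fin m)]
    rw [dAvg_port hG hn hd a fun v => ∑ i, (c i * eF hH i v) ^ 2, key]

lemma norm_le_bnorm (B : Matrix (Fin 2) (Fin 2) ℂ) (a b : Fin 2) : ‖B a b‖ ≤ bnorm B := by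
  unfold bnorm
  fin_cases a <;> fin_cases b
  · exact (le_max_left _ _).trans (le_max_left _ _)
  · exact (le_max_right _ _).trans (le_max_left _ _)
  · exact (le_max_left _ _).trans (le_max_right _ _)
  · exact (le_max_right _ _).trans (le_max_right _ _)

lemma Blk_apply (R : Matrix (Fin n) (Fin n) ℂ) (u w : Fin n) (a b : Fin 2) :
    Blk R u w a b = R (![u, w] a) (![u, w] b) := rfl

lemma min_one_block {z1 z2 z3 : ℂ} {β r0 w : ℝ} (h1 : ‖z1 - z2‖ ≤ β) (hw0 : 0 ≤ w)
    (hw1 : w ≤ 1) (h2 : w ≠ 0 → ‖z2 - z3‖ ≤ r0) :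
    w * min 1 |z1.re - z3.re| ≤ min 1 β + r0 * w := by
  by_cases hw : w = 0
  · rw [hw]
    have : 0 ≤ β := (norm_nonneg _).trans h1
    have : 0 ≤ min 1 β := le_min zero_le_one this
    linarith
  · have h3 := h2 hw
    have h4 : |z1.re - z3.re| ≤ β + r0 := by
      have e : z1.re - z3.re = ((z1 - z2) + (z2 - z3)).re := by simp
      rw [e]
      exact (Complex.abs_re_le_norm _).trans ((norm_add_le _ _).trans (add_le_add h1 h3))
    have hr0 : 0 ≤ r0 := (norm_nonneg _).trans h3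
    have hβ : 0 ≤ β := (norm_nonneg _).trans h1
    have h5 : min 1 |z1.re - z3.re| ≤ min 1 β + r0 := by
      rcases le_total 1 β with h | h
      · rw [min_eq_left h]; exact (min_le_left _ _).trans (by linarith)
      · rw [min_eq_right h]; exact (min_le_right _ _).trans h4
    have h6 : 0 ≤ min 1 β := le_min zero_le_one hβ
    have h7 : 0 ≤ min 1 |z1.re - z3.re| := le_min zero_le_one (abs_nonneg _)
    calc w * min 1 |z1.re - z3.re| ≤ w * (min 1 β + r0) := mul_le_mul_of_nonneg_left h5 hw0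
      _ ≤ min 1 β + r0 * w := by nlinarith

lemma int_min_le {F : (Fin n → Fin m → ℝ) → ℝ} (hF : Continuous F)
    (hF2 : Integrable (fun g => F g ^ 2) (gm (Fin n) (Fin m))) {θ : ℝ} (hθ : 0 < θ) :
    ∫ g, min 1 |F g| ∂(gm (Fin n) (Fin m)) ≤ θ + (∫ g, F g ^ 2 ∂(gm (Fin n) (Fin m))) / θ := by
  have h1 : Integrable (fun g => θ + F g ^ 2 / θ) (gm (Fin n) (Fin m)) :=
    (integrable_const θ).add (hF2.div_const θ)
  have h2 : Integrable (fun g => min 1 |F g|) (gm (Fin n) (Fin m)) := by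
    refine Integrable.of_bound (C := 1) (continuous_const.min hF.abs).aestronglyMeasurable
      (Filter.Eventually.of_forall fun g => ?_)
    rw [Real.norm_eq_abs, abs_of_nonneg (le_min zero_le_one (abs_nonneg _))]
    exact min_le_left _ _
  refine (integral_mono h2 h1 fun g => min_one_abs_le hθ).trans (le_of_eq ?_)
  rw [integral_add (integrable_const θ) (hF2.div_const θ), integral_div]
  simp

lemma smtp (c : Fin n → ℝ) (p1 p2 : Fin n × Fin n) (g : Fin n → Fin m → ℝ) (k : Fin m)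
    (b : Fin 2 ⊕ Fin 2) : SM c (qq hH p1 p2 g) (Sum.inr k) (Sum.inl b) =
      ∑ i, c i * (Sum.elim (fun a => eF hH i (![p1.1, p1.2] a))
        (fun a => eF hH i (![p2.1, p2.2] a)) b) * g i k := by
  rw [SM_apply]
  refine Finset.sum_congr rfl fun i _ => ?_
  exact mul_right_comm _ _ _

theorem part_bound (hG : G ∈ regularGraphs n d) (hn : 0 < n) (hd : 0 < d) {E K η : ℝ}
    (hK : 0 < K) {Za Zb : M2} {r0 θ : ℝ} (hθ : 0 < θ)
    (w : Fin n × Fin n → Fin n × Fin n → ℝ) (hw0 : ∀ p1 p2, 0 ≤ w p1 p2)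
    (hw1 : ∀ p1 p2, w p1 p2 ≤ 1)
    (hw : ∀ p1 p2, w p1 p2 ≠ 0 → bnorm (blk H E η p1 - Za) ≤ r0 ∧
      bnorm (blk H E η p2 - Zb) ≤ r0) (hr0 : 0 ≤ r0) (a b : Idx m) :
    eAvg2 G (fun p1 p2 => w p1 p2 * ∫ g, min 1 |SM (fun i => cK K (hl hH E i))
      (qq hH p1 p2 g) a b - Aref Za Zb (mn H (zz E K n)).re a b| ∂(gm (Fin n) (Fin m))) ≤
    (θ + 3 * (∑ i, cK K (hl hH E i) ^ 2) / θ) +
    eAvg G (fun u v => min 1 (bnorm (Blk (Res H (zz E K n)) u v -
        Blk (Res H (ze E η)) u v))) + r0 * eAvg2 G w := by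
  have hpos := card_darts_pos hG hn hd
  set c : Fin n → ℝ := fun i => cK K (hl hH E i) with hc
  set S2 := ∑ i, cK K (hl hH E i) ^ 2 with hS2
  have hS0 : 0 ≤ S2 := Finset.sum_nonneg fun _ _ => sq_nonneg _
  set ΔB := eAvg G (fun u v => min 1 (bnorm (Blk (Res H (zz E K n)) u v -
        Blk (Res H (ze E η)) u v))) with hΔB
  have hb0 : ∀ B : Matrix (Fin 2) (Fin 2) ℂ, 0 ≤ bnorm B := fun B =>
    (norm_nonneg _).trans (norm_le_bnorm B 0 0)
  have hΔ0 : 0 ≤ ΔB := by
    rw [hΔB]; unfold eAvg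
    exact div_nonneg (Finset.sum_nonneg fun _ _ => le_min zero_le_one (hb0 _)) (Nat.cast_nonneg _)
  have hw2 : 0 ≤ eAvg2 G w := by
    unfold eAvg2
    exact div_nonneg (Finset.sum_nonneg fun _ _ => Finset.sum_nonneg fun _ _ => hw0 _ _)
      (sq_nonneg _)
  have hθS : 0 ≤ θ + 3 * S2 / θ := by positivity
  have hrw : 0 ≤ r0 * eAvg2 G w := mul_nonneg hr0 hw2
  -- the generic cross estimate
  have cross : ∀ F : Fin n × Fin n → Fin n × Fin n → (Fin n → Fin m → ℝ) → ℝ,
      (∀ p1 p2, Continuous (F p1 p2)) →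
      (∀ p1 p2, Integrable (fun g => F p1 p2 g ^ 2) (gm (Fin n) (Fin m))) →
      eAvg2 G (fun p1 p2 => ∫ g, F p1 p2 g ^ 2 ∂(gm (Fin n) (Fin m))) ≤ 3 * S2 →
      eAvg2 G (fun p1 p2 => w p1 p2 * ∫ g, min 1 |F p1 p2 g| ∂(gm (Fin n) (Fin m))) ≤
        (θ + 3 * S2 / θ) + ΔB + r0 * eAvg2 G w := by
    intro F hF1 hF2 hF3
    have h1 : ∀ p1 p2, w p1 p2 * ∫ g, min 1 |F p1 p2 g| ∂(gm (Fin n) (Fin m)) ≤
        θ + (∫ g, F p1 p2 g ^ 2 ∂(gm (Fin n) (Fin m))) * θ⁻¹ := by
      intro p1 p2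
      have h2 := int_min_le (hF1 p1 p2) (hF2 p1 p2) hθ
      have h3 : 0 ≤ ∫ g, min 1 |F p1 p2 g| ∂(gm (Fin n) (Fin m)) :=
        integral_nonneg fun g => le_min zero_le_one (abs_nonneg _)
      rw [div_eq_mul_inv] at h2
      nlinarith [hw0 p1 p2, hw1 p1 p2]
    refine (eAvg2_mono h1).trans ?_
    rw [eAvg2_add, eAvg2_const hpos, eAvg2_mul_right]
    have h4 : eAvg2 G (fun p1 p2 => ∫ g, F p1 p2 g ^ 2 ∂(gm (Fin n) (Fin m))) * θ⁻¹ ≤
        3 * S2 / θ := by
      rw [div_eq_mul_inv]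
      exact mul_le_mul_of_nonneg_right hF3 (inv_nonneg.2 hθ.le)
    linarith
  obtain ⟨hc1, hc2⟩ := cross_sq (m := m) hH hG hn hd c
  have hc1' : ∀ a b : Fin 2, eAvg2 G (fun p1 p2 =>
      (∑ i, c i * eF hH i (![p2.1, p2.2] a) * eF hH i (![p1.1, p1.2] b)) ^ 2) = S2 := by
    intro a b
    refine Eq.trans ?_ (hc1 b a)
    congr 1
    ext p1 p2
    congr 1
    exact Finset.sum_congr rfl fun i _ => by ring
  rcases a with (a | a) | k <;> rcases b with (b | b) | l
  · -- port 1, port 1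
    have h1 : ∀ p1 p2 : Fin n × Fin n, w p1 p2 * ∫ g, min 1 |SM c (qq hH p1 p2 g)
        (Sum.inl (Sum.inl a)) (Sum.inl (Sum.inl b)) - Aref Za Zb (mn H (zz E K n)).re
        (Sum.inl (Sum.inl a) : Idx m) (Sum.inl (Sum.inl b))| ∂(gm (Fin n) (Fin m)) ≤
        min 1 (bnorm (Blk (Res H (zz E K n)) p1.1 p1.2 - Blk (Res H (ze E η)) p1.1 p1.2)) +
          r0 * w p1 p2 := by
      intro p1 p2
      have e1 : ∀ g : Fin n → Fin m → ℝ, SM c (qq hH p1 p2 g)
          (Sum.inl (Sum.inl a)) (Sum.inl (Sum.inl b)) =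
          (Blk (Res H (zz E K n)) p1.1 p1.2 a b).re := by
        intro g
        rw [Blk_apply, Res_zz_re hH hn hK]; rfl
      have e2 : Aref Za Zb (mn H (zz E K n)).re
        (Sum.inl (Sum.inl a) : Idx m) (Sum.inl (Sum.inl b)) = (Za a b).re := rfl
      simp only [e1, e2, integral_const, probReal_univ, smul_eq_mul, one_mul]
      refine min_one_block (z2 := Blk (Res H (ze E η)) p1.1 p1.2 a b) ?_ (hw0 _ _) (hw1 _ _) ?_
      · exact norm_le_bnorm (Blk (Res H (zz E K n)) p1.1 p1.2 - Blk (Res H (ze E η)) p1.1 p1.2) a b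
      · intro hne
        exact (norm_le_bnorm (blk H E η p1 - Za) a b).trans (hw p1 p2 hne).1
    refine (eAvg2_mono h1).trans ?_
    rw [eAvg2_add, eAvg2_mul_left]
    rw [eAvg2_fst hpos fun p1 => min 1 (bnorm (Blk (Res H (zz E K n)) p1.1 p1.2 -
      Blk (Res H (ze E η)) p1.1 p1.2)), ← eAvg_eq_dAvg (G := G) fun u v =>
      min 1 (bnorm (Blk (Res H (zz E K n)) u v - Blk (Res H (ze E η)) u v))]
    linarith
  · -- port 1, port 2
    refine cross (fun p1 p2 g => SM c (qq hH p1 p2 g) (Sum.inl (Sum.inl a)) (Sum.inl (Sum.inr b)) -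
      Aref Za Zb (mn H (zz E K n)).re (Sum.inl (Sum.inl a) : Idx m) (Sum.inl (Sum.inr b)))
      (fun p1 p2 => (continuous_SM_qq hH c p1 p2 _ _).sub continuous_const) ?_ ?_
    · intro p1 p2
      exact integrable_const (μ := gm (Fin n) (Fin m))
        ((∑ i, c i * eF hH i (![p1.1, p1.2] a) * eF hH i (![p2.1, p2.2] b) - 0) ^ 2)
    · have e1 : ∀ (p1 p2 : Fin n × Fin n) (g : Fin n → Fin m → ℝ), SM c (qq hH p1 p2 g)
          (Sum.inl (Sum.inl a)) (Sum.inl (Sum.inr b)) - Aref Za Zb (mn H (zz E K n)).re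
          (Sum.inl (Sum.inl a) : Idx m) (Sum.inl (Sum.inr b)) =
          ∑ i, c i * eF hH i (![p1.1, p1.2] a) * eF hH i (![p2.1, p2.2] b) := by
        intro p1 p2 g
        exact sub_zero _
      simp only [e1, integral_const, probReal_univ, smul_eq_mul, one_mul]
      rw [hc1 a b]
      linarith
  · -- port 1, test
    refine cross (fun p1 p2 g => SM c (qq hH p1 p2 g) (Sum.inl (Sum.inl a)) (Sum.inr l) -
      Aref Za Zb (mn H (zz E K n)).re (Sum.inl (Sum.inl a) : Idx m) (Sum.inr l))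
      (fun p1 p2 => (continuous_SM_qq hH c p1 p2 _ _).sub continuous_const) ?_ ?_
    · intro p1 p2
      have e1 : ∀ (g : Fin n → Fin m → ℝ), SM c (qq hH p1 p2 g)
          (Sum.inl (Sum.inl a)) (Sum.inr l) - Aref Za Zb (mn H (zz E K n)).re
          (Sum.inl (Sum.inl a) : Idx m) (Sum.inr l) =
          ∑ i, c i * eF hH i (![p1.1, p1.2] a) * g i l := fun g => sub_zero _
      simp only [e1]
      exact gm_lin_int _ l
    · have e1 : ∀ (p1 p2 : Fin n × Fin n) (g : Fin n → Fin m → ℝ), SM c (qq hH p1 p2 g)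
          (Sum.inl (Sum.inl a)) (Sum.inr l) - Aref Za Zb (mn H (zz E K n)).re
          (Sum.inl (Sum.inl a) : Idx m) (Sum.inr l) =
          ∑ i, c i * eF hH i (![p1.1, p1.2] a) * g i l := fun p1 p2 g => sub_zero _
      simp only [e1]
      rw [eAvg2_fst hpos fun p1 => ∫ g, (∑ i, c i * eF hH i (![p1.1, p1.2] a) * g i l) ^ 2
        ∂(gm (Fin n) (Fin m)), hc2 a l]
      linarith
  · -- port 2, port 1
    refine cross (fun p1 p2 g => SM c (qq hH p1 p2 g) (Sum.inl (Sum.inr a)) (Sum.inl (Sum.inl b)) -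
      Aref Za Zb (mn H (zz E K n)).re (Sum.inl (Sum.inr a) : Idx m) (Sum.inl (Sum.inl b)))
      (fun p1 p2 => (continuous_SM_qq hH c p1 p2 _ _).sub continuous_const) ?_ ?_
    · intro p1 p2
      exact integrable_const (μ := gm (Fin n) (Fin m))
        ((∑ i, c i * eF hH i (![p2.1, p2.2] a) * eF hH i (![p1.1, p1.2] b) - 0) ^ 2)
    · have e1 : ∀ (p1 p2 : Fin n × Fin n) (g : Fin n → Fin m → ℝ), SM c (qq hH p1 p2 g)
          (Sum.inl (Sum.inr a)) (Sum.inl (Sum.inl b)) - Aref Za Zb (mn H (zz E K n)).re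
          (Sum.inl (Sum.inr a) : Idx m) (Sum.inl (Sum.inl b)) =
          ∑ i, c i * eF hH i (![p2.1, p2.2] a) * eF hH i (![p1.1, p1.2] b) := by
        intro p1 p2 g
        exact sub_zero _
      simp only [e1, integral_const, probReal_univ, smul_eq_mul, one_mul]
      rw [hc1' a b]
      linarith
  · -- port 2, port 2
    have h1 : ∀ p1 p2 : Fin n × Fin n, w p1 p2 * ∫ g, min 1 |SM c (qq hH p1 p2 g)
        (Sum.inl (Sum.inr a)) (Sum.inl (Sum.inr b)) - Aref Za Zb (mn H (zz E K n)).re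
        (Sum.inl (Sum.inr a) : Idx m) (Sum.inl (Sum.inr b))| ∂(gm (Fin n) (Fin m)) ≤
        min 1 (bnorm (Blk (Res H (zz E K n)) p2.1 p2.2 - Blk (Res H (ze E η)) p2.1 p2.2)) +
          r0 * w p1 p2 := by
      intro p1 p2
      have e1 : ∀ g : Fin n → Fin m → ℝ, SM c (qq hH p1 p2 g)
          (Sum.inl (Sum.inr a)) (Sum.inl (Sum.inr b)) =
          (Blk (Res H (zz E K n)) p2.1 p2.2 a b).re := by
        intro g
        rw [Blk_apply, Res_zz_re hH hn hK]; rfl
      have e2 : Aref Za Zb (mn H (zz E K n)).re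
        (Sum.inl (Sum.inr a) : Idx m) (Sum.inl (Sum.inr b)) = (Zb a b).re := rfl
      simp only [e1, e2, integral_const, probReal_univ, smul_eq_mul, one_mul]
      refine min_one_block (z2 := Blk (Res H (ze E η)) p2.1 p2.2 a b) ?_ (hw0 _ _) (hw1 _ _) ?_
      · exact norm_le_bnorm (Blk (Res H (zz E K n)) p2.1 p2.2 - Blk (Res H (ze E η)) p2.1 p2.2) a b
      · intro hne
        exact (norm_le_bnorm (blk H E η p2 - Zb) a b).trans (hw p1 p2 hne).2
    refine (eAvg2_mono h1).trans ?_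
    rw [eAvg2_add, eAvg2_mul_left]
    rw [eAvg2_snd hpos fun p1 => min 1 (bnorm (Blk (Res H (zz E K n)) p1.1 p1.2 -
      Blk (Res H (ze E η)) p1.1 p1.2)), ← eAvg_eq_dAvg (G := G) fun u v =>
      min 1 (bnorm (Blk (Res H (zz E K n)) u v - Blk (Res H (ze E η)) u v))]
    linarith
  · -- port 2, test
    refine cross (fun p1 p2 g => SM c (qq hH p1 p2 g) (Sum.inl (Sum.inr a)) (Sum.inr l) -
      Aref Za Zb (mn H (zz E K n)).re (Sum.inl (Sum.inr a) : Idx m) (Sum.inr l))
      (fun p1 p2 => (continuous_SM_qq hH c p1 p2 _ _).sub continuous_const) ?_ ?_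
    · intro p1 p2
      have e1 : ∀ (g : Fin n → Fin m → ℝ), SM c (qq hH p1 p2 g)
          (Sum.inl (Sum.inr a)) (Sum.inr l) - Aref Za Zb (mn H (zz E K n)).re
          (Sum.inl (Sum.inr a) : Idx m) (Sum.inr l) =
          ∑ i, c i * eF hH i (![p2.1, p2.2] a) * g i l := fun g => sub_zero _
      simp only [e1]
      exact gm_lin_int _ l
    · have e1 : ∀ (p1 p2 : Fin n × Fin n) (g : Fin n → Fin m → ℝ), SM c (qq hH p1 p2 g)
          (Sum.inl (Sum.inr a)) (Sum.inr l) - Aref Za Zb (mn H (zz E K n)).re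
          (Sum.inl (Sum.inr a) : Idx m) (Sum.inr l) =
          ∑ i, c i * eF hH i (![p2.1, p2.2] a) * g i l := fun p1 p2 g => sub_zero _
      simp only [e1]
      rw [eAvg2_snd hpos fun p1 => ∫ g, (∑ i, c i * eF hH i (![p1.1, p1.2] a) * g i l) ^ 2
        ∂(gm (Fin n) (Fin m)), hc2 a l]
      linarith
  · -- test, port 1
    refine cross (fun p1 p2 g => SM c (qq hH p1 p2 g) (Sum.inr k) (Sum.inl (Sum.inl b)) -
      Aref Za Zb (mn H (zz E K n)).re (Sum.inr k : Idx m) (Sum.inl (Sum.inl b)))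
      (fun p1 p2 => (continuous_SM_qq hH c p1 p2 _ _).sub continuous_const) ?_ ?_
    · intro p1 p2
      have e1 : ∀ (g : Fin n → Fin m → ℝ), SM c (qq hH p1 p2 g)
          (Sum.inr k) (Sum.inl (Sum.inl b)) - Aref Za Zb (mn H (zz E K n)).re
          (Sum.inr k : Idx m) (Sum.inl (Sum.inl b)) =
          ∑ i, c i * eF hH i (![p1.1, p1.2] b) * g i k := fun g =>
        (sub_zero _).trans (smtp hH c p1 p2 g k _)
      simp only [e1]
      exact gm_lin_int _ k
    · have e1 : ∀ (p1 p2 : Fin n × Fin n) (g : Fin n → Fin m → ℝ), SM c (qq hH p1 p2 g)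
          (Sum.inr k) (Sum.inl (Sum.inl b)) - Aref Za Zb (mn H (zz E K n)).re
          (Sum.inr k : Idx m) (Sum.inl (Sum.inl b)) =
          ∑ i, c i * eF hH i (![p1.1, p1.2] b) * g i k := fun p1 p2 g =>
        (sub_zero _).trans (smtp hH c p1 p2 g k _)
      simp only [e1]
      rw [eAvg2_fst hpos fun p1 => ∫ g, (∑ i, c i * eF hH i (![p1.1, p1.2] b) * g i k) ^ 2
        ∂(gm (Fin n) (Fin m)), hc2 b k]
      linarith
  · -- test, port 2
    refine cross (fun p1 p2 g => SM c (qq hH p1 p2 g) (Sum.inr k) (Sum.inl (Sum.inr b)) -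
      Aref Za Zb (mn H (zz E K n)).re (Sum.inr k : Idx m) (Sum.inl (Sum.inr b)))
      (fun p1 p2 => (continuous_SM_qq hH c p1 p2 _ _).sub continuous_const) ?_ ?_
    · intro p1 p2
      have e1 : ∀ (g : Fin n → Fin m → ℝ), SM c (qq hH p1 p2 g)
          (Sum.inr k) (Sum.inl (Sum.inr b)) - Aref Za Zb (mn H (zz E K n)).re
          (Sum.inr k : Idx m) (Sum.inl (Sum.inr b)) =
          ∑ i, c i * eF hH i (![p2.1, p2.2] b) * g i k := fun g =>
        (sub_zero _).trans (smtp hH c p1 p2 g k _)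
      simp only [e1]
      exact gm_lin_int _ k
    · have e1 : ∀ (p1 p2 : Fin n × Fin n) (g : Fin n → Fin m → ℝ), SM c (qq hH p1 p2 g)
          (Sum.inr k) (Sum.inl (Sum.inr b)) - Aref Za Zb (mn H (zz E K n)).re
          (Sum.inr k : Idx m) (Sum.inl (Sum.inr b)) =
          ∑ i, c i * eF hH i (![p2.1, p2.2] b) * g i k := fun p1 p2 g =>
        (sub_zero _).trans (smtp hH c p1 p2 g k _)
      simp only [e1]
      rw [eAvg2_snd hpos fun p1 => ∫ g, (∑ i, c i * eF hH i (![p1.1, p1.2] b) * g i k) ^ 2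
        ∂(gm (Fin n) (Fin m)), hc2 b k]
      linarith
  · -- test, test
    have e1 : ∀ (p1 p2 : Fin n × Fin n) (g : Fin n → Fin m → ℝ), SM c (qq hH p1 p2 g)
        (Sum.inr k) (Sum.inr l) - Aref Za Zb (mn H (zz E K n)).re
        (Sum.inr k : Idx m) (Sum.inr l) =
        ∑ i, c i * (g i k * g i l - if k = l then (1 : ℝ) else 0) := by
      intro p1 p2 g
      have e2 : Aref Za Zb (mn H (zz E K n)).re (Sum.inr k : Idx m) (Sum.inr l) =
          (∑ i, c i) * (if k = l then (1 : ℝ) else 0) := by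
        rw [← mn_zz_re hH hn hK]
        unfold Aref
        simp [Matrix.fromBlocks_apply₂₂, Matrix.smul_apply, Matrix.one_apply]
      have e3 : SM c (qq hH p1 p2 g) (Sum.inr k) (Sum.inr l) = ∑ i, c i * g i k * g i l := rfl
      rw [e2, e3, Finset.sum_mul, ← Finset.sum_sub_distrib]
      exact Finset.sum_congr rfl fun i _ => by ring
    refine cross (fun p1 p2 g => SM c (qq hH p1 p2 g) (Sum.inr k) (Sum.inr l) -
      Aref Za Zb (mn H (zz E K n)).re (Sum.inr k : Idx m) (Sum.inr l))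
      (fun p1 p2 => (continuous_SM_qq hH c p1 p2 _ _).sub continuous_const) ?_ ?_
    · intro p1 p2
      simp only [e1]
      exact gm_quad_int c k l
    · simp only [e1]
      rw [eAvg2_const hpos]
      exact gm_quad_le c k l

end

end Crest.Agent.R166.Inv988
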