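import Crest.Agent.R166.InvY_988

/-!
Row 166, section 50 (helper988): the near truncation of the port array and of the test array.
-/

set_option autoImplicit false
set_option linter.unusedSectionVars false
set_option linter.unusedSimpArgs false

namespace Crest.Agent.R166.Inv988

open MeasureTheory ProbabilityTheory Matrix Crest.ProbabilityR.RandomMatrix Crest.Agent.R166
open Crest.Agent.R166.Gauss286

lemma SM_add {J ι : Type*} [Fintype J] (φ φ' : J → ℝ) (v : J → ι → ℝ) :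
    SM (fun i => φ i + φ' i) v = SM φ v + SM φ' v := by
  ext a b
  simp only [SM_apply, Matrix.add_apply, ← Finset.sum_add_distrib]
  exact Finset.sum_congr rfl fun i _ => by ring

lemma Aref_symm {m : ℕ} {Za Zb : M2} (ha : Zaᵀ = Za) (hb : Zbᵀ = Zb) (t : ℝ) :
    (Aref (m := m) Za Zb t)ᵀ = Aref Za Zb t := by
  have h1 : (rePart Za)ᵀ = rePart Za := by
    ext i j
    have := congrFun (congrFun ha i) j
    simp only [Matrix.transpose_apply] at this
    simp [rePart, this]
  have h2 : (rePart Zb)ᵀ = rePart Zb := by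
    ext i j
    have := congrFun (congrFun hb i) j
    simp only [Matrix.transpose_apply] at this
    simp [rePart, this]
  unfold Aref
  rw [Matrix.fromBlocks_transpose, Matrix.fromBlocks_transpose, h1, h2]
  simp

/-- continuity of `g ↦ f (CayG (C g))` and integrability -/
lemma cont_f_cay {X ι : Type*} [Fintype ι] [DecidableEq ι] [TopologicalSpace X]
    {f : Matrix ι ι ℂ → ℝ} (hf : Continuous f) {C : X → Matrix ι ι ℝ} (hC : Continuous C)
    (hs : ∀ x, (C x)ᵀ = C x) : Continuous fun x => f (CayG (C x)) :=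
  hf.comp (continuous_CayG hC hs)

lemma int_f_cay {J κ ι : Type*} [Fintype J] [Fintype κ] [Fintype ι] [DecidableEq ι]
    {f : Matrix ι ι ℂ → ℝ} (hf : Continuous f) {C : (J → κ → ℝ) → Matrix ι ι ℝ}
    (hC : Continuous C) (hs : ∀ x, (C x)ᵀ = C x) :
    Integrable (fun g => f (CayG (C g))) (gm J κ) := by
  obtain ⟨B, -, hB⟩ := exists_bound hf
  exact Integrable.of_bound (C := B) (cont_f_cay hf hC hs).aestronglyMeasurable
    (Filter.Eventually.of_forall fun g => hB _ (hs g))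

section port

variable {n m d : ℕ} {H : Matrix (Fin n) (Fin n) ℝ} (hH : H.IsHermitian)
  {G : SimpleGraph (Fin n)}

lemma cont_SM_qq (φ : Fin n → ℝ) (p1 p2 : Fin n × Fin n) :
    Continuous fun g : Fin n → Fin m → ℝ => SM φ (qq hH p1 p2 g) :=
  continuous_matrix fun a b => continuous_SM_qq hH φ p1 p2 a b

lemma cont_conj {X ι : Type*} [Fintype ι] [TopologicalSpace X] {C : X → Matrix ι ι ℝ}
    (hC : Continuous C) (S : Matrix ι ι ℝ) : Continuous fun x => S * C x * Sᵀ :=
  (continuous_const.matrix_mul hC).matrix_mul continuous_const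

/-- **near truncation, port side** -/
theorem port_trunc (hG : G ∈ regularGraphs n d) (hn : 0 < n) (hd : 0 < d) {E K η : ℝ}
    (hK : 0 < K) {Za Zb : M2} (ha : Zaᵀ = Za) (hb : Zbᵀ = Zb) {r0 θ : ℝ} (hθ : 0 < θ)
    (w : Fin n × Fin n → Fin n × Fin n → ℝ) (hw0 : ∀ p1 p2, 0 ≤ w p1 p2)
    (hw1 : ∀ p1 p2, w p1 p2 ≤ 1)
    (hw : ∀ p1 p2, w p1 p2 ≠ 0 → bnorm (blk H E η p1 - Za) ≤ r0 ∧
      bnorm (blk H E η p2 - Zb) ≤ r0) (hr0 : 0 ≤ r0)
    {f : Matrix (Idx m) (Idx m) ℂ → ℝ} (hf : Continuous f) (S : Matrix (Idx m) (Idx m) ℝ)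
    {ε L : ℝ} (hL : 0 ≤ L) (hfL : ∀ M M' : Matrix (Idx m) (Idx m) ℝ, Mᵀ = M → M'ᵀ = M' →
      |f (CayG (S * M * Sᵀ)) - f (CayG (S * M' * Sᵀ))| ≤
        ε + L * ∑ a, ∑ b, min 1 |M a b - M' a b|)
    (ψ φn φf : Fin n → ℝ) (hψ : ∀ i, ψ i = φn i + φf i + cK K (hl hH E i)) :
    |eAvg2 G (fun p1 p2 => w p1 p2 * ∫ g, f (CayG (S * (SM ψ (qq hH p1 p2 g) -
        Aref Za Zb (mn H (zz E K n)).re) * Sᵀ)) ∂(gm (Fin n) (Fin m))) -
      eAvg2 G (fun p1 p2 => w p1 p2 * ∫ g, f (CayG (S * SM φn (qq hH p1 p2 g) * Sᵀ))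
        ∂(gm (Fin n) (Fin m)))| ≤
    ε * eAvg2 G w + L * ((Fintype.card (Idx m) : ℝ) ^ 2 * (∑ i, |φf i| +
      ((θ + 3 * (∑ i, cK K (hl hH E i) ^ 2) / θ) +
      eAvg G (fun u v => min 1 (bnorm (Blk (Res H (zz E K n)) u v -
        Blk (Res H (ze E η)) u v))) + r0 * eAvg2 G w))) := by
  set c : Fin n → ℝ := fun i => cK K (hl hH E i) with hc
  set A := Aref (m := m) Za Zb (mn H (zz E K n)).re with hA
  have hAs : Aᵀ = A := Aref_symm ha hb _
  have hMs : ∀ p1 p2 (g : Fin n → Fin m → ℝ), (SM ψ (qq hH p1 p2 g) - A)ᵀ =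
      SM ψ (qq hH p1 p2 g) - A := fun p1 p2 g => by
    rw [Matrix.transpose_sub, SM_symm, hAs]
  have hdec : ∀ p1 p2 (g : Fin n → Fin m → ℝ) a b,
      (SM ψ (qq hH p1 p2 g) - A) a b - SM φn (qq hH p1 p2 g) a b =
      SM φf (qq hH p1 p2 g) a b + (SM c (qq hH p1 p2 g) a b - A a b) := by
    intro p1 p2 g a b
    have : ψ = fun i => (φn i + φf i) + c i := by ext i; rw [hψ]
    rw [this, SM_add, SM_add]
    simp only [Matrix.sub_apply, Matrix.add_apply]
    ring
  rw [← eAvg2_sub]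
  refine (abs_eAvg2_le _).trans ?_
  -- pointwise bound
  have hpt : ∀ p1 p2 : Fin n × Fin n, |w p1 p2 * ∫ g, f (CayG (S * (SM ψ (qq hH p1 p2 g) - A) *
        Sᵀ)) ∂(gm (Fin n) (Fin m)) - w p1 p2 * ∫ g, f (CayG (S * SM φn (qq hH p1 p2 g) * Sᵀ))
        ∂(gm (Fin n) (Fin m))| ≤
      ε * w p1 p2 + L * (∑ a, ∑ b, ((∫ g, |SM φf (qq hH p1 p2 g) a b| ∂(gm (Fin n) (Fin m))) +
        w p1 p2 * ∫ g, min 1 |SM c (qq hH p1 p2 g) a b - A a b| ∂(gm (Fin n) (Fin m)))) := by
    intro p1 p2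
    have i1 : Integrable (fun g : Fin n → Fin m → ℝ => f (CayG (S * (SM ψ (qq hH p1 p2 g) - A) *
        Sᵀ))) (gm (Fin n) (Fin m)) :=
      int_f_cay hf (cont_conj ((cont_SM_qq hH ψ p1 p2).sub continuous_const) S)
        fun g => conj_symm (hMs p1 p2 g) S
    have i2 : Integrable (fun g : Fin n → Fin m → ℝ => f (CayG (S * SM φn (qq hH p1 p2 g) *
        Sᵀ))) (gm (Fin n) (Fin m)) :=
      int_f_cay hf (cont_conj (cont_SM_qq hH φn p1 p2) S) fun g => conj_symm (SM_symm _ _) S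
    have i3 : ∀ a b, Integrable (fun g : Fin n → Fin m → ℝ => |SM φf (qq hH p1 p2 g) a b|)
        (gm (Fin n) (Fin m)) := by
      intro a b
      simp only [SM_apply]
      refine Integrable.abs (integrable_finsetSum _ fun i _ => ?_)
      have h1 : ∀ a : Idx m, MemLp (fun g : Fin n → Fin m → ℝ => qq hH p1 p2 g i a) 2
          (gm (Fin n) (Fin m)) := fun a => by
        rw [memLp_two_iff_integrable_sq (continuous_qq hH p1 p2 i a).aestronglyMeasurable]
        exact integrable_qq_sq hH p1 p2 i a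
      have h2 := ((h1 a).integrable_mul (h1 b)).const_mul (φf i)
      refine h2.congr (Filter.Eventually.of_forall fun g => ?_)
      simp only [Pi.mul_apply]; ring
    have i4 : ∀ a b, Integrable (fun g : Fin n → Fin m → ℝ =>
        min 1 |SM c (qq hH p1 p2 g) a b - A a b|) (gm (Fin n) (Fin m)) := by
      intro a b
      refine Integrable.of_bound (C := 1) (continuous_const.min
        ((continuous_SM_qq hH c p1 p2 a b).sub continuous_const).abs).aestronglyMeasurable
        (Filter.Eventually.of_forall fun g => ?_)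
      rw [Real.norm_eq_abs, abs_of_nonneg (le_min zero_le_one (abs_nonneg _))]
      exact min_le_left _ _
    rw [← mul_sub, ← integral_sub i1 i2, abs_mul, abs_of_nonneg (hw0 p1 p2)]
    have h1 : |∫ g, (f (CayG (S * (SM ψ (qq hH p1 p2 g) - A) * Sᵀ)) -
        f (CayG (S * SM φn (qq hH p1 p2 g) * Sᵀ))) ∂(gm (Fin n) (Fin m))| ≤
        ∫ g, (ε + L * ∑ a, ∑ b, (|SM φf (qq hH p1 p2 g) a b| +
          min 1 |SM c (qq hH p1 p2 g) a b - A a b|)) ∂(gm (Fin n) (Fin m)) := by
      rw [← Real.norm_eq_abs]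
      refine norm_integral_le_of_norm_le ?_ (Filter.Eventually.of_forall fun g => ?_)
      · refine (integrable_const ε).add (Integrable.const_mul ?_ L)
        exact integrable_finsetSum _ fun a _ => integrable_finsetSum _ fun b _ =>
          (i3 a b).add (i4 a b)
      · rw [Real.norm_eq_abs]
        refine (hfL _ _ (hMs p1 p2 g) (SM_symm _ _)).trans ?_
        gcongr with a _ b _
        rw [hdec]
        exact min_one_add_le _ _
    have h2 : ∫ g, (ε + L * ∑ a, ∑ b, (|SM φf (qq hH p1 p2 g) a b| +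
          min 1 |SM c (qq hH p1 p2 g) a b - A a b|)) ∂(gm (Fin n) (Fin m)) =
        ε + L * ∑ a, ∑ b, ((∫ g, |SM φf (qq hH p1 p2 g) a b| ∂(gm (Fin n) (Fin m))) +
          ∫ g, min 1 |SM c (qq hH p1 p2 g) a b - A a b| ∂(gm (Fin n) (Fin m))) := by
      rw [integral_add (integrable_const ε), integral_const_mul]
      · simp only [integral_const, probReal_univ, smul_eq_mul, one_mul]
        rw [integral_finsetSum]
        · congr 2
          refine Finset.sum_congr rfl fun a _ => ?_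
          rw [integral_finsetSum]
          · refine Finset.sum_congr rfl fun b _ => ?_
            rw [integral_add (i3 a b) (i4 a b)]
          · exact fun b _ => (i3 a b).add (i4 a b)
        · exact fun a _ => integrable_finsetSum _ fun b _ => (i3 a b).add (i4 a b)
      · refine Integrable.const_mul ?_ L
        exact integrable_finsetSum _ fun a _ => integrable_finsetSum _ fun b _ =>
          (i3 a b).add (i4 a b)
    rw [h2] at h1
    have h3 := mul_le_mul_of_nonneg_left h1 (hw0 p1 p2)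
    refine h3.trans ?_
    have h4 : w p1 p2 * ∑ a, ∑ b, ((∫ g, |SM φf (qq hH p1 p2 g) a b| ∂(gm (Fin n) (Fin m))) +
          ∫ g, min 1 |SM c (qq hH p1 p2 g) a b - A a b| ∂(gm (Fin n) (Fin m))) ≤
        ∑ a, ∑ b, ((∫ g, |SM φf (qq hH p1 p2 g) a b| ∂(gm (Fin n) (Fin m))) +
        w p1 p2 * ∫ g, min 1 |SM c (qq hH p1 p2 g) a b - A a b| ∂(gm (Fin n) (Fin m))) := by
      rw [Finset.mul_sum]
      refine Finset.sum_le_sum fun a _ => ?_
      rw [Finset.mul_sum]
      refine Finset.sum_le_sum fun b _ => ?_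
      rw [mul_add]
      have h5 : 0 ≤ ∫ g, |SM φf (qq hH p1 p2 g) a b| ∂(gm (Fin n) (Fin m)) :=
        integral_nonneg fun g => abs_nonneg _
      have := hw1 p1 p2
      nlinarith
    have h6 := mul_le_mul_of_nonneg_left h4 hL
    calc w p1 p2 * (ε + L * ∑ a, ∑ b, ((∫ g, |SM φf (qq hH p1 p2 g) a b| ∂(gm (Fin n) (Fin m))) +
          ∫ g, min 1 |SM c (qq hH p1 p2 g) a b - A a b| ∂(gm (Fin n) (Fin m))))
        = ε * w p1 p2 + L * (w p1 p2 * ∑ a, ∑ b, ((∫ g, |SM φf (qq hH p1 p2 g) a b|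
          ∂(gm (Fin n) (Fin m))) +
          ∫ g, min 1 |SM c (qq hH p1 p2 g) a b - A a b| ∂(gm (Fin n) (Fin m)))) := by ring
      _ ≤ _ := by linarith
  refine (eAvg2_mono hpt).trans ?_
  rw [eAvg2_add, eAvg2_mul_left, eAvg2_mul_left, eAvg2_sum]
  have h7 : ∑ a, eAvg2 G (fun p1 p2 => ∑ b, ((∫ g, |SM φf (qq hH p1 p2 g) a b|
        ∂(gm (Fin n) (Fin m))) +
        w p1 p2 * ∫ g, min 1 |SM c (qq hH p1 p2 g) a b - A a b| ∂(gm (Fin n) (Fin m)))) ≤
      (Fintype.card (Idx m) : ℝ) ^ 2 * (∑ i, |φf i| +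
      ((θ + 3 * (∑ i, cK K (hl hH E i) ^ 2) / θ) +
      eAvg G (fun u v => min 1 (bnorm (Blk (Res H (zz E K n)) u v -
        Blk (Res H (ze E η)) u v))) + r0 * eAvg2 G w)) := by
    have h8 : ∀ a b : Idx m, eAvg2 G (fun p1 p2 => (∫ g, |SM φf (qq hH p1 p2 g) a b|
        ∂(gm (Fin n) (Fin m))) +
        w p1 p2 * ∫ g, min 1 |SM c (qq hH p1 p2 g) a b - A a b| ∂(gm (Fin n) (Fin m))) ≤
        ∑ i, |φf i| + ((θ + 3 * (∑ i, cK K (hl hH E i) ^ 2) / θ) +
      eAvg G (fun u v => min 1 (bnorm (Blk (Res H (zz E K n)) u v -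
        Blk (Res H (ze E η)) u v))) + r0 * eAvg2 G w) := by
      intro a b
      rw [eAvg2_add]
      exact add_le_add (far_bound hH hG hn hd φf a b)
        (part_bound hH hG hn hd hK hθ w hw0 hw1 hw hr0 a b)
    calc _ = ∑ a, ∑ b, eAvg2 G (fun p1 p2 => (∫ g, |SM φf (qq hH p1 p2 g) a b|
        ∂(gm (Fin n) (Fin m))) +
        w p1 p2 * ∫ g, min 1 |SM c (qq hH p1 p2 g) a b - A a b| ∂(gm (Fin n) (Fin m))) := by
          refine Finset.sum_congr rfl fun a _ => ?_
          rw [eAvg2_sum]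
      _ ≤ ∑ a : Idx m, ∑ b : Idx m, _ := Finset.sum_le_sum fun a _ =>
          Finset.sum_le_sum fun b _ => h8 a b
      _ = _ := by
          simp only [Finset.sum_const, Finset.card_univ, nsmul_eq_mul]
          ring
  have h9 := mul_le_mul_of_nonneg_left h7 hL
  linarith

end port

section test

variable {J ι : Type*} [Fintype J] [Fintype ι] [DecidableEq ι]

lemma continuous_SM' (φ : J → ℝ) : Continuous fun g : J → ι → ℝ => SM φ g :=
  continuous_matrix fun a b => by
    simp only [SM_apply]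
    exact continuous_finsetSum _ fun i _ => by fun_prop

lemma int_SM_abs (φ : J → ℝ) (a b : ι) :
    Integrable (fun g : J → ι → ℝ => |SM φ g a b|) (gm J ι) ∧
      ∫ g, |SM φ g a b| ∂(gm J ι) ≤ ∑ i, |φ i| := by
  have hI : Integrable (fun g : J → ι → ℝ => ∑ i, |φ i| *
      ((g i a ^ 2 + g i b ^ 2) / 2)) (gm J ι) :=
    integrable_finsetSum _ fun i _ =>
      (((gm_coord_sq_int i a).add (gm_coord_sq_int i b)).div_const 2).const_mul |φ i|
  have h2 : ∀ g : J → ι → ℝ, |SM φ g a b| ≤ ∑ i, |φ i| * ((g i a ^ 2 + g i b ^ 2) / 2) := by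
    intro g
    rw [SM_apply]
    refine (Finset.abs_sum_le_sum_abs _ _).trans (Finset.sum_le_sum fun i _ => ?_)
    rw [mul_assoc, abs_mul]
    gcongr
    rw [abs_mul]
    nlinarith [sq_nonneg (|g i a| - |g i b|), sq_abs (g i a), sq_abs (g i b)]
  have hc : Continuous fun g : J → ι → ℝ => SM φ g a b := by
    simp only [SM_apply]
    exact continuous_finsetSum _ fun i _ => by fun_prop
  have h3 : Integrable (fun g : J → ι → ℝ => |SM φ g a b|) (gm J ι) :=
    hI.mono' hc.abs.aestronglyMeasurable (Filter.Eventually.of_forall fun g => by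
        rw [Real.norm_eq_abs, abs_abs]; exact h2 g)
  refine ⟨h3, (integral_mono h3 hI h2).trans (le_of_eq ?_)⟩
  rw [integral_finsetSum]
  · refine Finset.sum_congr rfl fun i _ => ?_
    rw [integral_const_mul, integral_div, integral_add (gm_coord_sq_int i a)
      (gm_coord_sq_int i b), gm_coord_sq, gm_coord_sq]
    norm_num
  · intro i _
    exact (((gm_coord_sq_int i a).add (gm_coord_sq_int i b)).div_const 2).const_mul |φ i|

lemma test_part (c : J → ℝ) {θ : ℝ} (hθ : 0 < θ) (a b : ι) :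
    Integrable (fun g : J → ι → ℝ =>
      min 1 |SM c g a b - ((∑ i, c i) • (1 : Matrix ι ι ℝ)) a b|) (gm J ι) ∧
    ∫ g, min 1 |SM c g a b - ((∑ i, c i) • (1 : Matrix ι ι ℝ)) a b| ∂(gm J ι) ≤
      θ + 3 * (∑ i, c i ^ 2) / θ := by
  have e1 : ∀ g : J → ι → ℝ, SM c g a b - ((∑ i, c i) • (1 : Matrix ι ι ℝ)) a b =
      ∑ i, c i * (g i a * g i b - if a = b then (1 : ℝ) else 0) := by
    intro g
    rw [SM_apply, Matrix.smul_apply, Matrix.one_apply, smul_eq_mul, Finset.sum_mul,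
      ← Finset.sum_sub_distrib]
    exact Finset.sum_congr rfl fun i _ => by ring
  simp only [e1]
  have hc : Continuous fun g : J → ι → ℝ =>
      ∑ i, c i * (g i a * g i b - if a = b then (1 : ℝ) else 0) :=
    continuous_finsetSum _ fun i _ => by fun_prop
  have hF2 := gm_quad_int (J := J) c a b
  have h1 : Integrable (fun g : J → ι → ℝ => θ + (∑ i, c i * (g i a * g i b -
      if a = b then (1 : ℝ) else 0)) ^ 2 / θ) (gm J ι) :=
    (integrable_const θ).add (hF2.div_const θ)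
  have h2 : Integrable (fun g : J → ι → ℝ => min 1 |∑ i, c i * (g i a * g i b -
      if a = b then (1 : ℝ) else 0)|) (gm J ι) := by
    refine Integrable.of_bound (C := 1) (continuous_const.min hc.abs).aestronglyMeasurable
      (Filter.Eventually.of_forall fun g => ?_)
    rw [Real.norm_eq_abs, abs_of_nonneg (le_min zero_le_one (abs_nonneg _))]
    exact min_le_left _ _
  refine ⟨h2, (integral_mono h2 h1 fun g => min_one_abs_le hθ).trans ?_⟩
  rw [integral_add (integrable_const θ) (hF2.div_const θ), integral_div]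
  simp only [integral_const, probReal_univ, smul_eq_mul, one_mul]
  have := gm_quad_le (J := J) c a b
  gcongr

/-- **near truncation, test side** -/
theorem test_trunc {f : Matrix ι ι ℂ → ℝ} (hf : Continuous f) (S : Matrix ι ι ℝ)
    {ε L θ : ℝ} (hθ : 0 < θ) (hL : 0 ≤ L) (hfL : ∀ M M' : Matrix ι ι ℝ, Mᵀ = M → M'ᵀ = M' →
      |f (CayG (S * M * Sᵀ)) - f (CayG (S * M' * Sᵀ))| ≤
        ε + L * ∑ a, ∑ b, min 1 |M a b - M' a b|)
    (ψ φn φf c : J → ℝ) (hψ : ∀ i, ψ i = φn i + φf i + c i) :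
    |∫ g, f (CayG (S * (SM ψ g - (∑ i, c i) • (1 : Matrix ι ι ℝ)) * Sᵀ)) ∂(gm J ι) -
      ∫ g, f (CayG (S * SM φn g * Sᵀ)) ∂(gm J ι)| ≤
    ε + L * ((Fintype.card ι : ℝ) ^ 2 * (∑ i, |φf i| + (θ + 3 * (∑ i, c i ^ 2) / θ))) := by
  have hMs : ∀ g : J → ι → ℝ, (SM ψ g - (∑ i, c i) • (1 : Matrix ι ι ℝ))ᵀ =
      SM ψ g - (∑ i, c i) • (1 : Matrix ι ι ℝ) := fun g => by
    rw [Matrix.transpose_sub, SM_symm, Matrix.transpose_smul, Matrix.transpose_one]
  have hdec : ∀ (g : J → ι → ℝ) a b,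
      (SM ψ g - (∑ i, c i) • (1 : Matrix ι ι ℝ)) a b - SM φn g a b =
      SM φf g a b + (SM c g a b - ((∑ i, c i) • (1 : Matrix ι ι ℝ)) a b) := by
    intro g a b
    have : ψ = fun i => (φn i + φf i) + c i := by ext i; rw [hψ]
    rw [this, SM_add, SM_add]
    simp only [Matrix.sub_apply, Matrix.add_apply]
    ring
  have i1 : Integrable (fun g : J → ι → ℝ => f (CayG (S * (SM ψ g -
      (∑ i, c i) • (1 : Matrix ι ι ℝ)) * Sᵀ))) (gm J ι) :=
    int_f_cay hf (cont_conj ((continuous_SM' ψ).sub continuous_const) S)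
      fun g => conj_symm (hMs g) S
  have i2 : Integrable (fun g : J → ι → ℝ => f (CayG (S * SM φn g * Sᵀ))) (gm J ι) :=
    int_f_cay hf (cont_conj (continuous_SM' φn) S) fun g => conj_symm (SM_symm _ _) S
  have i34 : Integrable (fun g : J → ι → ℝ => ∑ a, ∑ b, (|SM φf g a b| +
      min 1 |SM c g a b - ((∑ i, c i) • (1 : Matrix ι ι ℝ)) a b|)) (gm J ι) :=
    integrable_finsetSum _ fun a _ => integrable_finsetSum _ fun b _ =>
      (int_SM_abs φf a b).1.add (test_part c hθ a b).1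
  rw [← integral_sub i1 i2]
  have h1 : |∫ g, (f (CayG (S * (SM ψ g - (∑ i, c i) • (1 : Matrix ι ι ℝ)) * Sᵀ)) -
      f (CayG (S * SM φn g * Sᵀ))) ∂(gm J ι)| ≤
      ∫ g, (ε + L * ∑ a, ∑ b, (|SM φf g a b| +
        min 1 |SM c g a b - ((∑ i, c i) • (1 : Matrix ι ι ℝ)) a b|)) ∂(gm J ι) := by
    rw [← Real.norm_eq_abs]
    refine norm_integral_le_of_norm_le ((integrable_const ε).add (i34.const_mul L))
      (Filter.Eventually.of_forall fun g => ?_)
    rw [Real.norm_eq_abs]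
    refine (hfL _ _ (hMs g) (SM_symm _ _)).trans ?_
    gcongr with a _ b _
    rw [hdec]
    exact min_one_add_le _ _
  refine h1.trans ?_
  rw [integral_add (integrable_const ε) (i34.const_mul L), integral_const_mul]
  simp only [integral_const, probReal_univ, smul_eq_mul, one_mul]
  have h2 : ∫ g, ∑ a, ∑ b, (|SM φf g a b| +
        min 1 |SM c g a b - ((∑ i, c i) • (1 : Matrix ι ι ℝ)) a b|) ∂(gm J ι) ≤
      (Fintype.card ι : ℝ) ^ 2 * (∑ i, |φf i| + (θ + 3 * (∑ i, c i ^ 2) / θ)) := by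
    have i5 : ∀ a b : ι, Integrable (fun g : J → ι → ℝ => |SM φf g a b| +
        min 1 |SM c g a b - ((∑ i, c i) • (1 : Matrix ι ι ℝ)) a b|) (gm J ι) := fun a b =>
      (int_SM_abs φf a b).1.add (test_part c hθ a b).1
    have i6 : ∀ a : ι, Integrable (fun g : J → ι → ℝ => ∑ b, (|SM φf g a b| +
        min 1 |SM c g a b - ((∑ i, c i) • (1 : Matrix ι ι ℝ)) a b|)) (gm J ι) := fun a =>
      integrable_finsetSum _ fun b _ => i5 a b
    rw [integral_finsetSum _ fun a _ => i6 a]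
    have h3 : ∀ a b : ι, ∫ g, (|SM φf g a b| +
        min 1 |SM c g a b - ((∑ i, c i) • (1 : Matrix ι ι ℝ)) a b|) ∂(gm J ι) ≤
        ∑ i, |φf i| + (θ + 3 * (∑ i, c i ^ 2) / θ) := by
      intro a b
      rw [integral_add (int_SM_abs φf a b).1 (test_part c hθ a b).1]
      exact add_le_add (int_SM_abs φf a b).2 (test_part c hθ a b).2
    calc _ = ∑ a, ∑ b, ∫ g, (|SM φf g a b| +
        min 1 |SM c g a b - ((∑ i, c i) • (1 : Matrix ι ι ℝ)) a b|) ∂(gm J ι) := by
          refine Finset.sum_congr rfl fun a _ => ?_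
          rw [integral_finsetSum _ fun b _ => i5 a b]
      _ ≤ ∑ a : ι, ∑ b : ι, _ := Finset.sum_le_sum fun a _ =>
          Finset.sum_le_sum fun b _ => h3 a b
      _ = _ := by
          simp only [Finset.sum_const, Finset.card_univ, nsmul_eq_mul]
          ring
  have h9 := mul_le_mul_of_nonneg_left h2 hL
  linarith

end test

end Crest.Agent.R166.Inv988
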