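import Crest.Agent.R166.MartA_663

/-!
# Row 166, sections 42.1-42.3: the abstract graphing theorem (helper663)

`(Ω, P)` with a measure preserving edge flip `pp` and port rotations `rot a`.  The base directed
edge goes from `u` to `v`; vertex functions are `rot`-invariant, the value at `v` is `f ∘ pp`.
Orthogonality of the increments along the directed edges pointing away from a vertex `o`
(Markov property), Bessel's inequality and mass transport give that the increments vanish.
-/

set_option autoImplicit false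

noncomputable section

open MeasureTheory ProbabilityTheory Filter
open scoped ENNReal

namespace Crest.Agent.R166.Mart663

variable {Ω : Type*} {m EE m0 : MeasurableSpace Ω} {P : Measure Ω}

/-- equivariance of the conditional expectation under measure preserving maps. -/
lemma condExp_comp_mp [IsFiniteMeasure P] {T : Ω → Ω} (hT : MeasurePreserving T P P)
    (hm : m ≤ m0) {f : Ω → ℝ} (hf : Integrable f P) :
    P[f ∘ T | m.comap T] =ᵐ[P] (P[f | m]) ∘ T := by
  have hmT : m.comap T ≤ m0 := by
    rintro s ⟨t, ht, rfl⟩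
    exact hT.measurable (hm t ht)
  symm
  refine ae_eq_condExp_of_forall_setIntegral_eq hmT ?_ ?_ ?_ ?_
  · exact (hT.integrable_comp hf.aestronglyMeasurable).mpr hf
  · intro s _ _
    exact ((hT.integrable_comp integrable_condExp.aestronglyMeasurable).mpr
      integrable_condExp).integrableOn
  · rintro s ⟨t, ht, rfl⟩ _
    have e1 : ∀ g : Ω → ℝ, AEStronglyMeasurable g P →
        ∫ x in T ⁻¹' t, (g ∘ T) x ∂P = ∫ x in t, g x ∂P := by
      intro g hg
      have h := setIntegral_map (μ := P) (g := T) (f := g) (hm t ht)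
        (by rw [hT.map_eq]; exact hg) hT.measurable.aemeasurable
      rw [hT.map_eq] at h
      exact h.symm
    rw [e1 _ integrable_condExp.aestronglyMeasurable, e1 _ hf.aestronglyMeasurable,
      setIntegral_condExp hm hf ht]
  · have h1 : StronglyMeasurable[m] (P[f | m]) := stronglyMeasurable_condExp
    have h2 : Measurable[m.comap T, m] T := comap_measurable T
    exact (h1.comp_measurable h2).aestronglyMeasurable

/-- a measure preserving action of the group generated by an edge flip and port rotations. -/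
structure Graphing (P : Measure Ω) (A : Type*) [AddGroup A] where
  /-- edge flip -/
  pp : Ω → Ω
  /-- port rotation -/
  rot : A → Ω → Ω
  mp_pp : MeasurePreserving pp P P
  mp_rot : ∀ a, MeasurePreserving (rot a) P P
  pp_pp : ∀ x, pp (pp x) = x
  rot_zero : ∀ x, rot 0 x = x
  rot_add : ∀ a b x, rot (a + b) x = rot a (rot b x)

/-- words with nonzero letters -/
abbrev NW (A : Type*) [AddGroup A] := {w : List A // ∀ a ∈ w, a ≠ 0}

namespace Graphing

variable {A : Type*} [AddGroup A] (g : Graphing P A)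

/-- descendants of the base directed edge -/
def desc : List A → Ω → Ω
  | [], x => x
  | a :: w, x => desc w (g.rot a (g.pp x))

/-- the inverse of `desc w` -/
def inv : List A → Ω → Ω
  | [], x => x
  | a :: w, x => g.pp (g.rot (-a) (inv w x))

lemma rot_neg (a : A) (x : Ω) : g.rot a (g.rot (-a) x) = x := by
  rw [← g.rot_add, add_neg_cancel, g.rot_zero]

lemma rot_neg' (a : A) (x : Ω) : g.rot (-a) (g.rot a x) = x := by
  rw [← g.rot_add, neg_add_cancel, g.rot_zero]

lemma desc_inv (w : List A) (x : Ω) : g.desc w (g.inv w x) = x := by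
  induction w generalizing x with
  | nil => rfl
  | cons a w ih => simp only [desc, inv, g.pp_pp, rot_neg, ih]

lemma inv_desc (w : List A) (x : Ω) : g.inv w (g.desc w x) = x := by
  induction w generalizing x with
  | nil => rfl
  | cons a w ih => simp only [desc, inv, ih, rot_neg', g.pp_pp]

lemma mp_desc (w : List A) : MeasurePreserving (g.desc w) P P := by
  induction w with
  | nil => exact MeasurePreserving.id P
  | cons a w ih => exact ih.comp ((g.mp_rot a).comp g.mp_pp)

lemma mp_inv (w : List A) : MeasurePreserving (g.inv w) P P := by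
  induction w with
  | nil => exact MeasurePreserving.id P
  | cons a w ih => exact g.mp_pp.comp ((g.mp_rot (-a)).comp ih)

lemma desc_append (w w' : List A) (x : Ω) : g.desc (w ++ w') x = g.desc w' (g.desc w x) := by
  induction w generalizing x with
  | nil => rfl
  | cons a w ih => simp only [List.cons_append, desc, ih]

section words

variable {𝓨 : Type*} {Y : Ω → 𝓨} (hYr : ∀ a x, Y (g.rot a x) = Y x)
include hYr

omit hYr in
/-- the walk turns away: seen from the far edge it is a backward path. -/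
lemma exists_inv_aux (w2 : List A) (hw2 : ∀ a ∈ w2, a ≠ 0) :
    ∀ (e : A) (_ : e ≠ 0) (w1 : List A) (_ : ∀ a ∈ w1, a ≠ 0),
      ∃ a : List A, (∀ b ∈ a, b ≠ 0) ∧
        ∀ x, g.pp (g.desc w2 (g.rot e (g.inv w1 x))) = g.inv a x := by
  induction w2 with
  | nil =>
    intro e he w1 hw1
    refine ⟨(-e) :: w1, ?_, fun x => ?_⟩
    · intro b hb
      rcases List.mem_cons.mp hb with h | h
      · rw [h]; exact neg_ne_zero.mpr he
      · exact hw1 b h
    · simp [desc, inv]
  | cons f w3 ih =>
    intro e he w1 hw1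
    obtain ⟨a, ha, hx⟩ := ih (fun b hb => hw2 b (List.mem_cons_of_mem _ hb)) f
      (hw2 f List.mem_cons_self) ((-e) :: w1) (by
        intro b hb
        rcases List.mem_cons.mp hb with h | h
        · rw [h]; exact neg_ne_zero.mpr he
        · exact hw1 b h)
    refine ⟨a, ha, fun x => ?_⟩
    rw [← hx x]
    simp [desc, inv]

omit hYr in
/-- if `w` is not a prefix of `w'`, the head vertex of `desc w'` is on the `u`-side of the edge
`desc w`. -/
lemma exists_inv (w : List A) (hw : ∀ a ∈ w, a ≠ 0) :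
    ∀ (w' : List A) (_ : ∀ a ∈ w', a ≠ 0) (_ : ¬ w <+: w'),
      ∃ a : List A, (∀ b ∈ a, b ≠ 0) ∧
        ((∀ x, g.pp (g.desc w' (g.inv w x)) = g.inv a x) ∨
          ∃ r : A, ∀ x, g.pp (g.desc w' (g.inv w x)) = g.rot r (g.inv a x)) := by
  induction w with
  | nil =>
    intro w' _ hp
    exact absurd (List.nil_prefix) hp
  | cons b w1 ih =>
    intro w' hw' hp
    have hw1 : ∀ a ∈ w1, a ≠ 0 := fun a ha => hw a (List.mem_cons_of_mem _ ha)
    cases w' with
    | nil =>
      refine ⟨w1, hw1, Or.inr ⟨-b, fun x => ?_⟩⟩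
      simp [desc, inv, g.pp_pp]
    | cons c w2 =>
      have hw2 : ∀ a ∈ w2, a ≠ 0 := fun a ha => hw' a (List.mem_cons_of_mem _ ha)
      by_cases hcb : c = b
      · subst hcb
        have hp' : ¬ w1 <+: w2 := fun h => hp (List.prefix_cons_inj c |>.mpr h)
        obtain ⟨a, ha, hx⟩ := ih hw1 w2 hw2 hp'
        refine ⟨a, ha, ?_⟩
        have e : ∀ x, g.desc (c :: w2) (g.inv (c :: w1) x) = g.desc w2 (g.inv w1 x) := by
          intro x
          simp only [desc, inv, g.pp_pp, rot_neg]
        simpa only [e] using hx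
      · have he : c - b ≠ 0 := sub_ne_zero.mpr hcb
        obtain ⟨a, ha, hx⟩ := g.exists_inv_aux w2 hw2 (c - b) he w1 hw1
        refine ⟨a, ha, Or.inl fun x => ?_⟩
        rw [← hx x]
        simp only [desc, inv, g.pp_pp]
        rw [← g.rot_add, sub_eq_add_neg]

lemma exists_inv_fun {w w' : List A} (hw : ∀ a ∈ w, a ≠ 0) (hw' : ∀ a ∈ w', a ≠ 0)
    (hp : ¬ w <+: w') :
    ∃ a : List A, (∀ b ∈ a, b ≠ 0) ∧
      ∀ x, Y (g.pp (g.desc w' x)) = Y (g.inv a (g.desc w x)) := by
  obtain ⟨a, ha, h⟩ := g.exists_inv w hw w' hw' hp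
  refine ⟨a, ha, fun x => ?_⟩
  rcases h with h | ⟨r, h⟩
  · rw [← h, g.inv_desc]
  · have := h (g.desc w x)
    rw [g.inv_desc] at this
    rw [this, hYr]

end words

section algebras

variable {𝓨 : Type*} [MeasurableSpace 𝓨] (Y : Ω → 𝓨)

/-- information on the base edge -/
@[reducible] def sB (EE : MeasurableSpace Ω) : MeasurableSpace Ω :=
  EE ⊔ (inferInstance : MeasurableSpace 𝓨).comap Y ⊔
    (inferInstance : MeasurableSpace 𝓨).comap (fun x => Y (g.pp x))

/-- information on the star of `v` -/
@[reducible] def sA (EE : MeasurableSpace Ω) : MeasurableSpace Ω :=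
  g.sB Y EE ⊔ ⨆ (k : A) (_ : k ≠ 0),
    (inferInstance : MeasurableSpace 𝓨).comap (fun x => Y (g.pp (g.rot k (g.pp x))))

/-- information on the closed `u`-side of the base edge -/
@[reducible] def sG (EE : MeasurableSpace Ω) : MeasurableSpace Ω :=
  g.sB Y EE ⊔ ⨆ w : NW A, (inferInstance : MeasurableSpace 𝓨).comap (fun x => Y (g.inv w.1 x))

lemma sB_le_sA (EE : MeasurableSpace Ω) : g.sB Y EE ≤ g.sA Y EE := le_sup_left

lemma sB_le_sG (EE : MeasurableSpace Ω) : g.sB Y EE ≤ g.sG Y EE := le_sup_left

variable {Y}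

lemma sB_le (hE : EE ≤ m0) (hY : Measurable Y) : g.sB Y EE ≤ m0 := by
  refine sup_le (sup_le hE hY.comap_le) ?_
  exact (hY.comp g.mp_pp.measurable).comap_le

lemma sA_le (hE : EE ≤ m0) (hY : Measurable Y) : g.sA Y EE ≤ m0 := by
  refine sup_le (g.sB_le hE hY) (iSup₂_le fun k _ => ?_)
  exact (hY.comp (g.mp_pp.measurable.comp ((g.mp_rot k).measurable.comp
    g.mp_pp.measurable))).comap_le

lemma sG_le (hE : EE ≤ m0) (hY : Measurable Y) : g.sG Y EE ≤ m0 := by
  refine sup_le (g.sB_le hE hY) (iSup_le fun w => ?_)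
  exact (hY.comp (g.mp_inv w.1).measurable).comap_le

lemma comap_desc_EE (hEp : EE.comap g.pp = EE) (hEr : ∀ a, EE.comap (g.rot a) = EE)
    (w : List A) : EE.comap (g.desc w) = EE := by
  induction w with
  | nil => exact MeasurableSpace.comap_id
  | cons a w ih =>
    have e : g.desc (a :: w) = g.desc w ∘ (g.rot a ∘ g.pp) := rfl
    rw [e, ← MeasurableSpace.comap_comp, ih, ← MeasurableSpace.comap_comp, hEr, hEp]

/-- order property: if `w` is not a prefix of `w'`, the star of the head of `desc w'` is measurable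
with respect to the closed `u`-side of `desc w`. -/
lemma sA_le_sG (hEp : EE.comap g.pp = EE) (hEr : ∀ a, EE.comap (g.rot a) = EE)
    (hYr : ∀ a x, Y (g.rot a x) = Y x) {w w' : List A} (hw : ∀ a ∈ w, a ≠ 0)
    (hw' : ∀ a ∈ w', a ≠ 0) (hp : ¬ w <+: w') :
    (g.sA Y EE).comap (g.desc w') ≤ (g.sG Y EE).comap (g.desc w) := by
  have key : ∀ w'' : List A, (∀ a ∈ w'', a ≠ 0) → (w'' = w ∨ ¬ w <+: w'') →
      (inferInstance : MeasurableSpace 𝓨).comap (fun x => Y (g.pp (g.desc w'' x))) ≤
        (g.sG Y EE).comap (g.desc w) := by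
    intro w'' hw'' h
    rcases h with h | h
    · subst h
      have h1 : (inferInstance : MeasurableSpace 𝓨).comap (fun x => Y (g.pp x)) ≤
          g.sG Y EE := le_trans le_sup_right (g.sB_le_sG Y EE)
      have h2 := MeasurableSpace.comap_mono (g := g.desc w'') h1
      rwa [MeasurableSpace.comap_comp] at h2
    · obtain ⟨a, ha, hx⟩ := g.exists_inv_fun hYr hw hw'' h
      have h1 : (inferInstance : MeasurableSpace 𝓨).comap (fun x => Y (g.inv a x)) ≤
          g.sG Y EE := le_trans (le_iSup (fun w : NW A =>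
            (inferInstance : MeasurableSpace 𝓨).comap (fun x => Y (g.inv w.1 x))) ⟨a, ha⟩)
            le_sup_right
      have h2 := MeasurableSpace.comap_mono (g := g.desc w) h1
      rw [MeasurableSpace.comap_comp] at h2
      have e : (fun x => Y (g.pp (g.desc w'' x))) = (fun x => Y (g.inv a x)) ∘ g.desc w :=
        funext hx
      rw [e]
      exact h2
  have hE : EE.comap (g.desc w') ≤ (g.sG Y EE).comap (g.desc w) := by
    have e : EE.comap (g.desc w') = EE.comap (g.desc w) := by
      rw [g.comap_desc_EE hEp hEr w', g.comap_desc_EE hEp hEr w]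
    rw [e]
    exact MeasurableSpace.comap_mono (le_trans (le_trans le_sup_left le_sup_left)
      (g.sB_le_sG Y EE))
  have hroot : (inferInstance : MeasurableSpace 𝓨).comap (fun x => Y (g.desc w' x)) ≤
      (g.sG Y EE).comap (g.desc w) := by
    rcases List.eq_nil_or_concat w' with h | ⟨p, k, h⟩
    · subst h
      have h1 : (inferInstance : MeasurableSpace 𝓨).comap (fun x => Y (g.inv w x)) ≤
          g.sG Y EE := le_trans (le_iSup (fun w : NW A =>
            (inferInstance : MeasurableSpace 𝓨).comap (fun x => Y (g.inv w.1 x))) ⟨w, hw⟩)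
            le_sup_right
      have h2 := MeasurableSpace.comap_mono (g := g.desc w) h1
      rw [MeasurableSpace.comap_comp] at h2
      have e : (fun x => Y (g.desc [] x)) = (fun x => Y (g.inv w x)) ∘ g.desc w := by
        funext x
        simp only [Function.comp, g.inv_desc, desc]
      rw [e]
      exact h2
    · rw [List.concat_eq_append] at h
      subst h
      have e : (fun x => Y (g.desc (p ++ [k]) x)) = fun x => Y (g.pp (g.desc p x)) := by
        funext x
        rw [g.desc_append]
        simp only [desc, hYr]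
      rw [e]
      refine key p (fun a ha => hw' a (by simp [ha])) (Or.inr fun hpre => hp ?_)
      exact hpre.trans (List.prefix_append p [k])
  generalize (g.sG Y EE).comap (g.desc w) = K at key hE hroot ⊢
  unfold sA sB
  simp only [MeasurableSpace.comap_sup, MeasurableSpace.comap_iSup, MeasurableSpace.comap_comp]
  refine sup_le (sup_le (sup_le hE hroot) ?_) (iSup₂_le fun k hk => ?_)
  · exact key w' hw' (Or.inr hp)
  · have e : (fun x => Y (g.pp (g.rot k (g.pp x)))) ∘ g.desc w' =
        fun x => Y (g.pp (g.desc (w' ++ [k]) x)) := by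
      funext x
      rw [g.desc_append]
      rfl
    rw [e]
    have hne : ¬ (w ++ [] = w' ++ [k] ∧ False) := fun h => h.2
    refine key (w' ++ [k]) ?_ ?_
    · intro a ha
      rcases List.mem_append.mp ha with h | h
      · exact hw' a h
      · rw [List.mem_singleton.mp h]; exact hk
    · by_cases heq : w' ++ [k] = w
      · exact Or.inl heq
      · refine Or.inr fun hpre => ?_
        rcases List.prefix_concat_iff.mp (by simpa using hpre) with h | h
        · exact heq (by simpa using h.symm)
        · exact hp h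

end algebras

/-- **Abstract graphing theorem** (sections 42.1-42.3). -/
theorem increments_vanish [IsProbabilityMeasure P] [Countable A] {𝓨 : Type*}
    [MeasurableSpace 𝓨] {Y : Ω → 𝓨}
    (hE : EE ≤ m0) (hEp : EE.comap g.pp = EE) (hEr : ∀ a, EE.comap (g.rot a) = EE)
    (hY : Measurable Y) (hYr : ∀ a x, Y (g.rot a x) = Y x)
    {Z : Ω → ℝ} (hZ : MemLp Z 2 P)
    (hM : ∀ f : Ω → ℝ, Integrable f P → StronglyMeasurable[g.sA Y EE] f →
      P[f | g.sG Y EE] =ᵐ[P] P[f | g.sB Y EE])
    (l1 l2 : NW A → Ω → ℝ)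
    (hL : ∀ w : NW A, P[fun x => Z (g.inv w.1 x) | g.sA Y EE] -
        P[fun x => Z (g.inv w.1 x) | g.sB Y EE] =ᵐ[P] fun x =>
        l1 w x * ((P[Z | g.sA Y EE]) x - (P[Z | g.sB Y EE]) x) +
        l2 w x * ((P[fun y => Z (g.pp y) | g.sA Y EE]) x -
          (P[fun y => Z (g.pp y) | g.sB Y EE]) x))
    (hD : ∀ᵐ x ∂P, ∀ a b : ℝ, (Summable fun w : NW A => (l1 w x * a + l2 w x * b) ^ 2) →
      a = 0 ∧ b = 0) :
    P[Z | g.sA Y EE] =ᵐ[P] P[Z | g.sB Y EE] ∧
      P[fun y => Z (g.pp y) | g.sA Y EE] =ᵐ[P] P[fun y => Z (g.pp y) | g.sB Y EE] := by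
  classical
  set AA : NW A → MeasurableSpace Ω := fun w => (g.sA Y EE).comap (g.desc w.1) with hAA
  set BB : NW A → MeasurableSpace Ω := fun w => (g.sB Y EE).comap (g.desc w.1) with hBB
  set GG : NW A → MeasurableSpace Ω := fun w => (g.sG Y EE).comap (g.desc w.1) with hGG
  have hcomap_le : ∀ (w : NW A) (m' : MeasurableSpace Ω), m' ≤ m0 →
      m'.comap (g.desc w.1) ≤ m0 := by
    intro w m' hm s hs
    obtain ⟨t, ht, rfl⟩ := hs
    exact @MeasurePreserving.measurable Ω Ω m0 m0 _ _ _ (g.mp_desc w.1) t (hm t ht)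
  have hAm := g.sA_le hE hY
  have hBm := g.sB_le hE hY
  have hGm := g.sG_le hE hY
  have hZi : Integrable Z P := hZ.integrable (by norm_num)
  -- the function on the base edge
  set f : NW A → Ω → ℝ := fun w => P[fun x => Z (g.inv w.1 x) | g.sA Y EE] -
        P[fun x => Z (g.inv w.1 x) | g.sB Y EE] with hf
  have hfint : ∀ w, Integrable (f w) P := fun w => integrable_condExp.sub integrable_condExp
  have hZw : ∀ w : NW A, Integrable (fun x => Z (g.inv w.1 x)) P := fun w =>
    (((g.mp_inv w.1).integrable_comp hZi.aestronglyMeasurable).mpr hZi)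
  have hinc : ∀ w : NW A, incr P AA BB Z w =ᵐ[P] f w ∘ g.desc w.1 := by
    intro w
    have e : (fun x => Z (g.inv w.1 x)) ∘ g.desc w.1 = Z := by
      funext x
      simp only [Function.comp, g.inv_desc]
    have h1 := condExp_comp_mp (g.mp_desc w.1) hAm (hZw w)
    have h2 := condExp_comp_mp (g.mp_desc w.1) hBm (hZw w)
    rw [e] at h1 h2
    filter_upwards [h1, h2] with x e1 e2
    simp only [incr, hAA, hBB, Pi.sub_apply, Function.comp, hf] at e1 e2 ⊢
    rw [e1, e2]
  have hMw : ∀ w : NW A, P[incr P AA BB Z w | GG w] =ᵐ[P] P[incr P AA BB Z w | BB w] := by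
    intro w
    have h1 : P[incr P AA BB Z w | GG w] =ᵐ[P] P[f w ∘ g.desc w.1 | GG w] :=
      condExp_congr_ae (hinc w)
    have h2 : P[incr P AA BB Z w | BB w] =ᵐ[P] P[f w ∘ g.desc w.1 | BB w] :=
      condExp_congr_ae (hinc w)
    have h3 := condExp_comp_mp (g.mp_desc w.1) hGm (hfint w)
    have h4 := condExp_comp_mp (g.mp_desc w.1) hBm (hfint w)
    have hsm : StronglyMeasurable[g.sA Y EE] (f w) :=
      stronglyMeasurable_condExp.sub (stronglyMeasurable_condExp.mono (g.sB_le_sA Y EE))
    have h5 := (g.mp_desc w.1).quasiMeasurePreserving.ae_eq_comp (hM (f w) (hfint w) hsm)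
    exact h1.trans (h3.trans (h5.trans (h4.symm.trans h2.symm)))
  have hord : ∀ i j : NW A, i ≠ j → AA i ≤ GG j ∨ AA j ≤ GG i := by
    intro i j hij
    by_cases h : j.1 <+: i.1
    · right
      refine g.sA_le_sG hEp hEr hYr i.2 j.2 fun h' => hij ?_
      exact Subtype.ext (List.IsPrefix.eq_of_length h' (le_antisymm h'.length_le h.length_le))
    · left
      exact g.sA_le_sG hEp hEr hYr j.2 i.2 h
  have hbes : ∀ s : Finset (NW A), ∑ w ∈ s, ∫ x, (f w x) ^ 2 ∂P ≤ ∫ x, (Z x) ^ 2 ∂P := by
    intro s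
    have h := bessel (P := P) (A := AA) (B := BB) (G := GG)
      (fun w => MeasurableSpace.comap_mono (g.sB_le_sA Y EE)) (fun w => hcomap_le w _ hAm)
      (fun w => hcomap_le w _ hGm) hZ hMw hord s
    refine le_trans (le_of_eq (Finset.sum_congr rfl fun w _ => ?_)) h
    have e1 : ∫ x, (incr P AA BB Z w x) ^ 2 ∂P = ∫ x, (f w (g.desc w.1 x)) ^ 2 ∂P := by
      refine integral_congr_ae ?_
      filter_upwards [hinc w] with x hx
      rw [hx]; rfl
    rw [e1]
    have h6 := integral_map (μ := P) (g.mp_desc w.1).measurable.aemeasurable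
      (f := fun x => (f w x) ^ 2) (by
        rw [(g.mp_desc w.1).map_eq]
        exact (hfint w).aestronglyMeasurable.pow 2)
    rw [(g.mp_desc w.1).map_eq] at h6
    exact h6
  -- the series converges almost everywhere
  set τ1 : Ω → ℝ := fun x => (P[Z | g.sA Y EE]) x - (P[Z | g.sB Y EE]) x with hτ1
  set τ2 : Ω → ℝ := fun x => (P[fun y => Z (g.pp y) | g.sA Y EE]) x -
          (P[fun y => Z (g.pp y) | g.sB Y EE]) x with hτ2
  have hZp : MemLp (fun y => Z (g.pp y)) 2 P := hZ.comp_measurePreserving g.mp_pp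
  have hfL2 : ∀ w, MemLp (f w) 2 P := fun w =>
    (memLp_condExp (hZ.comp_measurePreserving (g.mp_inv w.1))).sub
      (memLp_condExp (hZ.comp_measurePreserving (g.mp_inv w.1)))
  have hsum : ∀ᵐ x ∂P, Summable fun w : NW A => (f w x) ^ 2 := by
    have hle : ∫⁻ x, ∑' w : NW A, ENNReal.ofReal ((f w x) ^ 2) ∂P ≤
        ENNReal.ofReal (∫ x, (Z x) ^ 2 ∂P) := by
      rw [lintegral_tsum fun w => ((hfint w).aestronglyMeasurable.aemeasurable.pow_const
        2).ennreal_ofReal]
      rw [ENNReal.tsum_eq_iSup_sum]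
      refine iSup_le fun s => ?_
      have e : ∀ w ∈ s, ∫⁻ x, ENNReal.ofReal ((f w x) ^ 2) ∂P =
          ENNReal.ofReal (∫ x, (f w x) ^ 2 ∂P) := fun w _ =>
        (ofReal_integral_eq_lintegral_ofReal (hfL2 w).integrable_sq
          (Eventually.of_forall fun x => sq_nonneg _)).symm
      rw [Finset.sum_congr rfl e, ← ENNReal.ofReal_sum_of_nonneg fun w _ =>
        integral_nonneg fun x => sq_nonneg _]
      exact ENNReal.ofReal_le_ofReal (hbes s)
    have hfin : ∀ᵐ x ∂P, ∑' w : NW A, ENNReal.ofReal ((f w x) ^ 2) < ⊤ :=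
      ae_lt_top' (AEMeasurable.tsum fun w =>
        ((hfint w).aestronglyMeasurable.aemeasurable.pow_const 2).ennreal_ofReal)
        (lt_of_le_of_lt hle ENNReal.ofReal_lt_top).ne
    filter_upwards [hfin] with x hx
    have h := ENNReal.summable_toReal hx.ne
    refine h.congr fun w => ?_
    rw [ENNReal.toReal_ofReal (sq_nonneg _)]
  have hall : ∀ᵐ x ∂P, ∀ w : NW A, f w x = l1 w x * τ1 x + l2 w x * τ2 x :=
    ae_all_iff.mpr fun w => hL w
  have hzero : ∀ᵐ x ∂P, τ1 x = 0 ∧ τ2 x = 0 := by
    filter_upwards [hsum, hall, hD] with x h1 h2 h3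
    refine h3 (τ1 x) (τ2 x) ?_
    refine h1.congr fun w => ?_
    rw [h2 w]
  constructor
  · filter_upwards [hzero] with x hx
    exact sub_eq_zero.mp hx.1
  · filter_upwards [hzero] with x hx
    exact sub_eq_zero.mp hx.2

end Graphing

end Crest.Agent.R166.Mart663
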