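import Crest.Agent.R166.L2_942
import Crest.Agent.R166.MartB_663
import Crest.Agent.R166.Spec_B2_385

/-!
Row 166, section 42.3 (helper942): bridges of the divergence lemma and of the tree algebra
(`L2_942`) to the abstract graphing form (`MartB_663`) and to the limit process (`Spec_B2_385`).
-/

set_option autoImplicit false

noncomputable section

open MeasureTheory ProbabilityTheory Filter Topology

namespace Crest.Agent.R166.L2_942

open Crest.Agent.R166.Mart663

/-! ### (B1) graphing form -/

section graphing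
variable {Ω : Type*} {m0 : MeasurableSpace Ω} {P : Measure Ω} {A : Type*} [AddGroup A]

/-- nonzero letters -/
abbrev KK (A : Type*) [AddGroup A] := {a : A // a ≠ 0}

/-- words with nonzero letters as lists over the subtype -/
def toK (w : NW A) : List (KK A) := w.1.pmap (fun a h => ⟨a, h⟩) w.2

theorem map_toK (w : NW A) : (toK w).map Subtype.val = w.1 := by
  simp [toK, List.map_pmap]

/-- inverse of `toK` -/
def ofK (w : List (KK A)) : NW A := ⟨w.map Subtype.val, by
  intro a ha
  obtain ⟨b, _, rfl⟩ := List.mem_map.1 ha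
  exact b.2⟩

theorem ofK_toK (w : NW A) : ofK (toK w) = w := Subtype.ext (map_toK w)

theorem toK_ofK (w : List (KK A)) : toK (ofK w) = w := by
  have h := map_toK (ofK w)
  exact List.map_injective_iff.2 Subtype.val_injective h

/-- the equivalence -/
def eK : NW A ≃ List (KK A) := ⟨toK, ofK, ofK_toK, toK_ofK⟩

/-- cavity numbers of the side of the base edge containing the base vertex of `x` -/
def cx (g : Graphing P A) (cav : Ω → ℂ) (x : Ω) : List (KK A) → ℂ :=
  fun w => cav (g.inv (w.map Subtype.val) x)

/-- first coefficient -/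
def L1 (g : Graphing P A) (cav : Ω → ℂ) (w : NW A) (x : Ω) : ℝ := l1c (cx g cav x) (toK w)
/-- second coefficient -/
def L2 (g : Graphing P A) (cav : Ω → ℂ) (w : NW A) (x : Ω) : ℝ := l2c (cx g cav x) (toK w)

theorem ae_inv [Countable A] (g : Graphing P A) {p : Ω → Prop} (hp : ∀ᵐ x ∂P, p x) :
    ∀ᵐ x ∂P, ∀ w : List A, p (g.inv w x) := by
  rw [ae_all_iff]
  intro w
  exact (g.mp_inv w).quasiMeasurePreserving.ae hp

/-- (hD) in graphing form -/
theorem hD_graphing [Countable A] [Fintype (KK A)] (g : Graphing P A) {E : ℝ} {V : Ω → ℝ}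
    {cav : Ω → ℂ} {η : ℕ → ℝ} {c : ℕ → Ω → ℂ}
    (hη : ∀ j, 0 < η j) (hη0 : Tendsto η atTop (𝓝 0))
    (hc : ∀ j, ∀ᵐ y ∂P, 0 < (c j y).im ∧ c j y * ((E : ℂ) + Complex.I * (η j : ℂ) - (V y : ℂ) +
      ∑ a : KK A, c j (g.pp (g.rot (-a.1) y))) = -1)
    (hlim : ∀ᵐ y ∂P, Tendsto (fun j => c j y) atTop (𝓝 (cav y)))
    (hpos : ∀ᵐ y ∂P, 0 < (cav y).im) :
    ∀ᵐ x ∂P, ∀ a b : ℝ, (Summable fun w : NW A => (L1 g cav w x * a + L2 g cav w x * b) ^ 2) →
      a = 0 ∧ b = 0 := by
  filter_upwards [ae_inv g (ae_all_iff.2 hc), ae_inv g hlim, ae_inv g hpos] with x h1 h2 h3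
  intro a b hs
  refine hD (E := E) (V := fun w => V (g.inv (w.map Subtype.val) x)) (eta := η)
    (c := fun j => cx g (c j) x) (c0 := cx g cav x) hη hη0 ?_ ?_ ?_ a b ?_
  · intro j w
    have := h1 (w.map Subtype.val) j
    exact this
  · intro w
    exact h2 _
  · intro w
    exact h3 _
  · have h4 : (fun w : NW A => (L1 g cav w x * a + L2 g cav w x * b) ^ 2) =
        (fun w : List (KK A) => (l1c (cx g cav x) w * a + l2c (cx g cav x) w * b) ^ 2) ∘ eK := rfl
    rw [h4] at hs
    exact (Equiv.summable_iff eK).1 hs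

/-- measurability of the coefficients -/
theorem measurable_rat {EE : MeasurableSpace Ω} {g : Graphing P A}
    (hp : Measurable[EE, EE] g.pp) (hr : ∀ a, Measurable[EE, EE] (g.rot a))
    {cav : Ω → ℂ} (hc : Measurable[EE] cav) (w : List (KK A)) :
    Measurable[EE] (fun x => rat (cx g cav x) w) := by
  have hinv : ∀ w : List A, Measurable[EE, EE] (g.inv w) := by
    intro w
    induction w with
    | nil => exact measurable_id
    | cons a w ih => exact hp.comp ((hr (-a)).comp ih)
  induction w with
  | nil => exact measurable_const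
  | cons k w ih =>
    show Measurable[EE] (fun x => -cx g cav x (k :: w) * rat (cx g cav x) w)
    exact ((hc.comp (hinv _)).neg).mul ih

theorem measurable_L2 {EE : MeasurableSpace Ω} {g : Graphing P A}
    (hp : Measurable[EE, EE] g.pp) (hr : ∀ a, Measurable[EE, EE] (g.rot a))
    {cav : Ω → ℂ} (hc : Measurable[EE] cav) (w : NW A) : Measurable[EE] (L2 g cav w) := by
  have h1 := measurable_rat hp hr hc (toK w)
  have h2 : Measurable[EE] (fun x => (-1 / cx g cav x [])) := by
    show Measurable[EE] (fun x => (-1 / cav x))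
    exact hc.const_div (-1)
  show Measurable[EE] (fun x => (rat (cx g cav x) (toK w)).im / (-1 / cx g cav x []).im)
  exact (Complex.measurable_im.comp h1).div (Complex.measurable_im.comp h2)

theorem measurable_L1 {EE : MeasurableSpace Ω} {g : Graphing P A}
    (hp : Measurable[EE, EE] g.pp) (hr : ∀ a, Measurable[EE, EE] (g.rot a))
    {cav : Ω → ℂ} (hc : Measurable[EE] cav) (w : NW A) : Measurable[EE] (L1 g cav w) := by
  have h1 := measurable_rat hp hr hc (toK w)
  have h2 : Measurable[EE] (fun x => (-1 / cx g cav x [])) := by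
    show Measurable[EE] (fun x => (-1 / cav x))
    exact hc.const_div (-1)
  have h3 := measurable_L2 hp hr hc w
  show Measurable[EE] (fun x => (rat (cx g cav x) (toK w)).re -
    L2 g cav w x * (-1 / cx g cav x []).re)
  exact (Complex.measurable_re.comp h1).sub (h3.mul (Complex.measurable_re.comp h2))

end graphing

/-! ### (B2) limit process form -/

section lim
open Crest.Agent.R166.B2

variable {Ω : Type*} {pp rr : Ω → Ω} {cav : Ω → ℂ}

/-- cavity numbers along words of naturals, newest letter first -/
def cN (pp rr : Ω → Ω) (cav : Ω → ℂ) (x : Ω) : List ℕ → ℂ := fun w => cav (wd pp rr w.reverse x)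

theorem wd_append (u v : List ℕ) (x : Ω) : wd pp rr (u ++ v) x = wd pp rr v (wd pp rr u x) := by
  induction u generalizing x with
  | nil => rfl
  | cons j u ih => simp only [List.cons_append, wd, ih]

theorem tr_append_singleton (u : List ℕ) (k : ℕ) (x : Ω) :
    tr pp rr cav (u ++ [k]) x = (-cav (mv pp rr k (wd pp rr u x))) * tr pp rr cav u x := by
  induction u generalizing x with
  | nil => simp [tr, wd]
  | cons j u ih =>
    simp only [List.cons_append, tr, wd, ih]
    ring

theorem tr_reverse (w : List ℕ) (x : Ω) :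
    tr pp rr cav w.reverse x = rat (cN pp rr cav x) w := by
  induction w with
  | nil => rfl
  | cons k w ih =>
    rw [List.reverse_cons, tr_append_singleton, ih]
    simp only [rat, cN, List.reverse_cons, wd_append]
    rfl

/-- `rat` only depends on the letters through a map -/
theorem rat_map {K K' : Type*} (φ : K → K') (c : List K' → ℂ) (w : List K) :
    rat (fun w => c (w.map φ)) w = rat c (w.map φ) := by
  induction w with
  | nil => rfl
  | cons k w ih => simp only [rat, List.map_cons, ih]

theorem l1c_map {K K' : Type*} (φ : K → K') (c : List K' → ℂ) (w : List K) :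
    l1c (fun w => c (w.map φ)) w = l1c c (w.map φ) := by
  simp only [l1c, l2c, rat_map, List.map_nil]

theorem l2c_map {K K' : Type*} (φ : K → K') (c : List K' → ℂ) (w : List K) :
    l2c (fun w => c (w.map φ)) w = l2c c (w.map φ) := by
  simp only [l2c, rat_map, List.map_nil]

variable {d : ℕ} {s E : ℝ} {om : Ω → ℝ}

/-- the Green function at a vertex in terms of the two cavity numbers of an edge -/
theorem Gd_eq (hd : 1 ≤ d) {h : Ω} (him : 0 < (cav h).im) (him' : 0 < (cav (pp h)).im)
    (hrec : cav h * ((E : ℂ) - s * om h +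
      ∑ j ∈ Finset.range (d - 1), cav (mv pp rr (j + 1) h)) = -1) :
    1 - cav h * cav (pp h) ≠ 0 ∧
      Gd pp rr d s E om cav h = cav h / (1 - cav h * cav (pp h)) := by
  have h0 : cav h ≠ 0 := by intro h0; rw [h0] at him; simp at him
  have h1 : 0 < (-1 / cav h).im := neg_inv_im_pos him
  have h2 : -1 / cav h + cav (pp h) ≠ 0 := by
    intro h3
    have := congrArg Complex.im h3
    simp only [Complex.add_im, Complex.zero_im] at this
    linarith
  have h3 : (-1 / cav h + cav (pp h)) * cav h = -(1 - cav h * cav (pp h)) := by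
    field_simp; ring
  have h4 : 1 - cav h * cav (pp h) ≠ 0 := by
    intro h5
    rw [h5, neg_zero] at h3
    rcases mul_eq_zero.1 h3 with h | h
    · exact h2 h
    · exact h0 h
  refine ⟨h4, ?_⟩
  have h5 : (E : ℂ) - s * om h + ∑ i ∈ Finset.range d, cav (mv pp rr i h) =
      -1 / cav h + cav (pp h) := by
    obtain ⟨e, rfl⟩ : ∃ e, d = e + 1 := ⟨d - 1, by omega⟩
    rw [Finset.sum_range_succ']
    have h6 : mv pp rr 0 h = pp h := rfl
    rw [h6]
    simp only [Nat.add_sub_cancel] at hrec
    have h7 : -1 / cav h = (E : ℂ) - s * om h +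
        ∑ j ∈ Finset.range e, cav (mv pp rr (j + 1) h) := by
      rw [div_eq_iff h0, ← hrec]; ring
    rw [h7]; ring
  rw [Gd, h5, div_eq_div_iff h2 h4]
  linear_combination -h3

/-- the covariance identity behind the regression `(hL)` -/
theorem Go_im_eq (hd : 1 ≤ d) {h : Ω} (hpp : pp (pp h) = h) (him : 0 < (cav h).im)
    (him' : 0 < (cav (pp h)).im)
    (hrec : cav h * ((E : ℂ) - s * om h +
      ∑ j ∈ Finset.range (d - 1), cav (mv pp rr (j + 1) h)) = -1)
    (hrec' : cav (pp h) * ((E : ℂ) - s * om (pp h) +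
      ∑ j ∈ Finset.range (d - 1), cav (mv pp rr (j + 1) (pp h))) = -1)
    (w : List ℕ) (i0 : Fin d) (hi0 : (i0 : ℕ) = 0) (a : St d) :
    (Go pp rr d s E om cav w.reverse h a).im =
      l1c (cN pp rr cav (pp h)) w * (Gs pp rr d s E om cav h (some i0) a).im +
      l2c (cN pp rr cav (pp h)) w * (Gs pp rr d s E om cav h none a).im := by
  have hc0 : cN pp rr cav (pp h) [] = cav (pp h) := rfl
  have hmv0 : mv pp rr (i0 : ℕ) h = pp h := by rw [hi0]; rfl
  have h0 : cav (pp h) ≠ 0 := by intro h0; rw [h0] at him'; simp at him'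
  obtain ⟨e1, e2⟩ := Gd_eq (s := s) (E := E) (om := om) hd him him' hrec
  obtain ⟨e3, e4⟩ := Gd_eq (s := s) (E := E) (om := om) (h := pp h) hd him'
    (by rw [hpp]; exact him) hrec'
  rw [hpp] at e3 e4
  match a with
  | none =>
    simp only [Go, tr_reverse, Gs, hmv0]
    apply phi_far_im him'
    rw [hc0]
    field_simp
  | some i =>
    by_cases hi : (i : ℕ) = 0
    · have hii : i0 = i := Fin.ext (by rw [hi0, hi])
      have hmvi : mv pp rr (i : ℕ) h = pp h := by rw [hi]; rfl
      simp only [Go, tr_reverse, Gs, hi, if_true, hii]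
      have h5 : Gd pp rr d s E om cav (pp h) =
          Gd pp rr d s E om cav h * cav (pp h) * cav (pp h) + cav (pp h) := by
        rw [e2, e4]
        have e5 : 1 - cav (pp h) * cav h = 1 - cav h * cav (pp h) := by ring
        rw [e5]
        field_simp
        ring
      rw [h5]
      have h6 := phi_root_im him' w (Gd pp rr d s E om cav h * cav (pp h) * cav (pp h) + cav (pp h))
        (Gd pp rr d s E om cav h * -cav (pp h)) (c := cN pp rr cav (pp h)) (by
          rw [hc0]; field_simp; ring)
      have h7 : mv pp rr 0 h = pp h := rfl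
      rw [h7]
      exact h6
    · have hii : i0 ≠ i := fun h => hi (by rw [← h, hi0])
      simp only [Go, tr_reverse, Gs, hi, if_false, hii, hmv0, add_zero]
      have h6 := phi_far_im him' w (Gd pp rr d s E om cav h * cav (pp h) * cav (mv pp rr (i : ℕ) h))
        (Gd pp rr d s E om cav h * -cav (mv pp rr (i : ℕ) h)) (c := cN pp rr cav (pp h)) (by
          rw [hc0]; field_simp)
      rw [← h6]
      congr 1
      ring

end lim

end Crest.Agent.R166.L2_942
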