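import Mathlib

/-!
# Row 166 (helper879): Green functions of locally finite graphs on `ℓ²`

`Op V D M` : symmetric graph on `V` (finite neighbour sets `nb`), degree `≤ D`, potential `v`,
`|v| ≤ M`.  `H.G z x y` : Green function (`Im z > 0`), conventions as for `Res`
(`(H - z) G = 1`).

* `G_eqn`, `norm_G_le`, `G_symm`, `ward`, `im_G_pos`, `sum_im_G_nonneg/pos`, `G_conj`, `eq_of_ap`
  (uniqueness in `ℓ²`), `summable_G`
* `cut S` (all edges outside `S` removed), `IsBridge S u v`, `IsBridge.G_off/G_in/G_step/G_vu/G_uu`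
  (multiplicativity and the edge block in terms of the cavity numbers), `G_rec`, `cut_rec`
  (recursion of the cavity numbers)
* `pw`, `pk` (powers, polynomials), `norm_G_sub_pk_le` (uniform polynomial approximation),
  `norm_G_sub_G_le` (locality, comparison along local isomorphisms), `G_equiv` (equivariance)
* `norm_G_sub_le` (Lipschitz in `z`), `continuous_G`, `continuous_G_joint`
* `inv_mat` (finite graphs: `G` is the inverse matrix)
-/

set_option autoImplicit false
set_option linter.unusedSectionVars false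
set_option linter.unnecessarySeqFocus false
noncomputable section
open scoped ENNReal InnerProductSpace
open Finset

namespace Crest.Agent.R166.L2G879

/-- locally finite symmetric graph of degree at most `D` with a real potential bounded by `M` -/
structure Op (V : Type*) (D : ℕ) (M : ℝ) where
  nb : V → Finset V
  v : V → ℝ
  symm : ∀ x y, y ∈ nb x → x ∈ nb y
  deg : ∀ x, (nb x).card ≤ D
  bdd : ∀ x, |v x| ≤ M

variable {V : Type*} {D : ℕ} {M : ℝ} (H : Op V D M)

namespace Op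

lemma mem_comm {x y : V} : y ∈ H.nb x ↔ x ∈ H.nb y := ⟨H.symm x y, H.symm y x⟩

lemma M_nonneg (H : Op V D M) (x : V) : 0 ≤ M := (abs_nonneg _).trans (H.bdd x)

/-- the action of the operator on arbitrary functions -/
def ap (f : V → ℂ) (x : V) : ℂ := ∑ y ∈ H.nb x, f y + (H.v x : ℂ) * f x

lemma sum_nb_le (g : V → ℝ) (hg : ∀ x, 0 ≤ g x) (hs : Summable g) (s : Finset V) :
    ∑ x ∈ s, ∑ y ∈ H.nb x, g y ≤ D * ∑' x, g x := by
  classical
  have h1 : ∑ x ∈ s, ∑ y ∈ H.nb x, g y =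
      ∑ y ∈ s.biUnion H.nb, ∑ x ∈ s.filter (fun x => y ∈ H.nb x), g y := by
    refine Finset.sum_comm' fun x y => ?_
    simp only [Finset.mem_filter, Finset.mem_biUnion]
    constructor
    · rintro ⟨hx, hy⟩; exact ⟨⟨hx, hy⟩, ⟨x, hx, hy⟩⟩
    · rintro ⟨⟨hx, hy⟩, _⟩; exact ⟨hx, hy⟩
  rw [h1]
  have h2 : ∑ y ∈ s.biUnion H.nb, ∑ x ∈ s.filter (fun x => y ∈ H.nb x), g y ≤
      ∑ y ∈ s.biUnion H.nb, D * g y := by
    refine Finset.sum_le_sum fun y _ => ?_
    rw [Finset.sum_const, nsmul_eq_mul]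
    refine mul_le_mul_of_nonneg_right ?_ (hg y)
    have : s.filter (fun x => y ∈ H.nb x) ⊆ H.nb y := by
      intro x hx
      rw [Finset.mem_filter] at hx
      exact H.symm _ _ hx.2
    exact_mod_cast (Finset.card_le_card this).trans (H.deg y)
  refine h2.trans ?_
  rw [← Finset.mul_sum]
  exact mul_le_mul_of_nonneg_left (hs.sum_le_tsum _ fun x _ => hg x) (Nat.cast_nonneg _)

/-- the norm bound used below -/
def Lam (D : ℕ) (M : ℝ) : ℝ := (D + 1) * (D + M ^ 2) + 1

lemma Lam_pos (D : ℕ) (M : ℝ) : 0 < Lam D M := by unfold Lam; positivity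

lemma norm_ap_sq_le (f : V → ℂ) (x : V) :
    ‖H.ap f x‖ ^ 2 ≤ (D + 1) * (∑ y ∈ H.nb x, ‖f y‖ ^ 2 + M ^ 2 * ‖f x‖ ^ 2) := by
  have hM := H.M_nonneg x
  have h1 : ‖∑ y ∈ H.nb x, f y‖ ^ 2 ≤ D * ∑ y ∈ H.nb x, ‖f y‖ ^ 2 := by
    have e1 : ‖∑ y ∈ H.nb x, f y‖ ≤ ∑ y ∈ H.nb x, ‖f y‖ := norm_sum_le _ _
    have e2 : (∑ y ∈ H.nb x, ‖f y‖) ^ 2 ≤ (H.nb x).card * ∑ y ∈ H.nb x, ‖f y‖ ^ 2 :=
      sq_sum_le_card_mul_sum_sq
    have e3 : ((H.nb x).card : ℝ) ≤ D := by exact_mod_cast H.deg x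
    calc ‖∑ y ∈ H.nb x, f y‖ ^ 2 ≤ (∑ y ∈ H.nb x, ‖f y‖) ^ 2 := by gcongr
      _ ≤ (H.nb x).card * ∑ y ∈ H.nb x, ‖f y‖ ^ 2 := e2
      _ ≤ _ := by gcongr
  have h2 : ‖(H.v x : ℂ) * f x‖ ^ 2 ≤ M ^ 2 * ‖f x‖ ^ 2 := by
    rw [norm_mul, mul_pow, Complex.norm_real, Real.norm_eq_abs]
    gcongr
    exact H.bdd x
  have h3 : ‖H.ap f x‖ ≤ ‖∑ y ∈ H.nb x, f y‖ + ‖(H.v x : ℂ) * f x‖ := norm_add_le _ _
  set a := ‖∑ y ∈ H.nb x, f y‖
  set b := ‖(H.v x : ℂ) * f x‖
  set P := ∑ y ∈ H.nb x, ‖f y‖ ^ 2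
  have hP : 0 ≤ P := Finset.sum_nonneg fun _ _ => by positivity
  have ha : 0 ≤ a := norm_nonneg _
  have hb : 0 ≤ b := norm_nonneg _
  have h4 : ‖H.ap f x‖ ^ 2 ≤ (a + b) ^ 2 := by gcongr
  refine h4.trans ?_
  -- (a+b)^2 ≤ (D+1)(P + b^2)
  have hkey : (a + b) ^ 2 ≤ (D + 1) * (P + b ^ 2) := by
    rcases Nat.eq_zero_or_pos D with h0 | h0
    · rw [h0] at h1
      have ha0 : a = 0 := by
        have : a ^ 2 ≤ 0 := by simpa using h1
        exact pow_eq_zero_iff (two_ne_zero) |>.1 (le_antisymm this (sq_nonneg _))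
      rw [ha0, h0]; simp; exact hP
    · have hD : (0 : ℝ) < D := by exact_mod_cast h0
      have e : (a + b) ^ 2 ≤ (D + 1) * (a ^ 2 / D + b ^ 2) := by
        have : (D + 1) * (a ^ 2 / D + b ^ 2) - (a + b) ^ 2 = (a - D * b) ^ 2 / D := by
          field_simp; ring
        have h := div_nonneg (sq_nonneg (a - D * b)) hD.le
        linarith
      refine e.trans ?_
      gcongr
      rw [div_le_iff₀ hD]; linarith
  refine hkey.trans ?_
  gcongr

lemma summable_sq (f : lp (fun _ : V => ℂ) 2) : Summable fun x => ‖f x‖ ^ 2 := by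
  have h := (lp.memℓp f).summable (by norm_num)
  simpa using h

lemma norm_sq_eq (f : lp (fun _ : V => ℂ) 2) : ‖f‖ ^ 2 = ∑' x, ‖f x‖ ^ 2 := by
  have h := lp.norm_rpow_eq_tsum (by norm_num) f
  simpa using h

lemma sum_ap_le (f : lp (fun _ : V => ℂ) 2) (s : Finset V) :
    ∑ x ∈ s, ‖H.ap f x‖ ^ 2 ≤ (D + 1) * (D + M ^ 2) * ‖f‖ ^ 2 := by
  have h0 := summable_sq f
  have h1 := H.sum_nb_le (fun x => ‖f x‖ ^ 2) (fun x => by positivity) h0 s
  have h2 : ∑ x ∈ s, ‖f x‖ ^ 2 ≤ ∑' x, ‖f x‖ ^ 2 := h0.sum_le_tsum _ fun x _ => by positivity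
  calc ∑ x ∈ s, ‖H.ap f x‖ ^ 2
      ≤ ∑ x ∈ s, (D + 1) * (∑ y ∈ H.nb x, ‖f y‖ ^ 2 + M ^ 2 * ‖f x‖ ^ 2) :=
        Finset.sum_le_sum fun x _ => H.norm_ap_sq_le f x
    _ = (D + 1) * (∑ x ∈ s, ∑ y ∈ H.nb x, ‖f y‖ ^ 2 + M ^ 2 * ∑ x ∈ s, ‖f x‖ ^ 2) := by
        rw [← Finset.mul_sum, Finset.sum_add_distrib, Finset.mul_sum (f := fun x => ‖f x‖ ^ 2)]
    _ ≤ (D + 1) * (D * ∑' x, ‖f x‖ ^ 2 + M ^ 2 * ∑' x, ‖f x‖ ^ 2) := by gcongr
    _ = _ := by rw [norm_sq_eq]; ring

lemma summable_ap (f : lp (fun _ : V => ℂ) 2) : Summable fun x => ‖H.ap f x‖ ^ 2 :=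
  summable_of_sum_le (fun x => by positivity) (H.sum_ap_le f)

lemma tsum_ap_le (f : lp (fun _ : V => ℂ) 2) :
    ∑' x, ‖H.ap f x‖ ^ 2 ≤ (D + 1) * (D + M ^ 2) * ‖f‖ ^ 2 :=
  Real.tsum_le_of_sum_le (fun x => by positivity) (H.sum_ap_le f)

/-- the operator on `ℓ²(V)` as a linear map -/
def Tlin : lp (fun _ : V => ℂ) 2 →ₗ[ℂ] lp (fun _ : V => ℂ) 2 where
  toFun f := ⟨H.ap f, by
    refine (memℓp_gen_iff (by norm_num)).2 ?_
    simpa using H.summable_ap f⟩
  map_add' f g := by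
    ext x
    simp only [ap, lp.coeFn_add, Pi.add_apply, Finset.sum_add_distrib]
    ring
  map_smul' c f := by
    ext x
    simp only [ap, lp.coeFn_smul, Pi.smul_apply, smul_eq_mul, RingHom.id_apply, ← Finset.mul_sum]
    ring

lemma Tlin_apply (f : lp (fun _ : V => ℂ) 2) (x : V) : H.Tlin f x = H.ap f x := rfl

lemma norm_Tlin_le (f : lp (fun _ : V => ℂ) 2) : ‖H.Tlin f‖ ≤ Lam D M * ‖f‖ := by
  have h1 : ‖H.Tlin f‖ ^ 2 ≤ (D + 1) * (D + M ^ 2) * ‖f‖ ^ 2 := by
    rw [norm_sq_eq]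
    exact H.tsum_ap_le f
  have hL : (D + 1) * (D + M ^ 2) ≤ (Lam D M) ^ 2 := by
    have : (0 : ℝ) ≤ (D + 1) * (D + M ^ 2) := by positivity
    unfold Lam; nlinarith
  have h2 : ‖H.Tlin f‖ ^ 2 ≤ (Lam D M * ‖f‖) ^ 2 := by
    rw [mul_pow]
    exact h1.trans (by gcongr)
  exact (pow_le_pow_iff_left₀ (norm_nonneg _) (by have := Lam_pos D M; positivity) two_ne_zero).1 h2

/-- the bounded operator on `ℓ²(V)` -/
def T : lp (fun _ : V => ℂ) 2 →L[ℂ] lp (fun _ : V => ℂ) 2 :=
  H.Tlin.mkContinuous (Lam D M) H.norm_Tlin_le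

lemma T_apply (f : lp (fun _ : V => ℂ) 2) (x : V) : H.T f x = H.ap f x := rfl

lemma norm_T_le : ‖H.T‖ ≤ Lam D M := LinearMap.mkContinuous_norm_le _ (Lam_pos D M).le _

lemma T_single [DecidableEq V] (x y : V) :
    H.T (lp.single 2 x (1 : ℂ)) y = (if x ∈ H.nb y then 1 else 0) +
      if y = x then (H.v x : ℂ) else 0 := by
  rw [T_apply, ap]
  congr 1
  · simp only [lp.single_apply, Pi.single_apply]
    rw [Finset.sum_ite_eq']
  · rw [lp.single_apply, Pi.single_apply]
    split_ifs with h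
    · rw [h, mul_one]
    · rw [mul_zero]

theorem T_selfAdjoint : IsSelfAdjoint H.T := by
  classical
  rw [ContinuousLinearMap.isSelfAdjoint_iff']
  refine lp.ext_continuousLinearMap (ENNReal.ofNat_ne_top (n := nat_lit 2)) fun y => ?_
  ext x
  simp only [ContinuousLinearMap.comp_apply, lp.singleContinuousLinearMap_apply]
  have h1 : (ContinuousLinearMap.adjoint H.T (lp.single 2 y 1)) x =
      inner ℂ (lp.single 2 x (1 : ℂ)) (ContinuousLinearMap.adjoint H.T (lp.single 2 y 1)) := by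
    rw [lp.inner_single_left]; simp
  rw [h1, ContinuousLinearMap.adjoint_inner_right, lp.inner_single_right, T_single, T_single]
  simp only [RCLike.inner_apply, map_add, one_mul]
  have h2 := H.mem_comm (x := x) (y := y)
  by_cases h3 : x = y
  · subst h3; by_cases h4 : x ∈ H.nb x <;> simp [h4]
  · have h3' : ¬ y = x := fun e => h3 e.symm
    by_cases h4 : y ∈ H.nb x
    · simp [h4, h2.1 h4, h3, h3']
    · have h5 : x ∉ H.nb y := fun e => h4 (h2.2 e)
      simp [h4, h5, h3, h3']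

/-! ### The resolvent -/

lemma isUnit_sub {z : ℂ} (hz : z.im ≠ 0) : IsUnit (H.T - algebraMap ℂ _ z) := by
  have h1 : z ∉ spectrum ℂ H.T := by
    intro h
    have h2 := H.T_selfAdjoint.mem_spectrum_eq_re h
    apply hz
    rw [h2]; simp
  have h3 := (spectrum.notMem_iff.1 h1).neg
  simpa using h3

/-- the resolvent operator `(H - z)⁻¹` -/
def R (z : ℂ) : lp (fun _ : V => ℂ) 2 →L[ℂ] lp (fun _ : V => ℂ) 2 :=
  Ring.inverse (H.T - algebraMap ℂ _ z)

lemma sub_mul_R {z : ℂ} (hz : z.im ≠ 0) : (H.T - algebraMap ℂ _ z) * H.R z = 1 :=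
  Ring.mul_inverse_cancel _ (H.isUnit_sub hz)

lemma R_mul_sub {z : ℂ} (hz : z.im ≠ 0) : H.R z * (H.T - algebraMap ℂ _ z) = 1 :=
  Ring.inverse_mul_cancel _ (H.isUnit_sub hz)

lemma T_R {z : ℂ} (hz : z.im ≠ 0) (f : lp (fun _ : V => ℂ) 2) :
    H.T (H.R z f) - z • H.R z f = f := by
  have h := congrArg (fun A => A f) (H.sub_mul_R hz)
  simpa [Algebra.algebraMap_eq_smul_one] using h

lemma R_T {z : ℂ} (hz : z.im ≠ 0) (f : lp (fun _ : V => ℂ) 2) :
    H.R z (H.T f - z • f) = f := by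
  have h := congrArg (fun A => A f) (H.R_mul_sub hz)
  simpa [Algebra.algebraMap_eq_smul_one] using h

/-- the imaginary part of the quadratic form -/
lemma im_inner_T (f : lp (fun _ : V => ℂ) 2) : (inner ℂ f (H.T f)).im = 0 := by
  have h := H.T_selfAdjoint
  rw [ContinuousLinearMap.isSelfAdjoint_iff_isSymmetric] at h
  have h2 := h f f
  have h3 : (starRingEnd ℂ) (inner ℂ f (H.T f)) = inner ℂ f (H.T f) := by
    rw [inner_conj_symm]; exact h2
  exact Complex.conj_eq_iff_im.1 h3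

lemma im_inner_R {z : ℂ} (hz : z.im ≠ 0) (f : lp (fun _ : V => ℂ) 2) :
    (inner ℂ f (H.R z f)).im = z.im * ‖H.R z f‖ ^ 2 := by
  set g := H.R z f with hg
  have h1 : f = H.T g - z • g := (H.T_R hz f).symm
  have h2 : inner ℂ f g = (starRingEnd ℂ) (inner ℂ g (H.T g)) - (starRingEnd ℂ) z * (‖g‖ : ℂ) ^ 2 := by
    rw [inner_conj_symm]
    conv_lhs => rw [h1]
    rw [inner_sub_left, inner_smul_left, inner_self_eq_norm_sq_to_K]
    simp
  rw [h2]
  have h3 := H.im_inner_T g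
  have h4 : ((starRingEnd ℂ) z * (‖g‖ : ℂ) ^ 2).im = - (z.im * ‖g‖ ^ 2) := by
    rw [← Complex.ofReal_pow, Complex.mul_im, Complex.ofReal_im, Complex.ofReal_re]
    simp
  rw [Complex.sub_im, h4, Complex.conj_im, h3]
  ring

lemma norm_R_apply_le {z : ℂ} (hz : 0 < z.im) (f : lp (fun _ : V => ℂ) 2) :
    ‖H.R z f‖ ≤ ‖f‖ / z.im := by
  have h1 := H.im_inner_R hz.ne' f
  have h2 : (inner ℂ f (H.R z f)).im ≤ ‖f‖ * ‖H.R z f‖ :=
    (Complex.im_le_norm _).trans (norm_inner_le_norm _ _)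
  rw [le_div_iff₀ hz]
  rcases (norm_nonneg (H.R z f)).eq_or_lt with h | h
  · rw [← h]; simp
  · have : z.im * ‖H.R z f‖ * ‖H.R z f‖ ≤ ‖f‖ * ‖H.R z f‖ := by nlinarith
    have := le_of_mul_le_mul_right this h
    linarith

lemma norm_R_le {z : ℂ} (hz : 0 < z.im) : ‖H.R z‖ ≤ 1 / z.im :=
  ContinuousLinearMap.opNorm_le_bound _ (by positivity) fun f => by
    rw [one_div_mul_eq_div]; exact H.norm_R_apply_le hz f

/-- Green's function -/
def G (z : ℂ) (x y : V) : ℂ := by
  classical exact H.R z (lp.single 2 y (1 : ℂ)) x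

lemma G_eq [inst : DecidableEq V] (z : ℂ) (x y : V) :
    H.G z x y = H.R z (lp.single 2 y (1 : ℂ)) x := by
  have h : inst = (fun a b => Classical.propDecidable (a = b)) := Subsingleton.elim _ _
  subst h
  rfl

lemma G_eq_inner [DecidableEq V] (z : ℂ) (x y : V) :
    H.G z x y = inner ℂ (lp.single 2 x (1 : ℂ)) (H.R z (lp.single 2 y (1 : ℂ))) := by
  rw [lp.inner_single_left, G_eq]; simp

lemma norm_apply_le (f : lp (fun _ : V => ℂ) 2) (x : V) : ‖f x‖ ≤ ‖f‖ :=
  lp.norm_apply_le_norm (by norm_num) f x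

lemma norm_single_one [DecidableEq V] (y : V) :
    ‖(lp.single 2 y (1 : ℂ) : lp (fun _ : V => ℂ) 2)‖ = 1 := by
  rw [lp.norm_single (by norm_num)]; simp

/-- (G3) -/
theorem norm_G_le {z : ℂ} (hz : 0 < z.im) (x y : V) : ‖H.G z x y‖ ≤ 1 / z.im := by
  classical
  rw [G_eq]
  refine (norm_apply_le _ _).trans ((H.norm_R_apply_le hz _).trans (le_of_eq ?_))
  rw [norm_single_one]

/-- (G1) -/
theorem G_eqn [DecidableEq V] {z : ℂ} (hz : z.im ≠ 0) (x y : V) :
    ∑ x' ∈ H.nb x, H.G z x' y + ((H.v x : ℂ) - z) * H.G z x y = if x = y then 1 else 0 := by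
  have h := congrArg (fun f : lp (fun _ : V => ℂ) 2 => f x) (H.T_R hz (lp.single 2 y (1 : ℂ)))
  simp only [lp.coeFn_sub, Pi.sub_apply, lp.coeFn_smul, Pi.smul_apply, T_apply, ap,
    smul_eq_mul, lp.single_apply, Pi.single_apply] at h
  rw [← h]
  simp only [G_eq]
  ring

/-- square summability of the columns of the Green function -/
theorem summable_G (z : ℂ) (y : V) : Summable fun x => ‖H.G z x y‖ ^ 2 := by
  classical
  simp only [G_eq]
  exact summable_sq _

/-- (G4) uniqueness in `ℓ²` -/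
theorem eq_of_ap {z : ℂ} (hz : z.im ≠ 0) (f g : lp (fun _ : V => ℂ) 2)
    (h : ∀ x, H.ap f x - z * f x = g x) : f = H.R z g := by
  have h1 : H.T f - z • f = g := by
    ext x
    rw [← h x]
    rfl
  rw [← h1, H.R_T hz]

/-- Ward identity -/
theorem ward {z : ℂ} (hz : z.im ≠ 0) (y : V) :
    z.im * ∑' x, ‖H.G z x y‖ ^ 2 = (H.G z y y).im := by
  classical
  rw [G_eq_inner, H.im_inner_R hz, norm_sq_eq]
  simp only [G_eq]

theorem im_G_pos {z : ℂ} (hz : 0 < z.im) (y : V) : 0 < (H.G z y y).im := by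
  classical
  rw [G_eq_inner, H.im_inner_R hz.ne']
  have h : H.R z (lp.single 2 y (1 : ℂ)) ≠ 0 := by
    intro h0
    have h1 := H.T_R hz.ne' (lp.single 2 y (1 : ℂ))
    rw [h0, map_zero, smul_zero, sub_zero] at h1
    have h2 := norm_single_one y
    rw [← h1, norm_zero] at h2
    exact zero_ne_one h2
  have := norm_pos_iff.2 h
  positivity

/-! ### Symmetry and positivity -/

lemma inner_R {z : ℂ} (hz : z.im ≠ 0) (f g : lp (fun _ : V => ℂ) 2) :
    inner ℂ f (H.R z g) = inner ℂ (H.R ((starRingEnd ℂ) z) f) g := by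
  have hz' : ((starRingEnd ℂ) z).im ≠ 0 := by simpa using hz
  have h := H.T_selfAdjoint
  rw [ContinuousLinearMap.isSelfAdjoint_iff_isSymmetric] at h
  set a := H.R ((starRingEnd ℂ) z) f with ha
  set b := H.R z g with hb
  have h1 : f = H.T a - (starRingEnd ℂ) z • a := (H.T_R hz' f).symm
  have h2 : g = H.T b - z • b := (H.T_R hz g).symm
  rw [h1, h2, inner_sub_left, inner_sub_right, inner_smul_left, inner_smul_right]
  rw [show inner ℂ (H.T a) b = inner ℂ a (H.T b) from h a b]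
  simp

/-- complex conjugation of the Green function -/
lemma G_conj {z : ℂ} (hz : z.im ≠ 0) (x y : V) :
    (starRingEnd ℂ) (H.G z x y) = H.G ((starRingEnd ℂ) z) x y := by
  classical
  have hz' : ((starRingEnd ℂ) z).im ≠ 0 := by simpa using hz
  have hmem : Memℓp (fun x => (starRingEnd ℂ) (H.G z x y)) 2 := by
    refine (memℓp_gen_iff (by norm_num)).2 ?_
    simpa using H.summable_G z y
  have h := H.eq_of_ap hz' (⟨_, hmem⟩ : lp (fun _ : V => ℂ) 2) (lp.single 2 y (1 : ℂ)) (by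
    intro x
    have h1 := congrArg (starRingEnd ℂ) (H.G_eqn hz x y)
    simp only [map_add, map_sum, map_mul, map_sub, Complex.conj_ofReal] at h1
    simp only [ap, lp.single_apply, Pi.single_apply]
    have e : (starRingEnd ℂ) (if x = y then (1 : ℂ) else 0) = if x = y then 1 else 0 := by
      split_ifs <;> simp
    rw [e] at h1
    rw [← h1]
    ring)
  have h2 := congrArg (fun f : lp (fun _ : V => ℂ) 2 => f x) h
  simp only at h2
  rw [H.G_eq ((starRingEnd ℂ) z), ← h2]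

/-- (G2) -/
theorem G_symm {z : ℂ} (hz : z.im ≠ 0) (x y : V) : H.G z x y = H.G z y x := by
  classical
  have hz' : ((starRingEnd ℂ) z).im ≠ 0 := by simpa using hz
  rw [G_eq_inner, H.inner_R hz, ← inner_conj_symm, ← G_eq_inner, ← H.G_conj hz,
    Complex.conj_conj]

/-- (G3) the imaginary part is a positive kernel -/
theorem sum_im_G {z : ℂ} (hz : z.im ≠ 0) [DecidableEq V] (s : Finset V) (a : V → ℝ) :
    ∑ x ∈ s, ∑ y ∈ s, a x * a y * (H.G z x y).im =
      z.im * ‖H.R z (∑ x ∈ s, lp.single 2 x (a x : ℂ))‖ ^ 2 := by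
  rw [← H.im_inner_R hz, map_sum, sum_inner, Complex.im_sum]
  refine Finset.sum_congr rfl fun x _ => ?_
  rw [inner_sum, Complex.im_sum]
  refine Finset.sum_congr rfl fun y _ => ?_
  have h1 : (lp.single 2 x (a x : ℂ) : lp (fun _ : V => ℂ) 2) =
      (a x : ℂ) • lp.single 2 x (1 : ℂ) := by
    rw [← lp.single_smul]; simp
  have h2 : (lp.single 2 y (a y : ℂ) : lp (fun _ : V => ℂ) 2) =
      (a y : ℂ) • lp.single 2 y (1 : ℂ) := by
    rw [← lp.single_smul]; simp
  rw [h1, h2, map_smul, inner_smul_left, inner_smul_right, ← G_eq_inner, Complex.conj_ofReal,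
    ← mul_assoc, ← Complex.ofReal_mul, Complex.im_ofReal_mul]

theorem sum_im_G_nonneg {z : ℂ} (hz : 0 < z.im) (s : Finset V) (a : V → ℝ) :
    0 ≤ ∑ x ∈ s, ∑ y ∈ s, a x * a y * (H.G z x y).im := by
  classical
  rw [H.sum_im_G hz.ne']; positivity

theorem sum_im_G_pos {z : ℂ} (hz : 0 < z.im) (s : Finset V) (a : V → ℝ) {x : V} (hx : x ∈ s)
    (ha : a x ≠ 0) : 0 < ∑ x ∈ s, ∑ y ∈ s, a x * a y * (H.G z x y).im := by
  classical
  rw [H.sum_im_G hz.ne']
  have h : H.R z (∑ x ∈ s, lp.single 2 x (a x : ℂ)) ≠ 0 := by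
    intro h0
    have h1 := H.T_R hz.ne' (∑ x ∈ s, lp.single 2 x (a x : ℂ))
    rw [h0, map_zero, smul_zero, sub_zero] at h1
    have h2 := congrArg (fun f : lp (fun _ : V => ℂ) 2 => f x) h1
    simp only [lp.coeFn_sum, Finset.sum_apply, lp.single_apply, Pi.single_apply, lp.coeFn_zero,
      Pi.zero_apply] at h2
    rw [Finset.sum_ite_eq, if_pos hx] at h2
    exact ha (by exact_mod_cast h2.symm)
  have := norm_pos_iff.2 h
  positivity

/-! ### Restriction to a set of vertices, bridges -/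

/-- the operator with all edges outside `S` removed -/
def cut (S : Set V) : Op V D M where
  nb x := by classical exact if x ∈ S then (H.nb x).filter (· ∈ S) else ∅
  v := H.v
  symm x y h := by
    classical
    by_cases hx : x ∈ S
    · rw [if_pos hx, Finset.mem_filter] at h
      rw [if_pos h.2, Finset.mem_filter]
      exact ⟨H.symm _ _ h.1, hx⟩
    · rw [if_neg hx] at h; simp at h
  deg x := by
    classical
    split_ifs
    · exact (Finset.card_filter_le _ _).trans (H.deg x)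
    · simp
  bdd := H.bdd

lemma mem_cut_nb {S : Set V} {x y : V} : y ∈ (H.cut S).nb x ↔ y ∈ H.nb x ∧ x ∈ S ∧ y ∈ S := by
  classical
  unfold cut
  simp only
  split_ifs with h
  · simp [h, Finset.mem_filter]
  · simp [h]

lemma cut_v (S : Set V) : (H.cut S).v = H.v := rfl

lemma ext' {H H' : Op V D M} (h1 : ∀ x y, y ∈ H.nb x ↔ y ∈ H'.nb x) (h2 : ∀ x, H.v x = H'.v x) :
    H = H' := by
  cases H; cases H'
  simp only [Op.mk.injEq]
  exact ⟨funext fun x => Finset.ext (h1 x), funext h2⟩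

lemma cut_cut {S S' : Set V} (h : S' ⊆ S) : (H.cut S).cut S' = H.cut S' := by
  refine ext' (fun x y => ?_) fun x => rfl
  simp only [mem_cut_nb]
  constructor
  · rintro ⟨⟨h1, _, _⟩, h2, h3⟩; exact ⟨h1, h2, h3⟩
  · rintro ⟨h1, h2, h3⟩; exact ⟨⟨h1, h h2, h h3⟩, h2, h3⟩

/-- `u ∈ S`, `v ∉ S` and `u - v` is the only edge between `S` and its complement -/
structure IsBridge (S : Set V) (u v : V) : Prop where
  mem : u ∈ S
  notMem : v ∉ S
  iff : ∀ x ∈ S, ∀ y ∉ S, (y ∈ H.nb x ↔ x = u ∧ y = v)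

variable {H}

lemma IsBridge.adj {S : Set V} {u v : V} (h : H.IsBridge S u v) : v ∈ H.nb u :=
  (h.iff u h.mem v h.notMem).2 ⟨rfl, rfl⟩

lemma IsBridge.compl {S : Set V} {u v : V} (h : H.IsBridge S u v) : H.IsBridge Sᶜ v u where
  mem := h.notMem
  notMem := by simpa using h.mem
  iff x hx y hy := by
    have hy' : y ∈ S := by simpa using hy
    rw [H.mem_comm, h.iff y hy' x hx]
    exact and_comm

lemma IsBridge.cut {S S' : Set V} {u v : V} (h : H.IsBridge S u v) (hv : v ∈ S')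
    (hS : S ⊆ S') : (H.cut S').IsBridge S u v where
  mem := h.mem
  notMem := h.notMem
  iff x hx y hy := by
    rw [mem_cut_nb, h.iff x hx y hy]
    constructor
    · rintro ⟨h1, _⟩; exact h1
    · rintro ⟨rfl, rfl⟩; exact ⟨⟨rfl, rfl⟩, hS hx, hv⟩

/-- the fundamental formula for a bridge -/
theorem IsBridge.G_eq {S : Set V} {u v : V} (h : H.IsBridge S u v) {z : ℂ} (hz : z.im ≠ 0)
    {x : V} (hx : x ∈ S) (y : V) [Decidable (y ∈ S)] :
    H.G z x y = (if y ∈ S then (H.cut S).G z x y else 0) - H.G z v y * (H.cut S).G z x u := by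
  classical
  have hmem : Memℓp (fun x => if x ∈ S then H.G z x y else 0) 2 := by
    refine (memℓp_gen_iff (by norm_num)).2 ?_
    refine Summable.of_nonneg_of_le (fun x => by positivity) (fun x => ?_) (H.summable_G z y)
    split_ifs <;> simp
  have h1 := (H.cut S).eq_of_ap hz (⟨_, hmem⟩ : lp (fun _ : V => ℂ) 2)
    ((if y ∈ S then (1 : ℂ) else 0) • lp.single 2 y (1 : ℂ) -
      H.G z v y • lp.single 2 u (1 : ℂ)) (by
    intro x
    simp only [ap, lp.coeFn_sub, Pi.sub_apply, lp.coeFn_smul, Pi.smul_apply, lp.single_apply,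
      Pi.single_apply, smul_eq_mul, cut_v]
    by_cases hx : x ∈ S
    · rw [if_pos hx]
      have e1 : ∑ x' ∈ (H.cut S).nb x, (if x' ∈ S then H.G z x' y else 0) =
          ∑ x' ∈ H.nb x, (if x' ∈ S then H.G z x' y else 0) := by
        refine Finset.sum_subset (fun a ha => (H.mem_cut_nb.1 ha).1) fun a ha hna => ?_
        rw [if_neg]
        intro haS
        exact hna (H.mem_cut_nb.2 ⟨ha, hx, haS⟩)
      have e2 : ∑ x' ∈ H.nb x, H.G z x' y = ∑ x' ∈ H.nb x, (if x' ∈ S then H.G z x' y else 0) +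
          ∑ x' ∈ H.nb x, (if x' ∈ S then 0 else H.G z x' y) := by
        rw [← Finset.sum_add_distrib]
        exact Finset.sum_congr rfl fun a _ => by split_ifs <;> simp
      have e3 : ∑ x' ∈ H.nb x, (if x' ∈ S then 0 else H.G z x' y) =
          if x = u then H.G z v y else 0 := by
        split_ifs with hxu
        · subst hxu
          rw [Finset.sum_eq_single v]
          · rw [if_neg h.notMem]
          · intro b hb hbv
            split_ifs with hbS
            · rfl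
            · exact absurd ((h.iff x hx b hbS).1 hb).2 hbv
          · intro hv; exact absurd h.adj hv
        · refine Finset.sum_eq_zero fun b hb => ?_
          split_ifs with hbS
          · rfl
          · exact absurd ((h.iff x hx b hbS).1 hb).1 hxu
      have e4 := H.G_eqn hz x y
      rw [e2, e3] at e4
      rw [e1]
      have e5 : (if y ∈ S then (1 : ℂ) else 0) * (if x = y then 1 else 0) =
          if x = y then 1 else 0 := by
        by_cases hxy : x = y
        · subst hxy; simp [hx]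
        · simp [hxy]
      rw [e5, ← e4]
      split_ifs <;> ring
    · rw [if_neg hx]
      have e1 : (H.cut S).nb x = ∅ := by
        refine Finset.eq_empty_of_forall_notMem fun a ha => hx (H.mem_cut_nb.1 ha).2.1
      rw [e1]
      have hxu : x ≠ u := fun e => hx (e ▸ h.mem)
      have e5 : (if y ∈ S then (1 : ℂ) else 0) * (if x = y then 1 else 0) = 0 := by
        by_cases hxy : x = y
        · subst hxy; simp [hx]
        · simp [hxy]
      rw [e5]
      simp [hxu])
  have h2 := congrArg (fun f : lp (fun _ : V => ℂ) 2 => f x) h1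
  simp only [map_sub, map_smul, lp.coeFn_sub, Pi.sub_apply, lp.coeFn_smul, Pi.smul_apply,
    smul_eq_mul] at h2
  rw [if_pos hx] at h2
  rw [h2, Op.G_eq (H.cut S), Op.G_eq (H.cut S)]
  split_ifs <;> ring

/-- (G7) off the branch -/
theorem IsBridge.G_off {S : Set V} {u v : V} (h : H.IsBridge S u v) {z : ℂ} (hz : z.im ≠ 0)
    {x y : V} (hx : x ∈ S) (hy : y ∉ S) :
    H.G z x y = - H.G z v y * (H.cut S).G z x u := by
  classical
  rw [h.G_eq hz hx y, if_neg hy]; ring

/-- (G7) inside the branch -/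
theorem IsBridge.G_in {S : Set V} {u v : V} (h : H.IsBridge S u v) {z : ℂ} (hz : z.im ≠ 0)
    {x y : V} (hx : x ∈ S) (hy : y ∈ S) :
    H.G z x y = (H.cut S).G z x y - H.G z v y * (H.cut S).G z x u := by
  classical
  rw [h.G_eq hz hx y, if_pos hy]

/-- cavity number: Green function at `u` of the branch `S` (containing `u`) -/
theorem IsBridge.G_step {S : Set V} {u v : V} (h : H.IsBridge S u v) {z : ℂ} (hz : z.im ≠ 0)
    {y : V} (hy : y ∉ S) : H.G z u y = - H.G z v y * (H.cut S).G z u u :=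
  h.G_off hz h.mem hy

variable (H)

lemma G_ne_zero {z : ℂ} (hz : 0 < z.im) (x : V) : H.G z x x ≠ 0 := fun e => by
  have := H.im_G_pos hz x
  rw [e] at this
  simp at this

variable {H}

theorem IsBridge.G_vu {S : Set V} {u v : V} (h : H.IsBridge S u v) {z : ℂ} (hz : z.im ≠ 0) :
    H.G z v u = - H.G z u u * (H.cut Sᶜ).G z v v :=
  h.compl.G_off hz h.notMem (by simpa using h.mem)

theorem IsBridge.G_uu {S : Set V} {u v : V} (h : H.IsBridge S u v) {z : ℂ} (hz : z.im ≠ 0) :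
    H.G z u u * (1 - (H.cut S).G z u u * (H.cut Sᶜ).G z v v) = (H.cut S).G z u u := by
  have h1 := h.G_in hz h.mem h.mem
  rw [h.G_vu hz] at h1
  linear_combination h1

theorem IsBridge.one_sub_ne {S : Set V} {u v : V} (h : H.IsBridge S u v) {z : ℂ}
    (hz : 0 < z.im) : 1 - (H.cut S).G z u u * (H.cut Sᶜ).G z v v ≠ 0 := by
  intro h0
  have h1 := h.G_uu hz.ne'
  rw [h0, mul_zero] at h1
  exact (H.cut S).G_ne_zero hz u h1.symm

/-- the Green function at a vertex in terms of the cavity numbers at the neighbours -/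
theorem G_rec (u : V) (Br : V → Set V) (hBr : ∀ w ∈ H.nb u, H.IsBridge (Br w) w u) {z : ℂ}
    (hz : z.im ≠ 0) :
    H.G z u u * ((H.v u : ℂ) - z - ∑ w ∈ H.nb u, (H.cut (Br w)).G z w w) = 1 := by
  classical
  have h1 := H.G_eqn hz u u
  rw [if_pos rfl] at h1
  have h2 : ∑ w ∈ H.nb u, H.G z w u = ∑ w ∈ H.nb u, - H.G z u u * (H.cut (Br w)).G z w w :=
    Finset.sum_congr rfl fun w hw => (hBr w hw).G_step hz (hBr w hw).notMem
  rw [h2, ← Finset.mul_sum] at h1
  linear_combination h1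

/-- recursion for the cavity numbers: `S` is the branch at `u`, `Br w ⊆ S` the branches at the
neighbours of `u` inside `S` -/
theorem cut_rec {S : Set V} (u : V) (hu : u ∈ S) (Br : V → Set V)
    (hBr : ∀ w ∈ (H.cut S).nb u, H.IsBridge (Br w) w u ∧ Br w ⊆ S) {z : ℂ} (hz : z.im ≠ 0) :
    (H.cut S).G z u u *
      ((H.v u : ℂ) - z - ∑ w ∈ (H.cut S).nb u, (H.cut (Br w)).G z w w) = 1 := by
  have h := G_rec (H := H.cut S) u Br (fun w hw => (hBr w hw).1.cut hu (hBr w hw).2) hz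
  rw [← h, cut_v]
  congr 2
  refine Finset.sum_congr rfl fun w hw => ?_
  rw [cut_cut H (hBr w hw).2]

/-! ### Powers and polynomials -/

variable (H)

/-- entries of the powers of the operator -/
def pw [DecidableEq V] : ℕ → V → V → ℝ
  | 0, x, y => if x = y then 1 else 0
  | k + 1, x, y => ∑ x' ∈ H.nb x, pw k x' y + H.v x * pw k x y

lemma pw_zero [DecidableEq V] (x y : V) : H.pw 0 x y = if x = y then 1 else 0 := rfl

lemma pw_succ [DecidableEq V] (k : ℕ) (x y : V) :
    H.pw (k + 1) x y = ∑ x' ∈ H.nb x, H.pw k x' y + H.v x * H.pw k x y := rfl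

lemma T_pow_single [DecidableEq V] (k : ℕ) (x y : V) :
    ((H.T ^ k) (lp.single 2 y (1 : ℂ))) x = (H.pw k x y : ℂ) := by
  induction k generalizing x with
  | zero =>
    simp only [pow_zero, one_apply_eq_self, lp.single_apply, Pi.single_apply, pw_zero]
    split_ifs <;> simp
  | succ k ih =>
    rw [pow_succ', mul_apply_eq_comp, T_apply, ap, pw_succ]
    simp only [ih]
    push_cast
    rfl

/-- entries of a polynomial of the operator -/
def pk [DecidableEq V] (p : Polynomial ℂ) (x y : V) : ℂ :=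
  ∑ k ∈ Finset.range (p.natDegree + 1), p.coeff k * (H.pw k x y : ℂ)

lemma aeval_single [DecidableEq V] (p : Polynomial ℂ) (x y : V) :
    (Polynomial.aeval H.T p (lp.single 2 y (1 : ℂ))) x = H.pk p x y := by
  rw [Polynomial.aeval_eq_sum_range, pk, _root_.sum_apply, lp.coeFn_sum,
    Finset.sum_apply]
  refine Finset.sum_congr rfl fun k _ => ?_
  rw [smul_apply, lp.coeFn_smul, Pi.smul_apply, T_pow_single, smul_eq_mul]

lemma spectrum_sub {w : ℂ} (hw : w ∈ spectrum ℂ H.T) : w.im = 0 ∧ |w.re| ≤ Lam D M := by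
  have h2 := H.T_selfAdjoint.mem_spectrum_eq_re hw
  have h3 : ‖w‖ ≤ ‖H.T‖ := by
    rcases isEmpty_or_nonempty V with hV | ⟨⟨x⟩⟩
    · exfalso
      have hs : Subsingleton (lp (fun _ : V => ℂ) 2) := ⟨fun f g => by ext x; exact hV.elim x⟩
      have hs2 : Subsingleton (lp (fun _ : V => ℂ) 2 →L[ℂ] lp (fun _ : V => ℂ) 2) :=
        ⟨fun f g => by ext1 x; exact Subsingleton.elim _ _⟩
      rw [spectrum.of_subsingleton] at hw
      exact hw
    · classical
      have : Nontrivial (lp (fun _ : V => ℂ) 2) := ⟨lp.single 2 x (1 : ℂ), 0, fun e => by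
        have := norm_single_one x
        rw [e, norm_zero] at this
        exact zero_ne_one this⟩
      exact spectrum.norm_le_norm_of_mem hw
  refine ⟨by rw [h2]; simp, ?_⟩
  exact (Complex.abs_re_le_norm w).trans (h3.trans H.norm_T_le)

/-- polynomials which are close to `1 / (t - z)` on `[-Λ, Λ]` -/
lemma exists_poly (Λ : ℝ) {z : ℂ} (hz : 0 < z.im) {ε : ℝ} (hε : 0 < ε) :
    ∃ p : Polynomial ℂ, ∀ t : ℝ, |t| ≤ Λ → ‖1 - ((t : ℂ) - z) * p.eval (t : ℂ)‖ ≤ ε := by
  have hne : ∀ t : ℝ, (t : ℂ) - z ≠ 0 := fun t h => by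
    have := congrArg Complex.im h
    simp at this
    exact hz.ne' this
  have hc : Continuous fun t : ℝ => ((t : ℂ) - z)⁻¹ :=
    Continuous.inv₀ (by fun_prop) hne
  set B := |Λ| + ‖z‖ + 1 with hB
  have hB0 : 0 < B := by positivity
  obtain ⟨p1, hp1⟩ := exists_polynomial_near_of_continuousOn (-Λ) Λ
    (fun t => (((t : ℂ) - z)⁻¹).re) (Complex.continuous_re.comp hc).continuousOn (ε / (2 * B))
    (by positivity)
  obtain ⟨p2, hp2⟩ := exists_polynomial_near_of_continuousOn (-Λ) Λ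
    (fun t => (((t : ℂ) - z)⁻¹).im) (Complex.continuous_im.comp hc).continuousOn (ε / (2 * B))
    (by positivity)
  refine ⟨p1.map Complex.ofRealHom + Polynomial.C Complex.I * p2.map Complex.ofRealHom,
    fun t ht => ?_⟩
  have ht' : t ∈ Set.Icc (-Λ) Λ := abs_le.1 ht
  have h1 := hp1 t ht'
  have h2 := hp2 t ht'
  have e1 : (Polynomial.map Complex.ofRealHom p1).eval (t : ℂ) = ((p1.eval t : ℝ) : ℂ) := by
    have := Polynomial.eval_map_apply (f := Complex.ofRealHom) (p := p1) t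
    simpa using this
  have e2 : (Polynomial.map Complex.ofRealHom p2).eval (t : ℂ) = ((p2.eval t : ℝ) : ℂ) := by
    have := Polynomial.eval_map_apply (f := Complex.ofRealHom) (p := p2) t
    simpa using this
  rw [Polynomial.eval_add, Polynomial.eval_mul, Polynomial.eval_C, e1, e2]
  set q : ℂ := ((p1.eval t : ℝ) : ℂ) + Complex.I * ((p2.eval t : ℝ) : ℂ) with hq
  have h3 : ‖((t : ℂ) - z)⁻¹ - q‖ ≤ ε / B := by
    have e3 : ((t : ℂ) - z)⁻¹ - q = (((((t : ℂ) - z)⁻¹).re - p1.eval t : ℝ) : ℂ) +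
        (((((t : ℂ) - z)⁻¹).im - p2.eval t : ℝ) : ℂ) * Complex.I := by
      rw [hq]
      conv_lhs => rw [← Complex.re_add_im (((t : ℂ) - z)⁻¹)]
      push_cast
      ring
    rw [e3]
    refine (norm_add_le _ _).trans ?_
    rw [norm_mul, Complex.norm_I, mul_one, Complex.norm_real, Complex.norm_real,
      Real.norm_eq_abs, Real.norm_eq_abs, abs_sub_comm, abs_sub_comm (((t : ℂ) - z)⁻¹).im]
    have : ε / B = ε / (2 * B) + ε / (2 * B) := by field_simp; ring
    rw [this]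
    exact add_le_add h1.le h2.le
  have h4 : 1 - ((t : ℂ) - z) * q = ((t : ℂ) - z) * (((t : ℂ) - z)⁻¹ - q) := by
    rw [mul_sub, mul_inv_cancel₀ (hne t)]
  rw [h4, norm_mul]
  have h5 : ‖(t : ℂ) - z‖ ≤ B := by
    refine (norm_sub_le _ _).trans ?_
    rw [Complex.norm_real, Real.norm_eq_abs, hB]
    have := ht.trans (le_abs_self Λ)
    linarith
  calc ‖(t : ℂ) - z‖ * ‖((t : ℂ) - z)⁻¹ - q‖ ≤ B * (ε / B) := by gcongr
    _ = ε := by field_simp

/-- the approximating polynomial -/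
def apx (Λ : ℝ) (z : ℂ) (ε : ℝ) : Polynomial ℂ := by
  classical exact if h : 0 < z.im ∧ 0 < ε then (exists_poly Λ h.1 (mul_pos h.1 h.2)).choose else 0

lemma apx_spec (Λ : ℝ) {z : ℂ} (hz : 0 < z.im) {ε : ℝ} (hε : 0 < ε) {t : ℝ} (ht : |t| ≤ Λ) :
    ‖1 - ((t : ℂ) - z) * (apx Λ z ε).eval (t : ℂ)‖ ≤ z.im * ε := by
  unfold apx
  rw [dif_pos ⟨hz, hε⟩]
  exact (exists_poly Λ hz (mul_pos hz hε)).choose_spec t ht

/-- (G6) uniform polynomial approximation of the Green function -/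
theorem norm_G_sub_pk_le [DecidableEq V] {z : ℂ} (hz : 0 < z.im) {ε : ℝ} (hε : 0 < ε) (x y : V) :
    ‖H.G z x y - H.pk (apx (Lam D M) z ε) x y‖ ≤ ε := by
  set p := apx (Lam D M) z ε with hp
  set q : Polynomial ℂ := 1 - (Polynomial.X - Polynomial.C z) * p with hq
  have h1 : ‖Polynomial.aeval H.T q‖ ≤ z.im * ε := by
    have hsn : IsStarNormal H.T := H.T_selfAdjoint.isStarNormal
    rw [← cfc_polynomial q H.T hsn]
    refine norm_cfc_le (by positivity) fun w hw => ?_
    obtain ⟨hw1, hw2⟩ := H.spectrum_sub hw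
    have hwr : w = ((w.re : ℝ) : ℂ) := by
      apply Complex.ext <;> simp [hw1]
    have h2 := apx_spec (Lam D M) hz hε hw2
    rw [← hwr, ← hp] at h2
    simpa [hq] using h2
  have h2 : H.R z - Polynomial.aeval H.T p = H.R z * Polynomial.aeval H.T q := by
    have e1 : Polynomial.aeval H.T q =
        1 - (H.T - algebraMap ℂ _ z) * Polynomial.aeval H.T p := by
      rw [hq]; simp
    rw [e1, mul_sub, mul_one, ← mul_assoc, H.R_mul_sub hz.ne', one_mul]
  have h3 : ‖H.R z - Polynomial.aeval H.T p‖ ≤ ε := by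
    rw [h2]
    refine (norm_mul_le _ _).trans ?_
    calc ‖H.R z‖ * ‖Polynomial.aeval H.T q‖ ≤ (1 / z.im) * (z.im * ε) := by
          gcongr
          exact H.norm_R_le hz
      _ = ε := by field_simp
  have h4 : H.G z x y - H.pk p x y =
      ((H.R z - Polynomial.aeval H.T p) (lp.single 2 y (1 : ℂ))) x := by
    rw [sub_apply, lp.coeFn_sub, Pi.sub_apply, aeval_single, G_eq]
  rw [h4]
  refine (norm_apply_le _ _).trans ?_
  refine ((H.R z - Polynomial.aeval H.T p).le_opNorm _).trans ?_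
  rw [norm_single_one, mul_one]
  exact h3

/-! ### Locality -/

/-- local comparison of powers. `Good k x`: from `x` one may make `k` steps -/
lemma pw_local {W : Type*} {D' : ℕ} {M' : ℝ} (H' : Op W D' M') [DecidableEq V] [DecidableEq W]
    (φ : V → W) (y : V) (Good : ℕ → V → Prop)
    (hstep : ∀ k x, Good (k + 1) x → Good k x ∧ ∀ x' ∈ H.nb x, Good k x')
    (hnb : ∀ k x, Good (k + 1) x → H'.nb (φ x) = (H.nb x).image φ ∧
      Set.InjOn φ (H.nb x : Set V) ∧ H'.v (φ x) = H.v x)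
    (h0 : ∀ x, Good 0 x → (φ x = φ y ↔ x = y)) :
    ∀ k x, Good k x → H'.pw k (φ x) (φ y) = H.pw k x y := by
  intro k
  induction k with
  | zero =>
    intro x hx
    rw [pw_zero, pw_zero]
    by_cases h : x = y
    · simp [h]
    · have h' : ¬ φ x = φ y := fun e => h ((h0 x hx).1 e)
      simp [h, h']
  | succ k ih =>
    intro x hx
    obtain ⟨h1, h2⟩ := hstep k x hx
    obtain ⟨h3, h4, h5⟩ := hnb k x hx
    rw [pw_succ, pw_succ, h3, h5, ih x h1, Finset.sum_image h4]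
    congr 1
    exact Finset.sum_congr rfl fun x' hx' => ih x' (h2 x' hx')

/-- the radius needed for the accuracy `ε` -/
def rad (D : ℕ) (M : ℝ) (z : ℂ) (ε : ℝ) : ℕ := (apx (Lam D M) z ε).natDegree

/-- (G6) local comparison of Green functions -/
theorem norm_G_sub_G_le {W : Type*} (H' : Op W D M) [DecidableEq V] [DecidableEq W]
    (φ : V → W) (y : V) (Good : ℕ → V → Prop)
    (hstep : ∀ k x, Good (k + 1) x → Good k x ∧ ∀ x' ∈ H.nb x, Good k x')
    (hnb : ∀ k x, Good (k + 1) x → H'.nb (φ x) = (H.nb x).image φ ∧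
      Set.InjOn φ (H.nb x : Set V) ∧ H'.v (φ x) = H.v x)
    (h0 : ∀ x, Good 0 x → (φ x = φ y ↔ x = y)) {z : ℂ} (hz : 0 < z.im) {ε : ℝ} (hε : 0 < ε)
    {x : V} (hx : Good (rad D M z ε) x) :
    ‖H.G z x y - H'.G z (φ x) (φ y)‖ ≤ 2 * ε := by
  have hanti : ∀ k j, Good (k + j) x → Good k x := by
    intro k j
    induction j with
    | zero => exact id
    | succ j ih => intro h; exact ih (hstep _ _ h).1
  have h1 : H'.pk (apx (Lam D M) z ε) (φ x) (φ y) = H.pk (apx (Lam D M) z ε) x y := by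
    unfold pk
    refine Finset.sum_congr rfl fun k hk => ?_
    rw [H.pw_local H' φ y Good hstep hnb h0 k x]
    have hk' : k ≤ rad D M z ε := by
      have := Finset.mem_range.1 hk
      unfold rad; omega
    obtain ⟨j, hj⟩ := Nat.exists_eq_add_of_le hk'
    exact hanti k j (hj ▸ hx)
  have h2 := H.norm_G_sub_pk_le hz hε x y
  have h3 := H'.norm_G_sub_pk_le hz hε (φ x) (φ y)
  rw [h1] at h3
  calc ‖H.G z x y - H'.G z (φ x) (φ y)‖
      = ‖(H.G z x y - H.pk (apx (Lam D M) z ε) x y) -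
        (H'.G z (φ x) (φ y) - H.pk (apx (Lam D M) z ε) x y)‖ := by congr 1; ring
    _ ≤ _ := by
      refine (norm_sub_le _ _).trans ?_
      linarith

/-- (G5) equivariance under isomorphisms -/
theorem G_equiv {W : Type*} (H' : Op W D M) (φ : V → W) (hφ : Function.Injective φ)
    (hnb : ∀ x y, φ y ∈ H'.nb (φ x) ↔ y ∈ H.nb x) (hsurj : ∀ x, ∀ w ∈ H'.nb (φ x), ∃ y, φ y = w)
    (hv : ∀ x, H'.v (φ x) = H.v x) {z : ℂ} (hz : 0 < z.im) (x y : V) :
    H'.G z (φ x) (φ y) = H.G z x y := by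
  classical
  have h : ∀ ε : ℝ, 0 < ε → ‖H.G z x y - H'.G z (φ x) (φ y)‖ ≤ 2 * ε := fun ε hε =>
    H.norm_G_sub_G_le H' φ y (fun _ _ => True) (fun _ _ _ => ⟨trivial, fun _ _ => trivial⟩)
      (fun k x _ => ⟨by
        ext w
        rw [Finset.mem_image]
        constructor
        · intro hw
          obtain ⟨y, rfl⟩ := hsurj x w hw
          exact ⟨y, (hnb x y).1 hw, rfl⟩
        · rintro ⟨y, hy, rfl⟩
          exact (hnb x y).2 hy, hφ.injOn, hv x⟩)
      (fun x _ => hφ.eq_iff) hz hε trivial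
  have h0 : ‖H.G z x y - H'.G z (φ x) (φ y)‖ = 0 := by
    refine le_antisymm (le_of_forall_pos_le_add fun ε hε => ?_) (norm_nonneg _)
    have := h (ε / 2) (by positivity)
    linarith
  exact (sub_eq_zero.1 (norm_eq_zero.1 h0)).symm

/-! ### Continuity in the environment and in the energy -/

lemma R_sub {z w : ℂ} (hz : z.im ≠ 0) (hw : w.im ≠ 0) : H.R z - H.R w =
    (z - w) • (H.R z * H.R w) := by
  have h1 : H.R z - H.R w = H.R z * ((H.T - algebraMap ℂ _ w) - (H.T - algebraMap ℂ _ z)) *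
      H.R w := by
    rw [mul_sub, sub_mul, mul_assoc, H.sub_mul_R hw, H.R_mul_sub hz, mul_one, one_mul]
  rw [h1]
  have h2 : (H.T - algebraMap ℂ _ w) - (H.T - algebraMap ℂ _ z) =
      (z - w) • (1 : lp (fun _ : V => ℂ) 2 →L[ℂ] lp (fun _ : V => ℂ) 2) := by
    rw [Algebra.algebraMap_eq_smul_one, Algebra.algebraMap_eq_smul_one, sub_smul]; abel
  rw [h2, mul_smul_comm, mul_one, smul_mul_assoc]

theorem norm_G_sub_le {z w : ℂ} (hz : 0 < z.im) (hw : 0 < w.im) (x y : V) :
    ‖H.G z x y - H.G w x y‖ ≤ ‖z - w‖ / (z.im * w.im) := by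
  classical
  have h1 : H.G z x y - H.G w x y = ((H.R z - H.R w) (lp.single 2 y (1 : ℂ))) x := by
    rw [sub_apply, lp.coeFn_sub, Pi.sub_apply, G_eq, G_eq]
  rw [h1]
  refine (norm_apply_le _ _).trans (((H.R z - H.R w).le_opNorm _).trans ?_)
  rw [norm_single_one, mul_one, H.R_sub hz.ne' hw.ne', norm_smul]
  refine (mul_le_mul_of_nonneg_left (norm_mul_le _ _) (norm_nonneg _)).trans ?_
  rw [div_eq_mul_inv, mul_inv, ← one_div, ← one_div]
  gcongr
  · exact H.norm_R_le hz
  · exact H.norm_R_le hw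

end Op

section cont
variable {P : Type*} [TopologicalSpace P] (Hf : P → Op V D M)

lemma continuous_pw [DecidableEq V] (hnb : ∀ q q', (Hf q).nb = (Hf q').nb)
    (hv : ∀ x, Continuous fun q => (Hf q).v x) (k : ℕ) (x y : V) :
    Continuous fun q => (Hf q).pw k x y := by
  rcases isEmpty_or_nonempty P with hP | ⟨⟨q0⟩⟩
  · exact continuous_of_const fun q => hP.elim q
  induction k generalizing x with
  | zero => simp only [Op.pw_zero]; exact continuous_const
  | succ k ih =>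
    simp only [Op.pw_succ]
    refine Continuous.add ?_ ((hv x).mul (ih x))
    have : (fun q => ∑ x' ∈ (Hf q).nb x, (Hf q).pw k x' y) =
        fun q => ∑ x' ∈ (Hf q0).nb x, (Hf q).pw k x' y := by
      funext q; rw [hnb q q0]
    rw [this]
    exact continuous_finsetSum _ fun x' _ => ih x'

/-- the Green function is a continuous function of the potentials (product topology) -/
theorem continuous_G (hnb : ∀ q q', (Hf q).nb = (Hf q').nb)
    (hv : ∀ x, Continuous fun q => (Hf q).v x) {z : ℂ} (hz : 0 < z.im) (x y : V) :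
    Continuous fun q => (Hf q).G z x y := by
  classical
  refine continuous_of_uniform_approx_of_continuous fun u hu => ?_
  obtain ⟨ε, hε, hεu⟩ := Metric.mem_uniformity_dist.1 hu
  refine ⟨fun q => (Hf q).pk (Op.apx (Op.Lam D M) z (ε / 2)) x y, ?_, fun q => hεu ?_⟩
  · unfold Op.pk
    exact continuous_finsetSum _ fun k _ => continuous_const.mul
      (Complex.continuous_ofReal.comp (continuous_pw Hf hnb hv k x y))
  · rw [dist_eq_norm]
    exact ((Hf q).norm_G_sub_pk_le hz (half_pos hε) x y).trans_lt (half_lt_self hε)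

/-- joint continuity in the energy and the potentials -/
theorem continuous_G_joint (hnb : ∀ q q', (Hf q).nb = (Hf q').nb)
    (hv : ∀ x, Continuous fun q => (Hf q).v x) (ζ : P → ℂ) (hζ : Continuous ζ)
    (hz : ∀ q, 0 < (ζ q).im) (x y : V) :
    Continuous fun q => (Hf q).G (ζ q) x y := by
  rw [continuous_iff_continuousAt]
  intro q0
  have h1 := (continuous_G Hf hnb hv (hz q0) x y).continuousAt (x := q0)
  have h2 : Filter.Tendsto (fun q => (Hf q).G (ζ q) x y - (Hf q).G (ζ q0) x y) (nhds q0)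
      (nhds 0) := by
    have h3 : Filter.Tendsto (fun q => ‖ζ q - ζ q0‖ / ((ζ q).im * (ζ q0).im)) (nhds q0)
        (nhds (‖ζ q0 - ζ q0‖ / ((ζ q0).im * (ζ q0).im))) := by
      refine Filter.Tendsto.div ?_ ?_ (mul_pos (hz q0) (hz q0)).ne'
      · exact ((hζ.sub continuous_const).norm).continuousAt
      · exact ((Complex.continuous_im.comp hζ).mul continuous_const).continuousAt
    rw [sub_self, norm_zero, zero_div] at h3
    exact squeeze_zero_norm (fun q => (Hf q).norm_G_sub_le (hz q) (hz q0) x y) h3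
  have h4 := h2.add h1
  rw [zero_add] at h4
  refine h4.congr fun q => ?_
  ring

end cont

namespace Op

/-! ### Finite graphs -/

/-- the matrix of the operator -/
def mat [DecidableEq V] : Matrix V V ℝ := fun x y =>
  (if y ∈ H.nb x then 1 else 0) + if x = y then H.v x else 0

/-- on a finite graph the Green function is the inverse matrix -/
theorem inv_mat [Fintype V] [DecidableEq V] {z : ℂ} (hz : z.im ≠ 0) :
    (H.mat.map (fun x : ℝ => (x : ℂ)) - z • (1 : Matrix V V ℂ))⁻¹ = Matrix.of (H.G z) := by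
  refine Matrix.inv_eq_right_inv ?_
  ext x y
  rw [Matrix.mul_apply, Matrix.one_apply, ← H.G_eqn hz x y]
  have h1 : ∀ j, (H.mat.map (fun x : ℝ => (x : ℂ)) - z • (1 : Matrix V V ℂ)) x j *
      Matrix.of (H.G z) j y = (if j ∈ H.nb x then H.G z j y else 0) +
      (if x = j then ((H.v x : ℂ) - z) * H.G z j y else 0) := by
    intro j
    simp only [Matrix.sub_apply, Matrix.map_apply, mat, Matrix.smul_apply, Matrix.one_apply,
      Matrix.of_apply, smul_eq_mul]
    by_cases h3 : x = j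
    · subst h3
      by_cases h2 : x ∈ H.nb x <;> simp [h2] <;> ring
    · by_cases h2 : j ∈ H.nb x <;> simp [h2, h3]
  rw [Finset.sum_congr rfl fun j _ => h1 j, Finset.sum_add_distrib, Finset.sum_ite_mem,
    Finset.univ_inter, Finset.sum_ite_eq, if_pos (Finset.mem_univ x)]

end Op
end Crest.Agent.R166.L2G879
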