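import Mathlib

/-!
Row 166, section 42.3 (helper942): divergence lemma (Lemma D) and tree algebra of one side of an
edge, at a real energy.

Words `w : List K`, children of `w` are `k :: w`; `V : List K → ℝ` potential;
`Cav z V c`: the cavity numbers `c w` (resolvent of the subtree above `w` at `w`).
-/

set_option autoImplicit false

namespace Crest.Agent.R166.L2_942

open Finset Filter Topology

noncomputable section

variable {K : Type*} [Fintype K]

/-- cavity recursion -/
def Cav (z : ℂ) (V : List K → ℝ) (c : List K → ℂ) : Prop :=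
  ∀ w, 0 < (c w).im ∧ c w * (z - (V w : ℂ) + ∑ k, c (k :: w)) = -1

/-- sum over the words of length `n` -/
def lev {M : Type*} [AddCommMonoid M] : ℕ → (List K → M) → M
  | 0, f => f []
  | n + 1, f => lev n (fun w => ∑ k, f (k :: w))

section lev
variable {M : Type*} [AddCommMonoid M]

theorem lev_add (n : ℕ) (f g : List K → M) : lev n (fun w => f w + g w) = lev n f + lev n g := by
  induction n generalizing f g with
  | zero => rfl
  | succ n ih => simp only [lev, sum_add_distrib, ih]

theorem lev_congr (n : ℕ) {f g : List K → M} (h : ∀ w, w.length = n → f w = g w) :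
    lev n f = lev n g := by
  induction n generalizing f g with
  | zero => exact h [] rfl
  | succ n ih =>
    simp only [lev]
    exact ih fun w hw => sum_congr rfl fun k _ => h _ (by simp [hw])

theorem lev_mul_left {R : Type*} [NonUnitalNonAssocSemiring R] (n : ℕ) (a : R) (f : List K → R) :
    lev n (fun w => a * f w) = a * lev n f := by
  induction n generalizing f with
  | zero => rfl
  | succ n ih => simp only [lev, ← mul_sum, ih]

theorem lev_le {n : ℕ} {f g : List K → ℝ} (h : ∀ w, f w ≤ g w) : lev n f ≤ lev n g := by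
  induction n generalizing f g with
  | zero => exact h []
  | succ n ih => exact ih fun w => sum_le_sum fun k _ => h _

theorem lev_nonneg {n : ℕ} {f : List K → ℝ} (h : ∀ w, 0 ≤ f w) : 0 ≤ lev n f := by
  induction n generalizing f with
  | zero => exact h []
  | succ n ih => exact ih fun w => sum_nonneg fun k _ => h _

theorem norm_lev_le (n : ℕ) (f : List K → ℂ) : ‖lev n f‖ ≤ lev n (fun w => ‖f w‖) := by
  induction n generalizing f with
  | zero => exact le_rfl
  | succ n ih =>
    simp only [lev]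
    exact (ih _).trans (lev_le fun w => norm_sum_le _ _)

open Classical in
/-- the finset of the words of length `n` -/
def wds : ℕ → Finset (List K)
  | 0 => {[]}
  | n + 1 => (wds n).biUnion fun w => univ.image fun k : K => k :: w

theorem mem_wds {n : ℕ} {w : List K} : w ∈ wds n ↔ w.length = n := by
  classical
  induction n generalizing w with
  | zero => simp [wds]
  | succ n ih =>
    simp only [wds, mem_biUnion, mem_image, mem_univ, true_and]
    constructor
    · rintro ⟨a, ha, k, rfl⟩
      simp [ih.1 ha]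
    · intro h
      cases w with
      | nil => simp at h
      | cons k w => exact ⟨w, ih.2 (by simpa using h), k, rfl⟩

theorem lev_eq_sum (n : ℕ) (f : List K → M) : lev n f = ∑ w ∈ wds n, f w := by
  classical
  induction n generalizing f with
  | zero => simp [lev, wds]
  | succ n ih =>
    simp only [lev, ih, wds]
    rw [sum_biUnion]
    · refine sum_congr rfl fun w _ => ?_
      rw [sum_image]
      intro a _ b _ h
      exact (List.cons.inj h).1
    · intro a _ b _ hab
      rw [Function.onFun, disjoint_left]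
      intro x hx hy
      simp only [mem_image, mem_univ, true_and] at hx hy
      obtain ⟨k, rfl⟩ := hx
      obtain ⟨k', h⟩ := hy
      exact hab (List.cons.inj h).2.symm

end lev

/-- summability over all words gives summability of the level sums -/
theorem summable_lev {f : List K → ℝ} (hf : ∀ w, 0 ≤ f w) (hs : Summable f) :
    Summable (fun n => lev n f) := by
  classical
  refine summable_of_sum_range_le (c := ∑' w, f w) (fun n => lev_nonneg hf) ?_
  intro n
  simp only [lev_eq_sum]
  rw [← sum_biUnion]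
  · exact hs.sum_le_tsum _ fun w _ => hf w
  · intro a _ b _ hab
    rw [Function.onFun, disjoint_left]
    intro x hx hy
    rw [mem_wds] at hx hy
    exact hab (hx.symm.trans hy)

theorem sum_lev_le_tsum {f : List K → ℝ} (hf : ∀ w, 0 ≤ f w) (hs : Summable f) (n : ℕ) :
    ∑ m ∈ range n, lev m f ≤ ∑' w, f w := by
  classical
  simp only [lev_eq_sum]
  rw [← sum_biUnion]
  · exact hs.sum_le_tsum _ fun w _ => hf w
  · intro a _ b _ hab
    rw [Function.onFun, disjoint_left]
    intro x hx hy
    rw [mem_wds] at hx hy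
    exact hab (hx.symm.trans hy)

/-- the column of the resolvent of the subtree at the root -/
def gcol (c : List K → ℂ) : List K → ℂ
  | [] => c []
  | k :: w => - c (k :: w) * gcol c w

section one
variable {z : ℂ} {V : List K → ℝ} {c : List K → ℂ}

theorem Cav.ne_zero (h : Cav z V c) (w : List K) : c w ≠ 0 := by
  intro h0
  have := (h w).1
  rw [h0] at this
  simp at this

theorem Cav.im_eq (h : Cav z V c) (w : List K) :
    (c w).im = Complex.normSq (c w) * (z.im + ∑ k, (c (k :: w)).im) := by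
  have h1 := (h w).2
  have h0 := h.ne_zero w
  -- z - V + Σ c = - conj(c) / |c|²
  have h2 : z - (V w : ℂ) + ∑ k, c (k :: w) = - (starRingEnd ℂ (c w)) / (Complex.normSq (c w) : ℂ) := by
    have hn : (Complex.normSq (c w) : ℂ) ≠ 0 := by
      exact_mod_cast (Complex.normSq_pos.2 h0).ne'
    rw [eq_div_iff hn, Complex.normSq_eq_conj_mul_self]
    calc (z - (V w : ℂ) + ∑ k, c (k :: w)) * ((starRingEnd ℂ) (c w) * c w)
        = (starRingEnd ℂ) (c w) * (c w * (z - (V w : ℂ) + ∑ k, c (k :: w))) := by ring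
      _ = _ := by rw [h1]; ring
  have h3 := congrArg Complex.im h2
  have hn : Complex.normSq (c w) ≠ 0 := (Complex.normSq_pos.2 h0).ne'
  simp only [Complex.add_im, Complex.sub_im, Complex.ofReal_im, sub_zero, Complex.im_sum] at h3
  rw [h3, Complex.div_ofReal_im]
  simp only [Complex.neg_im, Complex.conj_im, neg_neg]
  field_simp

/-- truncated Ward identity -/
theorem ward (h : Cav z V c) (n : ℕ) :
    (c []).im = z.im * ∑ m ∈ range (n + 1), lev m (fun w => Complex.normSq (gcol c w)) +
      lev n (fun w => Complex.normSq (gcol c w) * ∑ k, (c (k :: w)).im) := by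
  induction n with
  | zero =>
    simp only [zero_add, range_one, sum_singleton, lev, gcol]
    rw [h.im_eq []]; ring
  | succ n ih =>
    rw [sum_range_succ, mul_add, ih, add_assoc]
    congr 1
    have h1 : lev n (fun w => Complex.normSq (gcol c w) * ∑ k, (c (k :: w)).im) =
        lev (n+1) (fun w => z.im * Complex.normSq (gcol c w) +
          Complex.normSq (gcol c w) * ∑ k, (c (k :: w)).im) := by
      simp only [lev]
      congr 1
      funext w
      rw [mul_sum]
      refine sum_congr rfl fun k _ => ?_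
      rw [h.im_eq (k :: w), gcol, Complex.normSq_mul, Complex.normSq_neg]
      ring
    rw [h1, lev_add, lev_mul_left]

theorem ward_le (h : Cav z V c) (hz : 0 < z.im) (n : ℕ) :
    ∑ m ∈ range n, lev m (fun w => Complex.normSq (gcol c w)) ≤ (c []).im / z.im := by
  rw [le_div_iff₀ hz]
  have h1 := ward h n
  have h2 : 0 ≤ lev n (fun w => Complex.normSq (gcol c w) * ∑ k, (c (k :: w)).im) :=
    lev_nonneg fun w => mul_nonneg (Complex.normSq_nonneg _) (sum_nonneg fun k _ => (h _).1.le)
  have h3 : ∑ m ∈ range n, lev m (fun w => Complex.normSq (gcol c w)) ≤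
      ∑ m ∈ range (n+1), lev m (fun w => Complex.normSq (gcol c w)) := by
    rw [sum_range_succ]
    linarith [lev_nonneg (n := n) (f := fun w => Complex.normSq (gcol c w))
      fun w => Complex.normSq_nonneg _]
  nlinarith

/-- `(H - z) g = 0` away from the root -/
theorem gcol_eq (h : Cav z V c) (k0 : K) (w : List K) :
    ∑ k, gcol c (k :: k0 :: w) + gcol c w = (z - (V (k0 :: w) : ℂ)) * gcol c (k0 :: w) := by
  have h1 := (h (k0 :: w)).2
  have h0 := h.ne_zero (k0 :: w)
  have h2 : gcol c (k0 :: w) = - c (k0 :: w) * gcol c w := rfl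
  have h3 : ∑ k, gcol c (k :: k0 :: w) = -(∑ k, c (k :: k0 :: w)) * gcol c (k0 :: w) := by
    rw [← sum_neg_distrib, sum_mul]
    rfl
  rw [h3, h2]
  linear_combination (gcol c w) * h1

theorem gcol_root (h : Cav z V c) :
    ∑ k, gcol c [k] = 1 + (z - (V [] : ℂ)) * gcol c [] := by
  have h1 := (h []).2
  have h3 : ∑ k, gcol c [k] = -(∑ k, c [k]) * gcol c [] := by
    rw [← sum_neg_distrib, sum_mul]
    rfl
  have h2 : gcol c [] = c [] := rfl
  rw [h3, h2]
  linear_combination -h1

end one

/-- a real solution of `(H - E) ψ = 0` on the side, `pv` = value at the neighbour of the root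
outside of the side -/
def Sol (E : ℝ) (V : List K → ℝ) (psi : List K → ℝ) (pv : ℝ) : Prop :=
  (∑ k, psi [k] + pv = (E - V []) * psi []) ∧
  ∀ k0 w, ∑ k, psi (k :: k0 :: w) + psi w = (E - V (k0 :: w)) * psi (k0 :: w)

/-- boundary term -/
def bdry (c : List K → ℂ) (psi : List K → ℝ) (n : ℕ) : ℂ :=
  lev n (fun w => (psi w : ℂ) * (∑ k, gcol c (k :: w)) - gcol c w * (∑ k, (psi (k :: w) : ℂ)))

theorem lev_sub (n : ℕ) (f g : List K → ℂ) :
    lev n (fun w => f w - g w) = lev n f - lev n g := by
  induction n generalizing f g with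
  | zero => rfl
  | succ n ih => simp only [lev, sum_sub_distrib, ih]

/-- truncated Green identity -/
theorem green {E eta : ℝ} {V : List K → ℝ} {c : List K → ℂ} {psi : List K → ℝ} {pv : ℝ}
    (h : Cav ((E : ℂ) + Complex.I * (eta : ℂ)) V c) (hs : Sol E V psi pv) (n : ℕ) :
    (psi [] : ℂ) + c [] * (pv : ℂ) + Complex.I * (eta : ℂ) *
      ∑ m ∈ range (n + 1), lev m (fun w => gcol c w * (psi w : ℂ)) = bdry c psi n := by
  induction n with
  | zero =>
    simp only [zero_add, range_one, sum_singleton, lev, bdry]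
    rw [gcol_root h]
    have h1 : ∑ k, (psi [k] : ℂ) = ((E : ℂ) - (V [] : ℂ)) * (psi [] : ℂ) - (pv : ℂ) := by
      have := congrArg (fun x : ℝ => (x : ℂ)) hs.1
      push_cast at this
      linear_combination this
    rw [h1]
    have h2 : gcol c [] = c [] := rfl
    rw [h2]
    ring
  | succ n ih =>
    rw [sum_range_succ, mul_add, ← add_assoc, ih]
    have h1 : bdry c psi n = lev (n+1) (fun w => match w with
        | [] => 0
        | k0 :: w => (psi w : ℂ) * gcol c (k0 :: w) - gcol c w * (psi (k0 :: w) : ℂ)) := by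
      simp only [lev, bdry, sum_sub_distrib, mul_sum]
    rw [h1, ← lev_mul_left, ← lev_add, bdry]
    apply lev_congr
    intro w hw
    cases w with
    | nil => simp at hw
    | cons k0 w =>
      simp only
      have e1 := gcol_eq h k0 w
      have e2 : ∑ k, (psi (k :: k0 :: w) : ℂ) + (psi w : ℂ) =
          ((E : ℂ) - (V (k0 :: w) : ℂ)) * (psi (k0 :: w) : ℂ) := by
        have := congrArg (fun x : ℝ => (x : ℂ)) (hs.2 k0 w)
        push_cast at this
        exact this
      linear_combination (-(psi (k0 :: w)) : ℂ) * e1 + (gcol c (k0 :: w)) * e2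

theorem summable_normSq_lev {z : ℂ} {V : List K → ℝ} {c : List K → ℂ} (h : Cav z V c)
    (hz : 0 < z.im) : Summable (fun n => lev n (fun w => Complex.normSq (gcol c w))) :=
  summable_of_sum_range_le (fun _ => lev_nonneg fun _ => Complex.normSq_nonneg _)
    (fun n => ward_le h hz n)

theorem bdry_tendsto {E eta : ℝ} {V : List K → ℝ} {c : List K → ℂ} {psi : List K → ℝ}
    (h : Cav ((E : ℂ) + Complex.I * (eta : ℂ)) V c) (heta : 0 < eta)
    (hsum : Summable (fun w => psi w ^ 2)) :
    Tendsto (bdry c psi) atTop (𝓝 0) := by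
  have hz : 0 < ((E : ℂ) + Complex.I * (eta : ℂ)).im := by simpa using heta
  have h1 := (summable_normSq_lev h hz).tendsto_atTop_zero
  have h2 := (summable_lev (fun w => sq_nonneg (psi w)) hsum).tendsto_atTop_zero
  set b : ℝ := (Fintype.card K : ℝ) with hb
  have hbound : ∀ n, ‖bdry c psi n‖ ≤
      (b * lev n (fun w => psi w ^ 2) + lev (n+1) (fun w => Complex.normSq (gcol c w))) +
      (b * lev n (fun w => Complex.normSq (gcol c w)) + lev (n+1) (fun w => psi w ^ 2)) := by
    intro n
    refine (norm_lev_le _ _).trans ?_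
    simp only [lev]
    rw [← lev_mul_left, ← lev_mul_left, ← lev_add, ← lev_add, ← lev_add]
    apply lev_le
    intro w
    refine (norm_sub_le _ _).trans ?_
    apply add_le_add
    · rw [norm_mul, Complex.norm_real]
      have e1 : ‖∑ k, gcol c (k :: w)‖ ≤ ∑ k, ‖gcol c (k :: w)‖ := norm_sum_le _ _
      calc ‖psi w‖ * ‖∑ k, gcol c (k :: w)‖ ≤ ‖psi w‖ * ∑ k, ‖gcol c (k :: w)‖ :=
            mul_le_mul_of_nonneg_left e1 (norm_nonneg _)
        _ = ∑ k, ‖psi w‖ * ‖gcol c (k :: w)‖ := by rw [mul_sum]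
        _ ≤ ∑ k : K, (psi w ^ 2 + Complex.normSq (gcol c (k :: w))) := by
            apply sum_le_sum
            intro k _
            rw [Complex.normSq_eq_norm_sq]
            have : psi w ^ 2 = ‖psi w‖ ^ 2 := by rw [Real.norm_eq_abs, sq_abs]
            rw [this]
            nlinarith [sq_nonneg (‖psi w‖ - ‖gcol c (k :: w)‖), sq_nonneg (‖psi w‖),
              sq_nonneg (‖gcol c (k :: w)‖)]
        _ = b * psi w ^ 2 + ∑ k, Complex.normSq (gcol c (k :: w)) := by
            rw [sum_add_distrib, sum_const, card_univ, nsmul_eq_mul]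
    · rw [norm_mul]
      have e1 : ‖∑ k, (psi (k :: w) : ℂ)‖ ≤ ∑ k, ‖psi (k :: w)‖ := by
        refine (norm_sum_le _ _).trans (le_of_eq ?_)
        simp only [Complex.norm_real]
      calc ‖gcol c w‖ * ‖∑ k, (psi (k :: w) : ℂ)‖ ≤ ‖gcol c w‖ * ∑ k, ‖psi (k :: w)‖ :=
            mul_le_mul_of_nonneg_left e1 (norm_nonneg _)
        _ = ∑ k, ‖gcol c w‖ * ‖psi (k :: w)‖ := by rw [mul_sum]
        _ ≤ ∑ k : K, (Complex.normSq (gcol c w) + psi (k :: w) ^ 2) := by
            apply sum_le_sum
            intro k _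
            rw [Complex.normSq_eq_norm_sq]
            have : psi (k :: w) ^ 2 = ‖psi (k :: w)‖ ^ 2 := by rw [Real.norm_eq_abs, sq_abs]
            rw [this]
            nlinarith [sq_nonneg (‖psi (k :: w)‖ - ‖gcol c w‖), sq_nonneg (‖psi (k :: w)‖),
              sq_nonneg (‖gcol c w‖)]
        _ = b * Complex.normSq (gcol c w) + ∑ k, psi (k :: w) ^ 2 := by
            rw [sum_add_distrib, sum_const, card_univ, nsmul_eq_mul]
  rw [tendsto_zero_iff_norm_tendsto_zero]
  refine squeeze_zero (fun n => norm_nonneg _) hbound ?_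
  have h1' := h1.comp (tendsto_add_atTop_nat 1)
  have h2' := h2.comp (tendsto_add_atTop_nat 1)
  have := (((h2.const_mul b).add h1')).add ((h1.const_mul b).add h2')
  simpa using this

/-- main estimate at `eta > 0` -/
theorem green_bound {E eta : ℝ} {V : List K → ℝ} {c : List K → ℂ} {psi : List K → ℝ} {pv : ℝ}
    (h : Cav ((E : ℂ) + Complex.I * (eta : ℂ)) V c) (heta : 0 < eta) (hs : Sol E V psi pv)
    (hsum : Summable (fun w => psi w ^ 2)) :
    ‖(psi [] : ℂ) + c [] * (pv : ℂ)‖ ≤
      Real.sqrt (eta * (c []).im) * Real.sqrt (∑' w, psi w ^ 2) := by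
  have hz : 0 < ((E : ℂ) + Complex.I * (eta : ℂ)).im := by simpa using heta
  have hzim : ((E : ℂ) + Complex.I * (eta : ℂ)).im = eta := by simp
  have hb := bdry_tendsto h heta hsum
  -- for each n the difference is bounded
  have key : ∀ n, ‖(psi [] : ℂ) + c [] * (pv : ℂ) - bdry c psi n‖ ≤
      Real.sqrt (eta * (c []).im) * Real.sqrt (∑' w, psi w ^ 2) := by
    intro n
    have e1 : (psi [] : ℂ) + c [] * (pv : ℂ) - bdry c psi n = - (Complex.I * (eta : ℂ) *
        ∑ m ∈ range (n + 1), lev m (fun w => gcol c w * (psi w : ℂ))) := by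
      rw [← green h hs n]; ring
    rw [e1, norm_neg, norm_mul, norm_mul, Complex.norm_I, one_mul, Complex.norm_real,
      Real.norm_of_nonneg heta.le]
    have e2 : ‖∑ m ∈ range (n + 1), lev m (fun w => gcol c w * (psi w : ℂ))‖ ≤
        Real.sqrt (∑ m ∈ range (n+1), lev m (fun w => Complex.normSq (gcol c w))) *
        Real.sqrt (∑ m ∈ range (n+1), lev m (fun w => psi w ^ 2)) := by
      simp only [lev_eq_sum]
      rw [sum_sigma', sum_sigma', sum_sigma']
      refine (norm_sum_le _ _).trans ?_
      refine le_trans (sum_le_sum (g := fun x => ‖gcol c x.2‖ * |psi x.2|) fun x _ => ?_) ?_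
      · rw [norm_mul, Complex.norm_real, Real.norm_eq_abs]
      · refine (Real.sum_mul_le_sqrt_mul_sqrt _ _ _).trans (le_of_eq ?_)
        congr 2
        · refine sum_congr rfl fun x _ => ?_
          rw [Complex.normSq_eq_norm_sq]
        · refine sum_congr rfl fun x _ => ?_
          rw [sq_abs]
    have e3 := ward_le h hz (n+1)
    rw [hzim] at e3
    have e4 := sum_lev_le_tsum (fun w => sq_nonneg (psi w)) hsum (n+1)
    have e5 : eta * (Real.sqrt ((c []).im / eta) * Real.sqrt (∑' w, psi w ^ 2)) =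
        Real.sqrt (eta * (c []).im) * Real.sqrt (∑' w, psi w ^ 2) := by
      rw [← mul_assoc]
      congr 1
      have : eta * (c []).im = eta ^ 2 * ((c []).im / eta) := by field_simp
      rw [this, Real.sqrt_mul (sq_nonneg _), Real.sqrt_sq heta.le]
    rw [← e5]
    apply mul_le_mul_of_nonneg_left _ heta.le
    exact e2.trans (mul_le_mul (Real.sqrt_le_sqrt e3) (Real.sqrt_le_sqrt e4) (Real.sqrt_nonneg _)
      (Real.sqrt_nonneg _))
  have hlim : Tendsto (fun n => ‖(psi [] : ℂ) + c [] * (pv : ℂ) - bdry c psi n‖) atTop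
      (𝓝 ‖(psi [] : ℂ) + c [] * (pv : ℂ)‖) := by
    have := (tendsto_const_nhds (x := (psi [] : ℂ) + c [] * (pv : ℂ))).sub hb
    rw [sub_zero] at this
    exact this.norm
  exact le_of_tendsto hlim (Eventually.of_forall key)

/-- LEMMA D: a real `l²` solution on one side vanishes at the edge. -/
theorem lemmaD {E : ℝ} {V : List K → ℝ} {eta : ℕ → ℝ} {c : ℕ → List K → ℂ} {C0 : ℂ}
    (heta : ∀ j, 0 < eta j) (heta0 : Tendsto eta atTop (𝓝 0))
    (hc : ∀ j, Cav ((E : ℂ) + Complex.I * (eta j : ℂ)) V (c j))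
    (hlim : Tendsto (fun j => c j []) atTop (𝓝 C0)) (hC0 : 0 < C0.im)
    {psi : List K → ℝ} {pv : ℝ} (hs : Sol E V psi pv)
    (hsum : Summable (fun w => psi w ^ 2)) : psi [] = 0 ∧ pv = 0 := by
  have h1 : Tendsto (fun j => ‖(psi [] : ℂ) + c j [] * (pv : ℂ)‖) atTop
      (𝓝 ‖(psi [] : ℂ) + C0 * (pv : ℂ)‖) :=
    ((tendsto_const_nhds).add (hlim.mul_const _)).norm
  have h2 : Tendsto (fun j => Real.sqrt (eta j * (c j []).im) * Real.sqrt (∑' w, psi w ^ 2)) atTop
      (𝓝 (Real.sqrt (0 * C0.im) * Real.sqrt (∑' w, psi w ^ 2))) := by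
    have h3 : Tendsto (fun j => (c j []).im) atTop (𝓝 C0.im) :=
      (Complex.continuous_im.tendsto _).comp hlim
    exact ((Real.continuous_sqrt.tendsto _).comp (heta0.mul h3)).mul_const _
  rw [zero_mul, Real.sqrt_zero, zero_mul] at h2
  have h3 := le_of_tendsto_of_tendsto' h1 h2 (fun j => green_bound (hc j) (heta j) hs hsum)
  have h4 : (psi [] : ℂ) + C0 * (pv : ℂ) = 0 := norm_le_zero_iff.1 h3
  have h5 := congrArg Complex.im h4
  simp only [Complex.add_im, Complex.ofReal_im, Complex.mul_im, Complex.ofReal_re, mul_zero,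
    zero_add, Complex.zero_im] at h5
  have hpv : pv = 0 := by
    rcases mul_eq_zero.1 h5 with h | h
    · exact absurd h hC0.ne'
    · exact h
  subst hpv
  have h6 := congrArg Complex.re h4
  simpa using h6

/-! ### Tree algebra at the real energy -/

/-- the limit cavity numbers at the real energy -/
def CavR (E : ℝ) (V : List K → ℝ) (c : List K → ℂ) : Prop :=
  ∀ w, 0 < (c w).im ∧ c w * ((E : ℂ) - (V w : ℂ) + ∑ k, c (k :: w)) = -1

theorem cavR_of_tendsto {E : ℝ} {V : List K → ℝ} {eta : ℕ → ℝ} {c : ℕ → List K → ℂ}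
    {c0 : List K → ℂ} (heta0 : Tendsto eta atTop (𝓝 0))
    (hc : ∀ j, Cav ((E : ℂ) + Complex.I * (eta j : ℂ)) V (c j))
    (hlim : ∀ w, Tendsto (fun j => c j w) atTop (𝓝 (c0 w))) (hpos : ∀ w, 0 < (c0 w).im) :
    CavR E V c0 := by
  intro w
  refine ⟨hpos w, ?_⟩
  have h1 : Tendsto (fun j => c j w * ((E : ℂ) + Complex.I * (eta j : ℂ) - (V w : ℂ) +
      ∑ k, c j (k :: w))) atTop (𝓝 (c0 w * ((E : ℂ) + Complex.I * ((0 : ℝ) : ℂ) - (V w : ℂ) +
      ∑ k, c0 (k :: w)))) := by
    refine (hlim w).mul ?_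
    refine Tendsto.add ?_ (tendsto_finsetSum _ fun k _ => hlim _)
    refine Tendsto.sub ?_ tendsto_const_nhds
    refine tendsto_const_nhds.add ?_
    refine tendsto_const_nhds.mul ?_
    exact (Complex.continuous_ofReal.tendsto _).comp heta0
  have h2 : (fun j => c j w * ((E : ℂ) + Complex.I * (eta j : ℂ) - (V w : ℂ) +
      ∑ k, c j (k :: w))) = fun _ => (-1 : ℂ) := by
    funext j
    exact (hc j w).2
  rw [h2] at h1
  have h3 := tendsto_nhds_unique tendsto_const_nhds h1
  rw [Complex.ofReal_zero, mul_zero, add_zero] at h3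
  exact h3.symm

/-- the ratio `G(o_w, ·) / G(u, ·)` -/
def rat (c : List K → ℂ) : List K → ℂ
  | [] => 1
  | k :: w => - c (k :: w) * rat c w

/-- the coefficients: `rat c w = l1 + l2 * (-1 / c [])` with `l1, l2` real -/
def l2c (c : List K → ℂ) (w : List K) : ℝ := (rat c w).im / (-1 / c []).im
/-- first coefficient -/
def l1c (c : List K → ℂ) (w : List K) : ℝ := (rat c w).re - l2c c w * (-1 / c []).re

section alg
variable {E : ℝ} {V : List K → ℝ} {c : List K → ℂ}

theorem neg_inv_im_pos {x : ℂ} (hx : 0 < x.im) : 0 < (-1 / x).im := by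
  have h0 : x ≠ 0 := by rintro rfl; simp at hx
  rw [neg_div, one_div, Complex.neg_im, Complex.inv_im]
  have := Complex.normSq_pos.2 h0
  rw [neg_div, neg_neg]
  positivity

omit [Fintype K] in
theorem rat_eq (h : 0 < (c []).im) (w : List K) :
    rat c w = (l1c c w : ℂ) + (l2c c w : ℂ) * (-1 / c []) := by
  have h1 := neg_inv_im_pos h
  apply Complex.ext
  · simp only [Complex.add_re, Complex.ofReal_re, Complex.mul_re, Complex.ofReal_im, zero_mul,
      sub_zero, l1c]
    ring
  · simp only [Complex.add_im, Complex.ofReal_im, Complex.mul_im, Complex.ofReal_re, zero_mul,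
      add_zero, zero_add, l2c]
    rw [div_mul_cancel₀ _ h1.ne']

omit [Fintype K] in
theorem l1c_nil : l1c c [] = 1 := by simp [l1c, l2c, rat]
omit [Fintype K] in
theorem l2c_nil : l2c c [] = 0 := by simp [l2c, rat]

theorem CavR.ne_zero (h : CavR E V c) (w : List K) : c w ≠ 0 := by
  intro h0
  have := (h w).1
  rw [h0] at this
  simp at this

theorem rat_eqn (h : CavR E V c) (k0 : K) (w : List K) :
    ∑ k, rat c (k :: k0 :: w) + rat c w = ((E : ℂ) - (V (k0 :: w) : ℂ)) * rat c (k0 :: w) := by
  have h1 := (h (k0 :: w)).2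
  have h2 : rat c (k0 :: w) = - c (k0 :: w) * rat c w := rfl
  have h3 : ∑ k, rat c (k :: k0 :: w) = -(∑ k, c (k :: k0 :: w)) * rat c (k0 :: w) := by
    rw [← sum_neg_distrib, sum_mul]
    rfl
  rw [h3, h2]
  linear_combination (rat c w) * h1

theorem rat_eqn_root (h : CavR E V c) :
    ∑ k, rat c [k] + (-1 / c []) = ((E : ℂ) - (V [] : ℂ)) * rat c [] := by
  have h1 := (h []).2
  have h0 := h.ne_zero []
  have h3 : ∑ k, rat c [k] = -(∑ k, c [k]) := by
    rw [← sum_neg_distrib]
    refine sum_congr rfl fun k _ => ?_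
    simp [rat]
  rw [h3]
  have h4 : (-1 / c []) = (E : ℂ) - (V [] : ℂ) + ∑ k, c [k] := by
    rw [div_eq_iff h0, ← h1]; ring
  rw [h4]
  simp only [rat]
  ring

/-- a real-linear functional `x + y*t ↦ a x + b y` -/
theorem sol_of (h : CavR E V c) (a b : ℝ) :
    Sol E V (fun w => l1c c w * a + l2c c w * b) b := by
  have hp := (h []).1
  have hq := neg_inv_im_pos hp
  -- the functional
  set t : ℂ := -1 / c [] with ht
  have key : ∀ x : ℂ, ∃! p : ℝ × ℝ, x = (p.1 : ℂ) + (p.2 : ℂ) * t := by
    intro x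
    refine ⟨(x.re - x.im / t.im * t.re, x.im / t.im), ?_, ?_⟩
    · apply Complex.ext
      · simp
      · simp only [Complex.add_im, Complex.ofReal_im, Complex.mul_im, Complex.ofReal_re,
          zero_mul, add_zero, zero_add]
        rw [div_mul_cancel₀ _ hq.ne']
    · rintro ⟨p, q⟩ hx
      simp only at hx
      have h1 : q = x.im / t.im := by
        rw [hx]
        simp only [Complex.add_im, Complex.ofReal_im, Complex.mul_im, Complex.ofReal_re,
          zero_mul, add_zero, zero_add]
        rw [mul_div_assoc, div_self hq.ne', mul_one]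
      have h2 : p = x.re - q * t.re := by
        rw [hx]; simp
      rw [Prod.mk.injEq]
      exact ⟨by rw [h2, h1], h1⟩
  have uniq : ∀ p q p' q' : ℝ, (p : ℂ) + (q : ℂ) * t = (p' : ℂ) + (q' : ℂ) * t →
      p = p' ∧ q = q' := by
    intro p q p' q' hpq
    obtain ⟨r, hr, hu⟩ := key ((p : ℂ) + (q : ℂ) * t)
    have e1 := hu (p, q) rfl
    have e2 := hu (p', q') hpq
    rw [← e2] at e1
    exact Prod.mk.inj e1
  constructor
  · have h1 := rat_eqn_root h
    rw [← ht] at h1
    simp only [rat_eq hp, ← ht] at h1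
    have h2 : (((∑ k, l1c c [k] : ℝ) : ℂ)) + ((∑ k, l2c c [k] + 1 : ℝ) : ℂ) * t =
        (((E - V []) * l1c c [] : ℝ) : ℂ) + (((E - V []) * l2c c [] : ℝ) : ℂ) * t := by
      push_cast
      rw [sum_add_distrib, ← sum_mul] at h1
      linear_combination h1
    obtain ⟨e1, e2⟩ := uniq _ _ _ _ h2
    rw [sum_add_distrib, ← sum_mul, ← sum_mul, e1]
    have e3 : ∑ k, l2c c [k] = (E - V []) * l2c c [] - 1 := by linarith
    rw [e3]; ring
  · intro k0 w
    have h1 := rat_eqn h k0 w
    simp only [rat_eq hp, ← ht] at h1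
    have h2 : (((∑ k, l1c c (k :: k0 :: w) + l1c c w : ℝ) : ℂ)) +
        ((∑ k, l2c c (k :: k0 :: w) + l2c c w : ℝ) : ℂ) * t =
        (((E - V (k0 :: w)) * l1c c (k0 :: w) : ℝ) : ℂ) +
          (((E - V (k0 :: w)) * l2c c (k0 :: w) : ℝ) : ℂ) * t := by
      push_cast
      rw [sum_add_distrib, ← sum_mul] at h1
      linear_combination h1
    obtain ⟨e1, e2⟩ := uniq _ _ _ _ h2
    rw [sum_add_distrib, ← sum_mul, ← sum_mul]
    linear_combination a * e1 + b * e2

end alg

/-- (hD) of the abstract graphing theorem (helper663) -/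
theorem hD {E : ℝ} {V : List K → ℝ} {eta : ℕ → ℝ} {c : ℕ → List K → ℂ}
    {c0 : List K → ℂ} (heta : ∀ j, 0 < eta j) (heta0 : Tendsto eta atTop (𝓝 0))
    (hc : ∀ j, Cav ((E : ℂ) + Complex.I * (eta j : ℂ)) V (c j))
    (hlim : ∀ w, Tendsto (fun j => c j w) atTop (𝓝 (c0 w))) (hpos : ∀ w, 0 < (c0 w).im)
    (a b : ℝ) (hsum : Summable (fun w => (l1c c0 w * a + l2c c0 w * b) ^ 2)) :
    a = 0 ∧ b = 0 := by
  have hR := cavR_of_tendsto heta0 hc hlim hpos
  have h1 := lemmaD heta heta0 hc (hlim []) (hpos []) (sol_of hR a b) hsum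
  refine ⟨?_, h1.2⟩
  have h2 := h1.1
  rw [l1c_nil, l2c_nil] at h2
  linarith

omit [Fintype K] in
/-- covariance identity for `x` on the far side -/
theorem phi_far {c : List K → ℂ} (h : 0 < (c []).im) (w : List K) (Gux Gvx : ℂ)
    (hx : Gvx = (-1 / c []) * Gux) :
    rat c w * Gux = (l1c c w : ℂ) * Gux + (l2c c w : ℂ) * Gvx := by
  rw [rat_eq h w, hx]; ring

omit [Fintype K] in
theorem phi_far_im {c : List K → ℂ} (h : 0 < (c []).im) (w : List K) (Gux Gvx : ℂ)
    (hx : Gvx = (-1 / c []) * Gux) :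
    (rat c w * Gux).im = l1c c w * Gux.im + l2c c w * Gvx.im := by
  rw [phi_far h w Gux Gvx hx]
  simp

omit [Fintype K] in
/-- covariance identity at `x = u` -/
theorem phi_root_im {c : List K → ℂ} (h : 0 < (c []).im) (w : List K) (Guu Gvu : ℂ)
    (hx : Guu / c [] + Gvu = 1) :
    (rat c w * Guu).im = l1c c w * Guu.im + l2c c w * Gvu.im := by
  have h1 : rat c w * Guu = (l1c c w : ℂ) * Guu + (l2c c w : ℂ) * Gvu - ((l2c c w : ℝ) : ℂ) := by
    rw [rat_eq h w]
    linear_combination (-(l2c c w) : ℂ) * hx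
  rw [h1]
  simp

end

end Crest.Agent.R166.L2_942
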