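import Crest.Agent.R166.Spec_B1_955
import Crest.Agent.R166.Emp_974

/-!
# Row 166, leaf B4 (helper831): `Stmt_LLNStar`

The star counts of the quantised samples converge in probability to the star law of the limit.
Portmanteau with finitely many bounded continuous functions + local constancy of the finite views
off the coordinate thresholds.
-/

set_option autoImplicit false
set_option linter.unusedSectionVars false

namespace Crest.Agent.R166.LLNStar831

open MeasureTheory Filter Topology BoundedContinuousFunction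
open Crest.Agent.R166.Words955 Crest.Agent.R166.SpecB1 Crest.ProbabilityR.RandomMatrix
open Crest.Agent.R166.Count674 (St Th)
open Crest.Agent.R166.Upp724 (View viewOf)

/-! ### Portmanteau with finitely many functions -/

section port

variable {E : Type*} [TopologicalSpace E] [MeasurableSpace E] [BorelSpace E]

/-- a neighbourhood of `P` is controlled by finitely many bounded continuous functions -/
theorem nhds_bcf (P : ProbabilityMeasure E) {V : Set (ProbabilityMeasure E)} (hV : V ∈ 𝓝 P) :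
    ∃ (S : Finset (E →ᵇ ℝ)) (δ : ℝ), 0 < δ ∧ ∀ ν : ProbabilityMeasure E,
      (∀ φ ∈ S, |∫ ξ, φ ξ ∂(ν : Measure E) - ∫ ξ, φ ξ ∂(P : Measure E)| ≤ δ) → ν ∈ V := by
  classical
  set c : ProbabilityMeasure E → (E →ᵇ ℝ) → ℝ := fun ν φ => ∫ ξ, φ ξ ∂(ν : Measure E) with hc
  have h0 : Tendsto (fun ν : ProbabilityMeasure E => ν) (comap c (𝓝 (c P))) (𝓝 P) := by
    rw [ProbabilityMeasure.tendsto_iff_forall_integral_tendsto]
    intro φ
    have h1 : Tendsto c (comap c (𝓝 (c P))) (𝓝 (c P)) := tendsto_comap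
    exact (tendsto_pi_nhds.1 h1) φ
  have h1 := h0 hV
  rw [mem_map, mem_comap] at h1
  obtain ⟨W, hW, hsub⟩ := h1
  rw [nhds_pi, Filter.mem_pi] at hW
  obtain ⟨I, hI, t, ht, hIt⟩ := hW
  choose r hr hrt using fun q => Metric.mem_nhds_iff.1 (ht q)
  obtain ⟨δ, hδ, hδr⟩ : ∃ δ : ℝ, 0 < δ ∧ ∀ q ∈ hI.toFinset, δ < r q := by
    rcases hI.toFinset.eq_empty_or_nonempty with h0 | h0
    · exact ⟨1, one_pos, by simp [h0]⟩
    · obtain ⟨q0, hq0, hmin⟩ := hI.toFinset.exists_min_image r h0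
      exact ⟨r q0 / 2, by have := hr q0; positivity, fun q hq => by
        have := hmin q hq; have := hr q0; linarith⟩
  refine ⟨hI.toFinset, δ, hδ, fun ν hS => ?_⟩
  have h2 : ν ∈ c ⁻¹' W :=
    hIt fun q hq => hrt q (by
      rw [Metric.mem_ball, Real.dist_eq]
      exact (hS q (hI.mem_toFinset.2 hq)).trans_lt (hδr q (hI.mem_toFinset.2 hq)))
  exact hsub h2

/-- finitely many continuity sets are controlled by finitely many bounded continuous functions -/
theorem portmanteau_fin [HasOuterApproxClosed E] {ι : Type*} [Finite ι] (P : Measure E)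
    [hP : IsProbabilityMeasure P]
    (B : ι → Set E) (hB : ∀ i, P (frontier (B i)) = 0) {ε : ℝ} (hε : 0 < ε) :
    ∃ (S : Finset (E →ᵇ ℝ)) (δ : ℝ), 0 < δ ∧ ∀ ν : Measure E, IsProbabilityMeasure ν →
      (∀ φ ∈ S, |∫ ξ, φ ξ ∂ν - ∫ ξ, φ ξ ∂P| ≤ δ) → ∀ i, |ν.real (B i) - P.real (B i)| ≤ ε := by
  let P0 : ProbabilityMeasure E := ⟨P, hP⟩
  have hV : {ν : ProbabilityMeasure E |
      ∀ i, |(ν : Measure E).real (B i) - P.real (B i)| ≤ ε} ∈ 𝓝 P0 := by
    have h1 : ∀ i, ∀ᶠ ν : ProbabilityMeasure E in 𝓝 P0,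
        |(ν : Measure E).real (B i) - P.real (B i)| ≤ ε := by
      intro i
      have hc : Tendsto (fun ν : ProbabilityMeasure E => (ν : Measure E) (B i)) (𝓝 P0)
          (𝓝 ((P0 : Measure E) (B i))) :=
        ProbabilityMeasure.tendsto_measure_of_null_frontier_of_tendsto' tendsto_id (hB i)
      have hc' : Tendsto (fun ν : ProbabilityMeasure E => (ν : Measure E).real (B i)) (𝓝 P0)
          (𝓝 ((P0 : Measure E).real (B i))) :=
        (ENNReal.tendsto_toReal (measure_ne_top _ _)).comp hc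
      have h2 := hc' (Metric.closedBall_mem_nhds _ hε)
      filter_upwards [h2] with ν hν
      have h3 := Metric.mem_closedBall.1 (Set.mem_preimage.1 hν)
      rwa [Real.dist_eq] at h3
    exact eventually_all.2 h1
  obtain ⟨S, δ, hδ, h⟩ := nhds_bcf P0 hV
  exact ⟨S, δ, hδ, fun ν hν hq i => h ⟨ν, hν⟩ hq i⟩

end port

/-! ### Local constancy -/

section lc

variable {X Y : Type*} [TopologicalSpace X]

/-- `g` is constant near `x` -/
def LC (g : X → Y) (x : X) : Prop := ∀ᶠ x' in 𝓝 x, g x' = g x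

theorem frontier_subset_of_lc {g : X → Y} {G : Set X} (h : ∀ x ∈ G, LC g x) (y : Y) :
    frontier {x | g x = y} ⊆ Gᶜ := by
  intro x hx hxG
  have h1 := h x hxG
  by_cases h2 : g x = y
  · have h3 : x ∈ interior {x | g x = y} := by
      rw [mem_interior_iff_mem_nhds]
      filter_upwards [h1] with x' hx'
      show g x' = y
      rw [hx', h2]
    exact hx.2 h3
  · have h3 : x ∈ interior {x | g x = y}ᶜ := by
      rw [mem_interior_iff_mem_nhds]
      filter_upwards [h1] with x' hx'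
      show ¬ g x' = y
      rw [hx']; exact h2
    rw [interior_compl] at h3
    exact h3 hx.1

theorem lc_cell {L D : ℝ} {M : ℕ} [NeZero M] {y : ℝ} (hD : 0 < D)
    (hy : ∀ z : ℤ, y ≠ z * D - L) : LC (Lev47.cell L D M) y := by
  have h1 : (⌊(y + L) / D⌋ : ℝ) < (y + L) / D := by
    refine lt_of_le_of_ne (Int.floor_le _) fun h => ?_
    apply hy ⌊(y + L) / D⌋
    rw [h]
    field_simp
    ring
  have h2 : (y + L) / D < ⌊(y + L) / D⌋ + 1 := Int.lt_floor_add_one _
  have hc : Continuous fun y' : ℝ => (y' + L) / D := by fun_prop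
  have h3 : ∀ᶠ y' in 𝓝 y, (y' + L) / D ∈ Set.Ioo (⌊(y + L) / D⌋ : ℝ) (⌊(y + L) / D⌋ + 1) :=
    hc.continuousAt.eventually (Ioo_mem_nhds h1 h2)
  filter_upwards [h3] with y' hy'
  have h4 : ⌊(y' + L) / D⌋ = ⌊(y + L) / D⌋ :=
    Int.floor_eq_iff.2 ⟨hy'.1.le, hy'.2⟩
  have h5 : ⌊(y' + L) / D⌋₊ = ⌊(y + L) / D⌋₊ := by
    rw [← Int.floor_toNat, h4, Int.floor_toNat]
  apply Fin.ext
  simp only [Lev47.cell, h5]

theorem LC.comp {Z : Type*} [TopologicalSpace Z] {g : Z → Y} {f : X → Z} {x : X}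
    (hg : LC g (f x)) (hf : ContinuousAt f x) : LC (fun x => g (f x)) x :=
  hf.eventually hg

theorem LC.prod {Z : Type*} {g : X → Y} {f : X → Z} {x : X} (hg : LC g x) (hf : LC f x) :
    LC (fun x => (g x, f x)) x := by
  filter_upwards [hg, hf] with x' h1 h2
  rw [h1, h2]

theorem LC.pi {ι : Type*} [Finite ι] {g : ι → X → Y} {x : X} (hg : ∀ i, LC (g i) x) :
    LC (fun x i => g i x) x := by
  filter_upwards [eventually_all.2 hg] with x' h1
  funext i
  exact h1 i

end lc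

section conf

variable {d : ℕ} [NeZero d] {T S : Type} [TopologicalSpace T]

theorem continuous_rs (i : Fin d) :
    Continuous (PortAct.rs i : Fin d × T → Fin d × T) := by
  show Continuous fun x : Fin d × T => (x.1 + i, x.2)
  have h : Continuous fun a : Fin d => a + i := continuous_of_discreteTopology
  exact (h.comp continuous_fst).prodMk continuous_snd

theorem continuous_step (i : Fin d) : Continuous (step i : Conf d (Fin d × T) → _) :=
  continuous_cross.comp (continuous_rotn continuous_rs i)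

theorem lc_label (ζ : Conf d (Fin d × T)) : LC (fun ζ : Conf d (Fin d × T) => (ζ TW.nil).1) ζ := by
  have hc : Continuous fun ζ : Conf d (Fin d × T) => (ζ TW.nil).1 :=
    continuous_fst.comp (continuous_apply _)
  have h1 : {x : Fin d | x = (ζ TW.nil).1} ∈ 𝓝 ((ζ TW.nil).1) := by
    rw [nhds_discrete]; exact rfl
  exact hc.continuousAt.eventually h1

theorem continuousAt_nbr (i : Fin d) (ζ : Conf d (Fin d × T)) :
    ContinuousAt (nbr i : Conf d (Fin d × T) → _) ζ := by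
  have h1 : ContinuousAt (step (i - (ζ TW.nil).1) : Conf d (Fin d × T) → _) ζ :=
    (continuous_step _).continuousAt
  refine h1.congr ?_
  filter_upwards [lc_label ζ] with ζ' hζ'
  unfold nbr
  rw [hζ']

theorem nbr_snd (i : Fin d) (ζ : Conf d (Fin d × T)) (w : TW d) :
    ∃ w', (nbr i ζ w).2 = (ζ w').2 := by
  unfold nbr step cross rotn
  by_cases h : TW.cr w = TW.nil
  · exact ⟨TW.nil, by simp only [h, if_true]; rfl⟩
  · exact ⟨_, by simp only [h, if_false]; rfl⟩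

variable {G : Set (Conf d (Fin d × T))}

theorem lc_nbr_label (i : Fin d) (ζ : Conf d (Fin d × T)) :
    LC (fun ζ : Conf d (Fin d × T) => (nbr i ζ TW.nil).1) ζ :=
  LC.comp (g := fun ζ : Conf d (Fin d × T) => (ζ TW.nil).1) (lc_label (nbr i ζ))
    (continuousAt_nbr i ζ)

theorem lc_cview {g : Conf d (Fin d × T) → S} (hG : ∀ ζ ∈ G, ∀ i, nbr i ζ ∈ G)
    (hg : ∀ ζ ∈ G, LC g ζ) (r : ℕ) : ∀ ζ ∈ G, LC (cview g r) ζ := by
  induction r with
  | zero => exact hg
  | succ r ih =>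
    intro ζ hζ
    refine LC.prod (hg ζ hζ) (LC.pi fun i => LC.prod (lc_nbr_label i ζ) ?_)
    exact LC.comp (ih (nbr i ζ) (hG ζ hζ i)) (continuousAt_nbr i ζ)

theorem lc_cstar {g : Conf d (Fin d × T) → S} (hG : ∀ ζ ∈ G, ∀ i, nbr i ζ ∈ G)
    (hg : ∀ ζ ∈ G, LC g ζ) : ∀ ζ ∈ G, LC (cstar g) ζ := by
  intro ζ hζ
  refine LC.prod (hg ζ hζ) (LC.pi fun i => LC.prod (lc_nbr_label i ζ) ?_)
  exact LC.comp (hg (nbr i ζ) (hG ζ hζ i)) (continuousAt_nbr i ζ)

end conf

/-! ### The colours -/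

section col

variable {d k : ℕ} [NeZero d]

/-- configurations with no coordinate on a threshold -/
def GS (d k : ℕ) [NeZero d] (t : ℝ) (m : ℕ) :
    Set (Conf d (Fin d × ℝ × (Fin k → ℝ) × (Fin k → ℝ))) :=
  {ζ | ∀ w, (∀ z : ℤ, (ζ w).2.1 ≠ z * (2 * (1 / 2) ^ m) - 1) ∧
    ∀ i, ∀ z : ℤ, (ζ w).2.2.1 i + Real.sqrt t * (ζ w).2.2.2 i ≠ z * (1 / 8 : ℝ) ^ m - 2 ^ m}

theorem GS_nbr (t : ℝ) (m : ℕ) :
    ∀ ζ ∈ GS d k t m, ∀ i, nbr i ζ ∈ GS d k t m := by
  intro ζ hζ i w
  obtain ⟨w', hw'⟩ := nbr_snd i ζ w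
  rw [hw']
  exact hζ w'

/-- the vertex view of 47 is the view `cview` -/
theorem vview_mapC {T A : Type} (q : T → A) (a : ℕ) (ζ : Conf d (Fin d × T)) :
    View47.vview a (View47.mapC q ζ) = cview (fun ζ => q (ζ TW.nil).2) a ζ := by
  induction a generalizing ζ with
  | zero => rfl
  | succ a ih =>
    rw [View47.vview_succ]
    simp only [cview, View47.lb_mapC, ← View47.mapC_step, ih]
    rfl

theorem lc_gcol (t : ℝ) (a m : ℕ) : ∀ ζ ∈ GS d k t m, LC (gcol d k t a m) ζ := by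
  intro ζ hζ
  refine LC.prod ?_ (LC.pi fun i => ?_)
  · simp only [vview_mapC]
    refine lc_cview (GS_nbr t m) (fun ζ hζ => ?_) a ζ hζ
    have h1 : LC (Lev47.oq m) ((ζ TW.nil).2.1) := lc_cell (by positivity) (hζ TW.nil).1
    exact LC.comp (f := fun ζ : Conf d (Fin d × ℝ × (Fin k → ℝ) × (Fin k → ℝ)) =>
      (ζ TW.nil).2.1) h1
      (continuous_fst.comp (continuous_snd.comp (continuous_apply TW.nil))).continuousAt
  · have h1 : LC (Lev47.yq m) ((ζ TW.nil).2.2.1 i + Real.sqrt t * (ζ TW.nil).2.2.2 i) :=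
      lc_cell (by positivity) ((hζ TW.nil).2 i)
    refine LC.comp (f := fun ζ : Conf d (Fin d × ℝ × (Fin k → ℝ) × (Fin k → ℝ)) =>
      (ζ TW.nil).2.2.1 i + Real.sqrt t * (ζ TW.nil).2.2.2 i) h1 ?_
    have h2 : Continuous fun ζ : Conf d (Fin d × ℝ × (Fin k → ℝ) × (Fin k → ℝ)) =>
        (ζ TW.nil).2.2 :=
      continuous_snd.comp (continuous_snd.comp (continuous_apply TW.nil))
    have h3 : Continuous fun ζ : Conf d (Fin d × ℝ × (Fin k → ℝ) × (Fin k → ℝ)) =>
        (ζ TW.nil).2.2.1 i := (continuous_apply i).comp (continuous_fst.comp h2)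
    have h4 : Continuous fun ζ : Conf d (Fin d × ℝ × (Fin k → ℝ) × (Fin k → ℝ)) =>
        (ζ TW.nil).2.2.2 i := (continuous_apply i).comp (continuous_snd.comp h2)
    exact (h3.add (continuous_const.mul h4)).continuousAt

theorem null_GS {t : ℝ} {m : ℕ} {Q : Measure (Conf d (Fin d × ℝ × (Fin k → ℝ) × (Fin k → ℝ)))}
    (h1 : ∀ w (r : ℝ), Q {ζ | (ζ w).2.1 = r} = 0)
    (h2 : ∀ w i (r : ℝ), Q {ζ | (ζ w).2.2.1 i + Real.sqrt t * (ζ w).2.2.2 i = r} = 0) :
    Q (GS d k t m)ᶜ = 0 := by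
  have hsub : (GS d k t m)ᶜ ⊆ ⋃ w : TW d,
      ((⋃ z : ℤ, {ζ : Conf d (Fin d × ℝ × (Fin k → ℝ) × (Fin k → ℝ)) |
          (ζ w).2.1 = z * (2 * (1 / 2) ^ m) - 1}) ∪
        ⋃ i : Fin k, ⋃ z : ℤ, {ζ : Conf d (Fin d × ℝ × (Fin k → ℝ) × (Fin k → ℝ)) |
          (ζ w).2.2.1 i + Real.sqrt t * (ζ w).2.2.2 i = z * (1 / 8 : ℝ) ^ m - 2 ^ m}) := by
    intro ζ hζ
    by_contra hcon
    apply hζ
    intro w
    have h3 : ζ ∉ _ := fun h => hcon (Set.mem_iUnion.2 ⟨w, h⟩)
    refine ⟨fun z hz => h3 (Or.inl (Set.mem_iUnion.2 ⟨z, hz⟩)), fun i z hz =>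
      h3 (Or.inr (Set.mem_iUnion.2 ⟨i, Set.mem_iUnion.2 ⟨z, hz⟩⟩))⟩
  refine measure_mono_null hsub ?_
  refine measure_iUnion_null fun w => measure_union_null ?_ ?_
  · exact measure_iUnion_null fun z => h1 w _
  · exact measure_iUnion_null fun i => measure_iUnion_null fun z => h2 w i _

/-- the level `(a, m)` colour of the configuration of a sample is the colour of the vertex -/
theorem gcol_conf {n : ℕ} {t : ℝ} (a m : ℕ) (x : Seq980.PS d n) (hp : ∀ h, x.1 (x.1 h) = h)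
    (F Z : Fin k → Fin n → ℝ) (h : Fin n × Fin d) :
    gcol d k t a m (conf x.1 (lab (dXZ x F Z)) h) =
      colV a m x (fun i v => F i v + Real.sqrt t * Z i v) h.1 := by
  unfold gcol colV
  refine Prod.ext ?_ ?_
  · rw [vview_mapC]
    exact cview_conf (⇑x.1) hp (dXZ x F Z) (fun ζ => Lev47.oq m (ζ TW.nil).2.1)
      (fun v => Lev47.oq m (x.2 v)) (fun h => rfl) a h
  · rfl

/-- the empirical law of the star type = normalised star counts -/
theorem emp_star {n : ℕ} {t : ℝ} (a m R : ℕ) (x : Seq980.PS d n) (hp : ∀ h, x.1 (x.1 h) = h)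
    (F Z : Fin k → Fin n → ℝ) (hn : 0 < n)
    (σ : St (View (Col d k a m) (Fin d) R) d) :
    (emp x.1 (lab (dXZ x F Z))).real {ζ | cstar (cview (gcol d k t a m) R) ζ = σ} =
      (Nat.card {v // Count674.starOf x.1 (viewOf x.1
        (colV a m x (fun i v => F i v + Real.sqrt t * Z i v)) R) v = σ} : ℝ) / n := by
  classical
  set c := viewOf x.1 (colV a m x (fun i v => F i v + Real.sqrt t * Z i v)) R with hc
  have hst : ∀ h : Fin n × Fin d,
      cstar (cview (gcol d k t a m) R) (conf x.1 (lab (dXZ x F Z)) h) =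
        Count674.starOf x.1 c h.1 := by
    intro h
    refine cstar_conf x.1 hp (dXZ x F Z) (cview (gcol d k t a m) R) c (fun h => ?_) h
    exact cview_conf (⇑x.1) hp (dXZ x F Z) (gcol d k t a m) _ (fun h => gcol_conf a m x hp F Z h)
      R h
  have hd : 0 < d := NeZero.pos d
  rw [Measure.real, emp, Measure.smul_apply, Measure.finsetSum_apply]
  have h1 : ∀ v : Fin n, ∀ i : Fin d,
      (Measure.dirac (conf x.1 (lab (dXZ x F Z)) (v, i)))
        {ζ | cstar (cview (gcol d k t a m) R) ζ = σ} =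
      if Count674.starOf x.1 c v = σ then (1 : ENNReal) else 0 := by
    intro v i
    rw [Measure.dirac_apply, Set.indicator_apply]
    have : (conf x.1 (lab (dXZ x F Z)) (v, i) ∈ {ζ | cstar (cview (gcol d k t a m) R) ζ = σ}) ↔
        Count674.starOf x.1 c v = σ := by
      rw [← hst (v, i)]; rfl
    simp only [this, Pi.one_apply]
  have h2 : ∑ h : Fin n × Fin d, (Measure.dirac (conf x.1 (lab (dXZ x F Z)) h))
        {ζ | cstar (cview (gcol d k t a m) R) ζ = σ} =
      (d : ENNReal) * (Fintype.card {v // Count674.starOf x.1 c v = σ} : ENNReal) := by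
    rw [Fintype.sum_prod_type, Fintype.card_subtype]
    simp only [h1, Finset.sum_const, Finset.card_univ, Fintype.card_fin, nsmul_eq_mul]
    rw [← Finset.mul_sum, Finset.sum_boole]
  rw [h2, smul_eq_mul, ENNReal.toReal_mul,
    ENNReal.toReal_inv, ENNReal.toReal_mul, ENNReal.toReal_natCast, ENNReal.toReal_natCast,
    ENNReal.toReal_natCast, Fintype.card_prod, Fintype.card_fin, Fintype.card_fin,
    Nat.card_eq_fintype_card]
  have hn' : (n : ℝ) ≠ 0 := by positivity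
  have hd' : (d : ℝ) ≠ 0 := by positivity
  push_cast
  field_simp

end col

/-- **leaf B4** -/
theorem llnStar : Stmt_LLNStar := by
  intro d k _ Sq s E K' η c t Q hη hc ht hS hQ h1 h2 a m R ε hε
  classical
  obtain ⟨hQp, hQc⟩ := hQ
  have hfr : ∀ σ : St (View (Col d k a m) (Fin d) R) d,
      Q (frontier {ζ | cstar (cview (gcol d k t a m) R) ζ = σ}) = 0 := by
    intro σ
    refine measure_mono_null (frontier_subset_of_lc (G := GS d k t m) ?_ σ) (null_GS h1 h2)
    exact lc_cstar (GS_nbr t m) (lc_cview (GS_nbr t m) (lc_gcol t a m) R)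
  have hpol : HasOuterApproxClosed (Conf d (Fin d × ℝ × (Fin k → ℝ) × (Fin k → ℝ))) := by
    let _ := TopologicalSpace.upgradeIsCompletelyMetrizable
      (Conf d (Fin d × ℝ × (Fin k → ℝ) × (Fin k → ℝ)))
    infer_instance
  obtain ⟨S, δ, hδ, h3⟩ := portmanteau_fin Q
    (fun σ : St (View (Col d k a m) (Fin d) R) d =>
      {ζ | cstar (cview (gcol d k t a m) R) ζ = σ}) hfr hε
  set ε1 : ℝ := min δ (ε / (S.card + 1)) with hε1
  have hε1p : 0 < ε1 := lt_min hδ (by positivity)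
  have hev : ∀ᶠ j in atTop, ∀ φ ∈ S, ∀ x ∈ Sq.U j,
      gmP k (Sq.n j) {ξ | ε1 < |∫ ζ, φ ζ ∂(emp x.1 (lab (dXZ x (Sq.F j x) (ZP s E η c x ξ))))
        - ∫ ζ, φ ζ ∂Q|} ≤ ENNReal.ofReal ε1 := by
    rw [Filter.eventually_all_finset]
    intro φ _
    exact hQc φ φ.continuous ⟨‖φ‖, fun ξ => by
      have := φ.norm_coe_le_norm ξ
      rwa [Real.norm_eq_abs] at this⟩ ε1 hε1p
  filter_upwards [hev] with j hj x hx
  have hnj := Sq.pos j
  have hsub : {ξ | ∃ σ, ε < |(Nat.card {v // Count674.starOf x.1 (viewOf x.1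
        (colV a m x (fun i v => Sq.F j x i v + Real.sqrt t * ZP s E η c x ξ i v)) R) v = σ} : ℝ) / Sq.n j
        - qstar Q (cview (gcol d k t a m) R) σ|} ⊆
      ⋃ φ ∈ S, {ξ | ε1 < |∫ ζ, φ ζ ∂(emp x.1 (lab (dXZ x (Sq.F j x) (ZP s E η c x ξ))))
        - ∫ ζ, φ ζ ∂Q|} := by
    rintro ξ ⟨σ, hσ⟩
    by_contra hcon
    simp only [Set.mem_iUnion, not_exists] at hcon
    have hne : Nonempty (Fin (Sq.n j)) := ⟨⟨0, hnj⟩⟩
    have h4 := h3 (emp x.1 (lab (dXZ x (Sq.F j x) (ZP s E η c x ξ)))) inferInstance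
      (fun φ hφ => (not_lt.1 (hcon φ hφ)).trans (min_le_left _ _)) σ
    rw [emp_star a m R x (Sq.port j x hx).inv (Sq.F j x) (ZP s E η c x ξ) hnj σ] at h4
    exact absurd hσ (not_lt.2 h4)
  calc gmP k (Sq.n j) _ ≤ gmP k (Sq.n j) (⋃ φ ∈ S,
        {ξ | ε1 < |∫ ζ, φ ζ ∂(emp x.1 (lab (dXZ x (Sq.F j x) (ZP s E η c x ξ))))
        - ∫ ζ, φ ζ ∂Q|}) := measure_mono hsub
    _ ≤ ∑ φ ∈ S, gmP k (Sq.n j)
        {ξ | ε1 < |∫ ζ, φ ζ ∂(emp x.1 (lab (dXZ x (Sq.F j x) (ZP s E η c x ξ))))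
        - ∫ ζ, φ ζ ∂Q|} := measure_biUnion_finset_le _ _
    _ ≤ ∑ _φ ∈ S, ENNReal.ofReal ε1 := Finset.sum_le_sum fun φ hφ => hj φ hφ x hx
    _ = ENNReal.ofReal (S.card * ε1) := by
        rw [Finset.sum_const, nsmul_eq_mul, ENNReal.ofReal_mul (by positivity),
          ENNReal.ofReal_natCast]
    _ ≤ ENNReal.ofReal ε := by
        refine ENNReal.ofReal_le_ofReal ?_
        have h5 : (S.card : ℝ) * ε1 ≤ S.card * (ε / (S.card + 1)) := by
          gcongr; exact min_le_right _ _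
        have h6 : (S.card : ℝ) * (ε / (S.card + 1)) ≤ ε := by
          rw [← mul_div_assoc, div_le_iff₀ (by positivity)]
          have : (0 : ℝ) ≤ S.card := by positivity
          nlinarith
        linarith

end Crest.Agent.R166.LLNStar831

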