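import Crest.Agent.R166.Lim_47
import Crest.Agent.R166.Ent_397

/-!
Row 166, section 40.10 (helper47): from finite-alphabet conditional mutual information to
approximate conditional independence of σ-algebras.
-/

set_option autoImplicit false

namespace Crest.Agent.R166.Lim47

open MeasureTheory ProbabilityTheory Filter Topology Crest.Agent.R166.Ent397

section FiniteRV

variable {Ω : Type*} {m0 : MeasurableSpace Ω} {P : Measure Ω} [IsProbabilityMeasure P]
  {α β γ : Type*} [Fintype α] [Fintype β] [Fintype γ]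

/-- the σ-algebra generated by a finitely valued map -/
abbrev sg {Ω α : Type*} (X : Ω → α) : MeasurableSpace Ω := MeasurableSpace.comap X ⊤

omit [IsProbabilityMeasure P] in
theorem sg_le {X : Ω → α} (hX : FM X) : sg X ≤ m0 := by
  rintro s ⟨T, -, rfl⟩
  exact hX.preimage T

omit [Fintype α] in
theorem sg_mono_of_det {Ω : Type*} {α β : Type*} {X : Ω → α} {Y : Ω → β}
    (h : ∀ ω ω', Y ω = Y ω' → X ω = X ω') : sg X ≤ sg Y := by
  rintro s ⟨T, -, rfl⟩
  refine ⟨Y '' (X ⁻¹' T), trivial, ?_⟩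
  ext ω
  simp only [Set.mem_preimage, Set.mem_image]
  constructor
  · rintro ⟨ω', h1, h2⟩
    rw [← h ω' ω h2]; exact h1
  · intro h1
    exact ⟨ω, h1, rfl⟩

/-- a function measurable w.r.t. `sg X` factors through `X` -/
theorem exists_factor {Ω : Type*} {α : Type*} [Nonempty Ω] {X : Ω → α} {f : Ω → ℝ}
    (hf : Measurable[sg X] f) : ∃ φ : α → ℝ, f = fun ω => φ (X ω) := by
  refine exists_eq_comp fun ω ω' h => ?_
  obtain ⟨T, -, hT⟩ := hf (measurableSet_singleton (f ω'))
  have h1 : ω' ∈ X ⁻¹' T := by rw [hT]; simp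
  have h2 : ω ∈ X ⁻¹' T := by
    simp only [Set.mem_preimage] at h1 ⊢
    rw [h]; exact h1
  rw [hT] at h2
  simpa using h2

theorem integral_fm {X : Ω → α} (hX : FM X) (F : α → ℝ) :
    ∫ ω, F (X ω) ∂P = ∑ a, F a * lw P X a := by
  classical
  have h1 : ∀ ω, F (X ω) = ∑ a, (X ⁻¹' {a}).indicator (fun _ => F a) ω := by
    intro ω
    rw [Finset.sum_eq_single (X ω)]
    · simp
    · intro b _ hb
      simp [Set.indicator, hb.symm]
    · simp
  simp_rw [h1]
  rw [integral_finsetSum]
  · refine Finset.sum_congr rfl fun a _ => ?_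
    rw [integral_indicator_const _ (hX a), smul_eq_mul, mul_comm]
    rfl
  · intro a _
    exact (integrable_const _).indicator (hX a)

/-- conditional expectation given a finitely valued map -/
theorem condExp_sg {Z : Ω → γ} (hZ : FM Z) {f : Ω → ℝ} (hf : Integrable f P) :
    P[f|sg Z] =ᵐ[P] fun ω => (∫ x in Z ⁻¹' {Z ω}, f x ∂P) / lw P Z (Z ω) := by
  classical
  have hle : sg Z ≤ m0 := sg_le hZ
  set c : γ → ℝ := fun z => (∫ x in Z ⁻¹' {z}, f x ∂P) / lw P Z z with hc
  have hmeas : Measurable[sg Z] fun ω => c (Z ω) := by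
    have h1 : Measurable[sg Z, ⊤] Z := comap_measurable Z
    exact @Measurable.comp _ _ _ (sg Z) ⊤ _ c Z (fun _ _ => trivial) h1
  have hint : Integrable (fun ω => c (Z ω)) P := by
    refine Integrable.of_bound (hmeas.mono hle le_rfl).aestronglyMeasurable
      (∑ z, |c z|) (ae_of_all _ fun ω => ?_)
    rw [Real.norm_eq_abs]
    exact Finset.single_le_sum (f := fun z => |c z|) (fun z _ => abs_nonneg _) (Finset.mem_univ _)
  symm
  refine ae_eq_condExp_of_forall_setIntegral_eq hle hf (fun s _ _ => hint.integrableOn) ?_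
    hmeas.stronglyMeasurable.aestronglyMeasurable
  rintro s ⟨T, -, rfl⟩ -
  have hdec : Z ⁻¹' T = ⋃ z ∈ (Finset.univ.filter fun z => z ∈ T), Z ⁻¹' {z} := by
    ext ω; simp
  have hdisj : Set.Pairwise (↑(Finset.univ.filter fun z => z ∈ T))
      (Function.onFun Disjoint fun z => Z ⁻¹' {z}) := by
    intro a _ b _ hab
    refine Set.disjoint_left.2 fun ω h1 h2 => hab ?_
    simp only [Set.mem_preimage, Set.mem_singleton_iff] at h1 h2
    exact h1.symm.trans h2
  rw [hdec, integral_biUnion_finset _ (fun z _ => hZ z) hdisj (fun z _ => hint.integrableOn),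
    integral_biUnion_finset _ (fun z _ => hZ z) hdisj (fun z _ => hf.integrableOn)]
  refine Finset.sum_congr rfl fun z _ => ?_
  have h1 : ∫ ω in Z ⁻¹' {z}, c (Z ω) ∂P = ∫ ω in Z ⁻¹' {z}, c z ∂P := by
    refine setIntegral_congr_fun (hZ z) fun ω hω => ?_
    simp only [Set.mem_preimage, Set.mem_singleton_iff] at hω
    simp only [hω]
  rw [h1, setIntegral_const, smul_eq_mul]
  change lw P Z z * c z = _
  by_cases h0 : lw P Z z = 0
  · rw [h0, zero_mul]
    have h2 : P (Z ⁻¹' {z}) = 0 := by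
      have : P.real (Z ⁻¹' {z}) = 0 := h0
      rwa [measureReal_eq_zero_iff] at this
    rw [Measure.restrict_eq_zero.2 h2, integral_zero_measure]
  · simp only [hc]
    field_simp

/-- **Pinsker.** Small conditional mutual information implies approximate conditional
independence. -/
theorem approxCI_of_condMI {X : Ω → α} {Y : Ω → β} {Z : Ω → γ} (hX : FM X) (hY : FM Y)
    (hZ : FM Z) {I : ℝ} (hI : condMI P X Y Z ≤ I) :
    ApproxCI P (sg X) (sg Y) (sg Z) (2 * Real.sqrt I) := by
  classical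
  have hne : Nonempty Ω := P.nonempty_of_neZero
  intro f g hf hg hfb hgb
  have hfm : Measurable f := hf.mono (sg_le hX) le_rfl
  have hgm : Measurable g := hg.mono (sg_le hY) le_rfl
  have hfi : Integrable f P := integrable_of_bdd hfm hfb
  have hgi : Integrable g P := integrable_of_bdd hgm hgb
  obtain ⟨φ0, hφ0⟩ := exists_factor hf
  obtain ⟨ψ0, hψ0⟩ := exists_factor hg
  -- clip the factors
  set φ : α → ℝ := fun a => clip (φ0 a) with hφ
  set ψ : β → ℝ := fun a => clip (ψ0 a) with hψ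
  have hfφ : f = fun ω => φ (X ω) := by
    funext ω
    have h1 := hfb ω
    rw [hφ0] at h1 ⊢
    exact (clip_of_abs_le h1).symm
  have hgψ : g = fun ω => ψ (Y ω) := by
    funext ω
    have h1 := hgb ω
    rw [hψ0] at h1 ⊢
    exact (clip_of_abs_le h1).symm
  have hφb : ∀ a, |φ a| ≤ 1 := fun a => abs_clip_le _
  have hψb : ∀ a, |ψ a| ≤ 1 := fun a => abs_clip_le _
  -- first integral
  have e1 : ∫ ω, f ω * g ω ∂P = ∑ t : α × β × γ, (φ t.1 * ψ t.2.1) *
      lw P (fun ω => (X ω, Y ω, Z ω)) t := by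
    rw [hfφ, hgψ]
    exact integral_fm (P := P) (hX.pair (hY.pair hZ)) (fun t : α × β × γ => φ t.1 * ψ t.2.1)
  -- set integrals
  have eF : ∀ z, ∫ ω in Z ⁻¹' {z}, f ω ∂P = ∑ a, φ a * lw P (fun ω => (X ω, Z ω)) (a, z) := by
    intro z
    rw [← integral_indicator (hZ z)]
    have h1 : (Z ⁻¹' {z}).indicator f = fun ω => (fun t : α × γ => if t.2 = z then φ t.1 else 0)
        (X ω, Z ω) := by
      funext ω
      rw [hfφ]
      simp only [Set.indicator, Set.mem_preimage, Set.mem_singleton_iff]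
    rw [h1, integral_fm (P := P) (hX.pair hZ), Fintype.sum_prod_type]
    refine Finset.sum_congr rfl fun a _ => ?_
    rw [Finset.sum_eq_single z]
    · simp
    · intro b _ hb; simp [hb]
    · simp
  have eG : ∀ z, ∫ ω in Z ⁻¹' {z}, g ω ∂P = ∑ b, ψ b * lw P (fun ω => (Y ω, Z ω)) (b, z) := by
    intro z
    rw [← integral_indicator (hZ z)]
    have h1 : (Z ⁻¹' {z}).indicator g = fun ω => (fun t : β × γ => if t.2 = z then ψ t.1 else 0)
        (Y ω, Z ω) := by
      funext ω
      rw [hgψ]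
      simp only [Set.indicator, Set.mem_preimage, Set.mem_singleton_iff]
    rw [h1, integral_fm (P := P) (hY.pair hZ), Fintype.sum_prod_type]
    refine Finset.sum_congr rfl fun a _ => ?_
    rw [Finset.sum_eq_single z]
    · simp
    · intro b _ hb; simp [hb]
    · simp
  -- second integral
  have e2 : ∫ ω, (P[f|sg Z]) ω * (P[g|sg Z]) ω ∂P = ∑ t : α × β × γ, (φ t.1 * ψ t.2.1) *
      Ent397.mk P X Y Z t := by
    have h1 : ∫ ω, (P[f|sg Z]) ω * (P[g|sg Z]) ω ∂P =
        ∫ ω, (fun z => ((∫ x in Z ⁻¹' {z}, f x ∂P) / lw P Z z) *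
          ((∫ x in Z ⁻¹' {z}, g x ∂P) / lw P Z z)) (Z ω) ∂P := by
      refine integral_congr_ae ?_
      filter_upwards [condExp_sg (P := P) hZ hfi, condExp_sg (P := P) hZ hgi] with ω h1 h2
      rw [h1, h2]
    rw [h1]
    refine (integral_fm (P := P) hZ (fun z => ((∫ x in Z ⁻¹' {z}, f x ∂P) / lw P Z z) *
          ((∫ x in Z ⁻¹' {z}, g x ∂P) / lw P Z z))).trans ?_
    have h2 : ∀ z, ((∫ x in Z ⁻¹' {z}, f x ∂P) / lw P Z z) *
          ((∫ x in Z ⁻¹' {z}, g x ∂P) / lw P Z z) * lw P Z z =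
        ∑ a, ∑ b, (φ a * ψ b) * Ent397.mk P X Y Z (a, b, z) := by
      intro z
      rw [eF, eG]
      simp only [Ent397.mk]
      by_cases h0 : lw P Z z = 0
      · simp [h0]
      · rw [div_mul_div_comm, div_mul_eq_mul_div, mul_div_mul_right _ _ h0, Finset.sum_mul_sum,
          Finset.sum_div]
        refine Finset.sum_congr rfl fun a _ => ?_
        rw [Finset.sum_div]
        refine Finset.sum_congr rfl fun b _ => ?_
        ring
    rw [Finset.sum_congr rfl fun z _ => h2 z, Fintype.sum_prod_type]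
    simp only [Fintype.sum_prod_type]
    rw [Finset.sum_comm]
    refine Finset.sum_congr rfl fun a _ => ?_
    rw [Finset.sum_comm]
  unfold defect
  rw [e1, e2]
  refine (abs_sum_sub_mk_le P hX hY hZ (fun t : α × β × γ => φ t.1 * ψ t.2.1) 1 ?_).trans ?_
  · intro t
    show |φ t.1 * ψ t.2.1| ≤ 1
    rw [abs_mul]
    nlinarith [hφb t.1, hψb t.2.1, abs_nonneg (φ t.1), abs_nonneg (ψ t.2.1)]
  · rw [mul_one]
    exact mul_le_mul_of_nonneg_left (Real.sqrt_le_sqrt hI) (by norm_num)

end FiniteRV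

end Crest.Agent.R166.Lim47
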