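import Crest.Agent.R166.Erg_424
import Crest.Agent.R166.EnvLaw_289
import Crest.Agent.R166.TreeG_879

/-!
Row 166 (helper811): the field `erg` of `LimProc` for the clipped environment (#5109).
-/

set_option autoImplicit false

namespace Crest.Agent.R166.Erg811

open MeasureTheory Crest.Agent.R166.Words955 Crest.Agent.R166.EnvLaw289

variable {d : ℕ} [NeZero d] {X : Type} [MeasurableSpace X]

theorem measurable_clip : Measurable TreeG879.clip := by
  have : Continuous TreeG879.clip := by
    unfold TreeG879.clip
    exact continuous_const.max (continuous_const.min continuous_id)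
  exact this.measurable

/-- the clipped environment σ-algebra is contained in the environment σ-algebra -/
theorem comap_clip_le :
    MeasurableSpace.comap (fun (z : Conf d (Fin d × (ℝ × X))) (w : TW d) =>
      ((z w).1, TreeG879.clip (z w).2.1)) inferInstance ≤
    MeasurableSpace.comap (Erg424.envP (d := d) (T := ℝ) (X := X)) inferInstance := by
  have h : (fun (z : Conf d (Fin d × (ℝ × X))) (w : TW d) =>
      ((z w).1, TreeG879.clip (z w).2.1)) =
      (fun (ζ : Conf d (Fin d × ℝ)) (w : TW d) => ((ζ w).1, TreeG879.clip (ζ w).2)) ∘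
        Erg424.envP := rfl
  rw [h, ← MeasurableSpace.comap_comp]
  apply MeasurableSpace.comap_mono
  have hm : Measurable (fun (ζ : Conf d (Fin d × ℝ)) (w : TW d) =>
      ((ζ w).1, TreeG879.clip (ζ w).2)) := by
    refine measurable_pi_lambda _ fun w => ?_
    exact (measurable_fst.comp (measurable_pi_apply w)).prodMk
      (measurable_clip.comp (measurable_snd.comp (measurable_pi_apply w)))
  exact hm.comap_le

/-- **`LimProc.erg`** for the clipped environment -/
theorem erg_clip (h2 : 2 ≤ d) (Q : Measure (Conf d (Fin d × (ℝ × X)))) [IsProbabilityMeasure Q]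
    (hQ : Inv Q) {τ : Measure ℝ} [IsProbabilityMeasure τ]
    (henv : Q.map Erg424.envP = envLaw d τ)
    (f : Conf d (Fin d × (ℝ × X)) → ℝ)
    (hf : Measurable[MeasurableSpace.comap (fun (z : Conf d (Fin d × (ℝ × X))) (w : TW d) =>
      ((z w).1, TreeG879.clip (z w).2.1)) inferInstance] f)
    (h1 : ∀ᵐ h ∂Q, f (rotn 1 h) = f h) (h3 : ∀ᵐ h ∂Q, f (cross (rotn 1 (cross h))) = f h) :
    ∃ c : ℝ, ∀ᵐ h ∂Q, f h = c :=
  Erg424.erg_conf h2 Q hQ (ν := siteLaw d τ) henv f
    (fun s hs => comap_clip_le _ (hf hs)) h1 h3

end Crest.Agent.R166.Erg811
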