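import Crest.Agent.R166.LimProps_974
import Crest.Agent.R166.LimEnv_289

/-!
Row 166 (helper974), module F3: `E[X_l | Env] = 0` for the limit law of an extracted sequence.
-/

set_option autoImplicit false

namespace Crest.Agent.R166.LimProps974

open MeasureTheory Filter Topology BoundedContinuousFunction ProbabilityTheory
open Crest.ProbabilityR.RandomMatrix
open Crest.Agent.R166 Crest.Agent.R166.Words955 Crest.Agent.R166.Seq980 Crest.Agent.R166.Emp974
open Crest.Agent.R166.WeakUI974 Crest.Agent.R166.LimLaw980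
open Crest.Agent.R166.LimEnv289 (embE continuous_embE injective_embE gq continuous_gq abs_gq_le)

variable {d k : ℕ} [NeZero d]

/-- environments: labels and potentials -/
abbrev SE (d : ℕ) : Type := Fin d × ℝ

/-- real coordinates of environments -/
abbrev TE (d : ℕ) [NeZero d] : Type := TW d × Bool

/-- the environment of a configuration -/
def envM (ξ : Conf d (S1 d k)) : Conf d (SE d) := fun w => ((ξ w).1, (ξ w).2.1)

theorem continuous_envM : Continuous (envM : Conf d (S1 d k) → Conf d (SE d)) :=
  continuous_pi fun w => (continuous_fst.comp (continuous_apply w)).prodMk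
    (continuous_fst.comp (continuous_snd.comp (continuous_apply w)))

/-- the σ-algebra of the environment (labels and potentials) -/
def EnvS (d k : ℕ) [NeZero d] : MeasurableSpace (Conf d (S1 d k)) :=
  MeasurableSpace.comap (envM : Conf d (S1 d k) → Conf d (SE d)) inferInstance

theorem EnvS_le : EnvS d k ≤ (inferInstance : MeasurableSpace (Conf d (S1 d k))) :=
  continuous_envM.measurable.comap_le

/-- finite level: the frames are asymptotically orthogonal to all characters of the environment -/
def MeanOrth (S : Seq d k) : Prop :=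
  ∀ (q : TE d →₀ ℚ) (b : Bool) (l : Fin k) (δ : ℝ), 0 < δ → ∀ᶠ j in atTop, ∀ x ∈ S.U j,
    |∑ h : HE (S.n j) d, S.F j x l h.1 * gq d q b (conf x.1 (lab x.2) h)| ≤ δ * S.n j

theorem envM_conf {n : ℕ} (p : Equiv.Perm (HE n d)) (ω : Fin n → ℝ) (F : Fin k → Fin n → ℝ)
    (h : HE n d) : envM (conf p (col ω F) h) = conf p (lab ω) h := rfl

theorem abs_X_le_NX (ξ : Conf d (S1 d k)) (l : Fin k) : |(ξ TW.nil).2.2 l| ≤ 1 + NX ξ := by
  have h1 := sq_le_NX ξ l
  nlinarith [sq_nonneg (|(ξ TW.nil).2.2 l| - 1), sq_abs ((ξ TW.nil).2.2 l),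
    abs_nonneg ((ξ TW.nil).2.2 l)]

/-- integrals of `X_l` against real and imaginary parts of characters vanish -/
theorem integral_X_gq (S : Seq d k) (hui : UIF S) (hm : MeanOrth S) (l : Fin k)
    (q : TE d →₀ ℚ) (b : Bool) :
    ∫ ξ : Conf d (S1 d k), (ξ TW.nil).2.2 l * gq d q b (envM ξ) ∂S.P = 0 := by
  have hpr := S.prob
  have hcX := continuous_site_X (d := d) (TW.nil : TW d) l
  have hc : Continuous fun ξ : Conf d (S1 d k) => (ξ TW.nil).2.2 l * gq d q b (envM ξ) :=
    hcX.mul ((continuous_gq d q b).comp continuous_envM)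
  have hb : ∀ ξ : Conf d (S1 d k), |(ξ TW.nil).2.2 l * gq d q b (envM ξ)| ≤ 1 + NX ξ := by
    intro ξ
    rw [abs_mul]
    have h1 := abs_X_le_NX ξ l
    have h2 := abs_gq_le d q b (envM ξ)
    calc |(ξ TW.nil).2.2 l| * |gq d q b (envM ξ)| ≤ |(ξ TW.nil).2.2 l| * 1 := by gcongr
      _ ≤ _ := by rw [mul_one]; exact h1
  have h1 := tendsto_integral_of_UI (Smu_tendsto S) hc (UI_of_le S hui hc hb)
  have h2 : Tendsto (fun a => ∫ ξ : Conf d (S1 d k), (ξ TW.nil).2.2 l * gq d q b (envM ξ)
      ∂(Smu S a : Measure (Conf d (S1 d k)))) (Sl S) (𝓝 0) := by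
    rw [Metric.tendsto_nhds]
    intro ε hε
    filter_upwards [eventually_Sl S (hm q b l (ε / 2) (by positivity))] with a ha
    rw [dist_zero_right, integral_Smu, Real.norm_eq_abs, smul_eq_mul]
    have hn : (0 : ℝ) < S.n a.1.1 := by exact_mod_cast S.pos a.1.1
    have hd : (1 : ℝ) ≤ d := by exact_mod_cast NeZero.pos d
    have e1 : ∑ h : HE (S.n a.1.1) d,
        ((conf a.1.2.1 (col a.1.2.2 (S.F a.1.1 a.1.2)) h TW.nil).2.2 l *
          gq d q b (envM (conf a.1.2.1 (col a.1.2.2 (S.F a.1.1 a.1.2)) h)))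
        = ∑ h : HE (S.n a.1.1) d, S.F a.1.1 a.1.2 l h.1 *
          gq d q b (conf a.1.2.1 (lab a.1.2.2) h) := rfl
    rw [e1, abs_mul, abs_of_pos (by positivity)]
    calc ((S.n a.1.1 : ℝ) * d)⁻¹ * |∑ h : HE (S.n a.1.1) d, S.F a.1.1 a.1.2 l h.1 *
          gq d q b (conf a.1.2.1 (lab a.1.2.2) h)|
        ≤ ((S.n a.1.1 : ℝ) * d)⁻¹ * (ε / 2 * S.n a.1.1) := by gcongr
      _ = ε / 2 / d := by field_simp
      _ ≤ ε / 2 := div_le_self (by positivity) hd
      _ < ε := by linarith
  exact tendsto_nhds_unique h1 h2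

/-- integrals of `X_l` against characters vanish -/
theorem integral_X_ech (S : Seq d k) (hui : UIF S) (hm : MeanOrth S) (l : Fin k)
    (q : TE d →₀ ℚ) :
    ∫ ξ : Conf d (S1 d k), (((ξ TW.nil).2.2 l : ℝ) : ℂ) *
      ech (embE d) (continuous_embE d) q (envM ξ) ∂S.P = 0 := by
  have hpr := S.prob
  have hcX := continuous_site_X (d := d) (TW.nil : TW d) l
  have hint : ∀ b, Integrable (fun ξ : Conf d (S1 d k) => (ξ TW.nil).2.2 l *
      gq d q b (envM ξ)) S.P := by
    intro b
    refine ((integrable_const (1 : ℝ)).add (integrable_NX S hui)).mono'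
      (hcX.mul ((continuous_gq d q b).comp continuous_envM)).aestronglyMeasurable ?_
    refine Eventually.of_forall fun ξ => ?_
    rw [norm_mul, Real.norm_eq_abs, Real.norm_eq_abs]
    calc |(ξ TW.nil).2.2 l| * |gq d q b (envM ξ)| ≤ |(ξ TW.nil).2.2 l| * 1 := by
          gcongr
          exact abs_gq_le d q b _
      _ ≤ _ := by rw [mul_one]; exact abs_X_le_NX ξ l
  have e1 : ∀ ξ : Conf d (S1 d k), (((ξ TW.nil).2.2 l : ℝ) : ℂ) *
      ech (embE d) (continuous_embE d) q (envM ξ)
      = ((((ξ TW.nil).2.2 l * gq d q true (envM ξ) : ℝ)) : ℂ)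
        + ((((ξ TW.nil).2.2 l * gq d q false (envM ξ) : ℝ)) : ℂ) * Complex.I := by
    intro ξ
    rw [ech_apply, mul_comm Complex.I, Complex.exp_mul_I, ← Complex.ofReal_cos,
      ← Complex.ofReal_sin]
    simp only [gq, if_true, Bool.false_eq_true, if_false]
    push_cast
    ring
  simp only [e1]
  rw [integral_add (hint true).ofReal ((hint false).ofReal.mul_const _), integral_mul_const,
    integral_complex_ofReal, integral_complex_ofReal, integral_X_gq S hui hm l q true,
    integral_X_gq S hui hm l q false]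
  simp

/-- a real function orthogonal to all characters of a Polish-valued map has vanishing
conditional expectation -/
theorem condExp_zero_of_ech {Ω : Type*} {mΩ : MeasurableSpace Ω} {P : Measure Ω}
    [IsFiniteMeasure P] {T E : Type*} [TopologicalSpace E] [MeasurableSpace E] [BorelSpace E]
    [PolishSpace E] (Φ : E → T → ℝ) (hΦ : Continuous Φ) (hinj : Function.Injective Φ)
    (g : Ω → E) (hg : Measurable g) (X : Ω → ℝ) (hX : Integrable X P)
    (h : ∀ q : T →₀ ℚ, ∫ x, (X x : ℂ) * ech Φ hΦ q (g x) ∂P = 0) :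
    P[X | MeasurableSpace.comap g inferInstance] =ᵐ[P] 0 := by
  -- positive and negative parts as densities
  set ν : (Ω → ℝ) → Measure E := fun f => (P.withDensity fun x => ENNReal.ofReal (f x)).map g
    with hν
  have hfin : ∀ f : Ω → ℝ, Integrable f P → IsFiniteMeasure (ν f) := by
    intro f hf
    have h1 : IsFiniteMeasure (P.withDensity fun x => ENNReal.ofReal (f x)) :=
      isFiniteMeasure_withDensity_ofReal hf.2
    rw [hν]
    infer_instance
  have hXp : Integrable (fun x => max (X x) 0) P := hX.pos_part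
  have hXn : Integrable (fun x => max (-X x) 0) P := hX.neg_part
  have hcech : ∀ q : T →₀ ℚ, Continuous fun y => ech Φ hΦ q y := fun q => (ech Φ hΦ q).continuous
  have hint : ∀ (f : Ω → ℝ), Integrable f P → (∀ x, 0 ≤ f x) → ∀ q : T →₀ ℚ,
      ∫ y, ech Φ hΦ q y ∂(ν f) = ∫ x, (f x : ℂ) * ech Φ hΦ q (g x) ∂P := by
    intro f hf hf0 q
    rw [hν]
    simp only
    rw [integral_map hg.aemeasurable (hcech q).aestronglyMeasurable,
      integral_withDensity_eq_integral_toReal_smul₀ (hf.1.aemeasurable.ennreal_ofReal)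
        (Eventually.of_forall fun x => ENNReal.ofReal_lt_top)]
    refine integral_congr_ae (Eventually.of_forall fun x => ?_)
    simp only
    rw [ENNReal.toReal_ofReal (hf0 x), Complex.real_smul]
  have hb : ∀ (f : Ω → ℝ), Integrable f P → ∀ q : T →₀ ℚ,
      Integrable (fun x => (f x : ℂ) * ech Φ hΦ q (g x)) P := by
    intro f hf q
    refine hf.norm.mono' ((hf.1.aemeasurable.complex_ofReal.aestronglyMeasurable).mul
      (((hcech q).measurable.comp hg).aestronglyMeasurable)) ?_
    refine Eventually.of_forall fun x => ?_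
    rw [norm_mul, Complex.norm_real, ech_apply, mul_comm Complex.I, Complex.norm_exp_ofReal_mul_I,
      mul_one]
  have hf1 := hfin _ hXp
  have hf2 := hfin _ hXn
  have heq : ν (fun x => max (X x) 0) = ν (fun x => max (-X x) 0) := by
    refine ext_of_ech Φ hΦ hinj fun q => ?_
    rw [hint _ hXp (fun x => le_max_right _ _) q, hint _ hXn (fun x => le_max_right _ _) q,
      ← sub_eq_zero, ← integral_sub (hb _ hXp q) (hb _ hXn q), ← h q]
    refine integral_congr_ae (Eventually.of_forall fun x => ?_)
    simp only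
    rw [← sub_mul, ← Complex.ofReal_sub]
    congr 2
    rcases le_total 0 (X x) with hx | hx
    · rw [max_eq_left hx, max_eq_right (by linarith), sub_zero]
    · rw [max_eq_right hx, max_eq_left (by linarith)]
      ring
  -- set integrals
  have hset : ∀ B : Set E, MeasurableSet B → ∫ x in g ⁻¹' B, X x ∂P = 0 := by
    intro B hB
    have h1 : ∀ f : Ω → ℝ, Integrable f P → (∀ x, 0 ≤ f x) →
        (ν f).real B = ∫ x in g ⁻¹' B, f x ∂P := by
      intro f hf hf0
      rw [hν]
      simp only
      rw [measureReal_def, Measure.map_apply hg hB, withDensity_apply _ (hg hB),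
        integral_eq_lintegral_of_nonneg_ae (Eventually.of_forall hf0) hf.1.restrict]
    have h2 := h1 _ hXp (fun x => le_max_right _ _)
    have h3 := h1 _ hXn (fun x => le_max_right _ _)
    rw [heq, h3] at h2
    have h4 : ∫ x in g ⁻¹' B, X x ∂P = ∫ x in g ⁻¹' B, max (X x) 0 ∂P
        - ∫ x in g ⁻¹' B, max (-X x) 0 ∂P := by
      rw [← integral_sub hXp.integrableOn hXn.integrableOn]
      refine integral_congr_ae (Eventually.of_forall fun x => ?_)
      simp only
      rcases le_total 0 (X x) with hx | hx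
      · rw [max_eq_left hx, max_eq_right (by linarith), sub_zero]
      · rw [max_eq_right hx, max_eq_left (by linarith)]
        ring
    rw [h4, h2, sub_self]
  have hm : MeasurableSpace.comap g inferInstance ≤ mΩ := hg.comap_le
  symm
  refine ae_eq_condExp_of_forall_setIntegral_eq hm hX ?_ ?_ ?_
  · intro s _ _
    exact integrableOn_zero
  · rintro s ⟨B, hB, rfl⟩ _
    rw [hset B hB]
    simp
  · exact stronglyMeasurable_zero.aestronglyMeasurable

/-- **`E[X_l | Env] = 0`** for the limit law -/
theorem X_mean (S : Seq d k) (hui : UIF S) (hm : MeanOrth S) (l : Fin k) :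
    S.P[fun ξ : Conf d (S1 d k) => (ξ TW.nil).2.2 l | EnvS d k] =ᵐ[S.P] 0 := by
  have hpr := S.prob
  refine condExp_zero_of_ech (embE d) (continuous_embE d) (injective_embE d)
    (envM : Conf d (S1 d k) → Conf d (SE d)) continuous_envM.measurable _ ?_ ?_
  · exact (X_L2 S hui l).integrable (by norm_num)
  · intro q
    exact integral_X_ech S hui hm l q

end Crest.Agent.R166.LimProps974
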