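import Mathlib

/-!
Row 166 (helper974): convergence of integrals of unbounded continuous functions under weak
convergence + uniform integrability along an arbitrary filter.
-/

set_option autoImplicit false

namespace Crest.Agent.R166.WeakUI974

open MeasureTheory Filter Topology BoundedContinuousFunction

variable {E : Type*} [TopologicalSpace E] [MeasurableSpace E] [OpensMeasurableSpace E]

/-- truncation -/
noncomputable def tr (M x : ℝ) : ℝ := max (-M) (min M x)

lemma tr_abs_le {M : ℝ} (hM : 0 ≤ M) (x : ℝ) : |tr M x| ≤ M := by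
  unfold tr
  rw [abs_le]
  constructor
  · exact le_max_left _ _
  · exact max_le (by linarith) (min_le_left _ _)

lemma tr_of_abs_le {M x : ℝ} (h : |x| ≤ M) : tr M x = x := by
  unfold tr
  rw [min_eq_right (abs_le.1 h).2, max_eq_right (abs_le.1 h).1]

lemma abs_sub_tr_le {M : ℝ} (hM : 0 ≤ M) (x : ℝ) :
    |x - tr M x| ≤ if M < |x| then |x| else 0 := by
  split_ifs with h
  · unfold tr
    rcases le_total 0 x with hx | hx
    · rw [abs_of_nonneg hx] at h ⊢
      rw [min_eq_left h.le, max_eq_right (by linarith)]
      rw [abs_of_nonneg (by linarith)]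
      linarith
    · rw [abs_of_nonpos hx] at h ⊢
      rw [min_eq_right (by linarith), max_eq_left (by linarith)]
      rw [abs_of_nonpos (by linarith)]
      linarith
  · rw [tr_of_abs_le (not_lt.1 h), sub_self, abs_zero]

lemma continuous_tr (M : ℝ) : Continuous (tr M) := by
  unfold tr
  fun_prop

/-- truncated function as a bounded continuous function -/
noncomputable def trB (M : ℝ) (hM : 0 ≤ M) (f : E → ℝ) (hf : Continuous f) : E →ᵇ ℝ :=
  BoundedContinuousFunction.ofNormedAddCommGroup (fun x => tr M (f x))
    ((continuous_tr M).comp hf) M (fun x => by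
      rw [Real.norm_eq_abs]
      exact tr_abs_le hM _)

@[simp] lemma trB_apply (M : ℝ) (hM : 0 ≤ M) (f : E → ℝ) (hf : Continuous f) (x : E) :
    trB M hM f hf x = tr M (f x) := rfl

/-- uniform integrability along a filter -/
def UI {A : Type*} (l : Filter A) (μ : A → ProbabilityMeasure E) (f : E → ℝ) : Prop :=
  (∀ᶠ a in l, Integrable f (μ a : Measure E)) ∧ ∀ ε : ℝ, 0 < ε → ∃ M : ℝ, 0 ≤ M ∧ ∀ᶠ a in l,
    ∫ x, (if M < |f x| then |f x| else 0) ∂(μ a : Measure E) ≤ ε

lemma UI.mono {A : Type*} {l : Filter A} {μ : A → ProbabilityMeasure E} {f g : E → ℝ}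
    (hg : UI l μ g) (hf : Continuous f) (hgm : Measurable g) (h : ∀ x, |f x| ≤ |g x|) :
    UI l μ f := by
  refine ⟨?_, fun ε hε => ?_⟩
  · filter_upwards [hg.1] with a ha
    exact ha.mono hf.measurable.aestronglyMeasurable (Eventually.of_forall fun x => by
      simpa [Real.norm_eq_abs] using h x)
  · obtain ⟨M, hM, h1⟩ := hg.2 ε hε
    refine ⟨M, hM, ?_⟩
    filter_upwards [h1, hg.1] with a ha hi
    refine le_trans (integral_mono_of_nonneg ?_ ?_ ?_) ha
    · exact Eventually.of_forall fun x => by
        simp only [Pi.zero_apply]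
        split_ifs <;> positivity
    · have : Integrable (fun x => if M < |g x| then |g x| else 0) (μ a : Measure E) := by
        have hs : MeasurableSet {x | M < |g x|} := measurableSet_lt measurable_const hgm.abs
        have := (hi.abs).indicator hs
        refine this.congr (Eventually.of_forall fun x => ?_)
        simp only [Set.indicator, Set.mem_setOf_eq]
      exact this
    · refine Eventually.of_forall fun x => ?_
      simp only
      split_ifs with h2 h3 h3
      · exact h x
      · exact absurd (lt_of_lt_of_le h2 (h x)) h3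
      · positivity
      · exact le_rfl

lemma UI.const_mul {A : Type*} {l : Filter A} {μ : A → ProbabilityMeasure E} {f : E → ℝ}
    (hf : UI l μ f) {c : ℝ} (hc : 0 < c) : UI l μ (fun x => c * f x) := by
  refine ⟨hf.1.mono fun a ha => ha.const_mul c, fun ε hε => ?_⟩
  obtain ⟨M, hM, h1⟩ := hf.2 (ε / c) (by positivity)
  refine ⟨c * M, by positivity, ?_⟩
  filter_upwards [h1] with a ha
  have h2 : ∀ x, (if c * M < |c * f x| then |c * f x| else 0)
      = c * (if M < |f x| then |f x| else 0) := by
    intro x
    rw [abs_mul, abs_of_pos hc]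
    by_cases h3 : M < |f x|
    · rw [if_pos h3, if_pos (by gcongr)]
    · rw [if_neg h3, if_neg (by
        rw [not_lt] at h3 ⊢
        gcongr), mul_zero]
  simp only [h2]
  rw [integral_const_mul]
  calc c * ∫ x, (if M < |f x| then |f x| else 0) ∂(μ a : Measure E) ≤ c * (ε / c) := by gcongr
    _ = ε := by field_simp

variable {A : Type*} {l : Filter A} [l.NeBot] {μ : A → ProbabilityMeasure E}
  {P : ProbabilityMeasure E}

lemma tendsto_bcf (h : Tendsto μ l (𝓝 P)) (g : E →ᵇ ℝ) :
    Tendsto (fun a => ∫ x, g x ∂(μ a : Measure E)) l (𝓝 (∫ x, g x ∂(P : Measure E))) :=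
  (ProbabilityMeasure.tendsto_iff_forall_integral_tendsto.1 h) g

/-- the tail under the limit law -/
lemma tail_limit (h : Tendsto μ l (𝓝 P)) {f : E → ℝ} (hf : Continuous f) {M M' ε : ℝ}
    (hM : 0 ≤ M) (hMM : M ≤ M')
    (hint : ∀ᶠ a in l, Integrable f (μ a : Measure E))
    (ht : ∀ᶠ a in l, ∫ x, (if M < |f x| then |f x| else 0) ∂(μ a : Measure E) ≤ ε) :
    ∫ x, (tr M' |f x| - tr M |f x|) ∂(P : Measure E) ≤ ε := by
  have hM' : 0 ≤ M' := hM.trans hMM
  have hfa : Continuous fun x => |f x| := hf.abs
  have h1 := tendsto_bcf h (trB M' hM' _ hfa - trB M hM _ hfa)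
  refine le_of_tendsto h1 ?_
  filter_upwards [ht, hint] with a ha hi
  refine le_trans ?_ ha
  refine integral_mono_of_nonneg ?_ ?_ ?_
  · refine Eventually.of_forall fun x => ?_
    simp only [Pi.zero_apply, BoundedContinuousFunction.coe_sub, Pi.sub_apply, trB_apply, sub_nonneg]
    unfold tr
    have h3 : 0 ≤ |f x| := abs_nonneg _
    have : min M |f x| ≤ min M' |f x| := min_le_min hMM le_rfl
    have h4 : 0 ≤ min M |f x| := le_min hM h3
    rw [max_eq_right (by linarith), max_eq_right (by linarith)]
    exact this
  · have hs : MeasurableSet {x | M < |f x|} :=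
      measurableSet_lt measurable_const hf.measurable.abs
    have := (hi.abs).indicator hs
    refine this.congr (Eventually.of_forall fun x => ?_)
    simp only [Set.indicator, Set.mem_setOf_eq]
  · refine Eventually.of_forall fun x => ?_
    simp only [BoundedContinuousFunction.coe_sub, Pi.sub_apply, trB_apply]
    have h3 : 0 ≤ |f x| := abs_nonneg _
    split_ifs with h2
    · have h4 : tr M' |f x| ≤ |f x| := by
        unfold tr
        exact max_le (by linarith) (min_le_right _ _)
      have h5 : 0 ≤ tr M |f x| := by
        unfold tr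
        exact le_max_of_le_right (le_min hM h3)
      linarith
    · rw [not_lt] at h2
      have h5 : |(|f x|)| ≤ M := by rwa [abs_abs]
      rw [tr_of_abs_le h5, tr_of_abs_le (h5.trans hMM), sub_self]

/-- integrability of the limit -/
theorem integrable_limit (h : Tendsto μ l (𝓝 P)) {f : E → ℝ} (hf : Continuous f)
    (hui : UI l μ f) : Integrable f (P : Measure E) := by
  obtain ⟨M, hM, ht⟩ := hui.2 1 one_pos
  have hfa : Continuous fun x => |f x| := hf.abs
  have hb : ∀ N : ℕ, ∫ x, tr (M + N) |f x| ∂(P : Measure E) ≤ M + 1 := by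
    intro N
    have h1 := tail_limit h hf hM (le_add_of_nonneg_right (Nat.cast_nonneg N) : M ≤ M + N)
      hui.1 ht
    have hi1 : Integrable (fun x => tr (M + N) |f x|) (P : Measure E) :=
      (trB (M + N) (by positivity) _ hfa).integrable _
    have hi2 : Integrable (fun x => tr M |f x|) (P : Measure E) := (trB M hM _ hfa).integrable _
    rw [integral_sub hi1 hi2] at h1
    have h2 : ∫ x, tr M |f x| ∂(P : Measure E) ≤ M := by
      calc ∫ x, tr M |f x| ∂(P : Measure E) ≤ ∫ _x, M ∂(P : Measure E) :=
            integral_mono hi2 (integrable_const _) fun x => (le_abs_self _).trans (tr_abs_le hM _)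
        _ = M := by simp
    linarith
  refine ⟨hf.measurable.aestronglyMeasurable, ?_⟩
  rw [hasFiniteIntegral_iff_norm]
  have hmono : ∫⁻ x, ENNReal.ofReal ‖f x‖ ∂(P : Measure E)
      ≤ ENNReal.ofReal (M + 1) := by
    have h3 : ∀ x, ENNReal.ofReal ‖f x‖ = ⨆ N : ℕ, ENNReal.ofReal (tr (M + N) |f x|) := by
      intro x
      apply le_antisymm
      · obtain ⟨N, hN⟩ := exists_nat_ge |f x|
        refine le_iSup_of_le N ?_
        rw [Real.norm_eq_abs]
        have : |(|f x|)| ≤ M + N := by rw [abs_abs]; linarith
        rw [tr_of_abs_le this]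
      · refine iSup_le fun N => ?_
        rw [Real.norm_eq_abs]
        apply ENNReal.ofReal_le_ofReal
        unfold tr
        have h3 : 0 ≤ |f x| := abs_nonneg _
        exact max_le (by have : (0 : ℝ) ≤ N := Nat.cast_nonneg N
                         linarith) (min_le_right _ _)
    simp only [h3]
    rw [lintegral_iSup]
    · refine iSup_le fun N => ?_
      rw [← ofReal_integral_eq_lintegral_ofReal]
      · exact ENNReal.ofReal_le_ofReal (hb N)
      · exact (trB (M + N) (by positivity) _ hfa).integrable _
      · refine Eventually.of_forall fun x => ?_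
        unfold tr
        exact le_max_of_le_right (le_min (by positivity) (abs_nonneg _))
    · intro N
      exact (((continuous_tr (M + N)).comp hfa).measurable).ennreal_ofReal
    · intro N N' hNN x
      simp only
      apply ENNReal.ofReal_le_ofReal
      unfold tr
      have h5 : (N : ℝ) ≤ N' := by exact_mod_cast hNN
      have h3 : 0 ≤ |f x| := abs_nonneg _
      have hN0 : (0 : ℝ) ≤ N := Nat.cast_nonneg N
      rw [max_eq_right (by
        have : 0 ≤ min (M + N) |f x| := le_min (by positivity) h3
        linarith), max_eq_right (by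
        have : 0 ≤ min (M + N') |f x| := le_min (by linarith) h3
        linarith)]
      exact min_le_min (by linarith) le_rfl
  exact lt_of_le_of_lt hmono ENNReal.ofReal_lt_top

lemma tail_integral (h : Tendsto μ l (𝓝 P)) {f : E → ℝ} (hf : Continuous f)
    (hui : UI l μ f) {M ε : ℝ} (hM : 0 ≤ M)
    (ht : ∀ᶠ a in l, ∫ x, (if M < |f x| then |f x| else 0) ∂(μ a : Measure E) ≤ ε) :
    ∫ x, |f x - tr M (f x)| ∂(P : Measure E) ≤ ε := by
  have hfi := integrable_limit h hf hui
  have hfa : Continuous fun x => |f x| := hf.abs
  -- `|f - tr M f| = |f| - tr M |f|`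
  have e1 : ∀ x, |f x - tr M (f x)| = |f x| - tr M |f x| := by
    intro x
    unfold tr
    rcases le_total 0 (f x) with hx | hx
    · rw [abs_of_nonneg hx]
      have : 0 ≤ min M (f x) := le_min hM hx
      rw [max_eq_right (by linarith), abs_of_nonneg]
      linarith [min_le_right M (f x)]
    · rw [abs_of_nonpos hx]
      have h1 : 0 ≤ min M (-f x) := le_min hM (by linarith)
      rw [max_eq_right (by linarith : -M ≤ min M (-f x)), min_eq_right (by linarith : f x ≤ M)]
      rcases le_total M (-f x) with h2 | h2
      · rw [min_eq_left h2, max_eq_left (by linarith), abs_of_nonpos (by linarith)]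
        ring
      · rw [min_eq_right h2, max_eq_right (by linarith), sub_self, abs_zero]
        ring
  simp only [e1]
  -- monotone limit of `tr M' |f| - tr M |f|`
  have h2 : Tendsto (fun N : ℕ => ∫ x, (tr (M + N) |f x| - tr M |f x|) ∂(P : Measure E)) atTop
      (𝓝 (∫ x, (|f x| - tr M |f x|) ∂(P : Measure E))) := by
    refine tendsto_integral_of_dominated_convergence (fun x => |f x|) ?_ hfi.abs ?_ ?_
    · intro N
      exact (((continuous_tr _).comp hfa).sub ((continuous_tr _).comp hfa)).aestronglyMeasurable
    · intro N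
      refine Eventually.of_forall fun x => ?_
      rw [Real.norm_eq_abs]
      have h3 : 0 ≤ |f x| := abs_nonneg _
      have hN0 : (0 : ℝ) ≤ N := Nat.cast_nonneg N
      have a1 : 0 ≤ min (M + N) |f x| := le_min (by positivity) h3
      have a2 : 0 ≤ min M |f x| := le_min hM h3
      unfold tr
      rw [max_eq_right (by linarith), max_eq_right (by linarith), abs_le]
      constructor
      · linarith [min_le_min (le_add_of_nonneg_right hN0 : M ≤ M + N) (le_refl |f x|)]
      · linarith [min_le_right (M + N) |f x|]
    · refine Eventually.of_forall fun x => ?_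
      refine Tendsto.sub_const ?_ _
      refine tendsto_const_nhds.congr' ?_
      obtain ⟨N, hN⟩ := exists_nat_ge |f x|
      filter_upwards [eventually_ge_atTop N] with N' hN'
      have h5 : (N : ℝ) ≤ N' := by exact_mod_cast hN'
      rw [tr_of_abs_le (by rw [abs_abs]; linarith)]
  refine le_of_tendsto h2 (Eventually.of_forall fun N => ?_)
  exact tail_limit h hf hM (le_add_of_nonneg_right (Nat.cast_nonneg N) : M ≤ M + N) hui.1 ht

/-- **convergence of the integrals of uniformly integrable continuous functions** -/
theorem tendsto_integral_of_UI (h : Tendsto μ l (𝓝 P)) {f : E → ℝ} (hf : Continuous f)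
    (hui : UI l μ f) :
    Tendsto (fun a => ∫ x, f x ∂(μ a : Measure E)) l (𝓝 (∫ x, f x ∂(P : Measure E))) := by
  have hfi := integrable_limit h hf hui
  rw [Metric.tendsto_nhds]
  intro ε hε
  obtain ⟨M, hM, ht⟩ := hui.2 (ε / 4) (by positivity)
  have h1 := tendsto_bcf h (trB M hM f hf)
  rw [Metric.tendsto_nhds] at h1
  filter_upwards [h1 (ε / 4) (by positivity), ht, hui.1] with a ha hta hia
  rw [Real.dist_eq] at ha ⊢
  have hiP : Integrable (fun x => tr M (f x)) (P : Measure E) := (trB M hM f hf).integrable _
  have hia2 : Integrable (fun x => tr M (f x)) (μ a : Measure E) := (trB M hM f hf).integrable _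
  have e1 : |∫ x, f x ∂(μ a : Measure E) - ∫ x, tr M (f x) ∂(μ a : Measure E)| ≤ ε / 4 := by
    rw [← integral_sub hia hia2]
    refine (abs_integral_le_integral_abs).trans (le_trans ?_ hta)
    refine integral_mono_of_nonneg (Eventually.of_forall fun x => abs_nonneg _) ?_
      (Eventually.of_forall fun x => abs_sub_tr_le hM _)
    have hs : MeasurableSet {x | M < |f x|} :=
      measurableSet_lt measurable_const hf.measurable.abs
    have := (hia.abs).indicator hs
    refine this.congr (Eventually.of_forall fun x => ?_)
    simp only [Set.indicator, Set.mem_setOf_eq]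
  have e2 : |∫ x, f x ∂(P : Measure E) - ∫ x, tr M (f x) ∂(P : Measure E)| ≤ ε / 4 := by
    rw [← integral_sub hfi hiP]
    exact (abs_integral_le_integral_abs).trans (tail_integral h hf hui hM ht)
  have e3 : |∫ x, tr M (f x) ∂(μ a : Measure E) - ∫ x, tr M (f x) ∂(P : Measure E)| < ε / 4 := ha
  rw [abs_lt] at e3
  rw [abs_le] at e1 e2
  rw [abs_lt]
  constructor <;> linarith [e1.1, e1.2, e2.1, e2.2, e3.1, e3.2]

end Crest.Agent.R166.WeakUI974
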