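import Crest.Agent.R166.Seq_980
import Crest.Agent.R166.Emp_974
import Crest.Agent.R166.WeakUI_974
import Crest.Agent.R166.FrameB_974

/-!
Row 166 (helper974), module F3: properties of the limit law `P` of an extracted sequence `S : Seq`.
-/

set_option autoImplicit false

namespace Crest.Agent.R166.LimProps974

open MeasureTheory Filter Topology BoundedContinuousFunction ProbabilityTheory
open Crest.ProbabilityR.RandomMatrix
open Crest.Agent.R166 Crest.Agent.R166.Words955 Crest.Agent.R166.Seq980 Crest.Agent.R166.Emp974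
open Crest.Agent.R166.WeakUI974

variable {d k : ℕ} [NeZero d]

/-! ### The `ProbabilityMeasure` form of `Seq.lim` -/

/-- index type: all samples of all events -/
def SA (S : Seq d k) : Type := {a : Σ j, PS d (S.n j) // a.2 ∈ S.U a.1}

/-- the filter `j → ∞` -/
def Sl (S : Seq d k) : Filter (SA S) := comap (fun a : SA S => a.1.1) atTop

instance Sl_neBot (S : Seq d k) : (Sl S).NeBot := by
  unfold Sl
  apply Filter.comap_neBot
  intro t ht
  obtain ⟨j, hj⟩ := (Filter.mem_atTop_sets.1 ht)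
  obtain ⟨x, hx⟩ := S.nonempty j
  exact ⟨⟨⟨j, x⟩, hx⟩, hj j le_rfl⟩

theorem eventually_Sl (S : Seq d k) {Q : ∀ j, PS d (S.n j) → Prop}
    (h : ∀ᶠ j in atTop, ∀ x ∈ S.U j, Q j x) : ∀ᶠ a : SA S in Sl S, Q a.1.1 a.1.2 := by
  have h2 : ∀ᶠ a : SA S in Sl S, ∀ x ∈ S.U a.1.1, Q a.1.1 x :=
    (tendsto_comap (f := fun a : SA S => a.1.1) (x := atTop)).eventually h
  filter_upwards [h2] with a ha
  exact ha a.1.2 a.2

/-- size of a sample -/
def sz (S : Seq d k) (a : SA S) : ℕ := S.n a.1.1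

/-- the empirical laws -/
noncomputable def Smu (S : Seq d k) (a : SA S) : ProbabilityMeasure (Conf d (S1 d k)) :=
  haveI : NeZero (S.n a.1.1) := ⟨(S.pos _).ne'⟩
  ⟨emp a.1.2.1 (col a.1.2.2 (S.F a.1.1 a.1.2)), emp_prob _ _⟩

theorem coe_Smu (S : Seq d k) (a : SA S) :
    ((Smu S a : ProbabilityMeasure (Conf d (S1 d k))) : Measure (Conf d (S1 d k)))
      = emp a.1.2.1 (col a.1.2.2 (S.F a.1.1 a.1.2)) := rfl

/-- the limit law as a `ProbabilityMeasure` -/
noncomputable def SP (S : Seq d k) : ProbabilityMeasure (Conf d (S1 d k)) := ⟨S.P, S.prob⟩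

@[simp] theorem coe_SP (S : Seq d k) :
    ((SP S : ProbabilityMeasure (Conf d (S1 d k))) : Measure (Conf d (S1 d k))) = S.P := rfl

theorem Smu_tendsto (S : Seq d k) : Tendsto (Smu S) (Sl S) (𝓝 (SP S)) := by
  rw [ProbabilityMeasure.tendsto_iff_forall_integral_tendsto]
  intro f
  rw [Metric.tendsto_nhds]
  intro ε hε
  have h := eventually_Sl S (S.lim f (ε / 2) (by positivity))
  filter_upwards [h] with a ha
  rw [Real.dist_eq]
  simp only [coe_Smu, coe_SP]
  linarith

/-! ### Invariance and support -/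

theorem continuous_rs {T : Type*} [TopologicalSpace T] (i : Fin d) :
    Continuous (PortAct.rs i : Fin d × T → Fin d × T) := by
  have h : (PortAct.rs i : Fin d × T → Fin d × T) = fun x => (x.1 + i, x.2) := rfl
  rw [h]
  have h1 : Continuous fun l : Fin d => l + i := continuous_of_discreteTopology
  exact (h1.comp continuous_fst).prodMk continuous_snd

/-- **invariance** of the limit law -/
theorem inv_P (S : Seq d k) : Inv S.P := by
  have h := inv_of_tendsto (S := S1 d k) continuous_rs (Smu_tendsto S)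
    (Eventually.of_forall fun a => by
      rw [coe_Smu]
      refine inv_emp (fun i => (continuous_rs i).measurable) _ (S.port _ _ a.2).inv _ ?_
      intro v l i
      rfl)
  exact h

/-- potentials of the limit are in `[-1,1]` at every word -/
theorem om_P (S : Seq d k) : ∀ᵐ ξ ∂S.P, ∀ w : TW d, (ξ w).2.1 ∈ Set.Icc (-1 : ℝ) 1 := by
  have hpr := S.prob
  rw [ae_all_iff]
  intro w
  have hcl : IsClosed {ξ : Conf d (S1 d k) | (ξ w).2.1 ∈ Set.Icc (-1 : ℝ) 1} :=
    isClosed_Icc.preimage ((continuous_fst.comp continuous_snd).comp (continuous_apply w))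
  have h1 := ProbabilityMeasure.limsup_measure_closed_le_of_tendsto (Smu_tendsto S) hcl
  have h2 : ∀ a, (Smu S a : Measure (Conf d (S1 d k)))
      {ξ : Conf d (S1 d k) | (ξ w).2.1 ∈ Set.Icc (-1 : ℝ) 1} = 1 := by
    intro a
    rw [← prob_compl_eq_zero_iff hcl.measurableSet, coe_Smu, Words955.emp, Measure.smul_apply,
      Measure.finsetSum_apply, Finset.sum_eq_zero]
    · simp
    · intro h _
      rw [Measure.dirac_apply' _ hcl.measurableSet.compl]
      apply Set.indicator_of_notMem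
      simp only [Set.mem_compl_iff, not_not]
      exact S.om _ _ a.2 _
  simp only [h2, limsup_const] at h1
  have h3 : S.P {ξ : Conf d (S1 d k) | (ξ w).2.1 ∈ Set.Icc (-1 : ℝ) 1} = 1 :=
    le_antisymm prob_le_one h1
  exact (prob_compl_eq_zero_iff hcl.measurableSet).2 h3

/-! ### Integrals of site functions -/

theorem integral_Smu {G : Type*} [NormedAddCommGroup G] [NormedSpace ℝ G] [CompleteSpace G]
    (S : Seq d k) (a : SA S) (f : Conf d (S1 d k) → G) :
    ∫ ξ, f ξ ∂(Smu S a : Measure (Conf d (S1 d k))) = (((S.n a.1.1 : ℝ) * d)⁻¹) •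
      ∑ h : HE (S.n a.1.1) d, f (conf a.1.2.1 (col a.1.2.2 (S.F a.1.1 a.1.2)) h) := by
  rw [coe_Smu, Emp974.integral_emp]
  congr 1
  simp

theorem integrable_Smu {G : Type*} [NormedAddCommGroup G]
    (S : Seq d k) (a : SA S) (f : Conf d (S1 d k) → G) :
    Integrable f (Smu S a : Measure (Conf d (S1 d k))) := integrable_emp _ _ _

/-- integral of a function of the frame at the root -/
theorem integral_Smu_frame (S : Seq d k) (a : SA S) (g : (Fin k → ℝ) → ℝ) :
    ∫ ξ, g (ξ TW.nil).2.2 ∂(Smu S a : Measure (Conf d (S1 d k)))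
      = (∑ v, g (fun i => S.F a.1.1 a.1.2 i v)) / (S.n a.1.1) := by
  have hd : (d : ℝ) ≠ 0 := by exact_mod_cast NeZero.ne d
  rw [integral_Smu]
  have h1 : ∀ h : HE (S.n a.1.1) d,
      g (conf a.1.2.1 (col a.1.2.2 (S.F a.1.1 a.1.2)) h TW.nil).2.2
        = g (fun i => S.F a.1.1 a.1.2 i h.1) := fun h => rfl
  simp only [h1]
  rw [Fintype.sum_prod_type]
  simp only [Finset.sum_const, Finset.card_univ, Fintype.card_fin, nsmul_eq_mul, smul_eq_mul]
  rw [← Finset.mul_sum]
  have hn : (S.n a.1.1 : ℝ) ≠ 0 := by exact_mod_cast (S.pos a.1.1).ne'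
  field_simp

/-! ### The eigenvalue equation -/

theorem Hm_mulVec_port {n : ℕ} {p : Equiv.Perm (HE n d)} (hp : IsPort p) (s : ℝ)
    (ω f : Fin n → ℝ) (v : Fin n) :
    ((Hm (graphOf p) s ω).mulVec f) v = (∑ j : Fin d, f (p (v, j)).1) + s * ω v * f v := by
  classical
  unfold Hm
  rw [Matrix.add_mulVec, Pi.add_apply, SimpleGraph.adjMatrix_mulVec_apply, Matrix.smul_mulVec,
    Pi.smul_apply, Matrix.mulVec_diagonal, smul_eq_mul]
  congr 1
  · have h1 : (graphOf p).neighborFinset v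
        = (Finset.univ : Finset (Fin d)).image (fun i => (p (v, i)).1) := by
      ext w
      simp [hp.adj_iff]
    rw [h1, Finset.sum_image]
    intro i _ j _ hij
    exact hp.simple v i j hij
  · ring

/-- residual of the eigenvalue equation at the root -/
noncomputable def resid (s E : ℝ) (l : Fin k) (ξ : Conf d (S1 d k)) : ℝ :=
  (∑ i : Fin d, (ξ (TW.single i)).2.2 l) + s * (ξ TW.nil).2.1 * (ξ TW.nil).2.2 l
    - E * (ξ TW.nil).2.2 l

theorem continuous_site_X (w : TW d) (l : Fin k) :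
    Continuous fun ξ : Conf d (S1 d k) => (ξ w).2.2 l :=
  (continuous_apply l).comp ((continuous_snd.comp continuous_snd).comp (continuous_apply w))

theorem continuous_site_om (w : TW d) :
    Continuous fun ξ : Conf d (S1 d k) => (ξ w).2.1 :=
  (continuous_fst.comp continuous_snd).comp (continuous_apply w)

theorem continuous_resid (s E : ℝ) (l : Fin k) : Continuous (resid (d := d) s E l) := by
  unfold resid
  refine ((continuous_finset_sum _ fun i _ => continuous_site_X _ l).add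
    ((continuous_const.mul (continuous_site_om _)).mul (continuous_site_X _ l))).sub
    (continuous_const.mul (continuous_site_X _ l))

theorem resid_conf {n : ℕ} {p : Equiv.Perm (HE n d)} (hp : IsPort p) (s E : ℝ) (ω : Fin n → ℝ)
    (F : Fin k → Fin n → ℝ) (l : Fin k) (h : HE n d) :
    resid s E l (conf p (col ω F) h)
      = ((Hm (graphOf p) s ω).mulVec (F l)) h.1 - E * F l h.1 := by
  rw [Hm_mulVec_port hp]
  unfold resid
  have h1 : ∀ i : Fin d, (conf p (col ω F) h (TW.single i)).2.2 l = F l (p (h.1, h.2 + i)).1 :=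
    fun i => rfl
  have h2 : (conf p (col ω F) h TW.nil).2.2 l = F l h.1 := rfl
  have h3 : (conf p (col ω F) h TW.nil).2.1 = ω h.1 := rfl
  simp only [h1, h2, h3]
  have h4 : ∑ i : Fin d, F l (p (h.1, h.2 + i)).1 = ∑ j : Fin d, F l (p (h.1, j)).1 :=
    Fintype.sum_equiv (Equiv.addLeft h.2) _ _ (fun _ => rfl)
  rw [h4]

/-- **eigenvalue equation** in the limit -/
theorem X_eq (S : Seq d k) (s E : ℝ)
    (hnear : ∀ δ : ℝ, 0 < δ → ∀ᶠ j in atTop, ∀ x ∈ S.U j, ∀ l,
      ∑ v, (((Hm (graphOf x.1) s x.2).mulVec (S.F j x l)) v - E * S.F j x l v) ^ 2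
        ≤ δ * S.n j) :
    ∀ᵐ ξ ∂S.P, ∀ l, resid s E l ξ = 0 := by
  have hpr := S.prob
  rw [ae_all_iff]
  intro l
  -- bounded test function
  let φ : Conf d (S1 d k) →ᵇ ℝ := BoundedContinuousFunction.ofNormedAddCommGroup
    (fun ξ => min 1 ((resid s E l ξ) ^ 2)) (continuous_const.min ((continuous_resid s E l).pow 2)) 1
    (fun ξ => by
      rw [Real.norm_eq_abs, abs_of_nonneg (le_min zero_le_one (sq_nonneg _))]
      exact min_le_left _ _)
  have hφ : ∀ ξ, φ ξ = min 1 ((resid s E l ξ) ^ 2) := fun _ => rfl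
  have hlim := (ProbabilityMeasure.tendsto_iff_forall_integral_tendsto.1 (Smu_tendsto S)) φ
  have hle : ∫ ξ, φ ξ ∂S.P ≤ 0 := by
    refine le_of_forall_pos_le_add fun δ hδ => ?_
    rw [zero_add]
    refine le_of_tendsto hlim ?_
    have h1 := eventually_Sl S (hnear δ hδ)
    filter_upwards [h1] with a ha
    rw [integral_Smu]
    have hn : (0 : ℝ) < S.n a.1.1 := by exact_mod_cast S.pos a.1.1
    have hd : (0 : ℝ) < d := by exact_mod_cast NeZero.pos d
    have h2 : ∑ h : HE (S.n a.1.1) d, φ (conf a.1.2.1 (col a.1.2.2 (S.F a.1.1 a.1.2)) h)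
        ≤ d * (δ * S.n a.1.1) := by
      calc ∑ h : HE (S.n a.1.1) d, φ (conf a.1.2.1 (col a.1.2.2 (S.F a.1.1 a.1.2)) h)
          ≤ ∑ h : HE (S.n a.1.1) d, (((Hm (graphOf a.1.2.1) s a.1.2.2).mulVec
              (S.F a.1.1 a.1.2 l)) h.1 - E * S.F a.1.1 a.1.2 l h.1) ^ 2 := by
            refine Finset.sum_le_sum fun h _ => ?_
            rw [hφ, resid_conf (S.port _ _ a.2)]
            exact min_le_right _ _
        _ = d * ∑ v, (((Hm (graphOf a.1.2.1) s a.1.2.2).mulVec
              (S.F a.1.1 a.1.2 l)) v - E * S.F a.1.1 a.1.2 l v) ^ 2 := by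
            rw [Fintype.sum_prod_type]
            simp only [Finset.sum_const, Finset.card_univ, Fintype.card_fin, nsmul_eq_mul]
            rw [← Finset.mul_sum]
        _ ≤ d * (δ * S.n a.1.1) := by
            gcongr
            exact ha l
    rw [smul_eq_mul]
    calc ((S.n a.1.1 : ℝ) * d)⁻¹ * ∑ h : HE (S.n a.1.1) d,
          φ (conf a.1.2.1 (col a.1.2.2 (S.F a.1.1 a.1.2)) h)
        ≤ ((S.n a.1.1 : ℝ) * d)⁻¹ * (d * (δ * S.n a.1.1)) := by gcongr
      _ = δ := by field_simp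
  have hnn : 0 ≤ᵐ[S.P] fun ξ => φ ξ := Eventually.of_forall fun ξ =>
    (le_min zero_le_one (sq_nonneg _) : (0 : ℝ) ≤ min 1 ((resid s E l ξ) ^ 2))
  have h0 : ∫ ξ, φ ξ ∂S.P = 0 := le_antisymm hle (integral_nonneg_of_ae hnn)
  have h1 := (integral_eq_zero_iff_of_nonneg_ae hnn (φ.integrable _)).1 h0
  filter_upwards [h1] with ξ hξ
  rw [Pi.zero_apply, hφ] at hξ
  by_contra hne
  have h2 : 0 < (resid s E l ξ) ^ 2 := by positivity
  have h3 : 0 < min 1 ((resid s E l ξ) ^ 2) := lt_min one_pos h2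
  linarith

/-! ### Second moments -/

/-- sum of the squares of the frame at the root -/
noncomputable def NX (ξ : Conf d (S1 d k)) : ℝ := ∑ l, ((ξ TW.nil).2.2 l) ^ 2

theorem continuous_NX : Continuous (NX : Conf d (S1 d k) → ℝ) :=
  continuous_finset_sum _ fun l _ => (continuous_site_X _ l).pow 2

theorem NX_nonneg (ξ : Conf d (S1 d k)) : 0 ≤ NX ξ := Finset.sum_nonneg fun _ _ => sq_nonneg _

theorem sq_le_NX (ξ : Conf d (S1 d k)) (l : Fin k) : ((ξ TW.nil).2.2 l) ^ 2 ≤ NX ξ :=
  Finset.single_le_sum (f := fun l => ((ξ TW.nil).2.2 l) ^ 2) (fun _ _ => sq_nonneg _)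
    (Finset.mem_univ l)

/-- uniform integrability of the frames along the sequence -/
def UIF (S : Seq d k) : Prop :=
  ∀ ε : ℝ, 0 < ε → ∃ M : ℝ, 0 ≤ M ∧ ∀ᶠ j in atTop, ∀ x ∈ S.U j,
    ∑ v, (if M < ∑ l, (S.F j x l v) ^ 2 then ∑ l, (S.F j x l v) ^ 2 else 0) ≤ ε * S.n j

theorem UI_NX (S : Seq d k) (hui : UIF S) : UI (Sl S) (Smu S) (fun ξ => 1 + NX ξ) := by
  refine ⟨Eventually.of_forall fun a => integrable_Smu S a _, fun ε hε => ?_⟩
  obtain ⟨M, hM, h1⟩ := hui (ε / 2) (by positivity)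
  refine ⟨max M 1 + 1, by positivity, ?_⟩
  filter_upwards [eventually_Sl S h1] with a ha
  have hn : (0 : ℝ) < S.n a.1.1 := by exact_mod_cast S.pos a.1.1
  have h2 : ∀ ξ : Conf d (S1 d k), (if max M 1 + 1 < |1 + NX ξ| then |1 + NX ξ| else 0)
      ≤ 2 * (if M < NX ξ then NX ξ else 0) := by
    intro ξ
    have h3 := NX_nonneg ξ
    rw [abs_of_nonneg (by linarith)]
    split_ifs with h4 h5 h5
    · have : 1 < NX ξ := by
        have := le_max_right M 1
        linarith
      linarith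
    · exfalso
      have := le_max_left M 1
      linarith
    · positivity
    · simp
  calc ∫ ξ : Conf d (S1 d k), (if max M 1 + 1 < |1 + NX ξ| then |1 + NX ξ| else 0)
          ∂(Smu S a : Measure (Conf d (S1 d k)))
      ≤ ∫ ξ : Conf d (S1 d k), 2 * (if M < NX ξ then NX ξ else 0)
          ∂(Smu S a : Measure (Conf d (S1 d k))) :=
        integral_mono (integrable_Smu S a _) (integrable_Smu S a _) h2
    _ = 2 * ∫ ξ : Conf d (S1 d k), (if M < NX ξ then NX ξ else 0)
          ∂(Smu S a : Measure (Conf d (S1 d k))) := integral_const_mul _ _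
    _ ≤ 2 * (ε / 2) := by
        gcongr
        have h5 := integral_Smu_frame S a (fun y => if M < ∑ l, (y l) ^ 2 then ∑ l, (y l) ^ 2 else 0)
        have h6 : ∫ ξ : Conf d (S1 d k), (if M < NX ξ then NX ξ else 0)
              ∂(Smu S a : Measure (Conf d (S1 d k)))
            = (∑ v, (if M < ∑ l, (S.F a.1.1 a.1.2 l v) ^ 2 then
              ∑ l, (S.F a.1.1 a.1.2 l v) ^ 2 else 0)) / (S.n a.1.1) := h5
        rw [h6, div_le_iff₀ hn]
        exact ha
    _ = ε := by ring

theorem UI_of_le (S : Seq d k) (hui : UIF S) {f : Conf d (S1 d k) → ℝ} (hf : Continuous f)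
    (h : ∀ ξ, |f ξ| ≤ 1 + NX ξ) : UI (Sl S) (Smu S) f := by
  refine UI.mono (UI_NX S hui) hf ?_ ?_
  · exact (continuous_const.add continuous_NX).measurable
  · intro ξ
    refine (h ξ).trans (le_abs_self _)

theorem integrable_NX (S : Seq d k) (hui : UIF S) : Integrable NX S.P := by
  have h := integrable_limit (Smu_tendsto S) continuous_NX
    (UI_of_le S hui continuous_NX fun ξ => by
      rw [abs_of_nonneg (NX_nonneg ξ)]
      linarith)
  exact h

/-- **second moments** -/
theorem X_L2 (S : Seq d k) (hui : UIF S) (l : Fin k) :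
    MemLp (fun ξ : Conf d (S1 d k) => (ξ TW.nil).2.2 l) 2 S.P := by
  have hc := continuous_site_X (d := d) (TW.nil : TW d) l
  rw [memLp_two_iff_integrable_sq hc.measurable.aestronglyMeasurable]
  refine (integrable_NX S hui).mono' (hc.pow 2).measurable.aestronglyMeasurable ?_
  refine Eventually.of_forall fun ξ => ?_
  rw [Real.norm_eq_abs, abs_of_nonneg (sq_nonneg _)]
  exact sq_le_NX ξ l

theorem abs_mul_le_NX (ξ : Conf d (S1 d k)) (l l' : Fin k) :
    |(ξ TW.nil).2.2 l * (ξ TW.nil).2.2 l'| ≤ 1 + NX ξ := by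
  have h1 := sq_le_NX ξ l
  have h2 := sq_le_NX ξ l'
  rw [abs_mul]
  nlinarith [sq_nonneg (|(ξ TW.nil).2.2 l| - |(ξ TW.nil).2.2 l'|), sq_abs ((ξ TW.nil).2.2 l),
    sq_abs ((ξ TW.nil).2.2 l')]

/-- **covariance** of the limit -/
theorem X_cov (S : Seq d k) (hui : UIF S)
    (horth : ∀ᶠ j in atTop, ∀ x ∈ S.U j, ∀ l l', ∑ v, S.F j x l v * S.F j x l' v
      = if l = l' then (S.n j : ℝ) else 0) (l l' : Fin k) :
    ∫ ξ, (ξ TW.nil).2.2 l * (ξ TW.nil).2.2 l' ∂S.P = if l = l' then 1 else 0 := by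
  have hc := (continuous_site_X (d := d) (TW.nil : TW d) l).mul (continuous_site_X TW.nil l')
  have h1 := tendsto_integral_of_UI (Smu_tendsto S) hc
    (UI_of_le S hui hc fun ξ => abs_mul_le_NX ξ l l')
  have h2 : (fun a => ∫ ξ, (ξ TW.nil).2.2 l * (ξ TW.nil).2.2 l'
      ∂(Smu S a : Measure (Conf d (S1 d k)))) =ᶠ[Sl S] fun _ => if l = l' then (1 : ℝ) else 0 := by
    filter_upwards [eventually_Sl S horth] with a ha
    have hn : (S.n a.1.1 : ℝ) ≠ 0 := by exact_mod_cast (S.pos a.1.1).ne'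
    rw [integral_Smu_frame S a (fun y => y l * y l'), ha l l']
    split_ifs
    · exact div_self hn
    · exact zero_div _
  exact tendsto_nhds_unique (h1.congr' h2) tendsto_const_nhds |>.symm ▸ rfl

end Crest.Agent.R166.LimProps974
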