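import Mathlib
import Crest.Agent.R166.PairCount_356
import Crest.Agent.R166.TreeLike2_942
import Crest.Agent.R166.Noise_547

/-!
# R166, 40.7: moments at tree-like vertices are determined by the views (helper356)
-/

set_option autoImplicit false
set_option linter.unusedSectionVars false

namespace Crest.Agent.R166.UppTree356

open Finset

variable {V V' : Type*} [Fintype V] [DecidableEq V] [Fintype V'] [DecidableEq V'] {d : ℕ}
  {A : Type*}

/-- adjacency matrix of the multigraph of the pairing -/
def adjP (p : Equiv.Perm (V × Fin d)) : Matrix V V ℝ := fun v w =>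
  ∑ i : Fin d, if (p (v, i)).1 = w then 1 else 0

lemma adjP_apply (p : Equiv.Perm (V × Fin d)) (v w : V) :
    adjP p v w = ((univ.filter fun i : Fin d => (p (v, i)).1 = w).card : ℝ) := by
  simp [adjP]

/-- `A_p + s diag w` -/
def Hp (p : Equiv.Perm (V × Fin d)) (s : ℝ) (w : V → ℝ) : Matrix V V ℝ :=
  adjP p + s • Matrix.diagonal w

lemma Hp_mul_apply (p : Equiv.Perm (V × Fin d)) (s : ℝ) (w : V → ℝ) (M : Matrix V V ℝ) (x y : V) :
    (Hp p s w * M) x y = s * w x * M x y + ∑ i : Fin d, M (p (x, i)).1 y := by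
  rw [Hp, Matrix.add_mul, Matrix.add_apply, Matrix.smul_mul, Matrix.smul_apply,
    Matrix.diagonal_mul, smul_eq_mul, ← mul_assoc, add_comm]
  congr 1
  rw [Matrix.mul_apply]
  simp only [adjP, Finset.sum_mul]
  rw [Finset.sum_comm]
  apply Finset.sum_congr rfl
  intro i _
  simp

/-- symmetry -/
lemma adjP_symm {p : Equiv.Perm (V × Fin d)} (hp : ∀ x, p (p x) = x) (v w : V) :
    adjP p v w = adjP p w v := by
  rw [adjP_apply, adjP_apply]
  norm_cast
  apply Finset.card_bij (fun i _ => (p (v, i)).2)
  · intro i hi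
    simp only [Finset.mem_filter, Finset.mem_univ, true_and] at hi ⊢
    rw [← hi]
    show (p (p (v, i))).1 = v
    rw [hp]
  · intro i hi j hj h
    simp only [Finset.mem_filter, Finset.mem_univ, true_and] at hi hj
    have : p (v, i) = p (v, j) := Prod.ext (hi.trans hj.symm) h
    exact (Prod.ext_iff.1 (p.injective this)).2
  · intro j hj
    simp only [Finset.mem_filter, Finset.mem_univ, true_and] at hj
    refine ⟨(p (w, j)).2, ?_, ?_⟩
    · simp only [Finset.mem_filter, Finset.mem_univ, true_and]
      rw [← hj]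
      show (p (p (w, j))).1 = w
      rw [hp]
    · have : ((v, (p (w, j)).2) : V × Fin d) = p (w, j) := Prod.ext hj.symm rfl
      rw [this, hp]

lemma Hp_isHermitian {p : Equiv.Perm (V × Fin d)} (hp : ∀ x, p (p x) = x) (s : ℝ) (w : V → ℝ) :
    (Hp p s w).IsHermitian := by
  rw [Matrix.IsHermitian, Matrix.conjTranspose_eq_transpose_of_trivial]
  ext x y
  simp only [Hp, Matrix.transpose_apply, Matrix.add_apply, Matrix.smul_apply, smul_eq_mul]
  rw [adjP_symm hp y x]
  congr 2
  by_cases h : x = y
  · subst h; rfl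
  · rw [Matrix.diagonal_apply_ne _ h, Matrix.diagonal_apply_ne _ (Ne.symm h)]

/-- row sums -/
lemma Hp_row_le (p : Equiv.Perm (V × Fin d)) (s : ℝ) (w : V → ℝ) (hw : ∀ x, |w x| ≤ 1) (x : V) :
    ∑ y, |Hp p s w x y| ≤ d + |s| := by
  calc ∑ y, |Hp p s w x y| ≤ ∑ y, (adjP p x y + |s| * |Matrix.diagonal w x y|) := by
        apply Finset.sum_le_sum
        intro y _
        rw [Hp, Matrix.add_apply, Matrix.smul_apply, smul_eq_mul]
        refine (abs_add_le _ _).trans ?_
        rw [abs_mul, abs_of_nonneg]
        rw [adjP_apply]; positivity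
    _ = (∑ y, adjP p x y) + |s| * ∑ y, |Matrix.diagonal w x y| := by
        rw [Finset.sum_add_distrib, Finset.mul_sum]
    _ = d + |s| * |w x| := by
        congr 1
        · simp only [adjP]
          rw [Finset.sum_comm]
          simp
        · congr 1
          rw [Finset.sum_eq_single x]
          · simp
          · intro y _ hy
            rw [Matrix.diagonal_apply_ne _ (Ne.symm hy)]; simp
          · simp
    _ ≤ d + |s| := by
        have := mul_le_mul_of_nonneg_left (hw x) (abs_nonneg s)
        linarith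

/-! ### views -/

/-- same view of radius `r` (walks, backtracking allowed, arrival labels recorded) -/
def Same (p : Equiv.Perm (V × Fin d)) (c : V → A) (p' : Equiv.Perm (V' × Fin d)) (c' : V' → A) :
    ℕ → V → V' → Prop
  | 0, v, v' => c v = c' v'
  | r + 1, v, v' => c v = c' v' ∧ ∀ i, (p (v, i)).2 = (p' (v', i)).2 ∧
      Same p c p' c' r (p (v, i)).1 (p' (v', i)).1

lemma Same.color {p : Equiv.Perm (V × Fin d)} {c : V → A} {p' : Equiv.Perm (V' × Fin d)}
    {c' : V' → A} {r : ℕ} {v : V} {v' : V'} (h : Same p c p' c' r v v') : c v = c' v' := by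
  cases r with
  | zero => exact h
  | succ r => exact h.1

lemma Same.mono_succ {p : Equiv.Perm (V × Fin d)} {c : V → A} {p' : Equiv.Perm (V' × Fin d)}
    {c' : V' → A} {r : ℕ} : ∀ {v : V} {v' : V'}, Same p c p' c' (r + 1) v v' →
    Same p c p' c' r v v' := by
  induction r with
  | zero => intro v v' h; exact h.1
  | succ r ih => intro v v' h; exact ⟨h.1, fun i => ⟨(h.2 i).1, ih (h.2 i).2⟩⟩

lemma Same.mono {p : Equiv.Perm (V × Fin d)} {c : V → A} {p' : Equiv.Perm (V' × Fin d)}
    {c' : V' → A} {r m : ℕ} (hm : m ≤ r) {v : V} {v' : V'} (h : Same p c p' c' r v v') :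
    Same p c p' c' m v v' := by
  induction r with
  | zero => obtain rfl : m = 0 := by omega
            exact h
  | succ r ih =>
    rcases Nat.lt_or_ge m (r + 1) with h1 | h1
    · exact ih (by omega) h.mono_succ
    · obtain rfl : m = r + 1 := by omega
      exact h

/-- signed count of lazy walks of length `m` from `x` whose backtracking reduction ends up empty,
the current reduced path having the arrival labels `st` (most recent first). -/
def N (p : Equiv.Perm (V × Fin d)) (s : ℝ) (f : V → ℝ) : ℕ → V → List (Fin d) → ℝ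
  | 0, _, st => if st = [] then 1 else 0
  | m + 1, x, [] => s * f x * N p s f m x [] +
      ∑ i : Fin d, N p s f m (p (x, i)).1 [(p (x, i)).2]
  | m + 1, x, j :: t => s * f x * N p s f m x (j :: t) +
      ∑ i : Fin d, if i = j then N p s f m (p (x, i)).1 t
        else N p s f m (p (x, i)).1 ((p (x, i)).2 :: j :: t)

lemma N_eq_of_same {p : Equiv.Perm (V × Fin d)} {c : V → A} {p' : Equiv.Perm (V' × Fin d)}
    {c' : V' → A} (s : ℝ) (g : A → ℝ) (m : ℕ) :
    ∀ (x : V) (x' : V') (st : List (Fin d)), Same p c p' c' m x x' →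
      N p s (fun v => g (c v)) m x st = N p' s (fun v => g (c' v)) m x' st := by
  induction m with
  | zero => intro x x' st _; simp [N]
  | succ m ih =>
    intro x x' st h
    cases st with
    | nil =>
      simp only [N]
      rw [h.1, ih x x' [] h.mono_succ]
      congr 1
      apply Finset.sum_congr rfl
      intro i _
      rw [(h.2 i).1, ih _ _ _ (h.2 i).2]
    | cons j t =>
      simp only [N]
      rw [h.1, ih x x' (j :: t) h.mono_succ]
      congr 1
      apply Finset.sum_congr rfl
      intro i _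
      rw [(h.2 i).1, ih _ _ _ (h.2 i).2, ih _ _ _ (h.2 i).2]

/-! ### paths -/

/-- non-backtracking path from `v`, list of half-edges, most recent first -/
def NB (p : Equiv.Perm (V × Fin d)) (v : V) : List (V × Fin d) → Prop
  | [] => True
  | [h] => h.1 = v
  | h :: g :: t => h.1 = (p g).1 ∧ h ≠ p g ∧ NB p v (g :: t)

/-- end vertex of a path -/
def ep (p : Equiv.Perm (V × Fin d)) (v : V) : List (V × Fin d) → V
  | [] => v
  | h :: _ => (p h).1

/-- no nonempty non-backtracking path of length at most `a` from `v` ends at `v` -/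
def NoClosed (p : Equiv.Perm (V × Fin d)) (a : ℕ) (v : V) : Prop :=
  ∀ l : List (V × Fin d), NB p v l → l.length ≤ a → ep p v l = v → l = []

lemma NB.tail {p : Equiv.Perm (V × Fin d)} {v : V} {h : V × Fin d} {t : List (V × Fin d)}
    (hl : NB p v (h :: t)) : NB p v t := by
  cases t with
  | nil => trivial
  | cons g t => exact hl.2.2

lemma NB.head_eq {p : Equiv.Perm (V × Fin d)} {v : V} {h : V × Fin d} {t : List (V × Fin d)}
    (hl : NB p v (h :: t)) : h.1 = ep p v t := by
  cases t with
  | nil => exact hl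
  | cons g t => exact hl.1

/-- the moments are the counts `N` at tree-like vertices -/
lemma pow_eq_N {p : Equiv.Perm (V × Fin d)} (hp : ∀ x, p (p x) = x) (s : ℝ) (f : V → ℝ)
    {a : ℕ} {v : V} (hv : NoClosed p a v) (m : ℕ) :
    ∀ (l : List (V × Fin d)), NB p v l → l.length + m ≤ a →
      (Hp p s f ^ m) (ep p v l) v = N p s f m (ep p v l) (l.map fun g => (p g).2) := by
  induction m with
  | zero =>
    intro l hl hlen
    rw [pow_zero]
    simp only [N]
    by_cases h : l = []
    · subst h
      show (1 : Matrix V V ℝ) v v = _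
      simp
    · have h1 : ep p v l ≠ v := fun e => h (hv l hl (by omega) e)
      rw [Matrix.one_apply_ne h1, if_neg (by simpa using h)]
  | succ m ih =>
    intro l hl hlen
    rw [pow_succ', Hp_mul_apply]
    cases l with
    | nil =>
      simp only [List.map_nil, N]
      congr 1
      · exact congrArg _ (ih [] trivial (by
          simp only [List.length_nil] at hlen ⊢
          omega))
      · apply Finset.sum_congr rfl
        intro i _
        have h1 : NB p v [(v, i)] := rfl
        have h2 := ih [(v, i)] h1 (by simp; omega)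
        simpa [ep] using h2
    | cons g t =>
      simp only [List.map_cons, N]
      simp only [List.length_cons] at hlen
      congr 1
      · have h2 := ih (g :: t) hl (by simp; omega)
        simp only [List.map_cons] at h2
        rw [← h2]
      · apply Finset.sum_congr rfl
        intro i _
        have hx : ep p v (g :: t) = (p g).1 := rfl
        rw [hx]
        by_cases hi : i = (p g).2
        · rw [if_pos hi]
          have h3 : (((p g).1, i) : V × Fin d) = p g := Prod.ext rfl hi
          rw [h3, hp]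
          have h4 : g.1 = ep p v t := hl.head_eq
          rw [h4]
          exact ih t hl.tail (by omega)
        · rw [if_neg hi]
          have h3 : NB p v (((p g).1, i) :: g :: t) := by
            refine ⟨rfl, ?_, hl⟩
            intro h4
            exact hi (Prod.ext_iff.1 h4).2
          have h2 := ih (((p g).1, i) :: g :: t) h3 (by simp; omega)
          simpa [ep] using h2

theorem pow_diag_eq_N {p : Equiv.Perm (V × Fin d)} (hp : ∀ x, p (p x) = x) (s : ℝ) (f : V → ℝ)
    {a : ℕ} {v : V} (hv : NoClosed p a v) {m : ℕ} (hm : m ≤ a) :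
    (Hp p s f ^ m) v v = N p s f m v [] :=
  pow_eq_N hp s f hv m [] trivial (by simpa using hm)

/-- equality of moments -/
theorem pow_diag_eq {p : Equiv.Perm (V × Fin d)} {c : V → A} {p' : Equiv.Perm (V' × Fin d)}
    {c' : V' → A} (hp : ∀ x, p (p x) = x) (hp' : ∀ x, p' (p' x) = x) (s : ℝ) (g : A → ℝ)
    {a : ℕ} {v : V} {v' : V'} (hv : NoClosed p a v) (hv' : NoClosed p' a v')
    (hs : Same p c p' c' a v v') {m : ℕ} (hm : m ≤ a) :
    (Hp p s (fun x => g (c x)) ^ m) v v = (Hp p' s (fun x => g (c' x)) ^ m) v' v' := by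
  rw [pow_diag_eq_N hp s _ hv hm, pow_diag_eq_N hp' s _ hv' hm,
    N_eq_of_same s g m v v' [] (hs.mono hm)]

/-- equality of polynomials of the matrices -/
theorem aeval_diag_eq {p : Equiv.Perm (V × Fin d)} {c : V → A} {p' : Equiv.Perm (V' × Fin d)}
    {c' : V' → A} (hp : ∀ x, p (p x) = x) (hp' : ∀ x, p' (p' x) = x) (s : ℝ) (g : A → ℝ)
    {a : ℕ} {v : V} {v' : V'} (hv : NoClosed p a v) (hv' : NoClosed p' a v')
    (hs : Same p c p' c' a v v') (P : Polynomial ℝ) (hP : P.natDegree ≤ a) :
    (Polynomial.aeval (Hp p s (fun x => g (c x))) P) v v =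
      (Polynomial.aeval (Hp p' s (fun x => g (c' x))) P) v' v' := by
  rw [Polynomial.aeval_eq_sum_range, Polynomial.aeval_eq_sum_range]
  simp only [Matrix.sum_apply, Matrix.smul_apply]
  apply Finset.sum_congr rfl
  intro m hm
  rw [Finset.mem_range] at hm
  rw [pow_diag_eq hp hp' s g hv hv' hs (by omega)]

/-! ### tree-likeness -/

open TreeLike942 in
lemma NB.isWalk {p : Equiv.Perm (V × Fin d)} {v : V} : ∀ {l : List (V × Fin d)}, NB p v l →
    IsWalk Prod.fst p v l.reverse (ep p v l) ∧ Reduced p l.reverse := by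
  intro l
  induction l with
  | nil => intro _; exact ⟨rfl, by simp [Reduced]⟩
  | cons h t ih =>
    intro hl
    obtain ⟨h1, h2⟩ := ih hl.tail
    rw [List.reverse_cons]
    constructor
    · rw [isWalk_append]
      exact ⟨ep p v t, h1, hl.head_eq, rfl⟩
    · unfold Reduced at h2 ⊢
      rw [List.isChain_append]
      refine ⟨h2, by simp, ?_⟩
      intro x hx y hy
      cases t with
      | nil => simp at hx
      | cons g t =>
        simp only [List.reverse_cons, List.getLast?_append, List.getLast?_singleton,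
          Option.some_or, Option.mem_def, Option.some.injEq, List.head?_cons] at hx hy
        rw [← hx, ← hy]
        exact hl.2.1

/-- helper942's tree-likeness implies ours -/
lemma noClosed_of_treeAt {p : Equiv.Perm (V × Fin d)} {a : ℕ} {v : V}
    (h : TreeLike942.TreeAt Prod.fst p a v) : NoClosed p a v := by
  intro l hl hlen he
  obtain ⟨h1, h2⟩ := hl.isWalk
  rw [he] at h1
  have := h l.reverse [] v h1 rfl h2 (by simp [TreeLike942.Reduced]) (by simpa using hlen)
    (by simp)
  simpa using this

/-- equal counts give a bijection matching the values -/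
lemma exists_equiv_of_card_fiber {X : Type*} {f f' : V → X}
    (h : ∀ x, Nat.card {v // f v = x} = Nat.card {v // f' v = x}) :
    ∃ σ : V ≃ V, ∀ v, f' (σ v) = f v := by
  classical
  have e : ∀ x, Nonempty ({v // f v = x} ≃ {v // f' v = x}) := by
    intro x
    rw [← Cardinal.eq, Cardinal.mk_fintype, Cardinal.mk_fintype]
    have := h x
    rw [Nat.card_eq_fintype_card, Nat.card_eq_fintype_card] at this
    exact_mod_cast this
  refine ⟨Equiv.ofFiberEquiv fun x => (e x).some, fun v => ?_⟩
  exact Equiv.ofFiberEquiv_map _ v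

/-! ### comparison of spectral averages -/

section spectral

open Noise547

variable {n : ℕ}

/-- comparison of the traces of a polynomial -/
lemma trace_poly_close {c c' : Fin n → A} {p p' : Equiv.Perm (Fin n × Fin d)}
    (hp : ∀ x, p (p x) = x) (hp' : ∀ x, p' (p' x) = x) (s : ℝ) (g : A → ℝ) (hg : ∀ x, |g x| ≤ 1)
    {a : ℕ} (σ : Fin n ≃ Fin n) (hσ : ∀ v, Same p c p' c' a v (σ v))
    (P : Polynomial ℝ) (hP : P.natDegree ≤ a) {M : ℝ}
    (hM : ∀ x : ℝ, |x| ≤ d + |s| → |P.eval x| ≤ M) (b : ℕ)
    (hb : Nat.card {v // ¬ NoClosed p a v} ≤ b) (hb' : Nat.card {v // ¬ NoClosed p' a v} ≤ b) :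
    |(Polynomial.aeval (Hp p s (fun x => g (c x))) P).trace -
      (Polynomial.aeval (Hp p' s (fun x => g (c' x))) P).trace| ≤ 4 * M * b := by
  classical
  have hM0 : 0 ≤ M := (abs_nonneg _).trans (hM 0 (by simp; positivity))
  set H := Hp p s (fun x => g (c x)) with hH
  set H' := Hp p' s (fun x => g (c' x)) with hH'
  have hh : H.IsHermitian := Hp_isHermitian hp s _
  have hh' : H'.IsHermitian := Hp_isHermitian hp' s _
  have e1 : ∀ x y, |(Polynomial.aeval H P) x y| ≤ M := by
    intro x y
    rw [← fM_poly hh]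
    exact fM_abs_le hh (fun i => hM _ (eig_abs_le hh (Hp_row_le p s _ fun v => hg _) i)) x y
  have e2 : ∀ x y, |(Polynomial.aeval H' P) x y| ≤ M := by
    intro x y
    rw [← fM_poly hh']
    exact fM_abs_le hh' (fun i => hM _ (eig_abs_le hh' (Hp_row_le p' s _ fun v => hg _) i)) x y
  have e3 : (Polynomial.aeval H' P).trace = ∑ v, (Polynomial.aeval H' P) (σ v) (σ v) := by
    rw [Matrix.trace]
    exact (Equiv.sum_comp σ (fun v => (Polynomial.aeval H' P) v v)).symm
  rw [e3, Matrix.trace, ← Finset.sum_sub_distrib]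
  simp only [Matrix.diag_apply]
  set B := (univ.filter fun v => ¬ NoClosed p a v) with hB
  set B' := (univ.filter fun v => ¬ NoClosed p' a v) with hB'
  have cB : B.card ≤ b := by
    rwa [Nat.card_eq_fintype_card, Fintype.card_subtype] at hb
  have cB' : B'.card ≤ b := by
    rwa [Nat.card_eq_fintype_card, Fintype.card_subtype] at hb'
  calc |∑ v, ((Polynomial.aeval H P) v v - (Polynomial.aeval H' P) (σ v) (σ v))|
      ≤ ∑ v, |(Polynomial.aeval H P) v v - (Polynomial.aeval H' P) (σ v) (σ v)| :=
        Finset.abs_sum_le_sum_abs _ _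
    _ ≤ ∑ v, ((if v ∈ B then 2 * M else 0) + (if σ v ∈ B' then 2 * M else 0)) := by
        apply Finset.sum_le_sum
        intro v _
        by_cases h1 : v ∈ B
        · rw [if_pos h1]
          have : |(Polynomial.aeval H P) v v - (Polynomial.aeval H' P) (σ v) (σ v)| ≤ 2 * M := by
            refine (abs_sub _ _).trans ?_
            have := e1 v v
            have := e2 (σ v) (σ v)
            linarith
          refine this.trans ?_
          split_ifs <;> linarith
        · by_cases h2 : σ v ∈ B'
          · rw [if_pos h2]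
            have : |(Polynomial.aeval H P) v v - (Polynomial.aeval H' P) (σ v) (σ v)| ≤ 2 * M := by
              refine (abs_sub _ _).trans ?_
              have := e1 v v
              have := e2 (σ v) (σ v)
              linarith
            refine this.trans ?_
            split_ifs <;> linarith
          · rw [if_neg h1, if_neg h2]
            have k1 : NoClosed p a v := by
              by_contra h; exact h1 (by simp [hB, h])
            have k2 : NoClosed p' a (σ v) := by
              by_contra h; exact h2 (by simp [hB', h])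
            rw [hH, hH', aeval_diag_eq hp hp' s g k1 k2 (hσ v) P hP]
            simp
    _ = B.card * (2 * M) + B'.card * (2 * M) := by
        rw [Finset.sum_add_distrib]
        congr 1
        · rw [← Finset.sum_filter, Finset.sum_const, nsmul_eq_mul]
          congr 2
          congr 1
          ext v; simp
        · rw [Equiv.sum_comp σ (fun v => if v ∈ B' then 2 * M else 0), ← Finset.sum_filter,
            Finset.sum_const, nsmul_eq_mul]
          congr 2
          congr 1
          ext v; simp
    _ ≤ b * (2 * M) + b * (2 * M) := by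
        have h1 : (B.card : ℝ) ≤ b := by exact_mod_cast cB
        have h2 : (B'.card : ℝ) ≤ b := by exact_mod_cast cB'
        gcongr
    _ = 4 * M * b := by ring

/-- MAIN: equal view counts and few non-tree-like vertices imply that spectral averages of a
continuous function are close. -/
theorem spec_close (d : ℕ) (s : ℝ) (F : ℝ → ℝ) (hF : Continuous F) (ε : ℝ) (hε : 0 < ε) :
    ∃ a0 : ℕ, ∀ a : ℕ, a0 ≤ a → ∃ ε' : ℝ, 0 < ε' ∧ ∀ (n : ℕ), 0 < n →
      ∀ (A : Type) (c c' : Fin n → A) (p p' : Equiv.Perm (Fin n × Fin d))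
        (hp : ∀ x, p (p x) = x) (hp' : ∀ x, p' (p' x) = x) (g : A → ℝ), (∀ x, |g x| ≤ 1) →
        ∀ (σ : Fin n ≃ Fin n), (∀ v, Same p c p' c' a v (σ v)) →
        (Nat.card {v // ¬ NoClosed p a v} : ℝ) ≤ ε' * n →
        (Nat.card {v // ¬ NoClosed p' a v} : ℝ) ≤ ε' * n →
        |(∑ i, F ((Hp_isHermitian hp s (fun x => g (c x))).eigenvalues i)) / (n : ℝ) -
          (∑ i, F ((Hp_isHermitian hp' s (fun x => g (c' x))).eigenvalues i)) / (n : ℝ)| ≤ ε := by
  obtain ⟨P, hP⟩ := exists_poly hF (d + |s|) (ε := ε / 4) (by positivity)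
  obtain ⟨M, hM0, hM⟩ : ∃ M : ℝ, 0 < M ∧ ∀ x : ℝ, |x| ≤ d + |s| → |P.eval x| ≤ M := by
    have hc : IsCompact (Set.Icc (-((d : ℝ) + |s|)) (d + |s|)) := isCompact_Icc
    obtain ⟨M, hM⟩ := hc.exists_bound_of_continuousOn (f := fun x => P.eval x)
      (Polynomial.continuous P).continuousOn
    refine ⟨max M 1, by positivity, fun x hx => ?_⟩
    exact (hM x (abs_le.1 hx)).trans (le_max_left _ _)
  refine ⟨P.natDegree, fun a ha => ⟨ε / (8 * M), by positivity, ?_⟩⟩
  intro n hn A c c' p p' hp hp' g hg σ hσ hb hb'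
  haveI : Nonempty (Fin n) := ⟨⟨0, hn⟩⟩
  have hn' : (0 : ℝ) < n := by exact_mod_cast hn
  set hh := Hp_isHermitian hp s (fun x => g (c x)) with hhh
  set hh' := Hp_isHermitian hp' s (fun x => g (c' x)) with hhh'
  have e1 := logdet_poly hh (f := F) P (ε := ε / 4)
    (fun i => hP _ (eig_abs_le hh (Hp_row_le p s _ fun v => hg _) i))
  have e2 := logdet_poly hh' (f := F) P (ε := ε / 4)
    (fun i => hP _ (eig_abs_le hh' (Hp_row_le p' s _ fun v => hg _) i))
  rw [Fintype.card_fin] at e1 e2
  set b := max (Nat.card {v // ¬ NoClosed p a v}) (Nat.card {v // ¬ NoClosed p' a v}) with hbdef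
  have hbn : (b : ℝ) ≤ ε / (8 * M) * n := by
    rcases max_choice (Nat.card {v // ¬ NoClosed p a v}) (Nat.card {v // ¬ NoClosed p' a v})
      with h | h
    · rw [hbdef, h]; exact hb
    · rw [hbdef, h]; exact hb'
  have e3 := trace_poly_close hp hp' s g hg σ hσ P ha hM b (le_max_left _ _) (le_max_right _ _)
  have e4 : |(Polynomial.aeval (Hp p s (fun x => g (c x))) P).trace / (n : ℝ) -
      (Polynomial.aeval (Hp p' s (fun x => g (c' x))) P).trace / (n : ℝ)| ≤ ε / 2 := by
    rw [← sub_div, abs_div, abs_of_pos hn', div_le_iff₀ hn']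
    refine e3.trans ?_
    calc 4 * M * (b : ℝ) ≤ 4 * M * (ε / (8 * M) * n) := by gcongr
      _ = ε / 2 * n := by field_simp; ring
  have e5 := abs_sub_le ((∑ i, F (hh.eigenvalues i)) / (n : ℝ))
    ((Polynomial.aeval (Hp p s (fun x => g (c x))) P).trace / (n : ℝ))
    ((Polynomial.aeval (Hp p' s (fun x => g (c' x))) P).trace / (n : ℝ))
  have e6 := abs_sub_le ((∑ i, F (hh.eigenvalues i)) / (n : ℝ))
    ((Polynomial.aeval (Hp p' s (fun x => g (c' x))) P).trace / (n : ℝ))
    ((∑ i, F (hh'.eigenvalues i)) / (n : ℝ))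
  rw [abs_sub_comm] at e2
  linarith

/-- the same for `log det g_η(H)` -/
theorem logdet_close (d : ℕ) (s E η c0 : ℝ) (hη : 0 < η) (hc0 : 0 < c0) (ε : ℝ) (hε : 0 < ε) :
    ∃ a0 : ℕ, ∀ a : ℕ, a0 ≤ a → ∃ ε' : ℝ, 0 < ε' ∧ ∀ (n : ℕ), 0 < n →
      ∀ (A : Type) (c c' : Fin n → A) (p p' : Equiv.Perm (Fin n × Fin d))
        (hp : ∀ x, p (p x) = x) (hp' : ∀ x, p' (p' x) = x) (g : A → ℝ), (∀ x, |g x| ≤ 1) →
        ∀ (σ : Fin n ≃ Fin n), (∀ v, Same p c p' c' a v (σ v)) →
        (Nat.card {v // ¬ NoClosed p a v} : ℝ) ≤ ε' * n →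
        (Nat.card {v // ¬ NoClosed p' a v} : ℝ) ≤ ε' * n →
        |Real.log (fM (Hp_isHermitian hp s (fun x => g (c x))) (geta E η c0)).det / (n : ℝ) -
          Real.log (fM (Hp_isHermitian hp' s (fun x => g (c' x))) (geta E η c0)).det / (n : ℝ)|
          ≤ ε := by
  have hF : Continuous fun x => Real.log (geta E η c0 x) :=
    (continuous_geta hη).log fun x => (geta_pos hη hc0 x).ne'
  obtain ⟨a0, h⟩ := spec_close d s _ hF ε hε
  refine ⟨a0, fun a ha => ?_⟩
  obtain ⟨ε', h1, h2⟩ := h a ha
  refine ⟨ε', h1, ?_⟩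
  intro n hn A c c' p p' hp hp' g hg σ hσ hb hb'
  rw [geta_det _ hη hc0, geta_det _ hη hc0]
  exact h2 n hn A c c' p p' hp hp' g hg σ hσ hb hb'

end spectral

end Crest.Agent.R166.UppTree356
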