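import Crest.Agent.R166.Spec_B1_955
import Crest.Agent.R166.Seq_980
import Crest.Agent.R166.UppTree_356

/-!
Row 166, 40.x (helper547): normalised log-determinants (and all continuous linear statistics of the
spectrum) converge along the extracted sequence: `Stmt_LogDet`.
-/

set_option autoImplicit false
set_option maxHeartbeats 400000

namespace Crest.Agent.R166.LogDet547

open MeasureTheory Filter Crest.ProbabilityR.RandomMatrix Words955 SpecB1
open Crest.Agent.R166.Noise547

/-! ### the matrix of a port numbering -/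

theorem Hm_graphOf {n d : ℕ} {p : Equiv.Perm (HE n d)} (hp : IsPort p) (s : ℝ) (ω : Fin n → ℝ) :
    Hm (graphOf p) s ω = UppTree356.Hp p s ω := by
  classical
  unfold Hm UppTree356.Hp
  congr 1
  ext v w
  rw [SimpleGraph.adjMatrix_apply, UppTree356.adjP]
  by_cases h : (graphOf p).Adj v w
  · rw [if_pos h]
    obtain ⟨i, hi⟩ := hp.adj_iff.1 h
    rw [Finset.sum_eq_single i]
    · rw [if_pos hi]
    · intro j _ hj
      rw [if_neg]
      intro hj2
      exact hj (hp.simple v j i (hj2.trans hi.symm))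
    · simp
  · rw [if_neg h]
    symm
    apply Finset.sum_eq_zero
    intro i _
    rw [if_neg]
    intro hi
    exact h (hp.adj_iff.2 ⟨i, hi⟩)

/-! ### local moments on configurations -/

section NC
variable {d : ℕ} [NeZero d] {T : Type}

/-- the count `N` of helper356 on configurations -/
def NC (s : ℝ) (u : T → ℝ) : ℕ → Conf d (Fin d × T) → List (Fin d) → ℝ
  | 0, _, st => if st = [] then 1 else 0
  | m + 1, ζ, [] => s * u (ζ TW.nil).2 * NC s u m ζ [] +
      ∑ i : Fin d, NC s u m (nbr i ζ) [(nbr i ζ TW.nil).1]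
  | m + 1, ζ, j :: t => s * u (ζ TW.nil).2 * NC s u m ζ (j :: t) +
      ∑ i : Fin d, if i = j then NC s u m (nbr i ζ) t
        else NC s u m (nbr i ζ) ((nbr i ζ TW.nil).1 :: j :: t)

theorem NC_conf {V : Type} [Fintype V] [DecidableEq V] (p : Equiv.Perm (V × Fin d))
    (hp : ∀ h, p (p h) = h) (s : ℝ) (u : T → ℝ) (f : V → T) (m : ℕ) :
    ∀ (h : V × Fin d) (st : List (Fin d)),
      NC s u m (conf p (lab f) h) st = UppTree356.N p s (fun v => u (f v)) m h.1 st := by
  induction m with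
  | zero => intro h st; rfl
  | succ m ih =>
    intro h st
    cases st with
    | nil =>
      simp only [NC, UppTree356.N, nbr_conf (⇑p) hp]
      rw [ih]
      congr 1
      refine Finset.sum_congr rfl fun i _ => ?_
      rw [ih]
      rfl
    | cons j t =>
      simp only [NC, UppTree356.N, nbr_conf (⇑p) hp]
      rw [ih]
      congr 1
      refine Finset.sum_congr rfl fun i _ => ?_
      rw [ih, ih]
      rfl

theorem abs_NC_le (s : ℝ) {u : T → ℝ} (hu : ∀ x, |u x| ≤ 1) (m : ℕ) :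
    ∀ (ζ : Conf d (Fin d × T)) (st : List (Fin d)), |NC s u m ζ st| ≤ (d + |s|) ^ m := by
  induction m with
  | zero =>
    intro ζ st
    simp only [NC, pow_zero]
    split_ifs <;> simp
  | succ m ih =>
    intro ζ st
    have hb : (0 : ℝ) ≤ (d + |s|) ^ m := by positivity
    have h0 : ∀ x : ℝ, |x| ≤ (d + |s|) ^ m →
        |s * u (ζ TW.nil).2 * x| ≤ |s| * (d + |s|) ^ m := by
      intro x hx
      rw [abs_mul, abs_mul]
      have h1 : |s| * |u (ζ TW.nil).2| ≤ |s| * 1 :=
        mul_le_mul_of_nonneg_left (hu _) (abs_nonneg _)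
      rw [mul_one] at h1
      exact mul_le_mul h1 hx (abs_nonneg _) (abs_nonneg _)
    have h2 : ∀ f : Fin d → ℝ, (∀ i, |f i| ≤ (d + |s|) ^ m) →
        |∑ i, f i| ≤ d * (d + |s|) ^ m := by
      intro f hf
      refine (Finset.abs_sum_le_sum_abs _ _).trans ((Finset.sum_le_sum fun i _ => hf i).trans ?_)
      simp
    have e : (d + |s|) ^ (m + 1) = |s| * (d + |s|) ^ m + d * (d + |s|) ^ m := by ring
    cases st with
    | nil =>
      simp only [NC]
      rw [e]
      exact (abs_add_le _ _).trans (add_le_add (h0 _ (ih _ _)) (h2 _ fun i => ih _ _))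
    | cons j t =>
      simp only [NC]
      rw [e]
      refine (abs_add_le _ _).trans (add_le_add (h0 _ (ih _ _)) (h2 _ fun i => ?_))
      split_ifs
      · exact ih _ _
      · exact ih _ _

variable [TopologicalSpace T]

theorem continuous_rs (i : Fin d) : Continuous (PortAct.rs i : Fin d × T → Fin d × T) := by
  show Continuous fun x : Fin d × T => (x.1 + i, x.2)
  have h1 : Continuous fun a : Fin d => a + i := continuous_of_discreteTopology
  exact (h1.comp continuous_fst).prodMk continuous_snd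

theorem continuous_step (i : Fin d) :
    Continuous (step i : Conf d (Fin d × T) → Conf d (Fin d × T)) :=
  continuous_cross.comp (continuous_rotn (fun j => continuous_rs j) i)

/-- gluing over a discrete parameter -/
theorem continuous_glue {X Y D : Type*} [TopologicalSpace X] [TopologicalSpace Y]
    [TopologicalSpace D] [DiscreteTopology D] (j : X → D) (hj : Continuous j) (G : D → X → Y)
    (hG : ∀ a, Continuous (G a)) : Continuous fun x => G (j x) x := by
  have h1 : Continuous fun q : D × X => G q.1 q.2 :=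
    (continuous_prod_of_discrete_left (f := fun q : D × X => G q.1 q.2)).2 fun a => hG a
  exact h1.comp (hj.prodMk continuous_id)

theorem continuous_label : Continuous fun ζ : Conf d (Fin d × T) => (ζ TW.nil).1 :=
  continuous_fst.comp (continuous_apply TW.nil)

theorem continuous_nbr (i : Fin d) :
    Continuous (nbr i : Conf d (Fin d × T) → Conf d (Fin d × T)) :=
  continuous_glue (fun ζ : Conf d (Fin d × T) => (ζ TW.nil).1) continuous_label
    (fun a ζ => step (i - a) ζ) (fun a => continuous_step (i - a))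

theorem continuous_NC (s : ℝ) {u : T → ℝ} (hu : Continuous u) (m : ℕ) :
    ∀ st : List (Fin d), Continuous fun ζ : Conf d (Fin d × T) => NC s u m ζ st := by
  induction m with
  | zero => intro st; simp only [NC]; exact continuous_const
  | succ m ih =>
    intro st
    have h0 : Continuous fun ζ : Conf d (Fin d × T) => s * u (ζ TW.nil).2 :=
      continuous_const.mul (hu.comp (continuous_snd.comp (continuous_apply TW.nil)))
    cases st with
    | nil =>
      simp only [NC]
      refine (h0.mul (ih [])).add (continuous_finsetSum _ fun i _ => ?_)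
      exact continuous_glue (fun ζ : Conf d (Fin d × T) => (nbr i ζ TW.nil).1)
        (continuous_label.comp (continuous_nbr i)) (fun a ζ => NC s u m (nbr i ζ) [a])
        (fun a => (ih [a]).comp (continuous_nbr i))
    | cons j t =>
      simp only [NC]
      refine (h0.mul (ih (j :: t))).add (continuous_finsetSum _ fun i _ => ?_)
      by_cases hij : i = j
      · simp only [hij, if_true]
        exact (ih t).comp (continuous_nbr j)
      · simp only [hij, if_false]
        exact continuous_glue (fun ζ : Conf d (Fin d × T) => (nbr i ζ TW.nil).1)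
          (continuous_label.comp (continuous_nbr i)) (fun a ζ => NC s u m (nbr i ζ) (a :: j :: t))
          (fun a => (ih (a :: j :: t)).comp (continuous_nbr i))

end NC

/-! ### traces of powers as averages of a local function -/

/-- clipped potential -/
def clp {T : Type} (x : ℝ × T) : ℝ := max (-1) (min 1 x.1)

theorem abs_clp_le {T : Type} (x : ℝ × T) : |clp x| ≤ 1 := by
  unfold clp
  rw [abs_le]
  exact ⟨le_max_left _ _, max_le (by norm_num) (min_le_left _ _)⟩

theorem clp_eq {T : Type} {x : ℝ × T} (h : |x.1| ≤ 1) : clp x = x.1 := by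
  unfold clp
  rw [abs_le] at h
  rw [min_eq_right h.2, max_eq_right h.1]

theorem continuous_clp {T : Type} [TopologicalSpace T] : Continuous (clp : ℝ × T → ℝ) :=
  continuous_const.max (continuous_const.min continuous_fst)

section trace
variable {n d k : ℕ} [NeZero d]

theorem diag_pow_eq {p : Equiv.Perm (HE n d)} (hp : IsPort p) {ω : Fin n → ℝ} (s : ℝ) (m : ℕ)
    (v : Fin n) (hv : TreeLike942.TreeAt Prod.fst p m v) :
    ((Hm (graphOf p) s ω) ^ m) v v = UppTree356.N p s ω m v [] := by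
  rw [Hm_graphOf hp]
  exact UppTree356.pow_diag_eq_N hp.inv s ω (UppTree356.noClosed_of_treeAt hv) le_rfl

theorem abs_diag_pow_le {p : Equiv.Perm (HE n d)} (hp : IsPort p) {ω : Fin n → ℝ}
    (hω : ∀ v, |ω v| ≤ 1) (s : ℝ) (m : ℕ) (v : Fin n) :
    |((Hm (graphOf p) s ω) ^ m) v v| ≤ (d + |s|) ^ m := by
  rw [Hm_graphOf hp]
  have hh : (UppTree356.Hp p s ω).IsHermitian := UppTree356.Hp_isHermitian hp.inv s _
  rw [← fM_pow hh]
  refine fM_abs_le hh (fun i => ?_) v v
  rw [abs_pow]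
  exact pow_le_pow_left₀ (abs_nonneg _)
    (eig_abs_le hh (UppTree356.Hp_row_le p s _ hω) i) m

/-- average of the local function -/
theorem integral_NC (hn : 0 < n) {p : Equiv.Perm (HE n d)} (hp : IsPort p) {ω : Fin n → ℝ}
    (hω : ∀ v, |ω v| ≤ 1) (F : Fin k → Fin n → ℝ) (s : ℝ) (m : ℕ) :
    ∫ ξ, NC s clp m ξ [] ∂(emp p (lab fun v => ((ω v, fun i => F i v) : ℝ × (Fin k → ℝ)))) =
      (∑ v, UppTree356.N p s ω m v []) / n := by
  have hc : Continuous fun ζ : Conf d (Fin d × ℝ × (Fin k → ℝ)) => NC s clp m ζ [] :=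
    continuous_NC s continuous_clp m []
  rw [Seq980.integral_emp (fun h => p h) _ _ hc.stronglyMeasurable]
  have e1 : ∀ h : HE n d,
      NC s clp m (conf (fun h => p h) (lab fun v => ((ω v, fun i => F i v) : ℝ × (Fin k → ℝ))) h)
        [] = UppTree356.N p s ω m h.1 [] := by
    intro h
    have h1 := NC_conf p hp.inv s clp
      (fun v => ((ω v, fun i => F i v) : ℝ × (Fin k → ℝ))) m h []
    have h2 : (fun v => clp ((ω v, fun i => F i v) : ℝ × (Fin k → ℝ))) = ω := by
      funext v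
      exact clp_eq (hω v)
    rw [h2] at h1
    exact h1
  rw [Finset.sum_congr rfl fun h _ => e1 h, Fintype.sum_prod_type, Fintype.card_prod,
    Fintype.card_fin, Fintype.card_fin]
  simp only [Finset.sum_const, Finset.card_univ, Fintype.card_fin, nsmul_eq_mul]
  rw [← Finset.mul_sum, smul_eq_mul]
  have hd : (0 : ℝ) < d := by exact_mod_cast NeZero.pos d
  have hn' : (0 : ℝ) < n := by exact_mod_cast hn
  push_cast
  field_simp

theorem trace_pow_close (hn : 0 < n) {p : Equiv.Perm (HE n d)} (hp : IsPort p) {ω : Fin n → ℝ}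
    (hω : ∀ v, |ω v| ≤ 1) (F : Fin k → Fin n → ℝ) (s : ℝ) (m : ℕ) :
    |((Hm (graphOf p) s ω) ^ m).trace / n -
      ∫ ξ, NC s clp m ξ [] ∂(emp p (lab fun v => ((ω v, fun i => F i v) : ℝ × (Fin k → ℝ))))| ≤
      2 * (d + |s|) ^ m * (nonTree m p / n) := by
  classical
  have hn' : (0 : ℝ) < n := by exact_mod_cast hn
  rw [integral_NC hn hp hω F s m, ← sub_div, Matrix.trace, ← Finset.sum_sub_distrib, abs_div,
    abs_of_pos hn', ← mul_div_assoc]
  refine div_le_div_of_nonneg_right ?_ hn'.le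
  have hN : ∀ v, |UppTree356.N p s ω m v []| ≤ (d + |s|) ^ m := by
    intro v
    have h1 := NC_conf p hp.inv s (fun y : ℝ => max (-1) (min 1 y)) ω m (v, 0) []
    have h2 : (fun v => max (-1 : ℝ) (min 1 (ω v))) = ω := by
      funext v
      have := hω v
      rw [abs_le] at this
      rw [min_eq_right this.2, max_eq_right this.1]
    rw [h2] at h1
    rw [← h1]
    refine abs_NC_le s (fun y => ?_) m _ _
    rw [abs_le]
    exact ⟨le_max_left _ _, max_le (by norm_num) (min_le_left _ _)⟩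
  have hb : ∀ v, |(((Hm (graphOf p) s ω) ^ m).diag v - UppTree356.N p s ω m v [])| ≤
      if ¬ TreeLike942.TreeAt Prod.fst p m v then 2 * (d + |s|) ^ m else 0 := by
    intro v
    rw [Matrix.diag_apply]
    by_cases hv : TreeLike942.TreeAt Prod.fst p m v
    · rw [if_neg (not_not.2 hv), diag_pow_eq hp s m v hv, sub_self, abs_zero]
    · rw [if_pos hv]
      refine (abs_sub _ _).trans ?_
      have h1 := abs_diag_pow_le hp hω s m v
      have h2 := hN v
      linarith
  refine (Finset.abs_sum_le_sum_abs _ _).trans ((Finset.sum_le_sum fun v _ => hb v).trans ?_)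
  rw [← Finset.sum_filter, Finset.sum_const, nsmul_eq_mul]
  unfold nonTree
  rw [Nat.card_eq_fintype_card, Fintype.card_subtype, mul_comm]

end trace

/-! ### convergence along the extracted sequence -/

section lim
variable {d k : ℕ} [NeZero d] {n : ℕ → ℕ} {U : ∀ j, Set (Pt (n j) d)}
  {F : ∀ j, Pt (n j) d → Fin k → Fin (n j) → ℝ} {P : Measure (Conf d (Fin d × ℝ × (Fin k → ℝ)))}

/-- traces of powers -/
theorem pow_lim (s : ℝ) (hn : Tendsto n atTop atTop) (port : ∀ j, ∀ x ∈ U j, IsPort x.1)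
    (om : ∀ j, ∀ x ∈ U j, ∀ v, |x.2 v| ≤ 1)
    (conv : ∀ φ : Conf d (Fin d × ℝ × (Fin k → ℝ)) → ℝ, Continuous φ → (∃ C, ∀ ξ, |φ ξ| ≤ C) →
      ∀ ε : ℝ, 0 < ε → ∀ᶠ j in atTop, ∀ x ∈ U j,
        |∫ ξ, φ ξ ∂(emp x.1 (lab (dXF x (F j x)))) - ∫ ξ, φ ξ ∂P| ≤ ε)
    (tree : ∀ (a : ℕ) (ε : ℝ), 0 < ε → ∀ᶠ j in atTop, ∀ x ∈ U j, (nonTree a x.1 : ℝ) ≤ ε * n j)
    (m : ℕ) (ε : ℝ) (hε : 0 < ε) :
    ∀ᶠ j in atTop, ∀ x ∈ U j,
      |((HmP s x) ^ m).trace / n j - ∫ ξ, NC s clp m ξ [] ∂P| ≤ ε := by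
  have hB : (0 : ℝ) ≤ (d + |s|) ^ m := by positivity
  have h1 := conv (fun ξ => NC s clp m ξ []) (continuous_NC s continuous_clp m [])
    ⟨(d + |s|) ^ m, fun ξ => abs_NC_le s abs_clp_le m ξ []⟩ (ε / 2) (by positivity)
  have h2 := tree m (ε / 2 / (2 * (d + |s|) ^ m + 1)) (by positivity)
  filter_upwards [h1, h2, hn.eventually_gt_atTop 0] with j h1 h2 h3 x hx
  have h4 := trace_pow_close h3 (port j x hx) (om j x hx) (F j x) s m
  have h5 := h1 x hx
  have h6 := h2 x hx
  have hn' : (0 : ℝ) < n j := by exact_mod_cast h3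
  have h7 : 2 * (d + |s|) ^ m * ((nonTree m x.1 : ℝ) / n j) ≤ ε / 2 := by
    have h8 : (nonTree m x.1 : ℝ) / n j ≤ ε / 2 / (2 * (d + |s|) ^ m + 1) := by
      rw [div_le_iff₀ hn']
      exact h6
    calc 2 * (d + |s|) ^ m * ((nonTree m x.1 : ℝ) / n j)
        ≤ 2 * (d + |s|) ^ m * (ε / 2 / (2 * (d + |s|) ^ m + 1)) :=
          mul_le_mul_of_nonneg_left h8 (by positivity)
      _ ≤ ε / 2 := by
          rw [mul_div_assoc', div_le_iff₀ (by positivity)]
          nlinarith
  have h9 : ∫ ξ, NC s clp m ξ [] ∂(emp x.1 (lab (dXF x (F j x)))) =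
      ∫ ξ, NC s clp m ξ [] ∂(emp x.1 (lab fun v =>
        ((x.2 v, fun i => F j x i v) : ℝ × (Fin k → ℝ)))) := rfl
  rw [h9] at h5
  rw [abs_le] at h4 h5 ⊢
  constructor <;> linarith [h4.1, h4.2, h5.1, h5.2]

/-- traces of polynomials -/
theorem poly_lim (s : ℝ) (hn : Tendsto n atTop atTop) (port : ∀ j, ∀ x ∈ U j, IsPort x.1)
    (om : ∀ j, ∀ x ∈ U j, ∀ v, |x.2 v| ≤ 1)
    (conv : ∀ φ : Conf d (Fin d × ℝ × (Fin k → ℝ)) → ℝ, Continuous φ → (∃ C, ∀ ξ, |φ ξ| ≤ C) →
      ∀ ε : ℝ, 0 < ε → ∀ᶠ j in atTop, ∀ x ∈ U j,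
        |∫ ξ, φ ξ ∂(emp x.1 (lab (dXF x (F j x)))) - ∫ ξ, φ ξ ∂P| ≤ ε)
    (tree : ∀ (a : ℕ) (ε : ℝ), 0 < ε → ∀ᶠ j in atTop, ∀ x ∈ U j, (nonTree a x.1 : ℝ) ≤ ε * n j)
    (p : Polynomial ℝ) : ∃ l : ℝ, ∀ ε : ℝ, 0 < ε → ∀ᶠ j in atTop, ∀ x ∈ U j,
      |(Polynomial.aeval (HmP s x) p).trace / n j - l| ≤ ε := by
  refine ⟨∑ m ∈ Finset.range (p.natDegree + 1), p.coeff m * ∫ ξ, NC s clp m ξ [] ∂P,
    fun ε hε => ?_⟩
  set A : ℝ := ∑ m ∈ Finset.range (p.natDegree + 1), |p.coeff m| with hA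
  have hA0 : 0 ≤ A := Finset.sum_nonneg fun _ _ => abs_nonneg _
  have h1 : ∀ m ∈ Finset.range (p.natDegree + 1), ∀ᶠ j in atTop, ∀ x ∈ U j,
      |((HmP s x) ^ m).trace / n j - ∫ ξ, NC s clp m ξ [] ∂P| ≤ ε / (A + 1) := fun m _ =>
    pow_lim s hn port om conv tree m _ (by positivity)
  have h2 := (Finset.eventually_all _).2 h1
  filter_upwards [h2] with j h2 x hx
  have e1 : (Polynomial.aeval (HmP s x) p).trace / n j =
      ∑ m ∈ Finset.range (p.natDegree + 1), p.coeff m * (((HmP s x) ^ m).trace / n j) := by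
    rw [Polynomial.aeval_eq_sum_range, Matrix.trace_sum, Finset.sum_div]
    refine Finset.sum_congr rfl fun m _ => ?_
    rw [Matrix.trace_smul, smul_eq_mul, mul_div_assoc]
  rw [e1, ← Finset.sum_sub_distrib]
  calc |∑ m ∈ Finset.range (p.natDegree + 1), (p.coeff m * (((HmP s x) ^ m).trace / n j) -
        p.coeff m * ∫ ξ, NC s clp m ξ [] ∂P)|
      ≤ ∑ m ∈ Finset.range (p.natDegree + 1), |p.coeff m| * (ε / (A + 1)) := by
        refine (Finset.abs_sum_le_sum_abs _ _).trans (Finset.sum_le_sum fun m hm => ?_)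
        rw [← mul_sub, abs_mul]
        exact mul_le_mul_of_nonneg_left (h2 m hm x hx) (abs_nonneg _)
    _ = A * (ε / (A + 1)) := by rw [← Finset.sum_mul]
    _ ≤ ε := by
        rw [mul_div_assoc', div_le_iff₀ (by positivity)]
        nlinarith

/-- **continuous linear statistics of the spectrum converge** uniformly on `U j` -/
theorem linstat_lim (s : ℝ) (hn : Tendsto n atTop atTop) (port : ∀ j, ∀ x ∈ U j, IsPort x.1)
    (om : ∀ j, ∀ x ∈ U j, ∀ v, |x.2 v| ≤ 1) (hne : ∀ᶠ j in atTop, (U j).Nonempty)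
    (conv : ∀ φ : Conf d (Fin d × ℝ × (Fin k → ℝ)) → ℝ, Continuous φ → (∃ C, ∀ ξ, |φ ξ| ≤ C) →
      ∀ ε : ℝ, 0 < ε → ∀ᶠ j in atTop, ∀ x ∈ U j,
        |∫ ξ, φ ξ ∂(emp x.1 (lab (dXF x (F j x)))) - ∫ ξ, φ ξ ∂P| ≤ ε)
    (tree : ∀ (a : ℕ) (ε : ℝ), 0 < ε → ∀ᶠ j in atTop, ∀ x ∈ U j, (nonTree a x.1 : ℝ) ≤ ε * n j)
    {f : ℝ → ℝ} (hf : Continuous f) :
    ∃ l : ℝ, ∀ ε : ℝ, 0 < ε → ∀ᶠ j in atTop, ∀ x ∈ U j, ∀ hH : (HmP s x).IsHermitian,
      |(∑ i, f (hH.eigenvalues i)) / n j - l| ≤ ε := by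
  have key : ∀ ε : ℝ, 0 < ε → ∃ l : ℝ, ∀ᶠ j in atTop, ∀ x ∈ U j,
      ∀ hH : (HmP s x).IsHermitian, |(∑ i, f (hH.eigenvalues i)) / n j - l| ≤ ε := by
    intro ε hε
    obtain ⟨p, hp⟩ := exists_poly hf (d + |s|) (half_pos hε)
    obtain ⟨l, hl⟩ := poly_lim s hn port om conv tree p
    refine ⟨l, ?_⟩
    filter_upwards [hl (ε / 2) (half_pos hε), hn.eventually_gt_atTop 0] with j h1 h2 x hx hH
    have : Nonempty (Fin (n j)) := ⟨⟨0, h2⟩⟩
    have hrow : ∀ v, ∑ y, |HmP s x v y| ≤ d + |s| := by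
      intro v
      have := UppTree356.Hp_row_le x.1 s x.2 (om j x hx) v
      rw [← Hm_graphOf (port j x hx)] at this
      exact this
    have h3 := logdet_poly hH p (f := f) (ε := ε / 2) fun i => hp _ (eig_abs_le hH hrow i)
    rw [Fintype.card_fin] at h3
    have h4 := h1 x hx
    rw [abs_le] at h3 h4 ⊢
    constructor <;> linarith [h3.1, h3.2, h4.1, h4.2]
  classical
  -- a sequence of values
  let a : ℕ → ℝ := fun j => if h : (U j).Nonempty then
    (∑ i, f ((Hm_isHermitian (graphOf h.some.1) s h.some.2).eigenvalues i)) / n j else 0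
  have ha : CauchySeq a := by
    rw [Metric.cauchySeq_iff']
    intro ε hε
    obtain ⟨l, hl⟩ := key (ε / 3) (by positivity)
    obtain ⟨N, hN⟩ := eventually_atTop.1 (hl.and hne)
    have hb : ∀ j ≥ N, |a j - l| ≤ ε / 3 := by
      intro j hj
      obtain ⟨h1, h2⟩ := hN j hj
      simp only [a, dif_pos h2]
      exact h1 _ h2.some_mem _
    refine ⟨N, fun j hj => ?_⟩
    rw [Real.dist_eq]
    have h1 := hb j hj
    have h2 := hb N le_rfl
    rw [abs_le] at h1 h2
    rw [abs_lt]
    constructor <;> linarith [h1.1, h1.2, h2.1, h2.2]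
  obtain ⟨l, hl⟩ := cauchySeq_tendsto_of_complete ha
  refine ⟨l, fun ε hε => ?_⟩
  obtain ⟨l', hl'⟩ := key (ε / 4) (by positivity)
  have h1 := Metric.tendsto_nhds.1 hl (ε / 4) (by positivity)
  filter_upwards [hl', h1, hne] with j h2 h3 h4 x hx hH
  have h5 := h2 x hx hH
  have h6 : |a j - l'| ≤ ε / 4 := by
    simp only [a, dif_pos h4]
    exact h2 _ h4.some_mem _
  rw [Real.dist_eq] at h3
  rw [abs_le] at h5 h6 ⊢
  rw [abs_lt] at h3
  constructor <;> linarith [h5.1, h5.2, h6.1, h6.2, h3.1, h3.2]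

end lim

theorem continuous_log_geta {E η c : ℝ} (hη : 0 < η) (hc : 0 < c) :
    Continuous fun x => Real.log (geta E η c x) :=
  (continuous_geta hη).log fun x => (geta_pos hη hc x).ne'

/-- **normalised log-determinants converge** (interface of helper955) -/
theorem stmt_LogDet : Stmt_LogDet := by
  intro d k _ s E K' η c n U F P hη hc S
  have hne : ∀ᶠ j in atTop, (U j).Nonempty := by
    filter_upwards [S.size 1 one_pos] with j hj
    rw [Set.nonempty_iff_ne_empty]
    intro h0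
    have h1 : portP (n j) d (U j) = 0 := by
      unfold portP
      rw [h0]
      simp
    rw [h1] at hj
    have h2 : ENNReal.ofReal (Real.exp (-(1 * (n j : ℝ)))) ≠ 0 := by
      rw [Ne, ENNReal.ofReal_eq_zero, not_le]
      positivity
    exact h2 (nonpos_iff_eq_zero.1 hj)
  obtain ⟨l, hl⟩ := linstat_lim (F := F) (P := P) s S.n_lim S.port S.om hne S.conv S.tree
    (continuous_log_geta (E := E) hη hc)
  refine ⟨l, fun ε hε => ?_⟩
  filter_upwards [hl ε hε] with j hj x hx
  exact hj x hx _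

end Crest.Agent.R166.LogDet547
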