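import Mathlib

/-!
# Row 166, section 42.1-42.2: the Bessel inequality for conditional increments (helper663)

For a family of pairs of σ-algebras `B j ≤ A j` with pasts `G j ≥ B j` such that
`E[f | G j] = E[f | B j]` for `A j`-measurable `f` (Markov), and such that for `i ≠ j` either
`A i ≤ G j` or `A j ≤ G i`, the variables `D j = E[S | A j] - E[S | B j]` are orthogonal and
`∑ E (D j)² ≤ E S²`.
-/

set_option autoImplicit false

noncomputable section

open MeasureTheory ProbabilityTheory Filter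
open scoped ENNReal

namespace Crest.Agent.R166.Mart663

variable {Ω : Type*} {m0 : MeasurableSpace Ω} {P : Measure Ω} [IsProbabilityMeasure P]

/-- pull-out in integrated form. -/
lemma integral_mul_condExp {m : MeasurableSpace Ω} (hm : m ≤ m0) {f g : Ω → ℝ}
    (hf : StronglyMeasurable[m] f) (hf2 : MemLp f 2 P) (hg2 : MemLp g 2 P) :
    ∫ ω, f ω * (P[g | m]) ω ∂P = ∫ ω, f ω * g ω ∂P := by
  have hfg : Integrable (f * g) P := hf2.integrable_mul hg2
  have hg : Integrable g P := hg2.integrable (by norm_num)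
  have h1 := condExp_mul_of_stronglyMeasurable_left (μ := P) hf hfg hg
  have h2 : ∫ ω, (P[f * g | m]) ω ∂P = ∫ ω, (f * g) ω ∂P := integral_condExp hm
  rw [integral_congr_ae h1] at h2
  simpa using h2

omit [IsProbabilityMeasure P] in
lemma memLp_condExp {m : MeasurableSpace Ω} {g : Ω → ℝ} (hg2 : MemLp g 2 P) :
    MemLp (P[g | m]) 2 P := MemLp.condExp (by norm_num) hg2

variable {J : Type*}

/-- the increments. -/
def incr (P : Measure Ω) (A B : J → MeasurableSpace Ω) (S : Ω → ℝ) (j : J) : Ω → ℝ :=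
  P[S | A j] - P[S | B j]

variable {A B G : J → MeasurableSpace Ω}

lemma memLp_incr {S : Ω → ℝ} (hS : MemLp S 2 P) (j : J) : MemLp (incr P A B S j) 2 P :=
  (memLp_condExp hS).sub (memLp_condExp hS)

omit [IsProbabilityMeasure P] in
lemma sm_incr (hBA : ∀ j, B j ≤ A j) (S : Ω → ℝ) (j : J) :
    StronglyMeasurable[A j] (incr P A B S j) :=
  stronglyMeasurable_condExp.sub (stronglyMeasurable_condExp.mono (hBA j))

lemma condExp_incr (hBA : ∀ j, B j ≤ A j) (hA : ∀ j, A j ≤ m0) (S : Ω → ℝ) (j : J) :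
    P[incr P A B S j | B j] =ᵐ[P] 0 := by
  have h1 := condExp_sub (m := B j) (integrable_condExp (μ := P) (m := A j) (f := S))
    (integrable_condExp (μ := P) (m := B j) (f := S))
  have h2 : P[P[S | A j] | B j] =ᵐ[P] P[S | B j] := condExp_condExp_of_le (hBA j) (hA j)
  have h3 : P[P[S | B j] | B j] = P[S | B j] :=
    condExp_of_stronglyMeasurable ((hBA j).trans (hA j)) stronglyMeasurable_condExp
      integrable_condExp
  filter_upwards [h1, h2] with ω e1 e2
  unfold incr
  rw [e1, Pi.sub_apply, e2, h3, sub_self]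
  rfl

lemma integral_mul_incr (hBA : ∀ j, B j ≤ A j) (hA : ∀ j, A j ≤ m0) {S : Ω → ℝ}
    (hS : MemLp S 2 P) (j : J) :
    ∫ ω, S ω * incr P A B S j ω ∂P = ∫ ω, (incr P A B S j ω) ^ 2 ∂P := by
  have hD := memLp_incr (A := A) (B := B) hS j
  have hsm := sm_incr (P := P) hBA S j
  have e1 : ∫ ω, S ω * incr P A B S j ω ∂P = ∫ ω, incr P A B S j ω * (P[S | A j]) ω ∂P := by
    rw [integral_mul_condExp (hA j) hsm hD hS]
    exact integral_congr_ae (Eventually.of_forall fun ω => mul_comm _ _)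
  have hi1 : Integrable (fun ω => (incr P A B S j ω) ^ 2) P := hD.integrable_sq
  have hi2 : Integrable (fun ω => (P[S | B j]) ω * incr P A B S j ω) P :=
    (memLp_condExp hS).integrable_mul hD
  have e2 : ∫ ω, (P[S | B j]) ω * incr P A B S j ω ∂P = 0 := by
    rw [← integral_mul_condExp (P := P) ((hBA j).trans (hA j)) stronglyMeasurable_condExp
      (memLp_condExp hS) hD]
    rw [integral_congr_ae (g := fun _ => 0)]
    · simp
    · filter_upwards [condExp_incr (P := P) hBA hA S j] with ω h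
      rw [h]; simp
  rw [e1]
  calc ∫ ω, incr P A B S j ω * (P[S | A j]) ω ∂P
      = ∫ ω, ((incr P A B S j ω) ^ 2 + (P[S | B j]) ω * incr P A B S j ω) ∂P := by
        refine integral_congr_ae (Eventually.of_forall fun ω => ?_)
        simp only [incr, Pi.sub_apply]; ring
    _ = _ := by rw [integral_add hi1 hi2, e2, add_zero]

lemma integral_incr_mul_incr (hBA : ∀ j, B j ≤ A j) (hA : ∀ j, A j ≤ m0) (hG : ∀ j, G j ≤ m0)
    {S : Ω → ℝ} (hS : MemLp S 2 P)
    {i j : J} (hM : P[incr P A B S j | G j] =ᵐ[P] P[incr P A B S j | B j]) (hij : A i ≤ G j) :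
    ∫ ω, incr P A B S i ω * incr P A B S j ω ∂P = 0 := by
  have hDi := memLp_incr (A := A) (B := B) hS i
  have hDj := memLp_incr (A := A) (B := B) hS j
  have hsm : StronglyMeasurable[G j] (incr P A B S i) := (sm_incr (P := P) hBA S i).mono hij
  rw [← integral_mul_condExp (hG j) hsm hDi hDj, integral_congr_ae (g := fun _ => 0)]
  · simp
  · filter_upwards [condExp_incr (P := P) hBA hA S j, hM] with ω h1 h2
    rw [h2, h1]; simp

/-- **Bessel inequality.** -/
theorem bessel (hBA : ∀ j, B j ≤ A j) (hA : ∀ j, A j ≤ m0) (hG : ∀ j, G j ≤ m0)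
    {S : Ω → ℝ} (hS : MemLp S 2 P)
    (hM : ∀ j, P[incr P A B S j | G j] =ᵐ[P] P[incr P A B S j | B j])
    (hord : ∀ i j, i ≠ j → A i ≤ G j ∨ A j ≤ G i) (s : Finset J) :
    ∑ j ∈ s, ∫ ω, (incr P A B S j ω) ^ 2 ∂P ≤ ∫ ω, (S ω) ^ 2 ∂P := by
  classical
  set D := incr P A B S with hDdef
  have hD : ∀ j, MemLp (D j) 2 P := fun j => memLp_incr hS j
  have horth : ∀ i j, i ≠ j → ∫ ω, D i ω * D j ω ∂P = 0 := by
    intro i j hne
    rcases hord i j hne with h | h
    · exact integral_incr_mul_incr hBA hA hG hS (hM j) h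
    · have := integral_incr_mul_incr hBA hA hG hS (hM i) h
      rw [← this]
      exact integral_congr_ae (Eventually.of_forall fun ω => mul_comm _ _)
  have hDD : ∀ i j, Integrable (fun ω => D i ω * D j ω) P := fun i j =>
    (hD i).integrable_mul (hD j)
  have hSD : ∀ j, Integrable (fun ω => S ω * D j ω) P := fun j => hS.integrable_mul (hD j)
  set T : Ω → ℝ := fun ω => ∑ j ∈ s, D j ω with hT
  have hT2 : MemLp T 2 P := memLp_finsetSum _ fun j _ => hD j
  have hST : ∫ ω, S ω * T ω ∂P = ∑ j ∈ s, ∫ ω, (D j ω) ^ 2 ∂P := by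
    simp only [hT, Finset.mul_sum]
    rw [integral_finsetSum _ fun j _ => hSD j]
    exact Finset.sum_congr rfl fun j _ => integral_mul_incr hBA hA hS j
  have hTT : ∫ ω, (T ω) ^ 2 ∂P = ∑ j ∈ s, ∫ ω, (D j ω) ^ 2 ∂P := by
    have e : ∀ ω, (T ω) ^ 2 = ∑ i ∈ s, ∑ j ∈ s, D i ω * D j ω := by
      intro ω
      rw [pow_two, hT, Finset.sum_mul_sum]
    simp only [e]
    rw [integral_finsetSum _ fun i _ => integrable_finsetSum _ fun j _ => hDD i j]
    refine Finset.sum_congr rfl fun i hi => ?_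
    rw [integral_finsetSum _ fun j _ => hDD i j, Finset.sum_eq_single i]
    · exact integral_congr_ae (Eventually.of_forall fun ω => (pow_two _).symm)
    · intro j _ hne
      exact horth i j (Ne.symm hne)
    · intro h; exact absurd hi h
  have hi1 : Integrable (fun ω => (S ω) ^ 2) P := hS.integrable_sq
  have hi2 : Integrable (fun ω => S ω * T ω) P := hS.integrable_mul hT2
  have hi3 : Integrable (fun ω => (T ω) ^ 2) P := hT2.integrable_sq
  have h0 : 0 ≤ ∫ ω, (S ω - T ω) ^ 2 ∂P := integral_nonneg fun ω => sq_nonneg _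
  have e : ∫ ω, (S ω - T ω) ^ 2 ∂P =
      ∫ ω, (S ω) ^ 2 ∂P - 2 * ∫ ω, S ω * T ω ∂P + ∫ ω, (T ω) ^ 2 ∂P := by
    have h4 : Integrable (fun ω => (S ω) ^ 2 - 2 * (S ω * T ω)) P := hi1.sub (hi2.const_mul 2)
    have e1 : ∫ ω, (S ω - T ω) ^ 2 ∂P =
        ∫ ω, (((S ω) ^ 2 - 2 * (S ω * T ω)) + (T ω) ^ 2) ∂P :=
      integral_congr_ae (Eventually.of_forall fun ω => by ring)
    rw [e1, integral_add h4 hi3, integral_sub hi1 (hi2.const_mul 2), integral_const_mul]
  rw [e, hST, hTT] at h0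
  linarith

end Crest.Agent.R166.Mart663
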