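import Crest.Agent.R166.MartB_663

/-!
# Row 166, section 42: conditional independence (helper663)

If `E[F G | B] = E[F | B] E[G | B]` for bounded `F` (`S1`-measurable) and `G` (`S2`-measurable),
then `E[f | B ⊔ S2] = E[f | B]` for every integrable `B ⊔ S1`-measurable `f`.
-/

set_option autoImplicit false

noncomputable section

open MeasureTheory ProbabilityTheory Filter
open scoped ENNReal

namespace Crest.Agent.R166.Mart663

variable {Ω : Type*} {S1 S2 B m0 : MeasurableSpace Ω} {P : Measure Ω}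

/-- the π-system of a supremum of two σ-algebras. -/
lemma sup_eq_generateFrom (B S : MeasurableSpace Ω) :
    B ⊔ S = MeasurableSpace.generateFrom
      {t | ∃ b s, MeasurableSet[B] b ∧ MeasurableSet[S] s ∧ t = b ∩ s} := by
  apply le_antisymm
  · refine sup_le ?_ ?_
    · intro b hb
      exact MeasurableSpace.measurableSet_generateFrom
        ⟨b, Set.univ, hb, MeasurableSet.univ, (Set.inter_univ b).symm⟩
    · intro s hs
      exact MeasurableSpace.measurableSet_generateFrom
        ⟨Set.univ, s, MeasurableSet.univ, hs, (Set.univ_inter s).symm⟩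
  · refine MeasurableSpace.generateFrom_le ?_
    rintro t ⟨b, s, hb, hs, rfl⟩
    have h1 : MeasurableSet[B ⊔ S] b := (le_sup_left : B ≤ B ⊔ S) b hb
    have h2 : MeasurableSet[B ⊔ S] s := (le_sup_right : S ≤ B ⊔ S) s hs
    exact @MeasurableSet.inter Ω (B ⊔ S) b s h1 h2

lemma isPiSystem_inter (B S : MeasurableSpace Ω) :
    IsPiSystem {t | ∃ b s, MeasurableSet[B] b ∧ MeasurableSet[S] s ∧ t = b ∩ s} := by
  rintro t ⟨b, s, hb, hs, rfl⟩ t' ⟨b', s', hb', hs', rfl⟩ _
  refine ⟨b ∩ b', s ∩ s', @MeasurableSet.inter Ω B b b' hb hb',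
    @MeasurableSet.inter Ω S s s' hs hs', ?_⟩
  rw [Set.inter_inter_inter_comm]

/-- characterisation of the conditional expectation given a supremum. -/
lemma condExp_sup_eq [IsFiniteMeasure P] (hB : B ≤ m0) (hS : S2 ≤ m0) {f g : Ω → ℝ}
    (hf : Integrable f P) (hg : Integrable g P) (hgm : StronglyMeasurable[B ⊔ S2] g)
    (h : ∀ b s, MeasurableSet[B] b → MeasurableSet[S2] s →
      ∫ x in b ∩ s, g x ∂P = ∫ x in b ∩ s, f x ∂P) :
    P[f | B ⊔ S2] =ᵐ[P] g := by
  have hle : B ⊔ S2 ≤ m0 := sup_le hB hS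
  symm
  have key : ∀ t, MeasurableSet[B ⊔ S2] t → ∫ x in t, g x ∂P = ∫ x in t, f x ∂P := by
    have htot : ∫ x, g x ∂P = ∫ x, f x ∂P := by
      have := h Set.univ Set.univ MeasurableSet.univ MeasurableSet.univ
      simpa using this
    refine MeasurableSpace.induction_on_inter (m := B ⊔ S2)
      (C := fun t _ => ∫ x in t, g x ∂P = ∫ x in t, f x ∂P) (sup_eq_generateFrom B S2)
      (isPiSystem_inter B S2) ?_ ?_ ?_ ?_
    · simp
    · rintro t ⟨b, s, hb, hs, rfl⟩
      exact h b s hb hs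
    · intro t ht ih
      have e1 := integral_add_compl (hle t ht) hg
      have e2 := integral_add_compl (hle t ht) hf
      rw [htot] at e1
      linarith
    · intro F hd hm ih
      rw [integral_iUnion (fun i => hle _ (hm i)) hd hg.integrableOn,
        integral_iUnion (fun i => hle _ (hm i)) hd hf.integrableOn]
      exact tsum_congr ih
  refine ae_eq_condExp_of_forall_setIntegral_eq hle hf (fun _ _ _ => hg.integrableOn)
    (fun t ht _ => key t ht) hgm.aestronglyMeasurable

lemma integrable_ind [IsFiniteMeasure P] {s : Set Ω} (hs : MeasurableSet s) :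
    Integrable (s.indicator fun _ => (1 : ℝ)) P :=
  (integrable_const (1 : ℝ)).indicator hs

lemma ind_bound {s : Set Ω} (x : Ω) : ‖s.indicator (fun _ => (1 : ℝ)) x‖ ≤ 1 := by
  by_cases hx : x ∈ s <;> simp [hx]

lemma condExp_ind_bound [IsFiniteMeasure P] (hB : B ≤ m0) {s : Set Ω} (hs : MeasurableSet s) :
    ∀ᵐ x ∂P, ‖(P[s.indicator fun _ => (1 : ℝ) | B]) x‖ ≤ 1 := by
  have h0 : 0 ≤ᵐ[P] P[s.indicator fun _ => (1 : ℝ) | B] :=
    condExp_nonneg (Eventually.of_forall fun x => by
      by_cases hx : x ∈ s <;> simp [hx])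
  have h1 : P[s.indicator fun _ => (1 : ℝ) | B] ≤ᵐ[P] P[fun _ => (1 : ℝ) | B] :=
    condExp_mono (integrable_ind hs) (integrable_const 1) (Eventually.of_forall fun x => by
      by_cases hx : x ∈ s <;> simp [hx])
  rw [condExp_const hB] at h1
  filter_upwards [h0, h1] with x h0 h1
  rw [Real.norm_eq_abs, abs_of_nonneg h0]
  exact h1

/-- conditional independence, one indicator. -/
lemma condExp_ind_sup [IsFiniteMeasure P] (hB : B ≤ m0) (hS1 : S1 ≤ m0) (hS2 : S2 ≤ m0)
    (hprod : ∀ s1 s2, MeasurableSet[S1] s1 → MeasurableSet[S2] s2 →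
      P[(s1 ∩ s2).indicator fun _ => (1 : ℝ) | B] =ᵐ[P]
        P[s1.indicator fun _ => (1 : ℝ) | B] * P[s2.indicator fun _ => (1 : ℝ) | B])
    {s2 : Set Ω} (hs2 : MeasurableSet[S2] s2) :
    P[s2.indicator fun _ => (1 : ℝ) | B ⊔ S1] =ᵐ[P] P[s2.indicator fun _ => (1 : ℝ) | B] := by
  have hs2' := hS2 s2 hs2
  refine condExp_sup_eq hB hS1 (integrable_ind hs2') integrable_condExp
    (stronglyMeasurable_condExp.mono le_sup_left) ?_
  intro b s1 hb hs1
  have hb' := hB b hb
  have hs1' := hS1 s1 hs1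
  have e0 : ∫ x in b ∩ s1, (P[s2.indicator fun _ => (1 : ℝ) | B]) x ∂P =
      ∫ x in b, (s1.indicator fun _ => (1 : ℝ)) x * (P[s2.indicator fun _ => (1 : ℝ) | B]) x ∂P := by
    rw [← setIntegral_indicator hs1']
    refine setIntegral_congr_fun hb' fun x _ => ?_
    by_cases hx : x ∈ s1 <;> simp [hx]
  have hint : Integrable (fun x => (s1.indicator fun _ => (1 : ℝ)) x *
      (P[s2.indicator fun _ => (1 : ℝ) | B]) x) P :=
    integrable_condExp.bdd_mul (c := 1) (integrable_ind hs1').aestronglyMeasurable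
      (Eventually.of_forall fun x => ind_bound x)
  have e1 : P[fun x => (s1.indicator fun _ => (1 : ℝ)) x *
      (P[s2.indicator fun _ => (1 : ℝ) | B]) x | B] =ᵐ[P]
      P[s1.indicator fun _ => (1 : ℝ) | B] * P[s2.indicator fun _ => (1 : ℝ) | B] :=
    condExp_mul_of_stronglyMeasurable_right stronglyMeasurable_condExp hint (integrable_ind hs1')
  rw [e0, ← setIntegral_condExp hB hint hb]
  have e2 := e1.trans (hprod s1 s2 hs1 hs2).symm
  rw [setIntegral_congr_ae hb' (e2.mono fun x hx _ => hx),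
    setIntegral_condExp hB (integrable_ind (hs1'.inter hs2')) hb, ← setIntegral_indicator hs1']
  refine setIntegral_congr_fun hb' fun x _ => ?_
  by_cases hx : x ∈ s1 <;> by_cases hx2 : x ∈ s2 <;> simp [hx, hx2]

/-- **conditional independence**: the other side gives no information. -/
theorem condExp_sup_of_condIndep [IsFiniteMeasure P] (hB : B ≤ m0) (hS1 : S1 ≤ m0)
    (hS2 : S2 ≤ m0)
    (hprod : ∀ s1 s2, MeasurableSet[S1] s1 → MeasurableSet[S2] s2 →
      P[(s1 ∩ s2).indicator fun _ => (1 : ℝ) | B] =ᵐ[P]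
        P[s1.indicator fun _ => (1 : ℝ) | B] * P[s2.indicator fun _ => (1 : ℝ) | B])
    {f : Ω → ℝ} (hf : Integrable f P) (hfm : StronglyMeasurable[B ⊔ S1] f) :
    P[f | B ⊔ S2] =ᵐ[P] P[f | B] := by
  refine condExp_sup_eq hB hS2 hf integrable_condExp
    (stronglyMeasurable_condExp.mono le_sup_left) ?_
  intro b s2 hb hs2
  have hb' := hB b hb
  have hs2' := hS2 s2 hs2
  have hBS : B ⊔ S1 ≤ m0 := sup_le hB hS1
  have hbS : MeasurableSet[B ⊔ S1] b := (le_sup_left : B ≤ B ⊔ S1) b hb
  -- left hand side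
  have e0 : ∫ x in b ∩ s2, (P[f | B]) x ∂P =
      ∫ x in b, (s2.indicator fun _ => (1 : ℝ)) x * (P[f | B]) x ∂P := by
    rw [← setIntegral_indicator hs2']
    refine setIntegral_congr_fun hb' fun x _ => ?_
    by_cases hx : x ∈ s2 <;> simp [hx]
  have hint : Integrable (fun x => (s2.indicator fun _ => (1 : ℝ)) x * (P[f | B]) x) P :=
    integrable_condExp.bdd_mul (c := 1) (integrable_ind hs2').aestronglyMeasurable
      (Eventually.of_forall fun x => ind_bound x)
  have e1 : P[fun x => (s2.indicator fun _ => (1 : ℝ)) x * (P[f | B]) x | B] =ᵐ[P]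
      P[s2.indicator fun _ => (1 : ℝ) | B] * P[f | B] :=
    condExp_mul_of_stronglyMeasurable_right stronglyMeasurable_condExp hint (integrable_ind hs2')
  -- right hand side
  have hint2 : Integrable (fun x => f x * (s2.indicator fun _ => (1 : ℝ)) x) P :=
    hf.mul_bdd (c := 1) (integrable_ind hs2').aestronglyMeasurable
      (Eventually.of_forall fun x => ind_bound x)
  have e3 : ∫ x in b ∩ s2, f x ∂P = ∫ x in b, f x * (s2.indicator fun _ => (1 : ℝ)) x ∂P := by
    rw [← setIntegral_indicator hs2']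
    refine setIntegral_congr_fun hb' fun x _ => ?_
    by_cases hx : x ∈ s2 <;> simp [hx]
  have e4 : P[fun x => f x * (s2.indicator fun _ => (1 : ℝ)) x | B ⊔ S1] =ᵐ[P]
      f * P[s2.indicator fun _ => (1 : ℝ) | B ⊔ S1] :=
    condExp_mul_of_stronglyMeasurable_left hfm hint2 (integrable_ind hs2')
  have e5 : f * P[s2.indicator fun _ => (1 : ℝ) | B ⊔ S1] =ᵐ[P]
      fun x => f x * (P[s2.indicator fun _ => (1 : ℝ) | B]) x := by
    filter_upwards [condExp_ind_sup hB hS1 hS2 hprod hs2] with x hx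
    rw [Pi.mul_apply, hx]
  have hint3 : Integrable (fun x => f x * (P[s2.indicator fun _ => (1 : ℝ) | B]) x) P :=
    hf.mul_bdd (c := 1) integrable_condExp.aestronglyMeasurable (condExp_ind_bound hB hs2')
  have e6 : P[fun x => f x * (P[s2.indicator fun _ => (1 : ℝ) | B]) x | B] =ᵐ[P]
      P[f | B] * P[s2.indicator fun _ => (1 : ℝ) | B] :=
    condExp_mul_of_stronglyMeasurable_right stronglyMeasurable_condExp hint3 hf
  rw [e0, e3, ← setIntegral_condExp hB hint hb, ← setIntegral_condExp hBS hint2 hbS,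
    setIntegral_congr_ae hb' ((e4.trans e5).mono fun x hx _ => hx),
    ← setIntegral_condExp hB hint3 hb]
  refine setIntegral_congr_ae hb' ?_
  filter_upwards [e1, e6] with x h1 h6 _
  rw [h1, h6, Pi.mul_apply, Pi.mul_apply, mul_comm]

end Crest.Agent.R166.Mart663
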