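import Crest.Agent.R166.Spec_B2_385

/-!
# Row 166, sections 42.1-42.4: split of `Stmt_42_4` (helper663)

* `Stmt_tau` (helper663): the limit process has vanishing increments,
  `E[Z_v | Y_star, Env] = E[Z_v | Y_0, Y_v, Env]` and the same for `Z_0` (`0` = neighbour `0`).
* `Stmt_innov` (helper487): vanishing increments imply the innovation property (Lemma T).
-/

set_option autoImplicit false

open MeasureTheory ProbabilityTheory

namespace Crest.Agent.R166.Mart663

open Crest.Agent.R166.B2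

variable {Ω : Type*}

/-- environment and the values of `YY` at the star of the base vertex of `h`. -/
@[reducible] noncomputable def starAlg {k : ℕ} (Env : MeasurableSpace Ω) (d : ℕ) (t : ℝ) (pp rr : Ω → Ω)
    (X Z : Ω → Fin k → ℝ) : MeasurableSpace Ω :=
  Env ⊔ MeasurableSpace.comap (fun h => (fun a : St d => YY t X Z (sv pp rr d h a)))
    inferInstance

/-- environment and the values of `YY` at the edge of `h`. -/
@[reducible] noncomputable def edgeAlg {k : ℕ} (Env : MeasurableSpace Ω) (t : ℝ) (pp : Ω → Ω)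
    (X Z : Ω → Fin k → ℝ) : MeasurableSpace Ω :=
  Env ⊔ MeasurableSpace.comap (fun h => (YY t X Z h, YY t X Z (pp h))) inferInstance

/-- vanishing increments -/
def TauZero (Env : MeasurableSpace Ω) [mΩ : MeasurableSpace Ω] (d k : ℕ) (t : ℝ) (P : Measure Ω)
    (pp rr : Ω → Ω) (X Z : Ω → Fin k → ℝ) : Prop :=
  ∀ l, P[fun h => Z h l | starAlg Env d t pp rr X Z] =ᵐ[P]
      P[fun h => Z h l | edgeAlg Env t pp X Z] ∧
    P[fun h => Z (pp h) l | starAlg Env d t pp rr X Z] =ᵐ[P]
      P[fun h => Z (pp h) l | edgeAlg Env t pp X Z]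

/-- 42.1-42.3 (helper663) -/
def Stmt_tau : Prop :=
  ∀ {Ω : Type} (Env FX : MeasurableSpace Ω) [mΩ : MeasurableSpace Ω] (d k : ℕ) (s E t ρ : ℝ)
    (P : Measure Ω) (pp rr : Ω → Ω) (om : Ω → ℝ) (cav : Ω → ℂ)
    (X Z : Ω → Fin k → ℝ), LimProc Env FX d k s E t ρ P pp rr om cav X Z →
    TauZero Env d k t P pp rr X Z

/-- 42.4 (helper487) -/
def Stmt_innov : Prop :=
  ∀ {Ω : Type} (Env FX : MeasurableSpace Ω) [mΩ : MeasurableSpace Ω] (d k : ℕ) (s E t ρ : ℝ)
    (P : Measure Ω) (pp rr : Ω → Ω) (om : Ω → ℝ) (cav : Ω → ℂ)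
    (X Z : Ω → Fin k → ℝ), LimProc Env FX d k s E t ρ P pp rr om cav X Z →
    TauZero Env d k t P pp rr X Z → InnovProp Env d k s E t P pp rr om cav X Z

theorem stmt_42_4 (h1 : Stmt_tau) (h2 : Stmt_innov) : Stmt_42_4 :=
  fun Env FX _ d k s E t ρ P pp rr om cav X Z h =>
    h2 Env FX d k s E t ρ P pp rr om cav X Z h (h1 Env FX d k s E t ρ P pp rr om cav X Z h)

end Crest.Agent.R166.Mart663
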