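import Crest.Agent.R166.MartH_663
import Crest.Agent.R166.MartSpec_663
import Crest.Agent.R166.Cav_942

/-!
# Row 166, sections 42.1-42.3: assembly for the limit process (helper663)

`tauZero : LimProc → TauZero`.
-/

set_option autoImplicit false

noncomputable section

open MeasureTheory ProbabilityTheory Filter
open scoped ENNReal

namespace Crest.Agent.R166.Mart663

/-! ### square integrability from the characteristic function -/

lemma memLp_two_of_cos {Ω : Type*} {m0 : MeasurableSpace Ω} {P : Measure Ω}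
    [IsProbabilityMeasure P] {Z v : Ω → ℝ} (hZ : Measurable Z) (hv : Integrable v P)
    (hch : ∀ s : ℝ, ∫ ω, Real.cos (s * Z ω) ∂P = ∫ ω, Real.exp (-(1 / 2) * (s ^ 2 * v ω)) ∂P)
    (hexpi : ∀ s : ℝ, Integrable (fun ω => Real.exp (-(1 / 2) * (s ^ 2 * v ω))) P) :
    MemLp Z 2 P := by
  have hπ := Real.pi_pos
  set f : ℕ → Ω → ℝ := fun n ω =>
    2 * ((n : ℝ) + 1) ^ 2 * (1 - Real.cos ((1 / ((n : ℝ) + 1)) * Z ω)) with hf
  have hf0 : ∀ n ω, 0 ≤ f n ω := fun n ω =>
    mul_nonneg (by positivity) (by linarith [Real.cos_le_one ((1 / ((n : ℝ) + 1)) * Z ω)])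
  have hfm : ∀ n, Measurable (f n) := fun n =>
    (measurable_const.sub (Real.measurable_cos.comp (hZ.const_mul _))).const_mul _
  have hcosi : ∀ s : ℝ, Integrable (fun ω => Real.cos (s * Z ω)) P := fun s =>
    Integrable.of_bound (C := 1) (Real.measurable_cos.comp (hZ.const_mul s)).aestronglyMeasurable
      (Eventually.of_forall fun ω => Real.abs_cos_le_one _)
  have hfi : ∀ n, Integrable (f n) P := fun n =>
    ((integrable_const 1).sub (hcosi _)).const_mul _
  have hint : ∀ n, ∫ ω, f n ω ∂P ≤ ∫ ω, v ω ∂P := by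
    intro n
    have hn : (0 : ℝ) < (n : ℝ) + 1 := by positivity
    simp only [hf]
    rw [integral_const_mul, integral_sub (integrable_const 1) (hcosi _), hch,
      ← integral_sub (integrable_const 1) (hexpi _), ← integral_const_mul]
    refine integral_mono (((integrable_const 1).sub (hexpi _)).const_mul _) hv fun ω => ?_
    have h1 : 1 - Real.exp (-(1 / 2) * ((1 / ((n : ℝ) + 1)) ^ 2 * v ω)) ≤
        (1 / 2) * ((1 / ((n : ℝ) + 1)) ^ 2 * v ω) := by
      have := Real.add_one_le_exp (-(1 / 2) * ((1 / ((n : ℝ) + 1)) ^ 2 * v ω))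
      linarith
    calc 2 * ((n : ℝ) + 1) ^ 2 * (1 - Real.exp (-(1 / 2) * ((1 / ((n : ℝ) + 1)) ^ 2 * v ω)))
        ≤ 2 * ((n : ℝ) + 1) ^ 2 * ((1 / 2) * ((1 / ((n : ℝ) + 1)) ^ 2 * v ω)) :=
          mul_le_mul_of_nonneg_left h1 (by positivity)
      _ = v ω := by field_simp
  have hle : ∫⁻ ω, ENNReal.ofReal (4 / Real.pi ^ 2 * Z ω ^ 2) ∂P ≤
      ENNReal.ofReal (∫ ω, v ω ∂P) := by
    calc ∫⁻ ω, ENNReal.ofReal (4 / Real.pi ^ 2 * Z ω ^ 2) ∂P
        ≤ ∫⁻ ω, liminf (fun n => ENNReal.ofReal (f n ω)) atTop ∂P := by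
          refine lintegral_mono fun ω => ?_
          refine le_liminf_of_le (by isBoundedDefault) ?_
          obtain ⟨N, hN⟩ := exists_nat_ge (|Z ω| / Real.pi)
          filter_upwards [eventually_ge_atTop N] with n hn
          refine ENNReal.ofReal_le_ofReal ?_
          have hn1 : (0 : ℝ) < (n : ℝ) + 1 := by positivity
          have hx : |(1 / ((n : ℝ) + 1)) * Z ω| ≤ Real.pi := by
            rw [abs_mul, abs_of_pos (by positivity : (0 : ℝ) < 1 / ((n : ℝ) + 1)), one_div,
              inv_mul_le_iff₀ hn1]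
            have h1 : |Z ω| ≤ N * Real.pi := by
              rw [div_le_iff₀ hπ] at hN; exact hN
            have h2 : (N : ℝ) ≤ n := by exact_mod_cast hn
            nlinarith
          have h3 := Real.cos_le_one_sub_mul_cos_sq hx
          simp only [hf]
          have h4 : 2 / Real.pi ^ 2 * ((1 / ((n : ℝ) + 1)) * Z ω) ^ 2 ≤
              1 - Real.cos ((1 / ((n : ℝ) + 1)) * Z ω) := by linarith
          calc 4 / Real.pi ^ 2 * Z ω ^ 2 = 2 * ((n : ℝ) + 1) ^ 2 *
                (2 / Real.pi ^ 2 * ((1 / ((n : ℝ) + 1)) * Z ω) ^ 2) := by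
                field_simp
                ring
            _ ≤ _ := mul_le_mul_of_nonneg_left h4 (by positivity)
      _ ≤ liminf (fun n => ∫⁻ ω, ENNReal.ofReal (f n ω) ∂P) atTop :=
          lintegral_liminf_le fun n => (hfm n).ennreal_ofReal
      _ ≤ ENNReal.ofReal (∫ ω, v ω ∂P) := by
          refine liminf_le_of_le (by isBoundedDefault) fun b hb => ?_
          obtain ⟨n, hn⟩ := hb.exists
          refine hn.trans ?_
          rw [← ofReal_integral_eq_lintegral_ofReal (hfi n) (Eventually.of_forall (hf0 n))]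
          exact ENNReal.ofReal_le_ofReal (hint n)
  have hsq : Integrable (fun ω => Z ω ^ 2) P := by
    have h1 : Integrable (fun ω => 4 / Real.pi ^ 2 * Z ω ^ 2) P := by
      refine ⟨((hZ.pow_const 2).const_mul _).aestronglyMeasurable, ?_⟩
      rw [hasFiniteIntegral_iff_ofReal (Eventually.of_forall fun ω => by positivity)]
      exact lt_of_le_of_lt hle ENNReal.ofReal_lt_top
    have h2 := h1.const_mul (Real.pi ^ 2 / 4)
    refine h2.congr (Eventually.of_forall fun ω => ?_)
    field_simp
  exact (memLp_two_iff_integrable_sq hZ.aestronglyMeasurable).mpr hsq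

/-! ### The graphing of the limit process -/

open Crest.Agent.R166.B2 Crest.Agent.R166.Cav942 Crest.Agent.R166.L2_942

section lim

variable {Ω : Type*} {Env FX : MeasurableSpace Ω} [mΩ : MeasurableSpace Ω]
    {d k : ℕ} {s E t ρ : ℝ} {P : Measure Ω} {pp rr : Ω → Ω} {om : Ω → ℝ} {cav : Ω → ℂ}
    {X Z : Ω → Fin k → ℝ}

omit mΩ in
lemma iter_mod (hrr : ∀ h, rr^[d] h = h) (n : ℕ) (h : Ω) : rr^[n % d] h = rr^[n] h := by
  have h1 : ∀ (q : ℕ) (h : Ω), (rr^[d])^[q] h = h := by
    intro q
    induction q with
    | zero => intro h; rfl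
    | succ q ih =>
      intro h
      rw [Function.iterate_succ_apply, hrr, ih]
  conv_rhs => rw [← Nat.mod_add_div n d, Function.iterate_add_apply, Function.iterate_mul, h1]

/-- the graphing of the limit process -/
def gr [NeZero d] (L : LimProc Env FX d k s E t ρ P pp rr om cav X Z) : Graphing P (ZMod d) where
  pp := pp
  rot a := rr^[a.val]
  mp_pp := L.pp_mp
  mp_rot a := L.rr_mp.iterate _
  pp_pp := L.pp_pp
  rot_zero x := by rw [ZMod.val_zero]; rfl
  rot_add a b x := by
    rw [ZMod.val_add, iter_mod L.rr_d, Function.iterate_add_apply]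

/-- the letters of `Cav_942` as words of the graphing -/
def ofW [NeZero d] (w : List (KK d)) : NW (ZMod d) := ⟨w.map fun k => -k.1, by
  intro a ha
  obtain ⟨k, _, rfl⟩ := List.mem_map.1 ha
  exact neg_ne_zero.mpr k.2⟩

lemma ofW_bijective [NeZero d] : Function.Bijective (ofW (d := d)) := by
  constructor
  · intro w w' h
    have h1 := congrArg Subtype.val h
    simp only [ofW] at h1
    refine List.map_injective_iff.2 ?_ h1
    intro a b hab
    exact Subtype.ext (neg_injective hab)
  · rintro ⟨w, hw⟩
    induction w with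
    | nil => exact ⟨[], rfl⟩
    | cons a w ih =>
      obtain ⟨w', hw'⟩ := ih fun b hb => hw b (List.mem_cons_of_mem _ hb)
      have h1 := congrArg Subtype.val hw'
      simp only [ofW] at h1
      refine ⟨⟨-a, neg_ne_zero.mpr (hw a List.mem_cons_self)⟩ :: w', Subtype.ext ?_⟩
      simp only [ofW, List.map_cons, neg_neg, h1]

/-- the equivalence of words -/
def eW [NeZero d] : List (KK d) ≃ NW (ZMod d) := Equiv.ofBijective ofW ofW_bijective

lemma inv_ofW [NeZero d] (L : LimProc Env FX d k s E t ρ P pp rr om cav X Z) (w : List (KK d))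
    (h : Ω) : (gr L).inv (ofW w).1 h = pos pp rr w h := by
  induction w with
  | nil => rfl
  | cons a w ih =>
    show (gr L).inv ((-a.1) :: (ofW w).1) h = mv pp rr a.1.val (pos pp rr w h)
    simp only [Graphing.inv]
    rw [ih]
    simp only [gr, neg_neg, mv]

lemma inv_eq [NeZero d] (L : LimProc Env FX d k s E t ρ P pp rr om cav X Z) (w : NW (ZMod d))
    (h : Ω) : (gr L).inv w.1 h = pos pp rr (eW.symm w) h := by
  rw [← inv_ofW L]
  congr 2
  exact (eW.apply_symm_apply w).symm

/-! ### invariance of the environment -/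

lemma comap_pp (L : LimProc Env FX d k s E t ρ P pp rr om cav X Z) : Env.comap pp = Env := by
  apply le_antisymm
  · exact L.pp_Env.comap_le
  · have h1 : (Env.comap pp).comap pp = Env := by
      rw [MeasurableSpace.comap_comp]
      have : pp ∘ pp = id := funext L.pp_pp
      rw [this, MeasurableSpace.comap_id]
    calc Env = (Env.comap pp).comap pp := h1.symm
      _ ≤ Env.comap pp := MeasurableSpace.comap_mono L.pp_Env.comap_le

lemma comap_rot_le [NeZero d] (L : LimProc Env FX d k s E t ρ P pp rr om cav X Z) (a : ZMod d) :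
    Env.comap ((gr L).rot a) ≤ Env :=
  (L.rr_Env.iterate a.val).comap_le

lemma comap_rot [NeZero d] (L : LimProc Env FX d k s E t ρ P pp rr om cav X Z) (a : ZMod d) :
    Env.comap ((gr L).rot a) = Env := by
  apply le_antisymm (comap_rot_le L a)
  have h1 : (Env.comap ((gr L).rot (-a))).comap ((gr L).rot a) = Env := by
    rw [MeasurableSpace.comap_comp]
    have : (gr L).rot (-a) ∘ (gr L).rot a = id := funext fun x => (gr L).rot_neg' a x
    rw [this, MeasurableSpace.comap_id]
  calc Env = (Env.comap ((gr L).rot (-a))).comap ((gr L).rot a) := h1.symm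
    _ ≤ Env.comap ((gr L).rot a) := MeasurableSpace.comap_mono (comap_rot_le L (-a))

lemma measurable_YY (L : LimProc Env FX d k s E t ρ P pp rr om cav X Z) :
    Measurable (YY t X Z) := by
  have hX : Measurable X := L.X_meas.mono L.FX_le le_rfl
  refine measurable_pi_lambda _ fun l => ?_
  exact ((measurable_pi_apply l).comp hX).add
    (((measurable_pi_apply l).comp L.Z_meas).const_mul _)

lemma YY_rr (L : LimProc Env FX d k s E t ρ P pp rr om cav X Z) (h : Ω) :
    YY t X Z (rr h) = YY t X Z h := by
  funext l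
  simp only [YY, L.X_rr h, L.Z_rr h]

lemma YY_iter (L : LimProc Env FX d k s E t ρ P pp rr om cav X Z) (n : ℕ) (h : Ω) :
    YY t X Z (rr^[n] h) = YY t X Z h := by
  induction n generalizing h with
  | zero => rfl
  | succ n ih => rw [Function.iterate_succ_apply, ih, YY_rr L]

lemma Z_iter (L : LimProc Env FX d k s E t ρ P pp rr om cav X Z) (n : ℕ) (h : Ω) :
    Z (rr^[n] h) = Z h := by
  induction n generalizing h with
  | zero => rfl
  | succ n ih => rw [Function.iterate_succ_apply, ih, L.Z_rr h]

/-! ### square integrability of `Z` -/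

lemma memLp_Z (L : LimProc Env FX d k s E t ρ P pp rr om cav X Z) (l : Fin k) :
    MemLp (fun h => Z h l) 2 P := by
  classical
  have := L.prob
  have hZl : Measurable fun h => Z h l := (measurable_pi_apply l).comp L.Z_meas
  have hv : Integrable (fun h => (Gd pp rr d s E om cav h).im / (Real.pi * ρ)) P :=
    L.G_int.div_const _
  -- the characteristic function
  have hch : ∀ r : ℝ, P[fun h => Complex.exp (Complex.I * ((r * Z h l : ℝ) : ℂ)) | FX] =ᵐ[P]
      fun h => Complex.exp (((-(1 / 2) * (r ^ 2 * ((Gd pp rr d s E om cav h).im /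
        (Real.pi * ρ))) : ℝ)) : ℂ) := by
    intro r
    have h := L.Z_gauss [] (by intro j hj; simp at hj) 0
      (fun a l' => if a = none ∧ l' = l then r else 0)
    have e1 : ∀ h : Ω, (∑ l', ((0 : Fin k → ℝ) l' * Z (wd pp rr [] (pp h)) l' +
        ∑ a : St d, (if a = none ∧ l' = l then r else 0) * Z (sv pp rr d h a) l')) =
        r * Z h l := by
      intro h
      simp only [Pi.zero_apply, zero_mul, zero_add]
      rw [Finset.sum_eq_single l, Fintype.sum_option]
      · simp [sv]
      · intro b _ hb; simp [hb]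
      · intro h; exact absurd (Finset.mem_univ l) h
    have e2 : ∀ h : Ω, (∑ l', ((0 : Fin k → ℝ) l' ^ 2 *
          (Gd pp rr d s E om cav (wd pp rr [] (pp h))).im
          + 2 * ∑ a : St d, (0 : Fin k → ℝ) l' * (if a = none ∧ l' = l then r else 0) *
            (Go pp rr d s E om cav [] h a).im
          + ∑ a : St d, ∑ b : St d, (if a = none ∧ l' = l then r else 0) *
            (if b = none ∧ l' = l then r else 0) * (Gs pp rr d s E om cav h a b).im) /
              (Real.pi * ρ)) =
        r ^ 2 * ((Gd pp rr d s E om cav h).im / (Real.pi * ρ)) := by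
      intro h
      simp only [Pi.zero_apply, ne_eq, OfNat.ofNat_ne_zero, not_false_eq_true, zero_pow, zero_mul,
        zero_add, Finset.sum_const_zero, mul_zero]
      rw [Finset.sum_eq_single l, Fintype.sum_option]
      · rw [Fintype.sum_option]
        simp only [true_and, if_true, reduceCtorEq, false_and, if_false, zero_mul, mul_zero,
          Finset.sum_const_zero, add_zero, Gs]
        ring
      · intro b _ hb; simp [hb]
      · intro h; exact absurd (Finset.mem_univ l) h
    simp only [e1, e2] at h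
    exact h
  have hcm : ∀ r : ℝ, Measurable fun h => Real.exp (-(1 / 2) * (r ^ 2 *
      ((Gd pp rr d s E om cav h).im / (Real.pi * ρ)))) := by
    intro r
    have hG : Measurable (Gd pp rr d s E om cav) :=
      (meas_Gd L).mono (L.Env_le.trans L.FX_le) le_rfl
    exact Real.measurable_exp.comp
      ((((Complex.measurable_im.comp hG).div_const _).const_mul _).const_mul _)
  have hexpi : ∀ r : ℝ, Integrable (fun h => Real.exp (-(1 / 2) * (r ^ 2 *
      ((Gd pp rr d s E om cav h).im / (Real.pi * ρ))))) P := by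
    intro r
    refine Integrable.of_bound (C := 1) (hcm r).aestronglyMeasurable ?_
    filter_upwards [C5_im L] with h hh
    rw [Real.norm_eq_abs, abs_of_pos (Real.exp_pos _), Real.exp_le_one_iff]
    have h1 : 0 ≤ r ^ 2 * ((Gd pp rr d s E om cav h).im / (Real.pi * ρ)) :=
      mul_nonneg (sq_nonneg _) (div_nonneg hh.le (mul_pos Real.pi_pos L.hρ).le)
    linarith
  refine memLp_two_of_cos hZl hv (fun r => ?_) hexpi
  have hint : Integrable (fun h => Complex.exp (Complex.I * ((r * Z h l : ℝ) : ℂ))) P := by
    refine Integrable.of_bound (C := 1) ?_ (Eventually.of_forall fun ω => ?_)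
    · exact (Complex.measurable_exp.comp
        ((Complex.measurable_ofReal.comp (hZl.const_mul r)).const_mul _)).aestronglyMeasurable
    · rw [mul_comm, Complex.norm_exp_ofReal_mul_I]
  have h1 : ∫ h, Complex.exp (Complex.I * ((r * Z h l : ℝ) : ℂ)) ∂P =
      ((∫ h, Real.exp (-(1 / 2) * (r ^ 2 * ((Gd pp rr d s E om cav h).im /
        (Real.pi * ρ)))) ∂P : ℝ) : ℂ) := by
    rw [← integral_condExp L.FX_le, integral_congr_ae (hch r), ← integral_complex_ofReal]
    refine integral_congr_ae (Eventually.of_forall fun ω => ?_)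
    simp only [Complex.ofReal_exp]
  have h2 := congrArg Complex.re h1
  rw [Complex.ofReal_re] at h2
  rw [← h2, ← RCLike.re_eq_complex_re, ← integral_re hint]
  refine integral_congr_ae (Eventually.of_forall fun ω => ?_)
  simp only [RCLike.re_eq_complex_re]
  rw [mul_comm Complex.I, Complex.exp_ofReal_mul_I_re]

end lim

end Crest.Agent.R166.Mart663
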