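import Crest.Agent.R166.MartE_663

/-!
# Row 166, sections 42.1-42.3: regression and final assembly (helper663)
-/

set_option autoImplicit false

noncomputable section

open MeasureTheory ProbabilityTheory Filter
open scoped ENNReal

namespace Crest.Agent.R166.Mart663

open Crest.Agent.R166.B2 Crest.Agent.R166.Cav942 Crest.Agent.R166.L2_942

variable {Ω : Type*} {C Env FX : MeasurableSpace Ω} [mΩ : MeasurableSpace Ω]
    {d k : ℕ} {s E t ρ : ℝ} {P : Measure Ω} {pp rr : Ω → Ω} {om : Ω → ℝ} {cav : Ω → ℂ}
    {X Z : Ω → Fin k → ℝ}

/-- index set of the regression: `none` = the far vertex, `some (a, l)` = star vertices -/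
abbrev RI (d k : ℕ) : Type := Option (St d × Fin k)

/-- the Gaussian family -/
def Vv (pp rr : Ω → Ω) (Z : Ω → Fin k → ℝ) (w : List (KK d)) (l : Fin k) (h : Ω) : RI d k → ℝ
  | none => Z (pos pp rr w (pp h)) l
  | some (a, l') => Z (sv pp rr d h a) l'

/-- its covariance -/
def Kk (pp rr : Ω → Ω) (s E ρ : ℝ) (om : Ω → ℝ) (cav : Ω → ℂ) (w : List (KK d)) (l : Fin k)
    (h : Ω) : RI d k → RI d k → ℝ
  | none, none => (Gd pp rr d s E om cav (pos pp rr w (pp h))).im / (Real.pi * ρ)
  | none, some (a, l') =>
      if l' = l then (Go pp rr d s E om cav (word w) h a).im / (Real.pi * ρ) else 0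
  | some (a, l'), none =>
      if l' = l then (Go pp rr d s E om cav (word w) h a).im / (Real.pi * ρ) else 0
  | some (a, l'), some (b, l'') =>
      if l' = l'' then (Gs pp rr d s E om cav h a b).im / (Real.pi * ρ) else 0

lemma sum_lin {k : ℕ} {A : Type*} [Fintype A] (y : Option (A × Fin k) → ℝ) (l : Fin k)
    (zf : Fin k → ℝ) (zs : A → Fin k → ℝ) :
    ∑ l', ((if l' = l then y none else 0) * zf l' + ∑ a, y (some (a, l')) * zs a l') =
      y none * zf l + ∑ p : A × Fin k, y (some p) * zs p.1 p.2 := by
  classical
  rw [Finset.sum_add_distrib]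
  congr 1
  · rw [Finset.sum_eq_single l]
    · simp
    · intro b _ hb; simp [hb]
    · intro h; exact absurd (Finset.mem_univ l) h
  · rw [Fintype.sum_prod_type, Finset.sum_comm]

lemma sum_quad {k : ℕ} {A : Type*} [Fintype A] (y : Option (A × Fin k) → ℝ) (l : Fin k)
    (gd : ℝ) (go : A → ℝ) (gs : A → A → ℝ) (c : ℝ) :
    ∑ l', ((if l' = l then y none else 0) ^ 2 * gd +
        2 * ∑ a, (if l' = l then y none else 0) * y (some (a, l')) * go a +
        ∑ a, ∑ b, y (some (a, l')) * y (some (b, l')) * gs a b) / c =
      y none * y none * (gd / c) +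
      (∑ p : A × Fin k, y none * y (some p) * (if p.2 = l then go p.1 / c else 0)) +
      ((∑ p : A × Fin k, y (some p) * y none * (if p.2 = l then go p.1 / c else 0)) +
      ∑ p : A × Fin k, ∑ q : A × Fin k, y (some p) * y (some q) *
        (if p.2 = q.2 then gs p.1 q.1 / c else 0)) := by
  classical
  have h1 : ∑ p : A × Fin k, y none * y (some p) * (if p.2 = l then go p.1 / c else 0) =
      (∑ a, y none * y (some (a, l)) * go a) / c := by
    rw [Fintype.sum_prod_type, Finset.sum_div]
    refine Finset.sum_congr rfl fun a _ => ?_
    rw [Finset.sum_eq_single l]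
    · simp only [if_true]; ring
    · intro b _ hb; simp [hb]
    · intro h; exact absurd (Finset.mem_univ l) h
  have h2 : ∑ p : A × Fin k, y (some p) * y none * (if p.2 = l then go p.1 / c else 0) =
      (∑ a, y none * y (some (a, l)) * go a) / c := by
    rw [← h1]
    exact Finset.sum_congr rfl fun p _ => by ring
  have h3 : ∑ p : A × Fin k, ∑ q : A × Fin k, y (some p) * y (some q) *
        (if p.2 = q.2 then gs p.1 q.1 / c else 0) =
      ∑ l', (∑ a, ∑ b, y (some (a, l')) * y (some (b, l')) * gs a b) / c := by
    rw [Fintype.sum_prod_type, Finset.sum_comm]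
    refine Finset.sum_congr rfl fun l' _ => ?_
    rw [Finset.sum_div]
    refine Finset.sum_congr rfl fun a _ => ?_
    rw [Fintype.sum_prod_type, Finset.sum_div]
    refine Finset.sum_congr rfl fun b _ => ?_
    rw [Finset.sum_eq_single l']
    · simp only [if_true]; ring
    · intro q _ hq; simp [Ne.symm hq]
    · intro h; exact absurd (Finset.mem_univ l') h
  rw [h1, h2, h3]
  have h4 : ∀ l', ((if l' = l then y none else 0) ^ 2 * gd +
        2 * ∑ a, (if l' = l then y none else 0) * y (some (a, l')) * go a +
        ∑ a, ∑ b, y (some (a, l')) * y (some (b, l')) * gs a b) / c =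
      (if l' = l then (y none * y none * (gd / c) +
        2 * ((∑ a, y none * y (some (a, l)) * go a) / c)) else 0) +
        (∑ a, ∑ b, y (some (a, l')) * y (some (b, l')) * gs a b) / c := by
    intro l'
    by_cases h : l' = l
    · subst h
      simp only [if_true]
      ring
    · simp only [h, if_false]
      simp
  simp only [h4]
  rw [Finset.sum_add_distrib, Finset.sum_ite_eq' Finset.univ l]
  simp only [Finset.mem_univ, if_true]
  ring

/-- characteristic function of the family -/
lemma hch_V [NeZero d] (L : LimProc Env FX d k s E t ρ P pp rr om cav X Z) (w : List (KK d))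
    (l : Fin k) (y : RI d k → ℝ) :
    P[fun h => Complex.exp (Complex.I * ((∑ i, y i * Vv pp rr Z w l h i : ℝ) : ℂ)) | FX]
      =ᵐ[P] fun h => Complex.exp (((-(1 / 2) *
        ∑ i, ∑ j, y i * y j * Kk pp rr s E ρ om cav w l h i j : ℝ)) : ℂ) := by
  have h := L.Z_gauss (word w) (outW_word w) (fun l' => if l' = l then y none else 0)
    (fun a l' => y (some (a, l')))
  have e1 : ∀ h : Ω, (∑ l', ((if l' = l then y none else 0) * Z (wd pp rr (word w) (pp h)) l' +
        ∑ a : St d, y (some (a, l')) * Z (sv pp rr d h a) l')) =
        ∑ i, y i * Vv pp rr Z w l h i := by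
    intro h
    rw [sum_lin y l (fun l' => Z (wd pp rr (word w) (pp h)) l') fun a l' => Z (sv pp rr d h a) l',
      Fintype.sum_option, ← pos_eq_wd]
    rfl
  have e2 : ∀ h : Ω, (∑ l', ((if l' = l then y none else 0) ^ 2 *
          (Gd pp rr d s E om cav (wd pp rr (word w) (pp h))).im
          + 2 * ∑ a : St d, (if l' = l then y none else 0) * y (some (a, l')) *
            (Go pp rr d s E om cav (word w) h a).im
          + ∑ a : St d, ∑ b : St d, y (some (a, l')) *
            y (some (b, l')) * (Gs pp rr d s E om cav h a b).im) / (Real.pi * ρ)) =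
        ∑ i, ∑ j, y i * y j * Kk pp rr s E ρ om cav w l h i j := by
    intro h
    rw [sum_quad y l _ (fun a => (Go pp rr d s E om cav (word w) h a).im)
      (fun a b => (Gs pp rr d s E om cav h a b).im), ← pos_eq_wd, Fintype.sum_option,
      Fintype.sum_option]
    simp only [Fintype.sum_option, Finset.sum_add_distrib]
    rfl
  simp only [e1, e2] at h
  exact h

lemma measurable_pos [NeZero d] (L : LimProc Env FX d k s E t ρ P pp rr om cav X Z)
    (w : List (KK d)) : Measurable (pos pp rr w) := (mp_pos L w).measurable

lemma measurable_sv (L : LimProc Env FX d k s E t ρ P pp rr om cav X Z) (a : St d) :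
    Measurable fun h => sv pp rr d h a := by
  match a with
  | none => exact measurable_id
  | some i => exact (mp_mv L i).measurable

lemma mp_sv (L : LimProc Env FX d k s E t ρ P pp rr om cav X Z) (a : St d) :
    MeasurePreserving (fun h => sv pp rr d h a) P P := by
  match a with
  | none => exact MeasurePreserving.id P
  | some i => exact mp_mv L i

lemma measurable_sv_FX (L : LimProc Env FX d k s E t ρ P pp rr om cav X Z) (a : St d) :
    Measurable[FX, FX] fun h => sv pp rr d h a := by
  match a with
  | none => exact measurable_id
  | some i =>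
    have h1 : Measurable[FX, FX] (rr^[(i : ℕ)]) := L.rr_FX.iterate i
    exact L.pp_FX.comp h1

/-- coefficients of the regression -/
def lw [NeZero d] (pp rr : Ω → Ω) (cav : Ω → ℂ) (w : List (KK d)) (l : Fin k) (h : Ω) :
    RI d k → ℝ := by
  classical exact fun i =>
    if i = some (some ⟨0, NeZero.pos d⟩, l) then l1c (cw pp rr cav (pp h)) w
    else if i = some (none, l) then l2c (cw pp rr cav (pp h)) w else 0

omit mΩ in
lemma sum_lw [NeZero d] (w : List (KK d)) (l : Fin k) (h : Ω) (f : RI d k → ℝ) :
    ∑ i, lw pp rr cav w l h i * f i =
      l1c (cw pp rr cav (pp h)) w * f (some (some ⟨0, NeZero.pos d⟩, l)) +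
        l2c (cw pp rr cav (pp h)) w * f (some (none, l)) := by
  classical
  rw [Finset.sum_eq_add (some (some ⟨0, NeZero.pos d⟩, l)) (some (none, l))]
  · simp [lw]
  · simp
  · intro i _ hi
    simp only [lw, hi.1, hi.2, if_false, zero_mul]
  · intro h; exact absurd (Finset.mem_univ _) h
  · intro h; exact absurd (Finset.mem_univ _) h

/-- **regression of the far vertex on the edge**, given any information between the environment
and the star. -/
theorem reg [NeZero d] (L : LimProc Env FX d k s E t ρ P pp rr om cav X Z)
    (w : List (KK d)) (l : Fin k) (hEC : Env ≤ C)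
    (hC : C ≤ starAlg Env d t pp rr X Z) :
    P[fun h => Z (pos pp rr w (pp h)) l | C] =ᵐ[P] fun h =>
      l1c (cw pp rr cav (pp h)) w * (P[fun h => Z (pp h) l | C]) h +
      l2c (cw pp rr cav (pp h)) w * (P[fun h => Z h l | C]) h := by
  classical
  have := L.prob
  have hZ := fun l => (memLp_Z L l).integrable (by norm_num)
  have hVm : Measurable (Vv (d := d) pp rr Z w l) := by
    refine measurable_pi_lambda _ fun i => ?_
    match i with
    | none =>
      exact ((measurable_pi_apply l).comp L.Z_meas).comp
        ((measurable_pos L w).comp L.pp_mp.measurable)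
    | some (a, l') =>
      exact ((measurable_pi_apply l').comp L.Z_meas).comp (measurable_sv L a)
  have hVi : ∀ i, Integrable (fun h => Vv (d := d) pp rr Z w l h i) P := by
    intro i
    match i with
    | none =>
      exact ((mp_pos L w).comp L.pp_mp).integrable_comp_of_integrable (hZ l)
    | some (a, l') =>
      exact (mp_sv L a).integrable_comp_of_integrable (hZ l')
  have hKm : ∀ i j, Measurable[Env] fun h => Kk (d := d) pp rr s E ρ om cav w l h i j := by
    intro i j
    match i, j with
    | none, none =>
      exact (Complex.measurable_im.comp ((meas_Gd L).comp ((meas_pos L w).comp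
        L.pp_Env))).div_const _
    | none, some (a, l') =>
      simp only [Kk]
      by_cases h : l' = l
      · simp only [h, if_true]
        exact (Complex.measurable_im.comp (meas_Go L (word w) a)).div_const _
      · simp only [h, if_false]
        exact measurable_const
    | some (a, l'), none =>
      simp only [Kk]
      by_cases h : l' = l
      · simp only [h, if_true]
        exact (Complex.measurable_im.comp (meas_Go L (word w) a)).div_const _
      · simp only [h, if_false]
        exact measurable_const
    | some (a, l'), some (b, l'') =>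
      simp only [Kk]
      by_cases h : l' = l''
      · simp only [h, if_true]
        exact (Complex.measurable_im.comp (meas_Gs L a b)).div_const _
      · simp only [h, if_false]
        exact measurable_const
  have hKs : ∀ h i j, Kk (d := d) pp rr s E ρ om cav w l h i j =
      Kk (d := d) pp rr s E ρ om cav w l h j i := by
    intro h i j
    match i, j with
    | none, none => rfl
    | none, some (a, l') => rfl
    | some (a, l'), none => rfl
    | some (a, l'), some (b, l'') =>
      simp only [Kk]
      rw [Gs_symm]
      simp only [eq_comm]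
  have hlm : ∀ i, Measurable[Env] fun h => lw (d := d) (k := k) pp rr cav w l h i := by
    intro i
    simp only [lw]
    by_cases h1 : i = some (some ⟨0, NeZero.pos d⟩, l)
    · simp only [h1, if_true]
      exact (meas_l1c L w).comp L.pp_Env
    · simp only [h1, if_false]
      by_cases h2 : i = some (none, l)
      · simp only [h2, if_true]
        exact (meas_l2c L w).comp L.pp_Env
      · simp only [h2, if_false]
        exact measurable_const
  have hreg : ∀ᵐ h ∂P, ∀ j, j ≠ none → Kk (d := d) pp rr s E ρ om cav w l h none j =
      ∑ i, lw (d := d) (k := k) pp rr cav w l h i * Kk (d := d) pp rr s E ρ om cav w l h i j := by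
    filter_upwards [C2 L] with h hh j hj
    match j with
    | none => exact absurd rfl hj
    | some (a, l') =>
      rw [sum_lw w l h fun i => Kk (d := d) pp rr s E ρ om cav w l h i (some (a, l'))]
      simp only [Kk]
      by_cases h1 : l' = l
      · subst h1
        simp only [if_true]
        rw [hh w a]
        ring
      · simp only [h1, Ne.symm h1, if_false, mul_zero, add_zero]
  have hC' : C ≤ FX ⊔ MeasurableSpace.comap (erase (Vv (d := d) pp rr Z w l) none)
      inferInstance := by
    refine hC.trans (sup_le (L.Env_le.trans le_sup_left) ?_)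
    refine Measurable.comap_le ?_
    refine @measurable_pi_lambda Ω (St d) (fun _ => Fin k → ℝ)
      (FX ⊔ MeasurableSpace.comap (erase (Vv (d := d) pp rr Z w l) none) inferInstance) _ _
      fun a => ?_
    refine @measurable_pi_lambda Ω (Fin k) (fun _ => ℝ)
      (FX ⊔ MeasurableSpace.comap (erase (Vv (d := d) pp rr Z w l) none) inferInstance) _ _
      fun l' => ?_
    have h1 : Measurable[FX ⊔ MeasurableSpace.comap (erase (Vv (d := d) pp rr Z w l) none)
        inferInstance] fun h => X (sv pp rr d h a) l' :=
      (((measurable_pi_apply l').comp L.X_meas).comp (measurable_sv_FX L a)).mono le_sup_left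
        le_rfl
    have h2 : Measurable[FX ⊔ MeasurableSpace.comap (erase (Vv (d := d) pp rr Z w l) none)
        inferInstance] fun h => erase (Vv (d := d) pp rr Z w l) none h (some (a, l')) := by
      have h3 : Measurable[MeasurableSpace.comap (erase (Vv (d := d) pp rr Z w l) none)
        inferInstance] (erase (Vv (d := d) pp rr Z w l) none) := comap_measurable _
      exact ((measurable_pi_apply (some (a, l'))).comp h3).mono le_sup_right le_rfl
    have h4 : (fun h => YY t X Z (sv pp rr d h a) l') = fun h => X (sv pp rr d h a) l' +
        Real.sqrt t * erase (Vv (d := d) pp rr Z w l) none h (some (a, l')) := by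
      funext h
      simp [YY, erase, Vv]
    rw [h4]
    exact h1.add (h2.const_mul _)
  have main := gauss_regression (P := P) L.FX_le L.Env_le hVm hVi hKm hKs (hch_V L w l) none hlm
    hreg hEC hC'
  refine main.trans (Eventually.of_forall fun h => ?_)
  simp only []
  rw [sum_lw w l h fun i => (P[fun ω => Vv (d := d) pp rr Z w l ω i | C]) h]
  rfl

end Crest.Agent.R166.Mart663
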