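import Crest.Agent.R166.MartC_663

/-!
# Row 166, section 42: Gaussian regression given an environment (helper663)

`V` is a finite family which is, given `FX`, centred Gaussian with covariance `K`
(characteristic function form). If `K o j = ∑ ℓ i K i j` for `j ≠ o`, then
`E[V o | C] = ∑ ℓ i E[V i | C]` for every `C ≤ FX ⊔ σ(V j, j ≠ o)` containing the environment.
-/

set_option autoImplicit false

noncomputable section

open MeasureTheory ProbabilityTheory Filter
open scoped ENNReal

namespace Crest.Agent.R166.Mart663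

variable {Ω : Type*} {C Env FX m0 : MeasurableSpace Ω} {P : Measure Ω}

/-! ### Fourier uniqueness with signed weights -/

lemma integral_density_map [IsFiniteMeasure P] {T : Type*} [Fintype T] {V : Ω → T → ℝ}
    (hV : Measurable V) {R : Ω → ℝ} (hR : Integrable R P) (x : EuclideanSpace ℝ T) :
    charFun ((P.withDensity fun ω => ENNReal.ofReal (R ω)).map
      (fun ω => (WithLp.toLp 2 (V ω) : EuclideanSpace ℝ T))) x =
      ∫ ω, ((max (R ω) 0 : ℝ) : ℂ) * Complex.exp (Complex.I * ((∑ t, x t * V ω t : ℝ) : ℂ)) ∂P := by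
  have hV' : Measurable (fun ω => (WithLp.toLp 2 (V ω) : EuclideanSpace ℝ T)) :=
    (WithLp.measurable_toLp 2 (T → ℝ)).comp hV
  rw [charFun_apply, integral_map hV'.aemeasurable (by
    refine Continuous.aestronglyMeasurable ?_
    fun_prop)]
  rw [integral_withDensity_eq_integral_toReal_smul₀ hR.aestronglyMeasurable.aemeasurable.ennreal_ofReal
    (Eventually.of_forall fun ω => ENNReal.ofReal_lt_top)]
  refine integral_congr_ae (Eventually.of_forall fun ω => ?_)
  simp only [ENNReal.toReal_ofReal', Complex.real_smul]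
  congr 2
  rw [mul_comm Complex.I]
  congr 2

lemma integral_zero_of_fourier [IsFiniteMeasure P] {T : Type*} [Fintype T] {V : Ω → T → ℝ}
    (hV : Measurable V) {R : Ω → ℝ} (hR : Integrable R P)
    (hc : ∀ x : T → ℝ, ∫ ω, R ω * Real.cos (∑ t, x t * V ω t) ∂P = 0)
    (hs : ∀ x : T → ℝ, ∫ ω, R ω * Real.sin (∑ t, x t * V ω t) ∂P = 0)
    {S : Set (T → ℝ)} (hS : MeasurableSet S) : ∫ ω in V ⁻¹' S, R ω ∂P = 0 := by
  have hV' : Measurable (fun ω => (WithLp.toLp 2 (V ω) : EuclideanSpace ℝ T)) :=
    (WithLp.measurable_toLp 2 (T → ℝ)).comp hV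
  set μp : Measure (EuclideanSpace ℝ T) := (P.withDensity fun ω => ENNReal.ofReal (R ω)).map
      (fun ω => (WithLp.toLp 2 (V ω) : EuclideanSpace ℝ T)) with hμp
  set μn : Measure (EuclideanSpace ℝ T) := (P.withDensity fun ω => ENNReal.ofReal (-R ω)).map
      (fun ω => (WithLp.toLp 2 (V ω) : EuclideanSpace ℝ T)) with hμn
  have : IsFiniteMeasure (P.withDensity fun ω => ENNReal.ofReal (R ω)) :=
    isFiniteMeasure_withDensity_ofReal hR.2
  have : IsFiniteMeasure (P.withDensity fun ω => ENNReal.ofReal (-R ω)) :=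
    isFiniteMeasure_withDensity_ofReal hR.neg.2
  have : IsFiniteMeasure μp := by rw [hμp]; infer_instance
  have : IsFiniteMeasure μn := by rw [hμn]; infer_instance
  have hexp : ∀ x : T → ℝ, ∀ ω, ‖Complex.exp (Complex.I * ((∑ t, x t * V ω t : ℝ) : ℂ))‖ ≤ 1 := by
    intro x ω
    rw [mul_comm, Complex.norm_exp_ofReal_mul_I]
  have hmeas : ∀ x : T → ℝ, Measurable fun ω => Complex.exp (Complex.I *
      ((∑ t, x t * V ω t : ℝ) : ℂ)) := by
    intro x
    have h1 : Measurable fun ω => ∑ t, x t * V ω t :=
      Finset.measurable_sum _ fun t _ => ((measurable_pi_apply t).comp hV).const_mul _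
    exact Complex.measurable_exp.comp ((Complex.measurable_ofReal.comp h1).const_mul _)
  have hposI : Integrable (fun ω => max (R ω) 0) P := hR.pos_part
  have hnegI : Integrable (fun ω => max (-R ω) 0) P := hR.neg.pos_part
  have heq : μp = μn := by
    refine Measure.ext_of_charFun (funext fun x => ?_)
    have hRn : Integrable (fun ω => -R ω) P := hR.neg
    rw [hμp, hμn, integral_density_map hV hR x, integral_density_map hV hRn x]
    have hi1 : Integrable (fun ω => ((max (R ω) 0 : ℝ) : ℂ) *
        Complex.exp (Complex.I * ((∑ t, x t * V ω t : ℝ) : ℂ))) P :=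
      hposI.ofReal.mul_bdd (c := 1) (hmeas _).aestronglyMeasurable
        (Eventually.of_forall fun ω => hexp _ ω)
    have hi2 : Integrable (fun ω => ((max (-R ω) 0 : ℝ) : ℂ) *
        Complex.exp (Complex.I * ((∑ t, x t * V ω t : ℝ) : ℂ))) P :=
      hnegI.ofReal.mul_bdd (c := 1) (hmeas _).aestronglyMeasurable
        (Eventually.of_forall fun ω => hexp _ ω)
    rw [← sub_eq_zero, ← integral_sub hi1 hi2]
    have e : ∀ ω, ((max (R ω) 0 : ℝ) : ℂ) *
        Complex.exp (Complex.I * ((∑ t, x t * V ω t : ℝ) : ℂ)) - ((max (-R ω) 0 : ℝ) : ℂ) *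
        Complex.exp (Complex.I * ((∑ t, x t * V ω t : ℝ) : ℂ)) =
        ((R ω * Real.cos (∑ t, x t * V ω t) : ℝ) : ℂ) +
          ((R ω * Real.sin (∑ t, x t * V ω t) : ℝ) : ℂ) * Complex.I := by
      intro ω
      have h1 : ((max (R ω) 0 : ℝ) : ℂ) - ((max (-R ω) 0 : ℝ) : ℂ) = ((R ω : ℝ) : ℂ) := by
        rw [← Complex.ofReal_sub]
        congr 1
        rcases le_total 0 (R ω) with h | h
        · rw [max_eq_left h, max_eq_right (neg_nonpos.mpr h), sub_zero]
        · rw [max_eq_right h, max_eq_left (neg_nonneg.mpr h)]; ring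
      rw [← sub_mul, h1, mul_comm Complex.I, Complex.exp_mul_I, ← Complex.ofReal_cos,
        ← Complex.ofReal_sin]
      push_cast
      ring
    have hm1 : Measurable fun ω => ∑ t, x t * V ω t :=
      Finset.measurable_sum _ fun t _ => ((measurable_pi_apply t).comp hV).const_mul _
    have hi3 : Integrable (fun ω => ((R ω * Real.cos (∑ t, x t * V ω t) : ℝ) : ℂ)) P :=
      (hR.mul_bdd (c := 1) (Real.measurable_cos.comp hm1).aestronglyMeasurable
        (Eventually.of_forall fun ω => Real.abs_cos_le_one _)).ofReal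
    have hi4 : Integrable (fun ω => ((R ω * Real.sin (∑ t, x t * V ω t) : ℝ) : ℂ) *
        Complex.I) P :=
      ((hR.mul_bdd (c := 1) (Real.measurable_sin.comp hm1).aestronglyMeasurable
        (Eventually.of_forall fun ω => Real.abs_sin_le_one _)).ofReal).mul_const _
    have hcx : ∫ ω, ((R ω * Real.cos (∑ t, x t * V ω t) : ℝ) : ℂ) ∂P = 0 := by
      have h := integral_ofReal (μ := P) (𝕜 := ℂ) (f := fun ω => R ω * Real.cos (∑ t, x t * V ω t))
      rw [hc] at h
      simpa using h
    have hsx : ∫ ω, ((R ω * Real.sin (∑ t, x t * V ω t) : ℝ) : ℂ) ∂P = 0 := by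
      have h := integral_ofReal (μ := P) (𝕜 := ℂ) (f := fun ω => R ω * Real.sin (∑ t, x t * V ω t))
      rw [hs] at h
      simpa using h
    rw [integral_congr_ae (Eventually.of_forall e), integral_add hi3 hi4, integral_mul_const,
      hcx, hsx]
    simp
  -- evaluate on the set
  set S' : Set (EuclideanSpace ℝ T) := (WithLp.ofLp) ⁻¹' S with hS'
  have hS'm : MeasurableSet S' := (WithLp.measurable_ofLp 2 (T → ℝ)) hS
  have h1 := congrArg (fun μ : Measure (EuclideanSpace ℝ T) => μ S') heq
  simp only [hμp, hμn] at h1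
  have hpre : (fun ω => (WithLp.toLp 2 (V ω) : EuclideanSpace ℝ T)) ⁻¹' S' = V ⁻¹' S := rfl
  have hVS : MeasurableSet (V ⁻¹' S) := hV hS
  rw [Measure.map_apply hV' hS'm, Measure.map_apply hV' hS'm, hpre, withDensity_apply _ hVS,
    withDensity_apply _ hVS] at h1
  rw [integral_eq_lintegral_pos_part_sub_lintegral_neg_part hR.integrableOn, h1, sub_self]

/-! ### Differentiation of the characteristic function -/

section deriv

variable {ι : Type*} [Fintype ι] [DecidableEq ι]

lemma sum_update (y v : ι → ℝ) (j : ι) (s : ℝ) :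
    ∑ i, (y i + if i = j then s else 0) * v i = ∑ i, y i * v i + s * v j := by
  simp [add_mul, Finset.sum_add_distrib]

lemma quad_update (y : ι → ℝ) (K : ι → ι → ℝ) (hK : ∀ i j, K i j = K j i) (j : ι) (s : ℝ) :
    ∑ i, ∑ i', (y i + if i = j then s else 0) * (y i' + if i' = j then s else 0) * K i i' =
      ∑ i, ∑ i', y i * y i' * K i i' + 2 * s * ∑ i, y i * K j i + s ^ 2 * K j j := by
  have e : ∀ i i', (y i + if i = j then s else 0) * (y i' + if i' = j then s else 0) * K i i' =
      y i * y i' * K i i' + y i * (if i' = j then s else 0) * K i i' +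
      (if i = j then s else 0) * y i' * K i i' +
      (if i = j then s else 0) * (if i' = j then s else 0) * K i i' := by
    intro i i'; ring
  simp only [e, Finset.sum_add_distrib]
  have h1 : ∑ i, ∑ i', y i * (if i' = j then s else 0) * K i i' = s * ∑ i, y i * K j i := by
    rw [Finset.mul_sum]
    refine Finset.sum_congr rfl fun i _ => ?_
    rw [Finset.sum_eq_single j]
    · simp only [if_true]; rw [hK i j]; ring
    · intro b _ hb; simp [hb]
    · intro h; exact absurd (Finset.mem_univ j) h
  have h2 : ∑ i, ∑ i', (if i = j then s else 0) * y i' * K i i' = s * ∑ i, y i * K j i := by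
    rw [Finset.sum_eq_single j, Finset.mul_sum]
    · refine Finset.sum_congr rfl fun i _ => ?_
      simp only [if_true]; ring
    · intro b _ hb; simp [hb]
    · intro h; exact absurd (Finset.mem_univ j) h
  have h3 : ∑ i, ∑ i', (if i = j then s else 0) * (if i' = j then s else 0) * K i i' =
      s ^ 2 * K j j := by
    rw [Finset.sum_eq_single j, Finset.sum_eq_single j]
    · simp only [if_true]; ring
    · intro b _ hb; simp [hb]
    · intro h; exact absurd (Finset.mem_univ j) h
    · intro b _ hb; simp [hb]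
    · intro h; exact absurd (Finset.mem_univ j) h
  rw [h1, h2, h3]; ring

variable {V : Ω → ι → ℝ} {K : Ω → ι → ι → ℝ}

/-- first derivatives of the characteristic function in integrated form on a set `D` on which the
covariance is bounded. -/
lemma deriv_charFun [IsFiniteMeasure P] (hV : Measurable V)
    (hVi : ∀ i, Integrable (fun ω => V ω i) P)
    (hKm : ∀ i j, Measurable fun ω => K ω i j) (hKs : ∀ ω i j, K ω i j = K ω j i)
    {D : Set Ω} (hD : MeasurableSet D) {N : ℝ} (hN : ∀ ω ∈ D, ∀ i j, |K ω i j| ≤ N)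
    (h1 : ∀ y : ι → ℝ, ∫ ω in D, Real.cos (∑ i, y i * V ω i) ∂P =
      ∫ ω in D, Real.exp (-(1 / 2) * ∑ i, ∑ j, y i * y j * K ω i j) ∂P)
    (h2 : ∀ y : ι → ℝ, ∫ ω in D, Real.sin (∑ i, y i * V ω i) ∂P = 0) (j : ι) (y : ι → ℝ) :
    ∫ ω in D, V ω j * Real.sin (∑ i, y i * V ω i) ∂P =
      ∫ ω in D, (∑ i, y i * K ω j i) *
        Real.exp (-(1 / 2) * ∑ i, ∑ j, y i * y j * K ω i j) ∂P ∧
    ∫ ω in D, V ω j * Real.cos (∑ i, y i * V ω i) ∂P = 0 := by
  set Q : Measure Ω := P.restrict D with hQ
  set A : Ω → ℝ := fun ω => ∑ i, y i * V ω i with hA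
  set B : Ω → ℝ := fun ω => ∑ i, ∑ j, y i * y j * K ω i j with hB
  set L : Ω → ℝ := fun ω => ∑ i, y i * K ω j i with hL
  have hAm : Measurable A :=
    Finset.measurable_sum _ fun t _ => ((measurable_pi_apply t).comp hV).const_mul _
  have hBm : Measurable B :=
    Finset.measurable_sum _ fun i _ => Finset.measurable_sum _ fun j _ => (hKm i j).const_mul _
  have hLm : Measurable L := Finset.measurable_sum _ fun i _ => (hKm j i).const_mul _
  have hVj : Measurable fun ω => V ω j := (measurable_pi_apply j).comp hV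
  have hVjQ : Integrable (fun ω => V ω j) Q := (hVi j).mono_measure Measure.restrict_le_self
  -- derivative of the trigonometric sides
  have hdc : HasDerivAt (fun s => ∫ ω, Real.cos (A ω + s * V ω j) ∂Q)
      (∫ ω, -(V ω j * Real.sin (A ω)) ∂Q) 0 := by
    have h := hasDerivAt_integral_of_dominated_loc_of_deriv_le (μ := Q) (x₀ := (0 : ℝ))
      (s := Set.univ) (F := fun s ω => Real.cos (A ω + s * V ω j))
      (F' := fun s ω => -(V ω j * Real.sin (A ω + s * V ω j))) (bound := fun ω => |V ω j|)
      Filter.univ_mem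
      (Eventually.of_forall fun s => (Real.measurable_cos.comp
        (hAm.add (hVj.const_mul s))).aestronglyMeasurable)
      (by
        refine Integrable.of_bound (C := 1) (Real.measurable_cos.comp
          (hAm.add (hVj.const_mul 0))).aestronglyMeasurable (Eventually.of_forall fun ω => ?_)
        exact Real.abs_cos_le_one _)
      ((hVj.mul (Real.measurable_sin.comp (hAm.add (hVj.const_mul 0)))).neg.aestronglyMeasurable)
      (Eventually.of_forall fun ω s _ => by
        rw [norm_neg, norm_mul, Real.norm_eq_abs, Real.norm_eq_abs]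
        exact mul_le_of_le_one_right (abs_nonneg _) (Real.abs_sin_le_one _))
      hVjQ.abs
      (Eventually.of_forall fun ω s _ => by
        have e : HasDerivAt (fun x => Real.cos (A ω + x * V ω j))
            (-Real.sin (A ω + s * V ω j) * (1 * V ω j)) s :=
          (((hasDerivAt_id s).mul_const (V ω j)).const_add (A ω)).cos
        have e' : -(V ω j * Real.sin (A ω + s * V ω j)) =
            -Real.sin (A ω + s * V ω j) * (1 * V ω j) := by ring
        rw [e']
        exact e)
    have h' := h.2
    simpa using h'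
  have hds : HasDerivAt (fun s => ∫ ω, Real.sin (A ω + s * V ω j) ∂Q)
      (∫ ω, (V ω j * Real.cos (A ω)) ∂Q) 0 := by
    have h := hasDerivAt_integral_of_dominated_loc_of_deriv_le (μ := Q) (x₀ := (0 : ℝ))
      (s := Set.univ) (F := fun s ω => Real.sin (A ω + s * V ω j))
      (F' := fun s ω => (V ω j * Real.cos (A ω + s * V ω j))) (bound := fun ω => |V ω j|)
      Filter.univ_mem
      (Eventually.of_forall fun s => (Real.measurable_sin.comp
        (hAm.add (hVj.const_mul s))).aestronglyMeasurable)
      (by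
        refine Integrable.of_bound (C := 1) (Real.measurable_sin.comp
          (hAm.add (hVj.const_mul 0))).aestronglyMeasurable (Eventually.of_forall fun ω => ?_)
        exact Real.abs_sin_le_one _)
      ((hVj.mul (Real.measurable_cos.comp (hAm.add (hVj.const_mul 0)))).aestronglyMeasurable)
      (Eventually.of_forall fun ω s _ => by
        rw [norm_mul, Real.norm_eq_abs, Real.norm_eq_abs]
        exact mul_le_of_le_one_right (abs_nonneg _) (Real.abs_cos_le_one _))
      hVjQ.abs
      (Eventually.of_forall fun ω s _ => by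
        have e : HasDerivAt (fun x => Real.sin (A ω + x * V ω j))
            (Real.cos (A ω + s * V ω j) * (1 * V ω j)) s :=
          (((hasDerivAt_id s).mul_const (V ω j)).const_add (A ω)).sin
        have e' : V ω j * Real.cos (A ω + s * V ω j) =
            Real.cos (A ω + s * V ω j) * (1 * V ω j) := by ring
        rw [e']
        exact e)
    have h' := h.2
    simpa using h'
  -- derivative of the Gaussian side
  have hN0 : ∀ᵐ ω ∂Q, |B ω| ≤ (∑ i, ∑ j, |y i * y j|) * N ∧ |L ω| ≤ (∑ i, |y i|) * N ∧
      |K ω j j| ≤ N := by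
    filter_upwards [ae_restrict_mem hD] with ω hω
    refine ⟨?_, ?_, hN ω hω j j⟩
    · rw [hB, Finset.sum_mul]
      refine (Finset.abs_sum_le_sum_abs _ _).trans (Finset.sum_le_sum fun i _ => ?_)
      rw [Finset.sum_mul]
      refine (Finset.abs_sum_le_sum_abs _ _).trans (Finset.sum_le_sum fun j _ => ?_)
      rw [abs_mul]
      exact mul_le_mul_of_nonneg_left (hN ω hω i j) (abs_nonneg _)
    · rw [hL, Finset.sum_mul]
      refine (Finset.abs_sum_le_sum_abs _ _).trans (Finset.sum_le_sum fun i _ => ?_)
      rw [abs_mul]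
      exact mul_le_mul_of_nonneg_left (hN ω hω j i) (abs_nonneg _)
  set b1 : ℝ := (∑ i, ∑ j, |y i * y j|) * N with hb1
  set b2 : ℝ := (∑ i, |y i|) * N with hb2
  have hdg : HasDerivAt (fun s => ∫ ω, Real.exp (-(1 / 2) * (B ω + 2 * s * L ω + s ^ 2 * K ω j j))
      ∂Q) (∫ ω, -(L ω * Real.exp (-(1 / 2) * B ω)) ∂Q) 0 := by
    have hm : ∀ s, Measurable fun ω => -(1 / 2) * (B ω + 2 * s * L ω + s ^ 2 * K ω j j) :=
      fun s => ((hBm.add (hLm.const_mul _)).add ((hKm j j).const_mul _)).const_mul _
    have h := hasDerivAt_integral_of_dominated_loc_of_deriv_le (μ := Q) (x₀ := (0 : ℝ))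
      (s := Metric.ball 0 1)
      (F := fun s ω => Real.exp (-(1 / 2) * (B ω + 2 * s * L ω + s ^ 2 * K ω j j)))
      (F' := fun s ω => -((L ω + s * K ω j j) *
        Real.exp (-(1 / 2) * (B ω + 2 * s * L ω + s ^ 2 * K ω j j))))
      (bound := fun _ => (b2 + N) * Real.exp (b1 + 2 * b2 + N))
      (Metric.ball_mem_nhds _ one_pos)
      (Eventually.of_forall fun s => (Real.measurable_exp.comp (hm s)).aestronglyMeasurable)
      (by
        refine Integrable.of_bound (C := Real.exp (b1 + 2 * b2 + N))
          (Real.measurable_exp.comp (hm 0)).aestronglyMeasurable ?_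
        filter_upwards [hN0] with ω hω
        obtain ⟨q1, q2, q3⟩ := hω
        rw [Real.norm_eq_abs, abs_of_pos (Real.exp_pos _)]
        refine Real.exp_le_exp.mpr ?_
        have a1 := abs_le.mp q1
        have a2 := (abs_nonneg _).trans q2
        have a3 := (abs_nonneg _).trans q3
        have a4 := (abs_nonneg _).trans q1
        nlinarith)
      (((hLm.add ((hKm j j).const_mul 0)).mul (Real.measurable_exp.comp (hm 0))).neg
        |>.aestronglyMeasurable)
      (by
        filter_upwards [hN0] with ω hω s hs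
        obtain ⟨q1, q2, q3⟩ := hω
        rw [Metric.mem_ball, dist_zero_right, Real.norm_eq_abs] at hs
        rw [norm_neg, norm_mul, Real.norm_eq_abs, Real.norm_eq_abs, abs_of_pos (Real.exp_pos _)]
        have c1 : |L ω + s * K ω j j| ≤ b2 + N := by
          refine (abs_add_le _ _).trans (add_le_add q2 ?_)
          rw [abs_mul]
          have := mul_le_mul hs.le q3 (abs_nonneg _) zero_le_one
          linarith
        have c2 : -(1 / 2) * (B ω + 2 * s * L ω + s ^ 2 * K ω j j) ≤ b1 + 2 * b2 + N := by
          have a1 := abs_le.mp q1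
          have a0 : 0 ≤ b1 := (abs_nonneg _).trans q1
          have a2 : |s * L ω| ≤ b2 := by
            rw [abs_mul]
            have := mul_le_mul hs.le q2 (abs_nonneg _) zero_le_one
            linarith
          have a3 : |s ^ 2 * K ω j j| ≤ N := by
            rw [abs_mul, abs_pow]
            have h5 : |s| ^ 2 ≤ 1 := pow_le_one₀ (abs_nonneg _) hs.le
            have := mul_le_mul h5 q3 (abs_nonneg _) zero_le_one
            linarith
          have a2' := abs_le.mp a2
          have a3' := abs_le.mp a3
          have a20 : 0 ≤ b2 := (abs_nonneg _).trans a2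
          have a30 : 0 ≤ N := (abs_nonneg _).trans a3
          linarith
        exact mul_le_mul c1 (Real.exp_le_exp.mpr c2) (Real.exp_pos _).le
          ((abs_nonneg _).trans c1))
      (integrable_const _)
      (Eventually.of_forall fun ω s _ => by
        have e1 : HasDerivAt (fun s : ℝ => -(1 / 2) * (B ω + 2 * s * L ω + s ^ 2 * K ω j j))
            (-(L ω + s * K ω j j)) s := by
          have d1 : HasDerivAt (fun s : ℝ => 2 * s * L ω) (2 * L ω) s := by
            simpa using (((hasDerivAt_id s).const_mul 2).mul_const (L ω))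
          have d2 : HasDerivAt (fun s : ℝ => s ^ 2 * K ω j j) (2 * s * K ω j j) s := by
            simpa using ((hasDerivAt_pow 2 s).mul_const (K ω j j))
          have d3 : HasDerivAt (fun s : ℝ => -(1 / 2) * (B ω + 2 * s * L ω + s ^ 2 * K ω j j))
              (-(1 / 2) * (2 * L ω + 2 * s * K ω j j)) s :=
            ((d1.const_add (B ω)).add d2).const_mul (-(1 / 2 : ℝ))
          have e' : -(L ω + s * K ω j j) = -(1 / 2) * (2 * L ω + 2 * s * K ω j j) := by ring
          rw [e']
          exact d3
        have e2 : HasDerivAt (fun s : ℝ => Real.exp (-(1 / 2) * (B ω + 2 * s * L ω +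
            s ^ 2 * K ω j j))) (Real.exp (-(1 / 2) * (B ω + 2 * s * L ω + s ^ 2 * K ω j j)) *
            -(L ω + s * K ω j j)) s := e1.exp
        have e3 : -((L ω + s * K ω j j) * Real.exp (-(1 / 2) * (B ω + 2 * s * L ω +
            s ^ 2 * K ω j j))) = Real.exp (-(1 / 2) * (B ω + 2 * s * L ω + s ^ 2 * K ω j j)) *
            -(L ω + s * K ω j j) := by ring
        rw [e3]
        exact e2)
    have h' := h.2
    simpa using h'
  -- comparison
  have hc' : (fun s => ∫ ω, Real.cos (A ω + s * V ω j) ∂Q) =
      fun s => ∫ ω, Real.exp (-(1 / 2) * (B ω + 2 * s * L ω + s ^ 2 * K ω j j)) ∂Q := by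
    funext s
    have h := h1 (fun i => y i + if i = j then s else 0)
    have e1 : ∀ ω, ∑ i, (y i + if i = j then s else 0) * V ω i = A ω + s * V ω j :=
      fun ω => sum_update y (V ω) j s
    have e2 : ∀ ω, ∑ i, ∑ i', (y i + if i = j then s else 0) *
        (y i' + if i' = j then s else 0) * K ω i i' = B ω + 2 * s * L ω + s ^ 2 * K ω j j :=
      fun ω => quad_update y (K ω) (hKs ω) j s
    simp only [e1, e2] at h
    exact h
  have hs' : (fun s => ∫ ω, Real.sin (A ω + s * V ω j) ∂Q) = fun _ => 0 := by
    funext s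
    have h := h2 (fun i => y i + if i = j then s else 0)
    have e1 : ∀ ω, ∑ i, (y i + if i = j then s else 0) * V ω i = A ω + s * V ω j :=
      fun ω => sum_update y (V ω) j s
    simp only [e1] at h
    exact h
  constructor
  · rw [hc'] at hdc
    have h := hdc.unique hdg
    rw [integral_neg, integral_neg] at h
    linarith
  · rw [hs'] at hds
    exact hds.unique (hasDerivAt_const _ _)

end deriv

end Crest.Agent.R166.Mart663
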