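import Crest.Agent.R166.MartG_663

/-!
# Row 166, section 42: Gaussian regression given an environment, main theorem (helper663)
-/

set_option autoImplicit false

noncomputable section

open MeasureTheory ProbabilityTheory Filter
open scoped ENNReal

namespace Crest.Agent.R166.Mart663

variable {Ω : Type*} {C Env FX m0 : MeasurableSpace Ω} {P : Measure Ω}

/-- equality of integrals over all sets of `FX` may be multiplied by bounded weights. -/
lemma setIntegral_mul_of_forall [IsFiniteMeasure P] (hFX : FX ≤ m0) {a b : Ω → ℝ}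
    (ha : Integrable a P) (hb : Integrable b P) (hbm : StronglyMeasurable[FX] b)
    (h : ∀ D, MeasurableSet[FX] D → ∫ ω in D, a ω ∂P = ∫ ω in D, b ω ∂P)
    {ℓ : Ω → ℝ} (hℓ : StronglyMeasurable[FX] ℓ) {c : ℝ} (hc : ∀ ω, |ℓ ω| ≤ c)
    {D : Set Ω} (hD : MeasurableSet[FX] D) :
    ∫ ω in D, ℓ ω * a ω ∂P = ∫ ω in D, ℓ ω * b ω ∂P := by
  have h1 : b =ᵐ[P] P[a | FX] :=
    ae_eq_condExp_of_forall_setIntegral_eq hFX ha (fun _ _ _ => hb.integrableOn)
      (fun D hD _ => (h D hD).symm) hbm.aestronglyMeasurable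
  have hint : Integrable (fun ω => ℓ ω * a ω) P :=
    ha.bdd_mul (c := c) (hℓ.mono hFX).aestronglyMeasurable
      (Eventually.of_forall fun ω => hc ω)
  have h2 : P[fun ω => ℓ ω * a ω | FX] =ᵐ[P] ℓ * P[a | FX] :=
    condExp_mul_of_stronglyMeasurable_left hℓ hint ha
  rw [← setIntegral_condExp hFX hint hD]
  refine setIntegral_congr_ae (hFX D hD) ?_
  filter_upwards [h1, h2] with ω e1 e2 _
  rw [e2, Pi.mul_apply, ← e1]

variable {ι : Type*} [Fintype ι] [DecidableEq ι]

/-- real form of the characteristic function hypothesis. -/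
lemma real_of_complex [IsFiniteMeasure P] (hFX : FX ≤ m0) {V : Ω → ι → ℝ}
    {K : Ω → ι → ι → ℝ} (hV : Measurable V)
    (hch : ∀ y : ι → ℝ, P[fun ω => Complex.exp (Complex.I * ((∑ i, y i * V ω i : ℝ) : ℂ)) | FX]
      =ᵐ[P] fun ω => Complex.exp (((-(1 / 2) * ∑ i, ∑ j, y i * y j * K ω i j : ℝ)) : ℂ))
    {D : Set Ω} (hD : MeasurableSet[FX] D) (y : ι → ℝ) :
    ∫ ω in D, Real.cos (∑ i, y i * V ω i) ∂P =
      ∫ ω in D, Real.exp (-(1 / 2) * ∑ i, ∑ j, y i * y j * K ω i j) ∂P ∧
    ∫ ω in D, Real.sin (∑ i, y i * V ω i) ∂P = 0 := by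
  have hm : Measurable fun ω => ∑ i, y i * V ω i :=
    Finset.measurable_sum _ fun t _ => ((measurable_pi_apply t).comp hV).const_mul _
  have hint : Integrable (fun ω => Complex.exp (Complex.I * ((∑ i, y i * V ω i : ℝ) : ℂ))) P := by
    refine Integrable.of_bound (C := 1) ?_ (Eventually.of_forall fun ω => ?_)
    · exact (Complex.measurable_exp.comp
        ((Complex.measurable_ofReal.comp hm).const_mul _)).aestronglyMeasurable
    · rw [mul_comm, Complex.norm_exp_ofReal_mul_I]
  have h1 : ∫ ω in D, Complex.exp (Complex.I * ((∑ i, y i * V ω i : ℝ) : ℂ)) ∂P =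
      ∫ ω in D, Complex.exp (((-(1 / 2) * ∑ i, ∑ j, y i * y j * K ω i j : ℝ)) : ℂ) ∂P := by
    rw [← setIntegral_condExp hFX hint hD]
    exact setIntegral_congr_ae (hFX D hD) ((hch y).mono fun ω h _ => h)
  have h2 : ∫ ω in D, Complex.exp (((-(1 / 2) * ∑ i, ∑ j, y i * y j * K ω i j : ℝ)) : ℂ) ∂P =
      ((∫ ω in D, Real.exp (-(1 / 2) * ∑ i, ∑ j, y i * y j * K ω i j) ∂P : ℝ) : ℂ) := by
    rw [← integral_complex_ofReal]
    refine integral_congr_ae (Eventually.of_forall fun ω => ?_)
    simp only [Complex.ofReal_exp]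
  have hintc : Integrable (fun ω => Real.cos (∑ i, y i * V ω i)) (P.restrict D) :=
    Integrable.of_bound (C := 1) (Real.measurable_cos.comp hm).aestronglyMeasurable
      (Eventually.of_forall fun ω => Real.abs_cos_le_one _)
  have hints : Integrable (fun ω => Real.sin (∑ i, y i * V ω i)) (P.restrict D) :=
    Integrable.of_bound (C := 1) (Real.measurable_sin.comp hm).aestronglyMeasurable
      (Eventually.of_forall fun ω => Real.abs_sin_le_one _)
  have h3 : ∫ ω in D, Complex.exp (Complex.I * ((∑ i, y i * V ω i : ℝ) : ℂ)) ∂P =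
      ((∫ ω in D, Real.cos (∑ i, y i * V ω i) ∂P : ℝ) : ℂ) +
        ((∫ ω in D, Real.sin (∑ i, y i * V ω i) ∂P : ℝ) : ℂ) * Complex.I := by
    rw [← integral_complex_ofReal, ← integral_complex_ofReal, ← integral_mul_const,
      ← integral_add hintc.ofReal (hints.ofReal.mul_const _)]
    refine integral_congr_ae (Eventually.of_forall fun ω => ?_)
    simp only []
    rw [mul_comm, Complex.exp_mul_I, ← Complex.ofReal_cos, ← Complex.ofReal_sin]
  rw [h3, h2] at h1
  have hre := congrArg Complex.re h1
  have him := congrArg Complex.im h1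
  simp only [Complex.add_re, Complex.ofReal_re, Complex.mul_re, Complex.I_re, mul_zero,
    Complex.ofReal_im, Complex.I_im, mul_one, sub_self, add_zero] at hre
  simp only [Complex.add_im, Complex.ofReal_im, Complex.mul_im, Complex.ofReal_re, Complex.I_im,
    mul_one, Complex.I_re, mul_zero, add_zero, zero_add] at him
  exact ⟨hre, him⟩

/-- `V` with the coordinate `o` erased. -/
def erase (V : Ω → ι → ℝ) (o : ι) (ω : Ω) (i : ι) : ℝ := if i = o then 0 else V ω i

/-- **Gaussian regression given the environment.** -/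
theorem gauss_regression [IsProbabilityMeasure P] (hFX : FX ≤ m0) (hEF : Env ≤ FX)
    {V : Ω → ι → ℝ} {K : Ω → ι → ι → ℝ} (hV : Measurable V)
    (hVi : ∀ i, Integrable (fun ω => V ω i) P)
    (hKm : ∀ i j, Measurable[Env] fun ω => K ω i j) (hKs : ∀ ω i j, K ω i j = K ω j i)
    (hch : ∀ y : ι → ℝ, P[fun ω => Complex.exp (Complex.I * ((∑ i, y i * V ω i : ℝ) : ℂ)) | FX]
      =ᵐ[P] fun ω => Complex.exp (((-(1 / 2) * ∑ i, ∑ j, y i * y j * K ω i j : ℝ)) : ℂ))
    (o : ι) {ℓ : Ω → ι → ℝ} (hℓm : ∀ i, Measurable[Env] fun ω => ℓ ω i)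
    (hreg : ∀ᵐ ω ∂P, ∀ j, j ≠ o → K ω o j = ∑ i, ℓ ω i * K ω i j)
    (hEC : Env ≤ C) (hC : C ≤ FX ⊔ MeasurableSpace.comap (erase V o) inferInstance) :
    P[fun ω => V ω o | C] =ᵐ[P] fun ω => ∑ i, ℓ ω i * (P[fun ω => V ω i | C]) ω := by
  have hEm : Env ≤ m0 := hEF.trans hFX
  have hKm0 : ∀ i j, Measurable fun ω => K ω i j := fun i j => (hKm i j).mono hEm le_rfl
  have hℓm0 : ∀ i, Measurable fun ω => ℓ ω i := fun i => (hℓm i).mono hEm le_rfl
  have hVe : Measurable (erase V o) := by
    refine measurable_pi_lambda _ fun i => ?_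
    unfold erase
    by_cases h : i = o
    · simp only [h, if_true]; exact measurable_const
    · simp only [h, if_false]; exact (measurable_pi_apply i).comp hV
  have hCm : C ≤ m0 := hC.trans (sup_le hFX hVe.comap_le)
  -- the truncation sets
  let EN : ℕ → Set Ω := fun N => {ω | (∀ i j, |K ω i j| ≤ N) ∧ ∀ i, |ℓ ω i| ≤ N}
  have hEN : ∀ N, MeasurableSet[Env] (EN N) := by
    intro N
    have h1 : MeasurableSet[Env] {ω | ∀ i j, |K ω i j| ≤ N} := by
      have : {ω | ∀ i j, |K ω i j| ≤ (N : ℝ)} = ⋂ i, ⋂ j, {ω | |K ω i j| ≤ (N : ℝ)} := by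
        ext ω; simp
      rw [this]
      refine MeasurableSet.iInter fun i => MeasurableSet.iInter fun j => ?_
      exact hKm i j (isClosed_le continuous_abs continuous_const).measurableSet
    have h2 : MeasurableSet[Env] {ω | ∀ i, |ℓ ω i| ≤ N} := by
      have : {ω | ∀ i, |ℓ ω i| ≤ (N : ℝ)} = ⋂ i, {ω | |ℓ ω i| ≤ (N : ℝ)} := by
        ext ω; simp
      rw [this]
      refine MeasurableSet.iInter fun i => ?_
      exact hℓm i (isClosed_le continuous_abs continuous_const).measurableSet
    exact @MeasurableSet.inter Ω Env _ _ h1 h2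
  have hcov : ∀ ω, ∃ N : ℕ, ω ∈ EN N := by
    intro ω
    obtain ⟨N, hN⟩ := exists_nat_ge ((∑ i, ∑ j, |K ω i j|) + ∑ i, |ℓ ω i|)
    have p1 : 0 ≤ ∑ i, ∑ j, |K ω i j| :=
      Finset.sum_nonneg fun i _ => Finset.sum_nonneg fun j _ => abs_nonneg _
    have p2 : 0 ≤ ∑ i, |ℓ ω i| := Finset.sum_nonneg fun i _ => abs_nonneg _
    refine ⟨N, fun i j => ?_, fun i => ?_⟩
    · have h1 : |K ω i j| ≤ ∑ j, |K ω i j| :=
        Finset.single_le_sum (f := fun j => |K ω i j|) (fun j _ => abs_nonneg _)
          (Finset.mem_univ j)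
      have h2 : ∑ j, |K ω i j| ≤ ∑ i, ∑ j, |K ω i j| :=
        Finset.single_le_sum (f := fun i => ∑ j, |K ω i j|)
          (fun i _ => Finset.sum_nonneg fun j _ => abs_nonneg _) (Finset.mem_univ i)
      linarith
    · have h1 : |ℓ ω i| ≤ ∑ i, |ℓ ω i| :=
        Finset.single_le_sum (f := fun i => |ℓ ω i|) (fun j _ => abs_nonneg _)
          (Finset.mem_univ i)
      linarith
  -- main step on one truncation set
  have main : ∀ N : ℕ, ∀ᵐ ω ∂P, ω ∈ EN N →
      (P[fun ω => V ω o | C]) ω = ∑ i, ℓ ω i * (P[fun ω => V ω i | C]) ω := by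
    intro N
    set E := EN N with hE
    have hEFX : MeasurableSet[FX] E := hEF _ (hEN N)
    have hE0 : MeasurableSet E := hFX _ hEFX
    have hEC' : MeasurableSet[C] E := hEC _ (hEN N)
    -- truncated weights
    set ℓ' : ι → Ω → ℝ := fun i => E.indicator fun ω => ℓ ω i with hℓ'
    have hℓ'm : ∀ i, Measurable[Env] (ℓ' i) := by
      intro i
      show Measurable[Env] (E.indicator fun ω => ℓ ω i)
      exact (hℓm i).indicator (hEN N)
    have hℓ'b : ∀ i ω, |ℓ' i ω| ≤ N := by
      intro i ω
      by_cases h : ω ∈ E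
      · simp only [hℓ', Set.indicator_of_mem h]; exact h.2 i
      · simp only [hℓ', Set.indicator_of_notMem h, abs_zero]; exact Nat.cast_nonneg N
    set A : (ι → ℝ) → Ω → ℝ := fun y ω => ∑ i, y i * V ω i with hA
    have hAm : ∀ y, Measurable (A y) := fun y =>
      Finset.measurable_sum _ fun t _ => ((measurable_pi_apply t).comp hV).const_mul _
    set G : (ι → ℝ) → Ω → ℝ := fun y ω =>
      Real.exp (-(1 / 2) * ∑ i, ∑ j, y i * y j * K ω i j) with hG
    set L : (ι → ℝ) → ι → Ω → ℝ := fun y j ω => ∑ i, y i * K ω j i with hL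
    have hGm : ∀ y, Measurable[Env] (G y) := fun y =>
      Real.measurable_exp.comp (Measurable.const_mul
        (Finset.measurable_sum _ fun i _ => Finset.measurable_sum _ fun j _ =>
          (hKm i j).const_mul _) _)
    have hLm : ∀ y j, Measurable[Env] (L y j) := fun y j =>
      Finset.measurable_sum _ fun i _ => (hKm j i).const_mul _
    -- derivatives on `D ∩ E`
    have hder : ∀ D, MeasurableSet[FX] D → ∀ (y : ι → ℝ) (j : ι),
        ∫ ω in D, E.indicator (fun ω => V ω j * Real.sin (A y ω)) ω ∂P =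
          ∫ ω in D, E.indicator (fun ω => L y j ω * G y ω) ω ∂P ∧
        ∫ ω in D, E.indicator (fun ω => V ω j * Real.cos (A y ω)) ω ∂P = 
          ∫ ω in D, (fun _ => (0 : ℝ)) ω ∂P := by
      intro D hD y j
      have hDE : MeasurableSet[FX] (D ∩ E) := @MeasurableSet.inter Ω FX _ _ hD hEFX
      have h := deriv_charFun (P := P) hV hVi hKm0 hKs (hFX _ hDE) (N := N)
        (fun ω hω i j => hω.2.1 i j)
        (fun y => (real_of_complex hFX hV hch hDE y).1)
        (fun y => (real_of_complex hFX hV hch hDE y).2) j y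
      rw [setIntegral_indicator hE0, setIntegral_indicator hE0, setIntegral_indicator hE0]
      refine ⟨h.1, ?_⟩
      rw [h.2]; simp
    have hVsI : ∀ y j, Integrable (E.indicator fun ω => V ω j * Real.sin (A y ω)) P := fun y j =>
      ((hVi j).mul_bdd (c := 1) (Real.measurable_sin.comp (hAm y)).aestronglyMeasurable
        (Eventually.of_forall fun ω => Real.abs_sin_le_one _)).indicator hE0
    have hVcI : ∀ y j, Integrable (E.indicator fun ω => V ω j * Real.cos (A y ω)) P := fun y j =>
      ((hVi j).mul_bdd (c := 1) (Real.measurable_cos.comp (hAm y)).aestronglyMeasurable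
        (Eventually.of_forall fun ω => Real.abs_cos_le_one _)).indicator hE0
    have hLG : ∀ y j ω, |E.indicator (fun ω => L y j ω * G y ω) ω| ≤
        ((∑ i, |y i|) * N) * Real.exp ((∑ i, ∑ j, |y i * y j|) * N) := by
      intro y j ω
      have hs0 : 0 ≤ (∑ i, |y i|) * (N : ℝ) :=
        mul_nonneg (Finset.sum_nonneg fun i _ => abs_nonneg _) (Nat.cast_nonneg N)
      by_cases h : ω ∈ E
      · rw [Set.indicator_of_mem h, abs_mul]
        have b1 : |L y j ω| ≤ (∑ i, |y i|) * N := by
          simp only [hL]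
          rw [Finset.sum_mul]
          refine (Finset.abs_sum_le_sum_abs _ _).trans (Finset.sum_le_sum fun i _ => ?_)
          rw [abs_mul]
          exact mul_le_mul_of_nonneg_left (h.1 j i) (abs_nonneg _)
        have b2 : |∑ i, ∑ j, y i * y j * K ω i j| ≤ (∑ i, ∑ j, |y i * y j|) * N := by
          rw [Finset.sum_mul]
          refine (Finset.abs_sum_le_sum_abs _ _).trans (Finset.sum_le_sum fun i _ => ?_)
          rw [Finset.sum_mul]
          refine (Finset.abs_sum_le_sum_abs _ _).trans (Finset.sum_le_sum fun j _ => ?_)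
          rw [abs_mul]
          exact mul_le_mul_of_nonneg_left (h.1 i j) (abs_nonneg _)
        have b3 : |G y ω| ≤ Real.exp ((∑ i, ∑ j, |y i * y j|) * N) := by
          simp only [hG]
          rw [abs_of_pos (Real.exp_pos _)]
          refine Real.exp_le_exp.mpr ?_
          have := abs_le.mp b2
          have b0 := (abs_nonneg _).trans b2
          linarith
        exact mul_le_mul b1 b3 (abs_nonneg _) hs0
      · rw [Set.indicator_of_notMem h, abs_zero]
        exact mul_nonneg hs0 (Real.exp_pos _).le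
    have hLGm : ∀ y j, Measurable[Env] (E.indicator fun ω => L y j ω * G y ω) := by
      intro y j
      exact ((hLm y j).mul (hGm y)).indicator (hEN N)
    have hLGI : ∀ y j, Integrable (E.indicator fun ω => L y j ω * G y ω) P := fun y j =>
      Integrable.of_bound ((hLGm y j).mono hEm le_rfl).aestronglyMeasurable
        ((∑ i, |y i|) * N * Real.exp ((∑ i, ∑ j, |y i * y j|) * N))
        (Eventually.of_forall fun ω => hLG y j ω)
    -- the residual
    set R : Ω → ℝ := E.indicator fun ω => V ω o - ∑ i, ℓ ω i * V ω i with hR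
    have hRe : ∀ ω, R ω = E.indicator (fun ω => V ω o) ω - ∑ i, ℓ' i ω * V ω i := by
      intro ω
      by_cases h : ω ∈ E
      · simp only [hR, hℓ', Set.indicator_of_mem h]
      · simp only [hR, hℓ', Set.indicator_of_notMem h, zero_mul, Finset.sum_const_zero, sub_zero]
    have hℓVI : ∀ i, Integrable (fun ω => ℓ' i ω * V ω i) P := fun i =>
      (hVi i).bdd_mul (c := N) ((hℓ'm i).mono hEm le_rfl).aestronglyMeasurable
        (Eventually.of_forall fun ω => hℓ'b i ω)
    have hRI : Integrable R P := by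
      have h1 : Integrable (fun ω => E.indicator (fun ω => V ω o) ω - ∑ i, ℓ' i ω * V ω i) P :=
        ((hVi o).indicator hE0).sub (integrable_finsetSum _ fun i _ => hℓVI i)
      exact h1.congr (Eventually.of_forall fun ω => (hRe ω).symm)
    -- weighted integrals
    have hsinD : ∀ D, MeasurableSet[FX] D → ∀ y : ι → ℝ, y o = 0 →
        ∫ ω in D, R ω * Real.sin (A y ω) ∂P = 0 := by
      intro D hD y hy
      have e1 : ∀ ω, R ω * Real.sin (A y ω) =
          E.indicator (fun ω => V ω o * Real.sin (A y ω)) ω -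
            ∑ i, ℓ' i ω * E.indicator (fun ω => V ω i * Real.sin (A y ω)) ω := by
        intro ω
        by_cases h : ω ∈ E
        · simp only [hR, hℓ', Set.indicator_of_mem h, sub_mul, Finset.sum_mul, mul_assoc]
        · simp only [hR, hℓ', Set.indicator_of_notMem h, zero_mul, Finset.sum_const_zero,
            sub_zero]
      have hwI : ∀ i, Integrable (fun ω => ℓ' i ω *
          E.indicator (fun ω => V ω i * Real.sin (A y ω)) ω) P := fun i =>
        (hVsI y i).bdd_mul (c := N) ((hℓ'm i).mono hEm le_rfl).aestronglyMeasurable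
          (Eventually.of_forall fun ω => hℓ'b i ω)
      have hwI2 : ∀ i, Integrable (fun ω => ℓ' i ω *
          E.indicator (fun ω => L y i ω * G y ω) ω) P := fun i =>
        (hLGI y i).bdd_mul (c := N) ((hℓ'm i).mono hEm le_rfl).aestronglyMeasurable
          (Eventually.of_forall fun ω => hℓ'b i ω)
      have hw : ∀ i, ∫ ω in D, ℓ' i ω * E.indicator (fun ω => V ω i * Real.sin (A y ω)) ω ∂P =
          ∫ ω in D, ℓ' i ω * E.indicator (fun ω => L y i ω * G y ω) ω ∂P := fun i =>
        setIntegral_mul_of_forall hFX (hVsI y i) (hLGI y i)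
          ((hLGm y i).mono hEF le_rfl).stronglyMeasurable (fun D hD => (hder D hD y i).1)
          ((hℓ'm i).mono hEF le_rfl).stronglyMeasurable (hℓ'b i) hD
      rw [setIntegral_congr_fun (hFX D hD) fun ω _ => e1 ω, integral_sub
        (hVsI y o).integrableOn (integrable_finsetSum _ fun i _ => (hwI i).integrableOn),
        integral_finsetSum _ fun i _ => (hwI i).integrableOn, (hder D hD y o).1,
        Finset.sum_congr rfl fun i _ => hw i, ← integral_finsetSum _ fun i _ =>
          (hwI2 i).integrableOn, ← integral_sub (hLGI y o).integrableOn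
          (integrable_finsetSum _ fun i _ => (hwI2 i).integrableOn)]
      refine (setIntegral_congr_ae (g := fun _ => (0 : ℝ)) (hFX D hD) ?_).trans (by simp)
      filter_upwards [hreg] with ω hω _
      by_cases h : ω ∈ E
      · simp only [hℓ', Set.indicator_of_mem h]
        have e2 : L y o ω = ∑ i, ℓ ω i * L y i ω := by
          simp only [hL, Finset.mul_sum]
          rw [Finset.sum_comm]
          refine Finset.sum_congr rfl fun j _ => ?_
          by_cases hj : j = o
          · subst hj; simp [hy]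
          · rw [hω j hj, Finset.mul_sum]
            exact Finset.sum_congr rfl fun i _ => by ring
        rw [e2, Finset.sum_mul, ← Finset.sum_sub_distrib]
        exact Finset.sum_eq_zero fun i _ => by ring
      · simp only [Set.indicator_of_notMem h, mul_zero, Finset.sum_const_zero, sub_zero]
    have hcosD : ∀ D, MeasurableSet[FX] D → ∀ y : ι → ℝ,
        ∫ ω in D, R ω * Real.cos (A y ω) ∂P = 0 := by
      intro D hD y
      have e1 : ∀ ω, R ω * Real.cos (A y ω) =
          E.indicator (fun ω => V ω o * Real.cos (A y ω)) ω -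
            ∑ i, ℓ' i ω * E.indicator (fun ω => V ω i * Real.cos (A y ω)) ω := by
        intro ω
        by_cases h : ω ∈ E
        · simp only [hR, hℓ', Set.indicator_of_mem h, sub_mul, Finset.sum_mul, mul_assoc]
        · simp only [hR, hℓ', Set.indicator_of_notMem h, zero_mul, Finset.sum_const_zero,
            sub_zero]
      have hwI : ∀ i, Integrable (fun ω => ℓ' i ω *
          E.indicator (fun ω => V ω i * Real.cos (A y ω)) ω) P := fun i =>
        (hVcI y i).bdd_mul (c := N) ((hℓ'm i).mono hEm le_rfl).aestronglyMeasurable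
          (Eventually.of_forall fun ω => hℓ'b i ω)
      have hw : ∀ i, ∫ ω in D, ℓ' i ω * E.indicator (fun ω => V ω i * Real.cos (A y ω)) ω ∂P =
          ∫ ω in D, ℓ' i ω * (fun _ => (0 : ℝ)) ω ∂P := fun i =>
        setIntegral_mul_of_forall hFX (hVcI y i) (integrable_const 0)
          stronglyMeasurable_const (fun D hD => (hder D hD y i).2)
          ((hℓ'm i).mono hEF le_rfl).stronglyMeasurable (hℓ'b i) hD
      rw [setIntegral_congr_fun (hFX D hD) fun ω _ => e1 ω, integral_sub
        (hVcI y o).integrableOn (integrable_finsetSum _ fun i _ => (hwI i).integrableOn),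
        integral_finsetSum _ fun i _ => (hwI i).integrableOn, (hder D hD y o).2,
        Finset.sum_congr rfl fun i _ => hw i]
      simp
    -- conditional expectation given `FX ⊔ σ(erase V o)`
    have hAe : ∀ x : ι → ℝ, ∀ ω, ∑ i, x i * erase V o ω i =
        A (fun i => if i = o then 0 else x i) ω := by
      intro x ω
      simp only [hA, erase]
      refine Finset.sum_congr rfl fun i _ => ?_
      by_cases h : i = o <;> simp [h]
    have hcond : P[R | FX ⊔ MeasurableSpace.comap (erase V o) inferInstance] =ᵐ[P]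
        fun _ => (0 : ℝ) := by
      refine condExp_sup_eq hFX hVe.comap_le hRI (integrable_const 0) stronglyMeasurable_const ?_
      rintro D S hD ⟨S', hS', rfl⟩
      have hDm := hFX D hD
      have h := integral_zero_of_fourier (P := P) hVe (R := D.indicator R) (hRI.indicator hDm)
        (fun x => by
          have h1 := hcosD D hD (fun i => if i = o then 0 else x i)
          rw [← h1, ← integral_indicator hDm]
          refine integral_congr_ae (Eventually.of_forall fun ω => ?_)
          simp only [hAe x ω]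
          by_cases h : ω ∈ D <;> simp [h])
        (fun x => by
          have h1 := hsinD D hD (fun i => if i = o then 0 else x i) (by simp)
          rw [← h1, ← integral_indicator hDm]
          refine integral_congr_ae (Eventually.of_forall fun ω => ?_)
          simp only [hAe x ω]
          by_cases h : ω ∈ D <;> simp [h]) hS'
      rw [setIntegral_indicator hDm] at h
      rw [Set.inter_comm D, h]
      simp
    have hcondC : P[R | C] =ᵐ[P] fun _ => (0 : ℝ) := by
      have h1 : P[P[R | FX ⊔ MeasurableSpace.comap (erase V o) inferInstance] | C] =ᵐ[P]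
          P[R | C] := condExp_condExp_of_le hC (sup_le hFX hVe.comap_le)
      have h2 : P[P[R | FX ⊔ MeasurableSpace.comap (erase V o) inferInstance] | C] =ᵐ[P]
          P[fun _ => (0 : ℝ) | C] := condExp_congr_ae hcond
      rw [condExp_const hCm] at h2
      exact h1.symm.trans h2
    -- pull out the weights
    have h1 : P[R | C] =ᵐ[P] P[E.indicator (fun ω => V ω o) | C] -
        P[fun ω => ∑ i, ℓ' i ω * V ω i | C] := by
      have e : R = E.indicator (fun ω => V ω o) - fun ω => ∑ i, ℓ' i ω * V ω i :=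
        funext fun ω => hRe ω
      rw [e]
      exact condExp_sub ((hVi o).indicator hE0) (integrable_finsetSum _ fun i _ => hℓVI i) C
    have h2 : P[E.indicator (fun ω => V ω o) | C] =ᵐ[P]
        E.indicator (P[fun ω => V ω o | C]) := condExp_indicator (hVi o) hEC'
    have h3 : P[fun ω => ∑ i, ℓ' i ω * V ω i | C] =ᵐ[P]
        ∑ i, P[fun ω => ℓ' i ω * V ω i | C] := by
      have e : (fun ω => ∑ i, ℓ' i ω * V ω i) = ∑ i, fun ω => ℓ' i ω * V ω i := by
        funext ω; simp
      rw [e]
      exact condExp_finsetSum (fun i _ => hℓVI i) C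
    have h4 : ∀ i, P[fun ω => ℓ' i ω * V ω i | C] =ᵐ[P] ℓ' i * P[fun ω => V ω i | C] := fun i =>
      condExp_mul_of_stronglyMeasurable_left ((hℓ'm i).mono hEC le_rfl).stronglyMeasurable
        (hℓVI i) (hVi i)
    have h4' : ∀ᵐ ω ∂P, ∀ i, (P[fun ω => ℓ' i ω * V ω i | C]) ω =
        ℓ' i ω * (P[fun ω => V ω i | C]) ω := by
      rw [ae_all_iff]
      intro i
      filter_upwards [h4 i] with ω h
      rw [h]; rfl
    filter_upwards [hcondC, h1, h2, h3, h4'] with ω q0 q1 q2 q3 q4 hω
    rw [q1, Pi.sub_apply, q2, q3, Finset.sum_apply, Set.indicator_of_mem hω] at q0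
    rw [sub_eq_zero] at q0
    rw [q0]
    refine Finset.sum_congr rfl fun i _ => ?_
    rw [q4 i]
    simp only [hℓ', Set.indicator_of_mem hω]
  have hall := ae_all_iff.mpr main
  filter_upwards [hall] with ω hω
  obtain ⟨N, hN⟩ := hcov ω
  exact hω N hN

end Crest.Agent.R166.Mart663
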