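import Crest.Agent.R166.MartF_663

/-!
# Row 166, sections 42.1-42.3: vanishing increments for the limit process (helper663)
-/

set_option autoImplicit false

noncomputable section

open MeasureTheory ProbabilityTheory Filter
open scoped ENNReal

namespace Crest.Agent.R166.Mart663

open Crest.Agent.R166.B2 Crest.Agent.R166.Cav942 Crest.Agent.R166.L2_942

variable {Ω : Type*} {C Env FX : MeasurableSpace Ω} [mΩ : MeasurableSpace Ω]
    {d k : ℕ} {s E t ρ : ℝ} {P : Measure Ω} {pp rr : Ω → Ω} {om : Ω → ℝ} {cav : Ω → ℂ}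
    {X Z : Ω → Fin k → ℝ}

omit mΩ in
lemma mv_zero (h : Ω) : mv pp rr 0 h = pp h := rfl

omit mΩ in
/-- the star algebra as a supremum -/
lemma starAlg_eq (Env : MeasurableSpace Ω) (d : ℕ) (t : ℝ) (pp rr : Ω → Ω)
    (X Z : Ω → Fin k → ℝ) :
    starAlg Env d t pp rr X Z = Env ⊔ ⨆ a : St d,
      (inferInstance : MeasurableSpace (Fin k → ℝ)).comap (fun h => YY t X Z (sv pp rr d h a)) := by
  unfold starAlg
  congr 1
  have h1 : (inferInstance : MeasurableSpace (St d → Fin k → ℝ)) =
      ⨆ a : St d, (inferInstance : MeasurableSpace (Fin k → ℝ)).comap (fun f => f a) := rfl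
  rw [h1, MeasurableSpace.comap_iSup]
  refine iSup_congr fun a => ?_
  rw [MeasurableSpace.comap_comp]
  rfl

omit mΩ in
lemma edgeAlg_eq (Env : MeasurableSpace Ω) (t : ℝ) (pp : Ω → Ω) (X Z : Ω → Fin k → ℝ) :
    edgeAlg Env t pp X Z = Env ⊔ ((inferInstance : MeasurableSpace (Fin k → ℝ)).comap
      (YY t X Z) ⊔ (inferInstance : MeasurableSpace (Fin k → ℝ)).comap
        (fun h => YY t X Z (pp h))) := by
  unfold edgeAlg
  congr 1
  exact MeasurableSpace.comap_prodMk (YY t X Z) fun h => YY t X Z (pp h)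

lemma comap_sB [NeZero d] (L : LimProc Env FX d k s E t ρ P pp rr om cav X Z) :
    ((gr L).sB (YY t X Z) Env).comap pp = edgeAlg Env t pp X Z := by
  rw [edgeAlg_eq]
  unfold Graphing.sB
  simp only [MeasurableSpace.comap_sup, MeasurableSpace.comap_comp, comap_pp L]
  have e1 : (fun x => YY t X Z ((gr L).pp x)) ∘ pp = YY t X Z := by
    funext x
    show YY t X Z (pp (pp x)) = _
    rw [L.pp_pp]
  have e2 : YY t X Z ∘ pp = fun h => YY t X Z (pp h) := rfl
  rw [e1, e2, sup_assoc, sup_comm (MeasurableSpace.comap (fun h => YY t X Z (pp h)) _)]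

lemma sB_eq [NeZero d] (L : LimProc Env FX d k s E t ρ P pp rr om cav X Z) :
    (gr L).sB (YY t X Z) Env = edgeAlg Env t pp X Z := by
  rw [edgeAlg_eq]
  unfold Graphing.sB
  rw [sup_assoc]
  rfl

lemma comap_sA [NeZero d] (L : LimProc Env FX d k s E t ρ P pp rr om cav X Z) :
    ((gr L).sA (YY t X Z) Env).comap pp = starAlg Env d t pp rr X Z := by
  unfold Graphing.sA
  rw [MeasurableSpace.comap_sup, comap_sB L, starAlg_eq, edgeAlg_eq]
  simp only [MeasurableSpace.comap_iSup, MeasurableSpace.comap_comp]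
  have e : ∀ a : ZMod d, (fun x => YY t X Z ((gr L).pp ((gr L).rot a ((gr L).pp x)))) ∘ pp =
      fun h => YY t X Z (mv pp rr a.val h) := by
    intro a
    funext x
    show YY t X Z (pp (rr^[a.val] (pp (pp x)))) = _
    rw [L.pp_pp]
    rfl
  simp only [e]
  apply le_antisymm
  · refine sup_le (sup_le le_sup_left (sup_le ?_ ?_)) (iSup₂_le fun a ha => ?_)
    · exact le_trans (le_iSup (fun a : St d =>
        (inferInstance : MeasurableSpace (Fin k → ℝ)).comap (fun h => YY t X Z (sv pp rr d h a)))
        none) le_sup_right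
    · exact le_trans (le_iSup (fun a : St d =>
        (inferInstance : MeasurableSpace (Fin k → ℝ)).comap (fun h => YY t X Z (sv pp rr d h a)))
        (some ⟨0, NeZero.pos d⟩)) le_sup_right
    · exact le_trans (le_iSup (fun a : St d =>
        (inferInstance : MeasurableSpace (Fin k → ℝ)).comap (fun h => YY t X Z (sv pp rr d h a)))
        (some ⟨a.val, ZMod.val_lt a⟩)) le_sup_right
  · refine sup_le (le_sup_left.trans le_sup_left) (iSup_le fun a => ?_)
    match a with
    | none => exact le_sup_left.trans (le_sup_right.trans le_sup_left)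
    | some i =>
      by_cases hi : (i : ℕ) = 0
      · have e2 : (fun h => YY t X Z (sv pp rr d h (some i))) = fun h => YY t X Z (pp h) := by
          funext h
          simp only [sv, hi, mv_zero]
        rw [e2]
        exact le_sup_right.trans (le_sup_right.trans le_sup_left)
      · have hval : ((i : ℕ) : ZMod d).val = i := ZMod.val_cast_of_lt i.2
        have hne : ((i : ℕ) : ZMod d) ≠ 0 := by
          intro h0
          rw [h0, ZMod.val_zero] at hval
          exact hi hval.symm
        have e2 : (fun h => YY t X Z (sv pp rr d h (some i))) =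
            fun h => YY t X Z (mv pp rr ((i : ℕ) : ZMod d).val h) := by
          funext h
          simp only [sv, hval]
        rw [e2]
        exact le_trans (le_iSup₂ (f := fun (a : ZMod d) (_ : a ≠ 0) =>
          (inferInstance : MeasurableSpace (Fin k → ℝ)).comap
            (fun h => YY t X Z (mv pp rr a.val h))) ((i : ℕ) : ZMod d) hne) le_sup_right

/-- the values behind the base vertex of `pp h` -/
@[reducible] def farAlg (d : ℕ) (t : ℝ) (pp rr : Ω → Ω) (X Z : Ω → Fin k → ℝ) :
    MeasurableSpace Ω :=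
  ⨆ w : {w : List ℕ // OutW d w},
    MeasurableSpace.comap (fun h => YY t X Z (wd pp rr w.1 (pp h))) inferInstance

/-- the values behind the base vertex of `h` -/
@[reducible] def nearAlg (d : ℕ) (t : ℝ) (pp rr : Ω → Ω) (X Z : Ω → Fin k → ℝ) :
    MeasurableSpace Ω :=
  ⨆ w : {w : List ℕ // OutW d w},
    MeasurableSpace.comap (fun h => YY t X Z (wd pp rr w.1 h)) inferInstance

/-- the Markov hypothesis of the abstract theorem -/
lemma hM_of [NeZero d] (L : LimProc Env FX d k s E t ρ P pp rr om cav X Z) (f : Ω → ℝ)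
    (hf : Integrable f P) (hfm : StronglyMeasurable[(gr L).sA (YY t X Z) Env] f) :
    P[f | (gr L).sG (YY t X Z) Env] =ᵐ[P] P[f | (gr L).sB (YY t X Z) Env] := by
  classical
  have := L.prob
  have hYm := measurable_YY L
  have hEm : Env ≤ mΩ := L.Env_le.trans L.FX_le
  have hwd : ∀ w : List ℕ, Measurable (wd pp rr w) := by
    intro w
    induction w with
    | nil => exact measurable_id
    | cons j w ih => exact ih.comp (mp_mv L j).measurable
  have hS1 : (farAlg d t pp rr X Z) ≤ mΩ := iSup_le fun w =>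
    (hYm.comp ((hwd w.1).comp L.pp_mp.measurable)).comap_le
  have hS2 : (nearAlg d t pp rr X Z) ≤ mΩ := iSup_le fun w => (hYm.comp (hwd w.1)).comap_le
  have hBm : edgeAlg Env t pp X Z ≤ mΩ := by
    rw [← sB_eq L]
    exact (gr L).sB_le hEm hYm
  have hprod : ∀ s1 s2, MeasurableSet[(farAlg d t pp rr X Z)] s1 → MeasurableSet[(nearAlg d t pp rr X Z)] s2 →
      P[(s1 ∩ s2).indicator fun _ => (1 : ℝ) | edgeAlg Env t pp X Z] =ᵐ[P]
        P[s1.indicator fun _ => (1 : ℝ) | edgeAlg Env t pp X Z] *
          P[s2.indicator fun _ => (1 : ℝ) | edgeAlg Env t pp X Z] := by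
    intro s1 s2 h1 h2
    have h := L.markov (s2.indicator fun _ => (1 : ℝ)) (s1.indicator fun _ => (1 : ℝ))
      ⟨1, fun x => ind_bound x⟩ ⟨1, fun x => ind_bound x⟩
      ((@measurable_const ℝ Ω _ (nearAlg d t pp rr X Z) 1).indicator h2)
      ((@measurable_const ℝ Ω _ (farAlg d t pp rr X Z) 1).indicator h1)
    have e : (fun h => s2.indicator (fun _ => (1 : ℝ)) h * s1.indicator (fun _ => (1 : ℝ)) h) =
        (s1 ∩ s2).indicator fun _ => (1 : ℝ) := by
      funext x
      by_cases hx : x ∈ s1 <;> by_cases hx2 : x ∈ s2 <;> simp [hx, hx2]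
    rw [e] at h
    refine h.trans (Eventually.of_forall fun x => ?_)
    simp only [Pi.mul_apply]
    rw [mul_comm]
  have hA_le : (gr L).sA (YY t X Z) Env ≤ edgeAlg Env t pp X Z ⊔ (farAlg d t pp rr X Z) := by
    refine sup_le ((sB_eq L).le.trans le_sup_left) (iSup₂_le fun a ha => ?_)
    have hout : OutW d [a.val] := by
      intro j hj
      rw [List.mem_singleton] at hj
      subst hj
      refine ⟨?_, ZMod.val_lt a⟩
      rw [Nat.one_le_iff_ne_zero, Ne, ZMod.val_eq_zero]
      exact ha
    exact le_trans (le_iSup (fun w : {w : List ℕ // OutW d w} =>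
      MeasurableSpace.comap (fun h => YY t X Z (wd pp rr w.1 (pp h))) inferInstance)
      ⟨[a.val], hout⟩) le_sup_right
  have hG_le : (gr L).sG (YY t X Z) Env ≤ edgeAlg Env t pp X Z ⊔ (nearAlg d t pp rr X Z) := by
    refine sup_le ((sB_eq L).le.trans le_sup_left) (iSup_le fun w => ?_)
    have e : (fun x => YY t X Z ((gr L).inv w.1 x)) =
        fun x => YY t X Z (wd pp rr (word (eW.symm w)) x) := by
      funext x
      rw [inv_eq L, pos_eq_wd]
    rw [e]
    exact le_trans (le_iSup (fun w : {w : List ℕ // OutW d w} =>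
      MeasurableSpace.comap (fun h => YY t X Z (wd pp rr w.1 h)) inferInstance)
      ⟨word (eW.symm w), outW_word _⟩) le_sup_right
  have key := condExp_sup_of_condIndep (P := P) hBm hS1 hS2 hprod hf (hfm.mono hA_le)
  have hGS : edgeAlg Env t pp X Z ⊔ (nearAlg d t pp rr X Z) ≤ mΩ := sup_le hBm hS2
  have h1 : P[P[f | edgeAlg Env t pp X Z ⊔ (nearAlg d t pp rr X Z)] | (gr L).sG (YY t X Z) Env] =ᵐ[P]
      P[f | (gr L).sG (YY t X Z) Env] := condExp_condExp_of_le hG_le hGS
  have h2 : P[P[f | edgeAlg Env t pp X Z ⊔ (nearAlg d t pp rr X Z)] | (gr L).sG (YY t X Z) Env] =ᵐ[P]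
      P[P[f | edgeAlg Env t pp X Z] | (gr L).sG (YY t X Z) Env] := condExp_congr_ae key
  have h3 : P[P[f | edgeAlg Env t pp X Z] | (gr L).sG (YY t X Z) Env] =
      P[f | edgeAlg Env t pp X Z] := by
    refine condExp_of_stronglyMeasurable ((gr L).sG_le hEm hYm) ?_ integrable_condExp
    refine stronglyMeasurable_condExp.mono ?_
    rw [← sB_eq L]
    exact (gr L).sB_le_sG (YY t X Z) Env
  rw [h3] at h2
  rw [sB_eq L]
  exact h1.symm.trans h2

/-- regression in the orientation of the abstract theorem -/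
lemma reg' [NeZero d] (L : LimProc Env FX d k s E t ρ P pp rr om cav X Z)
    (w : List (KK d)) (l : Fin k) (hEC : Env ≤ C)
    (hC : C.comap pp ≤ starAlg Env d t pp rr X Z) (hCm : C ≤ mΩ) :
    P[fun h => Z (pos pp rr w h) l | C] =ᵐ[P] fun h =>
      l1c (cw pp rr cav h) w * (P[fun h => Z h l | C]) h +
      l2c (cw pp rr cav h) w * (P[fun h => Z (pp h) l | C]) h := by
  have := L.prob
  have hZ := (memLp_Z L l).integrable (by norm_num)
  have hZp : Integrable (fun h => Z (pp h) l) P := L.pp_mp.integrable_comp_of_integrable hZ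
  have hZw : Integrable (fun h => Z (pos pp rr w h) l) P :=
    (mp_pos L w).integrable_comp_of_integrable hZ
  have hEC' : Env ≤ C.comap pp := by
    calc Env = Env.comap pp := (comap_pp L).symm
      _ ≤ C.comap pp := MeasurableSpace.comap_mono hEC
  have h := reg L w l hEC' hC
  -- compose with `pp`
  have hcomp := L.pp_mp.quasiMeasurePreserving.ae_eq_comp h
  have hCC : (C.comap pp).comap pp = C := by
    rw [MeasurableSpace.comap_comp]
    have : pp ∘ pp = id := funext L.pp_pp
    rw [this, MeasurableSpace.comap_id]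
  have a1 := condExp_comp_mp L.pp_mp hCm hZw
  have a2 := condExp_comp_mp L.pp_mp hCm hZ
  have a3 := condExp_comp_mp L.pp_mp hCm hZp
  have e3 : (fun h => Z (pp h) l) ∘ pp = fun h => Z h l := by
    funext h
    simp only [Function.comp, L.pp_pp]
  rw [e3] at a3
  have e2 : (fun h => Z h l) ∘ pp = fun h => Z (pp h) l := rfl
  rw [e2] at a2
  have e1 : (fun h => Z (pos pp rr w h) l) ∘ pp = fun h => Z (pos pp rr w (pp h)) l := rfl
  rw [e1] at a1
  have b1 := L.pp_mp.quasiMeasurePreserving.ae_eq_comp a1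
  have b2 := L.pp_mp.quasiMeasurePreserving.ae_eq_comp a2
  have b3 := L.pp_mp.quasiMeasurePreserving.ae_eq_comp a3
  filter_upwards [hcomp, b1, b2, b3] with x hx x1 x2 x3
  simp only [Function.comp, L.pp_pp] at hx x1 x2 x3
  rw [x1, x2, x3] at hx
  exact hx

/-- **vanishing increments** (42.1-42.3). -/
theorem tauZero (L : LimProc Env FX d k s E t ρ P pp rr om cav X Z) :
    TauZero Env d k t P pp rr X Z := by
  intro l
  have := L.prob
  have hd0 : d ≠ 0 := by have := L.hd; omega
  have : NeZero d := ⟨hd0⟩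
  have hEm : Env ≤ mΩ := L.Env_le.trans L.FX_le
  have hYm := measurable_YY L
  have hsA := (gr L).sA_le hEm hYm
  have hsB := (gr L).sB_le hEm hYm
  have hEA : Env ≤ (gr L).sA (YY t X Z) Env :=
    le_trans (le_trans le_sup_left le_sup_left) ((gr L).sB_le_sA (YY t X Z) Env)
  have hEB : Env ≤ (gr L).sB (YY t X Z) Env := le_trans le_sup_left le_sup_left
  have hZ := memLp_Z L l
  have hZi := hZ.integrable (by norm_num)
  have hZp : Integrable (fun h => Z (pp h) l) P := L.pp_mp.integrable_comp_of_integrable hZi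
  have hAle : ((gr L).sA (YY t X Z) Env).comap pp ≤ starAlg Env d t pp rr X Z :=
    (comap_sA L).le
  have hBle : ((gr L).sB (YY t X Z) Env).comap pp ≤ starAlg Env d t pp rr X Z := by
    rw [← comap_sA L]
    exact MeasurableSpace.comap_mono ((gr L).sB_le_sA (YY t X Z) Env)
  have main := (gr L).increments_vanish (Y := YY t X Z) hEm (comap_pp L) (comap_rot L) hYm
    (fun a x => YY_iter L a.val x) hZ (hM_of L)
    (fun w h => l1c (cw pp rr cav h) (eW.symm w)) (fun w h => l2c (cw pp rr cav h) (eW.symm w))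
    (by
      intro w
      have e : (fun x => Z ((gr L).inv w.1 x) l) = fun x => Z (pos pp rr (eW.symm w) x) l := by
        funext x
        rw [inv_eq L]
      rw [e]
      filter_upwards [reg' L (eW.symm w) l hEA hAle hsA, reg' L (eW.symm w) l hEB hBle hsB]
        with x h1 h2
      rw [Pi.sub_apply, h1, h2]
      simp only [gr]
      ring)
    (by
      filter_upwards [C1 L] with x hx a b hs
      refine hx a b ?_
      have h1 := (Equiv.summable_iff (eW (d := d))).mpr hs
      refine h1.congr fun w => ?_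
      simp only [Function.comp, Equiv.symm_apply_apply])
  obtain ⟨m1, m2⟩ := main
  have a1 := condExp_comp_mp L.pp_mp hsA hZi
  have a2 := condExp_comp_mp L.pp_mp hsB hZi
  have a3 := condExp_comp_mp L.pp_mp hsA hZp
  have a4 := condExp_comp_mp L.pp_mp hsB hZp
  have e3 : (fun h => Z (pp h) l) ∘ pp = fun h => Z h l := by
    funext h
    simp only [Function.comp, L.pp_pp]
  have e2 : (fun h => Z h l) ∘ pp = fun h => Z (pp h) l := rfl
  rw [comap_sA L, e2] at a1
  rw [comap_sB L, e2] at a2
  rw [comap_sA L, e3] at a3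
  rw [comap_sB L, e3] at a4
  have c1 := L.pp_mp.quasiMeasurePreserving.ae_eq_comp m1
  have c2 := L.pp_mp.quasiMeasurePreserving.ae_eq_comp m2
  exact ⟨a3.trans (c2.trans a4.symm), a1.trans (c1.trans a2.symm)⟩

/-- **Stmt_tau**. -/
theorem stmt_tau : Stmt_tau := by
  intro Ω Env FX _ d k s E t ρ P pp rr om cav X Z L
  exact tauZero L

end Crest.Agent.R166.Mart663
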