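import Crest.Agent.R166.Master_423
import Crest.Agent.R166.EnvDet_536
import Crest.Agent.R166.GoeInv_93
import Crest.Agent.R166.StepFin_395
import Crest.Agent.R166.CleanOut4_501
import Crest.Agent.R166.T8_355

/-!
Row 166, section 81: master composition, part 2 (helper423): landed Props plugged in
(EnvDet 536, InvO 93, Theorem A 395/598/269/789/811/383, clean outputs 501).
-/

set_option autoImplicit false

namespace Crest.Agent.R166.Master423

open MeasureTheory ProbabilityTheory Crest.ProbabilityR.RandomMatrix Crest.Agent.R166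
open Crest.Agent.R166.Asm423

theorem stmtEnv : StmtEnv := fun d s E hd _ => Env536.envDet d (by omega) s E

theorem invO : InvO := GoeInv93.invO Goe583.imLimO

/-- 566's output (31.4) -/
def StmtUni : Prop :=
  ∀ (d : ℕ) [NeZero d], 3 ≤ d → ∀ E : ℝ, E ^ 2 < 4 * ((d : ℝ) - 1) →
    ∃ L : ℕ, Clean566.UniEsc d E (Out501.excTL d L)

theorem stmt31_of (h : StmtUni) : Stmt31 := by
  intro d E hd hE
  have : NeZero d := ⟨by omega⟩
  obtain ⟨L, hL⟩ := h d hd E hE
  obtain ⟨h1, h2, h3, h4, h5, h6⟩ := Out501.outputs_of hd hE (StepFin395.thmA hd) hL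
  exact ⟨h1, h2, h3, h5, h4, h6⟩

/-- Theorem B (owner 980) -/
def StmtB : Prop :=
  ∀ (d : ℕ) (s E ρ : ℝ), 3 ≤ d → 0 ≤ s → 0 < ρ → ImLim d s E ρ → ImFix d s E ρ →
    LocLim d s E → NoEsc d s E → NonDeg d s E → ThmB d s E ρ

theorem stmtB0_of (h : StmtB) : StmtB0 :=
  fun d E hd hE h1 h2 h3 h4 h5 _ => h d 0 E _ hd le_rfl (kestenMcKay_pos hd hE) h1 h2 h3 h5 h4

theorem stmtBs_of (h : StmtB) : StmtBs :=
  fun d hd _ _ => ⟨1, one_pos, fun s hs _ E ρ _ hρ _ h1 h2 h3 h4 h5 =>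
    h d s E ρ hd hs.le hρ h1 h2 h3 h5 h4⟩

theorem s0251' (h50 : Stmt50) (hU : StmtUni) (hB : StmtB)
    (d : ℕ) (hd : 3 ≤ d) (E : ℝ) (hE : E ^ 2 < 4 * ((d : ℝ) - 1))
    (h : ℝ → ℝ) (hcont : Continuous h) (hsupp : HasCompactSupport h) (hpos : ∀ t, 0 ≤ h t) :
    ∀ ε : ℝ, 0 < ε → ∃ N : ℕ, ∀ n : ℕ, N ≤ n → (regularGraphs n d).Nonempty →
      |regularAverage n d (fun G => adjLaplaceWeight G
          (unfoldAt h (n * kestenMcKayDensity d E) E)) -
          ∫ g, goeLaplaceWeight g (unfoldAt h (n / Real.pi) 0) ∂goeDisorderLaw n| < ε :=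
  s0251 h50 stmtEnv (stmt31_of hU) (stmtB0_of hB) invO d hd E hE h hcont hsupp hpos

end Crest.Agent.R166.Master423
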