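import Crest.Agent.R166.Audit_383
import Crest.Agent.R166.InvG3_348
import Crest.Agent.R166.InvK_988

/-!
Row 166, section 81: master composition, part 3 (helper423): section 50 plugged in (348, 988, 286,
341, 424, 780).
-/

set_option autoImplicit false

namespace Crest.Agent.R166.Master423

open MeasureTheory ProbabilityTheory Crest.ProbabilityR.RandomMatrix Crest.Agent.R166

theorem stmt50 : Stmt50 := fun _ _ _ _ hd hρ hEnv hIm hLoc hNd hB =>
  InvG348.invG (by omega) hρ hEnv hLoc hNd (Inv988.keyCmp (by omega) hρ hB hIm hLoc)

end Crest.Agent.R166.Master423
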