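import Crest.Agent.R166.Spine_419
import Crest.Agent.R166.Stab_269
import Crest.Agent.R166.Multi_383
import Crest.Agent.R166.Dec_598

/-!
# Row 166, SPEC A (sections 10, 20, 30, 31): shared definitions and the interface Props
between the modules (helper598, sub-captain A).
-/

set_option autoImplicit false

namespace Crest.Agent.R166.SpecA

open Crest.Agent.R166 Stab269 Crest.ProbabilityR.RandomMatrix

variable {n d : ℕ}

/-- distance of the cavity block of the half-edge `h` to the clean block `m I` -/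
noncomputable def dev (p : Equiv.Perm (HE n d)) (s : ℝ) (ω : Fin n → ℝ) (z : ℂ) (h : HE n d) : ℝ :=
  bnorm (B0 p s ω z h - mc d z • (1 : Matrix (Fin 2) (Fin 2) ℂ))

/-- capped deviation -/
noncomputable def Dv (rs : ℝ) (p : Equiv.Perm (HE n d)) (s : ℝ) (ω : Fin n → ℝ) (z : ℂ)
    (h : HE n d) : ℝ := min rs (dev p s ω z h)

/-- `V_G` -/
noncomputable def Vp (rs : ℝ) (p : Equiv.Perm (HE n d)) (s : ℝ) (ω : Fin n → ℝ) (z : ℂ) : ℝ :=
  (∑ h, Dv rs p s ω z h ^ 2) / (n * d : ℕ)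

/-- cutoff, `1` on `t ≤ 1`, `0` on `t ≥ 2` -/
noncomputable def chiA (t : ℝ) : ℝ := max 0 (min 1 (2 - t))

/-- `μ_G` (cut-off mean of the cavity value) -/
noncomputable def mup (rs : ℝ) (p : Equiv.Perm (HE n d)) (s : ℝ) (ω : Fin n → ℝ) (z : ℂ) : ℂ :=
  (∑ h, (B0 p s ω z h 0 0 - mc d z) * (chiA (2 * dev p s ω z h / rs) : ℂ)) / (n * d : ℕ)

/-- (30.4)+(30.5)+(30.6), output of 395/269/811/327/598/470, input of 383: one step at every
scale, uniformly in the energy in `[-A,A]`, the disorder (fixed `ω`) and the strength `s`. -/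
def StepA (d : ℕ) : Prop :=
  ∀ A : ℝ, 0 < A → A ^ 2 < 4 * ((d : ℝ) - 1) →
    ∃ rs C c s0 : ℝ, 0 < rs ∧ 0 < C ∧ 0 < c ∧ 0 < s0 ∧
      ∀ n : ℕ, 0 < n → ∃ err : Equiv.Perm (HE n d) → ℝ, (∀ p, 0 ≤ err p) ∧
        ∑ p ∈ Ports n d, err p ≤ C / n * (Ports n d).card ∧
        ∀ E s η : ℝ, |E| ≤ A → |s| ≤ s0 → 0 < η → η ≤ 1 →
          ∀ ω : Fin n → ℝ, (∀ v, |ω v| ≤ 1) →
            ∃ (gV : Equiv.Perm (HE n d) → ℝ) (gm : Equiv.Perm (HE n d) → ℂ),
              Multi383.Step (Ports n d) (fun p => Vp rs p s ω (ze E η)) gV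
                (fun p => mup rs p s ω (ze E η)) gm err
                (((d : ℂ) - 1) * mc d (ze E η) ^ 2) C c (1 / 4) (1 / (n * η)) s

open Classical in
/-- THEOREM A (30.8): `V_G ≤ C1 s² + δ` at all scales `η ∈ [K/n, 1]`, for every fixed `ω`, outside
a fraction `δ` of the port numbered graphs. -/
def ThmA (d : ℕ) : Prop :=
  ∀ A : ℝ, 0 < A → A ^ 2 < 4 * ((d : ℝ) - 1) →
    ∃ rs C1 s0 : ℝ, 0 < rs ∧ 0 < C1 ∧ 0 < s0 ∧
      ∀ δ : ℝ, 0 < δ → ∃ K0 : ℝ, 0 < K0 ∧ ∀ K : ℝ, K0 ≤ K → ∃ N : ℕ, ∀ n : ℕ, N ≤ n →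
        ∀ E s : ℝ, |E| ≤ A → |s| ≤ s0 → ∀ ω : Fin n → ℝ, (∀ v, |ω v| ≤ 1) →
          (((Ports n d).filter fun p => ∃ η : ℝ, K / n ≤ η ∧ η ≤ 1 ∧
            C1 * s ^ 2 + δ < Vp rs p s ω (ze E η)).card : ℝ) ≤ δ * (Ports n d).card

/-- `StepA → ThmA`: helper383/355 -/
def ThmAFromStep (d : ℕ) : Prop := StepA d → ThmA d

open Classical in
/-- non-tree-like vertex at radius `R`: two different non-backtracking words of length `≤ R` from
some half-edge at `v` lead to the same vertex (any equivalent notion with `E #exceptional ≤ C_R`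
may be substituted: keep it as a parameter). -/
def ExcSmall (d : ℕ) (exc : ∀ n : ℕ, Equiv.Perm (HE n d) → Fin n → Prop) : Prop :=
  ∃ C : ℝ, ∀ n : ℕ, ∑ p ∈ Ports n d, ((Finset.univ.filter fun v => exc n p v).card : ℝ) ≤
    C * (Ports n d).card

open Classical in
/-- (31.4) no escape of mass on the non-exceptional vertices (`s = 0`) -/
def NoEscNe (d : ℕ) (E : ℝ) (exc : ∀ n : ℕ, Equiv.Perm (HE n d) → Fin n → Prop) : Prop :=
  ∀ K : ℝ, 0 < K → ∀ ε : ℝ, 0 < ε → ∃ M : ℝ, ∃ N : ℕ, ∀ n : ℕ, N ≤ n →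
    (((Ports n d).filter fun p => ε < vAvg (fun v : Fin n =>
      if ¬ exc n p v ∧ M < ‖Res (Hm (graphOf p) 0 0) (zz E K n) v v‖ then
        ‖Res (Hm (graphOf p) 0 0) (zz E K n) v v‖ else 0)).card : ℝ) ≤ ε * (Ports n d).card

/-- (31.5), helper501: from non-exceptional to all vertices -/
def ExcUniq (d : ℕ) (E : ℝ) (exc : ∀ n : ℕ, Equiv.Perm (HE n d) → Fin n → Prop) : Prop :=
  ExcSmall d exc → NoEscNe d E exc → NoEsc d 0 E

/-- outputs of A for `s = 0` (helper501) -/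
def OutputsClean (d : ℕ) : Prop :=
  ThmA d → ∀ E : ℝ, E ^ 2 < 4 * ((d : ℝ) - 1) →
    ImLim d 0 E (kestenMcKayDensity d E) ∧ ImFix d 0 E (kestenMcKayDensity d E) ∧
      LocLim d 0 E ∧ NonDeg d 0 E ∧ ∀ r : ℝ, 0 < r → NearClean d 0 E r

end Crest.Agent.R166.SpecA
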