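import Crest.Agent.R166.Final2_423
import Crest.Agent.R166.Spec_D_350
import Crest.Agent.R166.SpecA_598

/-!
Row 166, section 81: master composition (helper423).

The remaining inputs of S0251 and S0252 as Props, and the two frozen statements from them.
-/

set_option autoImplicit false

namespace Crest.Agent.R166.Master423

open MeasureTheory ProbabilityTheory Crest.ProbabilityR.RandomMatrix Crest.Agent.R166
open Crest.Agent.R166.Asm423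

/-! ### Section 50 -/

/-- (50) final output of section 50 (owner 348): invariance on the graph side -/
def Stmt50 : Prop :=
  ∀ (d : ℕ) (s E ρ : ℝ), 3 ≤ d → 0 < ρ → EnvDet d s E → ImLim d s E ρ → LocLim d s E →
    NonDeg d s E → ThmB d s E ρ → InvG d s E ρ

/-- `EnvDet` (owner 536) -/
def StmtEnv : Prop := ∀ (d : ℕ) (s E : ℝ), 3 ≤ d → 0 ≤ s → EnvDet d s E

/-! ### Clean case -/

/-- local law outputs at `s = 0` (owners 598, 395, 501, 566) -/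
def Stmt31 : Prop :=
  ∀ (d : ℕ) (E : ℝ), 3 ≤ d → E ^ 2 < 4 * ((d : ℝ) - 1) →
    ImLim d 0 E (kestenMcKayDensity d E) ∧ ImFix d 0 E (kestenMcKayDensity d E) ∧
      LocLim d 0 E ∧ NonDeg d 0 E ∧ NoEsc d 0 E ∧ ∀ r : ℝ, 0 < r → NearClean d 0 E r

/-- Theorem B at `s = 0` (owners 955, 385, 980) -/
def StmtB0 : Prop :=
  ∀ (d : ℕ) (E : ℝ), 3 ≤ d → E ^ 2 < 4 * ((d : ℝ) - 1) →
    ImLim d 0 E (kestenMcKayDensity d E) → ImFix d 0 E (kestenMcKayDensity d E) →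
    LocLim d 0 E → NonDeg d 0 E → NoEsc d 0 E → (∀ r : ℝ, 0 < r → NearClean d 0 E r) →
    ThmB d 0 E (kestenMcKayDensity d E)

theorem s0251 (h50 : Stmt50) (hEnv : StmtEnv) (h31 : Stmt31) (hB : StmtB0) (hInvO : InvO)
    (d : ℕ) (hd : 3 ≤ d) (E : ℝ) (hE : E ^ 2 < 4 * ((d : ℝ) - 1))
    (h : ℝ → ℝ) (hcont : Continuous h) (hsupp : HasCompactSupport h) (hpos : ∀ t, 0 ≤ h t) :
    ∀ ε : ℝ, 0 < ε → ∃ N : ℕ, ∀ n : ℕ, N ≤ n → (regularGraphs n d).Nonempty →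
      |regularAverage n d (fun G => adjLaplaceWeight G
          (unfoldAt h (n * kestenMcKayDensity d E) E)) -
          ∫ g, goeLaplaceWeight g (unfoldAt h (n / Real.pi) 0) ∂goeDisorderLaw n| < ε := by
  obtain ⟨hIm, hFix, hLoc, hNd, hNo, hNc⟩ := h31 d E hd hE
  have hρ := kestenMcKay_pos hd hE
  have hTB := hB d E hd hE hIm hFix hLoc hNd hNo hNc
  exact s0251_of_inv hd hE hcont hsupp hpos hIm
    (h50 d 0 E _ hd hρ (hEnv d 0 E hd le_rfl) hIm hLoc hNd hTB) hInvO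

/-! ### Disordered case -/

/-- `Im Gav(E + iη) → π ρ` as `η → 0` -/
def GavLim (d : ℕ) (s E ρ : ℝ) : Prop :=
  ∀ ε : ℝ, 0 < ε → ∃ η0 : ℝ, 0 < η0 ∧ ∀ η : ℝ, 0 < η → η ≤ η0 →
    |(TreeDefs350.Gav (d - 1) s (ze E η)).im - Real.pi * ρ| ≤ ε

/-- graph half of section 32 (owners 420, 522, 798, 583, 424, 355) -/
def Stmt32G : Prop :=
  ∀ (d : ℕ), 3 ≤ d → ∀ κ : ℝ, 0 < κ → ∃ s0 : ℝ, 0 < s0 ∧ ∀ s : ℝ, 0 < s → s < s0 →
    ∀ E ρ : ℝ, |E| ≤ 2 * Real.sqrt ((d : ℝ) - 1) - κ → 0 < ρ → GavLim d s E ρ →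
      ImLim d s E ρ ∧ ImFix d s E ρ ∧ LocLim d s E ∧ NonDeg d s E ∧ NoEsc d s E

/-- Theorem B at `0 < s < s0` (owners 955, 385, 980) -/
def StmtBs : Prop :=
  ∀ (d : ℕ), 3 ≤ d → ∀ κ : ℝ, 0 < κ → ∃ s0 : ℝ, 0 < s0 ∧ ∀ s : ℝ, 0 < s → s < s0 →
    ∀ E ρ : ℝ, |E| ≤ 2 * Real.sqrt ((d : ℝ) - 1) - κ → 0 < ρ → GavLim d s E ρ →
      ImLim d s E ρ → ImFix d s E ρ → LocLim d s E → NonDeg d s E → NoEsc d s E →
      ThmB d s E ρ

/-- (70, M1): the density of states measure and its Stieltjes transform (owner 390) -/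
def StmtM1 : Prop :=
  ∀ (d : ℕ) (s : ℝ), 3 ≤ d → 0 ≤ s → ∃ ν : Measure ℝ, IsTreeDOS d s ν ∧
    ∀ z : ℂ, 0 < z.im → ∫ x, ((x : ℂ) - z)⁻¹ ∂ν = TreeDefs350.Gav (d - 1) s z

/-- (70, M2): Stieltjes inversion (owner 390) -/
def StmtM2 : Prop :=
  ∀ (ν : Measure ℝ) [IsProbabilityMeasure ν] (U : Set ℝ) (ρ : ℝ → ℝ), IsOpen U →
    ContinuousOn ρ U → (∀ t ∈ U, 0 ≤ ρ t) →
    (∀ ε : ℝ, 0 < ε → ∃ η0 : ℝ, 0 < η0 ∧ ∀ η : ℝ, 0 < η → η ≤ η0 → ∀ E ∈ U,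
      |(∫ x, ((x : ℂ) - ze E η)⁻¹ ∂ν).im - Real.pi * ρ E| ≤ ε) →
    ν.restrict U = (volume.restrict U).withDensity (fun t => ENNReal.ofReal (ρ t))

theorem abs_le_of_mem {b κ E : ℝ}
    (hE : E ∈ Set.Icc (-(2 * Real.sqrt b) + κ) (2 * Real.sqrt b - κ)) :
    |E| ≤ 2 * Real.sqrt b - κ := abs_le.2 ⟨by linarith [hE.1], hE.2⟩

theorem treeFinal (h50 : Stmt50) (hEnv : StmtEnv) (h32 : Stmt32G) (hB : StmtBs) (hInvO : InvO)
    (hM1 : StmtM1) (hM2 : StmtM2) (hT8 : ∀ b : ℕ, 2 ≤ b → TreeSpec350.T8 b)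
    {d : ℕ} (hd : 3 ≤ d) {κ : ℝ} (hκ : 0 < κ) : TreeFinal d κ := by
  have hcast : ((d - 1 : ℕ) : ℝ) = (d : ℝ) - 1 := by
    rw [Nat.cast_sub (by omega)]; simp
  obtain ⟨s1, hs1, H1⟩ := hT8 (d - 1) (by omega) (κ / 2) (by positivity)
  obtain ⟨s2, hs2, H2⟩ := h32 d hd κ hκ
  obtain ⟨s3, hs3, H3⟩ := hB d hd κ hκ
  rw [hcast] at H1
  refine ⟨min s1 (min s2 s3), lt_min hs1 (lt_min hs2 hs3), fun s hs hs' => ?_⟩
  have hs1' : s < s1 := lt_of_lt_of_le hs' (min_le_left _ _)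
  have hs2' : s < s2 := lt_of_lt_of_le hs' ((min_le_right _ _).trans (min_le_left _ _))
  have hs3' : s < s3 := lt_of_lt_of_le hs' ((min_le_right _ _).trans (min_le_right _ _))
  obtain ⟨ρ, hρc, ⟨c, hc, hρ0⟩, hlim⟩ := H1 s hs hs1'
  obtain ⟨ν, hν, hStj⟩ := hM1 d s hd hs.le
  have hUopen : IsOpen {E : ℝ | |E| < 2 * Real.sqrt ((d : ℝ) - 1) - κ / 2} :=
    isOpen_lt continuous_abs continuous_const
  have hsub : Set.Icc (-(2 * Real.sqrt ((d : ℝ) - 1)) + κ) (2 * Real.sqrt ((d : ℝ) - 1) - κ) ⊆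
      {E : ℝ | |E| < 2 * Real.sqrt ((d : ℝ) - 1) - κ / 2} := fun E hE => by
    have := abs_le_of_mem hE
    exact lt_of_le_of_lt this (by linarith)
  have hprob : IsProbabilityMeasure ν := hν.1
  have hpos : ∀ t ∈ {E : ℝ | |E| < 2 * Real.sqrt ((d : ℝ) - 1) - κ / 2}, 0 ≤ ρ t :=
    fun t ht => hc.le.trans (hρ0 t ht)
  have hGav : ∀ E ∈ Set.Icc (-(2 * Real.sqrt ((d : ℝ) - 1)) + κ)
      (2 * Real.sqrt ((d : ℝ) - 1) - κ), GavLim d s E (ρ E) := fun E hE ε hε => by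
    obtain ⟨η0, hη0, h⟩ := hlim ε hε
    exact ⟨η0, hη0, fun η h1 h2 => h η h1 h2 E (hsub hE)⟩
  refine ⟨ν, hν, ρ, {E : ℝ | |E| < 2 * Real.sqrt ((d : ℝ) - 1) - κ / 2}, hUopen, hsub, hρc, hpos,
    ?_, ?_, ?_⟩
  · refine hM2 ν _ ρ hUopen hρc hpos fun ε hε => ?_
    obtain ⟨η0, hη0, h⟩ := hlim ε hε
    refine ⟨η0, hη0, fun η h1 h2 E hE => ?_⟩
    rw [hStj (ze E η) (by simp [ze, h1])]
    exact h η h1 h2 E hE
  · exact fun E hE => lt_of_lt_of_le hc (hρ0 E (hsub hE))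
  · intro E hE h hcont hsupp hh
    have hρE : 0 < ρ E := lt_of_lt_of_le hc (hρ0 E (hsub hE))
    obtain ⟨hIm, hFix, hLoc, hNd, hNo⟩ := H2 s hs hs2' E (ρ E) (abs_le_of_mem hE) hρE (hGav E hE)
    have hTB := H3 s hs hs3' E (ρ E) (abs_le_of_mem hE) hρE (hGav E hE) hIm hFix hLoc hNd hNo
    exact finalGO_of_inv hρE hIm
      (h50 d s E _ hd hρE (hEnv d s E hd hs.le) hIm hLoc hNd hTB) hInvO h hcont hsupp hh

theorem s0252 (h50 : Stmt50) (hEnv : StmtEnv) (h32 : Stmt32G) (hB : StmtBs) (hInvO : InvO)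
    (hM1 : StmtM1) (hM2 : StmtM2) (hT8 : ∀ b : ℕ, 2 ≤ b → TreeSpec350.T8 b)
    (d : ℕ) (hd : 3 ≤ d) (κ : ℝ) (hκ : 0 < κ) :
    ∃ s₀ : ℝ, 0 < s₀ ∧ ∀ s : ℝ, 0 < s → s < s₀ →
      ∃ ν : MeasureTheory.Measure ℝ, IsTreeDOS d s ν ∧
        ∃ (ρ : ℝ → ℝ) (U : Set ℝ), IsOpen U ∧
          Set.Icc (-(2 * Real.sqrt ((d : ℝ) - 1)) + κ) (2 * Real.sqrt ((d : ℝ) - 1) - κ) ⊆ U ∧
          ContinuousOn ρ U ∧ (∀ t ∈ U, 0 ≤ ρ t) ∧
          ν.restrict U = (MeasureTheory.volume.restrict U).withDensity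
            (fun t => ENNReal.ofReal (ρ t)) ∧
          (∀ E ∈ Set.Icc (-(2 * Real.sqrt ((d : ℝ) - 1)) + κ)
            (2 * Real.sqrt ((d : ℝ) - 1) - κ), 0 < ρ E) ∧
          ∀ E ∈ Set.Icc (-(2 * Real.sqrt ((d : ℝ) - 1)) + κ) (2 * Real.sqrt ((d : ℝ) - 1) - κ),
            ∀ h : ℝ → ℝ, Continuous h → HasCompactSupport h → (∀ t, 0 ≤ h t) →
              ∀ ε : ℝ, 0 < ε → ∃ N : ℕ, ∀ n : ℕ, N ≤ n → d < n → Even (n * d) →
                |regularAverage n d (fun G => ∫ ω, disorderedLaplaceWeight G s ω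
                      (unfoldAt h (n * ρ E) E) ∂potentialLaw n) -
                    ∫ g, goeLaplaceWeight g (unfoldAt h (n / Real.pi) 0) ∂goeDisorderLaw n|
                  < ε :=
  s0252_of hd (treeFinal h50 hEnv h32 hB hInvO hM1 hM2 hT8 hd hκ)

end Crest.Agent.R166.Master423
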