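import Crest.Agent.R166.MeanS_974

/-!
Row 166 (helper974): the orthogonality events `GMean` (section 42.7) for `s = 0`
(labels and potentials are independent of the graph; Ward identity).
-/

set_option autoImplicit false

namespace Crest.Agent.R166.Mean974

open MeasureTheory Filter Topology ProbabilityTheory
open Crest.ProbabilityR.RandomMatrix
open Crest.Agent.R166 Crest.Agent.R166.Words955 Crest.Agent.R166.Seq980
open Crest.Agent.R166.LimLaw980 Crest.Agent.R166.LimProps974 Crest.Agent.R166.LLN289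
open Crest.Agent.R166.EnvLaw289 Crest.Agent.R166.FrameB974
open Crest.Agent.R166.TreeDefs350 (unif)
open Crest.Agent.R166.LimEnv289 (embE continuous_embE injective_embE gq continuous_gq abs_gq_le EIx
  loc_gq potentialLaw_eq)

variable {d n : ℕ} [NeZero d]

/-! ### Invariance under rotations -/

theorem graphOf_conj {p : Equiv.Perm (HE n d)} (hp : IsPort p) (r : Fin n → Fin d) :
    graphOf (conjP (rho r) p) = graphOf p := by
  ext v w
  rw [(isPort_conj hp r).adj_iff, hp.adj_iff]
  constructor
  · rintro ⟨i, hi⟩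
    rw [conjP_apply] at hi
    exact ⟨-(r v) + i, by simpa using hi⟩
  · rintro ⟨i, hi⟩
    refine ⟨r v + i, ?_⟩
    rw [conjP_apply]
    simpa using hi

theorem card_badH_conj (p : Equiv.Perm (HE n d)) (r : Fin n → Fin d) (a : ℕ) :
    (badH (conjP (rho r) p) a).card = (badH p a).card := by
  classical
  refine Finset.card_bij' (fun h _ => (rho r)⁻¹ h) (fun h _ => rho r h) ?_ ?_ ?_ ?_
  · intro h hh
    unfold badH at hh ⊢
    rw [Finset.mem_filter] at hh ⊢
    refine ⟨Finset.mem_univ _, fun hinj => hh.2 ?_⟩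
    intro w hw w' hw' he
    refine hinj hw hw' ?_
    have h1 : h = rho r ((rho r)⁻¹ h) := ((rho r).apply_symm_apply h).symm
    simp only at he ⊢
    rw [h1, walk_conj, walk_conj] at he
    simpa using he
  · intro h hh
    unfold badH at hh ⊢
    rw [Finset.mem_filter] at hh ⊢
    refine ⟨Finset.mem_univ _, fun hinj => hh.2 ?_⟩
    intro w hw w' hw' he
    refine hinj hw hw' ?_
    simp only at he ⊢
    rw [walk_conj, walk_conj]
    simpa using he
  · intro h _
    exact (rho r).apply_symm_apply h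
  · intro h _
    exact (rho r).symm_apply_apply h

/-- averaging over the rotations, for arbitrary events contained in measurable ones -/
theorem sum_Ports_rot_le {T : Type*} [MeasurableSpace T] (τ : Measure T) [IsProbabilityMeasure τ]
    (Ev : Equiv.Perm (HE n d) → Set (Fin n → T))
    (M : Equiv.Perm (HE n d) → Set (Fin n → Fin d × T))
    (hM : ∀ p ∈ Ports n d, MeasurableSet (M p))
    (hsub : ∀ p ∈ Ports n d, ∀ (r : Fin n → Fin d) (f : Fin n → T), f ∈ Ev (conjP (rho r) p) →
      (fun v => (r v, f v)) ∈ M p) :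
    ∑ p ∈ Ports n d, (Measure.pi fun _ : Fin n => τ) (Ev p) ≤
      ∑ p ∈ Ports n d, vLaw n d τ (M p) := by
  classical
  have hlaw : ∀ p ∈ Ports n d, vLaw n d τ (M p) =
      ∫⁻ r, (Measure.pi fun _ : Fin n => τ) {f | (fun v => (r v, f v)) ∈ M p}
        ∂(Measure.pi fun _ : Fin n => uFin d) := by
    intro p hp
    have hmp := measurePreserving_arrowProdEquivProdArrow (Fin d) T (Fin n)
      (fun _ => uFin d) (fun _ => τ)
    have h1 := hmp.symm.measure_preimage (hM p hp).nullMeasurableSet
    have e1 : vLaw n d τ = Measure.pi fun _ : Fin n => (uFin d).prod τ := rfl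
    rw [e1, ← h1, Measure.prod_apply]
    · rfl
    · exact (MeasurableEquiv.measurable _) (hM p hp)
  have hr : ∀ r : Fin n → Fin d,
      ∑ p ∈ Ports n d, (Measure.pi fun _ : Fin n => τ) (Ev p) ≤
      ∑ p ∈ Ports n d, (Measure.pi fun _ : Fin n => τ) {f | (fun v => (r v, f v)) ∈ M p} := by
    intro r
    rw [← sum_Ports_conj r (fun p => (Measure.pi fun _ : Fin n => τ) (Ev p))]
    exact Finset.sum_le_sum fun p hp => measure_mono fun f hf => hsub p hp r f hf
  calc ∑ p ∈ Ports n d, (Measure.pi fun _ : Fin n => τ) (Ev p)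
      = ∫⁻ _r : Fin n → Fin d, ∑ p ∈ Ports n d, (Measure.pi fun _ : Fin n => τ) (Ev p)
          ∂(Measure.pi fun _ : Fin n => uFin d) := by
        rw [lintegral_const, measure_univ, mul_one]
    _ ≤ ∫⁻ r : Fin n → Fin d, ∑ p ∈ Ports n d,
          (Measure.pi fun _ : Fin n => τ) {f | (fun v => (r v, f v)) ∈ M p}
          ∂(Measure.pi fun _ : Fin n => uFin d) := lintegral_mono hr
    _ = ∑ p ∈ Ports n d, vLaw n d τ (M p) := by
        rw [lintegral_finsetSum' _ (fun p _ => (measurable_of_finite _).aemeasurable)]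
        exact Finset.sum_congr rfl fun p hp => (hlaw p hp).symm

/-! ### Deterministic estimates -/

/-- off-diagonal entries of `Im R` -/
theorem abs_im_Res_le {V : Type*} [Fintype V] [DecidableEq V] {H : Matrix V V ℝ}
    (hH : H.transpose = H) {z : ℂ} (hz : 0 < z.im) (x y : V) :
    |(Res H z x y).im| ≤ ((Res H z x x).im + (Res H z y y).im) / 2 := by
  have hw := congrFun (congrFun (Res789.ward hH hz) x) y
  simp only [Res789.cx_apply, Res789.imM_apply, Matrix.smul_apply, Matrix.mul_apply, smul_eq_mul,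
    Matrix.conjTranspose_apply] at hw
  have h1 : |(Res H z x y).im| = ‖((Res H z x y).im : ℂ)‖ := by
    rw [Complex.norm_real, Real.norm_eq_abs]
  have hx := ScaleD355.sum_row_sq hH hz x
  have hy := ScaleD355.sum_row_sq hH hz y
  rw [h1]
  change ‖((Res789.Res H z x y).im : ℂ)‖ ≤ _
  rw [hw, norm_mul, Complex.norm_real, Real.norm_eq_abs, abs_of_pos hz]
  have h2 : ‖∑ k, Res789.Res H z x k * star (Res789.Res H z y k)‖ ≤
      (∑ k, ‖Res789.Res H z x k‖ ^ 2 + ∑ k, ‖Res789.Res H z y k‖ ^ 2) / 2 := by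
    refine (norm_sum_le _ _).trans ?_
    rw [← Finset.sum_add_distrib, Finset.sum_div]
    refine Finset.sum_le_sum fun k _ => ?_
    rw [norm_mul, norm_star]
    nlinarith [sq_nonneg (‖Res789.Res H z x k‖ - ‖Res789.Res H z y k‖)]
  rw [hx, hy] at h2
  calc z.im * ‖∑ k, Res789.Res H z x k * star (Res789.Res H z y k)‖
      ≤ z.im * (((Res789.Res H z x x).im / z.im + (Res789.Res H z y y).im / z.im) / 2) := by
        gcongr
    _ = ((Res H z x x).im + (Res H z y y).im) / 2 := by
        change _ = ((Res789.Res H z x x).im + (Res789.Res H z y y).im) / 2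
        field_simp

/-- `Σ_v f_v` is small for `s = 0` -/
theorem abs_sum_le {p : Equiv.Perm (HE n d)} (hp : IsPort p) (ω : Fin n → ℝ) {E K : ℝ}
    (hE : E ≠ d) (hn : 0 < n) {f : Fin n → ℝ} (hf : NearE (Hm (graphOf p) 0 ω) E K f) :
    |∑ v, f v| ≤ |K| / |E - d| := by
  have hn' : (0 : ℝ) < n := by exact_mod_cast hn
  have h0 : 0 < |E - d| := abs_pos.2 (sub_ne_zero.2 hE)
  have h1 : ∑ v, ((Hm (graphOf p) 0 ω).mulVec f) v = d * ∑ v, f v := by
    have h2 : ∀ v, ((Hm (graphOf p) 0 ω).mulVec f) v = ∑ j : Fin d, f (p (v, j)).1 := by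
      intro v
      rw [Hm_mulVec_port hp]
      ring
    simp only [h2]
    rw [← Fintype.sum_prod_type (f := fun h : HE n d => f (p h).1),
      Equiv.sum_comp p (fun h : HE n d => f h.1), Fintype.sum_prod_type, Finset.mul_sum]
    refine Finset.sum_congr rfl fun v _ => ?_
    simp
  have h3 : (E - d) * ∑ v, f v = -∑ v, (((Hm (graphOf p) 0 ω).mulVec f) v - E * f v) := by
    rw [Finset.sum_sub_distrib, h1, ← Finset.mul_sum]
    ring
  have h4 : |∑ v, (((Hm (graphOf p) 0 ω).mulVec f) v - E * f v)| ≤ |K| := by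
    have h5 := Finset.sum_mul_sq_le_sq_mul_sq Finset.univ (fun _ : Fin n => (1 : ℝ))
      (fun v => ((Hm (graphOf p) 0 ω).mulVec f) v - E * f v)
    simp only [one_mul, one_pow, Finset.sum_const, Finset.card_univ, Fintype.card_fin,
      nsmul_eq_mul, mul_one] at h5
    have h6 : (∑ v, (((Hm (graphOf p) 0 ω).mulVec f) v - E * f v)) ^ 2 ≤ |K| ^ 2 := by
      refine h5.trans ?_
      calc (n : ℝ) * ∑ v, (((Hm (graphOf p) 0 ω).mulVec f) v - E * f v) ^ 2
          ≤ n * ((K / n) ^ 2 * n) := by
            gcongr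
            exact hf.2
        _ = |K| ^ 2 := by
            rw [sq_abs]
            field_simp
    exact abs_le_of_sq_le_sq h6 (abs_nonneg _)
  rw [le_div_iff₀ h0, mul_comm, ← abs_mul, h3, abs_neg]
  exact h4

/-! ### The centred field -/

section field

variable {T : Type*} [MeasurableSpace T]

/-- expected value of a local function at a half-edge -/
noncomputable def mh (τ : Measure T) (p : Equiv.Perm (HE n d)) (g : Conf d (Fin d × T) → ℝ)
    (h : HE n d) : ℝ := ∫ x, g (view p h x) ∂(vLaw n d τ)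

/-- centred vertex field -/
noncomputable def zet (τ : Measure T) (p : Equiv.Perm (HE n d)) (g : Conf d (Fin d × T) → ℝ)
    (x : Fin n → Fin d × T) (v : Fin n) : ℝ := ∑ j : Fin d, (g (view p (v, j) x) - mh τ p g (v, j))

theorem abs_cov_le' {Ω : Type*} [MeasurableSpace Ω] (μ : Measure Ω) [IsProbabilityMeasure μ]
    {X Y : Ω → ℝ} (hX : ∀ x, |X x| ≤ 1) (hY : ∀ x, |Y x| ≤ 1) : |cov[X, Y; μ]| ≤ 4 := by
  have hmX : |μ[X]| ≤ 1 := abs_integral_le_one μ hX
  have hmY : |μ[Y]| ≤ 1 := abs_integral_le_one μ hY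
  rw [covariance]
  have := norm_integral_le_of_norm_le_const (μ := μ)
    (f := fun x => (X x - μ[X]) * (Y x - μ[Y])) (C := 4)
    (Filter.Eventually.of_forall fun x => by
      rw [Real.norm_eq_abs, abs_mul]
      have h2 : |X x - μ[X]| ≤ 2 := by
        have := abs_sub (X x) (μ[X])
        have := hX x
        linarith
      have h3 : |Y x - μ[Y]| ≤ 2 := by
        have := abs_sub (Y x) (μ[Y])
        have := hY x
        linarith
      calc |X x - μ[X]| * |Y x - μ[Y]| ≤ 2 * 2 :=
            mul_le_mul h2 h3 (abs_nonneg _) (by norm_num)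
        _ = 4 := by norm_num)
  simpa using this

theorem measurable_zet (τ : Measure T) (p : Equiv.Perm (HE n d)) {g : Conf d (Fin d × T) → ℝ}
    (hg : Measurable g) (v : Fin n) : Measurable fun x => zet τ p g x v :=
  Finset.measurable_sum _ fun j _ => (hg.comp (measurable_view p (v, j))).sub_const _

theorem abs_zet_le (τ : Measure T) [IsProbabilityMeasure τ] (p : Equiv.Perm (HE n d))
    {g : Conf d (Fin d × T) → ℝ}
    (hb : ∀ ξ, |g ξ| ≤ 1) (x : Fin n → Fin d × T) (v : Fin n) : |zet τ p g x v| ≤ 2 * d := by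
  unfold zet
  refine (Finset.abs_sum_le_sum_abs _ _).trans ?_
  calc ∑ j : Fin d, |g (view p (v, j) x) - mh τ p g (v, j)| ≤ ∑ _j : Fin d, (2 : ℝ) := by
        refine Finset.sum_le_sum fun j _ => ?_
        have h1 := abs_sub (g (view p (v, j) x)) (mh τ p g (v, j))
        have h2 := hb (view p (v, j) x)
        have h3 : |mh τ p g (v, j)| ≤ 1 := abs_integral_le_one _ fun x => hb _
        linarith
    _ = 2 * d := by
        rw [Finset.sum_const, Finset.card_univ, Fintype.card_fin, nsmul_eq_mul]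
        ring

/-- **expected size of `p = -iη R ζ`** -/
theorem integral_normSq_pv_le (τ : Measure T) [IsProbabilityMeasure τ] (p : Equiv.Perm (HE n d))
    (a : ℕ) {g : Conf d (Fin d × T) → ℝ} (hg : Measurable g) (hb : ∀ ξ, |g ξ| ≤ 1)
    (hloc : Loc a g) {H : Matrix (Fin n) (Fin n) ℝ} (hH : H.transpose = H) {E η : ℝ}
    (hη : 0 < η) :
    ∫ x, ∑ v, ‖pv H (zet τ p g x) E η v‖ ^ 2 ∂(vLaw n d τ) ≤
      4 * η * CB d a * d * ∑ v, (Res H (ze E η) v v).im := by
  classical
  have hz : 0 < (ze E η).im := by simpa [ze] using hη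
  -- quadratic form over half-edges
  have e1 : ∀ x, ∑ v, ‖pv H (zet τ p g x) E η v‖ ^ 2 = η * ∑ h : HE n d, ∑ h' : HE n d,
      (Res H (ze E η) h.1 h'.1).im * ((g (view p h x) - mh τ p g h) *
        (g (view p h' x) - mh τ p g h')) := by
    intro x
    rw [sum_normSq_pv hH hη]
    simp only [pv_re]
    rw [Fintype.sum_prod_type, Finset.mul_sum]
    refine Finset.sum_congr rfl fun v _ => ?_
    have e2 : ∀ j : Fin d, ∑ h' : HE n d, (Res H (ze E η) (v, j).1 h'.1).im *
        ((g (view p (v, j) x) - mh τ p g (v, j)) * (g (view p h' x) - mh τ p g h'))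
        = (g (view p (v, j) x) - mh τ p g (v, j)) *
          ∑ u, (Res H (ze E η) v u).im * zet τ p g x u := by
      intro j
      rw [Fintype.sum_prod_type, Finset.mul_sum]
      refine Finset.sum_congr rfl fun u _ => ?_
      unfold zet
      rw [Finset.mul_sum, Finset.mul_sum]
      refine Finset.sum_congr rfl fun j' _ => ?_
      ring
    simp only [e2]
    rw [← Finset.sum_mul]
    unfold zet
    ring
  simp only [e1]
  rw [integral_const_mul]
  have hL2 : ∀ h, MemLp (fun x => g (view p h x)) 2 (vLaw n d τ) := fun h =>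
    memLp_view τ p h hg hb
  have hprodint : ∀ h h' : HE n d, Integrable (fun x => (g (view p h x) - mh τ p g h) *
        (g (view p h' x) - mh τ p g h')) (vLaw n d τ) := fun h h' =>
    (((hL2 h).sub (memLp_const _)).integrable_mul ((hL2 h').sub (memLp_const _)))
  rw [integral_finsetSum _ (fun h _ => integrable_finsetSum _ fun h' _ =>
    (hprodint h h').const_mul _)]
  have e3 : ∀ h : HE n d, ∫ x, ∑ h' : HE n d, (Res H (ze E η) h.1 h'.1).im *
      ((g (view p h x) - mh τ p g h) * (g (view p h' x) - mh τ p g h')) ∂(vLaw n d τ)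
      = ∑ h' : HE n d, (Res H (ze E η) h.1 h'.1).im *
        cov[fun x => g (view p h x), fun x => g (view p h' x); vLaw n d τ] := by
    intro h
    rw [integral_finsetSum _ (fun h' _ => (hprodint h h').const_mul _)]
    refine Finset.sum_congr rfl fun h' _ => ?_
    rw [integral_const_mul]
    rfl
  simp only [e3]
  -- bound
  have hR0 : ∀ v, 0 ≤ (Res H (ze E η) v v).im := fun v => ScaleD355.im_diag_nonneg hH hz v
  have e4 : ∀ h h' : HE n d, (Res H (ze E η) h.1 h'.1).im *
      cov[fun x => g (view p h x), fun x => g (view p h' x); vLaw n d τ] ≤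
      (if ¬ Disjoint (vtx p a h) (vtx p a h') then
        2 * ((Res H (ze E η) h.1 h.1).im + (Res H (ze E η) h'.1 h'.1).im) else 0) := by
    intro h h'
    by_cases hd : Disjoint (vtx p a h) (vtx p a h')
    · rw [if_neg (not_not.2 hd),
        (indep_view τ p h h' a hd hg hloc).covariance_eq_zero (hL2 h) (hL2 h'), mul_zero]
    · rw [if_pos hd]
      have h1 := abs_cov_le' (vLaw n d τ) (X := fun x => g (view p h x))
        (Y := fun x => g (view p h' x)) (fun x => hb _) (fun x => hb _)
      have h2 := abs_im_Res_le hH hz h.1 h'.1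
      refine (le_abs_self _).trans ?_
      rw [abs_mul]
      calc |(Res H (ze E η) h.1 h'.1).im| *
            |cov[fun x => g (view p h x), fun x => g (view p h' x); vLaw n d τ]|
          ≤ (((Res H (ze E η) h.1 h.1).im + (Res H (ze E η) h'.1 h'.1).im) / 2) * 4 :=
            mul_le_mul h2 h1 (abs_nonneg _) (by
              have := hR0 h.1
              have := hR0 h'.1
              positivity)
        _ = _ := by ring
  have hcount : ∀ h : HE n d, (((Finset.univ.filter fun h' => ¬ Disjoint (vtx p a h)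
      (vtx p a h')).card : ℕ) : ℝ) ≤ CB d a := by
    intro h
    exact_mod_cast card_meet p a h
  have e5 : ∑ h : HE n d, ∑ h' : HE n d, (if ¬ Disjoint (vtx p a h) (vtx p a h') then
        2 * ((Res H (ze E η) h.1 h.1).im + (Res H (ze E η) h'.1 h'.1).im) else 0)
      ≤ 4 * CB d a * ∑ h : HE n d, (Res H (ze E η) h.1 h.1).im := by
    have e6 : ∀ h h' : HE n d, (if ¬ Disjoint (vtx p a h) (vtx p a h') then
        2 * ((Res H (ze E η) h.1 h.1).im + (Res H (ze E η) h'.1 h'.1).im) else 0)
        = 2 * (Res H (ze E η) h.1 h.1).im *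
            (if ¬ Disjoint (vtx p a h) (vtx p a h') then (1 : ℝ) else 0) +
          2 * (Res H (ze E η) h'.1 h'.1).im *
            (if ¬ Disjoint (vtx p a h) (vtx p a h') then (1 : ℝ) else 0) := by
      intro h h'
      split_ifs <;> ring
    simp only [e6, Finset.sum_add_distrib]
    have e7 : ∑ h : HE n d, ∑ h' : HE n d, 2 * (Res H (ze E η) h.1 h.1).im *
            (if ¬ Disjoint (vtx p a h) (vtx p a h') then (1 : ℝ) else 0)
        ≤ ∑ h : HE n d, 2 * (Res H (ze E η) h.1 h.1).im * CB d a := by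
      refine Finset.sum_le_sum fun h _ => ?_
      rw [← Finset.mul_sum]
      refine mul_le_mul_of_nonneg_left ?_ (by have := hR0 h.1; positivity)
      rw [← Finset.sum_filter, Finset.sum_const, nsmul_eq_mul, mul_one]
      exact hcount h
    have e8 : ∑ h : HE n d, ∑ h' : HE n d, 2 * (Res H (ze E η) h'.1 h'.1).im *
            (if ¬ Disjoint (vtx p a h) (vtx p a h') then (1 : ℝ) else 0)
        ≤ ∑ h : HE n d, 2 * (Res H (ze E η) h.1 h.1).im * CB d a := by
      rw [Finset.sum_comm]
      refine Finset.sum_le_sum fun h' _ => ?_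
      rw [← Finset.mul_sum]
      refine mul_le_mul_of_nonneg_left ?_ (by have := hR0 h'.1; positivity)
      have : ∀ h : HE n d, (if ¬ Disjoint (vtx p a h) (vtx p a h') then (1 : ℝ) else 0)
          = (if ¬ Disjoint (vtx p a h') (vtx p a h) then (1 : ℝ) else 0) := by
        intro h
        simp only [disjoint_comm]
      simp only [this]
      rw [← Finset.sum_filter, Finset.sum_const, nsmul_eq_mul, mul_one]
      exact hcount h'
    calc _ ≤ ∑ h : HE n d, 2 * (Res H (ze E η) h.1 h.1).im * CB d a +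
          ∑ h : HE n d, 2 * (Res H (ze E η) h.1 h.1).im * CB d a := add_le_add e7 e8
      _ = 4 * CB d a * ∑ h : HE n d, (Res H (ze E η) h.1 h.1).im := by
          rw [← Finset.sum_add_distrib, Finset.mul_sum]
          refine Finset.sum_congr rfl fun h _ => ?_
          ring
  have e9 : ∑ h : HE n d, (Res H (ze E η) h.1 h.1).im = d * ∑ v, (Res H (ze E η) v v).im := by
    rw [Fintype.sum_prod_type, Finset.mul_sum]
    refine Finset.sum_congr rfl fun v _ => ?_
    simp
  calc η * ∑ h : HE n d, ∑ h' : HE n d, (Res H (ze E η) h.1 h'.1).im *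
        cov[fun x => g (view p h x), fun x => g (view p h' x); vLaw n d τ]
      ≤ η * ∑ h : HE n d, ∑ h' : HE n d, (if ¬ Disjoint (vtx p a h) (vtx p a h') then
        2 * ((Res H (ze E η) h.1 h.1).im + (Res H (ze E η) h'.1 h'.1).im) else 0) := by
        gcongr with h _ h' _
        exact e4 h h'
    _ ≤ η * (4 * CB d a * ∑ h : HE n d, (Res H (ze E η) h.1 h.1).im) := by gcongr
    _ = 4 * η * CB d a * d * ∑ v, (Res H (ze E η) v v).im := by
        rw [e9]
        ring

theorem measurable_pv (τ : Measure T) (p : Equiv.Perm (HE n d)) {g : Conf d (Fin d × T) → ℝ}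
    (hg : Measurable g) (H : Matrix (Fin n) (Fin n) ℝ) (E η : ℝ) :
    Measurable fun x => ∑ v, ‖pv H (zet τ p g x) E η v‖ ^ 2 := by
  refine Finset.measurable_sum _ fun v _ => ?_
  have h1 : Measurable fun x => pv H (zet τ p g x) E η v := by
    unfold pv
    refine Measurable.const_mul ?_ _
    refine Finset.measurable_sum _ fun y _ => ?_
    exact (Complex.measurable_ofReal.comp (measurable_zet τ p hg y)).const_mul _
  exact h1.norm.pow_const 2

/-- Markov inequality for `p` -/
theorem prob_pv_le (τ : Measure T) [IsProbabilityMeasure τ] (p : Equiv.Perm (HE n d))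
    (a : ℕ) {g : Conf d (Fin d × T) → ℝ} (hg : Measurable g) (hb : ∀ ξ, |g ξ| ≤ 1)
    (hloc : Loc a g) {H : Matrix (Fin n) (Fin n) ℝ} (hH : H.transpose = H) {E η Y ε : ℝ}
    (hη : 0 < η) (hε : 0 < ε) (hn : 0 < n) (hY : ∑ v, (Res H (ze E η) v v).im ≤ Y * n) :
    vLaw n d τ {x | ε * n ≤ ∑ v, ‖pv H (zet τ p g x) E η v‖ ^ 2} ≤
      ENNReal.ofReal (4 * η * CB d a * d * Y / ε) := by
  have hn' : (0 : ℝ) < n := by exact_mod_cast hn
  have hm := measurable_pv τ p hg H E η
  have hb2 : ∀ x, ∑ v, ‖pv H (zet τ p g x) E η v‖ ^ 2 ≤ (2 * d) ^ 2 * n := by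
    intro x
    refine (sum_normSq_pv_le hH hη _).trans ?_
    calc ∑ v, (zet τ p g x v) ^ 2 ≤ ∑ _v : Fin n, ((2 : ℝ) * d) ^ 2 := by
          refine Finset.sum_le_sum fun v _ => ?_
          rw [← sq_abs]
          exact pow_le_pow_left₀ (abs_nonneg _) (abs_zet_le τ p hb x v) 2
      _ = _ := by
          rw [Finset.sum_const, Finset.card_univ, Fintype.card_fin, nsmul_eq_mul]
          ring
  have hint : Integrable (fun x => ∑ v, ‖pv H (zet τ p g x) E η v‖ ^ 2) (vLaw n d τ) := by
    refine Integrable.of_bound hm.aestronglyMeasurable ((2 * d) ^ 2 * n) ?_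
    refine Eventually.of_forall fun x => ?_
    rw [Real.norm_eq_abs, abs_of_nonneg (Finset.sum_nonneg fun _ _ => by positivity)]
    exact hb2 x
  have h1 := mul_meas_ge_le_integral_of_nonneg
    (Eventually.of_forall fun x => Finset.sum_nonneg fun v _ => by positivity) hint (ε * n)
  have h2 := integral_normSq_pv_le τ p a hg hb hloc hH hη (E := E)
  have h3 : (vLaw n d τ).real {x | ε * n ≤ ∑ v, ‖pv H (zet τ p g x) E η v‖ ^ 2} ≤
      4 * η * CB d a * d * Y / ε := by
    rw [le_div_iff₀ hε]
    have h4 : 0 ≤ (4 * η * CB d a * d : ℝ) := by positivity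
    have h5 : ε * n * (vLaw n d τ).real {x | ε * n ≤ ∑ v, ‖pv H (zet τ p g x) E η v‖ ^ 2} ≤
        4 * η * CB d a * d * (Y * n) :=
      h1.trans (h2.trans (mul_le_mul_of_nonneg_left hY h4))
    have h6 : (((vLaw n d τ).real {x | ε * n ≤ ∑ v, ‖pv H (zet τ p g x) E η v‖ ^ 2}) * ε) * n ≤
        (4 * η * CB d a * d * Y) * n := by
      calc _ = ε * n * (vLaw n d τ).real {x | ε * n ≤ ∑ v, ‖pv H (zet τ p g x) E η v‖ ^ 2} := by
            ring
        _ ≤ 4 * η * CB d a * d * (Y * n) := h5
        _ = _ := by ring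
    exact le_of_mul_le_mul_right h6 hn'
  rw [← ENNReal.ofReal_toReal (measure_ne_top (vLaw n d τ) _)]
  exact ENNReal.ofReal_le_ofReal h3

end field

end Crest.Agent.R166.Mean974
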