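import Mathlib
import Crest.Agent.R166.Defs_419

/-!
# Row 166, 42.7 (helper263), part A: contiguity of `ω ↦ ω + γ (1 - ω^2)` under the uniform law
-/

set_option autoImplicit false

open MeasureTheory ProbabilityTheory Crest.ProbabilityR.RandomMatrix
open scoped ENNReal

namespace Crest.Agent.R166.Mean263

/-- uniform law on `[-1,1]` -/
noncomputable def uu : Measure ℝ := (2⁻¹ : NNReal) • volume.restrict (Set.Icc (-1 : ℝ) 1)

lemma potentialLaw_eq (n : ℕ) : potentialLaw n = Measure.pi fun _ : Fin n => uu := rfl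

lemma uu_apply (s : Set ℝ) (hs : MeasurableSet s) :
    uu s = (2⁻¹ : NNReal) * volume (s ∩ Set.Icc (-1 : ℝ) 1) := by
  rw [uu, Measure.smul_apply, Measure.restrict_apply hs]
  rfl

instance instProbUU : IsProbabilityMeasure uu := by
  refine ⟨?_⟩
  rw [uu_apply _ MeasurableSet.univ, Set.univ_inter, Real.volume_Icc]
  have h1 : (1 : ℝ) - -1 = 2 := by norm_num
  rw [h1]
  have h2 : ENNReal.ofReal 2 = 2 := by norm_num
  rw [h2, ENNReal.coe_inv (by norm_num)]
  exact ENNReal.inv_mul_cancel (by norm_num) (by norm_num)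

lemma lintegral_uu (g : ℝ → ℝ≥0∞) :
    ∫⁻ x, g x ∂uu = (2⁻¹ : NNReal) * ∫⁻ x in Set.Icc (-1 : ℝ) 1, g x := by
  rw [uu, lintegral_smul_measure]
  rfl

/-- the perturbation map -/
def T (γ x : ℝ) : ℝ := x + γ * (1 - x ^ 2)

lemma measurable_T (γ : ℝ) : Measurable (T γ) := by
  unfold T; fun_prop

lemma T_mem {γ : ℝ} (h0 : 0 ≤ γ) (h1 : γ < 1 / 2) {x : ℝ} (hx : x ∈ Set.Icc (-1 : ℝ) 1) :
    T γ x ∈ Set.Icc (-1 : ℝ) 1 := by
  obtain ⟨ha, hb⟩ := hx
  have e1 : 1 - T γ x = (1 - x) * (1 - γ * (1 + x)) := by unfold T; ring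
  have e2 : T γ x + 1 = (1 + x) * (1 + γ * (1 - x)) := by unfold T; ring
  have h2 : 0 ≤ 1 - γ * (1 + x) := by nlinarith
  have h3 : 0 ≤ 1 + γ * (1 - x) := by nlinarith
  constructor
  · nlinarith [mul_nonneg (by linarith : (0:ℝ) ≤ 1 + x) h3]
  · nlinarith [mul_nonneg (by linarith : (0:ℝ) ≤ 1 - x) h2]

lemma T_image {γ : ℝ} (h0 : 0 ≤ γ) (h1 : γ < 1 / 2) :
    T γ '' Set.Icc (-1 : ℝ) 1 = Set.Icc (-1 : ℝ) 1 := by
  apply Set.Subset.antisymm
  · rintro _ ⟨x, hx, rfl⟩
    exact T_mem h0 h1 hx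
  · have hc : ContinuousOn (T γ) (Set.Icc (-1 : ℝ) 1) := by
      unfold T; fun_prop
    have := intermediate_value_Icc (by norm_num : (-1 : ℝ) ≤ 1) hc
    have e1 : T γ (-1) = -1 := by unfold T; ring
    have e2 : T γ 1 = 1 := by unfold T; ring
    rwa [e1, e2] at this

lemma T_inj {γ : ℝ} (h0 : 0 ≤ γ) (h1 : γ < 1 / 2) : Set.InjOn (T γ) (Set.Icc (-1 : ℝ) 1) := by
  intro x hx y hy h
  have e : (x - y) * (1 - γ * (x + y)) = 0 := by
    unfold T at h; linear_combination h
  rcases mul_eq_zero.mp e with h2 | h2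
  · linarith
  · exfalso
    obtain ⟨_, hx2⟩ := hx
    obtain ⟨_, hy2⟩ := hy
    nlinarith

lemma lintegral_T {γ : ℝ} (h0 : 0 ≤ γ) (h1 : γ < 1 / 2) (g : ℝ → ℝ≥0∞) :
    ∫⁻ y, g y ∂uu = ∫⁻ x, ENNReal.ofReal (1 - 2 * γ * x) * g (T γ x) ∂uu := by
  rw [lintegral_uu, lintegral_uu]
  congr 1
  have h := lintegral_image_eq_lintegral_abs_deriv_mul (f := T γ)
    (f' := fun x => 1 - 2 * γ * x) (s := Set.Icc (-1 : ℝ) 1) measurableSet_Icc
    (fun x _ => by
      have : HasDerivAt (T γ) (1 + γ * (0 - 2 * x)) x := by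
        unfold T
        have h1 : HasDerivAt (fun x : ℝ => x ^ 2) (2 * x) x := by
          simpa using hasDerivAt_pow 2 x
        exact (hasDerivAt_id x).add (((hasDerivAt_const x (1 : ℝ)).sub h1).const_mul γ)
      have h3 : 1 + γ * (0 - 2 * x) = 1 - 2 * γ * x := by ring
      rw [h3] at this
      exact this.hasDerivWithinAt) (T_inj h0 h1) g
  rw [T_image h0 h1] at h
  rw [h]
  apply setLIntegral_congr_fun measurableSet_Icc
  intro x hx
  have : 0 ≤ 1 - 2 * γ * x := by
    obtain ⟨_, hx2⟩ := hx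
    nlinarith
  simp only [abs_of_nonneg this]

/-- the tilted law -/
noncomputable def kk (γ : ℝ) : Measure ℝ := uu.withDensity fun x => ENNReal.ofReal (1 - 2 * γ * x)

lemma measurable_dens (γ : ℝ) : Measurable fun x : ℝ => ENNReal.ofReal (1 - 2 * γ * x) := by
  fun_prop

lemma map_kk {γ : ℝ} (h0 : 0 ≤ γ) (h1 : γ < 1 / 2) : (kk γ).map (T γ) = uu := by
  ext s hs
  rw [Measure.map_apply (measurable_T γ) hs, kk, withDensity_apply _ (measurable_T γ hs),
    ← lintegral_indicator (measurable_T γ hs), ← lintegral_indicator_one hs,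
    lintegral_T h0 h1 (s.indicator 1)]
  apply lintegral_congr
  intro x
  by_cases hx : T γ x ∈ s
  · rw [Set.indicator_of_mem (show x ∈ T γ ⁻¹' s from hx), Set.indicator_of_mem hx]
    simp
  · rw [Set.indicator_of_notMem (show x ∉ T γ ⁻¹' s from hx), Set.indicator_of_notMem hx, mul_zero]

lemma prob_kk {γ : ℝ} (h0 : 0 ≤ γ) (h1 : γ < 1 / 2) : IsProbabilityMeasure (kk γ) := by
  refine ⟨?_⟩
  have h := congrArg (fun μ => μ Set.univ) (map_kk h0 h1)
  simp only [Measure.map_apply (measurable_T γ) MeasurableSet.univ, Set.preimage_univ,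
    measure_univ] at h
  exact h

lemma lintegral_pi_prod {n : ℕ} (f : Fin n → ℝ → ℝ≥0∞) (hf : ∀ i, Measurable (f i)) :
    ∫⁻ x, ∏ i, f i (x i) ∂(Measure.pi fun _ : Fin n => uu) = ∏ i, ∫⁻ x, f i x ∂uu := by
  have h := lintegral_prod_eq_prod_lintegral_of_indepFun (μ := Measure.pi fun _ : Fin n => uu)
    Finset.univ (fun i (x : Fin n → ℝ) => f i (x i))
    (iIndepFun_pi (μ := fun _ : Fin n => uu) (X := f) fun i => (hf i).aemeasurable)
    (fun i => (hf i).comp (measurable_pi_apply i))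
  rw [h]
  apply Finset.prod_congr rfl
  intro i _
  exact (measurePreserving_eval (fun _ : Fin n => uu) i).lintegral_comp (hf i)

/-- the product density -/
noncomputable def Dn {n : ℕ} (γ : ℝ) (x : Fin n → ℝ) : ℝ≥0∞ :=
  ∏ i, ENNReal.ofReal (1 - 2 * γ * x i)

lemma measurable_Dn {n : ℕ} (γ : ℝ) : Measurable (Dn (n := n) γ) := by
  unfold Dn
  fun_prop

lemma pi_kk {n : ℕ} {γ : ℝ} (h0 : 0 ≤ γ) (h1 : γ < 1 / 2) :
    (Measure.pi fun _ : Fin n => kk γ) = (Measure.pi fun _ : Fin n => uu).withDensity (Dn γ) := by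
  have := prob_kk h0 h1
  refine Measure.pi_eq fun s hs => ?_
  rw [withDensity_apply _ (MeasurableSet.univ_pi hs),
    ← lintegral_indicator (MeasurableSet.univ_pi hs)]
  have e : (fun x : Fin n → ℝ => (Set.univ.pi s).indicator (Dn γ) x) = fun x =>
      ∏ i, (s i).indicator (fun y => ENNReal.ofReal (1 - 2 * γ * y)) (x i) := by
    funext x
    by_cases hx : x ∈ Set.univ.pi s
    · rw [Set.indicator_of_mem hx, Dn]
      apply Finset.prod_congr rfl
      intro i _
      rw [Set.indicator_of_mem (hx i (Set.mem_univ i))]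
    · rw [Set.indicator_of_notMem hx]
      simp only [Set.mem_pi, Set.mem_univ, forall_true_left, not_forall] at hx
      obtain ⟨i, hi⟩ := hx
      symm
      apply Finset.prod_eq_zero (Finset.mem_univ i)
      rw [Set.indicator_of_notMem hi]
  rw [e, lintegral_pi_prod _ fun i => (measurable_dens γ).indicator (hs i)]
  apply Finset.prod_congr rfl
  intro i _
  rw [lintegral_indicator (hs i), kk, withDensity_apply _ (hs i)]

/-- change of variables on the product space -/
lemma potentialLaw_T {n : ℕ} {γ : ℝ} (h0 : 0 ≤ γ) (h1 : γ < 1 / 2) {B : Set (Fin n → ℝ)}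
    (hB : MeasurableSet B) :
    potentialLaw n B = ∫⁻ x in {x : Fin n → ℝ | (fun i => T γ (x i)) ∈ B}, Dn γ x
      ∂(potentialLaw n) := by
  have := prob_kk h0 h1
  have hm : Measurable fun (x : Fin n → ℝ) i => T γ (x i) :=
    measurable_pi_lambda _ fun i => (measurable_T γ).comp (measurable_pi_apply i)
  have h2 : (Measure.pi fun _ : Fin n => kk γ).map (fun x i => T γ (x i)) =
      Measure.pi fun _ : Fin n => uu := by
    have hs : ∀ _ : Fin n, SigmaFinite ((kk γ).map (T γ)) := by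
      intro _; rw [map_kk h0 h1]; infer_instance
    rw [Measure.pi_map_pi (μ := fun _ : Fin n => kk γ) (f := fun _ => T γ)
      (fun _ => (measurable_T γ).aemeasurable)]
    simp only [map_kk h0 h1]
  rw [potentialLaw_eq, ← h2, Measure.map_apply hm hB, pi_kk h0 h1,
    withDensity_apply _ (hm hB), ← pi_kk h0 h1, h2]
  rfl

lemma lintegral_dens_sq {γ : ℝ} (h0 : 0 ≤ γ) (h1 : γ < 1 / 2) :
    ∫⁻ x, ENNReal.ofReal (1 - 2 * γ * x) ^ 2 ∂uu = ENNReal.ofReal (1 + 4 * γ ^ 2 / 3) := by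
  rw [lintegral_uu]
  have e1 : ∫⁻ x in Set.Icc (-1 : ℝ) 1, ENNReal.ofReal (1 - 2 * γ * x) ^ 2 =
      ∫⁻ x in Set.Icc (-1 : ℝ) 1, ENNReal.ofReal ((1 - 2 * γ * x) ^ 2) := by
    apply setLIntegral_congr_fun measurableSet_Icc
    intro x hx
    have : 0 ≤ 1 - 2 * γ * x := by
      obtain ⟨_, hx2⟩ := hx
      nlinarith
    simp only
    rw [ENNReal.ofReal_pow this]
  have e2 : ∫ x in Set.Icc (-1 : ℝ) 1, (1 - 2 * γ * x) ^ 2 = 2 * (1 + 4 * γ ^ 2 / 3) := by
    rw [integral_Icc_eq_integral_Ioc, ← intervalIntegral.integral_of_le (by norm_num)]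
    have : ∀ x : ℝ, HasDerivAt (fun x : ℝ => x - 2 * γ * x ^ 2 + 4 * γ ^ 2 * x ^ 3 / 3)
        ((1 - 2 * γ * x) ^ 2) x := by
      intro x
      have h2 : HasDerivAt (fun x : ℝ => x ^ 2) (2 * x) x := by simpa using hasDerivAt_pow 2 x
      have h3 : HasDerivAt (fun x : ℝ => x ^ 3) (3 * x ^ 2) x := by simpa using hasDerivAt_pow 3 x
      have := ((hasDerivAt_id x).sub (h2.const_mul (2 * γ))).add
        ((h3.const_mul (4 * γ ^ 2)).div_const 3)
      have e3 : 1 - 2 * γ * (2 * x) + 4 * γ ^ 2 * (3 * x ^ 2) / 3 = (1 - 2 * γ * x) ^ 2 := by ring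
      rw [e3] at this
      exact this
    rw [intervalIntegral.integral_eq_sub_of_hasDerivAt (fun x _ => this x)]
    · ring
    · apply Continuous.intervalIntegrable
      fun_prop
  rw [e1, ← ofReal_integral_eq_lintegral_ofReal, e2]
  · rw [ENNReal.ofReal_mul (by norm_num), ← mul_assoc]
    have h2 : ENNReal.ofReal 2 = 2 := by norm_num
    rw [h2, ENNReal.coe_inv (by norm_num)]
    have h3 : ((2 : NNReal) : ℝ≥0∞)⁻¹ * 2 = 1 :=
      ENNReal.inv_mul_cancel (by norm_num) (by norm_num)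
    rw [h3, one_mul]
  · apply Continuous.integrableOn_Icc
    fun_prop
  · exact Filter.Eventually.of_forall fun x => sq_nonneg _

lemma lintegral_Dn_sq {n : ℕ} {γ : ℝ} (h0 : 0 ≤ γ) (h1 : γ < 1 / 2) :
    ∫⁻ x, Dn (n := n) γ x ^ 2 ∂(potentialLaw n) = ENNReal.ofReal ((1 + 4 * γ ^ 2 / 3) ^ n) := by
  rw [potentialLaw_eq]
  have e : ∀ x : Fin n → ℝ, Dn γ x ^ 2 = ∏ i, (fun y => ENNReal.ofReal (1 - 2 * γ * y) ^ 2) (x i) := by
    intro x
    rw [Dn, Finset.prod_pow]
  simp_rw [e]
  rw [lintegral_pi_prod (fun _ : Fin n => fun y => ENNReal.ofReal (1 - 2 * γ * y) ^ 2)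
    (fun _ => (measurable_dens γ).pow_const 2)]
  simp only [lintegral_dens_sq h0 h1]
  rw [Finset.prod_const, Finset.card_univ, Fintype.card_fin, ENNReal.ofReal_pow (by positivity)]

/-- CONTIGUITY: if `B` has probability `> ε` then `T_γ⁻¹ B` has probability `≥ ε²/C`. -/
theorem contig {n : ℕ} {γ C ε : ℝ} (h0 : 0 ≤ γ) (h1 : γ < 1 / 2) (hC : 0 < C)
    (hn : (1 + 4 * γ ^ 2 / 3) ^ n ≤ C) (hε : 0 < ε) {B : Set (Fin n → ℝ)}
    (hB : MeasurableSet B) (hP : ENNReal.ofReal ε < potentialLaw n B) :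
    ENNReal.ofReal (ε ^ 2 / C) ≤ potentialLaw n {x : Fin n → ℝ | (fun i => T γ (x i)) ∈ B} := by
  set S := {x : Fin n → ℝ | (fun i => T γ (x i)) ∈ B} with hS
  have hprob : IsProbabilityMeasure (potentialLaw n) := by
    rw [potentialLaw_eq]; infer_instance
  have hm : Measurable fun (x : Fin n → ℝ) i => T γ (x i) :=
    measurable_pi_lambda _ fun i => (measurable_T γ).comp (measurable_pi_apply i)
  have hSm : MeasurableSet S := hm hB
  have key : potentialLaw n B ≤ ENNReal.ofReal (C / (2 * ε)) * potentialLaw n S +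
      ENNReal.ofReal (ε / 2) := by
    rw [potentialLaw_T h0 h1 hB]
    calc ∫⁻ x in S, Dn γ x ∂(potentialLaw n)
        ≤ ∫⁻ x in S, (ENNReal.ofReal (C / (2 * ε)) +
            ENNReal.ofReal (ε / (2 * C)) * Dn γ x ^ 2) ∂(potentialLaw n) := by
          apply lintegral_mono
          intro x
          have hfin : Dn γ x ≠ ∞ := by
            unfold Dn
            exact ENNReal.prod_ne_top fun i _ => ENNReal.ofReal_ne_top
          obtain ⟨t, ht0, ht⟩ : ∃ t : ℝ, 0 ≤ t ∧ Dn γ x = ENNReal.ofReal t :=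
            ⟨(Dn γ x).toReal, ENNReal.toReal_nonneg, (ENNReal.ofReal_toReal hfin).symm⟩
          simp only [ht]
          rw [← ENNReal.ofReal_pow ht0, ← ENNReal.ofReal_mul (by positivity),
            ← ENNReal.ofReal_add (by positivity) (by positivity)]
          apply ENNReal.ofReal_le_ofReal
          have : C / (2 * ε) + ε / (2 * C) * t ^ 2 - t =
              (C - ε * t) ^ 2 / (2 * ε * C) := by
            field_simp
            ring
          have h2 : 0 ≤ (C - ε * t) ^ 2 / (2 * ε * C) := by positivity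
          linarith
      _ = ENNReal.ofReal (C / (2 * ε)) * potentialLaw n S +
            ENNReal.ofReal (ε / (2 * C)) * ∫⁻ x in S, Dn γ x ^ 2 ∂(potentialLaw n) := by
          rw [lintegral_add_left measurable_const, lintegral_const,
            Measure.restrict_apply MeasurableSet.univ, Set.univ_inter,
            lintegral_const_mul _ ((measurable_Dn γ).pow_const 2)]
      _ ≤ ENNReal.ofReal (C / (2 * ε)) * potentialLaw n S +
            ENNReal.ofReal (ε / (2 * C)) * ENNReal.ofReal C := by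
          gcongr
          calc ∫⁻ x in S, Dn γ x ^ 2 ∂(potentialLaw n) ≤ ∫⁻ x, Dn γ x ^ 2 ∂(potentialLaw n) :=
                setLIntegral_le_lintegral _ _
            _ = ENNReal.ofReal ((1 + 4 * γ ^ 2 / 3) ^ n) := lintegral_Dn_sq h0 h1
            _ ≤ ENNReal.ofReal C := ENNReal.ofReal_le_ofReal hn
      _ = _ := by
          rw [← ENNReal.ofReal_mul (by positivity)]
          congr 2
          field_simp
  by_contra hcon
  push Not at hcon
  have h3 : potentialLaw n B < ENNReal.ofReal ε := by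
    calc potentialLaw n B ≤ ENNReal.ofReal (C / (2 * ε)) * potentialLaw n S +
          ENNReal.ofReal (ε / 2) := key
      _ < ENNReal.ofReal (C / (2 * ε)) * ENNReal.ofReal (ε ^ 2 / C) + ENNReal.ofReal (ε / 2) := by
          apply ENNReal.add_lt_add_right ENNReal.ofReal_ne_top
          apply ENNReal.mul_lt_mul_right
          · rw [Ne, ENNReal.ofReal_eq_zero, not_le]; positivity
          · exact ENNReal.ofReal_ne_top
          · exact hcon
      _ = ENNReal.ofReal ε := by
          rw [← ENNReal.ofReal_mul (by positivity), ← ENNReal.ofReal_add (by positivity)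
            (by positivity)]
          congr 1
          field_simp
          ring
  exact absurd (lt_trans hP h3) (lt_irrefl _)

end Crest.Agent.R166.Mean263
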