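import Mathlib
import Crest.Agent.R166.MeanA_263

/-!
# Row 166, 42.7 (helper263), part B: near-window functions are asymptotically orthogonal to every
Lipschitz function of the potential (deterministic part: near-orthogonality and Bessel counting)
-/

set_option autoImplicit false

open MeasureTheory ProbabilityTheory Crest.ProbabilityR.RandomMatrix
open scoped ENNReal

namespace Crest.Agent.R166.Mean263

lemma abs_sum_mul_le {n : ℕ} (f g : Fin n → ℝ) {A B : ℝ} (hA : 0 ≤ A) (hB : 0 ≤ B)
    (hf : ∑ v, f v ^ 2 ≤ A ^ 2) (hg : ∑ v, g v ^ 2 ≤ B ^ 2) : |∑ v, f v * g v| ≤ A * B := by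
  apply abs_le_of_sq_le_sq _ (mul_nonneg hA hB)
  calc (∑ v, f v * g v) ^ 2 ≤ (∑ v, f v ^ 2) * (∑ v, g v ^ 2) :=
        Finset.sum_mul_sq_le_sq_mul_sq _ _ _
    _ ≤ A ^ 2 * B ^ 2 := mul_le_mul hf hg (Finset.sum_nonneg fun _ _ => sq_nonneg _) (sq_nonneg _)
    _ = (A * B) ^ 2 := by ring

/-- Bessel counting -/
theorem bessel_count {n : ℕ} (hn : 0 < n) {ι : Type*} (J : Finset ι) (f : ι → Fin n → ℝ)
    (a b : Fin n → ℝ) (ha : ∀ v, |a v| ≤ 1) (hb : ∀ v, 0 ≤ b v) {τ η κ : ℝ} (hτ : 0 < τ)
    (hη : 0 ≤ η) (hκ : 0 ≤ κ)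
    (h1 : ∀ j ∈ J, ∑ v, f j v ^ 2 ≤ 2 * n)
    (hb1 : ∀ v, b v ≤ 1)
    (h2 : ∀ i ∈ J, ∀ j ∈ J, i ≠ j → |∑ v, b v * f i v * f j v| ≤ κ * n)
    (h3 : ∀ j ∈ J, η * n ≤ |∑ v, if τ ≤ b v then f j v * a v else 0|) :
    (J.card : ℝ) * (η ^ 2 * τ) ≤ 2 + J.card * κ := by
  classical
  rcases Nat.eq_zero_or_pos J.card with h0 | hpos
  · rw [h0]; simp
  have hn' : (0 : ℝ) < n := by exact_mod_cast hn
  have hJ : (0 : ℝ) < J.card := by exact_mod_cast hpos
  set X : ι → ℝ := fun j => ∑ v, if τ ≤ b v then f j v * a v else 0 with hX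
  set σ : ι → ℝ := fun j => if 0 ≤ X j then 1 else -1 with hσ
  have hσ1 : ∀ j, σ j * X j = |X j| := by
    intro j
    simp only [hσ]
    split_ifs with h
    · rw [one_mul, abs_of_nonneg h]
    · rw [abs_of_neg (not_le.mp h)]; ring
  have hσ2 : ∀ i j, |σ i * σ j| ≤ 1 := by
    intro i j
    simp only [hσ]
    split_ifs <;> simp
  set g : Fin n → ℝ := fun v => ∑ j ∈ J, σ j * f j v with hg
  -- total
  have e1 : ∑ j ∈ J, |X j| = ∑ v, (if τ ≤ b v then a v * g v else 0) := by
    calc ∑ j ∈ J, |X j| = ∑ j ∈ J, ∑ v, σ j * (if τ ≤ b v then f j v * a v else 0) := by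
          apply Finset.sum_congr rfl
          intro j _
          rw [← hσ1 j, hX, Finset.mul_sum]
      _ = ∑ v, ∑ j ∈ J, σ j * (if τ ≤ b v then f j v * a v else 0) := Finset.sum_comm
      _ = _ := by
          apply Finset.sum_congr rfl
          intro v _
          split_ifs
          · rw [hg, Finset.mul_sum]
            apply Finset.sum_congr rfl
            intro j _
            ring
          · simp
  have e2 : (J.card : ℝ) * (η * n) ≤ ∑ v, (if τ ≤ b v then a v * g v else 0) := by
    rw [← e1]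
    calc (J.card : ℝ) * (η * n) = ∑ _j ∈ J, η * n := by rw [Finset.sum_const, nsmul_eq_mul]
      _ ≤ _ := Finset.sum_le_sum h3
  -- Cauchy-Schwarz
  have e3 : (∑ v, (if τ ≤ b v then a v * g v else 0)) ^ 2 ≤
      (∑ v, (if τ ≤ b v then a v / Real.sqrt (b v) else 0) ^ 2) *
        (∑ v, (Real.sqrt (b v) * g v) ^ 2) := by
    have : ∀ v, (if τ ≤ b v then a v * g v else 0) =
        (if τ ≤ b v then a v / Real.sqrt (b v) else 0) * (Real.sqrt (b v) * g v) := by
      intro v
      split_ifs with h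
      · have : 0 < Real.sqrt (b v) := Real.sqrt_pos.mpr (lt_of_lt_of_le hτ h)
        field_simp
      · simp
    simp_rw [this]
    exact Finset.sum_mul_sq_le_sq_mul_sq _ _ _
  have e4 : (∑ v, (if τ ≤ b v then a v / Real.sqrt (b v) else 0) ^ 2) ≤ n / τ := by
    calc (∑ v, (if τ ≤ b v then a v / Real.sqrt (b v) else 0) ^ 2) ≤ ∑ _v : Fin n, 1 / τ := by
          apply Finset.sum_le_sum
          intro v _
          split_ifs with h
          · rw [div_pow, Real.sq_sqrt (hb v)]
            have hbv : 0 < b v := lt_of_lt_of_le hτ h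
            have : a v ^ 2 ≤ 1 := by
              have := ha v
              rw [← sq_abs]
              nlinarith [abs_nonneg (a v)]
            exact div_le_div₀ zero_le_one this hτ h
          · rw [zero_pow two_ne_zero]
            positivity
      _ = n / τ := by
          rw [Finset.sum_const, Finset.card_univ, Fintype.card_fin, nsmul_eq_mul]
          ring
  have e5 : (∑ v, (Real.sqrt (b v) * g v) ^ 2) ≤ J.card * (2 * n) + J.card ^ 2 * (κ * n) := by
    have e6 : (∑ v, (Real.sqrt (b v) * g v) ^ 2) =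
        ∑ i ∈ J, ∑ j ∈ J, (σ i * σ j) * ∑ v, b v * f i v * f j v := by
      calc (∑ v, (Real.sqrt (b v) * g v) ^ 2) = ∑ v, ∑ i ∈ J, ∑ j ∈ J,
            (σ i * σ j) * (b v * f i v * f j v) := by
            apply Finset.sum_congr rfl
            intro v _
            rw [mul_pow, Real.sq_sqrt (hb v), sq (g v), hg, Finset.sum_mul_sum, Finset.mul_sum]
            apply Finset.sum_congr rfl
            intro i _
            rw [Finset.mul_sum]
            apply Finset.sum_congr rfl
            intro j _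
            ring
        _ = _ := by
            rw [Finset.sum_comm]
            apply Finset.sum_congr rfl
            intro i _
            rw [Finset.sum_comm]
            apply Finset.sum_congr rfl
            intro j _
            rw [Finset.mul_sum]
    rw [e6]
    calc ∑ i ∈ J, ∑ j ∈ J, (σ i * σ j) * ∑ v, b v * f i v * f j v
        ≤ ∑ i ∈ J, ∑ j ∈ J, ((if i = j then 2 * (n : ℝ) else 0) + κ * n) := by
          apply Finset.sum_le_sum
          intro i hi
          apply Finset.sum_le_sum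
          intro j hj
          refine le_trans (le_abs_self _) ?_
          rw [abs_mul]
          by_cases hij : i = j
          · subst hij
            rw [if_pos rfl]
            have h5 : |∑ v, b v * f i v * f i v| ≤ 2 * n := by
              rw [abs_of_nonneg (Finset.sum_nonneg fun v _ => by
                have := hb v
                have := mul_self_nonneg (f i v)
                nlinarith)]
              refine le_trans ?_ (h1 i hi)
              apply Finset.sum_le_sum
              intro v _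
              have := hb1 v
              have := mul_self_nonneg (f i v)
              nlinarith
            have h6 := mul_le_mul (hσ2 i i) h5 (abs_nonneg _) zero_le_one
            have h7 : 0 ≤ κ * n := by positivity
            linarith
          · rw [if_neg hij]
            have h6 := mul_le_mul (hσ2 i j) (h2 i hi j hj hij) (abs_nonneg _) zero_le_one
            linarith
      _ = _ := by
          simp only [Finset.sum_add_distrib, Finset.sum_ite_eq, Finset.sum_const, nsmul_eq_mul]
          rw [Finset.sum_congr rfl (g := fun _ => 2 * (n : ℝ)) (fun i hi => if_pos hi)]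
          rw [Finset.sum_const, nsmul_eq_mul]
          ring
  have e7 : ((J.card : ℝ) * (η * n)) ^ 2 ≤ (n / τ) *
      (J.card * (2 * n) + J.card ^ 2 * (κ * n)) := by
    calc ((J.card : ℝ) * (η * n)) ^ 2 ≤ (∑ v, (if τ ≤ b v then a v * g v else 0)) ^ 2 := by
          apply pow_le_pow_left₀ (by positivity) e2
      _ ≤ _ := e3
      _ ≤ _ := mul_le_mul e4 e5 (Finset.sum_nonneg fun _ _ => sq_nonneg _) (by positivity)
  have e8 : (J.card : ℝ) * n ^ 2 * ((J.card : ℝ) * (η ^ 2 * τ)) ≤
      (J.card : ℝ) * n ^ 2 * (2 + J.card * κ) := by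
    have h9 : τ * ((J.card : ℝ) * (η * n)) ^ 2 ≤ τ * ((n / τ) *
      (J.card * (2 * n) + J.card ^ 2 * (κ * n))) := mul_le_mul_of_nonneg_left e7 hτ.le
    have h10 : τ * ((n / τ) * (J.card * (2 * n) + J.card ^ 2 * (κ * n))) =
        (J.card : ℝ) * n ^ 2 * (2 + J.card * κ) := by
      field_simp
    rw [h10] at h9
    calc _ = τ * ((J.card : ℝ) * (η * n)) ^ 2 := by ring
      _ ≤ _ := h9
  exact le_of_mul_le_mul_left e8 (by positivity)

open Matrix in
/-- near-orthogonality of near-window functions for two perturbed potentials -/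
theorem near_orth {n : ℕ} (A : Matrix (Fin n) (Fin n) ℝ) (hA : Aᵀ = A) (s E : ℝ) (hs : 0 < s)
    (w : Fin n → ℝ) {γ γ' ρ θ : ℝ} (hρ : 0 ≤ ρ) (hθ : 0 < θ) (hγ : θ ≤ |γ - γ'|)
    (f g : Fin n → ℝ) (hf : ∑ v, f v ^ 2 ≤ 2 * n) (hg : ∑ v, g v ^ 2 ≤ 2 * n)
    (rf : ∑ v, (((A + s • Matrix.diagonal (fun i => T γ (w i))).mulVec f) v - E * f v) ^ 2 ≤
      (ρ / n) ^ 2 * n)
    (rg : ∑ v, (((A + s • Matrix.diagonal (fun i => T γ' (w i))).mulVec g) v - E * g v) ^ 2 ≤
      (ρ / n) ^ 2 * n) (hn : 0 < n) :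
    |∑ v, (1 - w v ^ 2) * f v * g v| ≤ 4 * ρ / (s * θ) := by
  have hn' : (0 : ℝ) < n := by exact_mod_cast hn
  set F : Fin n → ℝ := fun v =>
    ((A + s • Matrix.diagonal (fun i => T γ (w i))).mulVec f) v - E * f v with hF
  set G : Fin n → ℝ := fun v =>
    ((A + s • Matrix.diagonal (fun i => T γ' (w i))).mulVec g) v - E * g v with hG
  have key : ∑ v, F v * g v - ∑ v, f v * G v =
      s * (γ - γ') * ∑ v, (1 - w v ^ 2) * f v * g v := by
    have h1 : ∀ (c : ℝ) (x : Fin n → ℝ) (v : Fin n),
        ((A + s • Matrix.diagonal (fun i => T c (w i))).mulVec x) v =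
        A.mulVec x v + s * (T c (w v) * x v) := by
      intro c x v
      rw [Matrix.add_mulVec, Matrix.smul_mulVec, Pi.add_apply, Pi.smul_apply, smul_eq_mul,
        Matrix.mulVec_diagonal]
    have h2 : ∑ v, A.mulVec f v * g v = ∑ v, f v * A.mulVec g v := by
      have : (A.mulVec f) ⬝ᵥ g = f ⬝ᵥ (A.mulVec g) := by
        rw [Matrix.dotProduct_mulVec, ← Matrix.mulVec_transpose, hA]
      exact this
    have h3 : ∑ v, F v * g v = ∑ v, A.mulVec f v * g v +
        ∑ v, (s * (T γ (w v)) - E) * (f v * g v) := by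
      rw [← Finset.sum_add_distrib]
      apply Finset.sum_congr rfl
      intro v _
      rw [hF]
      simp only [h1]
      ring
    have h4 : ∑ v, f v * G v = ∑ v, f v * A.mulVec g v +
        ∑ v, (s * (T γ' (w v)) - E) * (f v * g v) := by
      rw [← Finset.sum_add_distrib]
      apply Finset.sum_congr rfl
      intro v _
      rw [hG]
      simp only [h1]
      ring
    rw [h3, h4, h2, add_sub_add_left_eq_sub, ← Finset.sum_sub_distrib, Finset.mul_sum]
    apply Finset.sum_congr rfl
    intro v _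
    unfold T
    ring
  have hsq : (ρ / n) ^ 2 * n = (ρ / Real.sqrt n) ^ 2 := by
    rw [div_pow, div_pow, Real.sq_sqrt hn'.le]
    field_simp
  have h2n : (2 : ℝ) * n ≤ (2 * Real.sqrt n) ^ 2 := by
    rw [mul_pow, Real.sq_sqrt hn'.le]
    linarith
  have hsn : 0 < Real.sqrt n := Real.sqrt_pos.mpr hn'
  have b1 : |∑ v, F v * g v| ≤ (ρ / Real.sqrt n) * (2 * Real.sqrt n) :=
    abs_sum_mul_le F g (by positivity) (by positivity) (by rw [← hsq]; exact rf)
      (le_trans hg h2n)
  have b2 : |∑ v, f v * G v| ≤ (2 * Real.sqrt n) * (ρ / Real.sqrt n) :=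
    abs_sum_mul_le f G (by positivity) (by positivity) (le_trans hf h2n)
      (by rw [← hsq]; exact rg)
  have b3 : (ρ / Real.sqrt n) * (2 * Real.sqrt n) = 2 * ρ := by field_simp
  have b4 : (2 * Real.sqrt n) * (ρ / Real.sqrt n) = 2 * ρ := by field_simp
  rw [b3] at b1
  rw [b4] at b2
  have b5 : |s * (γ - γ') * ∑ v, (1 - w v ^ 2) * f v * g v| ≤ 4 * ρ := by
    rw [← key]
    calc |∑ v, F v * g v - ∑ v, f v * G v| ≤ |∑ v, F v * g v| + |∑ v, f v * G v| := abs_sub _ _
      _ ≤ 4 * ρ := by linarith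
  rw [abs_mul, abs_mul, abs_of_pos hs] at b5
  rw [le_div_iff₀ (by positivity)]
  calc |∑ v, (1 - w v ^ 2) * f v * g v| * (s * θ) ≤
      |∑ v, (1 - w v ^ 2) * f v * g v| * (s * |γ - γ'|) := by
        apply mul_le_mul_of_nonneg_left _ (abs_nonneg _)
        exact mul_le_mul_of_nonneg_left hγ hs.le
    _ = s * |γ - γ'| * |∑ v, (1 - w v ^ 2) * f v * g v| := by ring
    _ ≤ 4 * ρ := b5

end Crest.Agent.R166.Mean263
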