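import Mathlib
import Crest.Agent.R166.MeanB_263

/-!
# Row 166, 42.7 (helper263), part C: `meanZ`
-/

set_option autoImplicit false

open MeasureTheory ProbabilityTheory Crest.ProbabilityR.RandomMatrix
open scoped ENNReal

namespace Crest.Agent.R166.Mean263

/-- the bad set, with relaxed constants, for a fixed test vector -/
def badF {n : ℕ} (A : Matrix (Fin n) (Fin n) ℝ) (s E ρ ε : ℝ) (a : (Fin n → ℝ) → Fin n → ℝ)
    (f : Fin n → ℝ) : Set (Fin n → ℝ) :=
  {w | ∑ v, (((A + s • Matrix.diagonal w).mulVec f) v - E * f v) ^ 2 ≤ (ρ / n) ^ 2 * n ∧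
    ε / 2 * n < |∑ v, f v * a w v|}

lemma mulVec_diag {n : ℕ} (A : Matrix (Fin n) (Fin n) ℝ) (s : ℝ) (w f : Fin n → ℝ) (v : Fin n) :
    ((A + s • Matrix.diagonal w).mulVec f) v = (∑ u, A v u * f u) + s * (w v * f v) := by
  rw [Matrix.add_mulVec, Matrix.smul_mulVec, Pi.add_apply, Pi.smul_apply, smul_eq_mul,
    Matrix.mulVec_diagonal]
  rfl

lemma measurableSet_badF {n : ℕ} (A : Matrix (Fin n) (Fin n) ℝ) (s E ρ ε : ℝ)
    (a : (Fin n → ℝ) → Fin n → ℝ) (ha : Measurable a) (f : Fin n → ℝ) :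
    MeasurableSet (badF A s E ρ ε a f) := by
  unfold badF
  have h1 : Measurable fun w : Fin n → ℝ =>
      ∑ v, (((A + s • Matrix.diagonal w).mulVec f) v - E * f v) ^ 2 := by
    simp_rw [mulVec_diag]
    fun_prop
  have h2 : Measurable fun w : Fin n → ℝ => |∑ v, f v * a w v| := by
    have : ∀ v, Measurable fun w => a w v := fun v => (measurable_pi_apply v).comp ha
    have h3 : Measurable fun w : Fin n → ℝ => ∑ v, f v * a w v :=
      Finset.measurable_sum _ fun v _ => (this v).const_mul _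
    exact h3.abs
  exact (measurableSet_le h1 measurable_const).inter (measurableSet_lt measurable_const h2)

/-- measurable hull of the bad set -/
theorem bad_hull {n : ℕ} (hn : 0 < n) (A : Matrix (Fin n) (Fin n) ℝ) (s E K ε : ℝ) (hK : 0 ≤ K)
    (hε : 0 < ε) (a : (Fin n → ℝ) → Fin n → ℝ) (ha : Measurable a) :
    ∃ B : Set (Fin n → ℝ), MeasurableSet B ∧
      {w | ∃ f : Fin n → ℝ, ∑ v, f v ^ 2 = n ∧
        ∑ v, (((A + s • Matrix.diagonal w).mulVec f) v - E * f v) ^ 2 ≤ (K / n) ^ 2 * n ∧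
        ε * n < |∑ v, f v * a w v|} ⊆ B ∧
      ∀ w ∈ B, ∃ f : Fin n → ℝ, ∑ v, f v ^ 2 ≤ 2 * n ∧
        ∑ v, (((A + s • Matrix.diagonal w).mulVec f) v - E * f v) ^ 2 ≤ ((K + 1) / n) ^ 2 * n ∧
        ε / 2 * n < |∑ v, f v * a w v| := by
  have hn' : (0 : ℝ) < n := by exact_mod_cast hn
  obtain ⟨D, hDc, hDd⟩ := TopologicalSpace.exists_countable_dense (Fin n → ℝ)
  refine ⟨⋃ f ∈ D ∩ {f | ∑ v, f v ^ 2 ≤ 2 * n}, badF A s E (K + 1) ε a f, ?_, ?_, ?_⟩
  · exact MeasurableSet.biUnion (hDc.mono Set.inter_subset_left)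
      fun f _ => measurableSet_badF A s E (K + 1) ε a ha f
  · rintro w ⟨f, hf1, hf2, hf3⟩
    set O : Set (Fin n → ℝ) := {g | ∑ v, g v ^ 2 < 2 * n ∧
      ∑ v, (((A + s • Matrix.diagonal w).mulVec g) v - E * g v) ^ 2 < ((K + 1) / n) ^ 2 * n ∧
      ε / 2 * n < |∑ v, g v * a w v|} with hO
    have hopen : IsOpen O := by
      have c1 : Continuous fun g : Fin n → ℝ => ∑ v, g v ^ 2 := by fun_prop
      have c2 : Continuous fun g : Fin n → ℝ =>
          ∑ v, (((A + s • Matrix.diagonal w).mulVec g) v - E * g v) ^ 2 := by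
        simp_rw [mulVec_diag]
        fun_prop
      have c3 : Continuous fun g : Fin n → ℝ => |∑ v, g v * a w v| := by fun_prop
      exact (isOpen_lt c1 continuous_const).inter
        ((isOpen_lt c2 continuous_const).inter (isOpen_lt continuous_const c3))
    have hfO : f ∈ O := by
      refine ⟨by rw [hf1]; linarith, lt_of_le_of_lt hf2 ?_, lt_of_le_of_lt ?_ hf3⟩
      · apply mul_lt_mul_of_pos_right _ hn'
        apply pow_lt_pow_left₀ _ (by positivity) two_ne_zero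
        exact div_lt_div_of_pos_right (by linarith) hn'
      · nlinarith
    obtain ⟨g, hgO, hgD⟩ := hDd.inter_open_nonempty O hopen ⟨f, hfO⟩
    obtain ⟨h1, h2, h3⟩ := hgO
    exact Set.mem_biUnion (⟨hgD, h1.le⟩ : g ∈ D ∩ {f | ∑ v, f v ^ 2 ≤ 2 * n}) ⟨h2.le, h3⟩
  · intro w hw
    simp only [Set.mem_iUnion] at hw
    obtain ⟨f, ⟨_, hf1⟩, hf2, hf3⟩ := hw
    exact ⟨f, hf1, hf2, hf3⟩

/-- the uniform law of `{x : 1 - x² < τ}` -/
lemma uu_edge {τ : ℝ} (hτ0 : 0 ≤ τ) :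
    uu {x : ℝ | 1 - x ^ 2 < τ} ≤ ENNReal.ofReal τ := by
  have hm : MeasurableSet {x : ℝ | 1 - x ^ 2 < τ} :=
    measurableSet_lt (by fun_prop) measurable_const
  rw [uu_apply _ hm]
  have hsub : {x : ℝ | 1 - x ^ 2 < τ} ∩ Set.Icc (-1 : ℝ) 1 ⊆
      Set.Icc (-1 : ℝ) (-1 + τ) ∪ Set.Icc (1 - τ) 1 := by
    rintro x ⟨hx, hx1, hx2⟩
    have hx' : 1 - x ^ 2 < τ := hx
    rcases le_or_gt 0 x with h | h
    · right
      constructor
      · nlinarith
      · exact hx2
    · left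
      constructor
      · exact hx1
      · nlinarith
  have h1 : volume ({x : ℝ | 1 - x ^ 2 < τ} ∩ Set.Icc (-1 : ℝ) 1) ≤ ENNReal.ofReal (2 * τ) := by
    calc _ ≤ volume (Set.Icc (-1 : ℝ) (-1 + τ) ∪ Set.Icc (1 - τ) 1) := measure_mono hsub
      _ ≤ volume (Set.Icc (-1 : ℝ) (-1 + τ)) + volume (Set.Icc (1 - τ) 1) := measure_union_le _ _
      _ = ENNReal.ofReal (2 * τ) := by
          rw [Real.volume_Icc, Real.volume_Icc, ← ENNReal.ofReal_add (by linarith) (by linarith)]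
          congr 1
          ring
  calc ((2⁻¹ : NNReal) : ℝ≥0∞) * volume ({x : ℝ | 1 - x ^ 2 < τ} ∩ Set.Icc (-1 : ℝ) 1) ≤
      ((2⁻¹ : NNReal) : ℝ≥0∞) * ENNReal.ofReal (2 * τ) := by gcongr
    _ = ENNReal.ofReal τ := by
        rw [ENNReal.ofReal_mul (by norm_num), ← mul_assoc]
        have h2 : ENNReal.ofReal 2 = 2 := by norm_num
        rw [h2, ENNReal.coe_inv (by norm_num)]
        have h3 : ((2 : NNReal) : ℝ≥0∞)⁻¹ * 2 = 1 :=
          ENNReal.inv_mul_cancel (by norm_num) (by norm_num)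
        rw [h3, one_mul]

/-- number of coordinates near the edge -/
noncomputable def cnt {n : ℕ} (τ : ℝ) (w : Fin n → ℝ) : ℝ :=
  ∑ v, if 1 - w v ^ 2 < τ then 1 else 0

lemma measurable_cnt {n : ℕ} (τ : ℝ) : Measurable (cnt (n := n) τ) := by
  unfold cnt
  apply Finset.measurable_sum
  intro v _
  apply Measurable.ite _ measurable_const measurable_const
  exact measurableSet_lt (by fun_prop) measurable_const

lemma cnt_nonneg {n : ℕ} (τ : ℝ) (w : Fin n → ℝ) : 0 ≤ cnt τ w :=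
  Finset.sum_nonneg fun v _ => by split_ifs <;> norm_num

lemma prob_cnt {n : ℕ} (hn : 0 < n) {τ θ : ℝ} (hτ0 : 0 ≤ τ) (hθ : 0 < θ) :
    potentialLaw n {w | θ * n ≤ cnt τ w} ≤ ENNReal.ofReal (τ / θ) := by
  have hn' : (0 : ℝ) < n := by exact_mod_cast hn
  have h1 : ∫⁻ w, ENNReal.ofReal (cnt τ w) ∂(potentialLaw n) ≤ n * ENNReal.ofReal τ := by
    have e : ∀ w : Fin n → ℝ, ENNReal.ofReal (cnt τ w) =
        ∑ v, ({x : ℝ | 1 - x ^ 2 < τ}.indicator (fun _ => (1 : ℝ≥0∞))) (w v) := by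
      intro w
      unfold cnt
      rw [ENNReal.ofReal_sum_of_nonneg fun v _ => by split_ifs <;> norm_num]
      apply Finset.sum_congr rfl
      intro v _
      by_cases h : 1 - w v ^ 2 < τ
      · rw [if_pos h, Set.indicator_of_mem (show w v ∈ {x : ℝ | 1 - x ^ 2 < τ} from h)]
        simp
      · rw [if_neg h, Set.indicator_of_notMem (show w v ∉ {x : ℝ | 1 - x ^ 2 < τ} from h)]
        simp
    simp_rw [e]
    have hm : MeasurableSet {x : ℝ | 1 - x ^ 2 < τ} :=
      measurableSet_lt (by fun_prop) measurable_const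
    have hm2 : ∀ v : Fin n, Measurable fun w : Fin n → ℝ =>
        ({x : ℝ | 1 - x ^ 2 < τ}.indicator (fun _ => (1 : ℝ≥0∞))) (w v) := fun v =>
      (measurable_const.indicator hm).comp (measurable_pi_apply v)
    rw [lintegral_finsetSum _ fun v _ => hm2 v]
    calc ∑ v : Fin n, ∫⁻ w : Fin n → ℝ,
          ({x : ℝ | 1 - x ^ 2 < τ}.indicator (fun _ => (1 : ℝ≥0∞))) (w v) ∂(potentialLaw n)
        ≤ ∑ _v : Fin n, ENNReal.ofReal τ := by
          apply Finset.sum_le_sum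
          intro v _
          rw [potentialLaw_eq, (measurePreserving_eval (fun _ : Fin n => uu) v).lintegral_comp
            (measurable_const.indicator hm), lintegral_indicator hm, lintegral_const, one_mul,
            Measure.restrict_apply MeasurableSet.univ, Set.univ_inter]
          exact uu_edge hτ0
      _ = n * ENNReal.ofReal τ := by
          rw [Finset.sum_const, Finset.card_univ, Fintype.card_fin, nsmul_eq_mul]
  have h2 : {w : Fin n → ℝ | θ * n ≤ cnt τ w} ⊆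
      {w | ENNReal.ofReal (θ * n) ≤ ENNReal.ofReal (cnt τ w)} :=
    fun w hw => ENNReal.ofReal_le_ofReal hw
  calc potentialLaw n {w | θ * n ≤ cnt τ w} ≤
      potentialLaw n {w | ENNReal.ofReal (θ * n) ≤ ENNReal.ofReal (cnt τ w)} := measure_mono h2
    _ ≤ (∫⁻ w, ENNReal.ofReal (cnt τ w) ∂(potentialLaw n)) / ENNReal.ofReal (θ * n) :=
        meas_ge_le_lintegral_div ((measurable_cnt τ).ennreal_ofReal).aemeasurable
          (by rw [Ne, ENNReal.ofReal_eq_zero, not_le]; positivity) ENNReal.ofReal_ne_top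
    _ ≤ (n * ENNReal.ofReal τ) / ENNReal.ofReal (θ * n) := by gcongr
    _ = ENNReal.ofReal (τ / θ) := by
        rw [← ENNReal.ofReal_natCast n, ← ENNReal.ofReal_mul hn'.le,
          ← ENNReal.ofReal_div_of_pos (by positivity)]
        congr 1
        field_simp

lemma potentialLaw_cube (n : ℕ) :
    potentialLaw n {w : Fin n → ℝ | ∀ i, w i ∈ Set.Icc (-1 : ℝ) 1}ᶜ = 0 := by
  have h : {w : Fin n → ℝ | ∀ i, w i ∈ Set.Icc (-1 : ℝ) 1}ᶜ ⊆
      ⋃ i : Fin n, {w | w i ∈ (Set.Icc (-1 : ℝ) 1)ᶜ} := by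
    intro w hw
    simp only [Set.mem_compl_iff, Set.mem_ofPred_eq, not_forall] at hw
    obtain ⟨i, hi⟩ := hw
    exact Set.mem_iUnion.mpr ⟨i, hi⟩
  refine measure_mono_null h ?_
  rw [measure_iUnion_null_iff]
  intro i
  have h1 : {w : Fin n → ℝ | w i ∈ (Set.Icc (-1 : ℝ) 1)ᶜ} =
      Function.eval i ⁻¹' (Set.Icc (-1 : ℝ) 1)ᶜ := rfl
  rw [h1, potentialLaw_eq, (measurePreserving_eval (fun _ : Fin n => uu) i).measure_preimage
    measurableSet_Icc.compl.nullMeasurableSet, uu_apply _ measurableSet_Icc.compl,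
    Set.compl_inter_self, measure_empty, mul_zero]

end Crest.Agent.R166.Mean263
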