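import Mathlib
import Crest.Agent.R166.MeanC_263

/-!
# Row 166, 42.7 (helper263): `meanZ`

For `s > 0`, near-window functions of `A + s diag ω` are asymptotically orthogonal to every bounded
Lipschitz vector function of `ω`; no structure of the real symmetric matrix `A` is used.
(Contiguity argument of helper674.)
-/

set_option autoImplicit false

open MeasureTheory ProbabilityTheory Crest.ProbabilityR.RandomMatrix
open scoped ENNReal

namespace Crest.Agent.R166.Mean263

/-- deterministic part: the number of good indices is bounded -/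
theorem count_good {n : ℕ} (hn : 0 < n) {s E K L ε τ κ : ℝ} (hs : 0 < s) (hK : 0 ≤ K)
    (hL : 0 ≤ L) (hε : 0 < ε) (hτ : 0 < τ) {M : ℕ} (hM : 0 < M)
    (hn1 : 3 ≤ Real.sqrt n) (hn2 : 16 * L / ε ≤ Real.sqrt n)
    (hκ : κ = 4 * (K + 1) * M / (s * Real.sqrt n)) (hκ1 : M * κ ≤ 1)
    (A : Matrix (Fin n) (Fin n) ℝ) (hA : A.transpose = A)
    (a : (Fin n → ℝ) → Fin n → ℝ)
    (h1 : ∀ w : Fin n → ℝ, (∀ i, w i ∈ Set.Icc (-1 : ℝ) 1) → ∀ v, |a w v| ≤ 1)
    (hLip : ∀ w w' : Fin n → ℝ, (∀ i, w i ∈ Set.Icc (-1 : ℝ) 1) →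
      (∀ i, w' i ∈ Set.Icc (-1 : ℝ) 1) → ∀ δ : ℝ, (∀ u, |w u - w' u| ≤ δ) →
      ∀ v, |a w v - a w' v| ≤ L * δ)
    (w : Fin n → ℝ) (hw : ∀ i, w i ∈ Set.Icc (-1 : ℝ) 1) (hcnt : cnt τ w < ε ^ 2 / 256 * n)
    (J : Finset ℕ) (hJM : J ⊆ Finset.range M)
    (hJ : ∀ j ∈ J, ∃ f : Fin n → ℝ, ∑ v, f v ^ 2 ≤ 2 * n ∧
        ∑ v, (((A + s • Matrix.diagonal (fun i => T (((j : ℝ) + 1) / M / Real.sqrt n)
          (w i))).mulVec f) v - E * f v) ^ 2 ≤ ((K + 1) / n) ^ 2 * n ∧
        ε / 2 * n < |∑ v, f v * a (fun i => T (((j : ℝ) + 1) / M / Real.sqrt n) (w i)) v|) :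
    (J.card : ℝ) ≤ 48 / (ε ^ 2 * τ) := by
  classical
  have hn' : (0 : ℝ) < n := by exact_mod_cast hn
  have hM' : (0 : ℝ) < M := by exact_mod_cast hM
  have hsn : 0 < Real.sqrt n := Real.sqrt_pos.mpr hn'
  have hsq : Real.sqrt n * Real.sqrt n = n := Real.mul_self_sqrt hn'.le
  set γ : ℕ → ℝ := fun j => ((j : ℝ) + 1) / M / Real.sqrt n with hγ
  have hγ0 : ∀ j, 0 ≤ γ j := fun j => by rw [hγ]; positivity
  have hγ1 : ∀ j ∈ J, γ j ≤ 1 / Real.sqrt n := by
    intro j hj
    have h := Finset.mem_range.mp (hJM hj)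
    have h2 : (j : ℝ) + 1 ≤ M := by exact_mod_cast h
    rw [hγ]
    apply div_le_div_of_nonneg_right _ hsn.le
    rw [div_le_one hM']
    exact h2
  have hγ2 : ∀ j ∈ J, γ j < 1 / 2 := by
    intro j hj
    refine lt_of_le_of_lt (hγ1 j hj) ?_
    rw [div_lt_div_iff₀ hsn (by norm_num)]
    linarith
  choose! f hf1 hf2 hf3 using hJ
  set b : Fin n → ℝ := fun v => 1 - w v ^ 2 with hb
  have hb0 : ∀ v, 0 ≤ b v := by
    intro v
    obtain ⟨h2, h3⟩ := hw v
    rw [hb]
    simp only
    nlinarith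
  have hb1 : ∀ v, b v ≤ 1 := by
    intro v
    rw [hb]
    simp only
    nlinarith [sq_nonneg (w v)]
  have h2n : (2 : ℝ) * n ≤ (2 * Real.sqrt n) ^ 2 := by
    rw [mul_pow, Real.sq_sqrt hn'.le]
    linarith
  have hκ0 : 0 ≤ κ := by rw [hκ]; positivity
  -- near orthogonality
  have g2 : ∀ i ∈ J, ∀ j ∈ J, i ≠ j → |∑ v, b v * f i v * f j v| ≤ κ * n := by
    intro i hi j hj hij
    have hgap : 1 / (M * Real.sqrt n) ≤ |γ i - γ j| := by
      have e : γ i - γ j = ((i : ℝ) - j) / (M * Real.sqrt n) := by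
        rw [hγ]
        field_simp
        ring
      rw [e, abs_div, abs_of_pos (show (0 : ℝ) < M * Real.sqrt n by positivity)]
      apply div_le_div_of_nonneg_right _ (by positivity)
      have h3 : (1 : ℤ) ≤ |(i : ℤ) - j| := Int.one_le_abs (by
        intro h4
        apply hij
        omega)
      exact_mod_cast h3
    have h4 := near_orth A hA s E hs w (γ := γ i) (γ' := γ j) (ρ := K + 1)
      (θ := 1 / (M * Real.sqrt n)) (by linarith) (by positivity) hgap (f i) (f j)
      (hf1 i hi) (hf1 j hj) (hf2 i hi) (hf2 j hj) hn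
    refine le_trans h4 (le_of_eq ?_)
    rw [hκ]
    field_simp
    rw [Real.sq_sqrt hn'.le]
  -- overlap
  have g3 : ∀ j ∈ J, ε / 4 * n ≤ |∑ v, if τ ≤ b v then f j v * a w v else 0| := by
    intro j hj
    have hTm : ∀ i, T (γ j) (w i) ∈ Set.Icc (-1 : ℝ) 1 := fun i =>
      T_mem (hγ0 j) (hγ2 j hj) (hw i)
    have hd : ∀ u, |T (γ j) (w u) - w u| ≤ 1 / Real.sqrt n := by
      intro u
      have e : T (γ j) (w u) - w u = γ j * b u := by unfold T; rw [hb]; ring
      rw [e, abs_of_nonneg (mul_nonneg (hγ0 j) (hb0 u))]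
      calc γ j * b u ≤ γ j * 1 := mul_le_mul_of_nonneg_left (hb1 u) (hγ0 j)
        _ ≤ 1 / Real.sqrt n := by rw [mul_one]; exact hγ1 j hj
    have hdiff : |∑ v, f j v * (a (fun i => T (γ j) (w i)) v - a w v)| ≤ ε / 8 * n := by
      have h5 : |∑ v, f j v * (a (fun i => T (γ j) (w i)) v - a w v)| ≤
          (2 * Real.sqrt n) * L := by
        apply abs_sum_mul_le _ _ (by positivity) hL (le_trans (hf1 j hj) h2n)
        calc ∑ v, (a (fun i => T (γ j) (w i)) v - a w v) ^ 2 ≤
            ∑ _v : Fin n, (L * (1 / Real.sqrt n)) ^ 2 := by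
              apply Finset.sum_le_sum
              intro v _
              rw [← sq_abs]
              exact pow_le_pow_left₀ (abs_nonneg _) (hLip _ _ hTm hw _ hd v) 2
          _ = L ^ 2 := by
              rw [Finset.sum_const, Finset.card_univ, Fintype.card_fin, nsmul_eq_mul]
              rw [mul_pow, div_pow, one_pow, Real.sq_sqrt hn'.le]
              field_simp
      refine le_trans h5 ?_
      have h6 : 16 * L ≤ Real.sqrt n * ε := by
        rwa [div_le_iff₀ hε] at hn2
      calc 2 * Real.sqrt n * L = Real.sqrt n * (16 * L) / 8 := by ring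
        _ ≤ Real.sqrt n * (Real.sqrt n * ε) / 8 := by
            apply div_le_div_of_nonneg_right _ (by norm_num)
            exact mul_le_mul_of_nonneg_left h6 hsn.le
        _ = ε / 8 * n := by rw [← mul_assoc, hsq]; ring
    have hedge : |∑ v, f j v * (if b v < τ then a w v else 0)| ≤ ε / 8 * n := by
      have h5 : |∑ v, f j v * (if b v < τ then a w v else 0)| ≤
          (2 * Real.sqrt n) * (ε / 16 * Real.sqrt n) := by
        apply abs_sum_mul_le _ _ (by positivity) (by positivity) (le_trans (hf1 j hj) h2n)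
        calc ∑ v, (if b v < τ then a w v else 0) ^ 2 ≤ cnt τ w := by
              unfold cnt
              apply Finset.sum_le_sum
              intro v _
              by_cases h : b v < τ
              · rw [if_pos h, if_pos (show 1 - w v ^ 2 < τ from h)]
                have := h1 w hw v
                rw [← sq_abs]
                nlinarith [abs_nonneg (a w v)]
              · rw [if_neg h, if_neg (show ¬ (1 - w v ^ 2 < τ) from h)]
                norm_num
          _ ≤ ε ^ 2 / 256 * n := hcnt.le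
          _ = (ε / 16 * Real.sqrt n) ^ 2 := by
              rw [mul_pow, Real.sq_sqrt hn'.le]
              ring
      refine le_trans h5 (le_of_eq ?_)
      calc 2 * Real.sqrt n * (ε / 16 * Real.sqrt n) = ε / 8 * (Real.sqrt n * Real.sqrt n) := by ring
        _ = _ := by rw [hsq]
    have hsplit : ∑ v, f j v * a (fun i => T (γ j) (w i)) v =
        (∑ v, if τ ≤ b v then f j v * a w v else 0) +
        ∑ v, f j v * (if b v < τ then a w v else 0) +
        ∑ v, f j v * (a (fun i => T (γ j) (w i)) v - a w v) := by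
      rw [← Finset.sum_add_distrib, ← Finset.sum_add_distrib]
      apply Finset.sum_congr rfl
      intro v _
      by_cases h : τ ≤ b v
      · rw [if_pos h, if_neg (not_lt.mpr h)]; ring
      · rw [if_neg h, if_pos (not_le.mp h)]; ring
    have h7 := hf3 j hj
    rw [hsplit] at h7
    have h8 := abs_add_three (∑ v, if τ ≤ b v then f j v * a w v else 0)
      (∑ v, f j v * (if b v < τ then a w v else 0))
      (∑ v, f j v * (a (fun i => T (γ j) (w i)) v - a w v))
    linarith
  have g4 := bessel_count hn J f (a w) b (h1 w hw) hb0 hτ (by positivity : (0 : ℝ) ≤ ε / 4) hκ0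
    hf1 hb1 g2 g3
  have hcard : (J.card : ℝ) ≤ M := by
    have := Finset.card_le_card hJM
    rw [Finset.card_range] at this
    exact_mod_cast this
  have g5 : (J.card : ℝ) * κ ≤ 1 := le_trans (mul_le_mul_of_nonneg_right hcard hκ0) hκ1
  rw [le_div_iff₀ (by positivity)]
  have : (J.card : ℝ) * (ε ^ 2 * τ) = 16 * ((J.card : ℝ) * ((ε / 4) ^ 2 * τ)) := by ring
  rw [this]
  linarith

/-- **42.7, `s > 0`.** -/
theorem meanZ (s K L ε : ℝ) (hs : 0 < s) (hK : 0 ≤ K) (hL : 0 ≤ L) (hε : 0 < ε) :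
    ∃ N : ℕ, ∀ n : ℕ, N ≤ n → ∀ (E : ℝ) (A : Matrix (Fin n) (Fin n) ℝ), A.transpose = A →
      ∀ a : (Fin n → ℝ) → Fin n → ℝ, Measurable a →
      (∀ w : Fin n → ℝ, (∀ i, w i ∈ Set.Icc (-1 : ℝ) 1) → ∀ v, |a w v| ≤ 1) →
      (∀ w w' : Fin n → ℝ, (∀ i, w i ∈ Set.Icc (-1 : ℝ) 1) →
        (∀ i, w' i ∈ Set.Icc (-1 : ℝ) 1) → ∀ δ : ℝ, (∀ u, |w u - w' u| ≤ δ) →
        ∀ v, |a w v - a w' v| ≤ L * δ) →
      potentialLaw n {w | ∃ f : Fin n → ℝ, ∑ v, f v ^ 2 = n ∧
        ∑ v, (((A + s • Matrix.diagonal w).mulVec f) v - E * f v) ^ 2 ≤ (K / n) ^ 2 * n ∧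
        ε * n < |∑ v, f v * a w v|} ≤ ENNReal.ofReal ε := by
  classical
  set C : ℝ := Real.exp (4 / 3) with hCdef
  have hC : 0 < C := Real.exp_pos _
  set δ : ℝ := ε ^ 2 / C with hδdef
  have hδ : 0 < δ := by positivity
  set θ : ℝ := ε ^ 2 / 256 with hθdef
  have hθ : 0 < θ := by positivity
  set τ : ℝ := θ * δ / 2 with hτdef
  have hτ : 0 < τ := by positivity
  set R : ℝ := 48 / (ε ^ 2 * τ) with hRdef
  have hR : 0 < R := by positivity
  obtain ⟨M, hM⟩ := exists_nat_gt (2 * R / δ)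
  have hM0 : (0 : ℝ) < M := lt_trans (by positivity) hM
  have hMpos : 0 < M := by exact_mod_cast hM0
  obtain ⟨N, hN⟩ := exists_nat_ge ((3 + 16 * L / ε + 4 * (K + 1) * M ^ 2 / s) ^ 2)
  refine ⟨N + 1, ?_⟩
  intro n hn E A hA a ha h1 hLip
  have hnpos : 0 < n := by omega
  have hn' : (0 : ℝ) < n := by exact_mod_cast hnpos
  have hsn : 0 < Real.sqrt n := Real.sqrt_pos.mpr hn'
  have hbig : 3 + 16 * L / ε + 4 * (K + 1) * M ^ 2 / s ≤ Real.sqrt n := by
    apply Real.le_sqrt_of_sq_le
    refine le_trans hN ?_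
    exact_mod_cast (by omega : N ≤ n)
  have p1 : 0 ≤ 16 * L / ε := by positivity
  have p2 : 0 ≤ 4 * (K + 1) * (M : ℝ) ^ 2 / s := by positivity
  have hn1 : 3 ≤ Real.sqrt n := by linarith
  have hn2 : 16 * L / ε ≤ Real.sqrt n := by linarith
  have hn3 : 4 * (K + 1) * (M : ℝ) ^ 2 / s ≤ Real.sqrt n := by linarith
  set κ : ℝ := 4 * (K + 1) * M / (s * Real.sqrt n) with hκdef
  have hκ1 : (M : ℝ) * κ ≤ 1 := by
    have e : (M : ℝ) * κ = (4 * (K + 1) * M ^ 2 / s) / Real.sqrt n := by
      rw [hκdef]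
      field_simp
    rw [e, div_le_one hsn]
    exact hn3
  obtain ⟨B, hBm, hBsub, hBprop⟩ := bad_hull hnpos A s E K ε hK hε a ha
  by_contra hcon
  push Not at hcon
  have hPB : ENNReal.ofReal ε < potentialLaw n B := lt_of_lt_of_le hcon (measure_mono hBsub)
  have hprob : IsProbabilityMeasure (potentialLaw n) := by
    rw [potentialLaw_eq]; infer_instance
  set γ : ℕ → ℝ := fun j => ((j : ℝ) + 1) / M / Real.sqrt n with hγ
  set S : ℕ → Set (Fin n → ℝ) := fun j => {x | (fun i => T (γ j) (x i)) ∈ B} with hS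
  have hSm : ∀ j, MeasurableSet (S j) := by
    intro j
    have hm : Measurable fun (x : Fin n → ℝ) i => T (γ j) (x i) :=
      measurable_pi_lambda _ fun i => (measurable_T (γ j)).comp (measurable_pi_apply i)
    exact hm hBm
  have hPS : ∀ j ∈ Finset.range M, ENNReal.ofReal δ ≤ potentialLaw n (S j) := by
    intro j hj
    have h2 : (j : ℝ) + 1 ≤ M := by exact_mod_cast Finset.mem_range.mp hj
    have hγ0 : 0 ≤ γ j := by rw [hγ]; positivity
    have hγ1 : γ j ≤ 1 / Real.sqrt n := by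
      rw [hγ]
      apply div_le_div_of_nonneg_right _ hsn.le
      rw [div_le_one hM0]
      exact h2
    have hγ2 : γ j < 1 / 2 := by
      refine lt_of_le_of_lt hγ1 ?_
      rw [div_lt_div_iff₀ hsn (by norm_num)]
      linarith
    have hγ3 : γ j ^ 2 ≤ 1 / n := by
      calc γ j ^ 2 ≤ (1 / Real.sqrt n) ^ 2 := pow_le_pow_left₀ hγ0 hγ1 2
        _ = 1 / n := by rw [div_pow, one_pow, Real.sq_sqrt hn'.le]
    apply contig hγ0 hγ2 hC _ hε hBm hPB
    calc (1 + 4 * γ j ^ 2 / 3) ^ n ≤ (Real.exp (4 / 3 / n)) ^ n := by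
          apply pow_le_pow_left₀ (by positivity)
          have h3 := Real.add_one_le_exp (4 / 3 / (n : ℝ))
          have h4 : 4 * γ j ^ 2 / 3 ≤ 4 / 3 / n := by
            calc 4 * γ j ^ 2 / 3 ≤ 4 * (1 / n) / 3 := by linarith
              _ = 4 / 3 / n := by ring
          linarith
      _ = C := by
          rw [← Real.exp_nat_mul, hCdef]
          congr 1
          field_simp
  -- the good event
  set G : Set (Fin n → ℝ) := {w | ∀ i, w i ∈ Set.Icc (-1 : ℝ) 1} ∩ {w | cnt τ w < θ * n} with hG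
  have hGm : MeasurableSet G := by
    apply MeasurableSet.inter
    · have : {w : Fin n → ℝ | ∀ i, w i ∈ Set.Icc (-1 : ℝ) 1} =
          ⋂ i : Fin n, (fun w : Fin n → ℝ => w i) ⁻¹' Set.Icc (-1 : ℝ) 1 := by
        ext w; simp [Set.mem_iInter]
      rw [this]
      exact MeasurableSet.iInter fun i => (measurable_pi_apply i) measurableSet_Icc
    · exact measurableSet_lt (measurable_cnt τ) measurable_const
  have hPG : potentialLaw n Gᶜ ≤ ENNReal.ofReal (δ / 2) := by
    have h2 : Gᶜ ⊆ {w : Fin n → ℝ | ∀ i, w i ∈ Set.Icc (-1 : ℝ) 1}ᶜ ∪ {w | θ * n ≤ cnt τ w} := by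
      intro w hw
      by_cases h3 : ∀ i, w i ∈ Set.Icc (-1 : ℝ) 1
      · right
        by_contra h4
        exact hw ⟨h3, (lt_of_not_ge h4 : cnt τ w < θ * n)⟩
      · left; exact h3
    calc potentialLaw n Gᶜ ≤ potentialLaw n ({w : Fin n → ℝ | ∀ i, w i ∈ Set.Icc (-1 : ℝ) 1}ᶜ ∪
          {w | θ * n ≤ cnt τ w}) := measure_mono h2
      _ ≤ potentialLaw n {w : Fin n → ℝ | ∀ i, w i ∈ Set.Icc (-1 : ℝ) 1}ᶜ +
          potentialLaw n {w | θ * n ≤ cnt τ w} := measure_union_le _ _
      _ ≤ 0 + ENNReal.ofReal (τ / θ) :=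
          add_le_add (le_of_eq (potentialLaw_cube n)) (prob_cnt hnpos hτ.le hθ)
      _ = ENNReal.ofReal (δ / 2) := by
          rw [zero_add]
          congr 1
          rw [hτdef]
          field_simp
  -- pointwise bound
  have hpt : ∀ w : Fin n → ℝ,
      ∑ j ∈ Finset.range M, (S j ∩ G).indicator (fun _ => (1 : ℝ≥0∞)) w ≤ ENNReal.ofReal R := by
    intro w
    by_cases hw : w ∈ G
    · have e : ∑ j ∈ Finset.range M, (S j ∩ G).indicator (fun _ => (1 : ℝ≥0∞)) w =
          (((Finset.range M).filter fun j => w ∈ S j).card : ℝ≥0∞) := by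
        rw [Finset.card_filter]
        push_cast
        apply Finset.sum_congr rfl
        intro j _
        by_cases h3 : w ∈ S j
        · rw [Set.indicator_of_mem (show w ∈ S j ∩ G from ⟨h3, hw⟩), if_pos h3]
        · rw [Set.indicator_of_notMem (show w ∉ S j ∩ G from fun h4 => h3 h4.1), if_neg h3]
      rw [e, ← ENNReal.ofReal_natCast]
      apply ENNReal.ofReal_le_ofReal
      apply count_good (E := E) hnpos hs hK hL hε hτ hMpos hn1 hn2 hκdef hκ1 A hA a h1 hLip w
        hw.1 hw.2 _ (Finset.filter_subset _ _)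
      intro j hj
      exact hBprop _ (Finset.mem_filter.mp hj).2
    · have e : ∑ j ∈ Finset.range M, (S j ∩ G).indicator (fun _ => (1 : ℝ≥0∞)) w = 0 := by
        apply Finset.sum_eq_zero
        intro j _
        rw [Set.indicator_of_notMem (show w ∉ S j ∩ G from fun h4 => hw h4.2)]
      rw [e]
      exact zero_le
  have hint : ∑ j ∈ Finset.range M, potentialLaw n (S j ∩ G) ≤ ENNReal.ofReal R := by
    calc ∑ j ∈ Finset.range M, potentialLaw n (S j ∩ G) =
        ∑ j ∈ Finset.range M, ∫⁻ w, (S j ∩ G).indicator (fun _ => (1 : ℝ≥0∞)) w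
          ∂(potentialLaw n) := by
          apply Finset.sum_congr rfl
          intro j _
          rw [lintegral_indicator ((hSm j).inter hGm), lintegral_const, one_mul,
            Measure.restrict_apply MeasurableSet.univ, Set.univ_inter]
      _ = ∫⁻ w, ∑ j ∈ Finset.range M, (S j ∩ G).indicator (fun _ => (1 : ℝ≥0∞)) w
          ∂(potentialLaw n) := by
          rw [lintegral_finsetSum _ fun j _ => measurable_const.indicator ((hSm j).inter hGm)]
      _ ≤ ∫⁻ _w, ENNReal.ofReal R ∂(potentialLaw n) := lintegral_mono hpt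
      _ = ENNReal.ofReal R := by rw [lintegral_const, measure_univ, mul_one]
  have hfin : (M : ℝ≥0∞) * ENNReal.ofReal δ ≤ ENNReal.ofReal R +
      (M : ℝ≥0∞) * ENNReal.ofReal (δ / 2) := by
    calc (M : ℝ≥0∞) * ENNReal.ofReal δ = ∑ _j ∈ Finset.range M, ENNReal.ofReal δ := by
          rw [Finset.sum_const, Finset.card_range, nsmul_eq_mul]
      _ ≤ ∑ j ∈ Finset.range M, (potentialLaw n (S j ∩ G) + ENNReal.ofReal (δ / 2)) := by
          apply Finset.sum_le_sum
          intro j hj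
          calc ENNReal.ofReal δ ≤ potentialLaw n (S j) := hPS j hj
            _ ≤ potentialLaw n ((S j ∩ G) ∪ Gᶜ) := by
                apply measure_mono
                intro w hw
                by_cases h3 : w ∈ G
                · left; exact ⟨hw, h3⟩
                · right; exact h3
            _ ≤ potentialLaw n (S j ∩ G) + potentialLaw n Gᶜ := measure_union_le _ _
            _ ≤ _ := by gcongr
      _ = ∑ j ∈ Finset.range M, potentialLaw n (S j ∩ G) +
          (M : ℝ≥0∞) * ENNReal.ofReal (δ / 2) := by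
          rw [Finset.sum_add_distrib, Finset.sum_const, Finset.card_range, nsmul_eq_mul]
      _ ≤ _ := by gcongr
  rw [← ENNReal.ofReal_natCast, ← ENNReal.ofReal_mul hM0.le, ← ENNReal.ofReal_mul hM0.le,
    ← ENNReal.ofReal_add hR.le (by positivity), ENNReal.ofReal_le_ofReal_iff (by positivity)]
    at hfin
  have h9 : 2 * R < M * δ := by
    rwa [div_lt_iff₀ hδ] at hM
  linarith

end Crest.Agent.R166.Mean263
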