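import Crest.Agent.R166.LimMean_974
import Crest.Agent.R166.Mean_263

/-!
Row 166 (helper974): the orthogonality events `GMean` (section 42.7) for `s > 0` over `portLaw`,
from helper263's `meanZ`, and `MeanOrth` from the events.
-/

set_option autoImplicit false

namespace Crest.Agent.R166.Mean974

open MeasureTheory Filter Topology ProbabilityTheory
open Crest.ProbabilityR.RandomMatrix
open Crest.Agent.R166 Crest.Agent.R166.Words955 Crest.Agent.R166.Seq980
open Crest.Agent.R166.LimLaw980 Crest.Agent.R166.LimProps974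
open Crest.Agent.R166.LimEnv289 (embE continuous_embE injective_embE gq continuous_gq abs_gq_le EIx)

variable {d : ℕ} [NeZero d]

/-- one normalised near-window vector -/
def NearE {n : ℕ} (H : Matrix (Fin n) (Fin n) ℝ) (E K : ℝ) (f : Fin n → ℝ) : Prop :=
  ∑ v, f v ^ 2 = n ∧ ∑ v, ((H.mulVec f) v - E * f v) ^ 2 ≤ (K / n) ^ 2 * n

theorem NearE_of_IsFrame {n k : ℕ} {H : Matrix (Fin n) (Fin n) ℝ} {E K : ℝ}
    {F : Fin k → Fin n → ℝ} (hF : IsFrame H E K k F) (l : Fin k) : NearE H E K (F l) := by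
  refine ⟨?_, hF.2 l⟩
  have := hF.1 l l
  simp only [if_true] at this
  rw [← this]
  exact Finset.sum_congr rfl fun v _ => by ring

/-- the orthogonality events -/
def GMean (d : ℕ) [NeZero d] (s E K : ℝ) (i : EIx d) (n : ℕ) : Set (PS d n) :=
  {x | ∀ f : Fin n → ℝ, NearE (Hm (graphOf x.1) s x.2) E K f →
    |∑ h : HE n d, f h.1 * gq d i.1 i.2.1 (conf x.1 (lab x.2) h)| ≤
      1 / ((i.2.2 : ℝ) + 1) * n}

/-- `MeanOrth` from the events -/
theorem meanOrth_of_events {k : ℕ} (S : Seq d k) {s E K : ℝ}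
    (hG : ∀ i : EIx d, ∀ᶠ j in atTop, S.U j ⊆ GMean d s E K i (S.n j))
    (hF : ∀ᶠ j in atTop, ∀ x ∈ S.U j, IsFrame (Hm (graphOf x.1) s x.2) E K k (S.F j x)) :
    MeanOrth S := by
  intro q b l δ hδ
  obtain ⟨m, hm⟩ := exists_nat_one_div_lt hδ
  filter_upwards [hG (q, b, m), hF] with j hj hFj x hx
  refine (hj hx (S.F j x l) (NearE_of_IsFrame (hFj x hx) l)).trans ?_
  have : (0 : ℝ) ≤ S.n j := Nat.cast_nonneg _
  simp only
  gcongr

/-! ### `s > 0` -/

/-- Lipschitz constant of a character in the potentials -/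
noncomputable def LipC (q : (TW d × Bool) →₀ ℚ) : ℝ := ∑ t ∈ q.support, |((q t : ℚ) : ℝ)|

theorem LipC_nonneg (q : (TW d × Bool) →₀ ℚ) : 0 ≤ LipC q :=
  Finset.sum_nonneg fun _ _ => abs_nonneg _

theorem gq_lip (q : (TW d × Bool) →₀ ℚ) (b : Bool) {ξ ξ' : Conf d (Fin d × ℝ)} {δ : ℝ}
    (hδ : 0 ≤ δ) (h1 : ∀ w, (ξ w).1 = (ξ' w).1) (h2 : ∀ w, |(ξ w).2 - (ξ' w).2| ≤ δ) :
    |gq d q b ξ - gq d q b ξ'| ≤ LipC q * δ := by
  have h3 : |phase q (embE d ξ) - phase q (embE d ξ')| ≤ LipC q * δ := by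
    unfold phase Finsupp.sum LipC
    rw [← Finset.sum_sub_distrib, Finset.sum_mul]
    refine (Finset.abs_sum_le_sum_abs _ _).trans (Finset.sum_le_sum fun t _ => ?_)
    rw [← mul_sub, abs_mul]
    refine mul_le_mul_of_nonneg_left ?_ (abs_nonneg _)
    unfold embE
    by_cases ht : t.2 = true
    · rw [if_pos ht, if_pos ht, h1 t.1, sub_self, abs_zero]
      exact hδ
    · rw [if_neg ht, if_neg ht]
      exact h2 t.1
  unfold gq
  split_ifs
  · exact (Real.abs_cos_sub_cos_le _ _).trans h3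
  · exact (Real.abs_sin_sub_sin_le _ _).trans h3

/-- the vertex function -/
noncomputable def av {n : ℕ} (p : Equiv.Perm (HE n d)) (q : (TW d × Bool) →₀ ℚ) (b : Bool)
    (w : Fin n → ℝ) (v : Fin n) : ℝ :=
  (∑ j : Fin d, gq d q b (conf p (lab w) (v, j))) / d

theorem measurable_conf_lab {n : ℕ} (p : Equiv.Perm (HE n d)) (h : HE n d) :
    Measurable fun w : Fin n → ℝ => (conf p (lab w) h : Conf d (Fin d × ℝ)) := by
  refine measurable_pi_lambda _ fun t => ?_
  exact measurable_const.prodMk (measurable_pi_apply _)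

theorem measurable_av {n : ℕ} (p : Equiv.Perm (HE n d)) (q : (TW d × Bool) →₀ ℚ) (b : Bool) :
    Measurable (av p q b : (Fin n → ℝ) → Fin n → ℝ) := by
  refine measurable_pi_lambda _ fun v => ?_
  unfold av
  refine (Finset.measurable_sum _ fun j _ => ?_).div_const _
  exact (continuous_gq d q b).measurable.comp (measurable_conf_lab p (v, j))

theorem abs_av_le {n : ℕ} (p : Equiv.Perm (HE n d)) (q : (TW d × Bool) →₀ ℚ) (b : Bool)
    (w : Fin n → ℝ) (v : Fin n) : |av p q b w v| ≤ 1 := by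
  have hd : (0 : ℝ) < d := by exact_mod_cast NeZero.pos d
  unfold av
  rw [abs_div, abs_of_pos hd, div_le_one hd]
  refine (Finset.abs_sum_le_sum_abs _ _).trans ?_
  calc ∑ j : Fin d, |gq d q b (conf p (lab w) (v, j))| ≤ ∑ _j : Fin d, (1 : ℝ) :=
        Finset.sum_le_sum fun j _ => abs_gq_le d q b _
    _ = d := by simp

theorem av_lip {n : ℕ} (p : Equiv.Perm (HE n d)) (q : (TW d × Bool) →₀ ℚ) (b : Bool)
    (w w' : Fin n → ℝ) {δ : ℝ} (hδ : 0 ≤ δ) (h : ∀ u, |w u - w' u| ≤ δ) (v : Fin n) :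
    |av p q b w v - av p q b w' v| ≤ LipC q * δ := by
  have hd : (0 : ℝ) < d := by exact_mod_cast NeZero.pos d
  unfold av
  rw [← sub_div, ← Finset.sum_sub_distrib, abs_div, abs_of_pos hd, div_le_iff₀ hd]
  refine (Finset.abs_sum_le_sum_abs _ _).trans ?_
  calc ∑ j : Fin d, |gq d q b (conf p (lab w) (v, j)) - gq d q b (conf p (lab w') (v, j))|
      ≤ ∑ _j : Fin d, LipC q * δ :=
        Finset.sum_le_sum fun j _ => gq_lip q b hδ (fun _ => rfl) (fun t => h _)
    _ = LipC q * δ * d := by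
        rw [Finset.sum_const, Finset.card_univ, Fintype.card_fin, nsmul_eq_mul]
        ring

theorem sum_eq_av {n : ℕ} (p : Equiv.Perm (HE n d)) (q : (TW d × Bool) →₀ ℚ) (b : Bool)
    (w f : Fin n → ℝ) :
    ∑ h : HE n d, f h.1 * gq d q b (conf p (lab w) h) = d * ∑ v, f v * av p q b w v := by
  have hd : (d : ℝ) ≠ 0 := by exact_mod_cast NeZero.ne d
  rw [Fintype.sum_prod_type, Finset.mul_sum]
  refine Finset.sum_congr rfl fun v _ => ?_
  unfold av
  have h1 : ∑ j : Fin d, f (v, j).1 * gq d q b (conf p (lab w) (v, j))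
      = f v * ∑ j : Fin d, gq d q b (conf p (lab w) (v, j)) := by
    rw [Finset.mul_sum]
  rw [h1]
  field_simp

theorem GMean_compl (s E K : ℝ) (i : EIx d) (n : ℕ) :
    (GMean d s E K i n)ᶜ = {x | ∃ f : Fin n → ℝ, NearE (Hm (graphOf x.1) s x.2) E K f ∧
      1 / ((i.2.2 : ℝ) + 1) * n < |∑ h : HE n d, f h.1 *
        gq d i.1 i.2.1 (conf x.1 (lab x.2) h)|} := by
  ext x
  simp [GMean]

/-- **the events have probability `→ 1` for `s > 0`** -/
theorem GMean_whp_pos (d : ℕ) [NeZero d] {s : ℝ} (hs : 0 < s) (E K : ℝ) (i : EIx d) (δ : ℝ)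
    (hδ : 0 < δ) :
    ∃ N : ℕ, ∀ n, N ≤ n → portLaw d n (GMean d s E K i n)ᶜ ≤ ENNReal.ofReal δ := by
  have hd : (0 : ℝ) < d := by exact_mod_cast NeZero.pos d
  set ε1 : ℝ := min (1 / ((i.2.2 : ℝ) + 1) / d) δ with hε1
  have hε1p : 0 < ε1 := lt_min (by positivity) hδ
  obtain ⟨N, hN⟩ := Mean263.meanZ s |K| (LipC i.1) ε1 hs (abs_nonneg _) (LipC_nonneg _) hε1p
  refine ⟨N, fun n hn => ?_⟩
  rw [GMean_compl, portLaw_apply]
  have h1 : ∀ p ∈ Ports n d, (potentialLaw n) {ω | (p, ω) ∈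
      {x : PS d n | ∃ f : Fin n → ℝ, NearE (Hm (graphOf x.1) s x.2) E K f ∧
      1 / ((i.2.2 : ℝ) + 1) * n < |∑ h : HE n d, f h.1 *
        gq d i.1 i.2.1 (conf x.1 (lab x.2) h)|}} ≤ ENNReal.ofReal δ := by
    intro p _
    classical
    have h2 := hN n hn E ((graphOf p).adjMatrix ℝ) (by simp) (av p i.1 i.2.1)
      (measurable_av p i.1 i.2.1) (fun w _ v => abs_av_le p i.1 i.2.1 w v)
      (fun w w' _ _ η hη v => by
        rcases isEmpty_or_nonempty (Fin n) with he | ⟨⟨u⟩⟩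
        · exact (he.false v).elim
        · exact av_lip p i.1 i.2.1 w w' ((abs_nonneg _).trans (hη u)) hη v)
    refine (measure_mono ?_).trans (h2.trans (ENNReal.ofReal_le_ofReal (min_le_right _ _)))
    rintro ω ⟨f, hf, hlt⟩
    refine ⟨f, hf.1, ?_, ?_⟩
    · have h3 := hf.2
      have h4 : Hm (graphOf p) s ω = (graphOf p).adjMatrix ℝ + s • Matrix.diagonal ω := by
        unfold Hm
        congr
      simp only at h3
      rw [h4] at h3
      rw [div_pow, sq_abs, ← div_pow]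
      exact h3
    · simp only at hlt
      rw [sum_eq_av, abs_mul, abs_of_pos hd] at hlt
      have h5 : ε1 ≤ 1 / ((i.2.2 : ℝ) + 1) / d := min_le_left _ _
      have h6 : (0 : ℝ) ≤ n := Nat.cast_nonneg _
      calc ε1 * n ≤ 1 / ((i.2.2 : ℝ) + 1) / d * n := by gcongr
        _ = (1 / ((i.2.2 : ℝ) + 1) * n) / d := by ring
        _ < |∑ v, f v * av p i.1 i.2.1 ω v| := by
            rw [div_lt_iff₀ hd, mul_comm |∑ v, f v * av p i.1 i.2.1 ω v|]
            exact hlt
  calc ((Ports n d).card : ENNReal)⁻¹ * ∑ p ∈ Ports n d, (potentialLaw n) {ω | (p, ω) ∈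
      {x : PS d n | ∃ f : Fin n → ℝ, NearE (Hm (graphOf x.1) s x.2) E K f ∧
      1 / ((i.2.2 : ℝ) + 1) * n < |∑ h : HE n d, f h.1 *
        gq d i.1 i.2.1 (conf x.1 (lab x.2) h)|}}
      ≤ ((Ports n d).card : ENNReal)⁻¹ * ∑ p ∈ Ports n d, ENNReal.ofReal δ := by
        gcongr with p hp
        exact h1 p hp
    _ = ((Ports n d).card : ENNReal)⁻¹ * ((Ports n d).card * ENNReal.ofReal δ) := by
        rw [Finset.sum_const, nsmul_eq_mul]
    _ ≤ ENNReal.ofReal δ := by
        rw [← mul_assoc]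
        calc ((Ports n d).card : ENNReal)⁻¹ * (Ports n d).card * ENNReal.ofReal δ
            ≤ 1 * ENNReal.ofReal δ := by
              gcongr
              exact ENNReal.inv_mul_le_one _
          _ = _ := one_mul _

end Crest.Agent.R166.Mean974
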