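import Crest.Agent.R166.Mean0_974

/-!
Row 166 (helper974): the orthogonality events `GMean` (section 42.7) for `s = 0`: final statement,
and the common statement for all `s ≥ 0`.
-/

set_option autoImplicit false

namespace Crest.Agent.R166.Mean974

open MeasureTheory Filter Topology ProbabilityTheory
open Crest.ProbabilityR.RandomMatrix
open Crest.Agent.R166 Crest.Agent.R166.Words955 Crest.Agent.R166.Seq980
open Crest.Agent.R166.LimLaw980 Crest.Agent.R166.LimProps974 Crest.Agent.R166.LLN289
open Crest.Agent.R166.EnvLaw289 Crest.Agent.R166.FrameB974 Crest.Agent.R166.TreeLike942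
open Crest.Agent.R166.TreeDefs350 (unif)
open Crest.Agent.R166.LimEnv289 (embE continuous_embE injective_embE gq continuous_gq abs_gq_le EIx
  loc_gq potentialLaw_eq)

variable {d n : ℕ} [NeZero d]

theorem Hm_zero (G : SimpleGraph (Fin n)) (ω : Fin n → ℝ) : Hm G 0 ω = Hm G 0 0 := by
  unfold Hm
  rw [zero_smul, zero_smul]

theorem Hm_transpose (G : SimpleGraph (Fin n)) (s : ℝ) (ω : Fin n → ℝ) :
    (Hm G s ω).transpose = Hm G s ω := by
  classical
  unfold Hm
  rw [Matrix.transpose_add, Matrix.transpose_smul, Matrix.diagonal_transpose]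
  congr 1
  exact SimpleGraph.transpose_adjMatrix _

/-- deterministic estimate at a good point -/
theorem det_bound {p : Equiv.Perm (HE n d)} (hp : IsPort p) (a : ℕ)
    {g : Conf d (Fin d × ℝ) → ℝ} (hg : Measurable g) (hb : ∀ ξ, |g ξ| ≤ 1)
    (hloc : Loc a g) {E K η ε1 β : ℝ} (hη : 0 < η) (hn : 0 < n) (hE : E ≠ d) (hβ : 0 ≤ β)
    (hbad : ((badH p a).card : ℝ) ≤ β * n) (x : Fin n → Fin d × ℝ)
    (hx : ∑ v, ‖pv (Hm (graphOf p) 0 0) (zet unif p g x) E η v‖ ^ 2 ≤ ε1 ^ 2 * n)
    (hε1 : 0 ≤ ε1)
    {f : Fin n → ℝ} (hf : NearE (Hm (graphOf p) 0 0) E K f) :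
    |∑ h : HE n d, f h.1 * g (view p h x)| ≤
      ε1 * n + 2 * d * |K| / η + 2 * Real.sqrt (β * d) * n + d * (|K| / |E - d|) := by
  classical
  have hn' : (0 : ℝ) < n := by exact_mod_cast hn
  set m := ∫ ξ, g ξ ∂(envLaw d unif) with hm
  have hm1 : |m| ≤ 1 := abs_integral_le_one _ hb
  have hH := Hm_transpose (graphOf p) 0 (0 : Fin n → ℝ)
  -- decomposition
  have e1 : ∑ h : HE n d, f h.1 * g (view p h x) = (∑ v, f v * zet unif p g x v) +
      (∑ h : HE n d, f h.1 * (mh unif p g h - m)) + m * (d * ∑ v, f v) := by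
    have e2 : ∑ v, f v * zet unif p g x v
        = ∑ h : HE n d, f h.1 * (g (view p h x) - mh unif p g h) := by
      rw [Fintype.sum_prod_type]
      refine Finset.sum_congr rfl fun v _ => ?_
      unfold zet
      rw [Finset.mul_sum]
    have e3 : (d : ℝ) * ∑ v, f v = ∑ h : HE n d, f h.1 := by
      rw [Fintype.sum_prod_type, Finset.mul_sum]
      refine Finset.sum_congr rfl fun v _ => ?_
      simp
    rw [e2, e3, Finset.mul_sum, ← Finset.sum_add_distrib, ← Finset.sum_add_distrib]
    refine Finset.sum_congr rfl fun h _ => ?_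
    ring
  -- first term
  have t1 : |∑ v, f v * zet unif p g x v| ≤ ε1 * n + 2 * d * |K| / η := by
    have h1 := abs_inner_le hH (E := E) hη f (zet unif p g x) hf.2 hf.1.le
      (c := (2 * d) ^ 2 * n) (by
        calc ∑ v, (zet unif p g x v) ^ 2 ≤ ∑ _v : Fin n, ((2 : ℝ) * d) ^ 2 := by
              refine Finset.sum_le_sum fun v _ => ?_
              rw [← sq_abs]
              exact pow_le_pow_left₀ (abs_nonneg _) (abs_zet_le unif p hb x v) 2
          _ = _ := by
              rw [Finset.sum_const, Finset.card_univ, Fintype.card_fin, nsmul_eq_mul]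
              ring)
    refine h1.trans (add_le_add ?_ ?_)
    · calc Real.sqrt (∑ v, ‖pv (Hm (graphOf p) 0 0) (zet unif p g x) E η v‖ ^ 2) * Real.sqrt n
          ≤ Real.sqrt (ε1 ^ 2 * n) * Real.sqrt n := by gcongr
        _ = ε1 * n := by
            rw [Real.sqrt_mul (by positivity), Real.sqrt_sq hε1, mul_assoc,
              Real.mul_self_sqrt hn'.le]
    · rw [Real.sqrt_mul (by positivity), Real.sqrt_mul (by positivity), Real.sqrt_sq (by positivity),
        Real.sqrt_sq_eq_abs, abs_div, abs_of_pos hn']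
      have h2 : Real.sqrt n * Real.sqrt n = n := Real.mul_self_sqrt hn'.le
      have h3 : 1 / η * (2 * d * Real.sqrt n) * (|K| / n * Real.sqrt n)
          = 2 * d * |K| / η * ((Real.sqrt n * Real.sqrt n) / n) := by ring
      rw [h3, h2, div_self hn'.ne', mul_one]
  -- second term
  have t2 : |∑ h : HE n d, f h.1 * (mh unif p g h - m)| ≤ 2 * Real.sqrt (β * d) * n := by
    have h1 : ∀ h : HE n d, |f h.1 * (mh unif p g h - m)| ≤
        (if h ∈ badH p a then 2 * (1 * |f h.1|) else 0) := by
      intro h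
      split_ifs with hbd
      · rw [abs_mul]
        have h2 : |mh unif p g h - m| ≤ 2 := by
          have h3 := abs_sub (mh unif p g h) m
          have h4 : |mh unif p g h| ≤ 1 := abs_integral_le_one _ fun x => hb _
          linarith
        nlinarith [abs_nonneg (f h.1)]
      · have hinj : Set.InjOn (fun w : TW d => (walk p w.1 h).1) {w | w.len ≤ a} := by
          by_contra hcon
          exact hbd (by simp [badH, hcon])
        have h2 : mh unif p g h = m := integral_view unif p h a hinj hg hloc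
        rw [h2, sub_self, mul_zero, abs_zero]
    have h2 : ∑ h ∈ badH p a, 1 * |f h.1| ≤ Real.sqrt (β * n) * Real.sqrt (d * n) := by
      refine (Real.sum_mul_le_sqrt_mul_sqrt _ _ _).trans ?_
      refine mul_le_mul (Real.sqrt_le_sqrt ?_) (Real.sqrt_le_sqrt ?_) (Real.sqrt_nonneg _)
        (Real.sqrt_nonneg _)
      · simpa using hbad
      · calc ∑ h ∈ badH p a, |f h.1| ^ 2 ≤ ∑ h : HE n d, |f h.1| ^ 2 :=
              Finset.sum_le_sum_of_subset_of_nonneg (Finset.subset_univ _)
                fun _ _ _ => by positivity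
          _ = d * n := by
              rw [Fintype.sum_prod_type]
              simp only [Finset.sum_const, Finset.card_univ, Fintype.card_fin, nsmul_eq_mul,
                sq_abs]
              rw [← Finset.mul_sum, hf.1]
    calc |∑ h : HE n d, f h.1 * (mh unif p g h - m)|
        ≤ ∑ h : HE n d, |f h.1 * (mh unif p g h - m)| := Finset.abs_sum_le_sum_abs _ _
      _ ≤ ∑ h : HE n d, (if h ∈ badH p a then 2 * (1 * |f h.1|) else 0) :=
          Finset.sum_le_sum fun h _ => h1 h
      _ = 2 * ∑ h ∈ badH p a, 1 * |f h.1| := by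
          rw [← Finset.sum_filter, Finset.mul_sum]
          refine Finset.sum_congr ?_ fun _ _ => rfl
          ext h
          simp
      _ ≤ 2 * (Real.sqrt (β * n) * Real.sqrt (d * n)) := by gcongr
      _ = 2 * Real.sqrt (β * d) * n := by
          rw [Real.sqrt_mul hβ, Real.sqrt_mul (by positivity), Real.sqrt_mul hβ]
          have h2 : Real.sqrt n * Real.sqrt n = n := Real.mul_self_sqrt hn'.le
          calc 2 * (Real.sqrt β * Real.sqrt n * (Real.sqrt d * Real.sqrt n))
              = 2 * (Real.sqrt β * Real.sqrt d) * (Real.sqrt n * Real.sqrt n) := by ring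
            _ = _ := by rw [h2]
  -- third term
  have t3 : |m * (d * ∑ v, f v)| ≤ d * (|K| / |E - d|) := by
    rw [abs_mul, abs_mul, abs_of_nonneg (by positivity : (0 : ℝ) ≤ d)]
    have h1 := abs_sum_le hp 0 hE hn hf
    have h2 : 0 ≤ (d : ℝ) * |∑ v, f v| := by positivity
    calc |m| * (d * |∑ v, f v|) ≤ 1 * (d * |∑ v, f v|) := by gcongr
      _ ≤ d * (|K| / |E - d|) := by
          rw [one_mul]
          gcongr
  rw [e1]
  have := abs_add_three (∑ v, f v * zet unif p g x v)
    (∑ h : HE n d, f h.1 * (mh unif p g h - m)) (m * (d * ∑ v, f v))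
  linarith

/-- **the events have probability `→ 1` for `s = 0`** -/
theorem GMean_whp_zero (d : ℕ) [NeZero d] {E ρ : ℝ} (K : ℝ) (hE : E ≠ d) (hIm : ImFix d 0 E ρ)
    (i : EIx d) (δ : ℝ) (hδ : 0 < δ) :
    ∃ N : ℕ, ∀ n, N ≤ n → portLaw d n (GMean d 0 E K i n)ᶜ ≤ ENNReal.ofReal δ := by
  classical
  have hd : 0 < d := NeZero.pos d
  have hdR : (0 : ℝ) < d := by exact_mod_cast hd
  obtain ⟨a, hloc⟩ := loc_gq d i.1 i.2.1
  set g := gq d i.1 i.2.1 with hg
  have hgm : Measurable g := (continuous_gq d i.1 i.2.1).measurable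
  have hgb : ∀ ξ, |g ξ| ≤ 1 := abs_gq_le d i.1 i.2.1
  set ε : ℝ := 1 / ((i.2.2 : ℝ) + 1) with hε
  have hεp : 0 < ε := by positivity
  set ε1 : ℝ := ε / 4 with hε1
  set β : ℝ := (ε / 8) ^ 2 / d with hβ
  have hβp : 0 < β := by positivity
  set Y : ℝ := |Real.pi * ρ| + 1 with hY
  have hYp : 0 < Y := by positivity
  obtain ⟨η0, hη0, hImF⟩ := hIm (min 1 (δ / 3)) (lt_min one_pos (by positivity))
  set η : ℝ := min η0 (δ / 3 * ε1 ^ 2 / (4 * CB d a * d * Y + 1)) with hηd
  have hη : 0 < η := lt_min hη0 (by positivity)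
  obtain ⟨N1, hN1⟩ := hImF η hη (min_le_left _ _)
  obtain ⟨N2, hN2⟩ := tree_whp_Ports d a hd (β / d) (δ / 3) (by positivity) (by positivity)
  obtain ⟨N3, hN3⟩ := exists_nat_gt ((2 * d * |K| / η + d * (|K| / |E - d|)) / (ε / 4))
  refine ⟨max (max N1 N2) (max N3 1), fun n hn => ?_⟩
  have hn1 : N1 ≤ n := ((le_max_left _ _).trans (le_max_left _ _)).trans hn
  have hn2 : N2 ≤ n := ((le_max_right _ _).trans (le_max_left _ _)).trans hn
  have hn3 : N3 ≤ n := ((le_max_left _ _).trans (le_max_right _ _)).trans hn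
  have hn4 : 1 ≤ n := ((le_max_right _ _).trans (le_max_right _ _)).trans hn
  have hn0 : 0 < n := hn4
  have hnR : (0 : ℝ) < n := by exact_mod_cast hn0
  have hsmall : 2 * d * |K| / η + d * (|K| / |E - d|) ≤ ε / 4 * n := by
    have h1 : (N3 : ℝ) ≤ n := by exact_mod_cast hn3
    have h2 := (div_lt_iff₀ (by positivity : 0 < ε / 4)).1 (hN3.trans_le h1)
    linarith
  -- empty case
  rcases (Ports n d).eq_empty_or_nonempty with hemp | hne
  · rw [portLaw_apply, hemp]
    simp
  have hreg : (regularGraphs n d).Nonempty := Ports_nonempty_iff.1 hne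
  have hcard : 0 < (Ports n d).card := Finset.card_pos.2 hne
  -- good pairings
  let G1 : Equiv.Perm (HE n d) → Prop := fun p => ((badH p a).card : ℝ) ≤ β * n
  let G2 : Equiv.Perm (HE n d) → Prop := fun p =>
    ∑ v, (Res (Hm (graphOf p) 0 0) (ze E η) v v).im ≤ Y * n
  -- bad for tree-likeness
  have hb1 : (((Ports n d).filter fun p => ¬ G1 p).card : ℝ) ≤ δ / 3 * (Ports n d).card := by
    refine hN2 n hn2 _ (Finset.filter_subset _ _) ?_
    intro p hp
    have h1 := (Finset.mem_filter.1 hp).2
    have h2 : β * n < ((badH p a).card : ℝ) := not_le.1 h1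
    have h3 : ((badH p a).card : ℝ) ≤ (Nat.card {v : Fin n // ¬ TreeAt Prod.fst p a v} : ℝ) * d := by
      exact_mod_cast card_badH_le p a
    have h4 : β * n / d ≤ (Nat.card {v : Fin n // ¬ TreeAt Prod.fst p a v} : ℝ) := by
      rw [div_le_iff₀ hdR]
      linarith
    calc β / d * n = β * n / d := by ring
      _ ≤ _ := h4
  -- bad for the trace
  have hb2 : (((Ports n d).filter fun p => ¬ G2 p).card : ℝ) ≤ δ / 3 * (Ports n d).card := by
    have h1 := hN1 n hn1 hreg
    rw [Whp_iff] at h1
    have h2 : (((Ports n d).filter fun p => ¬ G2 p).card : ENNReal) ≤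
        ∑ p ∈ Ports n d, (potentialLaw n) {ω | ¬ |(mn (Hm (graphOf p) 0 ω) (ze E η)).im -
          Real.pi * ρ| ≤ min 1 (δ / 3)} := by
      rw [Finset.card_eq_sum_ones, Nat.cast_sum, Finset.sum_filter]
      refine Finset.sum_le_sum fun p _ => ?_
      by_cases hG : G2 p
      · rw [if_neg (not_not.2 hG)]
        exact zero_le
      · rw [if_pos hG]
        have h3 : {ω : Fin n → ℝ | ¬ |(mn (Hm (graphOf p) 0 ω) (ze E η)).im -
          Real.pi * ρ| ≤ min 1 (δ / 3)} = Set.univ := by
          ext ω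
          simp only [Set.mem_ofPred_eq, Set.mem_univ, iff_true]
          intro hcon
          apply hG
          rw [Hm_zero] at hcon
          have h4 : (mn (Hm (graphOf p) 0 0) (ze E η)).im
              = (∑ v, (Res (Hm (graphOf p) 0 0) (ze E η) v v).im) / n := by
            unfold mn
            rw [Complex.div_natCast_im, Matrix.trace, Complex.im_sum]
            rfl
          rw [h4] at hcon
          have h5 : (∑ v, (Res (Hm (graphOf p) 0 0) (ze E η) v v).im) / n ≤ Y := by
            have h6 := (abs_le.1 (hcon.trans (min_le_left _ _))).2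
            have h7 := le_abs_self (Real.pi * ρ)
            rw [hY]
            linarith
          exact (div_le_iff₀ hnR).1 h5
        rw [h3, measure_univ]
        simp
    have h3 : ((Ports n d).card : ENNReal)⁻¹ * (((Ports n d).filter fun p => ¬ G2 p).card : ENNReal)
        ≤ ENNReal.ofReal (δ / 3) :=
      ((mul_le_mul_right h2 _).trans h1).trans (ENNReal.ofReal_le_ofReal (min_le_right _ _))
    have hc0 : ((Ports n d).card : ENNReal) ≠ 0 := by exact_mod_cast hcard.ne'
    have hct : ((Ports n d).card : ENNReal) ≠ ⊤ := ENNReal.natCast_ne_top _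
    have h4 : (((Ports n d).filter fun p => ¬ G2 p).card : ENNReal)
        ≤ ENNReal.ofReal (δ / 3 * (Ports n d).card) := by
      rw [ENNReal.ofReal_mul (by positivity), ENNReal.ofReal_natCast,
        mul_comm (ENNReal.ofReal (δ / 3))]
      calc (((Ports n d).filter fun p => ¬ G2 p).card : ENNReal)
          = ((Ports n d).card : ENNReal) * (((Ports n d).card : ENNReal)⁻¹ *
            (((Ports n d).filter fun p => ¬ G2 p).card : ENNReal)) := by
            rw [← mul_assoc, ENNReal.mul_inv_cancel hc0 hct, one_mul]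
        _ ≤ _ := by gcongr
    have h5 := ENNReal.toReal_mono ENNReal.ofReal_ne_top h4
    rw [ENNReal.toReal_ofReal (by positivity)] at h5
    simpa using h5
  -- the events
  let Ev : Equiv.Perm (HE n d) → Set (Fin n → ℝ) := fun p =>
    if G1 p ∧ G2 p then {ω | ∃ f : Fin n → ℝ, NearE (Hm (graphOf p) 0 ω) E K f ∧
      ε * n < |∑ h : HE n d, f h.1 * g (conf p (lab ω) h)|} else ∅
  let M : Equiv.Perm (HE n d) → Set (Fin n → Fin d × ℝ) := fun p =>
    if G1 p ∧ G2 p then {x | ε1 ^ 2 * n ≤ ∑ v, ‖pv (Hm (graphOf p) 0 0) (zet unif p g x) E η v‖ ^ 2}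
      else ∅
  have hMm : ∀ p ∈ Ports n d, MeasurableSet (M p) := by
    intro p _
    by_cases hG : G1 p ∧ G2 p
    · simp only [M, hG, and_self, if_true]
      exact measurableSet_le measurable_const (measurable_pv unif p hgm _ E η)
    · simp only [M, hG, if_false]
      exact MeasurableSet.empty
  have hsub : ∀ p ∈ Ports n d, ∀ (r : Fin n → Fin d) (f : Fin n → ℝ), f ∈ Ev (conjP (rho r) p) →
      (fun v => (r v, f v)) ∈ M p := by
    intro p hp r ω hω
    have hport := mem_Ports.1 hp
    by_cases hGc : G1 (conjP (rho r) p) ∧ G2 (conjP (rho r) p)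
    · have hG : G1 p ∧ G2 p := by
        refine ⟨?_, ?_⟩
        · have := hGc.1
          simp only [G1] at this ⊢
          rwa [card_badH_conj] at this
        · have := hGc.2
          simp only [G2] at this ⊢
          rwa [graphOf_conj hport] at this
      simp only [Ev, hGc, and_self, if_true, Set.mem_ofPred_eq] at hω
      simp only [M, hG, and_self, if_true, Set.mem_ofPred_eq]
      obtain ⟨f, hf, hlt⟩ := hω
      rw [graphOf_conj hport, Hm_zero] at hf
      by_contra hcon
      rw [not_le] at hcon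
      have h1 : ∑ h : HE n d, f h.1 * g (conf (conjP (rho r) p) (lab ω) h)
          = ∑ h : HE n d, f h.1 * g (view p h (fun v => (r v, ω v))) := by
        rw [← Equiv.sum_comp (rho r)
          (fun h : HE n d => f h.1 * g (conf (conjP (rho r) p) (lab ω) h))]
        refine Finset.sum_congr rfl fun h _ => ?_
        rw [conf_conj]
        rfl
      rw [h1] at hlt
      have h2 := det_bound hport a hgm hgb hloc hη hn0 hE hβp.le hG.1
        (fun v => (r v, ω v)) hcon.le (by positivity) hf
      have h3 : Real.sqrt (β * d) = ε / 8 := by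
        rw [hβ, div_mul_cancel₀ _ hdR.ne', Real.sqrt_sq (by positivity)]
      rw [h3] at h2
      have h4 : ε1 * n + 2 * d * |K| / η + 2 * (ε / 8) * n + d * (|K| / |E - d|) ≤ ε * n := by
        rw [hε1]
        nlinarith
      linarith
    · simp only [Ev, hGc, if_false, Set.mem_empty_iff_false] at hω
  have hmain := sum_Ports_rot_le unif Ev M hMm hsub
  have hMle : ∀ p ∈ Ports n d, vLaw n d unif (M p) ≤ ENNReal.ofReal (δ / 3) := by
    intro p _
    by_cases hG : G1 p ∧ G2 p
    · simp only [M, hG, and_self, if_true]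
      refine (prob_pv_le unif p a hgm hgb hloc (Hm_transpose _ 0 0) hη (by positivity) hn0
        hG.2).trans (ENNReal.ofReal_le_ofReal ?_)
      have h1 : 0 ≤ (4 * CB d a * d * Y : ℝ) := by positivity
      have h2 : η ≤ δ / 3 * ε1 ^ 2 / (4 * CB d a * d * Y + 1) := min_le_right _ _
      rw [div_le_iff₀ (by positivity)]
      rw [le_div_iff₀ (by positivity)] at h2
      calc 4 * η * CB d a * d * Y = η * (4 * CB d a * d * Y) := by ring
        _ ≤ η * (4 * CB d a * d * Y + 1) := by gcongr; linarith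
        _ ≤ δ / 3 * ε1 ^ 2 := h2
    · simp only [M, hG, if_false, measure_empty]
      exact zero_le
  -- conclusion
  rw [GMean_compl, portLaw_apply]
  have hterm : ∀ p ∈ Ports n d, (potentialLaw n) {ω | (p, ω) ∈ {x : PS d n | ∃ f : Fin n → ℝ,
      NearE (Hm (graphOf x.1) 0 x.2) E K f ∧ 1 / ((i.2.2 : ℝ) + 1) * n <
        |∑ h : HE n d, f h.1 * gq d i.1 i.2.1 (conf x.1 (lab x.2) h)|}} ≤
      (Measure.pi fun _ : Fin n => unif) (Ev p) + (if ¬ G1 p then 1 else 0)
        + (if ¬ G2 p then 1 else 0) := by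
    intro p _
    by_cases h1 : G1 p
    · by_cases h2 : G2 p
      · have hs : {ω | (p, ω) ∈ {x : PS d n | ∃ f : Fin n → ℝ,
            NearE (Hm (graphOf x.1) 0 x.2) E K f ∧ 1 / ((i.2.2 : ℝ) + 1) * n <
            |∑ h : HE n d, f h.1 * gq d i.1 i.2.1 (conf x.1 (lab x.2) h)|}} ⊆ Ev p := by
          simp only [Ev, h1, h2, and_self, if_true]
          intro ω hω
          exact hω
        have hs2 : (potentialLaw n) (Ev p) = (Measure.pi fun _ : Fin n => unif) (Ev p) := rfl
        exact (measure_mono hs).trans (hs2.le.trans (le_add_right (le_add_right le_rfl)))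
      · rw [if_pos h2]
        refine le_trans prob_le_one ?_
        exact le_add_left le_rfl
    · rw [if_pos h1]
      refine le_trans prob_le_one ?_
      exact le_add_right (le_add_left le_rfl)
  have hc0 : ((Ports n d).card : ENNReal) ≠ 0 := by exact_mod_cast hcard.ne'
  have hct : ((Ports n d).card : ENNReal) ≠ ⊤ := ENNReal.natCast_ne_top _
  have hcnt : ∀ (Q : Equiv.Perm (HE n d) → Prop) [DecidablePred Q],
      (((Ports n d).filter fun p => ¬ Q p).card : ℝ) ≤ δ / 3 * (Ports n d).card →
      ∑ p ∈ Ports n d, (if ¬ Q p then (1 : ENNReal) else 0) ≤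
        ENNReal.ofReal (δ / 3) * (Ports n d).card := by
    intro Q _ hQ
    rw [← Finset.sum_filter, Finset.sum_const, nsmul_eq_mul, mul_one,
      ← ENNReal.ofReal_natCast (Ports n d).card, ← ENNReal.ofReal_mul (by positivity),
      ← ENNReal.ofReal_natCast]
    exact ENNReal.ofReal_le_ofReal hQ
  calc ((Ports n d).card : ENNReal)⁻¹ * ∑ p ∈ Ports n d, (potentialLaw n) {ω | (p, ω) ∈
      {x : PS d n | ∃ f : Fin n → ℝ, NearE (Hm (graphOf x.1) 0 x.2) E K f ∧
        1 / ((i.2.2 : ℝ) + 1) * n <
        |∑ h : HE n d, f h.1 * gq d i.1 i.2.1 (conf x.1 (lab x.2) h)|}}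
      ≤ ((Ports n d).card : ENNReal)⁻¹ * ∑ p ∈ Ports n d,
        ((Measure.pi fun _ : Fin n => unif) (Ev p) + (if ¬ G1 p then 1 else 0)
        + (if ¬ G2 p then 1 else 0)) := by
        gcongr with p hp
        exact hterm p hp
    _ = ((Ports n d).card : ENNReal)⁻¹ * (∑ p ∈ Ports n d,
          (Measure.pi fun _ : Fin n => unif) (Ev p) + ∑ p ∈ Ports n d, (if ¬ G1 p then 1 else 0)
        + ∑ p ∈ Ports n d, (if ¬ G2 p then 1 else 0)) := by
        rw [Finset.sum_add_distrib, Finset.sum_add_distrib]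
    _ ≤ ((Ports n d).card : ENNReal)⁻¹ * (ENNReal.ofReal (δ / 3) * (Ports n d).card +
          ENNReal.ofReal (δ / 3) * (Ports n d).card +
          ENNReal.ofReal (δ / 3) * (Ports n d).card) := by
        gcongr
        · refine hmain.trans ((Finset.sum_le_sum hMle).trans ?_)
          rw [Finset.sum_const, nsmul_eq_mul, mul_comm]
        · exact hcnt G1 hb1
        · exact hcnt G2 hb2
    _ = (((Ports n d).card : ENNReal)⁻¹ * (Ports n d).card) *
          (ENNReal.ofReal (δ / 3) + ENNReal.ofReal (δ / 3) + ENNReal.ofReal (δ / 3)) := by ring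
    _ = ENNReal.ofReal δ := by
        rw [ENNReal.inv_mul_cancel hc0 hct, one_mul, ← ENNReal.ofReal_add (by positivity)
          (by positivity), ← ENNReal.ofReal_add (by positivity) (by positivity)]
        congr 1
        ring

/-- **the events have probability `→ 1` for every `s ≥ 0`** -/
theorem GMean_whp (d : ℕ) [NeZero d] {s E ρ : ℝ} (hs : 0 ≤ s) (K : ℝ) (hE : E ≠ d)
    (hIm : ImFix d s E ρ) (i : EIx d) (δ : ℝ) (hδ : 0 < δ) :
    ∃ N : ℕ, ∀ n, N ≤ n → portLaw d n (GMean d s E K i n)ᶜ ≤ ENNReal.ofReal δ := by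
  rcases hs.eq_or_lt with h | h
  · subst h
    exact GMean_whp_zero d K hE hIm i δ hδ
  · exact GMean_whp_pos d h E K i δ hδ

end Crest.Agent.R166.Mean974
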