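import Crest.Agent.R166.Spine_419
import Crest.Agent.R166.Ports_269

/-!
Row 166: measurability tools (helper423).

`EM A`: entrywise measurable matrix valued function; closed under all algebraic operations and
matrix inverse.  Measurability of the Laplace weight, of `mn`, of `TestVal`; `EG` as an integral
over `law n d`.
-/

set_option autoImplicit false

namespace Crest.Agent.R166.Meas423

open MeasureTheory ProbabilityTheory Crest.ProbabilityR.RandomMatrix Crest.Agent.R166

/-! ### Entrywise measurable matrices -/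

section EM

variable {X 𝕜 : Type*} [MeasurableSpace X] [MeasurableSpace 𝕜] {ι κ τ : Type*}

/-- entrywise measurable matrix valued map -/
def EM (A : X → Matrix ι κ 𝕜) : Prop := ∀ i j, Measurable fun x => A x i j

theorem EM.const (A : Matrix ι κ 𝕜) : EM fun _ : X => A := fun _ _ => measurable_const

theorem EM.comp {Y : Type*} [MeasurableSpace Y] {A : X → Matrix ι κ 𝕜} (hA : EM A) {φ : Y → X}
    (hφ : Measurable φ) : EM fun y => A (φ y) := fun i j => (hA i j).comp hφ

theorem EM.transpose {A : X → Matrix ι κ 𝕜} (hA : EM A) : EM fun x => (A x).transpose :=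
  fun i j => hA j i

theorem EM.map {𝕜' : Type*} [MeasurableSpace 𝕜'] {A : X → Matrix ι κ 𝕜} (hA : EM A)
    {φ : 𝕜 → 𝕜'} (hφ : Measurable φ) : EM fun x => (A x).map φ :=
  fun i j => hφ.comp (hA i j)

theorem EM.submatrix {ι' κ' : Type*} {A : X → Matrix ι κ 𝕜} (hA : EM A) (f : ι' → ι) (g : κ' → κ) :
    EM fun x => (A x).submatrix f g := fun i j => hA (f i) (g j)

theorem EM.add [Add 𝕜] [MeasurableAdd₂ 𝕜] {A B : X → Matrix ι κ 𝕜} (hA : EM A) (hB : EM B) :
    EM fun x => A x + B x := fun i j => (hA i j).add (hB i j)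

theorem EM.sub [Sub 𝕜] [MeasurableSub₂ 𝕜] {A B : X → Matrix ι κ 𝕜} (hA : EM A) (hB : EM B) :
    EM fun x => A x - B x := fun i j => (hA i j).sub (hB i j)

theorem EM.smul [Mul 𝕜] [MeasurableMul₂ 𝕜] {c : X → 𝕜} (hc : Measurable c)
    {A : X → Matrix ι κ 𝕜} (hA : EM A) : EM fun x => c x • A x :=
  fun i j => hc.mul (hA i j)

theorem EM.mul [Fintype κ] [NonUnitalNonAssocSemiring 𝕜] [MeasurableAdd₂ 𝕜] [MeasurableMul₂ 𝕜]
    {A : X → Matrix ι κ 𝕜} {B : X → Matrix κ τ 𝕜} (hA : EM A) (hB : EM B) :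
    EM fun x => A x * B x := by
  intro i j
  simp only [Matrix.mul_apply]
  exact Finset.measurable_sum _ fun k _ => (hA i k).mul (hB k j)

theorem EM.det [Fintype ι] [DecidableEq ι] [CommRing 𝕜] [MeasurableAdd₂ 𝕜] [MeasurableMul₂ 𝕜]
    {A : X → Matrix ι ι 𝕜} (hA : EM A) : Measurable fun x => (A x).det := by
  simp only [Matrix.det_apply']
  refine Finset.measurable_sum _ fun σ _ => Measurable.const_mul ?_ _
  exact Finset.measurable_prod _ fun i _ => hA _ _

theorem EM.trace [Fintype ι] [AddCommMonoid 𝕜] [MeasurableAdd₂ 𝕜]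
    {A : X → Matrix ι ι 𝕜} (hA : EM A) : Measurable fun x => (A x).trace := by
  simp only [Matrix.trace, Matrix.diag_apply]
  exact Finset.measurable_sum _ fun i _ => hA i i

theorem EM.adjugate [Fintype ι] [DecidableEq ι] [CommRing 𝕜] [MeasurableAdd₂ 𝕜]
    [MeasurableMul₂ 𝕜] {A : X → Matrix ι ι 𝕜} (hA : EM A) : EM fun x => (A x).adjugate := by
  intro i j
  simp only [Matrix.adjugate_apply]
  refine EM.det fun k l => ?_
  simp only [Matrix.updateRow_apply]
  split_ifs
  · exact measurable_const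
  · exact hA k l

theorem EM.inv [Fintype ι] [DecidableEq ι] [Field 𝕜] [MeasurableAdd₂ 𝕜] [MeasurableMul₂ 𝕜]
    [MeasurableInv 𝕜] {A : X → Matrix ι ι 𝕜} (hA : EM A) : EM fun x => (A x)⁻¹ := by
  simp only [Matrix.inv_def, Ring.inverse_eq_inv']
  exact EM.smul hA.det.inv hA.adjugate

theorem EM.pow [Fintype ι] [DecidableEq ι] [Semiring 𝕜] [MeasurableAdd₂ 𝕜] [MeasurableMul₂ 𝕜]
    {A : X → Matrix ι ι 𝕜} (hA : EM A) (k : ℕ) : EM fun x => A x ^ k := by
  induction k with
  | zero => simp only [pow_zero]; exact EM.const _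
  | succ k ih => simp only [pow_succ]; exact ih.mul hA

/-- a continuous function of an entrywise measurable complex matrix is measurable -/
theorem EM.continuous_comp {m : ℕ} {A : X → Matrix (Fin m) (Fin m) ℂ} (hA : EM A)
    {f : Matrix (Fin m) (Fin m) ℂ → ℝ} (hf : Continuous f) : Measurable fun x => f (A x) := by
  have h1 : Measurable (fun x : X => (fun i j => A x i j : Fin m → Fin m → ℂ)) :=
    measurable_pi_iff.2 fun i => measurable_pi_iff.2 fun j => hA i j
  have h2 : Continuous (fun B : Fin m → Fin m → ℂ => f B) := hf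
  exact h2.measurable.comp h1

end EM

/-! ### The random matrices -/

theorem EM_Hm_omega {n : ℕ} (G : SimpleGraph (Fin n)) (s : ℝ) :
    EM fun ω : Fin n → ℝ => Hm G s ω := by
  classical
  intro i j
  simp only [Hm, Matrix.add_apply, Matrix.smul_apply, smul_eq_mul, Matrix.diagonal_apply]
  by_cases h : i = j
  · simp only [h, if_true]
    have h2 : Measurable fun ω : Fin n → ℝ => ω j := measurable_pi_apply j
    exact (h2.const_mul s).const_add _
  · simp only [h, if_false]
    exact measurable_const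

theorem measurable_of_graph {n : ℕ} {Y : Type*} [MeasurableSpace Y]
    {f : SimpleGraph (Fin n) × (Fin n → ℝ) → Y} (hf : ∀ G, Measurable fun ω => f (G, ω)) :
    Measurable f :=
  measurable_from_prod_countable_right hf

theorem EM_Hm {n : ℕ} (s : ℝ) :
    EM fun x : SimpleGraph (Fin n) × (Fin n → ℝ) => Hm x.1 s x.2 := by
  intro i j
  exact measurable_of_graph fun G => EM_Hm_omega G s i j

theorem EM_goe (n : ℕ) : EM fun g : GOEDisorder n => goeMatrix g := by
  intro i j
  have h (k l : Fin n) : Measurable fun g : GOEDisorder n => g k l :=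
    (measurable_pi_apply l).comp (measurable_pi_apply k)
  simp only [goeMatrix]
  split_ifs
  · exact ((h i i).const_mul _).div_const _
  · exact (h i j).div_const _
  · exact (h j i).div_const _

theorem Hm_isHermitian {n : ℕ} (G : SimpleGraph (Fin n)) (s : ℝ) (ω : Fin n → ℝ) :
    (Hm G s ω).IsHermitian := by
  classical
  exact (G.isHermitian_adjMatrix ℝ).add ((Matrix.isHermitian_diagonal ω).smul (IsSelfAdjoint.all s))

theorem goe_isHermitian {n : ℕ} (g : GOEDisorder n) : (goeMatrix g).IsHermitian := by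
  rw [Matrix.IsHermitian, Matrix.conjTranspose, Matrix.transpose]
  ext i j
  simp only [goeMatrix, Matrix.map_apply, star_trivial, Matrix.of_apply]
  by_cases hij : i = j
  · subst hij; simp
  · have hji : ¬ j = i := fun h => hij h.symm
    simp only [hij, hji, if_false]
    by_cases hlt : i < j
    · have : ¬ j < i := not_lt.2 hlt.le
      simp [hlt, this]
    · have : j < i := lt_of_le_of_ne (not_lt.1 hlt) hji
      simp [hlt, this]

theorem disorderedLaplaceWeight_eq {n : ℕ} (G : SimpleGraph (Fin n)) (s : ℝ) (ω : Fin n → ℝ)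
    (φ : ℝ → ℝ) :
    disorderedLaplaceWeight G s ω φ = laplaceWeight (Hm G s ω) (Hm_isHermitian G s ω) φ := rfl

theorem goeLaplaceWeight_eq {n : ℕ} (g : GOEDisorder n) (φ : ℝ → ℝ) :
    goeLaplaceWeight g φ = laplaceWeight (goeMatrix g) (goe_isHermitian g) φ := rfl

/-! ### Measurability of spectral sums -/

section Spectral

variable {X : Type*} [MeasurableSpace X] {n : ℕ}

/-- `∑ p(λ_i) = tr p(A)` -/
theorem sum_poly_eigenvalues {A : Matrix (Fin n) (Fin n) ℝ} (hA : A.IsHermitian)
    (p : Polynomial ℝ) :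
    ∑ i, p.eval (hA.eigenvalues i) = (Polynomial.aeval A p).trace := by
  have h1 : cfc (fun t => p.eval t) A = Polynomial.aeval A p :=
    cfc_polynomial (R := ℝ) p A hA.isSelfAdjoint
  have h2 := hA.cfc_eq (fun t => p.eval t)
  rw [← h1, h2, Matrix.IsHermitian.cfc]
  rw [Unitary.conjStarAlgAut_apply, Matrix.trace_mul_cycle, Unitary.coe_star_mul_self,
    Matrix.one_mul, Matrix.trace_diagonal]
  rfl

theorem measurable_poly_sum {A : X → Matrix (Fin n) (Fin n) ℝ} (hA : EM A)
    (hH : ∀ x, (A x).IsHermitian) (p : Polynomial ℝ) :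
    Measurable fun x => ∑ i, p.eval ((hH x).eigenvalues i) := by
  simp only [sum_poly_eigenvalues]
  have h1 (x : X) : (Polynomial.aeval (A x) p).trace
      = ∑ k ∈ Finset.range (p.natDegree + 1), p.coeff k * ((A x) ^ k).trace := by
    rw [Polynomial.aeval_eq_sum_range, Matrix.trace_sum]
    simp only [Matrix.trace_smul, smul_eq_mul]
  simp only [h1]
  exact Finset.measurable_sum _ fun k _ => (hA.pow k).trace.const_mul _

/-- measurability of `∑ φ(λ_i)` for continuous `φ` (Weierstrass on `[-k,k]`) -/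
theorem measurable_sum_eigenvalues {A : X → Matrix (Fin n) (Fin n) ℝ} (hA : EM A)
    (hH : ∀ x, (A x).IsHermitian) {φ : ℝ → ℝ} (hφ : Continuous φ) :
    Measurable fun x => ∑ i, φ ((hH x).eigenvalues i) := by
  have hex : ∀ k : ℕ, ∃ p : Polynomial ℝ, ∀ t ∈ Set.Icc (-(k : ℝ)) k,
      |p.eval t - φ t| < 1 / ((k : ℝ) + 1) := fun k =>
    exists_polynomial_near_of_continuousOn _ _ φ hφ.continuousOn _ (by positivity)
  choose p hp using hex
  refine measurable_of_tendsto_metrizable (fun k => measurable_poly_sum hA hH (p k)) ?_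
  rw [tendsto_pi_nhds]
  intro x
  refine tendsto_finsetSum _ fun i _ => ?_
  rw [tendsto_iff_dist_tendsto_zero]
  have hlim : Filter.Tendsto (fun k : ℕ => 1 / ((k : ℝ) + 1)) Filter.atTop (nhds 0) :=
    tendsto_one_div_add_atTop_nhds_zero_nat
  refine squeeze_zero' (Filter.Eventually.of_forall fun k => dist_nonneg) ?_ hlim
  obtain ⟨k0, hk0⟩ := exists_nat_ge |(hH x).eigenvalues i|
  filter_upwards [Filter.eventually_ge_atTop k0] with k hk
  rw [Real.dist_eq]
  refine (hp k _ ?_).le
  have h1 : |(hH x).eigenvalues i| ≤ (k : ℝ) := hk0.trans (by exact_mod_cast hk)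
  exact abs_le.1 h1

theorem measurable_laplaceWeight {A : X → Matrix (Fin n) (Fin n) ℝ} (hA : EM A)
    (hH : ∀ x, (A x).IsHermitian) {φ : ℝ → ℝ} (hφ : Continuous φ) :
    Measurable fun x => laplaceWeight (A x) (hH x) φ :=
  Real.measurable_exp.comp (measurable_sum_eigenvalues hA hH hφ).neg

theorem laplaceWeight_nonneg {A : Matrix (Fin n) (Fin n) ℝ} (hA : A.IsHermitian) (φ : ℝ → ℝ) :
    0 ≤ laplaceWeight A hA φ := (Real.exp_pos _).le

theorem laplaceWeight_le_one {A : Matrix (Fin n) (Fin n) ℝ} (hA : A.IsHermitian) {φ : ℝ → ℝ}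
    (hφ : ∀ t, 0 ≤ φ t) : laplaceWeight A hA φ ≤ 1 := by
  unfold laplaceWeight
  rw [Real.exp_le_one_iff, neg_nonpos]
  exact Finset.sum_nonneg fun i _ => hφ _

theorem EM_Res {A : X → Matrix (Fin n) (Fin n) ℝ} (hA : EM A) (z : ℂ) :
    EM fun x => Res (A x) z := by
  unfold Res
  exact ((hA.map Complex.measurable_ofReal).sub (EM.const _)).inv

theorem measurable_mn {A : X → Matrix (Fin n) (Fin n) ℝ} (hA : EM A) (z : ℂ) :
    Measurable fun x => mn (A x) z := by
  unfold mn
  exact (EM_Res hA z).trace.div_const _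

end Spectral

/-! ### The test array -/

section Test

variable {X : Type*} [MeasurableSpace X] {n m : ℕ}

theorem EM_testArr {A : X → Matrix (Fin n) (Fin n) ℝ} (hA : EM A) {e : X → ℝ} (he : Measurable e)
    {g : X → Fin n → Fin m → ℝ} (hg : ∀ i k, Measurable fun x => g x i k) :
    EM fun x => testArr (A x) (e x) (g x) := by
  have hG : EM fun x => (Matrix.of (g x)) := fun i k => hg i k
  have h1 : EM fun x => e x • (1 : Matrix (Fin n) (Fin n) ℝ) := EM.smul he (EM.const _)
  unfold testArr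
  exact EM.smul measurable_const ((hG.transpose.mul (hA.sub h1).inv).mul hG)

theorem EM_Cay {C : X → Matrix (Fin m) (Fin m) ℝ} (hC : EM C) : EM fun x => Cay (C x) := by
  unfold Cay
  have h1 : EM fun x => (C x).map (fun t : ℝ => (t : ℂ)) := hC.map Complex.measurable_ofReal
  exact (h1.sub (EM.const _)).mul (h1.add (EM.const _)).inv

theorem EM_uOf {A : X → Matrix (Fin n) (Fin n) ℝ} (hA : EM A) (E ρ K : ℝ) {x : X → ℝ}
    (hx : Measurable x) {g : X → Fin n → Fin m → ℝ} (hg : ∀ i k, Measurable fun y => g y i k) :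
    EM fun y => uOf (A y) E ρ K (x y) (g y) := by
  unfold uOf
  have h2 : Measurable fun y => (mn (A y) (zz E K n)).re :=
    Complex.measurable_re.comp (measurable_mn hA _)
  have h1 : EM fun y => (mn (A y) (zz E K n)).re • (1 : Matrix (Fin m) (Fin m) ℝ) :=
    EM.smul h2 (EM.const _)
  exact EM_Cay (EM.smul measurable_const
    ((EM_testArr hA (measurable_const.add (hx.div_const _)) hg).sub h1))

instance (n m : ℕ) : IsProbabilityMeasure (gaussM n m) := by
  unfold gaussM; infer_instance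

/-- joint measurability in `(y, x)` of the inner Gaussian integral -/
theorem stronglyMeasurable_inner {A : X → Matrix (Fin n) (Fin n) ℝ} (hA : EM A) (E ρ K : ℝ)
    {f : Matrix (Fin m) (Fin m) ℂ → ℝ} (hf : Continuous f) :
    StronglyMeasurable fun p : X × ℝ => ∫ g, f (uOf (A p.1) E ρ K p.2 g) ∂gaussM n m := by
  have h1 : Measurable fun q : (X × ℝ) × (Fin n → Fin m → ℝ) =>
      f (uOf (A q.1.1) E ρ K q.1.2 q.2) := by
    refine EM.continuous_comp (EM_uOf (hA.comp (measurable_fst.comp measurable_fst)) E ρ K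
      (measurable_snd.comp measurable_fst) fun i k => ?_) hf
    exact (measurable_pi_apply k).comp ((measurable_pi_apply i).comp measurable_snd)
  exact h1.stronglyMeasurable.integral_prod_right (ν := gaussM n m)

theorem measurable_TestVal {A : X → Matrix (Fin n) (Fin n) ℝ} (hA : EM A) (E ρ K : ℝ) {δ : ℝ}
    (hδ : 0 ≤ δ) {f : Matrix (Fin m) (Fin m) ℂ → ℝ} (hf : Continuous f) :
    Measurable fun y => TestVal (A y) E ρ K δ m f := by
  unfold TestVal
  simp only [intervalIntegral.integral_of_le hδ]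
  have h1 : StronglyMeasurable fun y : X => ∫ x in Set.Ioc 0 δ, ∫ g, f (uOf (A y) E ρ K x g)
      ∂gaussM n m :=
    (stronglyMeasurable_inner hA E ρ K hf).integral_prod_right
      (ν := volume.restrict (Set.Ioc 0 δ))
  exact h1.measurable.const_mul _

end Test

/-! ### Bounds for `TestVal` -/

section Bounds

variable {n m : ℕ}

theorem measurable_inner (H : Matrix (Fin n) (Fin n) ℝ) (E ρ K : ℝ)
    {f : Matrix (Fin m) (Fin m) ℂ → ℝ} (hf : Continuous f) :
    Measurable fun x : ℝ => ∫ g, f (uOf H E ρ K x g) ∂gaussM n m := by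
  have h1 : Measurable fun q : ℝ × (Fin n → Fin m → ℝ) => f (uOf H E ρ K q.1 q.2) := by
    refine EM.continuous_comp (EM_uOf (EM.const H) E ρ K measurable_fst fun i k => ?_) hf
    exact (measurable_pi_apply k).comp ((measurable_pi_apply i).comp measurable_snd)
  exact (h1.stronglyMeasurable.integral_prod_right (ν := gaussM n m)).measurable

theorem measurable_g (H : Matrix (Fin n) (Fin n) ℝ) (E ρ K x : ℝ)
    {f : Matrix (Fin m) (Fin m) ℂ → ℝ} (hf : Continuous f) :
    Measurable fun g : Fin n → Fin m → ℝ => f (uOf H E ρ K x g) := by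
  refine EM.continuous_comp (EM_uOf (EM.const H) E ρ K measurable_const fun i k => ?_) hf
  exact (measurable_pi_apply k).comp (measurable_pi_apply i)

theorem integrable_g (H : Matrix (Fin n) (Fin n) ℝ) (E ρ K x : ℝ)
    {f : Matrix (Fin m) (Fin m) ℂ → ℝ} (hf : Continuous f) {B : ℝ}
    (hB : ∀ g, |f (uOf H E ρ K x g)| ≤ B) :
    Integrable (fun g : Fin n → Fin m → ℝ => f (uOf H E ρ K x g)) (gaussM n m) :=
  Integrable.of_bound (measurable_g H E ρ K x hf).aestronglyMeasurable B
    (Filter.Eventually.of_forall fun g => by rw [Real.norm_eq_abs]; exact hB g)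

theorem inner_nonneg {H : Matrix (Fin n) (Fin n) ℝ} {E ρ K : ℝ}
    {f : Matrix (Fin m) (Fin m) ℂ → ℝ} (x : ℝ) (h0 : ∀ g, 0 ≤ f (uOf H E ρ K x g)) :
    0 ≤ ∫ g, f (uOf H E ρ K x g) ∂gaussM n m := integral_nonneg h0

theorem inner_le_one {H : Matrix (Fin n) (Fin n) ℝ} {E ρ K : ℝ}
    {f : Matrix (Fin m) (Fin m) ℂ → ℝ} (hf : Continuous f) (x : ℝ)
    (h0 : ∀ g, 0 ≤ f (uOf H E ρ K x g)) (h1 : ∀ g, f (uOf H E ρ K x g) ≤ 1) :
    ∫ g, f (uOf H E ρ K x g) ∂gaussM n m ≤ 1 := by
  have h2 := integral_mono (integrable_g H E ρ K x hf (B := 1) fun g => by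
    rw [abs_of_nonneg (h0 g)]; exact h1 g) (integrable_const (1 : ℝ)) h1
  simpa using h2

theorem intervalIntegrable_inner {H : Matrix (Fin n) (Fin n) ℝ} {E ρ K : ℝ}
    {f : Matrix (Fin m) (Fin m) ℂ → ℝ} (hf : Continuous f)
    (h0 : ∀ x g, 0 ≤ f (uOf H E ρ K x g)) (h1 : ∀ x g, f (uOf H E ρ K x g) ≤ 1) (a b : ℝ) :
    IntervalIntegrable (fun x => ∫ g, f (uOf H E ρ K x g) ∂gaussM n m) volume a b := by
  rw [intervalIntegrable_iff]
  refine Measure.integrableOn_of_bounded (M := 1) (by simp)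
    (measurable_inner H E ρ K hf).aestronglyMeasurable ?_
  refine Filter.Eventually.of_forall fun x => ?_
  rw [Real.norm_eq_abs, abs_of_nonneg (inner_nonneg x (h0 x))]
  exact inner_le_one hf x (h0 x) (h1 x)

theorem TestVal_nonneg {H : Matrix (Fin n) (Fin n) ℝ} {E ρ K δ : ℝ} (hδ : 0 ≤ δ)
    {f : Matrix (Fin m) (Fin m) ℂ → ℝ} (h0 : ∀ x g, 0 ≤ f (uOf H E ρ K x g)) :
    0 ≤ TestVal H E ρ K δ m f := by
  unfold TestVal
  refine mul_nonneg (inv_nonneg.2 hδ) ?_
  exact intervalIntegral.integral_nonneg hδ fun x _ => inner_nonneg x (h0 x)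

theorem TestVal_le_one {H : Matrix (Fin n) (Fin n) ℝ} {E ρ K δ : ℝ} (hδ : 0 < δ)
    {f : Matrix (Fin m) (Fin m) ℂ → ℝ} (hf : Continuous f)
    (h0 : ∀ x g, 0 ≤ f (uOf H E ρ K x g)) (h1 : ∀ x g, f (uOf H E ρ K x g) ≤ 1) :
    TestVal H E ρ K δ m f ≤ 1 := by
  unfold TestVal
  have h2 : ∫ x in (0 : ℝ)..δ, ∫ g, f (uOf H E ρ K x g) ∂gaussM n m ≤ ∫ x in (0 : ℝ)..δ, (1 : ℝ) :=
    intervalIntegral.integral_mono_on hδ.le (intervalIntegrable_inner hf h0 h1 0 δ)
      (by simp) fun x _ => inner_le_one hf x (h0 x) (h1 x)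
  rw [intervalIntegral.integral_const, sub_zero, smul_eq_mul, mul_one] at h2
  calc δ⁻¹ * _ ≤ δ⁻¹ * δ := mul_le_mul_of_nonneg_left h2 (inv_nonneg.2 hδ.le)
    _ = 1 := inv_mul_cancel₀ hδ.ne'

end Bounds

/-! ### `EG`, `EO` as integrals -/

section EG

variable {n d : ℕ}

instance (n : ℕ) : IsProbabilityMeasure (goeDisorderLaw n) := by
  unfold goeDisorderLaw; infer_instance

theorem gLaw_prob (h : (regularGraphs n d).Nonempty) : IsProbabilityMeasure (gLaw n d) := by
  constructor
  rw [gLaw, Measure.smul_apply, Measure.finsetSum_apply]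
  simp only [Measure.dirac_apply_of_mem (Set.mem_univ _), Finset.sum_const, smul_eq_mul,
    nsmul_eq_mul, mul_one]
  exact ENNReal.inv_mul_cancel (by simpa using h.ne_empty) (ENNReal.natCast_ne_top _)

theorem law_prob (h : (regularGraphs n d).Nonempty) : IsProbabilityMeasure (law n d) := by
  have := gLaw_prob h
  unfold law
  infer_instance

theorem regularAverage_eq_integral (F : SimpleGraph (Fin n) → ℝ) :
    regularAverage n d F = ∫ G, F G ∂(gLaw n d) := by
  rw [gLaw, integral_smul_measure, integral_finsetSum_measure]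
  · simp only [integral_dirac]
    rw [ENNReal.toReal_inv, ENNReal.toReal_natCast, smul_eq_mul, regularAverage, div_eq_inv_mul]
  · intro G _
    exact integrable_dirac (by simp)

/-- `EG` as an integral over the joint law -/
theorem avg_eq_integral_law (h : (regularGraphs n d).Nonempty)
    {F : SimpleGraph (Fin n) × (Fin n → ℝ) → ℝ} (hF : Integrable F (law n d)) :
    regularAverage n d (fun G => ∫ ω, F (G, ω) ∂potentialLaw n) = ∫ x, F x ∂(law n d) := by
  have := gLaw_prob h
  rw [regularAverage_eq_integral, law, integral_prod _ hF]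

theorem EG_eq (h : (regularGraphs n d).Nonempty) {s : ℝ} {Φ : Matrix (Fin n) (Fin n) ℝ → ℝ}
    (hΦ : Measurable fun x : SimpleGraph (Fin n) × (Fin n → ℝ) => Φ (Hm x.1 s x.2)) {B : ℝ}
    (hB : ∀ x : SimpleGraph (Fin n) × (Fin n → ℝ), |Φ (Hm x.1 s x.2)| ≤ B) :
    EG n d s Φ = ∫ x, Φ (Hm x.1 s x.2) ∂(law n d) := by
  have := law_prob h
  unfold EG
  refine avg_eq_integral_law h (F := fun x => Φ (Hm x.1 s x.2)) ?_
  exact Integrable.of_bound hΦ.aestronglyMeasurable B
    (Filter.Eventually.of_forall fun x => by rw [Real.norm_eq_abs]; exact hB x)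

end EG

end Crest.Agent.R166.Meas423
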