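import Crest.Agent.R166.PsiBridge_397
import Crest.Agent.R166.CMI2_47

/-!
Row 166, sections 40.8-40.10 (helper397): the entropy hypothesis `CMI47.EntHyp` from the limits
(T) + (U) in the form `SpecB1.PsiDiff`.
-/

set_option autoImplicit false

namespace Crest.Agent.R166.PsiBridge397

open MeasureTheory Filter Crest.Agent.R166.Ent397 Crest.Agent.R166.EntTree397
  Crest.Agent.R166.Words955 Crest.Agent.R166.View47 Crest.Agent.R166.CMI47

/-- the potential -/
def poS (k : ℕ) : ℝ × (Fin k → ℝ) × (Fin k → ℝ) → ℝ := fun u => u.1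

/-- the noised values -/
noncomputable def pyS (k : ℕ) (t : ℝ) : ℝ × (Fin k → ℝ) × (Fin k → ℝ) → Fin k → ℝ :=
  fun u i => u.2.1 i + Real.sqrt t * u.2.2 i

theorem measurable_poS (k : ℕ) : Measurable (poS k) := measurable_fst

theorem measurable_pyS (k : ℕ) (t : ℝ) : Measurable (pyS k t) := by
  refine measurable_pi_lambda _ fun i => ?_
  exact ((measurable_pi_apply i).comp (measurable_fst.comp measurable_snd)).add
    (((measurable_pi_apply i).comp (measurable_snd.comp measurable_snd)).const_mul _)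

section Gcol

variable {d k : ℕ} [NeZero d] {t : ℝ} {a m : ℕ}

theorem gcol_rotn (j : Fin d) (ζ : Conf d (SpecB1.S2 d k)) :
    SpecB1.gcol d k t a m (rotn j ζ) = SpecB1.gcol d k t a m ζ := by
  unfold SpecB1.gcol
  have h1 : ((rotn j ζ : Conf d (SpecB1.S2 d k)) TW.nil).2 = (ζ TW.nil).2 := dt_rotn j ζ
  rw [mapC_rotn, vview_rotn, h1]

theorem FM_gcol : FM (SpecB1.gcol d k t a m) := by
  refine FM.pair ?_ ?_
  · exact FM_vview a ((Lev47.refQ_o.fm m).comp_right (measurable_poS k))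
  · refine FM.pi fun κ => ?_
    exact (Lev47.refQ_y.fm m).comp_right
      ((measurable_pi_apply κ).comp ((measurable_pyS k t).comp measurable_dt))

/-- `SpecB1.PsiL` is `EntTree397.Psi - log d` -/
theorem PsiL_eq {Q : Measure (Conf d (SpecB1.S2 d k))} [IsProbabilityMeasure Q] (hQ : Inv Q)
    (R : ℕ) : EntTree397.Psi Q (d - 1) (fun ζ => (View47.lb ζ, SpecB1.gcol d k t a m ζ))
      cross (rotn 1) R = Real.log d + SpecB1.PsiL t Q a m R := by
  rw [Psi_conf hQ FM_gcol gcol_rotn R]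
  unfold SpecB1.PsiL
  congr

end Gcol

theorem cmC_eq (b k : ℕ) (t : ℝ) (a m : ℕ) :
    (cmC (poS k) (pyS k t) a m : Conf (b + 1) (SpecB1.S2 (b + 1) k) → CA b k a m) =
      fun ζ => (View47.lb ζ, SpecB1.gcol (b + 1) k t a m ζ) := rfl

theorem Psi_cmC {b k : ℕ} {t : ℝ} {a m : ℕ} {Q : Measure (Conf (b + 1) (SpecB1.S2 (b + 1) k))}
    [IsProbabilityMeasure Q] (hQ : Inv Q) (R : ℕ) :
    EntTree397.Psi Q b (cmC (poS k) (pyS k t) a m) cross (rotn 1) R =
      Real.log ((b + 1 : ℕ) : ℝ) + SpecB1.PsiL t Q a m R := by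
  have h := PsiL_eq (t := t) (a := a) (m := m) hQ R
  exact h

/-- `EntHyp` from the weak form of `PsiDiff` -/
theorem entHyp_of_weak {b k : ℕ} {t B : ℝ} {R : ℕ}
    {Q : Measure (Conf (b + 1) (SpecB1.S2 (b + 1) k))}
    [IsProbabilityMeasure Q] (hQ : Inv Q)
    (h : ∀ ε : ℝ, 0 < ε → ∃ᶠ m : ℕ in atTop, ∃ a0 : ℕ, ∀ a : ℕ, a0 ≤ a →
      SpecB1.PsiL t Q a m 0 - SpecB1.PsiL t Q a m R ≤ B + ε) :
    EntHyp Q (poS k) (pyS k t) R B := by
  intro e he
  refine (h e he).mono fun m hm => ?_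
  obtain ⟨a0, ha0⟩ := hm
  refine ⟨a0, fun a ha => ?_⟩
  rw [Psi_cmC hQ, Psi_cmC hQ]
  have := ha0 a ha
  linarith

/-- `EntHyp` from `PsiDiff` -/
theorem entHyp_of_psiDiff {b k : ℕ} {t q : ℝ} (R : ℕ)
    {Q : Measure (Conf (b + 1) (SpecB1.S2 (b + 1) k))}
    [IsProbabilityMeasure Q] (hQ : Inv Q) (h : SpecB1.PsiDiff t q Q) :
    EntHyp Q (poS k) (pyS k t) R ((k : ℝ) / 2 * Real.log (q / t)) := by
  refine entHyp_of_weak hQ fun ε hε => ?_
  obtain ⟨a0, m0, h1⟩ := h ε hε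
  refine Eventually.frequently ?_
  filter_upwards [eventually_ge_atTop m0] with m hm
  exact ⟨a0, fun a ha => h1 a m ha hm R⟩

/-! ### Clipped potential -/

/-- the potential truncated to `[-1, 1]` (same formula as `TreeG879.clip`) -/
def poC (k : ℕ) : ℝ × (Fin k → ℝ) × (Fin k → ℝ) → ℝ := fun u => max (-1) (min 1 u.1)

theorem measurable_poC (k : ℕ) : Measurable (poC k) :=
  measurable_const.max (measurable_const.min measurable_fst)

theorem poC_mem (k : ℕ) (u : ℝ × (Fin k → ℝ) × (Fin k → ℝ)) : poC k u ∈ Set.Icc (-1 : ℝ) 1 :=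
  ⟨le_max_left _ _, max_le (by norm_num) (min_le_left _ _)⟩

/-- the cells of the potential do not see the truncation -/
theorem oq_clip (m : ℕ) (x : ℝ) : Lev47.oq m (max (-1) (min 1 x)) = Lev47.oq m x := by
  apply Fin.ext
  rw [Lev47.oq_val, Lev47.oq_val]
  have hP : (0 : ℝ) < 2 ^ m := by positivity
  rcases lt_or_ge x (-1) with h | h
  · have h1 : max (-1) (min 1 x) = -1 := by
      rw [min_eq_right (by linarith), max_eq_left h.le]
    have h2 : ⌊(x + 1) / 2 * 2 ^ m⌋ ≤ 0 := by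
      refine Int.floor_nonpos ?_
      have : (x + 1) / 2 < 0 := by linarith
      nlinarith
    rw [h1, Int.toNat_of_nonpos h2]
    simp
  · rcases le_or_gt x 1 with h' | h'
    · rw [min_eq_right h', max_eq_right h]
    · have h1 : max (-1) (min 1 x) = 1 := by
        rw [min_eq_left h'.le, max_eq_right (by norm_num)]
      have h2 : ((2 ^ m : ℕ) : ℤ) ≤ ⌊(x + 1) / 2 * 2 ^ m⌋ := by
        rw [Int.le_floor]
        push_cast
        nlinarith
      have h3 : ⌊((1 : ℝ) + 1) / 2 * 2 ^ m⌋ = ((2 ^ m : ℕ) : ℤ) := by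
        have : ((1 : ℝ) + 1) / 2 * 2 ^ m = (((2 ^ m : ℕ) : ℤ) : ℝ) := by push_cast; ring
        rw [this, Int.floor_intCast]
      rw [h1, h3]
      have h4 : 2 ^ m ≤ (⌊(x + 1) / 2 * 2 ^ m⌋).toNat := by omega
      rw [Int.toNat_natCast, min_eq_left (Nat.sub_le _ _), min_eq_left ((Nat.sub_le _ _).trans h4)]

theorem cmC_clip (b k : ℕ) (t : ℝ) (a m : ℕ) :
    (cmC (poC k) (pyS k t) a m : Conf (b + 1) (SpecB1.S2 (b + 1) k) → CA b k a m) =
      cmC (poS k) (pyS k t) a m := by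
  funext ξ
  unfold cmC
  have h1 : (fun u : ℝ × (Fin k → ℝ) × (Fin k → ℝ) => Lev47.oq m (poC k u)) =
      fun u => Lev47.oq m (poS k u) := funext fun u => oq_clip m u.1
  rw [h1]

theorem entHyp_clip {b k : ℕ} {t B : ℝ} {R : ℕ}
    {Q : Measure (Conf (b + 1) (SpecB1.S2 (b + 1) k))} (h : EntHyp Q (poS k) (pyS k t) R B) :
    EntHyp Q (poC k) (pyS k t) R B := by
  intro e he
  refine (h e he).mono fun m hm => ?_
  obtain ⟨a0, ha0⟩ := hm
  refine ⟨a0, fun a ha => ?_⟩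
  rw [cmC_clip]
  exact ha0 a ha

/-- **the output of 40.6-40.10 at fixed `η`**, in terms of `PsiDiff`: the two sides of the root
edge are approximately independent given the environment and the two values at the edge -/
theorem approxCI_of_psiDiff {b k : ℕ} {t q : ℝ} (R : ℕ)
    {Q : Measure (Conf (b + 1) (SpecB1.S2 (b + 1) k))}
    [IsProbabilityMeasure Q] (hQ : Inv Q) (h : SpecB1.PsiDiff t q Q) :
    Lim47.ApproxCI Q (sideC (b := b) (pyS k t) id R ⊔ Ced b (poC k) (pyS k t))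
      (sideC (b := b) (pyS k t) cross R ⊔ Ced b (poC k) (pyS k t))
      (Ced b (poC k) (pyS k t))
      (2 * Real.sqrt (2 * sR b R * ((k : ℝ) / 2 * Real.log (q / t)))) :=
  approxCI_fixed hQ (measurable_poC k) (poC_mem k) (measurable_pyS k t) R _
    (entHyp_clip (entHyp_of_psiDiff R hQ h))

/-- same with the weak form of `PsiDiff` -/
theorem approxCI_of_weak {b k : ℕ} {t B : ℝ} (R : ℕ)
    {Q : Measure (Conf (b + 1) (SpecB1.S2 (b + 1) k))}
    [IsProbabilityMeasure Q] (hQ : Inv Q)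
    (h : ∀ ε : ℝ, 0 < ε → ∃ᶠ m : ℕ in atTop, ∃ a0 : ℕ, ∀ a : ℕ, a0 ≤ a →
      SpecB1.PsiL t Q a m 0 - SpecB1.PsiL t Q a m R ≤ B + ε) :
    Lim47.ApproxCI Q (sideC (b := b) (pyS k t) id R ⊔ Ced b (poC k) (pyS k t))
      (sideC (b := b) (pyS k t) cross R ⊔ Ced b (poC k) (pyS k t))
      (Ced b (poC k) (pyS k t)) (2 * Real.sqrt (2 * sR b R * B)) :=
  approxCI_fixed hQ (measurable_poC k) (poC_mem k) (measurable_pyS k t) R _
    (entHyp_clip (entHyp_of_weak hQ h))

end Crest.Agent.R166.PsiBridge397
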