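import Crest.Agent.R166.LimF_793
import Crest.Agent.R166.PsiBridge2_397
import Crest.Agent.R166.PhiAlg_879

/-!
Row 166, section 40.10 (helper47): the field `markov` of `B2.LimProc` for the limit law on
`Conf (b+1) (S2 (b+1) k)`, from 793's `ConfSetup.markov` and approximate conditional independence
of the two sides at every radius.
-/

set_option autoImplicit false

noncomputable section

namespace Crest.Agent.R166.MkvF47

open MeasureTheory Filter Topology
open Crest.Agent.R166.Words955 Crest.Agent.R166.NoiseLim849 Crest.Agent.R166.CMI47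
open Crest.Agent.R166.PsiBridge397 (poC pyS)
open Crest.Agent.R166.PhiAlg879 (wd_eq cross_eq far value_far)
open Crest.Agent.R166.Lim793 (Yw)

variable {b k : ℕ}

/-- the values `X` at the root vertex -/
abbrev X0 {d k : ℕ} [NeZero d] (ξ : Conf d (NoiseLim849.S2 d k)) : Fin k → ℝ := (ξ TW.nil).2.2.1

/-- the values `Z` at the root vertex -/
abbrev Z0 {d k : ℕ} [NeZero d] (ξ : Conf d (NoiseLim849.S2 d k)) : Fin k → ℝ := (ξ TW.nil).2.2.2

/-- the environment: labels and clipped potential -/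
abbrev EnvM (d k : ℕ) [NeZero d] : MeasurableSpace (Conf d (NoiseLim849.S2 d k)) :=
  MeasurableSpace.comap (fun (ξ : Conf d (NoiseLim849.S2 d k)) (w : TW d) =>
    ((ξ w).1, TreeG879.clip (ξ w).2.1)) (inferInstance : MeasurableSpace (TW d → Fin d × ℝ))

theorem EnvM_eq (b k : ℕ) : EnvM (b + 1) k = EnvC b (poC k) := rfl

/-- near word -/
def near {d : ℕ} [NeZero d] (w : List ℕ) (hw : B2.OutW d w) : TW d :=
  ⟨w.map (Fin.ofNat d), fun a ha => by
    obtain ⟨j, hj, rfl⟩ := List.mem_map.1 (List.mem_of_mem_tail ha)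
    obtain ⟨h1, h2⟩ := hw j hj
    intro h
    have h3 := congrArg Fin.val h
    simp only [Fin.ofNat, Fin.val_zero] at h3
    rw [Nat.mod_eq_of_lt h2] at h3
    omega⟩

theorem value_near {d : ℕ} [NeZero d] {S : Type*} [PortAct d S] (ξ : Conf d S) (w : List ℕ)
    (hw : B2.OutW d w) : B2.wd cross (rotn 1) w ξ TW.nil = ξ (near w hw) := by
  rw [wd_eq]
  exact reroot_nil (near w hw) ξ

theorem YY_near {d k : ℕ} [NeZero d] (t : ℝ) (w : List ℕ) (hw : B2.OutW d w) :
    (fun ξ : Conf d (NoiseLim849.S2 d k) => B2.YY t X0 Z0 (B2.wd cross (rotn 1) w ξ)) =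
      Yw t (near w hw) := by
  funext ξ l
  unfold B2.YY Yw
  simp only [X0, Z0]
  rw [value_near ξ w hw]

theorem YY_far {d k : ℕ} [NeZero d] (t : ℝ) (w : List ℕ) (hw : B2.OutW d w) :
    (fun ξ : Conf d (NoiseLim849.S2 d k) => B2.YY t X0 Z0 (B2.wd cross (rotn 1) w (cross ξ))) =
      Yw t (far w hw) := by
  funext ξ l
  unfold B2.YY Yw
  simp only [X0, Z0]
  rw [value_far ξ w hw]

/-- the conditioning σ-algebra of the edge Markov property -/
abbrev EdgeM (d k : ℕ) [NeZero d] (t : ℝ) : MeasurableSpace (Conf d (NoiseLim849.S2 d k)) :=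
  EnvM d k ⊔ MeasurableSpace.comap (fun ξ : Conf d (NoiseLim849.S2 d k) =>
    (B2.YY t X0 Z0 ξ, B2.YY t X0 Z0 (cross ξ))) inferInstance

theorem EdgeM_eq (b k : ℕ) (t : ℝ) : EdgeM (b + 1) k t = Ced b (poC k) (pyS k t) := by
  unfold EdgeM Ced
  rw [EnvM_eq]
  congr 1
  have h : (inferInstance : MeasurableSpace ((Fin k → ℝ) × (Fin k → ℝ))) =
      MeasurableSpace.comap Prod.fst inferInstance ⊔ MeasurableSpace.comap Prod.snd inferInstance :=
    rfl
  rw [h, MeasurableSpace.comap_sup, MeasurableSpace.comap_comp, MeasurableSpace.comap_comp]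
  rfl

/-- the two ends of the root edge -/
def e2 (d : ℕ) [NeZero d] : Fin 2 → TW d := ![TW.nil, TW.single 0]

theorem EdgeM_eq' (d k : ℕ) [NeZero d] (t : ℝ) : EdgeM d k t = EnvM d k ⊔
    ⨆ a, MeasurableSpace.comap (Yw t (e2 d a) : Conf d (NoiseLim849.S2 d k) → Fin k → ℝ)
      inferInstance := by
  unfold EdgeM
  congr 1
  have h : (inferInstance : MeasurableSpace ((Fin k → ℝ) × (Fin k → ℝ))) =
      MeasurableSpace.comap Prod.fst inferInstance ⊔ MeasurableSpace.comap Prod.snd inferInstance :=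
    rfl
  rw [h, MeasurableSpace.comap_sup, MeasurableSpace.comap_comp, MeasurableSpace.comap_comp]
  have h1 : (Prod.fst ∘ fun ξ : Conf d (NoiseLim849.S2 d k) =>
      (B2.YY t X0 Z0 ξ, B2.YY t X0 Z0 (cross ξ))) = Yw t (e2 d 0) := rfl
  have h2 : (Prod.snd ∘ fun ξ : Conf d (NoiseLim849.S2 d k) =>
      (B2.YY t X0 Z0 ξ, B2.YY t X0 Z0 (cross ξ))) = Yw t (e2 d 1) := rfl
  rw [h1, h2]
  apply le_antisymm
  · exact sup_le (le_iSup (fun a => MeasurableSpace.comap
      (Yw t (e2 d a) : Conf d (NoiseLim849.S2 d k) → Fin k → ℝ) inferInstance) 0)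
      (le_iSup (fun a => MeasurableSpace.comap
      (Yw t (e2 d a) : Conf d (NoiseLim849.S2 d k) → Fin k → ℝ) inferInstance) 1)
  · refine iSup_le fun a => ?_
    fin_cases a
    · exact le_sup_left
    · exact le_sup_right

theorem EnvM_le_pr (d k : ℕ) [NeZero d] : EnvM d k ≤
    MeasurableSpace.comap (pr : Conf d (NoiseLim849.S2 d k) → Conf d (NoiseLim849.S1 d k))
      inferInstance := by
  have h1 : Measurable fun (ζ : Conf d (NoiseLim849.S1 d k)) (w : TW d) =>
      ((ζ w).1, TreeG879.clip (ζ w).2.1) := by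
    refine measurable_pi_lambda _ fun w => ?_
    have hw : Measurable fun ζ : Conf d (NoiseLim849.S1 d k) => ζ w := measurable_pi_apply w
    exact hw.fst.prodMk ((measurable_const.max (measurable_const.min measurable_id)).comp
      hw.snd.fst)
  have h2 : (fun (ξ : Conf d (NoiseLim849.S2 d k)) (w : TW d) =>
      ((ξ w).1, TreeG879.clip (ξ w).2.1)) =
      (fun (ζ : Conf d (NoiseLim849.S1 d k)) (w : TW d) =>
        ((ζ w).1, TreeG879.clip (ζ w).2.1)) ∘ pr := rfl
  unfold EnvM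
  rw [h2, ← MeasurableSpace.comap_comp]
  exact MeasurableSpace.comap_mono h1.comap_le

/-- **The field `markov` of `LimProc`.** -/
theorem markov_field {t : ℝ} {P : Measure (Conf (b + 1) (NoiseLim849.S1 (b + 1) k))}
    {Qn : ℕ → Measure (Conf (b + 1) (NoiseLim849.S2 (b + 1) k))}
    {Q0 : Measure (Conf (b + 1) (NoiseLim849.S2 (b + 1) k))}
    {Γn : ℕ → TW (b + 1) → TW (b + 1) → Conf (b + 1) (NoiseLim849.S1 (b + 1) k) → ℝ}
    {Γ0 : TW (b + 1) → TW (b + 1) → Conf (b + 1) (NoiseLim849.S1 (b + 1) k) → ℝ}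
    (L : Lim793.ConfSetup P Qn Q0 Γn Γ0 (e2 (b + 1)))
    (hCI : ∀ R : ℕ, ∃ δ : ℕ → ℝ, Tendsto δ atTop (𝓝 0) ∧ ∀ n,
      Lim47.ApproxCI (Qn n) (sideC (b := b) (pyS k t) id R ⊔ Ced b (poC k) (pyS k t))
        (sideC (b := b) (pyS k t) cross R ⊔ Ced b (poC k) (pyS k t))
        (Ced b (poC k) (pyS k t)) (δ n))
    (F G : Conf (b + 1) (NoiseLim849.S2 (b + 1) k) → ℝ) (hFb : ∃ C, ∀ h, |F h| ≤ C)
    (hGb : ∃ C, ∀ h, |G h| ≤ C)
    (hF : Measurable[⨆ w : {w : List ℕ // B2.OutW (b + 1) w},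
      MeasurableSpace.comap (fun h => B2.YY t X0 Z0 (B2.wd cross (rotn 1) w.1 h)) inferInstance] F)
    (hG : Measurable[⨆ w : {w : List ℕ // B2.OutW (b + 1) w},
      MeasurableSpace.comap (fun h => B2.YY t X0 Z0 (B2.wd cross (rotn 1) w.1 (cross h)))
        inferInstance] G) :
    Q0[fun h => F h * G h | EdgeM (b + 1) k t] =ᵐ[Q0]
      fun h => (Q0[F | EdgeM (b + 1) k t] h) * (Q0[G | EdgeM (b + 1) k t] h) := by
  classical
  set A : Set (TW (b + 1)) := Set.range fun w : {w : List ℕ // B2.OutW (b + 1) w} =>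
    near w.1 w.2 with hA
  set B : Set (TW (b + 1)) := Set.range fun w : {w : List ℕ // B2.OutW (b + 1) w} =>
    far w.1 w.2 with hB
  have eA : (⨆ w : {w : List ℕ // B2.OutW (b + 1) w}, MeasurableSpace.comap
      (fun h : Conf (b + 1) (NoiseLim849.S2 (b + 1) k) =>
        B2.YY t X0 Z0 (B2.wd cross (rotn 1) w.1 h)) inferInstance) =
      ⨆ w ∈ A, MeasurableSpace.comap
        (Yw t w : Conf (b + 1) (NoiseLim849.S2 (b + 1) k) → Fin k → ℝ) inferInstance := by
    rw [hA, iSup_range]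
    exact iSup_congr fun w => by rw [YY_near t w.1 w.2]
  have eB : (⨆ w : {w : List ℕ // B2.OutW (b + 1) w}, MeasurableSpace.comap
      (fun h : Conf (b + 1) (NoiseLim849.S2 (b + 1) k) =>
        B2.YY t X0 Z0 (B2.wd cross (rotn 1) w.1 (cross h))) inferInstance) =
      ⨆ w ∈ B, MeasurableSpace.comap
        (Yw t w : Conf (b + 1) (NoiseLim849.S2 (b + 1) k) → Fin k → ℝ) inferInstance := by
    rw [hB, iSup_range]
    exact iSup_congr fun w => by rw [YY_far t w.1 w.2]
  rw [eA] at hF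
  rw [eB] at hG
  refine L.markov t (EnvM_le_pr (b + 1) k) (EdgeM_eq' (b + 1) k t) A B ?_ hF hG hFb hGb
  intro A' B' hA' hB'
  -- a common radius
  set R : ℕ := (A' ∪ B').sup TW.len with hR
  obtain ⟨δ, hδ, h⟩ := hCI R
  refine ⟨δ, hδ, fun n => ?_⟩
  rw [EdgeM_eq]
  refine (h n).mono ?_ ?_ le_rfl
  · refine sup_le le_sup_right (le_trans ?_ le_sup_left)
    refine iSup₂_le fun w hw => ?_
    obtain ⟨⟨l, hl⟩, rfl⟩ := hA' hw
    have hlen : l.length ≤ R := by
      have h1 : (near l hl).len ≤ R :=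
        Finset.le_sup (f := TW.len) (Finset.mem_union_left _ (Finset.mem_coe.1 hw))
      simpa [near, TW.len] using h1
    have h2 : MeasurableSpace.comap (Yw t (near l hl) :
        Conf (b + 1) (NoiseLim849.S2 (b + 1) k) → Fin k → ℝ) inferInstance =
        valC (b := b) (pyS k t) fun ξ => B2.wd cross (rotn 1) l (id ξ) := by
      rw [← YY_near t l hl]; rfl
    rw [h2]
    exact le_iSup (fun w : {w : List ℕ // B2.OutW (b + 1) w ∧ w.length ≤ R} =>
      valC (b := b) (pyS k t) fun ξ => B2.wd cross (rotn 1) w.1 (id ξ)) ⟨l, hl, hlen⟩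
  · refine sup_le le_sup_right (le_trans ?_ le_sup_left)
    refine iSup₂_le fun w hw => ?_
    obtain ⟨⟨l, hl⟩, rfl⟩ := hB' hw
    have hlen : l.length ≤ R := by
      have h1 : (far l hl).len ≤ R :=
        Finset.le_sup (f := TW.len) (Finset.mem_union_right _ (Finset.mem_coe.1 hw))
      have h2 : (far l hl).len = l.length + 1 := by simp [far, TW.len]
      omega
    have h2 : MeasurableSpace.comap (Yw t (far l hl) :
        Conf (b + 1) (NoiseLim849.S2 (b + 1) k) → Fin k → ℝ) inferInstance =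
        valC (b := b) (pyS k t) fun ξ => B2.wd cross (rotn 1) l (cross ξ) := by
      rw [← YY_far t l hl]; rfl
    rw [h2]
    exact le_iSup (fun w : {w : List ℕ // B2.OutW (b + 1) w ∧ w.length ≤ R} =>
      valC (b := b) (pyS k t) fun ξ => B2.wd cross (rotn 1) w.1 (cross ξ)) ⟨l, hl, hlen⟩

end Crest.Agent.R166.MkvF47
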