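import Mathlib

/-!
Row 166, sections 30.1/30.2/31.2: the clean Moebius chain (helper327).

`m` is the clean cavity value, `c = -(1/m) - m`, i.e. `m * (c + m) = -1`
(`c = z + (b-1) m` when `m * (z + b m) = -1`).  One step along a path is `T x = -(c + x)⁻¹`.

`T^k x - m = m^(2k) (x - m) / (1 - m S_k (x - m))`, `S_k = ∑_{i<k} m^(2i)`.
-/

set_option autoImplicit false

namespace Crest.Agent.R166.Mob327

open Complex

/-- geometric sum `1 + m^2 + ... + m^(2(k-1))` -/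
noncomputable def S (m : ℂ) (k : ℕ) : ℂ := ∑ i ∈ Finset.range k, (m ^ 2) ^ i

/-- `B_k = 1 + (m^2 - |m|^2) S_k` -/
noncomputable def B (m : ℂ) (k : ℕ) : ℂ := 1 + (m ^ 2 - (‖m‖ ^ 2 : ℝ)) * S m k

/-- the gap -/
noncomputable def tau (m : ℂ) : ℝ := (1 - ‖m‖ ^ 2) * m.im ^ 2

lemma S_zero (m : ℂ) : S m 0 = 0 := by simp [S]

lemma S_one (m : ℂ) : S m 1 = 1 := by simp [S]

lemma S_succ (m : ℂ) (k : ℕ) : S m (k + 1) = S m k + m ^ (2 * k) := by
  rw [S, S, Finset.sum_range_succ, pow_mul]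

lemma S_succ' (m : ℂ) (k : ℕ) : S m (k + 1) = 1 + m ^ 2 * S m k := by
  rw [S, S, Finset.sum_range_succ', Finset.mul_sum, add_comm]
  simp [pow_succ, mul_comm]

lemma one_sub_mul_S (m : ℂ) (k : ℕ) : (1 - m ^ 2) * S m k = 1 - m ^ (2 * k) := by
  induction k with
  | zero => simp [S_zero]
  | succ k ih =>
    rw [S_succ, mul_add, ih]; ring

lemma norm_S_le (m : ℂ) (k : ℕ) : (1 - ‖m‖ ^ 2) * ‖S m k‖ ≤ 1 - ‖m‖ ^ (2 * k) ∨ 1 ≤ ‖m‖ := by
  by_cases h : 1 ≤ ‖m‖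
  · exact Or.inr h
  left
  push Not at h
  have h1 : 0 ≤ ‖m‖ := norm_nonneg _
  have h2 : 0 ≤ 1 - ‖m‖ ^ 2 := by nlinarith
  induction k with
  | zero => simp [S_zero]
  | succ k ih =>
    rw [S_succ]
    have h3 : ‖S m k + m ^ (2 * k)‖ ≤ ‖S m k‖ + ‖m‖ ^ (2 * k) := by
      refine (norm_add_le _ _).trans ?_
      rw [norm_pow]
    have h4 := mul_le_mul_of_nonneg_left h3 h2
    refine h4.trans ?_
    rw [mul_add]
    have : ‖m‖ ^ (2 * (k + 1)) = ‖m‖ ^ 2 * ‖m‖ ^ (2 * k) := by ring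
    rw [this]
    nlinarith [ih]

lemma B_eq (m : ℂ) (k : ℕ) : B m k = m ^ (2 * k) + ((1 - ‖m‖ ^ 2 : ℝ) : ℂ) * S m k := by
  have := one_sub_mul_S m k
  rw [B]
  push_cast
  linear_combination -this

lemma norm_one_add_sq (m : ℂ) : ‖1 + m ^ 2‖ ^ 2 = (1 + ‖m‖ ^ 2) ^ 2 - 4 * m.im ^ 2 := by
  rw [← Complex.normSq_eq_norm_sq, ← Complex.normSq_eq_norm_sq, Complex.normSq_apply,
    Complex.normSq_apply]
  simp [pow_two]
  ring

lemma im_sq_le (m : ℂ) : m.im ^ 2 ≤ ‖m‖ ^ 2 := by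
  rw [← Complex.normSq_eq_norm_sq, Complex.normSq_apply]
  nlinarith [mul_self_nonneg m.re]

lemma norm_one_add_sq_le {m : ℂ} (h : ‖m‖ ≤ 1) : ‖1 + m ^ 2‖ ≤ 1 + ‖m‖ ^ 2 - m.im ^ 2 := by
  have h0 : 0 ≤ ‖m‖ := norm_nonneg _
  have h1 := norm_one_add_sq m
  have h2 := im_sq_le m
  have h3 : 0 ≤ 1 + ‖m‖ ^ 2 - m.im ^ 2 := by nlinarith
  refine abs_le_of_sq_le_sq' ?_ h3 |>.2
  rw [h1]
  have h4 : ‖m‖ ^ 2 ≤ 1 := by nlinarith
  nlinarith [sq_nonneg (m.im ^ 2), sq_nonneg m.im]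

/-- `‖B_k‖ ≤ 1 - τ` for `k ≥ 1`. -/
theorem norm_B_le {m : ℂ} (h : ‖m‖ < 1) {k : ℕ} (hk : 1 ≤ k) : ‖B m k‖ ≤ 1 - tau m := by
  have h0 : 0 ≤ ‖m‖ := norm_nonneg _
  have h2 : 0 ≤ 1 - ‖m‖ ^ 2 := by nlinarith
  have hims := im_sq_le m
  obtain ⟨k, rfl⟩ : ∃ j, k = j + 1 := ⟨k - 1, by omega⟩
  rcases Nat.eq_zero_or_pos k with rfl | hk'
  · -- k = 1
    have e : B m 1 = 1 + m ^ 2 - (‖m‖ ^ 2 : ℝ) := by
      rw [B, S_one]; ring
    have h3 : ‖B m 1‖ ^ 2 = 1 - 4 * m.im ^ 2 * (1 - ‖m‖ ^ 2) := by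
      rw [e, ← Complex.normSq_eq_norm_sq, Complex.normSq_apply, ← Complex.normSq_eq_norm_sq,
        Complex.normSq_apply]
      simp [pow_two]
      ring
    have h4 : tau m ≤ 1 := by
      unfold tau
      nlinarith [sq_nonneg m.im, mul_nonneg h2 (sq_nonneg m.im)]
    refine abs_le_of_sq_le_sq' ?_ (by linarith) |>.2
    rw [zero_add, h3]
    unfold tau
    nlinarith [sq_nonneg ((1 - ‖m‖ ^ 2) * m.im ^ 2), mul_nonneg h2 (sq_nonneg m.im)]
  · obtain ⟨j, rfl⟩ : ∃ j, k = j + 1 := ⟨k - 1, by omega⟩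
    rw [B_eq, S_succ', S_succ']
    have e : m ^ (2 * (j + 1 + 1)) + ((1 - ‖m‖ ^ 2 : ℝ) : ℂ) * (1 + m ^ 2 * (1 + m ^ 2 * S m j))
        = m ^ (2 * (j + 1 + 1)) + ((1 - ‖m‖ ^ 2 : ℝ) : ℂ) * (1 + m ^ 2)
          + m ^ 4 * (((1 - ‖m‖ ^ 2 : ℝ) : ℂ) * S m j) := by ring
    rw [e]
    have hS : (1 - ‖m‖ ^ 2) * ‖S m j‖ ≤ 1 - ‖m‖ ^ (2 * j) := by
      rcases norm_S_le m j with h5 | h5
      · exact h5
      · exact absurd h5 (not_le.mpr h)
    have hn : ‖((1 - ‖m‖ ^ 2 : ℝ) : ℂ)‖ = 1 - ‖m‖ ^ 2 := by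
      rw [Complex.norm_real, Real.norm_of_nonneg h2]
    have h6 := norm_add_le (m ^ (2 * (j + 1 + 1)) + ((1 - ‖m‖ ^ 2 : ℝ) : ℂ) * (1 + m ^ 2))
      (m ^ 4 * (((1 - ‖m‖ ^ 2 : ℝ) : ℂ) * S m j))
    have h7 := norm_add_le (m ^ (2 * (j + 1 + 1))) (((1 - ‖m‖ ^ 2 : ℝ) : ℂ) * (1 + m ^ 2))
    rw [norm_mul, norm_mul, norm_pow, hn] at h6
    rw [norm_mul, norm_pow, hn] at h7
    have h8 := norm_one_add_sq_le h.le
    have h9 : ‖m‖ ^ 4 * ((1 - ‖m‖ ^ 2) * ‖S m j‖) ≤ ‖m‖ ^ 4 * (1 - ‖m‖ ^ (2 * j)) :=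
      mul_le_mul_of_nonneg_left hS (by positivity)
    have h10 : (1 - ‖m‖ ^ 2) * ‖1 + m ^ 2‖ ≤ (1 - ‖m‖ ^ 2) * (1 + ‖m‖ ^ 2 - m.im ^ 2) :=
      mul_le_mul_of_nonneg_left h8 h2
    have h11 : ‖m‖ ^ (2 * (j + 1 + 1)) = ‖m‖ ^ 4 * ‖m‖ ^ (2 * j) := by ring
    unfold tau
    nlinarith [h6, h7, h9, h10, h11]

lemma tau_pos {m : ℂ} (h : ‖m‖ < 1) (hm : 0 < m.im) : 0 < tau m := by
  unfold tau
  have h0 : 0 ≤ ‖m‖ := norm_nonneg _
  have h2 : 0 < 1 - ‖m‖ ^ 2 := by nlinarith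
  positivity

/-! ### abstract (operator / vector) form -/

section vec

variable {E : Type*} [NormedAddCommGroup E] [InnerProductSpace ℂ E]

/-- `‖(A - m) u‖ ≤ ‖(A - conj m) u‖` if `Im ⟪u, A u⟫ ≥ 0`, `Im m ≥ 0`. -/
lemma norm_sub_smul_le (u v : E) (m : ℂ) (hm : 0 ≤ m.im) (huv : 0 ≤ (inner ℂ u v).im) :
    ‖v - m • u‖ ≤ ‖v - (starRingEnd ℂ m) • u‖ := by
  have e : v - (starRingEnd ℂ m) • u = (v - m • u) + ((2 * m.im : ℝ) * I : ℂ) • u := by
    have : (starRingEnd ℂ m) = m - ((2 * m.im : ℝ) * I : ℂ) := by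
      apply Complex.ext <;> simp
      ring
    rw [this, sub_smul]
    abel
  have h1 : ‖v - (starRingEnd ℂ m) • u‖ ^ 2 = ‖v - m • u‖ ^ 2 + 4 * m.im * (inner ℂ u v).im := by
    rw [e, norm_add_sq (𝕜 := ℂ), norm_smul, inner_smul_right, inner_sub_left, inner_smul_left]
    have h2 : (inner ℂ v u).im = -(inner ℂ u v).im := by
      rw [← inner_conj_symm v u, Complex.conj_im]
    have h3 : inner ℂ u u = ((‖u‖ ^ 2 : ℝ) : ℂ) := by
      rw [inner_self_eq_norm_sq_to_K]; push_cast; rfl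
    have h4 : ‖((2 * m.im : ℝ) * I : ℂ)‖ = 2 * m.im := by
      rw [norm_mul, Complex.norm_I, mul_one, Complex.norm_real, Real.norm_of_nonneg (by linarith)]
    rw [h3, h4]
    simp only [RCLike.re_to_complex, Complex.mul_re, Complex.sub_re, Complex.sub_im,
      Complex.mul_im, Complex.ofReal_re, Complex.ofReal_im, Complex.I_re, Complex.I_im,
      Complex.conj_re, Complex.conj_im, h2]
    ring
  refine abs_le_of_sq_le_sq' ?_ (norm_nonneg _) |>.2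
  rw [h1]
  have : 0 ≤ 4 * m.im * (inner ℂ u v).im := by positivity
  linarith

/-- lower bound for `D_k(A) u = u - m S_k (A u - m u)`. -/
theorem norm_D_ge (u v : E) {m : ℂ} (h : ‖m‖ < 1) (hm : 0 < m.im)
    (huv : 0 ≤ (inner ℂ u v).im) {k : ℕ} (hk : 1 ≤ k) :
    tau m * ‖v - (starRingEnd ℂ m) • u‖ ≤ 2 * m.im * ‖u - (m * S m k) • (v - m • u)‖ := by
  have h1 := norm_sub_smul_le u v m hm.le huv
  have h2 := norm_B_le h hk
  have h0 : 0 ≤ ‖v - m • u‖ := norm_nonneg _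
  have key : (2 * m.im * I : ℂ) • (u - (m * S m k) • (v - m • u))
      = (v - (starRingEnd ℂ m) • u) - B m k • (v - m • u) := by
    have hc : (starRingEnd ℂ m) = m - 2 * m.im * I := by
      apply Complex.ext <;> simp
      ring
    have hB : B m k = 1 + 2 * m.im * I * (m * S m k) := by
      rw [B]
      have : (m ^ 2 - (‖m‖ ^ 2 : ℝ) : ℂ) = 2 * m.im * I * m := by
        have h3 : ((‖m‖ ^ 2 : ℝ) : ℂ) = m * starRingEnd ℂ m := by
          rw [Complex.mul_conj, Complex.normSq_eq_norm_sq]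
        rw [h3, hc]; ring
      rw [this]; ring
    rw [hB, hc]
    module
  have h4 : ‖(2 * m.im * I : ℂ) • (u - (m * S m k) • (v - m • u))‖
      = 2 * m.im * ‖u - (m * S m k) • (v - m • u)‖ := by
    rw [norm_smul]; simp [abs_of_pos hm]
  rw [← h4, key]
  have h5 := norm_sub_norm_le (v - (starRingEnd ℂ m) • u) (B m k • (v - m • u))
  rw [norm_smul] at h5
  have h6 : ‖B m k‖ * ‖v - m • u‖ ≤ (1 - tau m) * ‖v - m • u‖ :=
    mul_le_mul_of_nonneg_right h2 h0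
  have h7 : 0 ≤ 1 - tau m := (norm_nonneg _).trans h2
  have h8 : (1 - tau m) * ‖v - m • u‖ ≤ (1 - tau m) * ‖v - (starRingEnd ℂ m) • u‖ :=
    mul_le_mul_of_nonneg_left h1 h7
  nlinarith

/-- lower bound `‖(A - conj m) u‖ ≥ μ ‖u‖`. -/
lemma im_mul_norm_le (u v : E) (m : ℂ) (_hm : 0 ≤ m.im) (huv : 0 ≤ (inner ℂ u v).im) :
    m.im * ‖u‖ ≤ ‖v - (starRingEnd ℂ m) • u‖ := by
  by_cases hu : ‖u‖ = 0
  · rw [hu, mul_zero]; exact norm_nonneg _
  have hpos : 0 < ‖u‖ := lt_of_le_of_ne (norm_nonneg _) (Ne.symm hu)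
  have h1 : (inner ℂ u (v - (starRingEnd ℂ m) • u)).im = (inner ℂ u v).im + m.im * ‖u‖ ^ 2 := by
    rw [inner_sub_right, inner_smul_right, inner_self_eq_norm_sq_to_K]
    simp only [Complex.sub_im, Complex.mul_im, Complex.conj_re, Complex.conj_im]
    have h2 : (((‖u‖ : ℝ) : ℂ) ^ 2).im = 0 := by norm_cast
    have h3 : (((‖u‖ : ℝ) : ℂ) ^ 2).re = ‖u‖ ^ 2 := by norm_cast
    simp only [Complex.coe_algebraMap, h2, h3]
    ring
  have h4 : |(inner ℂ u (v - (starRingEnd ℂ m) • u)).im| ≤ ‖u‖ * ‖v - (starRingEnd ℂ m) • u‖ :=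
    (Complex.abs_im_le_norm _).trans (norm_inner_le_norm _ _)
  have h5 := (le_abs_self _).trans h4
  rw [h1] at h5
  have h6 : m.im * ‖u‖ ^ 2 ≤ ‖u‖ * ‖v - (starRingEnd ℂ m) • u‖ := by linarith
  have h7 : ‖u‖ * (m.im * ‖u‖) ≤ ‖u‖ * ‖v - (starRingEnd ℂ m) • u‖ := by
    calc ‖u‖ * (m.im * ‖u‖) = m.im * ‖u‖ ^ 2 := by ring
      _ ≤ _ := h6
  exact le_of_mul_le_mul_left h7 hpos

/-- exact iteration formula (vector form): if `Y (j+1) = -(c + Y j)⁻¹` then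
`Y k (D_k u) = m D_k u + m^(2k) (A u - m u)`, `A = Y 0`. -/
theorem iter_formula {m c : ℂ} (hc : m * (c + m) = -1) (Y : ℕ → (E →ₗ[ℂ] E)) (k : ℕ)
    (hY : ∀ j, j < k → ∀ w, Y (j + 1) (c • w + Y j w) = -w) (u : E) :
    Y k (u - (m * S m k) • (Y 0 u - m • u))
      = m • (u - (m * S m k) • (Y 0 u - m • u)) + m ^ (2 * k) • (Y 0 u - m • u) := by
  induction k with
  | zero => simp [S_zero]
  | succ k ih =>
    have ih' := ih (fun j hj => hY j (by omega))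
    have hm0 : m ≠ 0 := by rintro rfl; simp at hc
    set a := Y 0 u - m • u with ha
    set D := u - (m * S m k) • a with hD
    have hD' : u - (m * S m (k + 1)) • a = D - (m * m ^ (2 * k)) • a := by
      rw [hD, S_succ]; module
    have h1 : c • D + Y k D = (-(m⁻¹)) • (D - (m * m ^ (2 * k)) • a) := by
      rw [ih']
      have hcm : c = -(m⁻¹) - m := by
        field_simp
        linear_combination hc
      rw [hcm]
      have : (-(m⁻¹)) • (D - (m * m ^ (2 * k)) • a) = (-(m⁻¹)) • D + (m⁻¹ * m * m ^ (2 * k)) • a := by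
        module
      rw [this, inv_mul_cancel₀ hm0]
      module
    have h2 := hY k (by omega) D
    rw [h1, map_smul] at h2
    have h3 : Y (k + 1) (D - (m * m ^ (2 * k)) • a) = m • D := by
      have h4 := congrArg (fun t => (-m) • t) h2
      simp only [smul_smul] at h4
      have h5 : -m * -(m⁻¹) = 1 := by field_simp
      rw [h5, one_smul] at h4
      rw [h4]; module
    rw [hD', h3]
    have : m ^ (2 * (k + 1)) = m * (m * m ^ (2 * k)) := by ring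
    rw [this]; module

/-- `D_k` is injective. -/
lemma D_inj {m : ℂ} (h : ‖m‖ < 1) (hm : 0 < m.im) (A : E →ₗ[ℂ] E)
    (hA : ∀ u, 0 ≤ (inner ℂ u (A u)).im) {k : ℕ} (hk : 1 ≤ k) (u : E)
    (hu : u - (m * S m k) • (A u - m • u) = 0) : u = 0 := by
  have h1 := norm_D_ge u (A u) h hm (hA u) hk
  rw [hu, norm_zero, mul_zero] at h1
  have h2 := im_mul_norm_le u (A u) m hm.le (hA u)
  have h3 := tau_pos h hm
  have h4 : ‖A u - (starRingEnd ℂ m) • u‖ ≤ 0 := by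
    by_contra h5
    push Not at h5
    have := mul_pos h3 h5
    linarith
  have h5 : m.im * ‖u‖ ≤ 0 := h2.trans h4
  have h6 : ‖u‖ ≤ 0 := by
    by_contra h7
    push Not at h7
    have := mul_pos hm h7
    linarith
  exact norm_le_zero_iff.mp h6

/-- operator bound for the iterates. -/
theorem iter_bound [FiniteDimensional ℂ E] {m c : ℂ} (hc : m * (c + m) = -1) (h : ‖m‖ < 1)
    (hm : 0 < m.im) (Y : ℕ → (E →ₗ[ℂ] E)) {k : ℕ} (hk : 1 ≤ k)
    (hY : ∀ j, j < k → ∀ w, Y (j + 1) (c • w + Y j w) = -w)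
    (hA : ∀ u, 0 ≤ (inner ℂ u (Y 0 u)).im) (w : E) :
    tau m * ‖Y k w - m • w‖ ≤ ‖m‖ ^ (2 * k) * (2 * m.im * ‖w‖) := by
  let D : E →ₗ[ℂ] E := LinearMap.id - (m * S m k) • (Y 0 - m • LinearMap.id)
  have hDe : ∀ u, D u = u - (m * S m k) • (Y 0 u - m • u) := fun u => by simp [D]
  have hinj : Function.Injective D := by
    rw [← LinearMap.ker_eq_bot, LinearMap.ker_eq_bot']
    intro u hu
    rw [hDe] at hu
    exact D_inj h hm (Y 0) hA hk u hu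
  obtain ⟨u, rfl⟩ := (LinearMap.injective_iff_surjective.mp hinj) w
  rw [hDe]
  have h1 := iter_formula hc Y k hY u
  rw [h1, add_sub_cancel_left, norm_smul, norm_pow]
  have h2 := norm_D_ge u (Y 0 u) h hm (hA u) hk
  have h3 := norm_sub_smul_le u (Y 0 u) m hm.le (hA u)
  have h4 : tau m * ‖Y 0 u - m • u‖ ≤ tau m * ‖Y 0 u - (starRingEnd ℂ m) • u‖ :=
    mul_le_mul_of_nonneg_left h3 (tau_pos h hm).le
  have h5 := h4.trans h2
  calc tau m * (‖m‖ ^ (2 * k) * ‖Y 0 u - m • u‖)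
      = ‖m‖ ^ (2 * k) * (tau m * ‖Y 0 u - m • u‖) := by ring
    _ ≤ _ := mul_le_mul_of_nonneg_left h5 (by positivity)

end vec

/-! ### scalar form -/

/-- one step along a path -/
noncomputable def T (c x : ℂ) : ℂ := -(c + x)⁻¹

lemma im_neg_inv (w : ℂ) : (-(w⁻¹)).im = w.im / ‖w‖ ^ 2 := by
  rw [Complex.neg_im, Complex.inv_im, Complex.normSq_eq_norm_sq]; ring

lemma T_im_nonneg {c x : ℂ} (h : 0 ≤ (c + x).im) : 0 ≤ (T c x).im := by
  rw [T, im_neg_inv]; positivity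

lemma T_im_pos {c x : ℂ} (h : 0 < (c + x).im) : 0 < (T c x).im := by
  rw [T, im_neg_inv]
  have : c + x ≠ 0 := by rintro h0; rw [h0] at h; simp at h
  positivity

/-- `‖T x‖ ≤ 1 / κ` if `κ ≤ Im (c + x)`. -/
lemma norm_T_le {c x : ℂ} {κ : ℝ} (hκ : 0 < κ) (h : κ ≤ (c + x).im) : ‖T c x‖ ≤ κ⁻¹ := by
  rw [T, norm_neg, norm_inv]
  exact inv_anti₀ hκ (h.trans ((le_abs_self _).trans (Complex.abs_im_le_norm _)))

/-- difference formula -/
lemma T_sub_T {c x c' x' : ℂ} (h : c + x ≠ 0) (h' : c' + x' ≠ 0) :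
    T c x - T c' x' = ((c - c') + (x - x')) * T c x * T c' x' := by
  unfold T
  field_simp
  ring

lemma im_c {m c : ℂ} (hc : m * (c + m) = -1) (hm : 0 < m.im) :
    c.im = m.im * (1 - ‖m‖ ^ 2) / ‖m‖ ^ 2 := by
  have hm0 : m ≠ 0 := by rintro rfl; simp at hc
  have h1 : c = -(m⁻¹) - m := by
    field_simp
    linear_combination hc
  rw [h1, Complex.sub_im, im_neg_inv]
  have : ‖m‖ ^ 2 ≠ 0 := by positivity
  field_simp

lemma T_fix {m c : ℂ} (hc : m * (c + m) = -1) : T c m = m := by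
  have hm0 : m ≠ 0 := by rintro rfl; simp at hc
  have h1 : c + m = -(m⁻¹) := by
    field_simp
    linear_combination hc
  rw [T, h1]
  rw [inv_neg, inv_inv, neg_neg]

/-- scalar bounds for the iterates of the clean step. -/
theorem T_iter_bound {m c : ℂ} (hc : m * (c + m) = -1) (h : ‖m‖ < 1) (hm : 0 < m.im)
    {x : ℂ} (hx : 0 ≤ x.im) {k : ℕ} (hk : 1 ≤ k) :
    tau m * ‖(T c)^[k] x - m‖ ≤ ‖m‖ ^ (2 * k) * (2 * m.im) ∧
    tau m * ‖(T c)^[k] x - m‖ ≤ ‖m‖ ^ (2 * k) * (2 * ‖x - m‖) := by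
  have hn0 : 0 ≤ ‖m‖ := norm_nonneg _
  have hm0 : m ≠ 0 := by rintro rfl; simp at hc
  have hcim : 0 < c.im := by
    rw [im_c hc hm]
    have : 0 < 1 - ‖m‖ ^ 2 := by nlinarith
    positivity
  have him : ∀ j, 0 ≤ ((T c)^[j] x).im := by
    intro j
    induction j with
    | zero => simpa using hx
    | succ j ih =>
      rw [Function.iterate_succ_apply']
      exact T_im_nonneg (by rw [Complex.add_im]; linarith)
  have hne : ∀ j, c + (T c)^[j] x ≠ 0 := by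
    intro j h0
    have := congrArg Complex.im h0
    rw [Complex.add_im, Complex.zero_im] at this
    have := him j
    linarith
  let Y : ℕ → (ℂ →ₗ[ℂ] ℂ) := fun j => ((T c)^[j] x) • LinearMap.id
  have hYe : ∀ j w, Y j w = (T c)^[j] x * w := fun j w => by simp [Y]
  have hY : ∀ j, j < k → ∀ w, Y (j + 1) (c • w + Y j w) = -w := by
    intro j _ w
    rw [hYe, hYe, Function.iterate_succ_apply', smul_eq_mul]
    have h0 := hne j
    generalize (T c)^[j] x = y at h0 ⊢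
    rw [T]
    have : c * w + y * w = (c + y) * w := by ring
    rw [this, neg_mul, inv_mul_cancel_left₀ h0]
  have hA : ∀ u : ℂ, 0 ≤ (inner ℂ u (Y 0 u)).im := by
    intro u
    rw [hYe]
    have : inner ℂ u ((T c)^[0] x * u) = x * ((‖u‖ ^ 2 : ℝ) : ℂ) := by
      simp only [Function.iterate_zero, id_eq, RCLike.inner_apply]
      rw [mul_assoc, Complex.mul_conj, Complex.normSq_eq_norm_sq]
    rw [this, Complex.im_mul_ofReal]
    positivity
  have h1 := iter_formula hc Y k hY 1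
  have h2 := norm_D_ge (E := ℂ) 1 (Y 0 1) h hm (hA 1) hk
  have h3 := norm_sub_smul_le (E := ℂ) 1 (Y 0 1) m hm.le (hA 1)
  have h4 := im_mul_norm_le (E := ℂ) 1 (Y 0 1) m hm.le (hA 1)
  set D : ℂ := 1 - (m * S m k) • (Y 0 1 - m • 1) with hD
  have hY01 : Y 0 1 = x := by simp [hYe]
  rw [hYe] at h1
  rw [hY01] at h1 h2 h3 h4
  simp only [smul_eq_mul, mul_one, norm_one] at h1 h2 h3 h4
  have hDn : 0 < ‖D‖ := by
    have h5 := tau_pos h hm
    have h6 : 0 < ‖x - (starRingEnd ℂ) m‖ := lt_of_lt_of_le hm h4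
    have h7 := mul_pos h5 h6
    by_contra h8
    push Not at h8
    have : 2 * m.im * ‖D‖ ≤ 0 := by
      have : ‖D‖ = 0 := le_antisymm h8 (norm_nonneg _)
      rw [this]; simp
    linarith
  have h8 : ((T c)^[k] x - m) * D = m ^ (2 * k) * (x - m) := by
    rw [sub_mul, h1]; ring
  have h9 : ‖(T c)^[k] x - m‖ * ‖D‖ = ‖m‖ ^ (2 * k) * ‖x - m‖ := by
    rw [← norm_mul, h8, norm_mul, norm_pow]
  have hp : 0 ≤ ‖m‖ ^ (2 * k) := by positivity
  have ht := (tau_pos h hm).le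
  constructor
  · -- tau ‖x-m‖ ≤ 2 μ ‖D‖
    have h10 : tau m * ‖x - m‖ ≤ 2 * m.im * ‖D‖ :=
      (mul_le_mul_of_nonneg_left h3 ht).trans h2
    have h11 : (tau m * ‖(T c)^[k] x - m‖) * ‖D‖ ≤ (‖m‖ ^ (2 * k) * (2 * m.im)) * ‖D‖ := by
      calc (tau m * ‖(T c)^[k] x - m‖) * ‖D‖ = ‖m‖ ^ (2 * k) * (tau m * ‖x - m‖) := by
            rw [mul_assoc, h9]; ring
        _ ≤ ‖m‖ ^ (2 * k) * (2 * m.im * ‖D‖) := mul_le_mul_of_nonneg_left h10 hp
        _ = _ := by ring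
    exact le_of_mul_le_mul_right h11 hDn
  · have h10 : tau m * m.im ≤ 2 * m.im * ‖D‖ :=
      (mul_le_mul_of_nonneg_left h4 ht).trans h2
    have h12 : tau m ≤ 2 * ‖D‖ := by
      have : m.im * tau m ≤ m.im * (2 * ‖D‖) := by linarith
      exact le_of_mul_le_mul_left this hm
    have h11 : (tau m * ‖(T c)^[k] x - m‖) * ‖D‖ ≤ (‖m‖ ^ (2 * k) * (2 * ‖x - m‖)) * ‖D‖ := by
      calc (tau m * ‖(T c)^[k] x - m‖) * ‖D‖ = (‖m‖ ^ (2 * k) * ‖x - m‖) * tau m := by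
            rw [mul_assoc, h9]; ring
        _ ≤ (‖m‖ ^ (2 * k) * ‖x - m‖) * (2 * ‖D‖) := mul_le_mul_of_nonneg_left h12 (by positivity)
        _ = _ := by ring
    exact le_of_mul_le_mul_right h11 hDn

end Crest.Agent.R166.Mob327
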