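import Crest.Agent.R166.Res10_598
import Crest.Agent.R166.Res_789

/-!
# Row 166, section 10/30.3: Moebius calculus, corners, block diagonal matrices (helper598)

* bridge lemmas between `Res598` and `Res789`;
* `cor P Z = Pᵀ Z P` for a real rectangular `P`; Siegel, `Near`, `mob` under corners;
* `mob (P V Pᵀ) Z` (Woodbury), `mob (V+V') = mob V' ∘ mob V`, `Res (H+V) = mob V (Res H)`;
* block diagonal part `bd π Z`, decoupling lemma `near_bd`.
-/

set_option autoImplicit false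
set_option linter.unusedSectionVars false

open Matrix

namespace Crest.Agent.R166.Dec598

open Crest.Agent.R166.Res598

variable {ι κ μ : Type*} [Fintype ι] [DecidableEq ι] [Fintype κ] [DecidableEq κ]
  [Fintype μ] [DecidableEq μ]

/-! ## bridges -/

lemma cx_eq {α β : Type*} (A : Matrix α β ℝ) : Res789.cx A = cx A := rfl

lemma imM_eq {α β : Type*} (A : Matrix α β ℂ) : Res789.imM A = imM A := rfl

lemma qf_eq (Y : Matrix ι ι ℝ) (x : ι → ℂ) : Res789.qf Y x = qf Y x := by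
  rw [Res789.qf_expand]
  unfold qf vre vim
  simp only [dotProduct, Matrix.mulVec, Finset.mul_sum, ← Finset.sum_add_distrib]
  refine Finset.sum_congr rfl fun i _ => Finset.sum_congr rfl fun j _ => ?_
  ring

lemma siegel_iff {Z : Matrix ι ι ℂ} : Siegel Z ↔ Res789.Sieg Z := by
  constructor
  · intro h
    exact Res789.Sieg.of_posDef h.symm h.pos
  · intro h
    exact ⟨h.symm, h.posDef⟩

lemma siegel_Res {H : Matrix ι ι ℝ} (hH : Hᵀ = H) {z : ℂ} (hz : 0 < z.im) :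
    Siegel (Res789.Res H z) := siegel_iff.2 (Res789.Res_sieg hH hz)

/-! ## more on `mob` -/

theorem mob_unique {Z M : Matrix ι ι ℂ} (hZ : Siegel Z) {V : Matrix ι ι ℝ} (hV : Vᵀ = V)
    (h : M + Z * cx V * M = Z) : M = mob V Z := by
  have h1 := hZ.isUnit_one_add_mul hV
  rw [mob_eq hZ hV]
  have : (1 + Z * cx V) * M = Z := by rw [Matrix.add_mul, Matrix.one_mul, h]
  calc M = (1 + Z * cx V)⁻¹ * ((1 + Z * cx V) * M) := by
        rw [← Matrix.mul_assoc, Matrix.nonsing_inv_mul _ h1, Matrix.one_mul]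
    _ = _ := by rw [this]

theorem mob_fixed {Z : Matrix ι ι ℂ} (hZ : Siegel Z) {V : Matrix ι ι ℝ} (hV : Vᵀ = V) :
    mob V Z + Z * cx V * mob V Z = Z := by
  have h1 := hZ.isUnit_one_add_mul hV
  rw [mob_eq hZ hV]
  have : (1 + Z * cx V)⁻¹ * Z + Z * cx V * ((1 + Z * cx V)⁻¹ * Z) =
      (1 + Z * cx V) * (1 + Z * cx V)⁻¹ * Z := by
    rw [Matrix.mul_assoc (1 + Z * cx V), Matrix.add_mul, Matrix.one_mul]
  rw [this, Matrix.mul_nonsing_inv _ h1, Matrix.one_mul]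

theorem mob_zero (Z : Matrix ι ι ℂ) : mob 0 Z = Z := by
  have : cx (0 : Matrix ι ι ℝ) = 0 := by ext i j; simp
  rw [mob, this, Matrix.zero_mul, add_zero, inv_one, Matrix.mul_one]

theorem eq_of_inv_eq {A B : Matrix ι ι ℂ} (hA : IsUnit A.det) (hB : IsUnit B.det)
    (h : A⁻¹ = B⁻¹) : A = B := by
  have := congrArg (fun M => A * M * B) h
  simpa [Matrix.mul_nonsing_inv _ hA, Matrix.mul_assoc, Matrix.nonsing_inv_mul _ hB] using this.symm

theorem mob_add {Z : Matrix ι ι ℂ} (hZ : Siegel Z) {V V' : Matrix ι ι ℝ} (hV : Vᵀ = V)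
    (hV' : V'ᵀ = V') : mob (V + V') Z = mob V' (mob V Z) := by
  have hs : (V + V')ᵀ = V + V' := by rw [Matrix.transpose_add, hV, hV']
  apply eq_of_inv_eq (siegel_mob hZ hs).isUnit (siegel_mob (siegel_mob hZ hV) hV').isUnit
  rw [mob_inv hZ hs, mob_inv (siegel_mob hZ hV) hV', mob_inv hZ hV, cx_add, add_assoc]

theorem Res_inv {H : Matrix ι ι ℝ} (hH : Hᵀ = H) {z : ℂ} (hz : 0 < z.im) :
    (Res789.Res H z)⁻¹ = cx H - z • 1 := by
  rw [Res789.Res, Matrix.nonsing_inv_nonsing_inv _ (Res789.isUnit_det_sub hH hz)]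
  rfl

theorem Res_add {H V : Matrix ι ι ℝ} (hH : Hᵀ = H) (hV : Vᵀ = V) {z : ℂ} (hz : 0 < z.im) :
    Res789.Res (H + V) z = mob V (Res789.Res H z) := by
  have hs : (H + V)ᵀ = H + V := by rw [Matrix.transpose_add, hH, hV]
  apply eq_of_inv_eq (siegel_Res hs hz).isUnit (siegel_mob (siegel_Res hH hz) hV).isUnit
  rw [Res_inv hs hz, mob_inv (siegel_Res hH hz) hV, Res_inv hH hz, cx_add]
  abel

/-! ## corners -/

/-- corner of `Z` along a real rectangular matrix -/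
def cor (P : Matrix ι κ ℝ) (Z : Matrix ι ι ℂ) : Matrix κ κ ℂ := (cx P)ᵀ * Z * cx P

/-- the `0/1` matrix of a map -/
def emb (f : κ → ι) : Matrix ι κ ℝ := fun i k => if i = f k then 1 else 0

/-- `P` is injective as a real linear map -/
def Inj (P : Matrix ι κ ℝ) : Prop := ∀ x : κ → ℂ, cx P *ᵥ x = 0 → x = 0

lemma cx_emb_apply (f : κ → ι) (i : ι) (k : κ) :
    cx (emb f) i k = if i = f k then 1 else 0 := by
  rw [cx_apply, emb]; split_ifs <;> simp

lemma mul_emb {α : Type*} (A : Matrix α ι ℂ) (f : κ → ι) :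
    A * cx (emb f) = A.submatrix id f := by
  ext i k
  simp [Matrix.mul_apply, cx_emb_apply, -cx_apply]

lemma emb_mul {α : Type*} (A : Matrix ι α ℂ) (f : κ → ι) :
    (cx (emb f))ᵀ * A = A.submatrix f id := by
  ext i k
  simp [Matrix.mul_apply, cx_emb_apply, -cx_apply]

lemma cor_emb (f : κ → ι) (Z : Matrix ι ι ℂ) : cor (emb f) Z = Z.submatrix f f := by
  rw [cor, mul_emb, emb_mul]; rfl

lemma emb_mulVec (f : κ → ι) (x : κ → ℂ) (i : ι) :
    (cx (emb f) *ᵥ x) i = ∑ k, if i = f k then x k else 0 := by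
  simp [Matrix.mulVec, dotProduct, cx_emb_apply, -cx_apply]

lemma emb_mulVec_apply {f : κ → ι} (hf : Function.Injective f) (x : κ → ℂ) (k : κ) :
    (cx (emb f) *ᵥ x) (f k) = x k := by
  rw [emb_mulVec, Finset.sum_eq_single k]
  · simp
  · intro b _ hb
    rw [if_neg]
    exact fun h => hb (hf h).symm
  · simp

lemma inj_emb {f : κ → ι} (hf : Function.Injective f) : Inj (emb f) := by
  intro x hx
  ext k
  rw [← emb_mulVec_apply hf x k, hx]
  rfl

lemma imM_cor (P : Matrix ι κ ℝ) (Z : Matrix ι ι ℂ) : imM (cor P Z) = Pᵀ * imM Z * P := by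
  ext i j
  simp only [cor, imM_apply, Matrix.mul_apply, Matrix.transpose_apply, cx_apply, Complex.im_sum]
  refine Finset.sum_congr rfl fun a _ => ?_
  simp [Complex.mul_im]

lemma cx_transpose' {α β : Type*} (A : Matrix α β ℝ) : (cx A)ᵀ = cx Aᵀ := rfl

lemma dot_cor (P : Matrix ι κ ℝ) (Z : Matrix ι ι ℂ) (x y : κ → ℂ) :
    x ⬝ᵥ (cor P Z *ᵥ y) = (cx P *ᵥ x) ⬝ᵥ (Z *ᵥ (cx P *ᵥ y)) := by
  rw [cor, ← Matrix.mulVec_mulVec, ← Matrix.mulVec_mulVec, Matrix.dotProduct_mulVec,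
    Matrix.vecMul_transpose]

lemma cor_symm (P : Matrix ι κ ℝ) {Z : Matrix ι ι ℂ} (hZ : Zᵀ = Z) : (cor P Z)ᵀ = cor P Z := by
  rw [cor, Matrix.transpose_mul, Matrix.transpose_mul, hZ, Matrix.transpose_transpose,
    Matrix.mul_assoc]

lemma star_cx_mulVec (P : Matrix ι κ ℝ) (x : κ → ℂ) : star (cx P *ᵥ x) = cx P *ᵥ star x := by
  ext i
  simp [Matrix.mulVec, dotProduct]

lemma qf_cor (P : Matrix ι κ ℝ) {Z : Matrix ι ι ℂ} (hZ : Zᵀ = Z) (x : κ → ℂ) :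
    qf (imM (cor P Z)) x = qf (imM Z) (cx P *ᵥ x) := by
  rw [← im_form (cor_symm P hZ), dot_cor, ← star_cx_mulVec, im_form hZ]

lemma nq_cor (P : Matrix ι κ ℝ) {Z : Matrix ι ι ℂ} (hZ : Zᵀ = Z) (x : κ → ℂ) :
    nq (imM (cor P Z)) x = nq (imM Z) (cx P *ᵥ x) := by
  rw [nq, qf_cor P hZ, nq]

theorem _root_.Crest.Agent.R166.Res598.Siegel.cor {P : Matrix ι κ ℝ} (hP : Inj P)
    {Z : Matrix ι ι ℂ} (hZ : Siegel Z) : Siegel (cor P Z) := by
  refine ⟨cor_symm P hZ.symm, posDef_of_qf (imM_symm (cor_symm P hZ.symm)) fun x hx => ?_⟩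
  rw [qf_cor P hZ.symm]
  exact qf_pos hZ.pos fun h => hx (hP x h)

theorem _root_.Crest.Agent.R166.Res598.Siegel.sub {f : κ → ι} (hf : Function.Injective f)
    {Z : Matrix ι ι ℂ} (hZ : Siegel Z) : Siegel (Z.submatrix f f) := by
  rw [← cor_emb]; exact hZ.cor (inj_emb hf)

theorem _root_.Crest.Agent.R166.Res598.Near.cor {ε : ℝ} (P : Matrix ι κ ℝ)
    {Z Z' : Matrix ι ι ℂ} (hZ : Siegel Z) (h : Near ε Z Z') : Near ε (cor P Z) (cor P Z') := by
  refine ⟨cor_symm P h.1, fun x y => ?_⟩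
  have e : Dec598.cor P Z' - Dec598.cor P Z = Dec598.cor P (Z' - Z) := by
    simp only [Dec598.cor, Matrix.mul_sub, Matrix.sub_mul]
  rw [e, dot_cor, nq_cor P hZ.symm, nq_cor P hZ.symm]
  exact h.2 _ _

theorem _root_.Crest.Agent.R166.Res598.Near.sub {ε : ℝ} (f : κ → ι)
    {Z Z' : Matrix ι ι ℂ} (hZ : Siegel Z) (h : Near ε Z Z') :
    Near ε (Z.submatrix f f) (Z'.submatrix f f) := by
  rw [← cor_emb, ← cor_emb]; exact h.cor _ hZ

/-- the lift `P V Pᵀ` of a perturbation on a subset -/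
def lift (P : Matrix ι κ ℝ) (V : Matrix κ κ ℝ) : Matrix ι ι ℝ := P * V * Pᵀ

lemma lift_symm (P : Matrix ι κ ℝ) {V : Matrix κ κ ℝ} (hV : Vᵀ = V) :
    (lift P V)ᵀ = lift P V := by
  rw [lift, Matrix.transpose_mul, Matrix.transpose_mul, hV, Matrix.transpose_transpose,
    Matrix.mul_assoc]

lemma lift_add (P : Matrix ι κ ℝ) (V V' : Matrix κ κ ℝ) :
    lift P (V + V') = lift P V + lift P V' := by
  rw [lift, lift, lift, Matrix.mul_add, Matrix.add_mul]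

lemma lift_lift (P : Matrix ι κ ℝ) (Q : Matrix κ μ ℝ) (V : Matrix μ μ ℝ) :
    lift P (lift Q V) = lift (P * Q) V := by
  simp only [lift, Matrix.transpose_mul, Matrix.mul_assoc]

lemma emb_comp (f : κ → ι) (g : μ → κ) : emb f * emb g = emb (f ∘ g) := by
  ext i k
  simp [Matrix.mul_apply, emb]

/-- Woodbury for `mob` -/
theorem mob_lift {P : Matrix ι κ ℝ} (hP : Inj P) {Z : Matrix ι ι ℂ} (hZ : Siegel Z)
    {V : Matrix κ κ ℝ} (hV : Vᵀ = V) :
    mob (lift P V) Z = Z - Z * cx P * (cx V * (1 + cor P Z * cx V)⁻¹) * (cx P)ᵀ * Z := by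
  symm
  apply mob_unique hZ (lift_symm P hV)
  have h1 := (hZ.cor hP).isUnit_one_add_mul hV
  set K := (1 + cor P Z * cx V)⁻¹ with hK
  have hl : cx (lift P V) = cx P * cx V * (cx P)ᵀ := by
    rw [lift, cx_mul, cx_mul, cx_transpose']
  rw [hl]
  have key : Z * (cx P * cx V * (cx P)ᵀ) *
      (Z - Z * cx P * (cx V * K) * (cx P)ᵀ * Z) = Z * cx P * (cx V * K) * (cx P)ᵀ * Z := by
    have e1 : Z * (cx P * cx V * (cx P)ᵀ) * (Z - Z * cx P * (cx V * K) * (cx P)ᵀ * Z) =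
        Z * cx P * cx V * (1 - cor P Z * cx V * K) * (cx P)ᵀ * Z := by
      simp only [cor, Matrix.mul_sub, Matrix.sub_mul, Matrix.mul_assoc, Matrix.mul_one]
    rw [e1]
    have e2 : (1 : Matrix κ κ ℂ) - cor P Z * cx V * K = K := by
      have : (1 + cor P Z * cx V) * K = 1 := Matrix.mul_nonsing_inv _ h1
      rw [Matrix.add_mul, Matrix.one_mul] at this
      rw [← this]; abel
    rw [e2]
    simp only [Matrix.mul_assoc]
  rw [key]
  abel

theorem cor_mob {P : Matrix ι κ ℝ} (hP : Inj P) {Z : Matrix ι ι ℂ} (hZ : Siegel Z)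
    {V : Matrix κ κ ℝ} (hV : Vᵀ = V) :
    cor P (mob (lift P V) Z) = mob V (cor P Z) := by
  rw [mob_lift hP hZ hV]
  have h1 := (hZ.cor hP).isUnit_one_add_mul hV
  rw [mob_eq (hZ.cor hP) hV]
  set K := (1 + cor P Z * cx V)⁻¹ with hK
  have e1 : cor P (Z - Z * cx P * (cx V * K) * (cx P)ᵀ * Z) =
      (1 - cor P Z * cx V * K) * cor P Z := by
    simp only [cor, Matrix.mul_sub, Matrix.sub_mul, Matrix.mul_assoc, Matrix.one_mul]
  rw [e1]
  have e2 : (1 : Matrix κ κ ℂ) - cor P Z * cx V * K = K := by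
    have : (1 + cor P Z * cx V) * K = 1 := Matrix.mul_nonsing_inv _ h1
    rw [Matrix.add_mul, Matrix.one_mul] at this
    rw [← this]; abel
  rw [e2]

/-- (10.2): the resolvent block after a perturbation supported on the range of an injection -/
theorem Res_lift {H : Matrix ι ι ℝ} (hH : Hᵀ = H) {f : κ → ι} (hf : Function.Injective f)
    {V : Matrix κ κ ℝ} (hV : Vᵀ = V) {z : ℂ} (hz : 0 < z.im) :
    (Res789.Res (H + lift (emb f) V) z).submatrix f f =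
      mob V ((Res789.Res H z).submatrix f f) := by
  rw [Res_add hH (lift_symm _ hV) hz, ← cor_emb, cor_mob (inj_emb hf) (siegel_Res hH hz) hV,
    cor_emb]

lemma cor_cor (P : Matrix ι κ ℝ) (Q : Matrix κ μ ℝ) (Z : Matrix ι ι ℂ) :
    cor Q (cor P Z) = cor (P * Q) Z := by
  simp only [cor, cx_mul, Matrix.transpose_mul, Matrix.mul_assoc]

/-- entrywise bound for the change of a Siegel matrix under a lifted perturbation -/
theorem mob_lift_sub_le {P : Matrix ι κ ℝ} (hP : Inj P) {Z : Matrix ι ι ℂ} (hZ : Siegel Z)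
    {V : Matrix κ κ ℝ} (hV : Vᵀ = V) (x y : ι → ℂ) :
    ‖x ⬝ᵥ ((mob (lift P V) Z - Z) *ᵥ y)‖ ≤
      nq (imM (cor P Z))⁻¹ ((cx P)ᵀ *ᵥ (Z *ᵥ x)) * nq (imM (cor P Z))⁻¹ ((cx P)ᵀ *ᵥ (Z *ᵥ y)) := by
  rw [mob_lift hP hZ hV]
  have e1 : x ⬝ᵥ ((Z - Z * cx P * (cx V * (1 + cor P Z * cx V)⁻¹) * (cx P)ᵀ * Z - Z) *ᵥ y) =
      -(((cx P)ᵀ *ᵥ (Z *ᵥ x)) ⬝ᵥ ((cx V * (1 + cor P Z * cx V)⁻¹) *ᵥ
        ((cx P)ᵀ *ᵥ (Z *ᵥ y)))) := by
    have e2 : Z - Z * cx P * (cx V * (1 + cor P Z * cx V)⁻¹) * (cx P)ᵀ * Z - Z =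
      - ((Z * cx P) * ((cx V * (1 + cor P Z * cx V)⁻¹) * ((cx P)ᵀ * Z))) := by
      simp only [Matrix.mul_assoc]; abel
    have e3 : (Z * cx P) = ((cx P)ᵀ * Z)ᵀ := by
      rw [Matrix.transpose_mul, hZ.symm, Matrix.transpose_transpose]
    have e4 : ∀ A : Matrix κ κ ℂ, x ⬝ᵥ ((Z * cx P * (A * ((cx P)ᵀ * Z))) *ᵥ y) =
        ((cx P)ᵀ *ᵥ (Z *ᵥ x)) ⬝ᵥ (A *ᵥ ((cx P)ᵀ *ᵥ (Z *ᵥ y))) := by
      intro A
      rw [e3]
      simp only [← Matrix.mulVec_mulVec]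
      rw [Matrix.dotProduct_mulVec x, Matrix.vecMul_transpose, ← Matrix.mulVec_mulVec x]
    rw [e2, Matrix.neg_mulVec, dotProduct_neg, e4]
  rw [e1, norm_neg]
  exact (hZ.cor hP).norm_le hV _ _

end Crest.Agent.R166.Dec598
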