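import Crest.Agent.R166.GoeLL_583
import Crest.Agent.R166.Stab_269

/-!
Row 166 (helper583), section 32.E2: Wegner estimate and no mass escape for `s > 0`.

* `res_update`, `yv_update`: dependence of `R_vv` on `ω_v`
* `wegner`: `E[Im R_vv 1{y_v < κ}] ≤ (π / 2s) P(y_v < κ)`, `y_v = Im(-1/R_vv)`
* `yv_mono`: `y_v(E + iη) / η` is nonincreasing in `η`
* `noEsc_of_lowTail`
-/

set_option autoImplicit false

open MeasureTheory ProbabilityTheory Matrix
open Crest.ProbabilityR.RandomMatrix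

namespace Crest.Agent.R166.NoEsc583

open Res789 (cx imM)

section det

variable {V : Type*} [Fintype V] [DecidableEq V]

/-- `y_v = Im (-1 / R_vv)` -/
noncomputable def yv (H : Matrix V V ℝ) (z : ℂ) (v : V) : ℝ := (-(Res789.Res H z v v)⁻¹).im

lemma res_im_pos {H : Matrix V V ℝ} (hH : Hᵀ = H) {z : ℂ} (hz : 0 < z.im) (v : V) :
    0 < (Res789.Res H z v v).im := by
  have h := (Res789.Res_sieg hH hz).posDef
  exact h.diag_pos (i := v)

lemma res_ne_zero {H : Matrix V V ℝ} (hH : Hᵀ = H) {z : ℂ} (hz : 0 < z.im) (v : V) :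
    Res789.Res H z v v ≠ 0 := by
  intro h
  have := res_im_pos hH hz v
  rw [h] at this
  simp at this

/-- the matrix unit `E_vv` -/
def Ev (v : V) : Matrix V V ℝ := Matrix.diagonal (Pi.single v 1)

lemma Ev_symm (v : V) : (Ev v)ᵀ = Ev v := Matrix.diagonal_transpose _

lemma cx_Ev_apply (v i j : V) : cx (Ev v) i j = if i = v ∧ j = v then 1 else 0 := by
  rw [Res789.cx_apply, Ev, Matrix.diagonal_apply]
  by_cases hij : i = j
  · subst hij
    by_cases hv : i = v
    · subst hv; simp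
    · simp [hv]
  · by_cases hv : i = v
    · subst hv
      have : ¬ j = i := fun h => hij h.symm
      simp [hij, this]
    · simp [hij, hv]

lemma res_rank_one {H : Matrix V V ℝ} (hH : Hᵀ = H) {z : ℂ} (hz : 0 < z.im) (v : V) (t : ℝ) :
    Res789.Res (H + t • Ev v) z v v - Res789.Res H z v v =
      -(t : ℂ) * (Res789.Res (H + t • Ev v) z v v * Res789.Res H z v v) := by
  have hH' : (H + t • Ev v)ᵀ = H + t • Ev v := by
    rw [Matrix.transpose_add, Matrix.transpose_smul, hH, Ev_symm]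
  have h := Goe583.res_sub_res hH hH' hz
  have h2 : H + t • Ev v - H = t • Ev v := by abel
  rw [h2, Res789.cx_smul, mul_smul_comm, smul_mul_assoc] at h
  have h3 := congrFun (congrFun h v) v
  rw [Matrix.sub_apply, Matrix.neg_apply, Matrix.smul_apply, smul_eq_mul] at h3
  rw [h3]
  have h4 : (Res789.Res (H + t • Ev v) z * cx (Ev v) * Res789.Res H z) v v =
      Res789.Res (H + t • Ev v) z v v * Res789.Res H z v v := by
    rw [Matrix.mul_apply]
    simp only [Matrix.mul_apply, cx_Ev_apply]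
    rw [Finset.sum_eq_single v]
    · congr 1
      rw [Finset.sum_eq_single v]
      · simp
      · intro b _ hb; simp [hb]
      · simp
    · intro b _ hb
      simp [hb]
    · simp
  rw [h4]
  ring

lemma inv_res_rank_one {H : Matrix V V ℝ} (hH : Hᵀ = H) {z : ℂ} (hz : 0 < z.im) (v : V)
    (t : ℝ) :
    (Res789.Res (H + t • Ev v) z v v)⁻¹ = (Res789.Res H z v v)⁻¹ + t := by
  have hH' : (H + t • Ev v)ᵀ = H + t • Ev v := by
    rw [Matrix.transpose_add, Matrix.transpose_smul, hH, Ev_symm]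
  have h := res_rank_one hH hz v t
  have h1 := res_ne_zero hH hz v
  have h2 := res_ne_zero hH' hz v
  field_simp
  linear_combination -h

/-- `A + s diag ω` -/
noncomputable def HA (A : Matrix V V ℝ) (s : ℝ) (ω : V → ℝ) : Matrix V V ℝ :=
  A + s • Matrix.diagonal ω

lemma HA_symm {A : Matrix V V ℝ} (hA : Aᵀ = A) (s : ℝ) (ω : V → ℝ) : (HA A s ω)ᵀ = HA A s ω := by
  unfold HA
  rw [Matrix.transpose_add, Matrix.transpose_smul, hA, Matrix.diagonal_transpose]

lemma HA_update (A : Matrix V V ℝ) (s : ℝ) (ω : V → ℝ) (v : V) (t : ℝ) :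
    HA A s (Function.update ω v t) = HA A s ω + (s * (t - ω v)) • Ev v := by
  unfold HA Ev
  have : Function.update ω v t = ω + (t - ω v) • Pi.single v (1 : ℝ) := by
    ext i
    by_cases h : i = v
    · subst h; simp
    · simp [h]
  rw [this]
  ext i j
  by_cases hij : i = j
  · subst hij
    simp
    ring
  · simp [hij]

lemma inv_res_update {A : Matrix V V ℝ} (hA : Aᵀ = A) (s : ℝ) (ω : V → ℝ) {z : ℂ} (hz : 0 < z.im)
    (v : V) (t : ℝ) :
    (Res789.Res (HA A s (Function.update ω v t)) z v v)⁻¹ =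
      (Res789.Res (HA A s ω) z v v)⁻¹ + (s * (t - ω v) : ℝ) := by
  rw [HA_update, inv_res_rank_one (HA_symm hA s ω) hz]

lemma yv_update {A : Matrix V V ℝ} (hA : Aᵀ = A) (s : ℝ) (ω : V → ℝ) {z : ℂ} (hz : 0 < z.im)
    (v : V) (t : ℝ) :
    yv (HA A s (Function.update ω v t)) z v = yv (HA A s ω) z v := by
  unfold yv
  rw [inv_res_update hA s ω hz]
  simp

lemma yv_eq {H : Matrix V V ℝ} (hH : Hᵀ = H) {z : ℂ} (hz : 0 < z.im) (v : V) :
    yv H z v = (Res789.Res H z v v).im / ‖Res789.Res H z v v‖ ^ 2 := by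
  unfold yv
  rw [Complex.neg_im, Complex.inv_im, Complex.normSq_eq_norm_sq]
  ring

lemma yv_pos {H : Matrix V V ℝ} (hH : Hᵀ = H) {z : ℂ} (hz : 0 < z.im) (v : V) : 0 < yv H z v := by
  rw [yv_eq hH hz]
  have h1 := res_im_pos hH hz v
  have h2 : 0 < ‖Res789.Res H z v v‖ := norm_pos_iff.2 (res_ne_zero hH hz v)
  positivity

/-- `Im R_vv ≤ 1 / y_v` -/
lemma im_le_inv_yv {H : Matrix V V ℝ} (hH : Hᵀ = H) {z : ℂ} (hz : 0 < z.im) (v : V) :
    (Res789.Res H z v v).im ≤ 1 / yv H z v := by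
  have h1 := res_im_pos hH hz v
  have h2 : 0 < ‖Res789.Res H z v v‖ := norm_pos_iff.2 (res_ne_zero hH hz v)
  rw [yv_eq hH hz, one_div_div, le_div_iff₀ h1, ← sq]
  have h3 := Complex.abs_im_le_norm (Res789.Res H z v v)
  rw [abs_of_pos h1] at h3
  exact pow_le_pow_left₀ h1.le h3 2

/-! ### monotonicity in `η` -/

/-- Ward identity in the form `Σ_j |R_jv|² / |R_vv|² = y_v / η` -/
lemma yv_div {H : Matrix V V ℝ} (hH : Hᵀ = H) {z : ℂ} (hz : 0 < z.im) (v : V) :
    ∑ j, ‖Res789.Res H z j v / Res789.Res H z v v‖ ^ 2 = yv H z v / z.im := by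
  have h0 := res_ne_zero hH hz v
  have hT : ∀ j, Res789.Res H z j v = Res789.Res H z v j := fun j => by
    have := congrFun (congrFun (Res789.Res_transpose hH hz) v) j
    simpa using this
  rw [yv_eq hH hz, Goe583.ward_diag hH hz]
  simp only [norm_div, div_pow, hT]
  rw [← Finset.sum_div]
  have h2 : ‖Res789.Res H z v v‖ ^ 2 ≠ 0 := by
    have : 0 < ‖Res789.Res H z v v‖ := norm_pos_iff.2 h0
    positivity
  field_simp

/-- the vector `u_j = R_jv / R_vv` -/
noncomputable def uvec (H : Matrix V V ℝ) (z : ℂ) (v : V) (j : V) : ℂ :=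
  Res789.Res H z j v / Res789.Res H z v v

lemma uvec_self {H : Matrix V V ℝ} (hH : Hᵀ = H) {z : ℂ} (hz : 0 < z.im) (v : V) :
    uvec H z v v = 1 := div_self (res_ne_zero hH hz v)

lemma uvec_eq {H : Matrix V V ℝ} (hH : Hᵀ = H) {z : ℂ} (hz : 0 < z.im) {v j : V} (hj : j ≠ v) :
    ∑ k, (H j k : ℂ) * uvec H z v k = z * uvec H z v j := by
  have h := congrFun (congrFun (Res789.sub_mul_Res hH hz) j) v
  rw [Matrix.one_apply_ne hj, sub_mul, Matrix.sub_apply, smul_mul_assoc, one_mul,
    Matrix.smul_apply, smul_eq_mul, Matrix.mul_apply, sub_eq_zero] at h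
  simp only [Res789.cx_apply] at h
  unfold uvec
  simp only [← mul_div_assoc]
  rw [← Finset.sum_div, h]

/-- a real symmetric quadratic form is real -/
lemma form_real {H : Matrix V V ℝ} (hH : Hᵀ = H) (x : V → ℂ) :
    (∑ j, star (x j) * ∑ k, (H j k : ℂ) * x k).im = 0 := by
  have h1 : star (∑ j, star (x j) * ∑ k, (H j k : ℂ) * x k) =
      ∑ j, star (x j) * ∑ k, (H j k : ℂ) * x k := by
    simp only [star_sum, star_mul', star_star, Finset.mul_sum, Complex.star_def,
      Complex.conj_ofReal, Complex.conj_conj]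
    rw [Finset.sum_comm]
    refine Finset.sum_congr rfl fun j _ => Finset.sum_congr rfl fun k _ => ?_
    have : H k j = H j k := by
      have := congrFun (congrFun hH j) k
      simpa using this
    rw [this]
    ring
  have h2 : -(∑ j, star (x j) * ∑ k, (H j k : ℂ) * x k).im =
      (∑ j, star (x j) * ∑ k, (H j k : ℂ) * x k).im := by
    rw [← Complex.conj_im]
    exact congrArg Complex.im h1
  linarith

lemma yv_mono {H : Matrix V V ℝ} (hH : Hᵀ = H) {E η η' : ℝ} (hη : 0 < η) (hηη' : η ≤ η') (v : V) :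
    yv H (ze E η') v / η' ≤ yv H (ze E η) v / η := by
  rcases hηη'.eq_or_lt with rfl | hlt
  · exact le_rfl
  have hη' : 0 < η' := hη.trans hlt
  have hz : 0 < (ze E η).im := by simpa [ze] using hη
  have hz' : 0 < (ze E η').im := by simpa [ze] using hη'
  have e1 := yv_div hH hz v
  have e2 := yv_div hH hz' v
  have i1 : (ze E η).im = η := by simp [ze]
  have i2 : (ze E η').im = η' := by simp [ze]
  rw [i1] at e1
  rw [i2] at e2
  rw [← e1, ← e2]
  set u : V → ℂ := uvec H (ze E η) v with hu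
  set u' : V → ℂ := uvec H (ze E η') v with hu'
  change ∑ j, ‖u' j‖ ^ 2 ≤ ∑ j, ‖u j‖ ^ 2
  -- δ = u' - u
  have hδv : u' v - u v = 0 := by
    rw [hu, hu', uvec_self hH hz, uvec_self hH hz', sub_self]
  have key : ∑ j, star (u' j - u j) * ∑ k, (H j k : ℂ) * (u' k - u k) =
      ∑ j, star (u' j - u j) * (ze E η * (u' j - u j) + (ze E η' - ze E η) * u' j) := by
    refine Finset.sum_congr rfl fun j _ => ?_
    by_cases hj : j = v
    · subst hj
      rw [hδv]; simp
    · congr 1
      simp only [mul_sub, Finset.sum_sub_distrib]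
      rw [uvec_eq hH hz' hj, uvec_eq hH hz hj]
      ring
  have him := form_real hH (fun j => u' j - u j)
  rw [key] at him
  have hdz : ze E η' - ze E η = Complex.I * ((η' - η : ℝ) : ℂ) := by
    unfold ze; push_cast; ring
  have h3 : ∀ j, (star (u' j - u j) * (ze E η * (u' j - u j) + (ze E η' - ze E η) * u' j)).im =
      η * ‖u' j - u j‖ ^ 2 + (η' - η) * (star (u' j - u j) * u' j).re := by
    intro j
    have h4 : star (u' j - u j) * (ze E η * (u' j - u j) + (ze E η' - ze E η) * u' j) =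
        ze E η * (star (u' j - u j) * (u' j - u j)) +
          Complex.I * ((η' - η : ℝ) : ℂ) * (star (u' j - u j) * u' j) := by
      rw [hdz]; ring
    have h5 : star (u' j - u j) * (u' j - u j) = ((‖u' j - u j‖ ^ 2 : ℝ) : ℂ) := by
      rw [mul_comm, Complex.star_def, Complex.mul_conj, Complex.normSq_eq_norm_sq]
    rw [h4, h5, Complex.add_im, Complex.im_mul_ofReal, i1]
    congr 1
    rw [mul_assoc, Complex.I_mul_im, Complex.re_ofReal_mul]
  rw [Complex.im_sum, Finset.sum_congr rfl fun j _ => h3 j, Finset.sum_add_distrib,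
    ← Finset.mul_sum, ← Finset.mul_sum] at him
  have h6 : ∑ j, (star (u' j - u j) * u' j).re ≤ 0 := by
    have hD : 0 ≤ ∑ j, ‖u' j - u j‖ ^ 2 := Finset.sum_nonneg fun _ _ => by positivity
    by_contra hcon
    push Not at hcon
    have : 0 < (η' - η) * ∑ j, (star (u' j - u j) * u' j).re := mul_pos (by linarith) hcon
    have : 0 ≤ η * ∑ j, ‖u' j - u j‖ ^ 2 := mul_nonneg hη.le hD
    linarith
  have h7 : ∀ j, ‖u j‖ ^ 2 = ‖u' j‖ ^ 2 + ‖u' j - u j‖ ^ 2 -
      2 * (star (u' j - u j) * u' j).re := by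
    intro j
    simp only [← Complex.normSq_eq_norm_sq, Complex.normSq_apply, Complex.star_def,
      Complex.mul_re, Complex.conj_re, Complex.conj_im, Complex.sub_re, Complex.sub_im]
    ring
  calc ∑ j, ‖u' j‖ ^ 2 ≤ ∑ j, (‖u' j‖ ^ 2 + ‖u' j - u j‖ ^ 2 -
        2 * (star (u' j - u j) * u' j).re) := by
        rw [Finset.sum_sub_distrib, Finset.sum_add_distrib, ← Finset.mul_sum]
        have hD : 0 ≤ ∑ j, ‖u' j - u j‖ ^ 2 := Finset.sum_nonneg fun _ _ => by positivity
        linarith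
    _ = ∑ j, ‖u j‖ ^ 2 := Finset.sum_congr rfl fun j _ => (h7 j).symm

end det

end Crest.Agent.R166.NoEsc583
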