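import Crest.Agent.R166.Stab_269
import Crest.Agent.R166.Sec_269

/-!
Row 166, sections 30.5-30.6 (helper269): the observables `D²` and `(X - m) χ`, and the second
moment estimate (H4) of `Multi_383` for every `MoveSystem` on port-numbered graphs.

* `dist1 m A = min 1 ‖A - m‖`, `chi r m A = max 0 (min 1 (2 - ‖A - m‖/r))`.
* `Vp`, `gVp`, `mup`, `gmup`.
-/

set_option autoImplicit false

open Matrix Finset

namespace Crest.Agent.R166.Stab269

open Crest.Agent.R166 Crest.Agent.R166.Sec269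

attribute [local instance] Matrix.linftyOpNormedRing Matrix.linftyOpNormedAlgebra

/-- scalar matrix -/
noncomputable def sc (m : ℂ) : Matrix (Fin 2) (Fin 2) ℂ := m • 1

theorem norm_sc (m : ℂ) : ‖sc m‖ = ‖m‖ := by
  rw [sc, norm_smul, norm_one, mul_one]

/-- `D = min 1 ‖A - m‖` -/
noncomputable def dist1 (m : ℂ) (A : Matrix (Fin 2) (Fin 2) ℂ) : ℝ := min 1 ‖A - sc m‖

theorem dist1_nonneg (m : ℂ) (A : Matrix (Fin 2) (Fin 2) ℂ) : 0 ≤ dist1 m A :=
  le_min zero_le_one (norm_nonneg _)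

theorem dist1_le_one (m : ℂ) (A : Matrix (Fin 2) (Fin 2) ℂ) : dist1 m A ≤ 1 := min_le_left _ _

theorem dist1_le_norm (m : ℂ) (A : Matrix (Fin 2) (Fin 2) ℂ) : dist1 m A ≤ ‖A - sc m‖ :=
  min_le_right _ _

theorem dist1_lip (m : ℂ) (A A' : Matrix (Fin 2) (Fin 2) ℂ) :
    |dist1 m A' - dist1 m A| ≤ ‖A' - A‖ := by
  have h1 := abs_min_sub_min_le_max 1 ‖A' - sc m‖ 1 ‖A - sc m‖
  have h2 : |‖A' - sc m‖ - ‖A - sc m‖| ≤ ‖A' - A‖ := by
    have := abs_norm_sub_norm_le (A' - sc m) (A - sc m)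
    rwa [sub_sub_sub_cancel_right] at this
  refine h1.trans (max_le ?_ h2)
  rw [sub_self, abs_zero]
  exact norm_nonneg _

/-- the observable `D²` -/
noncomputable def obsD (m : ℂ) (A : Matrix (Fin 2) (Fin 2) ℂ) : ℝ := dist1 m A ^ 2

theorem obsD_isObs (m : ℂ) : Obs (obsD m) 2 (1 + ‖m‖) where
  bdd A := by
    have h0 := dist1_nonneg m A
    have h1 := dist1_le_one m A
    unfold obsD
    rw [abs_of_nonneg (by positivity)]
    nlinarith
  lip A A' := by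
    have h0 := dist1_nonneg m A
    have h1 := dist1_le_one m A
    have h0' := dist1_nonneg m A'
    have h1' := dist1_le_one m A'
    have h2 := dist1_lip m A A'
    unfold obsD
    have h3 : dist1 m A' ^ 2 - dist1 m A ^ 2 = (dist1 m A' - dist1 m A) * (dist1 m A' + dist1 m A) := by
      ring
    rw [h3, abs_mul, abs_of_nonneg (by linarith : (0 : ℝ) ≤ dist1 m A' + dist1 m A)]
    have h4 := abs_nonneg (dist1 m A' - dist1 m A)
    nlinarith
  const A A' hA hA' := by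
    have key : ∀ B : Matrix (Fin 2) (Fin 2) ℂ, 1 + ‖m‖ < ‖B‖ → dist1 m B = 1 := by
      intro B hB
      unfold dist1
      refine min_eq_left ?_
      have h1 := norm_sub_norm_le B (sc m)
      rw [norm_sc] at h1
      linarith
    unfold obsD
    rw [key A hA, key A' hA']
  Λ0 := by norm_num
  β0 := by positivity

/-- cutoff: `1` for `‖A - m‖ ≤ r`, `0` for `‖A - m‖ ≥ 2r` -/
noncomputable def chi (r : ℝ) (m : ℂ) (A : Matrix (Fin 2) (Fin 2) ℂ) : ℝ :=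
  max 0 (min 1 (2 - ‖A - sc m‖ / r))

theorem chi_nonneg (r : ℝ) (m : ℂ) (A : Matrix (Fin 2) (Fin 2) ℂ) : 0 ≤ chi r m A :=
  le_max_left _ _

theorem chi_le_one (r : ℝ) (m : ℂ) (A : Matrix (Fin 2) (Fin 2) ℂ) : chi r m A ≤ 1 :=
  max_le zero_le_one (min_le_left _ _)

theorem chi_eq_one {r : ℝ} (hr : 0 < r) {m : ℂ} {A : Matrix (Fin 2) (Fin 2) ℂ}
    (h : ‖A - sc m‖ ≤ r) : chi r m A = 1 := by
  have : (1 : ℝ) ≤ 2 - ‖A - sc m‖ / r := by
    have := (div_le_one hr).2 h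
    linarith
  unfold chi
  rw [min_eq_left this]
  exact max_eq_right zero_le_one

theorem chi_eq_zero {r : ℝ} (hr : 0 < r) {m : ℂ} {A : Matrix (Fin 2) (Fin 2) ℂ}
    (h : 2 * r ≤ ‖A - sc m‖) : chi r m A = 0 := by
  have h1 : 2 - ‖A - sc m‖ / r ≤ 0 := by
    have := (le_div_iff₀ hr).2 h
    linarith
  unfold chi
  exact max_eq_left ((min_le_right _ _).trans h1)

theorem chi_lip {r : ℝ} (hr : 0 < r) (m : ℂ) (A A' : Matrix (Fin 2) (Fin 2) ℂ) :
    |chi r m A' - chi r m A| ≤ r⁻¹ * ‖A' - A‖ := by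
  have h2 : |‖A' - sc m‖ - ‖A - sc m‖| ≤ ‖A' - A‖ := by
    have := abs_norm_sub_norm_le (A' - sc m) (A - sc m)
    rwa [sub_sub_sub_cancel_right] at this
  have h3 : |(2 - ‖A' - sc m‖ / r) - (2 - ‖A - sc m‖ / r)| ≤ r⁻¹ * ‖A' - A‖ := by
    have : (2 - ‖A' - sc m‖ / r) - (2 - ‖A - sc m‖ / r)
        = -(r⁻¹ * (‖A' - sc m‖ - ‖A - sc m‖)) := by
      field_simp
      ring
    rw [this, abs_neg, abs_mul, abs_of_pos (inv_pos.2 hr)]
    exact mul_le_mul_of_nonneg_left h2 (inv_pos.2 hr).le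
  have h0 : 0 ≤ r⁻¹ * ‖A' - A‖ := by positivity
  have h4 := abs_min_sub_min_le_max 1 (2 - ‖A' - sc m‖ / r) 1 (2 - ‖A - sc m‖ / r)
  have h5 := abs_max_sub_max_le_max 0 (min 1 (2 - ‖A' - sc m‖ / r)) 0
    (min 1 (2 - ‖A - sc m‖ / r))
  rw [sub_self, abs_zero] at h4 h5
  exact h5.trans (max_le h0 (h4.trans (max_le h0 h3)))

/-- the complex observable `(A₀₀ - m) χ(A)` -/
noncomputable def obsM (r : ℝ) (m : ℂ) (A : Matrix (Fin 2) (Fin 2) ℂ) : ℂ :=
  (A 0 0 - m) * (chi r m A : ℂ)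

theorem entry_sub_le (m : ℂ) (A : Matrix (Fin 2) (Fin 2) ℂ) : ‖A 0 0 - m‖ ≤ ‖A - sc m‖ := by
  have := entry_le_norm (A - sc m) 0 0
  simpa [sc] using this

theorem obsM_le {r : ℝ} (hr : 0 < r) (m : ℂ) (A : Matrix (Fin 2) (Fin 2) ℂ) :
    ‖obsM r m A‖ ≤ 2 * r := by
  unfold obsM
  rw [norm_mul, Complex.norm_real, Real.norm_of_nonneg (chi_nonneg _ _ _)]
  by_cases h : ‖A - sc m‖ ≤ 2 * r
  · calc ‖A 0 0 - m‖ * chi r m A ≤ (2 * r) * 1 :=
          mul_le_mul ((entry_sub_le m A).trans h) (chi_le_one _ _ _) (chi_nonneg _ _ _)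
            (by positivity)
      _ = 2 * r := mul_one _
  · rw [chi_eq_zero hr (not_le.1 h).le, mul_zero]
    positivity

theorem obsM_lip {r : ℝ} (hr : 0 < r) (m : ℂ) (A A' : Matrix (Fin 2) (Fin 2) ℂ) :
    ‖obsM r m A' - obsM r m A‖ ≤ 3 * ‖A' - A‖ := by
  have key : ∀ B B' : Matrix (Fin 2) (Fin 2) ℂ, ‖B - sc m‖ ≤ ‖B' - sc m‖ →
      ‖obsM r m B' - obsM r m B‖ ≤ 3 * ‖B' - B‖ := by
    intro B B' hBB
    have hn : 0 ≤ ‖B' - B‖ := norm_nonneg _
    by_cases h : ‖B - sc m‖ ≤ 2 * r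
    · have e : obsM r m B' - obsM r m B
          = (B' 0 0 - B 0 0) * (chi r m B' : ℂ) + (B 0 0 - m) * ((chi r m B' - chi r m B : ℝ) : ℂ) := by
        unfold obsM
        push_cast
        ring
      rw [e]
      refine (norm_add_le _ _).trans ?_
      rw [norm_mul, norm_mul, Complex.norm_real, Complex.norm_real,
        Real.norm_of_nonneg (chi_nonneg _ _ _), Real.norm_eq_abs]
      have h1 : ‖B' 0 0 - B 0 0‖ ≤ ‖B' - B‖ := by
        have := entry_le_norm (B' - B) 0 0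
        simpa using this
      have h2 : ‖B' 0 0 - B 0 0‖ * chi r m B' ≤ ‖B' - B‖ * 1 :=
        mul_le_mul h1 (chi_le_one _ _ _) (chi_nonneg _ _ _) hn
      have h3 : ‖B 0 0 - m‖ * |chi r m B' - chi r m B| ≤ (2 * r) * (r⁻¹ * ‖B' - B‖) :=
        mul_le_mul ((entry_sub_le m B).trans h) (chi_lip hr m B B') (abs_nonneg _) (by positivity)
      have h4 : (2 * r) * (r⁻¹ * ‖B' - B‖) = 2 * ‖B' - B‖ := by
        field_simp
      linarith
    · have h1 := chi_eq_zero hr (m := m) (A := B) (not_le.1 h).le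
      have h2 := chi_eq_zero hr (m := m) (A := B') ((not_le.1 h).le.trans hBB)
      unfold obsM
      rw [h1, h2]
      simp
  rcases le_total ‖A - sc m‖ ‖A' - sc m‖ with h | h
  · exact key A A' h
  · have := key A' A h
    rwa [norm_sub_rev, norm_sub_rev A A'] at this

theorem obsM_const {r : ℝ} (hr : 0 < r) (m : ℂ) {A : Matrix (Fin 2) (Fin 2) ℂ}
    (h : 2 * r + ‖m‖ < ‖A‖) : obsM r m A = 0 := by
  have h1 := norm_sub_norm_le A (sc m)
  rw [norm_sc] at h1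
  unfold obsM
  rw [chi_eq_zero hr (by linarith)]
  simp

theorem obsRe_isObs {r : ℝ} (hr : 0 < r) (hr2 : r ≤ 1 / 2) (m : ℂ) :
    Obs (fun A => (obsM r m A).re) 3 (2 * r + ‖m‖) where
  bdd A := (Complex.abs_re_le_norm _).trans ((obsM_le hr m A).trans (by linarith))
  lip A A' := by
    rw [← Complex.sub_re]
    exact (Complex.abs_re_le_norm _).trans (obsM_lip hr m A A')
  const A A' hA hA' := by rw [obsM_const hr m hA, obsM_const hr m hA']
  Λ0 := by norm_num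
  β0 := by positivity

theorem obsIm_isObs {r : ℝ} (hr : 0 < r) (hr2 : r ≤ 1 / 2) (m : ℂ) :
    Obs (fun A => (obsM r m A).im) 3 (2 * r + ‖m‖) where
  bdd A := (Complex.abs_im_le_norm _).trans ((obsM_le hr m A).trans (by linarith))
  lip A A' := by
    rw [← Complex.sub_im]
    exact (Complex.abs_im_le_norm _).trans (obsM_lip hr m A A')
  const A A' hA hA' := by rw [obsM_const hr m hA, obsM_const hr m hA']
  Λ0 := by norm_num
  β0 := by positivity

section Second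

variable {n d : ℕ} {M : Type*}

/-- the second moment estimate for a general observable of the cavity block -/
theorem second_moment_obs {Mv : Finset M} {ctr : M → HE n d} {q : ℕ}
    {sw : Equiv.Perm (HE n d) → M → Equiv.Perm (HE n d) × M}
    (hsys : MoveSystem (Ports n d) Mv (Finset.univ : Finset (HE n d)) ctr q sw)
    (hM : Mv.Nonempty) {cL : ℝ} (hcL : ∀ p ∈ Ports n d, ∀ m ∈ Mv,
      ((Ch p (sw p m).1).card : ℝ) ≤ cL) {δ₁ : ℝ}
    (hcomm : ∃ Bad : Equiv.Perm (HE n d) → Finset (M × M),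
      (∀ p ∈ Ports n d, ((Bad p).card : ℝ) ≤ δ₁ * (Mv.card : ℝ) ^ 2) ∧
      (∀ p ∈ Ports n d, ∀ m ∈ Mv, ∀ m' ∈ Mv, (m, m') ∉ Bad p →
        (sw (sw p m).1 m').1 = (sw (sw p m').1 m).1))
    (s : ℝ) (ω : Fin n → ℝ) {z : ℂ} (hz : 0 < z.im)
    {φ : Matrix (Fin 2) (Fin 2) ℂ → ℝ} {Λ β : ℝ} (hφ : Obs φ Λ β) :
    ∑ p ∈ Ports n d, (nuAvg Finset.univ (fun p h => φ (B0 p s ω z h)) p
        - gAvg Mv ctr sw (fun p h => φ (B0 p s ω z h)) p) ^ 2
      ≤ (2 * (8 * (1 + β) ^ 2 * (Λ + 2) * cL / (n * z.im) + 2 * cL / (n * d)) + 2 * δ₁)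
        * ((Ports n d).card : ℝ) := by
  classical
  obtain ⟨m0, hm0⟩ := hM
  have hβ0 := hφ.β0
  have hΛ0 := hφ.Λ0
  have hn : 0 < n := (ctr m0).1.pos
  have hd : 0 < d := (ctr m0).2.pos
  have hn' : (0 : ℝ) < n := by exact_mod_cast hn
  have hd' : (0 : ℝ) < d := by exact_mod_cast hd
  refine second_moment hsys ⟨m0, hm0⟩ (fun p h => φ (B0 p s ω z h)) (fun p _ e _ => hφ.bdd _) δ₁
    (8 * (1 + β) ^ 2 * (Λ + 2) * cL / (n * z.im) + 2 * cL / (n * d)) ?_ hcomm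
  intro p hp m hm
  have hst := stab_ports (mem_Ports.1 hp) (mem_Ports.1 (hsys.mem_left p hp m hm)) s ω hz hφ
  refine hst.trans ?_
  have hc := hcL p hp m hm
  have hcard : ((Finset.univ : Finset (HE n d)).card : ℝ) = n * d := by
    rw [Finset.card_univ, IsPort.card_HE]
    push_cast
    ring
  rw [hcard]
  have e1 : (8 * (1 + β) ^ 2 * (Λ + 2) * cL / (n * z.im) + 2 * cL / (n * d)) * (n * d)
      = 8 * (1 + β) ^ 2 * (Λ + 2) * d * cL / z.im + 2 * cL := by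
    field_simp
  rw [e1]
  have h1 : 8 * (1 + β) ^ 2 * (Λ + 2) * d * ((Ch p (sw p m).1).card : ℝ) / z.im
      ≤ 8 * (1 + β) ^ 2 * (Λ + 2) * d * cL / z.im := by
    refine div_le_div_of_nonneg_right (mul_le_mul_of_nonneg_left hc ?_) hz.le
    positivity
  linarith

/-- `V_G`: mean of `D²` over the half-edges -/
noncomputable def Vp (s : ℝ) (ω : Fin n → ℝ) (z m : ℂ) (p : Equiv.Perm (HE n d)) : ℝ :=
  nuAvg Finset.univ (fun p h => obsD m (B0 p s ω z h)) p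

/-- `E[D̃² | G]` -/
noncomputable def gVp (Mv : Finset M) (ctr : M → HE n d)
    (sw : Equiv.Perm (HE n d) → M → Equiv.Perm (HE n d) × M) (s : ℝ) (ω : Fin n → ℝ) (z m : ℂ)
    (p : Equiv.Perm (HE n d)) : ℝ :=
  gAvg Mv ctr sw (fun p h => obsD m (B0 p s ω z h)) p

/-- `μ_G`: truncated mean -/
noncomputable def mup (r s : ℝ) (ω : Fin n → ℝ) (z m : ℂ) (p : Equiv.Perm (HE n d)) : ℂ :=
  (∑ h : HE n d, obsM r m (B0 p s ω z h)) / (n * d : ℂ)

/-- `E[(X̃ - m) χ̃ | G]` -/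
noncomputable def gmup (Mv : Finset M) (ctr : M → HE n d)
    (sw : Equiv.Perm (HE n d) → M → Equiv.Perm (HE n d) × M) (r s : ℝ) (ω : Fin n → ℝ) (z m : ℂ)
    (p : Equiv.Perm (HE n d)) : ℂ :=
  (∑ mv ∈ Mv, obsM r m (B0 (sw p mv).1 s ω z (ctr mv))) / (Mv.card : ℂ)

theorem Vp_nonneg (s : ℝ) (ω : Fin n → ℝ) (z m : ℂ) (p : Equiv.Perm (HE n d)) :
    0 ≤ Vp s ω z m p := by
  unfold Vp nuAvg obsD
  positivity

theorem Vp_eq (s : ℝ) (ω : Fin n → ℝ) (z m : ℂ) (p : Equiv.Perm (HE n d)) :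
    Vp s ω z m p = (∑ h : HE n d, dist1 m (B0 p s ω z h) ^ 2) / (n * d : ℝ) := by
  unfold Vp nuAvg obsD
  rw [Finset.card_univ, IsPort.card_HE]
  push_cast
  rfl

theorem sm_V {Mv : Finset M} {ctr : M → HE n d} {q : ℕ}
    {sw : Equiv.Perm (HE n d) → M → Equiv.Perm (HE n d) × M}
    (hsys : MoveSystem (Ports n d) Mv (Finset.univ : Finset (HE n d)) ctr q sw)
    (hM : Mv.Nonempty) {cL : ℝ} (hcL : ∀ p ∈ Ports n d, ∀ m ∈ Mv,
      ((Ch p (sw p m).1).card : ℝ) ≤ cL) {δ₁ : ℝ}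
    (hcomm : ∃ Bad : Equiv.Perm (HE n d) → Finset (M × M),
      (∀ p ∈ Ports n d, ((Bad p).card : ℝ) ≤ δ₁ * (Mv.card : ℝ) ^ 2) ∧
      (∀ p ∈ Ports n d, ∀ m ∈ Mv, ∀ m' ∈ Mv, (m, m') ∉ Bad p →
        (sw (sw p m).1 m').1 = (sw (sw p m').1 m).1))
    (s : ℝ) (ω : Fin n → ℝ) {z : ℂ} (hz : 0 < z.im) (m : ℂ) :
    ∑ p ∈ Ports n d, (Vp s ω z m p - gVp Mv ctr sw s ω z m p) ^ 2
      ≤ (2 * (32 * (2 + ‖m‖) ^ 2 * cL / (n * z.im) + 2 * cL / (n * d)) + 2 * δ₁)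
        * ((Ports n d).card : ℝ) := by
  have := second_moment_obs hsys hM hcL hcomm s ω hz (obsD_isObs m)
  refine this.trans (le_of_eq ?_)
  ring

theorem sm_mu {Mv : Finset M} {ctr : M → HE n d} {q : ℕ}
    {sw : Equiv.Perm (HE n d) → M → Equiv.Perm (HE n d) × M}
    (hsys : MoveSystem (Ports n d) Mv (Finset.univ : Finset (HE n d)) ctr q sw)
    (hM : Mv.Nonempty) {cL : ℝ} (hcL : ∀ p ∈ Ports n d, ∀ m ∈ Mv,
      ((Ch p (sw p m).1).card : ℝ) ≤ cL) {δ₁ : ℝ}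
    (hcomm : ∃ Bad : Equiv.Perm (HE n d) → Finset (M × M),
      (∀ p ∈ Ports n d, ((Bad p).card : ℝ) ≤ δ₁ * (Mv.card : ℝ) ^ 2) ∧
      (∀ p ∈ Ports n d, ∀ m ∈ Mv, ∀ m' ∈ Mv, (m, m') ∉ Bad p →
        (sw (sw p m).1 m').1 = (sw (sw p m').1 m).1))
    (s : ℝ) (ω : Fin n → ℝ) {z : ℂ} (hz : 0 < z.im) {r : ℝ} (hr : 0 < r) (hr2 : r ≤ 1 / 2)
    (m : ℂ) :
    ∑ p ∈ Ports n d, ‖mup r s ω z m p - gmup Mv ctr sw r s ω z m p‖ ^ 2
      ≤ (4 * (40 * (2 + ‖m‖) ^ 2 * cL / (n * z.im) + 2 * cL / (n * d)) + 4 * δ₁)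
        * ((Ports n d).card : ℝ) := by
  classical
  have h1 := second_moment_obs hsys hM hcL hcomm s ω hz (obsRe_isObs hr hr2 m)
  have h2 := second_moment_obs hsys hM hcL hcomm s ω hz (obsIm_isObs hr hr2 m)
  have hcL0 : ∀ p ∈ Ports n d, 0 ≤ cL := by
    intro p hp
    obtain ⟨m0, hm0⟩ := hM
    exact (Nat.cast_nonneg _).trans (hcL p hp m0 hm0)
  have hcard : (((Finset.univ : Finset (HE n d)).card : ℝ)) = n * d := by
    rw [Finset.card_univ, IsPort.card_HE]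
    push_cast
    ring
  have e : ∀ p, ‖mup r s ω z m p - gmup Mv ctr sw r s ω z m p‖ ^ 2
      = (nuAvg Finset.univ (fun p h => (obsM r m (B0 p s ω z h)).re) p
        - gAvg Mv ctr sw (fun p h => (obsM r m (B0 p s ω z h)).re) p) ^ 2
      + (nuAvg Finset.univ (fun p h => (obsM r m (B0 p s ω z h)).im) p
        - gAvg Mv ctr sw (fun p h => (obsM r m (B0 p s ω z h)).im) p) ^ 2 := by
    intro p
    have hre : (mup r s ω z m p - gmup Mv ctr sw r s ω z m p).re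
        = nuAvg Finset.univ (fun p h => (obsM r m (B0 p s ω z h)).re) p
        - gAvg Mv ctr sw (fun p h => (obsM r m (B0 p s ω z h)).re) p := by
      unfold mup gmup nuAvg gAvg
      have c1 : ((n : ℂ) * (d : ℂ)) = (((n : ℝ) * (d : ℝ) : ℝ) : ℂ) := by push_cast; ring
      have c2 : ((Mv.card : ℕ) : ℂ) = (((Mv.card : ℕ) : ℝ) : ℂ) := by push_cast; ring
      rw [Complex.sub_re, c1, c2, Complex.div_ofReal_re, Complex.div_ofReal_re, Complex.re_sum,
        Complex.re_sum, hcard]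
    have him : (mup r s ω z m p - gmup Mv ctr sw r s ω z m p).im
        = nuAvg Finset.univ (fun p h => (obsM r m (B0 p s ω z h)).im) p
        - gAvg Mv ctr sw (fun p h => (obsM r m (B0 p s ω z h)).im) p := by
      unfold mup gmup nuAvg gAvg
      have c1 : ((n : ℂ) * (d : ℂ)) = (((n : ℝ) * (d : ℝ) : ℝ) : ℂ) := by push_cast; ring
      have c2 : ((Mv.card : ℕ) : ℂ) = (((Mv.card : ℕ) : ℝ) : ℂ) := by push_cast; ring
      rw [Complex.sub_im, c1, c2, Complex.div_ofReal_im, Complex.div_ofReal_im, Complex.im_sum,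
        Complex.im_sum, hcard]
    rw [← hre, ← him, Complex.sq_norm, Complex.normSq_apply]
    ring
  rw [Finset.sum_congr rfl (fun p _ => e p), Finset.sum_add_distrib]
  by_cases hne : (Ports n d).Nonempty
  · obtain ⟨p, hp⟩ := hne
    have hc0 := hcL0 p hp
    have hb : (1 + (2 * r + ‖m‖)) ^ 2 ≤ (2 + ‖m‖) ^ 2 := by
      have h0 := norm_nonneg m
      have : 1 + (2 * r + ‖m‖) ≤ 2 + ‖m‖ := by linarith
      exact pow_le_pow_left₀ (by positivity) this 2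
    have hcoef : 8 * (1 + (2 * r + ‖m‖)) ^ 2 * (3 + 2) * cL / (n * z.im)
        ≤ 40 * (2 + ‖m‖) ^ 2 * cL / (n * z.im) := by
      refine div_le_div_of_nonneg_right ?_ (by positivity)
      refine mul_le_mul_of_nonneg_right ?_ hc0
      linarith
    have hP : (0 : ℝ) ≤ ((Ports n d).card : ℝ) := Nat.cast_nonneg _
    have h3 := mul_le_mul_of_nonneg_right hcoef hP
    refine (add_le_add h1 h2).trans ?_
    nlinarith
  · rw [Finset.not_nonempty_iff_eq_empty] at hne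
    rw [hne]
    simp

end Second

end Crest.Agent.R166.Stab269
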