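import Crest.Agent.R166.ShapeQ_598
import Crest.Agent.R166.FineDet2_522

/-!
# Row 166, section 32 (helper598): one resampling with fine inputs

`tree_fine` (depth `L + 1`) and `one_lev` (depth `1`): if all chosen blocks are `κ`-fine, with small
off-diagonal cavity entries and weakly coupled, the new cavity block at the root is `Near` the
diagonal matrix of the scalar tree recursion of the OLD cavity values.
-/

set_option autoImplicit false
set_option linter.unusedSectionVars false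

open Matrix Finset

namespace Crest.Agent.R166.OneLev598

open Crest.Agent.R166 Crest.Agent.R166.Stab269 Crest.Agent.R166.TreeT327
  Crest.Agent.R166.TreeF598 Crest.Agent.R166.DecP789 Crest.Agent.R166.ShapeT598
  Crest.Agent.R166.Spec30 Crest.Agent.R166.ShapeP598
open Crest.Agent.R166.SwP470 (BVal bv TL BI NZ NZw wd rt tau ab np)
open Crest.Agent.R166.Res598 (Siegel Near qf imM nq)
open Crest.Agent.R166.Dec598 (treeOut siegel_treeOut siegel_diagonal near_treeOut near_trans)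
open Crest.Agent.R166.Off522 (Fine)
open Crest.Agent.R166.Fine522 (kap1 kap1_pos)

section diag

variable {ι : Type*} [Fintype ι] [DecidableEq ι]

/-- two diagonal matrices -/
theorem near_diag {x x' : ι → ℂ} (hx : ∀ i, 0 < (x i).im) {ε : ℝ} (hε : 0 ≤ ε)
    (h : ∀ i, ‖x' i - x i‖ ≤ ε * (x i).im) :
    Near ε (Matrix.diagonal x) (Matrix.diagonal x') := by
  refine ⟨Matrix.diagonal_transpose x', fun u v => ?_⟩
  have e1 : u ⬝ᵥ ((Matrix.diagonal x' - Matrix.diagonal x) *ᵥ v) =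
      ∑ i, u i * (x' i - x i) * v i := by
    rw [Matrix.diagonal_sub, dotProduct]
    refine Finset.sum_congr rfl fun i _ => ?_
    rw [Matrix.mulVec_diagonal]
    ring
  rw [e1]
  have e2 : ∀ w : ι → ℂ, nq (imM (Matrix.diagonal x)) w ^ 2 = ∑ i, (x i).im * ‖w i‖ ^ 2 := by
    intro w
    rw [Res598.nq_sq (siegel_diagonal hx).pos.posSemidef, Dec598.qf_diagonal]
  have e3 : ∀ w : ι → ℂ, 0 ≤ ∑ i, (x i).im * ‖w i‖ ^ 2 := fun w =>
    Finset.sum_nonneg fun i _ => mul_nonneg (hx i).le (sq_nonneg _)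
  have h1 : ‖∑ i, u i * (x' i - x i) * v i‖ ≤
      ε * ∑ i, (Real.sqrt (x i).im * ‖u i‖) * (Real.sqrt (x i).im * ‖v i‖) := by
    refine (norm_sum_le _ _).trans ?_
    rw [Finset.mul_sum]
    refine Finset.sum_le_sum fun i _ => ?_
    rw [norm_mul, norm_mul]
    have h2 := h i
    have h3 : Real.sqrt (x i).im * Real.sqrt (x i).im = (x i).im := Real.mul_self_sqrt (hx i).le
    calc ‖u i‖ * ‖x' i - x i‖ * ‖v i‖ ≤ ‖u i‖ * (ε * (x i).im) * ‖v i‖ := by
          apply mul_le_mul_of_nonneg_right _ (norm_nonneg _)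
          exact mul_le_mul_of_nonneg_left h2 (norm_nonneg _)
      _ = ‖u i‖ * (ε * (Real.sqrt (x i).im * Real.sqrt (x i).im)) * ‖v i‖ := by rw [h3]
      _ = ε * ((Real.sqrt (x i).im * ‖u i‖) * (Real.sqrt (x i).im * ‖v i‖)) := by ring
  refine h1.trans ?_
  rw [mul_assoc]
  refine mul_le_mul_of_nonneg_left ?_ hε
  have h4 := Finset.sum_mul_sq_le_sq_mul_sq (Finset.univ : Finset ι)
    (fun i => Real.sqrt (x i).im * ‖u i‖) (fun i => Real.sqrt (x i).im * ‖v i‖)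
  have h5 : ∀ w : ι → ℂ, ∑ i, (Real.sqrt (x i).im * ‖w i‖) ^ 2 = nq (imM (Matrix.diagonal x)) w ^ 2 := by
    intro w
    rw [e2]
    refine Finset.sum_congr rfl fun i _ => ?_
    rw [mul_pow, Real.sq_sqrt (hx i).le]
  rw [h5, h5, ← mul_pow] at h4
  exact abs_le_of_sq_le_sq' h4 (mul_nonneg (Res598.nq_nonneg _ _) (Res598.nq_nonneg _ _)) |>.2

end diag

set_option synthInstance.maxSize 4000
set_option synthInstance.maxHeartbeats 400000
set_option maxHeartbeats 1000000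

variable {n d : ℕ} [NeZero d] {p : Equiv.Perm (HE n d)} {h0 : HE n d} {L : ℕ}

lemma fine_im {κ : ℝ} {Z : Matrix (Fin 2) (Fin 2) ℂ} (h : Fine κ Z) (i : Fin 2) :
    κ ≤ (Z i i).im := by
  have h1 := h.im (Pi.single i 1)
  rw [Shape395.qf_single] at h1
  have h2 : ∑ j, ‖(Pi.single i (1 : ℂ) : Fin 2 → ℂ) j‖ ^ 2 = 1 := by
    rw [Finset.sum_eq_single i]
    · simp
    · intro j _ hj
      simp [hj]
    · simp
  rw [h2, mul_one] at h1
  exact h1

/-- **one resampling with fine inputs**, general form -/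
theorem tree_fine (hp : IsPort p) {b : BI d (L + 1) → HE n d} (h : BVal (L + 1) p h0 b)
    (s : ℝ) (ω : Fin n → ℝ) {z : ℂ} (hz : 0 < z.im) {κ : ℝ}
    (hf : ∀ i, Fine κ (BE p s ω z (b i))) {τ δ : ℝ}
    (hτ : ∀ i, ‖B0 p s ω z (b i) 0 1‖ ≤ τ) (hτ2 : τ ≤ kap1 2 κ / 2)
    (hδ : 2 / kap1 2 κ ^ 2 * (∑ jk ∈ (univ : Finset (BI d (L + 1))).offDiag,
      ‖B0 p s ω z (b jk.1) 0 1‖ * ‖B0 p s ω z (b jk.2) 0 1‖) ≤ δ) (hδ2 : δ ≤ 1 / 2)
    (hE : CE κ * cEs (L + 1) p s ω z h0 ∅ b ≤ 1 / 2) :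
    Near (2 * (τ / kap1 2 κ) ^ 2 + 4 * δ + 8 * (CE κ * cEs (L + 1) p s ω z h0 ∅ b))
      (Matrix.diagonal ![
        treeF z (L + 1) (Vt p h0 (L + 1) s ω)
          ((fun i => B0 p s ω z (b i) 0 0) ∘ (layE (L + 1)).symm) false,
        treeF z (L + 1) (Vt p h0 (L + 1) s ω)
          ((fun i => B0 p s ω z (b i) 0 0) ∘ (layE (L + 1)).symm) true])
      (B0 (np p h0 b) s ω z h0) := by
  -- the index type is nonempty or the statement is about empty trees; get `0 < κ` from `tree`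
  rcases isEmpty_or_nonempty (BI d (L + 1)) with hemp | ⟨⟨i0⟩⟩
  · -- no leaves: both sides are equal up to the decoupling
    have hκ1 : ∃ c : ℝ, 0 < c := ⟨1, one_pos⟩
    have hcE : cE (S0t p h0 L) (RR p s ω z) p b ∅ 1 ≤ 0 := by
      unfold cE
      have e1 : (∅ᶜ : Finset (BI d (L + 1))) = ∅ := Finset.eq_empty_of_isEmpty _
      rw [e1]
      simp
    obtain ⟨xh, g1, g2, g3⟩ := tree_good hp h s ω hz (c := 1) (h1 := 1) one_pos one_pos
      (fun j => hemp.elim j) (fun j => hemp.elim j) (fun j => hemp.elim j)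
      (fun j => hemp.elim j) (δ := 0) (κ := 0) (by
        rw [Finset.eq_empty_of_isEmpty (univ : Finset (BI d (L + 1))).offDiag]
        simp) (by norm_num) hcE (by norm_num)
    have e2 : xh = fun i => B0 p s ω z (b i) 0 0 := funext fun i => hemp.elim i
    rw [e2] at g3
    have hδ0 : 0 ≤ δ := by
      refine le_trans ?_ hδ
      rw [Finset.eq_empty_of_isEmpty (univ : Finset (BI d (L + 1))).offDiag]
      simp
    refine g3.mono ?_
    have e3 : cEs (L + 1) p s ω z h0 ∅ b = 0 := by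
      unfold cEs
      have e1 : (∅ᶜ : Finset (BI d (L + 1))) = ∅ := Finset.eq_empty_of_isEmpty _
      rw [e1]
      simp
    rw [e3]
    have : 0 ≤ (τ / kap1 2 κ) ^ 2 := sq_nonneg _
    linarith
  have hκ : 0 < κ := (hf i0).pos
  set κ' := kap1 2 κ with hκ'
  have hk : 0 < κ' := kap1_pos hκ
  have hf' : ∀ i, Fine κ' (B0 p s ω z (b i)) := fun i => (hf i).cavB
  have hτ0 : 0 ≤ τ := (norm_nonneg _).trans (hτ i0)
  have hδ0 : 0 ≤ δ := by
    refine le_trans ?_ hδ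
    positivity
  set S := cEs (L + 1) p s ω z h0 ∅ b with hS
  have hS0 : 0 ≤ S := cEs_nonneg _ _ _ _ _ _ _ _
  have hCE := CE_pos hκ
  obtain ⟨xh, g1, g2, g3⟩ := tree_good hp h s ω hz hκ hk
    (fun j y => (hf j).im y) (fun j => fine_im (hf' j) 0) (fun j => fine_im (hf' j) 1)
    (fun j => (hτ j).trans hτ2) hδ hδ2 (cE_le hκ s ω z ∅ b) hE
  set X : BI d (L + 1) → ℂ := fun i => B0 p s ω z (b i) 0 0 with hX
  have hXi : ∀ i, κ' ≤ (X i).im := fun i => fine_im (hf' i) 0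
  have hXp : ∀ i, 0 < (X i).im := fun i => lt_of_lt_of_le hk (hXi i)
  have hxp : ∀ i, 0 < (xh i).im := fun i => lt_of_lt_of_le (by linarith) (g2 i)
  set e1 := (τ / κ') ^ 2 with he1
  have he0 : 0 ≤ e1 := sq_nonneg _
  have he14 : e1 ≤ 1 / 4 := by
    rw [he1]
    have : τ / κ' ≤ 1 / 2 := by
      rw [div_le_iff₀ hk]; linarith
    have h0' : 0 ≤ τ / κ' := div_nonneg hτ0 hk.le
    nlinarith
  have hd1 : Near e1 (Matrix.diagonal X) (Matrix.diagonal xh) := by
    apply near_diag hXp he0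
    intro i
    refine (g1 i).trans ?_
    have h1 : ‖B0 p s ω z (b i) 0 1‖ ^ 2 ≤ τ ^ 2 := pow_le_pow_left₀ (norm_nonneg _) (hτ i) 2
    calc ‖B0 p s ω z (b i) 0 1‖ ^ 2 / κ' ≤ τ ^ 2 / κ' := div_le_div_of_nonneg_right h1 hk.le
      _ = e1 * κ' := by rw [he1]; field_simp
      _ ≤ e1 * (X i).im := mul_le_mul_of_nonneg_left (hXi i) he0
  have hRT : Siegel (Res789.Res (hTree (Vt p h0 (L + 1) s ω)) z) :=
    (Res789.Res_sieg (hTree_symm _) hz).siegel
  have hd2 := near_treeOut he0 (by linarith) hRT (leafT L) (siegel_diagonal hXp) hd1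
  have hM := siegel_treeOut hRT (leafT L) (siegel_diagonal hXp)
  have hd3 := hd2.sub ![root L false, root L true] hM
  rw [treeOut_leafT hz L _ hXp, treeOut_leafT hz L _ hxp] at hd3
  have hd4 := hd3.mono (Dec598.div_one_sub_le he0 (by linarith : e1 ≤ 1 / 2))
  have hFp : ∀ j, 0 < ((![treeF z (L + 1) (Vt p h0 (L + 1) s ω) (X ∘ (layE (L + 1)).symm) false,
      treeF z (L + 1) (Vt p h0 (L + 1) s ω) (X ∘ (layE (L + 1)).symm) true] : Fin 2 → ℂ) j).im := by
    intro j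
    fin_cases j
    · exact treeF_im_pos hz (L + 1) _ (fun q => hXp _) false
    · exact treeF_im_pos hz (L + 1) _ (fun q => hXp _) true
  have hd5 := near_trans (by linarith : 0 ≤ 2 * e1) (by positivity : 0 ≤ 2 * δ + 4 * (CE κ * S))
    (siegel_diagonal hFp) hd4 g3
  refine hd5.mono ?_
  have hP : 0 ≤ 2 * δ + 4 * (CE κ * S) := by positivity
  nlinarith

/-! ### depth one -/

/-- the scalar one-level map with nonzero letters -/
noncomputable def cavN (z : ℂ) (v : ℝ) (x : NZ d → ℂ) : ℂ := -(z - v + ∑ a, x a)⁻¹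

lemma cavN_im_pos {z : ℂ} (hz : 0 < z.im) (v : ℝ) {x : NZ d → ℂ} (hx : ∀ a, 0 < (x a).im) :
    0 < (cavN z v x).im := step_im_pos hz v hx

lemma layE_one_symm (r : Bool) (a : NZ d) :
    (layE (ρ := Bool) (β := NZ d) 1).symm (r, a) = (r, fun _ => a) := by
  rw [Equiv.symm_apply_eq]
  rfl

lemma treeF_one (z : ℂ) (V : Tr Bool (NZ d) 1 → ℝ) (x : BI d 1 → ℂ) (r : Bool) :
    treeF z 1 V (x ∘ (layE 1).symm) r =
      cavN z (V (root 0 r)) (fun a => x (r, fun _ => a)) := by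
  rw [treeF_succ]
  show -(z - V (Sum.inr r) + ∑ a : NZ d, (x ∘ (layE 1).symm) (r, a))⁻¹ = _
  have h1 : ∀ a : NZ d, (x ∘ (layE 1).symm) (r, a) = x (r, fun _ => a) := fun a => by
    rw [Function.comp_apply, layE_one_symm]
  unfold cavN
  rw [Finset.sum_congr rfl fun a _ => h1 a]
  rfl

/-- **depth one** -/
theorem one_lev (hp : IsPort p) {b : BI d 1 → HE n d} (h : BVal 1 p h0 b)
    (s : ℝ) (ω : Fin n → ℝ) {z : ℂ} (hz : 0 < z.im) {κ : ℝ}
    (hf : ∀ i, Fine κ (BE p s ω z (b i))) {τ δ : ℝ}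
    (hτ : ∀ i, ‖B0 p s ω z (b i) 0 1‖ ≤ τ) (hτ2 : τ ≤ kap1 2 κ / 2)
    (hδ : 2 / kap1 2 κ ^ 2 * (∑ jk ∈ (univ : Finset (BI d 1)).offDiag,
      ‖B0 p s ω z (b jk.1) 0 1‖ * ‖B0 p s ω z (b jk.2) 0 1‖) ≤ δ) (hδ2 : δ ≤ 1 / 2)
    (hE : CE κ * cEs 1 p s ω z h0 ∅ b ≤ 1 / 2) :
    Near (2 * (τ / kap1 2 κ) ^ 2 + 4 * δ + 8 * (CE κ * cEs 1 p s ω z h0 ∅ b))
      (Matrix.diagonal ![
        cavN z (s * ω h0.1) (fun a => B0 p s ω z (b (false, fun _ => a)) 0 0),
        cavN z (s * ω (p h0).1) (fun a => B0 p s ω z (b (true, fun _ => a)) 0 0)])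
      (B0 (np p h0 b) s ω z h0) := by
  have key := tree_fine (L := 0) hp h s ω hz hf hτ hτ2 hδ hδ2 hE
  have e1 := treeF_one z (Vt p h0 1 s ω) (fun i => B0 p s ω z (b i) 0 0) false
  have e2 := treeF_one z (Vt p h0 1 s ω) (fun i => B0 p s ω z (b i) 0 0) true
  have e3 : Vt p h0 1 s ω (root 0 false) = s * ω h0.1 := by
    unfold Vt
    rw [phi_root_false (L := 0) hp]
  have e4 : Vt p h0 1 s ω (root 0 true) = s * ω (p h0).1 := by
    unfold Vt
    rw [phi_root_true (L := 0)]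
  rw [e3] at e1
  rw [e4] at e2
  rw [← e1, ← e2]
  exact key

/-- scalar consequences of `Near` with a diagonal matrix -/
theorem near_diag_entries {ε : ℝ} {F : Fin 2 → ℂ} {Z : Matrix (Fin 2) (Fin 2) ℂ}
    (hF : ∀ i, 0 < (F i).im) (h : Near ε (Matrix.diagonal F) Z) :
    (∀ i, ‖Z i i - F i‖ ≤ ε * (F i).im) ∧
      ‖Z 0 1‖ ≤ ε * Real.sqrt (F 0).im * Real.sqrt (F 1).im := by
  constructor
  · intro i
    have h1 := Shape395.near_entry h i i
    rw [Matrix.diagonal_apply_eq, mul_assoc, Real.mul_self_sqrt (hF i).le] at h1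
    exact h1
  · have h1 := Shape395.near_entry h 0 1
    rw [Matrix.diagonal_apply_ne _ (by decide), sub_zero, Matrix.diagonal_apply_eq,
      Matrix.diagonal_apply_eq] at h1
    exact h1

end Crest.Agent.R166.OneLev598
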