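import Crest.Agent.R166.Quad_566
import Crest.Agent.R166.S2P_811
import Crest.Agent.R166.TreeE2_263
import Crest.Agent.R166.StepAll_269
import Crest.Agent.R166.CleanOut4_501
import Crest.Agent.R166.Master_423

/-!
Row 166, section 31 (helper566): `Master423.Stmt31`, all the clean case outputs, unconditionally.
-/

set_option autoImplicit false

namespace Crest.Agent.R166.Out31

open Crest.ProbabilityR.RandomMatrix Crest.Agent.R166

theorem s2p {d : ℕ} [NeZero d] (hd : 3 ≤ d) : Spec31.S2P d :=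
  S2P811.s2p_of hd (TreeE2263.e2 d)

/-- (31.4) unconditionally -/
theorem uniEsc {d : ℕ} [NeZero d] (hd : 3 ≤ d) {E : ℝ} (hE : E ^ 2 < 4 * ((d : ℝ) - 1)) :
    ∃ L : ℕ, 1 ≤ L ∧ Clean566.UniEsc d E
      (fun _ (p : Equiv.Perm _) v => ∀ i : Fin d, ¬ SwP470.TL L p (v, i)) :=
  Clean566.uniEscTL hd hE (StepAll.stepL hd) (s2p hd) (StepAll.thmA hd)

theorem stmt31 : Master423.Stmt31 := by
  intro d E hd hE
  have : NeZero d := ⟨by omega⟩
  obtain ⟨L, _, h⟩ := uniEsc hd hE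
  have hu : Out501.UIp d E := Out501.uip_of_uniEsc (L := L + 1)
    (fun n p hp v he => Out501.excTL_EL (by omega) L hp ⟨0, he 0⟩) h
  obtain ⟨h1, h2, h3, h4, h5, h6⟩ := Out501.clean_outputs hd hE
    (BlkLaw355.out_blkLaw0 hd (StepAll.thmA hd) hE) hu
  exact ⟨h1, h2, h3, h5, h4, h6⟩

end Crest.Agent.R166.Out31
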