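import Crest.Agent.R166.PhiLim_85
import Crest.Agent.R166.TreeDefs_350

/-!
Row 166 (helper85), F4, part B: `∫ Im G_oo dP = π ρ` for the limit cavity field.
-/

set_option autoImplicit false

open MeasureTheory ProbabilityTheory Filter Topology

namespace Crest.Agent.R166.PhiLim85

open Crest.Agent.R166.B2 Crest.Agent.R166.TreeDefs350

/-- `Im (-1/(w - s t))` -/
noncomputable def fI (s t : ℝ) (w : ℂ) : ℝ := (-1 / (w - s * t)).im

lemma den_im (s t : ℝ) (w : ℂ) : (w - s * t).im = w.im := by
  rw [Complex.sub_im]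
  have : ((s : ℂ) * (t : ℂ)).im = 0 := by
    rw [← Complex.ofReal_mul]; exact Complex.ofReal_im _
  rw [this, sub_zero]

lemma den_re (s t : ℝ) (w : ℂ) : (w - s * t).re = w.re - s * t := by
  rw [Complex.sub_re, ← Complex.ofReal_mul, Complex.ofReal_re]

lemma fI_eq (s t : ℝ) (w : ℂ) :
    fI s t w = w.im / ((w.re - s * t) ^ 2 + w.im ^ 2) := by
  unfold fI
  rw [neg_div, Complex.neg_im, one_div, Complex.inv_im, den_im, Complex.normSq_apply, den_im,
    den_re]
  rw [neg_div, neg_neg]
  congr 1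
  ring

lemma fI_pos {s t : ℝ} {w : ℂ} (hw : 0 < w.im) : 0 < fI s t w := by
  rw [fI_eq]; positivity

lemma fI_le {s t : ℝ} {w : ℂ} (hw : 0 < w.im) : fI s t w ≤ 1 / w.im := by
  rw [fI_eq, div_le_div_iff₀ (by positivity) hw]
  nlinarith [sq_nonneg (w.re - s * t)]

lemma measurable_fI (s : ℝ) : Measurable fun p : ℝ × ℂ => fI s p.1 p.2 := by
  unfold fI
  have h1 : Measurable fun p : ℝ × ℂ => p.2 - (s : ℂ) * ((p.1 : ℝ) : ℂ) :=
    measurable_snd.sub ((Complex.measurable_ofReal.comp measurable_fst).const_mul _)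
  exact Complex.measurable_im.comp (h1.const_div (-1))

lemma fI_scaled {s : ℝ} {w : ℂ} (hw : 0 < w.im) (hs : 0 < s) (t : ℝ) :
    fI s t w = (w.im)⁻¹ * (1 + ((s / w.im) * (t - w.re / s)) ^ 2)⁻¹ := by
  rw [fI_eq]
  field_simp
  ring

lemma integrable_fI {s : ℝ} {w : ℂ} (hw : 0 < w.im) (hs : 0 < s) :
    Integrable fun t => fI s t w := by
  have h1 : Integrable (fun t : ℝ => (1 + ((s / w.im) * (t - w.re / s)) ^ 2)⁻¹) := by
    have h0 := integrable_inv_one_add_sq
    have h2 : Integrable (fun t : ℝ => (1 + ((s / w.im) * t) ^ 2)⁻¹) :=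
      h0.comp_mul_left' (by positivity : (s / w.im) ≠ 0)
    exact h2.comp_sub_right (w.re / s)
  have h2 := h1.const_mul (w.im)⁻¹
  refine h2.congr (Eventually.of_forall fun t => ?_)
  exact (fI_scaled hw hs t).symm

lemma integral_fI {s : ℝ} {w : ℂ} (hw : 0 < w.im) (hs : 0 < s) :
    ∫ t, fI s t w = Real.pi / s := by
  have e1 : (fun t => fI s t w) =
      fun t => (w.im)⁻¹ * (1 + ((s / w.im) * (t - w.re / s)) ^ 2)⁻¹ := by
    funext t; exact fI_scaled hw hs t
  rw [e1, integral_const_mul]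
  have h1 := integral_sub_right_eq_self (μ := (volume : Measure ℝ))
    (fun t : ℝ => (1 + ((s / w.im) * t) ^ 2)⁻¹) (w.re / s)
  rw [h1]
  have h2 := Measure.integral_comp_mul_left (fun t : ℝ => (1 + t ^ 2)⁻¹) (s / w.im)
  rw [h2, integral_univ_inv_one_add_sq]
  have : (0 : ℝ) < (s / w.im)⁻¹ := by positivity
  rw [abs_of_pos this, smul_eq_mul]
  field_simp

/-- `Im` of the resolvent averaged over a uniform potential -/
noncomputable def thF (s : ℝ) (w : ℂ) : ℝ := ∫ t, fI s t w ∂unif

lemma integrable_fI_unif {s : ℝ} {w : ℂ} (hw : 0 < w.im) :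
    Integrable (fun t => fI s t w) unif := by
  refine Integrable.of_bound (C := 1 / w.im)
    ((measurable_fI s).comp (measurable_id.prodMk measurable_const)).aestronglyMeasurable ?_
  refine Eventually.of_forall fun t => ?_
  rw [Real.norm_eq_abs, abs_of_pos (fI_pos hw)]
  exact fI_le hw

lemma thF_nonneg {s : ℝ} {w : ℂ} (hw : 0 < w.im) : 0 ≤ thF s w :=
  integral_nonneg fun _ => (fI_pos hw).le

lemma thF_le {s : ℝ} {w : ℂ} (hw : 0 < w.im) (hs : 0 < s) : thF s w ≤ Real.pi / (2 * s) := by
  unfold thF unif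
  rw [integral_smul_nnreal_measure]
  have h1 : ∫ t in Set.Icc (-1 : ℝ) 1, fI s t w ≤ Real.pi / s := by
    rw [← integral_fI hw hs]
    exact setIntegral_le_integral (integrable_fI hw hs)
      (Eventually.of_forall fun t => (fI_pos hw).le)
  rw [NNReal.smul_def]
  simp only [NNReal.coe_inv, NNReal.coe_ofNat, smul_eq_mul]
  calc (2 : ℝ)⁻¹ * ∫ t in Set.Icc (-1 : ℝ) 1, fI s t w ≤ 2⁻¹ * (Real.pi / s) := by gcongr
    _ = _ := by field_simp

lemma thF_tendsto {s : ℝ} {w : ℕ → ℂ} {w0 : ℂ} (hw0 : 0 < w0.im)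
    (h : Tendsto w atTop (𝓝 w0)) : Tendsto (fun l => thF s (w l)) atTop (𝓝 (thF s w0)) := by
  have him : Tendsto (fun l => (w l).im) atTop (𝓝 w0.im) :=
    (Complex.continuous_im.tendsto _).comp h
  have hre : Tendsto (fun l => (w l).re) atTop (𝓝 w0.re) :=
    (Complex.continuous_re.tendsto _).comp h
  have hev : ∀ᶠ l in atTop, w0.im / 2 < (w l).im :=
    him.eventually (lt_mem_nhds (by linarith))
  unfold thF
  refine tendsto_integral_filter_of_dominated_convergence (fun _ => 2 / w0.im) ?_ ?_ ?_ ?_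
  · refine Eventually.of_forall fun l => ?_
    exact ((measurable_fI s).comp (measurable_id.prodMk measurable_const)).aestronglyMeasurable
  · filter_upwards [hev] with l hl
    refine Eventually.of_forall fun t => ?_
    have h0 : 0 < (w l).im := by linarith
    rw [Real.norm_eq_abs, abs_of_pos (fI_pos h0)]
    refine (fI_le h0).trans ?_
    rw [div_le_div_iff₀ h0 hw0]
    linarith
  · exact integrable_const _
  · refine Eventually.of_forall fun t => ?_
    simp only [fI_eq]
    refine him.div (((hre.sub_const _).pow 2).add (him.pow 2)) ?_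
    positivity

variable {Ω : Type*} [mΩ : MeasurableSpace Ω] {P : Measure Ω} [IsProbabilityMeasure P]

/-- integration over an independent uniform potential -/
theorem integral_indep {s : ℝ} (hs : 0 < s) {om : Ω → ℝ} {W : Ω → ℂ} (hom : Measurable om)
    (hW : Measurable W) (hlaw : P.map om = unif) (hind : IndepFun om W P)
    (hpos : ∀ᵐ h ∂P, 0 < (W h).im) :
    Integrable (fun h => fI s (om h) (W h)) P ∧
      ∫ h, fI s (om h) (W h) ∂P = ∫ h, thF s (W h) ∂P := by
  have hprod := (indepFun_iff_map_prod_eq_prod_map_map hom.aemeasurable hW.aemeasurable).1 hind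
  have hWp : IsProbabilityMeasure (P.map W) := Measure.isProbabilityMeasure_map hW.aemeasurable
  have hpos' : ∀ᵐ w ∂(P.map W), 0 < w.im := by
    rw [ae_map_iff hW.aemeasurable (measurableSet_lt measurable_const Complex.measurable_im)]
    exact hpos
  have hfm : Measurable fun p : ℝ × ℂ => fI s p.1 p.2 := measurable_fI s
  have hI : Integrable (fun p : ℝ × ℂ => fI s p.1 p.2) (unif.prod (P.map W)) := by
    rw [integrable_prod_iff' hfm.aestronglyMeasurable]
    constructor
    · filter_upwards [hpos'] with w hw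
      exact integrable_fI_unif hw
    · refine Integrable.of_bound (C := Real.pi / (2 * s)) ?_ ?_
      · exact (hfm.norm.stronglyMeasurable.integral_prod_left').aestronglyMeasurable
      · filter_upwards [hpos'] with w hw
        have e1 : (∫ t, ‖fI s t w‖ ∂unif) = thF s w := by
          unfold thF
          refine integral_congr_ae (Eventually.of_forall fun t => ?_)
          change ‖fI s t w‖ = fI s t w
          rw [Real.norm_eq_abs, abs_of_pos (fI_pos hw)]
        rw [e1, Real.norm_eq_abs, abs_of_nonneg (thF_nonneg hw)]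
        exact thF_le hw hs
  have hpair : Measurable fun h => (om h, W h) := hom.prodMk hW
  have hI2 : Integrable (fun p : ℝ × ℂ => fI s p.1 p.2) (P.map fun h => (om h, W h)) := by
    rw [hprod, hlaw]; exact hI
  constructor
  · exact hI2.comp_measurable hpair
  · have h1 := integral_map (μ := P) hpair.aemeasurable (f := fun p : ℝ × ℂ => fI s p.1 p.2)
      hfm.aestronglyMeasurable
    have h2 : ∫ h, fI s (om h) (W h) ∂P =
        ∫ p, fI s p.1 p.2 ∂(P.map fun h => (om h, W h)) := h1.symm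
    rw [h2, hprod, hlaw, integral_prod_symm _ hI]
    have h3 : Measurable (thF s) := (hfm.stronglyMeasurable.integral_prod_left').measurable
    exact integral_map hW.aemeasurable h3.aestronglyMeasurable

/-- the spectral parameter of the root: `z + ∑ cav (mv i h)` -/
noncomputable def Wd (pp rr : Ω → Ω) (d : ℕ) (z : ℂ) (cav : Ω → ℂ) (h : Ω) : ℂ :=
  z + ∑ i ∈ Finset.range d, cav (mv pp rr i h)

omit mΩ in
lemma Gdl_eq_fI (pp rr : Ω → Ω) (d : ℕ) (s : ℝ) (z : ℂ) (om : Ω → ℝ) (cav : Ω → ℂ) (h : Ω) :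
    (Gdl pp rr d s z om cav h).im = fI s (om h) (Wd pp rr d z cav h) := by
  unfold Gdl fI Wd
  congr 2
  ring

omit mΩ in
lemma Wd_im_pos {pp rr : Ω → Ω} {d : ℕ} (hd : 0 < d) {z : ℂ} (hz : 0 ≤ z.im)
    {cav : Ω → ℂ} {h : Ω} (hc : ∀ j, 0 < (cav (mv pp rr j h)).im) :
    0 < (Wd pp rr d z cav h).im := by
  unfold Wd
  rw [Complex.add_im, Complex.im_sum]
  have h2 : 0 < ∑ i ∈ Finset.range d, (cav (mv pp rr i h)).im :=
    Finset.sum_pos (fun i _ => hc i) ⟨0, Finset.mem_range.2 hd⟩
  linarith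

omit [IsProbabilityMeasure P] in
lemma measurable_mv {pp rr : Ω → Ω} (hpp : Measurable pp) (hrr : Measurable rr) (j : ℕ) :
    Measurable (mv pp rr j) := hpp.comp (hrr.iterate j)

lemma tendsto_ze {E : ℝ} {η : ℕ → ℝ} (hη : Tendsto η atTop (𝓝 0)) :
    Tendsto (fun l => ze E (η l)) atTop (𝓝 (E : ℂ)) := by
  have : Tendsto (fun l => ((η l : ℝ) : ℂ)) atTop (𝓝 ((0 : ℝ) : ℂ)) :=
    (Complex.continuous_ofReal.tendsto _).comp hη
  have h2 := ((this.const_mul Complex.I).const_add (E : ℂ))
  unfold ze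
  simpa using h2

lemma ze_im (E η : ℝ) : (ze E η).im = η := by
  unfold ze; simp

/-- **the density of states of the limit cavity field, `s > 0`**: the potential at the root is
uniform and independent of all the cavity numbers at the neighbours. -/
theorem G_rho_indep {pp rr : Ω → Ω} (hpp : MeasurePreserving pp P P)
    (hrr : MeasurePreserving rr P P) {d : ℕ} (hd : 0 < d) {s E : ℝ} (hs : 0 < s) {om : Ω → ℝ}
    (hom : Measurable om) (hlaw : P.map om = unif) {c : ℕ → Ω → ℂ} (hc : ∀ l, Measurable (c l))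
    (him : ∀ l, ∀ᵐ h ∂P, 0 < (c l h).im)
    (hind : IndepFun om (fun h => fun q : ℕ × ℕ => c q.1 (mv pp rr q.2 h)) P)
    {η : ℕ → ℝ} (hη0 : ∀ l, 0 < η l) (hη : Tendsto η atTop (𝓝 0))
    (hci : ∀ᵐ h ∂P, 0 < (cavLim c h).im)
    (hlim : ∀ᵐ h ∂P, Tendsto (fun l => c l h) atTop (𝓝 (cavLim c h)))
    {L : ℝ} (hL : Tendsto (fun l => ∫ h, (Gdl pp rr d s (ze E (η l)) om (c l) h).im ∂P)
      atTop (𝓝 L)) :
    Integrable (fun h => (Gd pp rr d s E om (cavLim c) h).im) P ∧
      ∫ h, (Gd pp rr d s E om (cavLim c) h).im ∂P = L := by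
  have hmvm : ∀ j, Measurable (mv pp rr j) := fun j =>
    measurable_mv hpp.measurable hrr.measurable j
  have hWl : ∀ l, Measurable (Wd pp rr d (ze E (η l)) (c l)) := by
    intro l
    refine measurable_const.add (Finset.measurable_fun_sum _ fun i _ => (hc l).comp (hmvm i))
  -- independence at the level `l`
  have hindl : ∀ l, IndepFun om (Wd pp rr d (ze E (η l)) (c l)) P := by
    intro l
    have hψ : Measurable fun x : ℕ × ℕ → ℂ => ze E (η l) + ∑ i ∈ Finset.range d, x (l, i) :=
      measurable_const.add (Finset.measurable_fun_sum _ fun i _ => measurable_pi_apply _)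
    exact hind.comp measurable_id hψ
  -- independence in the limit
  have hcavm : Measurable (cavLim c) := measurable_cavLim hc
  have hW0 : Measurable (Wd pp rr d (E : ℂ) (cavLim c)) :=
    measurable_const.add (Finset.measurable_fun_sum _ fun i _ => hcavm.comp (hmvm i))
  have hind0 : IndepFun om (Wd pp rr d (E : ℂ) (cavLim c)) P := by
    have hψ : Measurable fun x : ℕ × ℕ → ℂ => (E : ℂ) + ∑ i ∈ Finset.range d,
        limUnder atTop (fun l => x (l, i)) := by
      refine measurable_const.add (Finset.measurable_fun_sum _ fun i _ => ?_)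
      exact (StronglyMeasurable.limUnder (l := atTop) (f := fun l (x : ℕ × ℕ → ℂ) => x (l, i))
        fun l => (measurable_pi_apply _).stronglyMeasurable).measurable
    exact hind.comp measurable_id hψ
  have hposl : ∀ l, ∀ᵐ h ∂P, 0 < (Wd pp rr d (ze E (η l)) (c l) h).im := by
    intro l
    filter_upwards [ae_mv hpp hrr (him l)] with h hh
    exact Wd_im_pos hd (by rw [ze_im]; exact (hη0 l).le) hh
  have hpos0 : ∀ᵐ h ∂P, 0 < (Wd pp rr d (E : ℂ) (cavLim c) h).im := by
    filter_upwards [ae_mv hpp hrr hci] with h hh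
    exact Wd_im_pos hd (by simp) hh
  obtain ⟨hI0, he0⟩ := integral_indep hs hom hW0 hlaw hind0 hpos0
  have hg0 : (fun h => (Gd pp rr d s E om (cavLim c) h).im) =
      fun h => fI s (om h) (Wd pp rr d (E : ℂ) (cavLim c) h) := by
    funext h
    rw [Gd_eq_Gdl, Gdl_eq_fI]
  rw [hg0]
  refine ⟨hI0, ?_⟩
  rw [he0]
  -- convergence of the averages
  have hconv : Tendsto (fun l => ∫ h, thF s (Wd pp rr d (ze E (η l)) (c l) h) ∂P) atTop
      (𝓝 (∫ h, thF s (Wd pp rr d (E : ℂ) (cavLim c) h) ∂P)) := by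
    refine tendsto_integral_of_dominated_convergence (fun _ => Real.pi / (2 * s)) ?_ ?_ ?_ ?_
    · intro l
      have h3 : Measurable (thF s) :=
        ((measurable_fI s).stronglyMeasurable.integral_prod_left').measurable
      exact (h3.comp (hWl l)).aestronglyMeasurable
    · exact integrable_const _
    · intro l
      filter_upwards [hposl l] with h hh
      rw [Real.norm_eq_abs, abs_of_nonneg (thF_nonneg hh)]
      exact thF_le hh hs
    · filter_upwards [hpos0, ae_mv hpp hrr hlim] with h hh hl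
      refine thF_tendsto hh ?_
      unfold Wd
      exact (tendsto_ze hη).add (tendsto_finsetSum _ fun i _ => hl i)
  have hL' : Tendsto (fun l => ∫ h, thF s (Wd pp rr d (ze E (η l)) (c l) h) ∂P) atTop (𝓝 L) := by
    refine hL.congr fun l => ?_
    rw [← (integral_indep hs hom (hWl l) hlaw (hindl l) (hposl l)).2]
    refine integral_congr_ae (Eventually.of_forall fun h => ?_)
    exact Gdl_eq_fI _ _ _ _ _ _ _ _
  exact tendsto_nhds_unique hconv hL'

/-- **the same when the Green functions are deterministic** (`s = 0`) -/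
theorem G_rho_const {pp rr : Ω → Ω} (hpp : MeasurePreserving pp P P)
    (hrr : MeasurePreserving rr P P) {d : ℕ} (hd : 0 < d) {s E : ℝ} {om : Ω → ℝ}
    {c : ℕ → Ω → ℂ} {η : ℕ → ℝ} (hη : Tendsto η atTop (𝓝 0))
    (hcst : ∀ l, ∃ g : ℂ, ∀ᵐ h ∂P, Gdl pp rr d s (ze E (η l)) om (c l) h = g)
    (hci : ∀ᵐ h ∂P, 0 < (cavLim c h).im)
    (hlim : ∀ᵐ h ∂P, Tendsto (fun l => c l h) atTop (𝓝 (cavLim c h)))
    {L : ℝ} (hL : Tendsto (fun l => ∫ h, (Gdl pp rr d s (ze E (η l)) om (c l) h).im ∂P)
      atTop (𝓝 L)) :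
    Integrable (fun h => (Gd pp rr d s E om (cavLim c) h).im) P ∧
      ∫ h, (Gd pp rr d s E om (cavLim c) h).im ∂P = L := by
  choose g hg using hcst
  have hgL : Tendsto (fun l => (g l).im) atTop (𝓝 L) := by
    refine hL.congr fun l => ?_
    have : ∫ h, (Gdl pp rr d s (ze E (η l)) om (c l) h).im ∂P = ∫ _, (g l).im ∂P := by
      refine integral_congr_ae ?_
      filter_upwards [hg l] with h hh
      rw [hh]
    rw [this]; simp
  have hall : ∀ᵐ h ∂P, ∀ l, Gdl pp rr d s (ze E (η l)) om (c l) h = g l := by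
    rw [ae_all_iff]; exact hg
  have hG : ∀ᵐ h ∂P, (Gd pp rr d s E om (cavLim c) h).im = L := by
    filter_upwards [hall, ae_mv hpp hrr hlim, ae_mv hpp hrr hci] with h h1 h2 h3
    have hpos := den_im_pos (pp := pp) (rr := rr) hd (s := s) (z := (E : ℂ)) (by simp)
      (om := om) h3
    have hne : ((E : ℂ) - s * om h + ∑ i ∈ Finset.range d, cavLim c (mv pp rr i h)) ≠ 0 := by
      intro h0; rw [h0] at hpos; simp at hpos
    have h4 : Tendsto (fun l => Gdl pp rr d s (ze E (η l)) om (c l) h) atTop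
        (𝓝 (Gd pp rr d s E om (cavLim c) h)) := by
      unfold Gdl Gd
      refine tendsto_const_nhds.div ?_ hne
      exact ((tendsto_ze hη).sub_const _).add (tendsto_finsetSum _ fun i _ => h2 i)
    have h5 : Tendsto (fun l => (g l).im) atTop (𝓝 (Gd pp rr d s E om (cavLim c) h).im) := by
      refine ((Complex.continuous_im.tendsto _).comp h4).congr fun l => ?_
      change (Gdl pp rr d s (ze E (η l)) om (c l) h).im = _
      rw [h1 l]
    exact tendsto_nhds_unique h5 hgL
  constructor
  · exact (integrable_const L).congr (hG.mono fun h hh => hh.symm)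
  · rw [integral_congr_ae hG]; simp

end Crest.Agent.R166.PhiLim85
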