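import Crest.Agent.R166.PhiLimC_85

/-!
Row 166 (helper85), F4, part D: consequences of `LocLim`, `NonDeg`, `ImFix` for the tree edge block
under the iid law of the environment.
-/

set_option autoImplicit false

open MeasureTheory ProbabilityTheory Filter Topology

namespace Crest.Agent.R166.PhiLim85

open Crest.ProbabilityR.RandomMatrix
open Crest.Agent.R166 Crest.Agent.R166.B2 Crest.Agent.R166.Words955 Crest.Agent.R166.TreeG879
open Crest.Agent.R166.EnvLaw289 Crest.Agent.R166.LLN289 Crest.Agent.R166.LimEnv289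
open Crest.Agent.R166.Seq980
open Crest.Agent.R166.TreeDefs350 (unif)

/-! ### Points in the intersection of events -/

section ex
variable {d : ℕ}

lemma portLaw_univ {n : ℕ} (hne : (regularGraphs n d).Nonempty) :
    portLaw d n Set.univ = 1 := by
  have hpr : IsProbabilityMeasure (potentialLaw n) := by
    rw [LimEnv289.potentialLaw_eq]; infer_instance
  rw [portLaw_apply]
  have h1 : ∀ p ∈ Ports n d, (potentialLaw n) {ω | (p, ω) ∈ (Set.univ : Set (PS d n))} = 1 := by
    intro p _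
    have : {ω : Fin n → ℝ | (p, ω) ∈ (Set.univ : Set (PS d n))} = Set.univ := by
      ext; simp
    rw [this, measure_univ]
  rw [Finset.sum_congr rfl h1]
  simp only [Finset.sum_const, nsmul_eq_mul, mul_one]
  have h2 := (Ports_nonempty_iff (n := n) (d := d)).2 hne
  apply ENNReal.inv_mul_cancel
  · exact_mod_cast (Finset.card_pos.2 h2).ne'
  · exact ENNReal.natCast_ne_top _

lemma exists_good {n : ℕ} (hne : (regularGraphs n d).Nonempty) {A B C : Set (PS d n)}
    {a b c : ℝ} (ha : 0 ≤ a) (hb : 0 ≤ b) (hc : 0 ≤ c) (hA : portLaw d n A ≤ ENNReal.ofReal a)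
    (hB : portLaw d n B ≤ ENNReal.ofReal b) (hC : portLaw d n C ≤ ENNReal.ofReal c)
    (h : a + b + c < 1) : ∃ x ∈ okSet d n, x ∉ A ∧ x ∉ B ∧ x ∉ C := by
  by_contra hcon
  have hsub : (Set.univ : Set (PS d n)) ⊆ ((A ∪ B) ∪ C) ∪ (okSet d n)ᶜ := by
    intro x _
    by_contra hx
    simp only [Set.mem_union, Set.mem_compl_iff, not_or, not_not] at hx
    exact hcon ⟨x, hx.2, hx.1.1.1, hx.1.1.2, hx.1.2⟩
  have h1 : portLaw d n Set.univ ≤ ENNReal.ofReal (a + b + c) := by
    refine (measure_mono hsub).trans ((measure_union_le _ _).trans ?_)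
    rw [okSet_compl, add_zero]
    refine (measure_union_le _ _).trans ((add_le_add (measure_union_le _ _) le_rfl).trans ?_)
    rw [ENNReal.ofReal_add (by positivity) hc, ENNReal.ofReal_add ha hb]
    exact add_le_add (add_le_add hA hB) hC
  rw [portLaw_univ hne] at h1
  have h2 : ENNReal.ofReal (a + b + c) < 1 := by
    rw [← ENNReal.ofReal_one]
    exact (ENNReal.ofReal_lt_ofReal_iff one_pos).2 h
  exact absurd h1 (not_le.2 h2)

/-- arbitrarily large sizes with regular graphs -/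
lemma exists_size (hd : 1 ≤ d) (N : ℕ) : ∃ n, N ≤ n ∧ 0 < n ∧ (regularGraphs n d).Nonempty := by
  obtain ⟨n0, h⟩ := Simple356.regularGraphs_nonempty d hd
  refine ⟨2 * (N + n0 + 1), by omega, by omega, h _ (by omega) ?_⟩
  exact (even_two_mul _).mul_right _

end ex

/-! ### Lipschitz functions -/

lemma abs_min_one_sub (a b : ℝ) : |min 1 a - min 1 b| ≤ |a - b| := by
  have := abs_min_sub_min_le_max 1 a 1 b
  simpa using this

lemma lip_dist : Lip2 1 fun A B : M2 => min 1 (bnorm (A - B)) where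
  nn := zero_le_one
  bd A B := by
    have h := bnorm_nonneg (A - B)
    rw [abs_of_nonneg (le_min zero_le_one h)]
    exact min_le_left _ _
  lip A A' B B' := by
    rw [one_mul]
    refine (abs_min_one_sub _ _).trans ?_
    rw [abs_le]
    have e1 : A - B = (A - A') + (A' - B') + (B' - B) := by abel
    have e2 : A' - B' = (A' - A) + (A - B) + (B - B') := by abel
    have h1 : bnorm (A - B) ≤ bnorm (A - A') + bnorm (A' - B') + bnorm (B' - B) := by
      conv_lhs => rw [e1]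
      exact (bnorm_add_le _ _).trans (add_le_add (bnorm_add_le _ _) le_rfl)
    have h2 : bnorm (A' - B') ≤ bnorm (A' - A) + bnorm (A - B) + bnorm (B - B') := by
      conv_lhs => rw [e2]
      exact (bnorm_add_le _ _).trans (add_le_add (bnorm_add_le _ _) le_rfl)
    rw [bnorm_sub_comm B' B] at h1
    rw [bnorm_sub_comm A' A] at h2
    constructor <;> linarith

/-- the quadratic form of the imaginary part -/
def qfm (B : M2) (x y : ℝ) : ℝ := ∑ a, ∑ b, ![x, y] a * (B a b).im * ![x, y] b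

lemma qfm_eq (B : M2) (x y : ℝ) : qfm B x y =
    (B 0 0).im * x ^ 2 + ((B 0 1).im + (B 1 0).im) * (x * y) + (B 1 1).im * y ^ 2 := by
  simp only [qfm, Fin.sum_univ_two, Matrix.cons_val_zero, Matrix.cons_val_one]
  ring

lemma ND_iff (δ : ℝ) (B : M2) : ND δ B ↔ ∀ x y : ℝ, δ * (x ^ 2 + y ^ 2) ≤ qfm B x y := by
  constructor
  · intro h x y
    have := h ![x, y]
    simpa [qfm] using this
  · intro h x
    have := h (x 0) (x 1)
    have e : ![x 0, x 1] = x := by
      funext i; fin_cases i <;> rfl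
    rw [qfm, e] at this
    exact this

lemma qfm_sub_le (A B : M2) {x y : ℝ} (h : x ^ 2 + y ^ 2 = 1) :
    |qfm A x y - qfm B x y| ≤ 2 * bnorm (A - B) := by
  rw [qfm_eq, qfm_eq]
  have h00 := (Complex.abs_im_le_norm _).trans (entry_le_bnorm (A - B) 0 0)
  have h01 := (Complex.abs_im_le_norm _).trans (entry_le_bnorm (A - B) 0 1)
  have h10 := (Complex.abs_im_le_norm _).trans (entry_le_bnorm (A - B) 1 0)
  have h11 := (Complex.abs_im_le_norm _).trans (entry_le_bnorm (A - B) 1 1)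
  simp only [Matrix.sub_apply, Complex.sub_im] at h00 h01 h10 h11
  rw [abs_le] at h00 h01 h10 h11 ⊢
  set r := bnorm (A - B)
  have hr : 0 ≤ r := bnorm_nonneg _
  have hx := sq_nonneg x
  have hy := sq_nonneg y
  have hxy1 : x * y ≤ 1 / 2 := by nlinarith [sq_nonneg (x - y)]
  have hxy2 : -(1 / 2) ≤ x * y := by nlinarith [sq_nonneg (x + y)]
  have hm : |((A 0 1).im - (B 0 1).im + ((A 1 0).im - (B 1 0).im)) * (x * y)| ≤ r := by
    rw [abs_mul]
    have q1 : |((A 0 1).im - (B 0 1).im + ((A 1 0).im - (B 1 0).im))| ≤ 2 * r := by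
      rw [abs_le]; constructor <;> linarith
    have q2 : |x * y| ≤ 1 / 2 := abs_le.2 ⟨hxy2, hxy1⟩
    calc _ ≤ 2 * r * (1 / 2) := by gcongr
      _ = r := by ring
  rw [abs_le] at hm
  have d1 : ((A 0 0).im - (B 0 0).im) * x ^ 2 ≤ r * x ^ 2 := by gcongr; exact h00.2
  have d2 : -(r * x ^ 2) ≤ ((A 0 0).im - (B 0 0).im) * x ^ 2 := by
    have := mul_le_mul_of_nonneg_right h00.1 hx
    linarith
  have d3 : ((A 1 1).im - (B 1 1).im) * y ^ 2 ≤ r * y ^ 2 := by gcongr; exact h11.2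
  have d4 : -(r * y ^ 2) ≤ ((A 1 1).im - (B 1 1).im) * y ^ 2 := by
    have := mul_le_mul_of_nonneg_right h11.1 hy
    linarith
  have e : r * x ^ 2 + r * y ^ 2 = r := by rw [← mul_add, h, mul_one]
  constructor <;> linarith [hm.1, hm.2]

/-- the smallest eigenvalue of the imaginary part -/
noncomputable def ndv (B : M2) : ℝ := ⨅ θ : ℝ, qfm B (Real.cos θ) (Real.sin θ)

lemma cs1 (θ : ℝ) : Real.cos θ ^ 2 + Real.sin θ ^ 2 = 1 := by
  rw [add_comm]; exact Real.sin_sq_add_cos_sq θ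

lemma qfm_zero (x y : ℝ) : qfm 0 x y = 0 := by simp [qfm_eq]

lemma bdd_qfm (B : M2) : BddBelow (Set.range fun θ : ℝ => qfm B (Real.cos θ) (Real.sin θ)) := by
  refine ⟨-(2 * bnorm B), ?_⟩
  rintro _ ⟨θ, rfl⟩
  have := qfm_sub_le B 0 (cs1 θ)
  rw [qfm_zero, sub_zero, sub_zero, abs_le] at this
  exact this.1

lemma ndv_sub_le (A B : M2) : ndv A ≤ ndv B + 2 * bnorm (A - B) := by
  rw [← sub_le_iff_le_add]
  refine le_ciInf fun θ => ?_
  have h1 : ndv A ≤ qfm A (Real.cos θ) (Real.sin θ) := ciInf_le (bdd_qfm A) θ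
  have h2 := qfm_sub_le A B (cs1 θ)
  rw [abs_le] at h2
  linarith [h2.2]

lemma abs_ndv_sub_le (A B : M2) : |ndv A - ndv B| ≤ 2 * bnorm (A - B) := by
  rw [abs_le]
  have h1 := ndv_sub_le A B
  have h2 := ndv_sub_le B A
  rw [bnorm_sub_comm B A] at h2
  constructor <;> linarith

lemma ND_iff_ndv (δ : ℝ) (B : M2) : ND δ B ↔ δ ≤ ndv B := by
  rw [ND_iff]
  constructor
  · intro h
    refine le_ciInf fun θ => ?_
    have := h (Real.cos θ) (Real.sin θ)
    rwa [cs1, mul_one] at this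
  · intro h x y
    set w : ℂ := ⟨x, y⟩ with hw
    have e1 : ‖w‖ * Real.cos w.arg = x := Complex.norm_mul_cos_arg w
    have e2 : ‖w‖ * Real.sin w.arg = y := Complex.norm_mul_sin_arg w
    have h1 : δ ≤ qfm B (Real.cos w.arg) (Real.sin w.arg) :=
      h.trans (ciInf_le (bdd_qfm B) w.arg)
    have h2 : qfm B x y = ‖w‖ ^ 2 * qfm B (Real.cos w.arg) (Real.sin w.arg) := by
      rw [qfm_eq, qfm_eq]
      conv_lhs => rw [← e1, ← e2]
      ring
    have h3 : x ^ 2 + y ^ 2 = ‖w‖ ^ 2 := by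
      conv_lhs => rw [← e1, ← e2]
      have := cs1 w.arg
      linear_combination ‖w‖ ^ 2 * this
    rw [h2, h3, mul_comm]
    gcongr

/-- smoothed indicator of degeneracy -/
noncomputable def chN (δ : ℝ) (B : M2) : ℝ := min 1 (max 0 (2 - 2 * ndv B / δ))

lemma abs_max_zero_sub (a b : ℝ) : |max 0 a - max 0 b| ≤ |a - b| := by
  have := abs_max_sub_max_le_max 0 a 0 b
  simpa using this

lemma chN_nonneg (δ : ℝ) (B : M2) : 0 ≤ chN δ B := le_min zero_le_one (le_max_left _ _)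
lemma chN_le_one (δ : ℝ) (B : M2) : chN δ B ≤ 1 := min_le_left _ _

lemma lip_chN {δ : ℝ} (hδ : 0 < δ) : Lip2 (4 / δ) fun A _ : M2 => chN δ A where
  nn := by positivity
  bd A _ := by
    rw [abs_of_nonneg (chN_nonneg _ _)]; exact chN_le_one _ _
  lip A A' B B' := by
    unfold chN
    refine (abs_min_one_sub _ _).trans ((abs_max_zero_sub _ _).trans ?_)
    have e : 2 - 2 * ndv A / δ - (2 - 2 * ndv A' / δ) = -(2 / δ) * (ndv A - ndv A') := by
      field_simp; ring
    rw [e, abs_mul, abs_neg, abs_of_pos (by positivity : 0 < 2 / δ)]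
    have h1 := abs_ndv_sub_le A A'
    have h2 := bnorm_nonneg (B - B')
    calc 2 / δ * |ndv A - ndv A'| ≤ 2 / δ * (2 * bnorm (A - A')) := by gcongr
      _ = 4 / δ * bnorm (A - A') := by ring
      _ ≤ 4 / δ * (bnorm (A - A') + bnorm (B - B')) := by gcongr; linarith

lemma chN_of_ND {δ : ℝ} (hδ : 0 < δ) {B : M2} (h : ND δ B) : chN δ B = 0 := by
  rw [ND_iff_ndv] at h
  unfold chN
  have h1 : 2 - 2 * ndv B / δ ≤ 0 := by
    have : 2 ≤ 2 * ndv B / δ := by
      rw [le_div_iff₀ hδ]; linarith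
    linarith
  rw [max_eq_left h1, min_eq_right zero_le_one]

lemma chN_of_not {δ : ℝ} (hδ : 0 < δ) {B : M2} (h : ¬ ND (δ / 2) B) : chN δ B = 1 := by
  rw [ND_iff_ndv, not_le] at h
  unfold chN
  have h1 : 1 ≤ 2 - 2 * ndv B / δ := by
    have : 2 * ndv B / δ ≤ 1 := by
      rw [div_le_iff₀ hδ]; linarith
    linarith
  rw [max_eq_right (by linarith), min_eq_left h1]

lemma lip_im {η : ℝ} (hη : 0 ≤ η) :
    Lip2 η fun A _ : M2 => max (-1) (min 1 (η * (A 0 0).im)) where
  nn := hη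
  bd A _ := by
    rw [abs_le]
    exact ⟨le_max_left _ _, max_le (by norm_num) (min_le_left _ _)⟩
  lip A A' B B' := by
    have h1 := abs_max_sub_max_le_max (-1) (min 1 (η * (A 0 0).im)) (-1)
      (min 1 (η * (A' 0 0).im))
    have h1' : max |(-1 : ℝ) - -1| |min 1 (η * (A 0 0).im) - min 1 (η * (A' 0 0).im)| ≤
        |min 1 (η * (A 0 0).im) - min 1 (η * (A' 0 0).im)| := by
      refine max_le ?_ le_rfl
      rw [sub_self, abs_zero]
      exact abs_nonneg _
    refine (h1.trans h1').trans ((abs_min_one_sub _ _).trans ?_)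
    rw [← mul_sub, abs_mul, abs_of_nonneg hη]
    have h2 := (Complex.abs_im_le_norm _).trans (entry_le_bnorm (A - A') 0 0)
    simp only [Matrix.sub_apply, Complex.sub_im] at h2
    have h3 := bnorm_nonneg (B - B')
    gcongr
    linarith

/-! ### The three facts -/

section facts
variable {d : ℕ} [NeZero d]

/-- environment potential -/
abbrev oE (ξ : Conf d (Fin d × ℝ)) : TW d → ℝ := omOf id ξ

lemma hd1 (d : ℕ) [NeZero d] : 1 ≤ d := Nat.pos_of_ne_zero (NeZero.ne d)

lemma eAvg_mono' {n : ℕ} (G : SimpleGraph (Fin n)) {f g : Fin n → Fin n → ℝ}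
    (h : ∀ u w, f u w ≤ g u w) : eAvg G f ≤ eAvg G g := by
  unfold eAvg
  gcongr
  exact h _ _

lemma eAvg_add' {n : ℕ} (G : SimpleGraph (Fin n)) (f g : Fin n → Fin n → ℝ) :
    eAvg G (fun u w => f u w + g u w) = eAvg G f + eAvg G g := by
  unfold eAvg
  rw [Finset.sum_add_distrib, add_div]

lemma ze_im_pos {E η : ℝ} (h : 0 < η) : 0 < (ze E η).im := by rw [ze_im]; exact h

/-- (T1) the tree blocks are Cauchy in probability -/
theorem fact1 {s E : ℝ} (hLoc : LocLim d s E) : ∀ ε : ℝ, 0 < ε → ∃ η0 : ℝ, 0 < η0 ∧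
    ∀ η, 0 < η → η ≤ η0 → ∀ η', 0 < η' → η' ≤ η0 →
    ∫ ξ, min 1 (bnorm (BT s (ze E η) (oE ξ) - BT s (ze E η') (oE ξ))) ∂(envLaw d unif) ≤ ε := by
  intro ε hε
  set e1 := min ε 1 / 4 with he1
  have he1p : 0 < e1 := by positivity
  have he1a : e1 ≤ ε / 4 := by
    rw [he1]; gcongr; exact min_le_left _ _
  have he1b : e1 ≤ 1 / 4 := by
    rw [he1]; gcongr; exact min_le_right _ _
  obtain ⟨η0, hη0, K0, hK0, H⟩ := hLoc e1 he1p
  refine ⟨η0, hη0, fun η hη hη1 η' hη' hη1' => ?_⟩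
  obtain ⟨N1, hN1⟩ := H η hη hη1 K0 le_rfl
  obtain ⟨N2, hN2⟩ := H η' hη' hη1' K0 le_rfl
  obtain ⟨N3, hN3⟩ := lln_two (d := d) s (ze_im_pos (E := E) hη) (ze_im_pos (E := E) hη')
    lip_dist he1p (δ := 1 / 4) (by norm_num)
  obtain ⟨n, hn, hn0, hne⟩ := exists_size (hd1 d) (max (max N1 N2) N3)
  have W1 := (Whp_iff_port _ _).1 (hN1 n (by omega) hne)
  have W2 := (Whp_iff_port _ _).1 (hN2 n (by omega) hne)
  have W3 := hN3 n (by omega)
  obtain ⟨x, hx, x1, x2, x3⟩ := exists_good hne he1p.le he1p.le (by norm_num) W1 W2 W3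
    (by linarith)
  simp only [Set.mem_ofPred_eq, not_not] at x1 x2
  simp only [Set.mem_ofPred_eq, not_lt] at x3
  have hp := hx.1
  have hb : bAvg s (ze E η) (ze E η') (fun A B : M2 => min 1 (bnorm (A - B))) x ≤ e1 + e1 := by
    rw [bAvg_eq s _ _ _ hp]
    refine le_trans ?_ (add_le_add x1 x2)
    rw [← eAvg_add']
    refine eAvg_mono' _ fun u w => ?_
    set A := Blk (Res (Hm (graphOf x.1) s x.2) (ze E η)) u w
    set B := Blk (Res (Hm (graphOf x.1) s x.2) (ze E η')) u w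
    set C := Blk (Res (Hm (graphOf x.1) s x.2) (zz E K0 n)) u w
    have h1 := bnorm_tri A C B
    rw [bnorm_sub_comm A C] at h1
    have hC1 := bnorm_nonneg (C - A)
    have hC2 := bnorm_nonneg (C - B)
    rcases le_total 1 (bnorm (C - A)) with h2 | h2
    · rw [min_eq_left h2]
      have := le_min zero_le_one hC2
      linarith [min_le_left (1 : ℝ) (bnorm (A - B))]
    · rcases le_total 1 (bnorm (C - B)) with h3 | h3
      · rw [min_eq_left h3]
        have := le_min zero_le_one hC1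
        linarith [min_le_left (1 : ℝ) (bnorm (A - B))]
      · rw [min_eq_right h2, min_eq_right h3]
        exact (min_le_right _ _).trans h1
  rw [abs_le] at x3
  have : ∫ ξ, PhiE s (ze E η) (ze E η') (fun A B : M2 => min 1 (bnorm (A - B))) ξ
      ∂(envLaw d unif) ≤ e1 + (e1 + e1) := by linarith [x3.1]
  refine le_trans this ?_
  linarith

/-- (T2) the tree blocks are non-degenerate -/
theorem fact2 {s E : ℝ} (hND : NonDeg d s E) : ∀ ε : ℝ, 0 < ε → ∃ δ : ℝ, 0 < δ ∧
    ∃ η0 : ℝ, 0 < η0 ∧ ∀ η, 0 < η → η ≤ η0 →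
    (envLaw d unif) {ξ | ¬ ND δ (BT s (ze E η) (oE ξ))} ≤ ENNReal.ofReal ε := by
  intro ε hε
  set e1 := min ε 1 / 4 with he1
  have he1p : 0 < e1 := by positivity
  have he1a : e1 ≤ ε / 4 := by
    rw [he1]; gcongr; exact min_le_left _ _
  have he1b : e1 ≤ 1 / 4 := by
    rw [he1]; gcongr; exact min_le_right _ _
  obtain ⟨δ, hδ, η0, hη0, H⟩ := hND e1 he1p
  refine ⟨δ / 2, by positivity, η0, hη0, fun η hη hη1 => ?_⟩
  obtain ⟨N1, hN1⟩ := H η hη hη1
  obtain ⟨N3, hN3⟩ := lln_two (d := d) s (ze_im_pos (E := E) hη) (ze_im_pos (E := E) hη)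
    (lip_chN hδ) he1p (δ := 1 / 4) (by norm_num)
  obtain ⟨n, hn, hn0, hne⟩ := exists_size (hd1 d) (max N1 N3)
  have W1 := (Whp_iff_port _ _).1 (hN1 n (by omega) hne)
  have W3 := hN3 n (by omega)
  obtain ⟨x, hx, x1, _, x3⟩ := exists_good hne he1p.le he1p.le (by norm_num) W1 W1 W3
    (by linarith)
  simp only [Set.mem_ofPred_eq, not_not] at x1
  simp only [Set.mem_ofPred_eq, not_lt] at x3
  have hp := hx.1
  have hb : bAvg s (ze E η) (ze E η) (fun A _ : M2 => chN δ A) x ≤ e1 := by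
    rw [bAvg_eq s _ _ _ hp]
    refine le_trans (eAvg_mono' _ fun u w => ?_) x1
    split_ifs with h
    · exact (chN_of_ND hδ h).le
    · exact chN_le_one _ _
  rw [abs_le] at x3
  have h2 : ∫ ξ, PhiE s (ze E η) (ze E η) (fun A _ : M2 => chN δ A) ξ ∂(envLaw d unif) ≤
      e1 + e1 := by linarith [x3.1]
  have hcE : Continuous (PhiE (d := d) s (ze E η) (ze E η) (fun A _ : M2 => chN δ A)) := by
    have hc : Continuous fun ξ : Conf d (Fin d × ℝ) => omOf id ξ :=
      continuous_omOf id continuous_id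
    have hz := ze_im_pos (E := E) hη
    exact (lip_chN hδ).continuous ((continuous_BT s hz).comp hc) ((continuous_BT s hz).comp hc)
  have hint : Integrable (PhiE (d := d) s (ze E η) (ze E η) (fun A _ : M2 => chN δ A))
      (envLaw d unif) :=
    Integrable.of_bound hcE.aestronglyMeasurable 1
      (Eventually.of_forall fun ξ => by rw [Real.norm_eq_abs]; exact (lip_chN hδ).bd _ 0)
  have hnn : 0 ≤ᵐ[envLaw d unif]
      PhiE (d := d) s (ze E η) (ze E η) (fun A _ : M2 => chN δ A) :=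
    Eventually.of_forall fun ξ => chN_nonneg _ _
  have hM := mul_meas_ge_le_integral_of_nonneg hnn hint 1
  rw [one_mul] at hM
  have hsub : {ξ : Conf d (Fin d × ℝ) | ¬ ND (δ / 2) (BT s (ze E η) (oE ξ))} ⊆
      {ξ | 1 ≤ PhiE s (ze E η) (ze E η) (fun A _ : M2 => chN δ A) ξ} := by
    intro ξ hξ
    exact (chN_of_not hδ hξ).ge
  refine (measure_mono hsub).trans ?_
  have h3 : (envLaw d unif).real
      {ξ | 1 ≤ PhiE s (ze E η) (ze E η) (fun A _ : M2 => chN δ A) ξ} ≤ ε := by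
    linarith
  rw [Measure.real, ← ENNReal.ofReal_le_ofReal_iff hε.le,
    ENNReal.ofReal_toReal (measure_ne_top _ _)] at h3
  exact h3

lemma norm_Res_le' {n : ℕ} {p : Equiv.Perm (HE n d)} (hp : IsPort p) (s : ℝ) (om : Fin n → ℝ)
    (hom : ∀ v, |om v| ≤ 1) {z : ℂ} (hz : 0 < z.im) (u v : Fin n) :
    ‖Res (Hm (graphOf p) s om) z u v‖ ≤ 1 / z.im := by
  rw [Res_eq_gOp p hp s om hom hz.ne']
  exact L2G879.Op.norm_G_le _ hz _ _

/-- (T3) the mean of the imaginary part -/
theorem fact3 {s E ρ : ℝ} (hIm : ImFix d s E ρ) : ∀ ε : ℝ, 0 < ε → ∃ η0 : ℝ, 0 < η0 ∧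
    ∀ η, 0 < η → η ≤ η0 →
    |∫ ξ, (BT s (ze E η) (oE ξ) 0 0).im ∂(envLaw d unif) - Real.pi * ρ| ≤ ε := by
  intro ε hε
  set e1 := min ε 1 / 4 with he1
  have he1p : 0 < e1 := by positivity
  have he1a : e1 ≤ ε / 4 := by
    rw [he1]; gcongr; exact min_le_left _ _
  have he1b : e1 ≤ 1 / 4 := by
    rw [he1]; gcongr; exact min_le_right _ _
  obtain ⟨η0, hη0, H⟩ := hIm e1 he1p
  refine ⟨η0, hη0, fun η hη hη1 => ?_⟩
  obtain ⟨N1, hN1⟩ := H η hη hη1
  obtain ⟨N3, hN3⟩ := lln_two (d := d) s (ze_im_pos (E := E) hη) (ze_im_pos (E := E) hη)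
    (lip_im hη.le) (ε := η * e1) (by positivity) (δ := 1 / 4) (by norm_num)
  obtain ⟨n, hn, hn0, hne⟩ := exists_size (hd1 d) (max N1 N3)
  have W1 := (Whp_iff_port _ _).1 (hN1 n (by omega) hne)
  have W3 := hN3 n (by omega)
  obtain ⟨x, hx, x1, _, x3⟩ := exists_good hne he1p.le he1p.le (by norm_num) W1 W1 W3
    (by linarith)
  simp only [Set.mem_ofPred_eq, not_not] at x1
  simp only [Set.mem_ofPred_eq, not_lt] at x3
  have hp := hx.1
  have hom : ∀ v, |x.2 v| ≤ 1 := fun v => abs_le.2 (hx.2 v)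
  have hz := ze_im_pos (E := E) hη
  have hcl : ∀ t : ℝ, |t| ≤ 1 / η → max (-1) (min 1 (η * t)) = η * t := by
    intro t ht
    have h1 : |η * t| ≤ 1 := by
      rw [abs_mul, abs_of_pos hη]
      calc η * |t| ≤ η * (1 / η) := by gcongr
        _ = 1 := by field_simp
    rw [abs_le] at h1
    rw [min_eq_right h1.2, max_eq_right h1.1]
  have hn' : (0 : ℝ) < n := by exact_mod_cast hn0
  have hd' : (0 : ℝ) < d := by exact_mod_cast hd1 d
  -- the average over the graph
  have hb : bAvg s (ze E η) (ze E η) (fun A _ : M2 => max (-1) (min 1 (η * (A 0 0).im))) x =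
      η * (mn (Hm (graphOf x.1) s x.2) (ze E η)).im := by
    unfold bAvg
    have e1 : ∀ h : HE n d, max (-1) (min 1 (η *
        (Blk (Res (Hm (graphOf x.1) s x.2) (ze E η)) h.1 (x.1 h).1 0 0).im)) =
        η * (Res (Hm (graphOf x.1) s x.2) (ze E η) h.1 h.1).im := by
      intro h
      refine hcl _ ?_
      refine (Complex.abs_im_le_norm _).trans ?_
      have := norm_Res_le' hp s x.2 hom hz h.1 h.1
      rwa [ze_im] at this
    rw [Finset.sum_congr rfl fun h _ => e1 h, Fintype.sum_prod_type]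
    simp only [Finset.sum_const, Finset.card_univ, Fintype.card_fin, nsmul_eq_mul]
    unfold mn Matrix.trace
    rw [Complex.div_natCast_im, Complex.im_sum]
    simp only [Matrix.diag_apply]
    rw [← Finset.mul_sum, ← Finset.mul_sum]
    field_simp
  have hi : ∫ ξ, PhiE s (ze E η) (ze E η)
      (fun A _ : M2 => max (-1) (min 1 (η * (A 0 0).im))) ξ ∂(envLaw d unif) =
      η * ∫ ξ, (BT s (ze E η) (oE ξ) 0 0).im ∂(envLaw d unif) := by
    rw [← integral_const_mul]
    refine integral_congr_ae (Eventually.of_forall fun ξ => ?_)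
    refine hcl _ ?_
    refine (Complex.abs_im_le_norm _).trans ?_
    rw [BT_apply s hz]
    have := norm_treeG_le s hz (omOf id ξ) (rt2 d 0) (rt2 d 0)
    rwa [ze_im] at this
  rw [hb, hi, ← mul_sub, abs_mul, abs_of_pos hη] at x3
  have x4 := le_of_mul_le_mul_left x3 hη
  rw [abs_le] at x4 x1 ⊢
  constructor <;> linarith [x4.1, x4.2, x1.1, x1.2]

end facts

end Crest.Agent.R166.PhiLim85
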