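import Crest.Agent.R166.PhiLimD_85
import Crest.Agent.R166.PhiAlg_879

/-!
Row 166 (helper85), F4 / B15, part E: the limit cavity field of the iid environment
(from `LocLim`, `NonDeg`, `ImFix`).
-/

set_option autoImplicit false

open MeasureTheory ProbabilityTheory Filter Topology

namespace Crest.Agent.R166.PhiLim85

open Crest.ProbabilityR.RandomMatrix
open Crest.Agent.R166 Crest.Agent.R166.B2 Crest.Agent.R166.Words955
open Crest.Agent.R166.TreeG879 (cav treeG omOf tOp US clip omOf_cross omOf_step omOf_rotn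
  continuous_cav im_cav_pos norm_cav_le abs_clip_le clip_eq continuous_clip continuous_omOf)
open Crest.Agent.R166.EnvLaw289 Crest.Agent.R166.LLN289 Crest.Agent.R166.LimEnv289
open Crest.Agent.R166.Seq980
open Crest.Agent.R166.TreeDefs350 (unif)

variable {d : ℕ} [NeZero d]

/-! ### Locality of the cavity number -/

theorem cav_congr (s : ℝ) {z : ℂ} (hz : 0 < z.im) {om om' : TW d → ℝ}
    (h : ∀ x ∈ US d, om x = om' x) : cav s z om = cav s z om' := by
  classical
  have key : ∀ ε : ℝ, 0 < ε → ‖cav s z om - cav s z om'‖ ≤ 2 * ε := by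
    intro ε hε
    refine L2G879.Op.norm_G_sub_G_le ((tOp s om).cut (US d)) ((tOp s om').cut (US d)) id TW.nil
      (fun _ x => x ∈ US d) ?_ ?_ ?_ hz hε (x := TW.nil) ?_
    · intro k x hx
      refine ⟨hx, fun x' hx' => ?_⟩
      exact ((L2G879.Op.mem_cut_nb (H := tOp s om)).1 hx').2.2
    · intro k x hx
      refine ⟨?_, by simp [Set.injOn_id], ?_⟩
      · rw [Finset.image_id]
        ext y
        simp only [id]
        rw [L2G879.Op.mem_cut_nb, L2G879.Op.mem_cut_nb]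
        exact Iff.rfl
      · simp only [id, L2G879.Op.cut_v, TreeG879.tOp_v]
        rw [h x hx]
    · intro x _; exact Iff.rfl
    · simp [TreeG879.mem_US, TW.nil]
  have h0 : ‖cav s z om - cav s z om'‖ ≤ 0 := by
    refine le_of_forall_pos_le_add fun ε hε => ?_
    have := key (ε / 2) (by positivity)
    linarith
  exact sub_eq_zero.1 (norm_le_zero_iff.1 h0)

/-- the potential away from the root vertex -/
def rst (om : TW d → ℝ) : TW d → ℝ := fun w => if w = TW.nil then 0 else om w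

lemma mv_ne_nil (i : Fin d) {x : TW d} (hx : x ∈ US d) : TreeG879.mv i x ≠ TW.nil := by
  intro h
  have h1 : TreeG879.mvL [i] x ∈ TreeG879.Br [i] :=
    (TreeG879.mvL_mem_Br (w := [i]) (by simp) (by simp) x).2 hx
  rw [TreeG879.mvL_single, h] at h1
  exact TreeG879.not_mem_Br_nil (by simp) h1

theorem cav_mv (s : ℝ) {z : ℂ} (hz : 0 < z.im) (om : TW d → ℝ) (i : Fin d) :
    cav s z (om ∘ TreeG879.mv i) = cav s z (rst om ∘ TreeG879.mv i) := by
  refine cav_congr s hz fun x hx => ?_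
  simp only [Function.comp, rst]
  rw [if_neg (mv_ne_nil i hx)]

lemma tOp_clip (s : ℝ) (om : TW d → ℝ) : tOp s (fun w => clip (om w)) = tOp s om := by
  refine L2G879.Op.ext' (fun _ _ => Iff.rfl) fun x => ?_
  simp only [TreeG879.tOp_v]
  rw [clip_eq (abs_clip_le _)]

theorem cav_clip (s : ℝ) (z : ℂ) (om : TW d → ℝ) :
    cav s z (fun w => clip (om w)) = cav s z om := by
  unfold TreeG879.cav
  rw [tOp_clip]

/-! ### The iid environment -/

noncomputable abbrev mu1 (d : ℕ) [NeZero d] : Measure (Conf d (Fin d × ℝ)) := envLaw d unif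

/-- potential at the root -/
def om1 (ξ : Conf d (Fin d × ℝ)) : ℝ := (ξ TW.nil).2

lemma measurable_om1 : Measurable (om1 : Conf d (Fin d × ℝ) → ℝ) :=
  measurable_snd.comp (measurable_pi_apply TW.nil)

lemma map_om1 : (mu1 d).map om1 = unif := by
  have h1 : (mu1 d).map (fun ξ => ξ TW.nil) = siteLaw d unif := envLaw_eval unif TW.nil
  have h2 : (om1 : Conf d (Fin d × ℝ) → ℝ) = Prod.snd ∘ (fun ξ => ξ TW.nil) := rfl
  rw [h2, ← Measure.map_map measurable_snd (measurable_pi_apply _), h1, siteLaw]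
  rw [← Measure.snd, Measure.snd_prod]

lemma unif_ae' : ∀ᵐ t ∂unif, |t| ≤ 1 := by
  have h : ∀ᵐ x ∂(volume.restrict (Set.Icc (-1 : ℝ) 1)), |x| ≤ 1 := by
    filter_upwards [ae_restrict_mem measurableSet_Icc] with x hx
    exact abs_le.2 hx
  unfold TreeDefs350.unif
  exact Measure.ae_smul_measure h _

/-- the potentials are in the cube -/
lemma ae_om1_le : ∀ᵐ ξ ∂(mu1 d), |om1 ξ| ≤ 1 := by
  have h := unif_ae'
  rw [← map_om1 (d := d)] at h
  exact ae_of_ae_map measurable_om1.aemeasurable h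

lemma measurable_omOf_id : Measurable (omOf id : Conf d (Fin d × ℝ) → TW d → ℝ) :=
  (continuous_omOf id continuous_id).measurable

/-- the potential at the root is independent of the other potentials -/
lemma indep_root : IndepFun (om1 : Conf d (Fin d × ℝ) → ℝ)
    (fun ξ : Conf d (Fin d × ℝ) => rst (omOf id ξ)) (mu1 d) := by
  have h0 : iIndepFun (fun (w : TW d) (ξ : Conf d (Fin d × ℝ)) => ξ w) (mu1 d) :=
    envLaw_iIndep unif
  have h1 : iIndepFun (fun (w : TW d) (ξ : Conf d (Fin d × ℝ)) => (ξ w).2) (mu1 d) :=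
    h0.comp (fun _ x => x.2) (fun _ => measurable_snd)
  have hm : ∀ w : TW d, Measurable fun ξ : Conf d (Fin d × ℝ) => (ξ w).2 := fun w =>
    measurable_snd.comp (measurable_pi_apply w)
  have h2 := indep_iSup_of_disjoint (m := fun w : TW d => MeasurableSpace.comap
    (fun ξ : Conf d (Fin d × ℝ) => (ξ w).2) inferInstance) (fun w => (hm w).comap_le)
    ((iIndepFun_iff_iIndep _ _ _).1 h1) (S := {TW.nil}) (T := {TW.nil}ᶜ) disjoint_compl_right
  rw [IndepFun_iff_Indep]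
  refine indep_of_indep_of_le_left (indep_of_indep_of_le_right h2 ?_) ?_
  · refine Measurable.comap_le ?_
    refine @measurable_pi_lambda _ _ _ (_) _ _ fun w => ?_
    unfold rst
    by_cases hw : w = TW.nil
    · simp only [hw, if_true]
      exact measurable_const
    · simp only [hw, if_false]
      have hle : MeasurableSpace.comap (fun ξ : Conf d (Fin d × ℝ) => (ξ w).2) inferInstance ≤
          ⨆ i ∈ ({TW.nil}ᶜ : Set (TW d)), MeasurableSpace.comap
            (fun ξ : Conf d (Fin d × ℝ) => (ξ i).2) inferInstance :=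
        le_iSup₂_of_le (f := fun i (_ : i ∈ ({TW.nil}ᶜ : Set (TW d))) => MeasurableSpace.comap
            (fun ξ : Conf d (Fin d × ℝ) => (ξ i).2) inferInstance) w hw le_rfl
      have h3 : Measurable[MeasurableSpace.comap (fun ξ : Conf d (Fin d × ℝ) => (ξ w).2)
        inferInstance] (fun ξ : Conf d (Fin d × ℝ) => (ξ w).2) := comap_measurable _
      exact h3.mono hle le_rfl
  · refine Measurable.comap_le ?_
    have hle : MeasurableSpace.comap (fun ξ : Conf d (Fin d × ℝ) => (ξ TW.nil).2) inferInstance ≤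
        ⨆ i ∈ ({TW.nil} : Set (TW d)), MeasurableSpace.comap
          (fun ξ : Conf d (Fin d × ℝ) => (ξ i).2) inferInstance :=
      le_iSup₂_of_le (f := fun i (_ : i ∈ ({TW.nil} : Set (TW d))) => MeasurableSpace.comap
          (fun ξ : Conf d (Fin d × ℝ) => (ξ i).2) inferInstance) TW.nil rfl le_rfl
    have h3 : Measurable[MeasurableSpace.comap (fun ξ : Conf d (Fin d × ℝ) => (ξ TW.nil).2)
      inferInstance] (fun ξ : Conf d (Fin d × ℝ) => (ξ TW.nil).2) := comap_measurable _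
    exact h3.mono hle le_rfl

/-- cavity fields on the environment -/
noncomputable def c1 (s E : ℝ) (η : ℕ → ℝ) (l : ℕ) (ξ : Conf d (Fin d × ℝ)) : ℂ :=
  cav s (ze E (η l)) (omOf id ξ)

lemma measurable_c1 (s E : ℝ) {η : ℕ → ℝ} (hη : ∀ l, 0 < η l) (l : ℕ) :
    Measurable (c1 s E η l : Conf d (Fin d × ℝ) → ℂ) :=
  (continuous_cav s (ze_im_pos (hη l))).measurable.comp measurable_omOf_id

lemma im_c1 (s E : ℝ) {η : ℕ → ℝ} (hη : ∀ l, 0 < η l) (l : ℕ) (ξ : Conf d (Fin d × ℝ)) :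
    0 < (c1 s E η l ξ).im := im_cav_pos s (ze_im_pos (hη l)) _

lemma c1_mv (s E : ℝ) {η : ℕ → ℝ} (hη : ∀ l, 0 < η l) (l j : ℕ) (ξ : Conf d (Fin d × ℝ)) :
    c1 s E η l (B2.mv cross (rotn 1) j ξ) =
      cav s (ze E (η l)) (rst (omOf id ξ) ∘ TreeG879.mv (Fin.ofNat d j)) := by
  unfold c1
  rw [PhiAlg879.mv_eq, omOf_step, cav_mv s (ze_im_pos (hη l))]

lemma indep_c1 (s E : ℝ) {η : ℕ → ℝ} (hη : ∀ l, 0 < η l) :
    IndepFun (om1 : Conf d (Fin d × ℝ) → ℝ)
      (fun ξ => fun q : ℕ × ℕ => c1 s E η q.1 (B2.mv cross (rotn 1) q.2 ξ)) (mu1 d) := by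
  have hψ : Measurable fun v : TW d → ℝ => fun q : ℕ × ℕ =>
      cav s (ze E (η q.1)) (v ∘ TreeG879.mv (Fin.ofNat d q.2)) := by
    refine measurable_pi_lambda _ fun q => ?_
    refine (continuous_cav s (ze_im_pos (hη q.1))).measurable.comp ?_
    exact measurable_pi_lambda _ fun w => measurable_pi_apply _
  have h1 := (indep_root (d := d)).comp measurable_id hψ
  have e : (fun (ξ : Conf d (Fin d × ℝ)) (q : ℕ × ℕ) =>
      c1 s E η q.1 (B2.mv cross (rotn 1) q.2 ξ)) =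
      (fun v : TW d → ℝ => fun q : ℕ × ℕ =>
      cav s (ze E (η q.1)) (v ∘ TreeG879.mv (Fin.ofNat d q.2))) ∘
        (fun ξ : Conf d (Fin d × ℝ) => rst (omOf id ξ)) := by
    funext ξ q
    exact c1_mv s E hη q.1 q.2 ξ
  rw [e]
  exact h1

lemma Bk_c1 (s E : ℝ) (η : ℕ → ℝ) (l : ℕ) (ξ : Conf d (Fin d × ℝ)) :
    Bk cross (c1 s E η l) ξ = BT s (ze E (η l)) (oE ξ) := rfl

/-- the recursion -/
lemma c1_rec (s E : ℝ) {η : ℕ → ℝ} (hη : ∀ l, 0 < η l) (l : ℕ) {ξ : Conf d (Fin d × ℝ)}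
    (hom : |om1 ξ| ≤ 1) :
    c1 s E η l ξ * ((E : ℂ) + Complex.I * η l - s * om1 ξ +
      ∑ j ∈ Finset.range (d - 1), c1 s E η l (B2.mv cross (rotn 1) (j + 1) ξ)) = -1 := by
  have h1 := TreeG879.cav_rec s (omOf id ξ) (ze_im_pos (E := E) (hη l))
  have e : omOf id ξ TW.nil = om1 ξ := rfl
  rw [e, clip_eq hom] at h1
  rw [PhiAlg879.sum_mv_succ]
  have e2 : ∀ k : Fin d, c1 s E η l (step k ξ) =
      cav s (ze E (η l)) (omOf id ξ ∘ TreeG879.mv k) := by
    intro k
    unfold c1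
    rw [omOf_step]
  simp only [e2]
  exact h1

/-- the full Green function -/
lemma Gdl_c1 (s E : ℝ) {η : ℕ → ℝ} (hη : ∀ l, 0 < η l) (l : ℕ) {ξ : Conf d (Fin d × ℝ)}
    (hom : |om1 ξ| ≤ 1) :
    Gdl cross (rotn 1) d s (ze E (η l)) om1 (c1 s E η l) ξ =
      BT s (ze E (η l)) (oE ξ) 0 0 := by
  have h1 := TreeG879.treeG_nil s (omOf id ξ) (ze_im_pos (E := E) (hη l))
  have e : omOf id ξ TW.nil = om1 ξ := rfl
  rw [e, clip_eq hom] at h1
  have e2 : ∀ k : Fin d, c1 s E η l (step k ξ) =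
      cav s (ze E (η l)) (omOf id ξ ∘ TreeG879.mv k) := by
    intro k
    unfold c1
    rw [omOf_step]
  unfold Gdl
  rw [PhiAlg879.sum_mv, BT_00 s (ze_im_pos (hη l))]
  simp only [e2]
  have hne : (ze E (η l) - s * (om1 ξ : ℂ) +
      ∑ k : Fin d, cav s (ze E (η l)) (omOf id ξ ∘ TreeG879.mv k)) ≠ 0 := by
    intro h0
    rw [h0, mul_zero] at h1
    exact absurd h1 (by norm_num)
  rw [div_eq_iff hne]
  exact h1.symm

/-! ### The sequence of spectral parameters -/

/-- summable choice -/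
lemma exists_etas {Q : ℝ → ℕ → Prop} (hQ : ∀ l : ℕ, ∃ η0 : ℝ, 0 < η0 ∧ ∀ η, 0 < η → η ≤ η0 →
    Q η l) : ∃ e : ℕ → ℝ, ∃ η : ℕ → ℝ, (∀ l, 0 < e l) ∧ (∀ l, ∀ t, 0 < t → t ≤ e l → Q t l) ∧
    (∀ l, 0 < η l) ∧ Tendsto η atTop (𝓝 0) ∧ (∀ l, η l ≤ e l) ∧ ∀ l, η (l + 1) ≤ η l := by
  choose e he hQe using hQ
  let η : ℕ → ℝ := fun l => Nat.rec (min (e 0) 1) (fun l x => min (min x (e (l + 1)))
    (1 / ((l : ℝ) + 2))) l
  have h0 : η 0 = min (e 0) 1 := rfl
  have hs : ∀ l, η (l + 1) = min (min (η l) (e (l + 1))) (1 / ((l : ℝ) + 2)) := fun l => rfl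
  have hpos : ∀ l, 0 < η l := by
    intro l
    induction l with
    | zero => rw [h0]; exact lt_min (he 0) one_pos
    | succ l ih =>
      rw [hs]
      exact lt_min (lt_min ih (he _)) (by positivity)
  refine ⟨e, η, he, hQe, hpos, ?_, ?_, ?_⟩
  · have h1 : Tendsto (fun l : ℕ => η (l + 1)) atTop (𝓝 0) := by
      refine squeeze_zero (fun l => (hpos (l + 1)).le) (fun l => ?_)
        (tendsto_one_div_add_atTop_nhds_zero_nat (𝕜 := ℝ))
      rw [hs]
      refine (min_le_right _ _).trans ?_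
      refine one_div_le_one_div_of_le (by positivity) (by linarith)
    exact (tendsto_add_atTop_iff_nat 1).1 h1
  · intro l
    cases l with
    | zero => rw [h0]; exact min_le_left _ _
    | succ l => rw [hs]; exact (min_le_left _ _).trans (min_le_right _ _)
  · intro l
    rw [hs]; exact (min_le_left _ _).trans (min_le_left _ _)

/-! ### The main theorem -/

/-- the limit cavity number -/
noncomputable def cavL (s E : ℝ) (η : ℕ → ℝ) (om : TW d → ℝ) : ℂ :=
  limUnder atTop fun l => cav s (ze E (η l)) om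

lemma measurable_cavL (s E : ℝ) {η : ℕ → ℝ} (hη : ∀ l, 0 < η l) :
    Measurable (cavL s E η : (TW d → ℝ) → ℂ) :=
  (StronglyMeasurable.limUnder (l := atTop) (f := fun l (om : TW d → ℝ) => cav s (ze E (η l)) om)
    fun l => (continuous_cav s (ze_im_pos (hη l))).measurable.stronglyMeasurable).measurable

lemma cavL_clip (s E : ℝ) (η : ℕ → ℝ) (om : TW d → ℝ) :
    cavL s E η (fun w => clip (om w)) = cavL s E η om := by
  unfold cavL
  simp only [cav_clip]

/-- specification of the limit cavity number over the iid environment -/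
structure CavSpec (d : ℕ) [NeZero d] (s E ρ : ℝ) (η : ℕ → ℝ) : Prop where
  pos : ∀ l, 0 < η l
  lim0 : Tendsto η atTop (𝓝 0)
  im : ∀ᵐ ξ ∂(mu1 d), 0 < (cavL s E η (omOf id ξ)).im
  lim : ∀ᵐ ξ ∂(mu1 d), Tendsto (fun l => cav s (ze E (η l)) (omOf id ξ)) atTop
    (𝓝 (cavL s E η (omOf id ξ)))
  nd : ∀ᵐ ξ ∂(mu1 d), ∃ δ : ℝ, 0 < δ ∧ ND δ (Bk cross (fun ξ => cavL s E η (omOf id ξ)) ξ)
  rec' : ∀ᵐ ξ ∂(mu1 d), cavL s E η (omOf id ξ) * ((E : ℂ) - s * om1 ξ +
    ∑ j ∈ Finset.range (d - 1), cavL s E η (omOf id (B2.mv cross (rotn 1) (j + 1) ξ))) = -1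
  G_int : Integrable (fun ξ => (Gd cross (rotn 1) d s E om1
    (fun ξ => cavL s E η (omOf id ξ)) ξ).im) (mu1 d)
  G_rho : ∫ ξ, (Gd cross (rotn 1) d s E om1 (fun ξ => cavL s E η (omOf id ξ)) ξ).im ∂(mu1 d) =
    Real.pi * ρ

lemma mp_cross1 : MeasurePreserving (cross : Conf d (Fin d × ℝ) → _) (mu1 d) (mu1 d) :=
  ⟨measurable_cross, envLaw_cross unif⟩

lemma mp_rotn1 : MeasurePreserving (rotn 1 : Conf d (Fin d × ℝ) → _) (mu1 d) (mu1 d) :=
  ⟨measurable_rotn Erg424.measurable_rs 1, envLaw_rotn unif 1⟩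

theorem cav_seq {s E ρ : ℝ} (hs : 0 ≤ s) (hLoc : LocLim d s E) (hND : NonDeg d s E)
    (hIm : ImFix d s E ρ) : ∃ η : ℕ → ℝ, CavSpec d s E ρ η := by
  have hpow : ∀ l : ℕ, (0 : ℝ) < (1 / 2) ^ l := fun l => by positivity
  obtain ⟨e, η, he, hQ, hη, hη0, hηe, hηm⟩ := exists_etas
    (Q := fun t l => ∀ η', 0 < η' → η' ≤ t →
      ∫ ξ, min 1 (bnorm (BT s (ze E t) (oE ξ) - BT s (ze E η') (oE ξ))) ∂(envLaw d unif) ≤
        (1 / 2) ^ l)
    (by
      intro l
      obtain ⟨η0, h0, h1⟩ := fact1 (d := d) hLoc ((1 / 2) ^ l) (hpow l)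
      exact ⟨η0, h0, fun t ht ht1 η' hη' hη1 => h1 t ht ht1 η' hη' (hη1.trans ht1)⟩)
  -- summability
  have hsum : ∑' l, ∫⁻ ξ, ENNReal.ofReal (min 1
      (bnorm (Bk cross (c1 s E η l) ξ - Bk cross (c1 s E η (l + 1)) ξ))) ∂(mu1 d) ≠ ⊤ := by
    have hle : ∀ l, ∫⁻ ξ, ENNReal.ofReal (min 1
        (bnorm (Bk cross (c1 s E η l) ξ - Bk cross (c1 s E η (l + 1)) ξ))) ∂(mu1 d) ≤
        ENNReal.ofReal ((1 / 2) ^ l) := by
      intro l
      have hc : Continuous fun ξ : Conf d (Fin d × ℝ) => omOf id ξ :=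
        continuous_omOf id continuous_id
      have hcont : Continuous fun ξ : Conf d (Fin d × ℝ) =>
          min 1 (bnorm (Bk cross (c1 s E η l) ξ - Bk cross (c1 s E η (l + 1)) ξ)) :=
        lip_dist.continuous ((continuous_BT s (ze_im_pos (E := E) (hη l))).comp hc)
          ((continuous_BT s (ze_im_pos (E := E) (hη (l + 1)))).comp hc)
      have hnn : ∀ ξ : Conf d (Fin d × ℝ), 0 ≤
          min 1 (bnorm (Bk cross (c1 s E η l) ξ - Bk cross (c1 s E η (l + 1)) ξ)) :=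
        fun ξ => le_min zero_le_one (bnorm_nonneg _)
      have hint : Integrable (fun ξ : Conf d (Fin d × ℝ) =>
          min 1 (bnorm (Bk cross (c1 s E η l) ξ - Bk cross (c1 s E η (l + 1)) ξ))) (mu1 d) :=
        Integrable.of_bound hcont.aestronglyMeasurable 1
          (Eventually.of_forall fun ξ => by
            rw [Real.norm_eq_abs, abs_of_nonneg (hnn ξ)]; exact min_le_left _ _)
      rw [← ofReal_integral_eq_lintegral_ofReal hint (Eventually.of_forall hnn)]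
      exact ENNReal.ofReal_le_ofReal (hQ l (η l) (hη l) (hηe l) (η (l + 1)) (hη _) (hηm l))
    refine ne_top_of_le_ne_top ?_ (ENNReal.tsum_le_tsum hle)
    rw [← ENNReal.ofReal_tsum_of_nonneg (fun l => (hpow l).le) summable_geometric_two]
    exact ENNReal.ofReal_ne_top
  -- non-degeneracy
  have hnd : ∀ ε : ℝ, 0 < ε → ∃ δ : ℝ, 0 < δ ∧ ∃ᶠ l in atTop,
      (mu1 d) {ξ | ¬ ND δ (Bk cross (c1 s E η l) ξ)} ≤ ENNReal.ofReal ε := by
    intro ε hε
    obtain ⟨δ, hδ, η0, h0, h1⟩ := fact2 (d := d) hND ε hε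
    refine ⟨δ, hδ, Eventually.frequently ?_⟩
    filter_upwards [hη0.eventually (ge_mem_nhds h0)] with l hl
    exact h1 (η l) (hη l) hl
  have hcm := measurable_c1 (d := d) s E hη
  have him : ∀ l, ∀ᵐ ξ ∂(mu1 d), 0 < (c1 s E η l ξ).im := fun l =>
    Eventually.of_forall fun ξ => im_c1 s E hη l ξ
  obtain ⟨P1, P2, P3, P4⟩ := cavLim_props (P := mu1 d) mp_cross1 hcm him hsum hnd
  have hcl : cavLim (c1 s E η) = fun ξ : Conf d (Fin d × ℝ) => cavL s E η (omOf id ξ) := rfl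
  -- the recursion
  have hrec := cavLim_rec (d := d) (s := s) (E := E) (om := om1) (P := mu1 d) mp_cross1 mp_rotn1
    hη0 (fun l => by
      filter_upwards [ae_om1_le (d := d)] with ξ hξ
      exact c1_rec s E hη l hξ) P2
  -- the mean
  have hL : Tendsto (fun l => ∫ ξ, (Gdl cross (rotn 1) d s (ze E (η l)) om1 (c1 s E η l) ξ).im
      ∂(mu1 d)) atTop (𝓝 (Real.pi * ρ)) := by
    have e1 : ∀ l, ∫ ξ, (Gdl cross (rotn 1) d s (ze E (η l)) om1 (c1 s E η l) ξ).im ∂(mu1 d) =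
        ∫ ξ, (BT s (ze E (η l)) (oE ξ) 0 0).im ∂(mu1 d) := by
      intro l
      refine integral_congr_ae ?_
      filter_upwards [ae_om1_le (d := d)] with ξ hξ
      rw [Gdl_c1 s E hη l hξ]
    simp only [e1]
    rw [Metric.tendsto_nhds]
    intro ε hε
    obtain ⟨η0, h0, h1⟩ := fact3 (d := d) hIm (ε / 2) (by positivity)
    filter_upwards [hη0.eventually (ge_mem_nhds h0)] with l hl
    have := h1 (η l) (hη l) hl
    rw [Real.dist_eq]
    linarith
  have hd0 : 0 < d := hd1 d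
  have hG : Integrable (fun ξ => (Gd cross (rotn 1) d s E om1 (cavLim (c1 s E η)) ξ).im) (mu1 d) ∧
      ∫ ξ, (Gd cross (rotn 1) d s E om1 (cavLim (c1 s E η)) ξ).im ∂(mu1 d) = Real.pi * ρ := by
    rcases hs.eq_or_lt with h0 | h0
    · refine G_rho_const mp_cross1 mp_rotn1 hd0 hη0 (fun l => ?_) P1 P2 hL
      refine ⟨BT s (ze E (η l)) (fun _ : TW d => 0) 0 0, ?_⟩
      filter_upwards [ae_om1_le (d := d)] with ξ hξ
      rw [Gdl_c1 s E hη l hξ, BT_00 s (ze_im_pos (hη l)), BT_00 s (ze_im_pos (hη l))]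
      have e : tOp s (oE ξ) = tOp s (fun _ : TW d => 0) := by
        refine L2G879.Op.ext' (fun _ _ => Iff.rfl) fun x => ?_
        simp only [TreeG879.tOp_v]
        rw [← h0]; ring
      unfold TreeG879.treeG
      rw [e]
    · exact G_rho_indep mp_cross1 mp_rotn1 hd0 h0 measurable_om1 map_om1 hcm him
        (indep_c1 s E hη) hη hη0 P1 P2 hL
  exact ⟨η, ⟨hη, hη0, P1, P2, P3, hrec, hG.1, hG.2⟩⟩

end Crest.Agent.R166.PhiLim85
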