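import Crest.Agent.R166.Hinge_980
import Crest.Agent.R166.PhiAlg_879
import Crest.Agent.R166.PhiLimE_85
import Crest.Agent.R166.Erg_424
import Crest.Agent.R166.LimMean_974
import Crest.Agent.R166.LimEnv_289
import Crest.Agent.R166.NoiseNull_849
import Crest.Agent.R166.MartFin_663

/-!
# Row 166 (helper980), F6: the limit process `LimProc` from the limit laws
-/

set_option autoImplicit false
set_option linter.unusedSectionVars false

noncomputable section

namespace Crest.Agent.R166.Proc980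

open MeasureTheory ProbabilityTheory Filter Topology
open Crest.ProbabilityR.RandomMatrix Crest.Agent.R166 Crest.Agent.R166.Words955
open Crest.Agent.R166.TreeG879 (clip omOf)
open Crest.Agent.R166.PhiAlg879 (om0)
open Crest.Agent.R166.NoiseLim849 (pr)
open Crest.Agent.R166.Seq980 (S1 Seq)
open Crest.Agent.R166.SpecB1 (S2)
open Crest.Agent.R166.LimProps974

variable {d k : ℕ} [NeZero d]

/-! ### The objects -/

/-- the clipped potential of a noisy vertex -/
def pi2 (k : ℕ) (t : ℝ × (Fin k → ℝ) × (Fin k → ℝ)) : ℝ := clip t.1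

/-- the clipped environment -/
def envZ (ζ : Conf d (S2 d k)) : Conf d (Fin d × ℝ) := fun w => ((ζ w).1, clip (ζ w).2.1)

/-- `σ`-algebra of the (clipped) environment -/
@[reducible] def EnvZ (d k : ℕ) [NeZero d] : MeasurableSpace (Conf d (S2 d k)) :=
  MeasurableSpace.comap envZ inferInstance

/-- `σ`-algebra of `(label, ω, X)` -/
@[reducible] def FXZ (d k : ℕ) [NeZero d] : MeasurableSpace (Conf d (S2 d k)) :=
  MeasurableSpace.comap pr inferInstance

/-- frame at the root -/
def XZ (ζ : Conf d (S2 d k)) : Fin k → ℝ := (ζ TW.nil).2.2.1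

/-- noise at the root -/
def ZZ (ζ : Conf d (S2 d k)) : Fin k → ℝ := (ζ TW.nil).2.2.2

/-- potential at the root -/
def omZ (ζ : Conf d (S2 d k)) : ℝ := clip (ζ TW.nil).2.1

theorem omZ_eq : (omZ : Conf d (S2 d k) → ℝ) = om0 (pi2 k) := rfl

/-- cavity field at the level `l` -/
def cl (s E : ℝ) (η : ℕ → ℝ) (l : ℕ) (ζ : Conf d (S2 d k)) : ℂ :=
  TreeG879.cav s (ze E (η l)) (omOf (pi2 k) ζ)

/-- limit cavity field -/
def cavZ (s E : ℝ) (η : ℕ → ℝ) (ζ : Conf d (S2 d k)) : ℂ :=
  PhiLim85.cavL s E η (omOf (pi2 k) ζ)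

/-! ### Clipping -/

theorem clip_clip (t : ℝ) : clip (clip t) = clip t := TreeG879.clip_eq (TreeG879.abs_clip_le t)

theorem tOp_clip (s : ℝ) (om : TW d → ℝ) :
    TreeG879.tOp s (fun w => clip (om w)) = TreeG879.tOp s om := by
  unfold TreeG879.tOp
  simp only [clip_clip]

theorem cav_clip (s : ℝ) (z : ℂ) (om : TW d → ℝ) :
    TreeG879.cav s z (fun w => clip (om w)) = TreeG879.cav s z om := by
  unfold TreeG879.cav
  rw [tOp_clip]

theorem treeG_clip (s : ℝ) (z : ℂ) (om : TW d → ℝ) (x y : TW d) :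
    TreeG879.treeG s z (fun w => clip (om w)) x y = TreeG879.treeG s z om x y := by
  unfold TreeG879.treeG
  rw [tOp_clip]

/-! ### Measurability and equivariance -/

theorem measurable_envZ : Measurable (envZ : Conf d (S2 d k) → Conf d (Fin d × ℝ)) := by
  refine measurable_pi_lambda _ fun w => ?_
  refine (measurable_fst.comp (measurable_pi_apply w)).prodMk ?_
  exact TreeG879.continuous_clip.measurable.comp
    (measurable_fst.comp (measurable_snd.comp (measurable_pi_apply w)))

theorem measurable_pr : Measurable (pr : Conf d (S2 d k) → Conf d (S1 d k)) := by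
  refine measurable_pi_lambda _ fun w => ?_
  exact (measurable_fst.comp (measurable_pi_apply w)).prodMk
    ((measurable_fst.comp (measurable_snd.comp (measurable_pi_apply w))).prodMk
      (measurable_fst.comp (measurable_snd.comp (measurable_snd.comp (measurable_pi_apply w)))))

/-- clipped environment of `(label, ω, X)` -/
def env1 (ξ : Conf d (S1 d k)) : Conf d (Fin d × ℝ) := fun w => ((ξ w).1, clip (ξ w).2.1)

theorem measurable_env1 : Measurable (env1 : Conf d (S1 d k) → Conf d (Fin d × ℝ)) := by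
  refine measurable_pi_lambda _ fun w => ?_
  refine (measurable_fst.comp (measurable_pi_apply w)).prodMk ?_
  exact TreeG879.continuous_clip.measurable.comp
    (measurable_fst.comp (measurable_snd.comp (measurable_pi_apply w)))

theorem envZ_eq : (envZ : Conf d (S2 d k) → Conf d (Fin d × ℝ)) = env1 ∘ pr := rfl

theorem Env_le_FX : EnvZ d k ≤ FXZ d k := by
  show MeasurableSpace.comap (env1 ∘ pr) _ ≤ _
  rw [← MeasurableSpace.comap_comp]
  exact MeasurableSpace.comap_mono measurable_env1.comap_le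

theorem FX_le : FXZ d k ≤ (inferInstance : MeasurableSpace (Conf d (S2 d k))) :=
  measurable_pr.comap_le

theorem envZ_cross (ζ : Conf d (S2 d k)) : envZ (cross ζ) = cross (envZ ζ) := rfl

theorem envZ_rotn (i : Fin d) (ζ : Conf d (S2 d k)) : envZ (rotn i ζ) = rotn i (envZ ζ) := by
  funext w
  by_cases h : w = TW.nil
  · subst h
    simp [envZ, rotn, PortAct.rs]
  · simp [envZ, rotn, h]

theorem pr_cross (ζ : Conf d (S2 d k)) : pr (cross ζ) = cross (pr ζ) := rfl

theorem pr_rotn (i : Fin d) (ζ : Conf d (S2 d k)) : pr (rotn i ζ) = rotn i (pr ζ) := by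
  funext w
  by_cases h : w = TW.nil
  · subst h
    simp [pr, rotn, PortAct.rs]
  · simp [pr, rotn, h]

theorem measurable_rot {T : Type} [MeasurableSpace T] (i : Fin d) :
    Measurable (rotn i : Conf d (Fin d × T) → Conf d (Fin d × T)) :=
  measurable_rotn Erg424.measurable_rs i

theorem meas_comap {Ω E E' : Type*} [MeasurableSpace E] [MeasurableSpace E'] {e : Ω → E}
    {e' : Ω → E'} {T : Ω → Ω} {T' : E → E'} (hT' : Measurable T') (h : ∀ x, e' (T x) = T' (e x)) :
    @Measurable _ _ (MeasurableSpace.comap e inferInstance)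
      (MeasurableSpace.comap e' inferInstance) T := by
  rw [measurable_comap_iff]
  have : e' ∘ T = T' ∘ e := funext h
  rw [this]
  exact hT'.comp (comap_measurable e)

theorem pp_Env : @Measurable _ _ (EnvZ d k) (EnvZ d k) (cross : Conf d (S2 d k) → _) :=
  meas_comap measurable_cross envZ_cross

theorem rr_Env : @Measurable _ _ (EnvZ d k) (EnvZ d k) (rotn 1 : Conf d (S2 d k) → _) :=
  meas_comap (measurable_rot 1) (envZ_rotn 1)

theorem pp_FX : @Measurable _ _ (FXZ d k) (FXZ d k) (cross : Conf d (S2 d k) → _) :=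
  meas_comap measurable_cross pr_cross

theorem rr_FX : @Measurable _ _ (FXZ d k) (FXZ d k) (rotn 1 : Conf d (S2 d k) → _) :=
  meas_comap (measurable_rot 1) (pr_rotn 1)

theorem om_meas : @Measurable _ _ (EnvZ d k) _ (omZ : Conf d (S2 d k) → ℝ) := by
  have h : (omZ : Conf d (S2 d k) → ℝ) = (fun e : Conf d (Fin d × ℝ) => (e TW.nil).2) ∘ envZ := rfl
  rw [h]
  exact (measurable_snd.comp (measurable_pi_apply _)).comp (comap_measurable envZ)

theorem om_rr (ζ : Conf d (S2 d k)) : omZ (rotn 1 ζ) = omZ ζ := by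
  simp [omZ, rotn, PortAct.rs]

theorem X_rr (ζ : Conf d (S2 d k)) : XZ (rotn 1 ζ) = XZ ζ := by
  simp [XZ, rotn, PortAct.rs]

theorem Z_rr (ζ : Conf d (S2 d k)) : ZZ (rotn 1 ζ) = ZZ ζ := by
  simp [ZZ, rotn, PortAct.rs]

theorem X_meas : @Measurable _ _ (FXZ d k) _ (XZ : Conf d (S2 d k) → _) := by
  have h : (XZ : Conf d (S2 d k) → _) =
      (fun e : Conf d (S1 d k) => (e TW.nil).2.2) ∘ pr := rfl
  rw [h]
  exact (measurable_snd.comp (measurable_snd.comp (measurable_pi_apply _))).comp
    (comap_measurable pr)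

theorem Z_meas : Measurable (ZZ : Conf d (S2 d k) → _) :=
  measurable_snd.comp (measurable_snd.comp (measurable_snd.comp (measurable_pi_apply _)))

theorem rr_d (ζ : Conf d (S2 d k)) : (rotn (1 : Fin d))^[d] ζ = ζ := by
  rw [PhiAlg879.iter_rotn]
  have : Fin.ofNat d d = 0 := by
    apply Fin.ext
    simp [Fin.ofNat]
  rw [this, rotn_zero]

/-- the cavity field at the level `l` is a function of the environment -/
theorem cl_eq (s E : ℝ) (η : ℕ → ℝ) (l : ℕ) :
    (cl s E η l : Conf d (S2 d k) → ℂ) =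
      (fun e : Conf d (Fin d × ℝ) => TreeG879.cav s (ze E (η l)) (omOf id e)) ∘ envZ := rfl

theorem ze_im (E η : ℝ) : (ze E η).im = η := by
  simp [ze]

theorem cl_meas (s E : ℝ) {η : ℕ → ℝ} (hη : ∀ l, 0 < η l) (l : ℕ) :
    @Measurable _ _ (EnvZ d k) _ (cl s E η l : Conf d (S2 d k) → ℂ) := by
  rw [cl_eq]
  refine Measurable.comp ?_ (comap_measurable envZ)
  exact ((TreeG879.continuous_cav s (by rw [ze_im]; exact hη l)).comp
    (TreeG879.continuous_omOf id continuous_id)).measurable

theorem cavZ_meas (s E : ℝ) {η : ℕ → ℝ} (hη : ∀ l, 0 < η l) :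
    @Measurable _ _ (EnvZ d k) _ (cavZ s E η : Conf d (S2 d k) → ℂ) :=
  @PhiLim85.measurable_cavLim _ (EnvZ d k) _ (cl_meas s E hη)

theorem cl_rec (s E : ℝ) {η : ℕ → ℝ} (hη : ∀ l, 0 < η l) (l : ℕ) (ζ : Conf d (S2 d k)) :
    cl s E η l ζ * ((E : ℂ) + Complex.I * η l - s * omZ ζ +
      ∑ j ∈ Finset.range (d - 1), cl s E η l (B2.mv cross (rotn 1) (j + 1) ζ)) = -1 := by
  have h := TreeG879.cav_rec s (omOf (pi2 k) ζ) (z := ze E (η l)) (by rw [ze_im]; exact hη l)
  rw [PhiAlg879.sum_mv_succ (cl s E η l) ζ]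
  have h1 : ∀ i : Fin d, cl s E η l (step i ζ) =
      TreeG879.cav s (ze E (η l)) (omOf (pi2 k) ζ ∘ TreeG879.mv i) := by
    intro i
    rw [cl, TreeG879.omOf_step]
  simp only [h1]
  have h2 : clip (omOf (pi2 k) ζ TW.nil) = omZ ζ := clip_clip _
  rw [h2] at h
  exact h

end Crest.Agent.R166.Proc980
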