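import Crest.Agent.R166.PhiLimF_85
import Crest.Agent.R166.Proc_980
import Crest.Agent.R166.Q03_955
import Crest.Agent.R166.ZG_879

/-!
Row 166 (helper85): the cavity fields of `B2.LimProc` for helper955's limit law `Q0`, in the objects
of `Proc_980`.
-/

set_option autoImplicit false

open MeasureTheory ProbabilityTheory Filter Topology

namespace Crest.Agent.R166.PhiLim85

open Crest.ProbabilityR.RandomMatrix
open Crest.Agent.R166 Crest.Agent.R166.B2 Crest.Agent.R166.Words955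
open Crest.Agent.R166.TreeG879 (cav treeG omOf clip)
open Crest.Agent.R166.EnvLaw289 Crest.Agent.R166.Erg424
open Crest.Agent.R166.TreeDefs350 (unif)
open Crest.Agent.R166.Seq980 (S1 Seq)
open Crest.Agent.R166.SpecB1 (S2)
open Crest.Agent.R166.NoiseLim849 (pr)
open Crest.Agent.R166.Proc980 (pi2 envZ EnvZ FXZ XZ ZZ omZ cl cavZ)
open Crest.Agent.R166.Q0_955 (LawSeq NLaw)

variable {d k : ℕ} [NeZero d]

/-- environment marginal of a law over `S.P` -/
theorem env_marg {P : Measure (Conf d (S1 d k))} {Q : Measure (Conf d (S2 d k))}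
    (hm : Q.map pr = P) (henv : P.map (envP (X := Fin k → ℝ)) = envLaw d unif) :
    Q.map (envP (T := ℝ) (X := (Fin k → ℝ) × (Fin k → ℝ))) = envLaw d unif := by
  rw [← henv, ← hm, Measure.map_map measurable_envP Proc980.measurable_pr]
  rfl

variable {S : Seq d k} {s E ρ : ℝ} {η : ℕ → ℝ} {Q : ℕ → Measure (Conf d (S2 d k))}
  {Q0 : Measure (Conf d (S2 d k))}

theorem env_Q0 (h : LawSeq S s E ρ η Q Q0)
    (henv : S.P.map (envP (X := Fin k → ℝ)) = envLaw d unif) :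
    Q0.map (envP (T := ℝ) (X := (Fin k → ℝ) × (Fin k → ℝ))) = envLaw d unif :=
  env_marg h.nlaw0.marg henv

/-- `cav_im` -/
theorem cavZ_im (h : LawSeq S s E ρ η Q Q0)
    (henv : S.P.map (envP (X := Fin k → ℝ)) = envLaw d unif) (hC : CavSpec d s E ρ η) :
    ∀ᵐ z ∂Q0, 0 < (cavZ s E η z).im := cavF_im (env_Q0 h henv) hC

/-- `cav_rec` -/
theorem cavZ_rec (h : LawSeq S s E ρ η Q Q0)
    (henv : S.P.map (envP (X := Fin k → ℝ)) = envLaw d unif) (hC : CavSpec d s E ρ η) :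
    ∀ᵐ z ∂Q0, cavZ s E η z * ((E : ℂ) - s * omZ z +
      ∑ j ∈ Finset.range (d - 1), cavZ s E η (B2.mv cross (rotn 1) (j + 1) z)) = -1 :=
  cavF_rec (env_Q0 h henv) hC

/-- `cav_lim` -/
theorem cavZ_lim (h : LawSeq S s E ρ η Q Q0)
    (henv : S.P.map (envP (X := Fin k → ℝ)) = envLaw d unif) (hC : CavSpec d s E ρ η) :
    ∃ (η' : ℕ → ℝ) (c : ℕ → Conf d (S2 d k) → ℂ), (∀ i, 0 < η' i) ∧
      Tendsto η' atTop (𝓝 0) ∧ (∀ i, Measurable[EnvZ d k] (c i)) ∧
      (∀ i, ∀ᵐ h ∂Q0, 0 < (c i h).im ∧ ‖c i h‖ ≤ 1 / η' i ∧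
        c i h * ((E : ℂ) + Complex.I * η' i - s * omZ h +
          ∑ j ∈ Finset.range (d - 1), c i (B2.mv cross (rotn 1) (j + 1) h)) = -1) ∧
      ∀ᵐ h ∂Q0, Tendsto (fun i => c i h) atTop (𝓝 (cavZ s E η h)) :=
  cavF_lim (env_Q0 h henv) hC

/-- convergence of the cavity fields -/
theorem tendsto_cl (h : LawSeq S s E ρ η Q Q0)
    (henv : S.P.map (envP (X := Fin k → ℝ)) = envLaw d unif) (hC : CavSpec d s E ρ η) :
    ∀ᵐ z ∂Q0, Tendsto (fun l => cl s E η l z) atTop (𝓝 (cavZ s E η z)) := by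
  filter_upwards [ae_env (env_Q0 h henv) hC.lim] with z hz
  have h1 : cavZ s E η z = cavL s E η (omOf id (envP z)) := cavF_eq s E η z
  have h2 : ∀ l, cl s E η l z = cav s (ze E (η l)) (omOf id (envP z)) :=
    fun l => cav_piF s (ze E (η l)) z
  rw [h1]
  simp only [h2]
  exact hz

/-- `G_int` and `G_rho` -/
theorem GZ (h : LawSeq S s E ρ η Q Q0)
    (henv : S.P.map (envP (X := Fin k → ℝ)) = envLaw d unif) (hC : CavSpec d s E ρ η) :
    Integrable (fun z => (Gd cross (rotn 1) d s E omZ (cavZ s E η) z).im) Q0 ∧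
      ∫ z, (Gd cross (rotn 1) d s E omZ (cavZ s E η) z).im ∂Q0 = Real.pi * ρ :=
  haveI := h.prob0
  GF (env_Q0 h henv) hC

/-- `Good` for the unclipped environment on `S.P` -/
theorem good_SP (hinv : Inv S.P)
    (henv : S.P.map (envP (X := Fin k → ℝ)) = envLaw d unif) (hC : CavSpec d s E ρ η) :
    ∀ᵐ ξ ∂S.P, PhiAlg879.Good Prod.fst s (fun l => ze E (η l))
      (fun z => cavL s E η (omOf Prod.fst z)) ξ := good_fst henv hinv hC

/-- `Good` for the unclipped environment on `S.P`, in the form of `ZG_879` -/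
theorem good_SP' (hinv : Inv S.P)
    (henv : S.P.map (envP (X := Fin k → ℝ)) = envLaw d unif) (hC : CavSpec d s E ρ η) :
    ∀ᵐ ξ ∂S.P, PhiAlg879.Good piF s (fun l => ze E (η l)) (cavF s E η) ξ :=
  good_clip henv hinv hC

/-- `Good` in the notation of `ZG_879` -/
theorem good_ZG (hinv : Inv S.P)
    (henv : S.P.map (envP (X := Fin k → ℝ)) = envLaw d unif) (hC : CavSpec d s E ρ η) :
    ∀ᵐ ξ ∂S.P, PhiAlg879.Good ZG879.cp s (fun l => ze E (η l)) (ZG879.cavC (cavL s E η)) ξ :=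
  good_clip henv hinv hC

/-- field `Z_gauss` -/
theorem Z_gauss0 (h : LawSeq S s E ρ η Q Q0) (hinv : Inv S.P)
    (henv : S.P.map (envP (X := Fin k → ℝ)) = envLaw d unif) (hC : CavSpec d s E ρ η)
    (w : List ℕ) (hw : B2.OutW d w) (α : Fin k → ℝ) (x : B2.St d → Fin k → ℝ) :
    Q0[fun h => Complex.exp (Complex.I *
        ((∑ l, (α l * ZZ (B2.wd cross (rotn 1) w (cross h)) l +
          ∑ a, x a l * ZZ (B2.sv cross (rotn 1) d h a) l) : ℝ) : ℂ)) | FXZ d k]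
      =ᵐ[Q0] fun h => Complex.exp (((-(1 / 2) * ∑ l,
        (α l ^ 2 * (B2.Gd cross (rotn 1) d s E omZ (cavZ s E η)
            (B2.wd cross (rotn 1) w (cross h))).im
          + 2 * ∑ a, α l * x a l * (B2.Go cross (rotn 1) d s E omZ (cavZ s E η) w h a).im
          + ∑ a, ∑ b, x a l * x b l *
            (B2.Gs cross (rotn 1) d s E omZ (cavZ s E η) h a b).im) / (Real.pi * ρ) : ℝ) : ℂ)) :=
  ZG879.Z_gauss (cL := cavL s E η) (fun l => ze_im_pos (hC.pos l)) (tendsto_ze hC.lim0) h.nlaw0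
    h.cov0 (good_ZG hinv henv hC) w hw α x

/-- field `Z_eq` -/
theorem Z_eq0 (h : LawSeq S s E ρ η Q Q0) (hinv : Inv S.P)
    (henv : S.P.map (envP (X := Fin k → ℝ)) = envLaw d unif) (hC : CavSpec d s E ρ η) :
    ∀ᵐ h ∂Q0, ∀ l, ∑ i ∈ Finset.range d, ZZ (B2.mv cross (rotn 1) i h) l =
      (E - s * omZ h) * ZZ h l :=
  ZG879.Z_eq (cL := cavL s E η) (fun l => ze_im_pos (hC.pos l)) (tendsto_ze hC.lim0) h.nlaw0
    h.cov0 (good_ZG hinv henv hC)

/-- input `hlim` of `law_seq` -/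
theorem lim_SP (hinv : Inv S.P)
    (henv : S.P.map (envP (X := Fin k → ℝ)) = envLaw d unif) (hC : CavSpec d s E ρ η) :
    ∀ᵐ ζ ∂S.P, ∀ w w', ∃ L : ℂ, Tendsto (fun l =>
      treeG s (ze E (η l)) (omOf (T := ℝ × (Fin k → ℝ)) Prod.fst ζ) w w') atTop (𝓝 L) :=
  ae_lim_treeG henv hinv hC

end Crest.Agent.R166.PhiLim85
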