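import Crest.Agent.R166.Spine_419
import Crest.Agent.R166.Spec_B2_385

/-!
Row 166 (helper85), F4 of helper980's plan: THE LIMIT CAVITY FIELD, abstract part.

On a probability space with two measure preserving maps `pp`, `rr` (graphing form of
`Spec_B2_385`), cavity fields `c l` (at `E + i η_l`) whose edge blocks are summably Cauchy in
probability and non-degenerate converge a.e. to a cavity field with positive imaginary part.
-/

set_option autoImplicit false

open MeasureTheory ProbabilityTheory Filter Topology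

namespace Crest.Agent.R166.PhiLim85

open Crest.Agent.R166.B2

/-! ### 2x2 algebra -/

/-- the edge block of two cavity numbers -/
noncomputable def blk2 (c c' : ℂ) : Matrix (Fin 2) (Fin 2) ℂ :=
  (1 / (1 - c * c')) • !![c, -(c * c'); -(c * c'), c']

lemma Bk_eq {Ω : Type*} (pp : Ω → Ω) (cav : Ω → ℂ) (h : Ω) :
    Bk pp cav h = blk2 (cav h) (cav (pp h)) := rfl

/-- non-degeneracy of the imaginary part -/
def ND (δ : ℝ) (B : Matrix (Fin 2) (Fin 2) ℂ) : Prop :=
  ∀ x : Fin 2 → ℝ, δ * (x 0 ^ 2 + x 1 ^ 2) ≤ ∑ a, ∑ b, x a * (B a b).im * x b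

lemma one_sub_mul_ne {c c' : ℂ} (hc : 0 < c.im) (hc' : 0 < c'.im) : 1 - c * c' ≠ 0 := by
  intro h
  have h1 : c * c' = 1 := (sub_eq_zero.1 h).symm
  have hc0 : c ≠ 0 := by
    rintro rfl; simp at hc
  have h2 : c' = c⁻¹ := by
    field_simp
    rw [mul_comm]; exact h1
  rw [h2, Complex.inv_im] at hc'
  have : 0 < Complex.normSq c := Complex.normSq_pos.2 hc0
  have h3 : -c.im / Complex.normSq c < 0 := div_neg_of_neg_of_pos (by linarith) this
  linarith

lemma blk2_00 (c c' : ℂ) : blk2 c c' 0 0 = c / (1 - c * c') := by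
  simp [blk2]; ring
lemma blk2_01 (c c' : ℂ) : blk2 c c' 0 1 = -(c * c') / (1 - c * c') := by
  simp [blk2]; ring
lemma blk2_10 (c c' : ℂ) : blk2 c c' 1 0 = -(c * c') / (1 - c * c') := by
  simp [blk2]; ring
lemma blk2_11 (c c' : ℂ) : blk2 c c' 1 1 = c' / (1 - c * c') := by
  simp [blk2]; ring

lemma blk2_one_sub {c c' : ℂ} (h : 1 - c * c' ≠ 0) : 1 - blk2 c c' 0 1 = 1 / (1 - c * c') := by
  rw [blk2_01]; field_simp; ring

lemma blk2_rel {c c' : ℂ} (h : 1 - c * c' ≠ 0) :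
    blk2 c c' 0 0 * blk2 c c' 1 1 = blk2 c c' 0 1 ^ 2 - blk2 c c' 0 1 := by
  rw [blk2_00, blk2_01, blk2_11]; field_simp; ring

lemma blk2_fst {c c' : ℂ} (h : 1 - c * c' ≠ 0) : c = blk2 c c' 0 0 / (1 - blk2 c c' 0 1) := by
  rw [blk2_one_sub h, blk2_00]; field_simp

lemma blk2_snd {c c' : ℂ} (h : 1 - c * c' ≠ 0) : c' = blk2 c c' 1 1 / (1 - blk2 c c' 0 1) := by
  have h' : 1 - c' * c ≠ 0 := by rw [mul_comm]; exact h
  rw [blk2_one_sub h, blk2_11]; field_simp

lemma ND.im00 {δ : ℝ} {B : Matrix (Fin 2) (Fin 2) ℂ} (h : ND δ B) : δ ≤ (B 0 0).im := by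
  have := h ![1, 0]
  simpa using this

lemma ND.im11 {δ : ℝ} {B : Matrix (Fin 2) (Fin 2) ℂ} (h : ND δ B) : δ ≤ (B 1 1).im := by
  have := h ![0, 1]
  simpa using this

/-- the imaginary part of the inverse of a symmetric matrix with positive imaginary part -/
lemma im_neg_of {b00 b01 b11 w : ℂ} {δ : ℝ} (hδ : 0 < δ)
    (hnd : ∀ x y : ℝ, δ * (x ^ 2 + y ^ 2) ≤ b00.im * x ^ 2 + 2 * b01.im * x * y + b11.im * y ^ 2)
    (h1 : b00 * w + b01 = 1) (h2 : b01 * w + b11 = 0) : w.im < 0 := by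
  have e1 := congrArg Complex.re h1
  have e2 := congrArg Complex.im h1
  have e3 := congrArg Complex.re h2
  have e4 := congrArg Complex.im h2
  simp only [Complex.add_re, Complex.mul_re, Complex.one_re, Complex.add_im, Complex.mul_im,
    Complex.one_im, Complex.zero_re, Complex.zero_im] at e1 e2 e3 e4
  have q1 := hnd w.re 1
  have q2 := hnd w.im 0
  have key : b00.im * w.re ^ 2 + 2 * b01.im * w.re * 1 + b11.im * 1 ^ 2 +
      (b00.im * w.im ^ 2 + 2 * b01.im * w.im * 0 + b11.im * 0 ^ 2) = -w.im := by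
    have a1 : b00.im * w.re ^ 2 = -(b01.im * w.re) - b00.re * w.im * w.re := by
      have : b00.im * w.re = -b01.im - b00.re * w.im := by linarith
      calc b00.im * w.re ^ 2 = (b00.im * w.re) * w.re := by ring
        _ = _ := by rw [this]; ring
    have a2 : b00.im * w.im ^ 2 = b00.re * w.re * w.im + b01.re * w.im - w.im := by
      have : b00.im * w.im = b00.re * w.re + b01.re - 1 := by linarith
      calc b00.im * w.im ^ 2 = (b00.im * w.im) * w.im := by ring
        _ = _ := by rw [this]; ring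
    rw [a1, a2]
    linarith
  nlinarith [sq_nonneg w.re, sq_nonneg w.im]

lemma ND.form {δ : ℝ} {B : Matrix (Fin 2) (Fin 2) ℂ} (h : ND δ B) (hs : B 1 0 = B 0 1)
    (x y : ℝ) : δ * (x ^ 2 + y ^ 2) ≤
      (B 0 0).im * x ^ 2 + 2 * (B 0 1).im * x * y + (B 1 1).im * y ^ 2 := by
  have := h ![x, y]
  simp only [Fin.sum_univ_two, Matrix.cons_val_zero, Matrix.cons_val_one, hs] at this
  linarith

/-- **limits of edge blocks** -/
theorem blk_limit {c c' : ℕ → ℂ} (hc : ∀ l, 0 < (c l).im) (hc' : ∀ l, 0 < (c' l).im)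
    {B : Matrix (Fin 2) (Fin 2) ℂ} {δ : ℝ} (hδ : 0 < δ) (hnd : ND δ B)
    (hlim : ∀ a b, Tendsto (fun l => blk2 (c l) (c' l) a b) atTop (𝓝 (B a b))) :
    ∃ x x' : ℂ, 0 < x.im ∧ 0 < x'.im ∧ Tendsto c atTop (𝓝 x) ∧ Tendsto c' atTop (𝓝 x') ∧
      B = blk2 x x' := by
  have hne : ∀ l, 1 - c l * c' l ≠ 0 := fun l => one_sub_mul_ne (hc l) (hc' l)
  have hs : B 1 0 = B 0 1 := by
    have h1 := hlim 1 0
    have h2 := hlim 0 1
    simp only [blk2_10, blk2_01] at h1 h2
    exact tendsto_nhds_unique h1 h2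
  have hrel : B 0 0 * B 1 1 = B 0 1 ^ 2 - B 0 1 := by
    have h1 := (hlim 0 0).mul (hlim 1 1)
    have h2 := ((hlim 0 1).pow 2).sub (hlim 0 1)
    refine tendsto_nhds_unique h1 (h2.congr fun l => ?_)
    exact (blk2_rel (hne l)).symm
  have h00 : (0 : ℝ) < (B 0 0).im := lt_of_lt_of_le hδ hnd.im00
  have h11 : (0 : ℝ) < (B 1 1).im := lt_of_lt_of_le hδ hnd.im11
  have n00 : B 0 0 ≠ 0 := by intro h; rw [h] at h00; simp at h00
  have n11 : B 1 1 ≠ 0 := by intro h; rw [h] at h11; simp at h11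
  have n01 : 1 - B 0 1 ≠ 0 := by
    intro h
    have h1 : B 0 1 = 1 := (sub_eq_zero.1 h).symm
    rw [h1] at hrel
    have : B 0 0 * B 1 1 = 0 := by rw [hrel]; ring
    exact mul_ne_zero n00 n11 this
  have m01 : B 0 1 ≠ 0 := by
    intro h
    rw [h] at hrel
    have : B 0 0 * B 1 1 = 0 := by rw [hrel]; ring
    exact mul_ne_zero n00 n11 this
  have hform := hnd.form hs
  refine ⟨B 0 0 / (1 - B 0 1), B 1 1 / (1 - B 0 1), ?_, ?_, ?_, ?_, ?_⟩
  · have hw : ((1 - B 0 1) / B 0 0).im < 0 := by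
      refine im_neg_of hδ hform (b00 := B 0 0) (b01 := B 0 1) (b11 := B 1 1) ?_ ?_
      · field_simp; ring
      · field_simp
        linear_combination hrel
    have hx : B 0 0 / (1 - B 0 1) = ((1 - B 0 1) / B 0 0)⁻¹ := by rw [inv_div]
    rw [hx, Complex.inv_im]
    have : 0 < Complex.normSq ((1 - B 0 1) / B 0 0) :=
      Complex.normSq_pos.2 (div_ne_zero n01 n00)
    exact div_pos (by linarith) this
  · have hw : ((1 - B 0 1) / B 1 1).im < 0 := by
      refine im_neg_of hδ (b00 := B 1 1) (b01 := B 0 1) (b11 := B 0 0) ?_ ?_ ?_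
      · intro x y
        have := hform y x
        nlinarith
      · field_simp; ring
      · field_simp
        linear_combination hrel
    have hx : B 1 1 / (1 - B 0 1) = ((1 - B 0 1) / B 1 1)⁻¹ := by rw [inv_div]
    rw [hx, Complex.inv_im]
    have : 0 < Complex.normSq ((1 - B 0 1) / B 1 1) :=
      Complex.normSq_pos.2 (div_ne_zero n01 n11)
    exact div_pos (by linarith) this
  · have := (hlim 0 0).div (tendsto_const_nhds.sub (hlim 0 1)) n01
    refine this.congr fun l => ?_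
    exact (blk2_fst (hne l)).symm
  · have := (hlim 1 1).div (tendsto_const_nhds.sub (hlim 0 1)) n01
    refine this.congr fun l => ?_
    exact (blk2_snd (hne l)).symm
  · have hd : 1 - B 0 0 / (1 - B 0 1) * (B 1 1 / (1 - B 0 1)) = 1 / (1 - B 0 1) := by
      field_simp
      linear_combination -hrel
    ext a b
    fin_cases a <;> fin_cases b
    · change B 0 0 = _
      rw [show ((⟨0, by norm_num⟩ : Fin 2)) = 0 from rfl, blk2_00, hd]
      field_simp
    · change B 0 1 = _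
      change _ = blk2 _ _ 0 1
      rw [blk2_01, hd]
      field_simp
      linear_combination hrel
    · change B 1 0 = _
      change _ = blk2 _ _ 1 0
      rw [blk2_10, hd, hs]
      field_simp
      linear_combination hrel
    · change B 1 1 = _
      change _ = blk2 _ _ 1 1
      rw [blk2_11, hd]
      field_simp

/-! ### almost sure convergence from summable errors -/

variable {Ω : Type*}

/-- summable `min 1`-distances imply a.e. convergence -/
theorem ae_tendsto_of_summable [mΩ : MeasurableSpace Ω] {P : Measure Ω} {f : ℕ → Ω → ℂ}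
    (hf : ∀ l, Measurable (f l))
    (hsum : ∑' l, ∫⁻ h, ENNReal.ofReal (min 1 ‖f l h - f (l + 1) h‖) ∂P ≠ ⊤) :
    ∀ᵐ h ∂P, ∃ x, Tendsto (fun l => f l h) atTop (𝓝 x) := by
  have hmeas : ∀ l, Measurable fun h => ENNReal.ofReal (min 1 ‖f l h - f (l + 1) h‖) := by
    intro l
    exact (measurable_const.min ((hf l).sub (hf (l + 1))).norm).ennreal_ofReal
  rw [← lintegral_tsum (fun l => (hmeas l).aemeasurable)] at hsum
  have h1 := ae_lt_top (Measurable.tsum hmeas) hsum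
  filter_upwards [h1] with h hh
  have hs : Summable fun l => min 1 ‖f l h - f (l + 1) h‖ := by
    have := ENNReal.summable_toReal hh.ne
    refine this.congr fun l => ?_
    rw [ENNReal.toReal_ofReal]
    exact le_min zero_le_one (norm_nonneg _)
  have h0 := hs.tendsto_atTop_zero
  have h2 : ∀ᶠ l in atTop, min 1 ‖f l h - f (l + 1) h‖ < 1 :=
    h0.eventually (gt_mem_nhds one_pos)
  have h3 : Summable fun l => ‖f l h - f (l + 1) h‖ := by
    obtain ⟨L, hL⟩ := eventually_atTop.1 h2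
    rw [← summable_nat_add_iff L]
    have h4 := (summable_nat_add_iff L).2 hs
    refine h4.congr fun l => ?_
    have := hL (l + L) (by omega)
    rcases min_lt_iff.1 this with h5 | h5
    · exact absurd h5 (lt_irrefl _)
    · exact min_eq_right h5.le
  have h5 : CauchySeq fun l => f l h := by
    refine cauchySeq_of_summable_dist ?_
    simpa [dist_eq_norm] using h3
  exact cauchySeq_tendsto_of_complete h5

lemma ND.of_tendsto {δ : ℝ} {B : ℕ → Matrix (Fin 2) (Fin 2) ℂ} {B0 : Matrix (Fin 2) (Fin 2) ℂ}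
    (hB : ∀ a b, Tendsto (fun l => B l a b) atTop (𝓝 (B0 a b)))
    (hf : ∃ᶠ l in atTop, ND δ (B l)) : ND δ B0 := by
  intro x
  have h1 : Tendsto (fun l => ∑ a, ∑ b, x a * (B l a b).im * x b) atTop
      (𝓝 (∑ a, ∑ b, x a * (B0 a b).im * x b)) := by
    refine tendsto_finsetSum _ fun a _ => tendsto_finsetSum _ fun b _ => ?_
    exact ((((Complex.continuous_im.tendsto _).comp (hB a b)).const_mul (x a)).mul_const (x b))
  refine ge_of_tendsto_of_frequently h1 ?_
  exact hf.mono fun l hl => hl x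

lemma ND.mono {δ δ' : ℝ} (h : δ' ≤ δ) {B : Matrix (Fin 2) (Fin 2) ℂ} (hB : ND δ B) : ND δ' B := by
  intro x
  have := hB x
  have h2 : δ' * (x 0 ^ 2 + x 1 ^ 2) ≤ δ * (x 0 ^ 2 + x 1 ^ 2) := by gcongr
  linarith

/-- the limit is non-degenerate -/
theorem ae_ND [mΩ : MeasurableSpace Ω] {P : Measure Ω}
    {B : ℕ → Ω → Matrix (Fin 2) (Fin 2) ℂ}
    (hnd : ∀ ε : ℝ, 0 < ε → ∃ δ : ℝ, 0 < δ ∧ ∃ᶠ l in atTop,
      P {h | ¬ ND δ (B l h)} ≤ ENNReal.ofReal ε) {B0 : Ω → Matrix (Fin 2) (Fin 2) ℂ}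
    (hB : ∀ᵐ h ∂P, ∀ a b, Tendsto (fun l => B l h a b) atTop (𝓝 (B0 h a b))) :
    ∀ᵐ h ∂P, ∃ δ : ℝ, 0 < δ ∧ ND δ (B0 h) := by
  have key : ∀ ε : ℝ, 0 < ε → P {h | ¬ ∃ δ : ℝ, 0 < δ ∧ ND δ (B0 h)} ≤ ENNReal.ofReal ε := by
    intro ε hε
    obtain ⟨δ, hδ, hfr⟩ := hnd ε hε
    have h1 : P {h | ¬ ∃ δ : ℝ, 0 < δ ∧ ND δ (B0 h)} ≤
        P (⋃ L : ℕ, ⋂ l ≥ L, {h | ¬ ND δ (B l h)}) := by
      refine measure_mono_ae ?_
      filter_upwards [hB] with h hh
      intro (hno : ¬ ∃ δ : ℝ, 0 < δ ∧ ND δ (B0 h))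
      by_contra hcon
      apply hno
      refine ⟨δ, hδ, ND.of_tendsto hh ?_⟩
      rw [frequently_atTop]
      intro L
      by_contra hc
      apply hcon
      refine Set.mem_iUnion.2 ⟨L, ?_⟩
      refine Set.mem_iInter₂.2 fun l hl => ?_
      intro (hh2 : ND δ (B l h))
      exact hc ⟨l, hl, hh2⟩
    refine h1.trans ?_
    have hmono : Monotone fun L : ℕ => ⋂ l ≥ L, {h | ¬ ND δ (B l h)} := by
      intro L L' hLL
      exact Set.biInter_mono (fun l (hl : L' ≤ l) => le_trans hLL hl) fun _ _ => le_rfl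
    rw [hmono.measure_iUnion]
    refine iSup_le fun L => ?_
    obtain ⟨l, hl, hl2⟩ := frequently_atTop.1 hfr L
    refine le_trans (measure_mono ?_) hl2
    exact Set.biInter_subset_of_mem (show l ∈ {l | l ≥ L} from hl)
  have h0 : P {h | ¬ ∃ δ : ℝ, 0 < δ ∧ ND δ (B0 h)} = 0 := by
    refine le_antisymm ?_ zero_le
    refine ge_of_tendsto (x := 𝓝[>] (0 : ℝ)) (f := fun ε : ℝ => ENNReal.ofReal ε) ?_ ?_
    · have : Tendsto (fun ε : ℝ => ENNReal.ofReal ε) (𝓝 0) (𝓝 (ENNReal.ofReal 0)) :=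
        (ENNReal.continuous_ofReal.tendsto 0)
      rw [ENNReal.ofReal_zero] at this
      exact this.mono_left nhdsWithin_le_nhds
    · filter_upwards [self_mem_nhdsWithin] with ε hε
      exact key ε hε
  exact h0

lemma entry_le_bnorm (B : Matrix (Fin 2) (Fin 2) ℂ) (a b : Fin 2) : ‖B a b‖ ≤ bnorm B := by
  unfold bnorm
  fin_cases a <;> fin_cases b
  · exact (le_max_left _ _).trans (le_max_left _ _)
  · exact (le_max_right _ _).trans (le_max_left _ _)
  · exact (le_max_left _ _).trans (le_max_right _ _)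
  · exact (le_max_right _ _).trans (le_max_right _ _)

/-! ### the limit cavity field -/

/-- the limit cavity field -/
noncomputable def cavLim (c : ℕ → Ω → ℂ) (h : Ω) : ℂ := limUnder atTop fun l => c l h

lemma measurable_cavLim [mΩ : MeasurableSpace Ω] {c : ℕ → Ω → ℂ} (hc : ∀ l, Measurable (c l)) :
    Measurable (cavLim c) :=
  (StronglyMeasurable.limUnder fun l => (hc l).stronglyMeasurable).measurable

lemma mp_iterate [mΩ : MeasurableSpace Ω] {P : Measure Ω} {pp rr : Ω → Ω}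
    (hpp : MeasurePreserving pp P P) (hrr : MeasurePreserving rr P P) (j : ℕ) :
    MeasurePreserving (mv pp rr j) P P :=
  hpp.comp (hrr.iterate j)

/-- **Main theorem of F4 (abstract part)** -/
theorem cavLim_props [mΩ : MeasurableSpace Ω] {P : Measure Ω} [IsProbabilityMeasure P]
    {pp : Ω → Ω} (hpp : MeasurePreserving pp P P) {c : ℕ → Ω → ℂ}
    (hc : ∀ l, Measurable (c l)) (him : ∀ l, ∀ᵐ h ∂P, 0 < (c l h).im)
    (hsum : ∑' l, ∫⁻ h, ENNReal.ofReal (min 1
      (bnorm (Bk pp (c l) h - Bk pp (c (l + 1)) h))) ∂P ≠ ⊤)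
    (hnd : ∀ ε : ℝ, 0 < ε → ∃ δ : ℝ, 0 < δ ∧ ∃ᶠ l in atTop,
      P {h | ¬ ND δ (Bk pp (c l) h)} ≤ ENNReal.ofReal ε) :
    (∀ᵐ h ∂P, 0 < (cavLim c h).im) ∧
    (∀ᵐ h ∂P, Tendsto (fun l => c l h) atTop (𝓝 (cavLim c h))) ∧
    (∀ᵐ h ∂P, ∃ δ : ℝ, 0 < δ ∧ ND δ (Bk pp (cavLim c) h)) ∧
    (∀ᵐ h ∂P, ∀ a b, Tendsto (fun l => Bk pp (c l) h a b) atTop
      (𝓝 (Bk pp (cavLim c) h a b))) := by
  have hme : ∀ l, ∀ a b, Measurable fun h => Bk pp (c l) h a b := by
    intro l a b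
    have h1 := hc l
    have h2 : Measurable fun h => c l (pp h) := (hc l).comp hpp.measurable
    have h3 : Measurable fun h => (1 - c l h * c l (pp h)) :=
      measurable_const.sub (h1.mul h2)
    fin_cases a <;> fin_cases b
    · have : (fun h => Bk pp (c l) h 0 0) = fun h => c l h / (1 - c l h * c l (pp h)) := by
        funext h; rw [Bk_eq, blk2_00]
      change Measurable fun h => Bk pp (c l) h 0 0
      rw [this]; exact h1.div h3
    · have : (fun h => Bk pp (c l) h 0 1) =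
          fun h => -(c l h * c l (pp h)) / (1 - c l h * c l (pp h)) := by
        funext h; rw [Bk_eq, blk2_01]
      change Measurable fun h => Bk pp (c l) h 0 1
      rw [this]; exact (h1.mul h2).neg.div h3
    · have : (fun h => Bk pp (c l) h 1 0) =
          fun h => -(c l h * c l (pp h)) / (1 - c l h * c l (pp h)) := by
        funext h; rw [Bk_eq, blk2_10]
      change Measurable fun h => Bk pp (c l) h 1 0
      rw [this]; exact (h1.mul h2).neg.div h3
    · have : (fun h => Bk pp (c l) h 1 1) = fun h => c l (pp h) / (1 - c l h * c l (pp h)) := by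
        funext h; rw [Bk_eq, blk2_11]
      change Measurable fun h => Bk pp (c l) h 1 1
      rw [this]; exact h2.div h3
  have hconv : ∀ a b, ∀ᵐ h ∂P, ∃ x, Tendsto (fun l => Bk pp (c l) h a b) atTop (𝓝 x) := by
    intro a b
    refine ae_tendsto_of_summable (fun l => hme l a b) ?_
    refine ne_top_of_le_ne_top hsum ?_
    refine ENNReal.tsum_le_tsum fun l => lintegral_mono fun h => ?_
    refine ENNReal.ofReal_le_ofReal (min_le_min_left 1 ?_)
    have := entry_le_bnorm (Bk pp (c l) h - Bk pp (c (l + 1)) h) a b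
    simpa using this
  have hall : ∀ᵐ h ∂P, ∀ a b, ∃ x, Tendsto (fun l => Bk pp (c l) h a b) atTop (𝓝 x) := by
    rw [ae_all_iff]; intro a
    rw [ae_all_iff]; intro b
    exact hconv a b
  -- the limit block
  let B0 : Ω → Matrix (Fin 2) (Fin 2) ℂ := fun h a b => limUnder atTop fun l => Bk pp (c l) h a b
  have hB0 : ∀ᵐ h ∂P, ∀ a b, Tendsto (fun l => Bk pp (c l) h a b) atTop (𝓝 (B0 h a b)) := by
    filter_upwards [hall] with h hh a b
    obtain ⟨x, hx⟩ := hh a b
    exact tendsto_nhds_limUnder ⟨x, hx⟩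
  have hND := ae_ND hnd hB0
  have him' : ∀ᵐ h ∂P, ∀ l, 0 < (c l h).im ∧ 0 < (c l (pp h)).im := by
    rw [ae_all_iff]; intro l
    exact (him l).and (hpp.quasiMeasurePreserving.ae (him l))
  have hmain : ∀ᵐ h ∂P, ∃ x x' : ℂ, 0 < x.im ∧ 0 < x'.im ∧
      Tendsto (fun l => c l h) atTop (𝓝 x) ∧ Tendsto (fun l => c l (pp h)) atTop (𝓝 x') ∧
      B0 h = blk2 x x' := by
    filter_upwards [hB0, hND, him'] with h h1 h2 h3
    obtain ⟨δ, hδ, hnd'⟩ := h2
    exact blk_limit (fun l => (h3 l).1) (fun l => (h3 l).2) hδ hnd' h1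
  have hB : ∀ᵐ h ∂P, B0 h = Bk pp (cavLim c) h := by
    filter_upwards [hmain] with h hh
    obtain ⟨x, x', _, _, hx, hx', hB⟩ := hh
    rw [Bk_eq]
    have e1 : cavLim c h = x := hx.limUnder_eq
    have e2 : cavLim c (pp h) = x' := hx'.limUnder_eq
    rw [e1, e2]; exact hB
  refine ⟨?_, ?_, ?_, ?_⟩
  · filter_upwards [hmain] with h hh
    obtain ⟨x, x', h1, _, hx, _, _⟩ := hh
    have e1 : cavLim c h = x := hx.limUnder_eq
    rw [e1]; exact h1
  · filter_upwards [hmain] with h hh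
    obtain ⟨x, x', h1, _, hx, _, _⟩ := hh
    have e1 : cavLim c h = x := hx.limUnder_eq
    rw [e1]; exact hx
  · filter_upwards [hND, hB] with h h1 h2
    rw [← h2]; exact h1
  · filter_upwards [hB0, hB] with h h1 h2
    rw [← h2]; exact h1

/-- convergence at all neighbours -/
lemma ae_mv [mΩ : MeasurableSpace Ω] {P : Measure Ω}
    {pp rr : Ω → Ω} (hpp : MeasurePreserving pp P P) (hrr : MeasurePreserving rr P P)
    {Q : Ω → Prop} (hQ : ∀ᵐ h ∂P, Q h) : ∀ᵐ h ∂P, ∀ j, Q (mv pp rr j h) := by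
  rw [ae_all_iff]; intro j
  exact (mp_iterate hpp hrr j).quasiMeasurePreserving.ae hQ

/-- the recursion passes to the limit -/
theorem cavLim_rec [mΩ : MeasurableSpace Ω] {P : Measure Ω}
    {pp rr : Ω → Ω} (hpp : MeasurePreserving pp P P) (hrr : MeasurePreserving rr P P)
    {c : ℕ → Ω → ℂ} {d : ℕ} {s E : ℝ} {om : Ω → ℝ} {η : ℕ → ℝ} (hη : Tendsto η atTop (𝓝 0))
    (hrec : ∀ l, ∀ᵐ h ∂P, c l h * ((E : ℂ) + Complex.I * η l - s * om h +
        ∑ j ∈ Finset.range (d - 1), c l (mv pp rr (j + 1) h)) = -1)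
    (hlim : ∀ᵐ h ∂P, Tendsto (fun l => c l h) atTop (𝓝 (cavLim c h))) :
    ∀ᵐ h ∂P, cavLim c h * ((E : ℂ) - s * om h +
      ∑ j ∈ Finset.range (d - 1), cavLim c (mv pp rr (j + 1) h)) = -1 := by
  have h1 : ∀ᵐ h ∂P, ∀ l, c l h * ((E : ℂ) + Complex.I * η l - s * om h +
        ∑ j ∈ Finset.range (d - 1), c l (mv pp rr (j + 1) h)) = -1 := by
    rw [ae_all_iff]; exact hrec
  filter_upwards [h1, hlim, ae_mv hpp hrr hlim] with h e1 e2 e3
  have hη' : Tendsto (fun l => (E : ℂ) + Complex.I * (η l : ℂ) - s * om h) atTop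
      (𝓝 ((E : ℂ) - s * om h)) := by
    have : Tendsto (fun l => ((η l : ℝ) : ℂ)) atTop (𝓝 ((0 : ℝ) : ℂ)) :=
      (Complex.continuous_ofReal.tendsto _).comp hη
    have h2 := ((this.const_mul Complex.I).const_add (E : ℂ)).sub_const ((s : ℂ) * om h)
    simpa using h2
  have h2 := e2.mul (hη'.add (tendsto_finsetSum (Finset.range (d - 1))
    fun j _ => e3 (j + 1)))
  refine tendsto_nhds_unique h2 ?_
  refine tendsto_const_nhds.congr fun l => ?_
  exact (e1 l).symm

/-- full Green function at the level `l` -/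
noncomputable def Gdl (pp rr : Ω → Ω) (d : ℕ) (s : ℝ) (z : ℂ) (om : Ω → ℝ) (cav : Ω → ℂ)
    (h : Ω) : ℂ :=
  -1 / (z - s * om h + ∑ i ∈ Finset.range d, cav (mv pp rr i h))

lemma Gd_eq_Gdl (pp rr : Ω → Ω) (d : ℕ) (s E : ℝ) (om : Ω → ℝ) (cav : Ω → ℂ) (h : Ω) :
    Gd pp rr d s E om cav h = Gdl pp rr d s (E : ℂ) om cav h := rfl

lemma den_im_pos {pp rr : Ω → Ω} {d : ℕ} (hd : 0 < d) {s : ℝ} {z : ℂ} (hz : 0 ≤ z.im) {om : Ω → ℝ}
    {cav : Ω → ℂ} {h : Ω} (hc : ∀ j, 0 < (cav (mv pp rr j h)).im) :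
    0 < (z - s * om h + ∑ i ∈ Finset.range d, cav (mv pp rr i h)).im := by
  rw [Complex.add_im, Complex.im_sum, Complex.sub_im]
  have h1 : ((s : ℂ) * (om h : ℂ)).im = 0 := by
    rw [← Complex.ofReal_mul]; exact Complex.ofReal_im _
  have h2 : 0 < ∑ i ∈ Finset.range d, (cav (mv pp rr i h)).im :=
    Finset.sum_pos (fun i _ => hc i) ⟨0, Finset.mem_range.2 hd⟩
  rw [h1]; linarith

lemma Gdl_im_pos {pp rr : Ω → Ω} {d : ℕ} (hd : 0 < d) {s : ℝ} {z : ℂ} (hz : 0 ≤ z.im) {om : Ω → ℝ}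
    {cav : Ω → ℂ} {h : Ω} (hc : ∀ j, 0 < (cav (mv pp rr j h)).im) :
    0 < (Gdl pp rr d s z om cav h).im := by
  have h1 := den_im_pos (pp := pp) (rr := rr) hd (s := s) hz (om := om) hc
  unfold Gdl
  rw [neg_div, Complex.neg_im, one_div, Complex.inv_im]
  have h0 : (z - s * om h + ∑ i ∈ Finset.range d, cav (mv pp rr i h)) ≠ 0 := by
    intro h; rw [h] at h1; simp at h1
  have := Complex.normSq_pos.2 h0
  rw [neg_div, neg_neg]
  exact div_pos h1 this

lemma Gdl_im_le {pp rr : Ω → Ω} {d : ℕ} (hd : 0 < d) {s : ℝ} {z : ℂ} (hz : 0 < z.im) {om : Ω → ℝ}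
    {cav : Ω → ℂ} {h : Ω} (hc : ∀ j, 0 < (cav (mv pp rr j h)).im) :
    (Gdl pp rr d s z om cav h).im ≤ 1 / z.im := by
  have h1 := den_im_pos (pp := pp) (rr := rr) hd (s := s) hz.le (om := om) hc
  have h2 : z.im ≤ (z - s * om h + ∑ i ∈ Finset.range d, cav (mv pp rr i h)).im := by
    rw [Complex.add_im, Complex.im_sum, Complex.sub_im]
    have h1 : ((s : ℂ) * (om h : ℂ)).im = 0 := by
      rw [← Complex.ofReal_mul]; exact Complex.ofReal_im _
    have h2 : 0 ≤ ∑ i ∈ Finset.range d, (cav (mv pp rr i h)).im :=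
      Finset.sum_nonneg (fun i _ => (hc i).le)
    rw [h1]; linarith
  refine (Complex.abs_im_le_norm _).trans' (le_abs_self _) |>.trans ?_
  unfold Gdl
  rw [norm_div, norm_neg, norm_one]
  refine one_div_le_one_div_of_le hz (h2.trans ?_)
  exact (le_abs_self _).trans (Complex.abs_im_le_norm _)

end Crest.Agent.R166.PhiLim85
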