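import Crest.Agent.R166.MkvF_47
import Crest.Agent.R166.B1Fin_47
import Crest.Agent.R166.Q03_955

/-!
Row 166, section 40.10 (helper47): the field `markov` of `B2.LimProc` for the limit of the laws
`P_η` of an extracted sequence.
-/

set_option autoImplicit false

noncomputable section

namespace Crest.Agent.R166.Q0Fin47

open MeasureTheory Filter Topology
open Crest.Agent.R166.Words955 Crest.Agent.R166.NoiseLim849 Crest.Agent.R166.CMI47
open Crest.Agent.R166.PsiBridge397 (poC pyS)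
open Crest.Agent.R166.TreeG879 (treeG omOf treeG_symm treeG_im_pos)
open Crest.Agent.R166.PhiAlg879 Crest.Agent.R166.MkvF47

/-! ### Positivity of the edge block -/

/-- the quadratic form of the edge block -/
theorem im_block_pos {c c' : ℂ} (hc : 0 < c.im) (hc' : 0 < c'.im) {x y : ℝ}
    (hxy : x ≠ 0 ∨ y ≠ 0) :
    0 < ((1 / (1 - c * c')) * ((x : ℂ) ^ 2 * c - 2 * x * y * (c * c') + (y : ℂ) ^ 2 * c')).im := by
  have hc0 : c ≠ 0 := by rintro rfl; simp at hc
  have hc0' : c' ≠ 0 := by rintro rfl; simp at hc'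
  have hn : 0 < Complex.normSq c := Complex.normSq_pos.2 hc0
  have hn' : 0 < Complex.normSq c' := Complex.normSq_pos.2 hc0'
  have hD : 1 - c * c' ≠ 0 := by
    intro e
    have h1 : c * c' = 1 := (sub_eq_zero.1 e).symm
    have h4 : c' = c⁻¹ := by
      field_simp
      rw [mul_comm]; exact h1
    rw [h4, Complex.inv_im] at hc'
    have h5 : -c.im / Complex.normSq c < 0 := div_neg_of_neg_of_pos (by linarith) hn
    linarith
  set v : ℂ := (x * c - y * (c * c')) / (1 - c * c') with hv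
  set v' : ℂ := (y * c' - x * (c * c')) / (1 - c * c') with hv'
  have hx : v / c + v' = x := by
    rw [hv, hv']
    field_simp
    ring
  have hy : v + v' / c' = y := by
    rw [hv, hv']
    field_simp
    ring
  have e1 : (1 / (1 - c * c')) * ((x : ℂ) ^ 2 * c - 2 * x * y * (c * c') + (y : ℂ) ^ 2 * c') =
      x * v + y * v' := by
    rw [hv, hv']
    field_simp
    ring
  have e2 : (x : ℂ) * v + y * v' = (starRingEnd ℂ) (v / c + v') * v +
      (starRingEnd ℂ) (v + v' / c') * v' := by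
    rw [hx, hy, Complex.conj_ofReal, Complex.conj_ofReal]
  have e3 : ((starRingEnd ℂ) (v / c + v') * v + (starRingEnd ℂ) (v + v' / c') * v').im =
      Complex.normSq v * (c.im / Complex.normSq c) +
        Complex.normSq v' * (c'.im / Complex.normSq c') := by
    have k1 : (starRingEnd ℂ) (v / c + v') * v + (starRingEnd ℂ) (v + v' / c') * v' =
        (Complex.normSq v : ℂ) * ((starRingEnd ℂ) c)⁻¹ +
        (Complex.normSq v' : ℂ) * ((starRingEnd ℂ) c')⁻¹ +
        ((starRingEnd ℂ) v' * v + (starRingEnd ℂ) v * v') := by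
      rw [Complex.normSq_eq_conj_mul_self, Complex.normSq_eq_conj_mul_self]
      simp only [map_add, map_div₀]
      ring
    have k2 : ((starRingEnd ℂ) v' * v + (starRingEnd ℂ) v * v').im = 0 := by
      simp only [Complex.add_im, Complex.mul_im, Complex.conj_re, Complex.conj_im]
      ring
    have k3 : ∀ w : ℂ, (((starRingEnd ℂ) w)⁻¹).im = w.im / Complex.normSq w := fun w => by
      rw [Complex.inv_im, Complex.conj_im, neg_neg, Complex.normSq_conj]
    rw [k1, Complex.add_im, Complex.add_im, k2, add_zero, Complex.im_ofReal_mul,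
      Complex.im_ofReal_mul, k3, k3]
  rw [e1, e2, e3]
  have hvv : v ≠ 0 ∨ v' ≠ 0 := by
    by_contra hcon
    push Not at hcon
    obtain ⟨h1, h2⟩ := hcon
    rw [h1, h2] at hx hy
    simp only [zero_div, add_zero] at hx hy
    rcases hxy with h | h
    · exact h (by exact_mod_cast hx.symm)
    · exact h (by exact_mod_cast hy.symm)
  have p1 : 0 ≤ Complex.normSq v * (c.im / Complex.normSq c) :=
    mul_nonneg (Complex.normSq_nonneg _) (div_nonneg hc.le hn.le)
  have p2 : 0 ≤ Complex.normSq v' * (c'.im / Complex.normSq c') :=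
    mul_nonneg (Complex.normSq_nonneg _) (div_nonneg hc'.le hn'.le)
  rcases hvv with h | h
  · have : 0 < Complex.normSq v := Complex.normSq_pos.2 h
    have : 0 < Complex.normSq v * (c.im / Complex.normSq c) := by positivity
    linarith
  · have : 0 < Complex.normSq v' := Complex.normSq_pos.2 h
    have : 0 < Complex.normSq v' * (c'.im / Complex.normSq c') := by positivity
    linarith

/-- positive definiteness of a symmetric 2x2 matrix from its quadratic form -/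
theorem posDef_two {M : Matrix (Fin 2) (Fin 2) ℝ} (hs : ∀ a b, M a b = M b a)
    (h : ∀ x : Fin 2 → ℝ, x ≠ 0 →
      0 < x 0 ^ 2 * M 0 0 + 2 * x 0 * x 1 * M 0 1 + x 1 ^ 2 * M 1 1) : M.PosDef := by
  refine Matrix.PosDef.of_dotProduct_mulVec_pos ?_ fun x hx => ?_
  · ext a b
    simp only [Matrix.conjTranspose_apply, star_trivial]
    exact hs b a
  · have h1 := h x hx
    rw [star_trivial]
    simp only [dotProduct, Matrix.mulVec, Fin.sum_univ_two]
    have h10 : M 1 0 = M 0 1 := hs 1 0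
    rw [h10]
    nlinarith [h1]

variable {d k : ℕ} [NeZero d]

theorem nil_ne_single : (TW.nil : TW d) ≠ TW.single 0 := by
  intro h
  have h1 := congrArg TW.len h
  simp [TW.len, TW.nil, TW.single] at h1

/-- the edge block at positive `η` -/
theorem pd_PhiL {s ρ : ℝ} (hρ : 0 < ρ) {z : ℂ} (hz : 0 < z.im)
    (ξ : Conf d (NoiseLim849.S1 d k)) :
    (Matrix.of fun a a' => PhiL Prod.fst s ρ z (e2 d a) (e2 d a') ξ :
      Matrix (Fin 2) (Fin 2) ℝ).PosDef := by
  classical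
  refine posDef_two (fun a b => ?_) fun x hx => ?_
  · simp only [Matrix.of_apply, PhiL]
    rw [treeG_symm s hz]
  · have hne := nil_ne_single (d := d)
    have h1 : x 0 ≠ 0 ∨ x 1 ≠ 0 := by
      by_contra hcon
      push Not at hcon
      apply hx
      funext a
      fin_cases a
      · exact hcon.1
      · exact hcon.2
    set om := omOf (T := ℝ × (Fin k → ℝ)) Prod.fst ξ with hom
    set a : TW d → ℝ := fun w => if w = TW.nil then x 0 else x 1 with ha
    have a0 : a TW.nil = x 0 := by simp [ha]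
    have a1 : a (TW.single 0) = x 1 := by simp [ha, hne.symm]
    have key : 0 < ∑ u ∈ ({TW.nil, TW.single 0} : Finset (TW d)),
        ∑ v ∈ ({TW.nil, TW.single 0} : Finset (TW d)), a u * a v * (treeG s z om u v).im := by
      rcases h1 with h | h
      · exact treeG_im_pos s hz om _ a (x := TW.nil) (by simp) (by rw [a0]; exact h)
      · exact treeG_im_pos s hz om _ a (x := TW.single 0) (by simp) (by rw [a1]; exact h)
    rw [Finset.sum_pair hne, Finset.sum_pair hne, Finset.sum_pair hne, a0, a1,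
      treeG_symm s hz om (TW.single 0) TW.nil] at key
    have e : x 0 ^ 2 * (Matrix.of fun a a' => PhiL Prod.fst s ρ z (e2 d a) (e2 d a') ξ :
        Matrix (Fin 2) (Fin 2) ℝ) 0 0 +
        2 * x 0 * x 1 * (Matrix.of fun a a' => PhiL Prod.fst s ρ z (e2 d a) (e2 d a') ξ :
        Matrix (Fin 2) (Fin 2) ℝ) 0 1 +
        x 1 ^ 2 * (Matrix.of fun a a' => PhiL Prod.fst s ρ z (e2 d a) (e2 d a') ξ :
        Matrix (Fin 2) (Fin 2) ℝ) 1 1 =
        (x 0 * x 0 * (treeG s z om TW.nil TW.nil).im +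
          x 0 * x 1 * (treeG s z om TW.nil (TW.single 0)).im +
          (x 1 * x 0 * (treeG s z om TW.nil (TW.single 0)).im +
          x 1 * x 1 * (treeG s z om (TW.single 0) (TW.single 0)).im)) / (Real.pi * ρ) := by
      simp only [Matrix.of_apply, PhiL, e2, Matrix.cons_val_zero, Matrix.cons_val_one, ← hom]
      ring
    rw [e]
    have := Real.pi_pos
    positivity

/-- the edge block in the limit -/
theorem pd_Phi {s ρ E : ℝ} (hρ : 0 < ρ) {z : ℕ → ℂ} {cl : Conf d (NoiseLim849.S1 d k) → ℂ}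
    (hz : ∀ l, 0 < (z l).im) (hzE : Tendsto z atTop (𝓝 (E : ℂ)))
    {ξ : Conf d (NoiseLim849.S1 d k)} (h : Good Prod.fst s z cl ξ) :
    (Matrix.of fun a a' => Phi Prod.fst s ρ z (e2 d a) (e2 d a') ξ :
      Matrix (Fin 2) (Fin 2) ℝ).PosDef := by
  refine posDef_two (fun a b => ?_) fun x hx => ?_
  · simp only [Matrix.of_apply]
    exact Phi_symm hz _ _ _
  · have h1 : x 0 ≠ 0 ∨ x 1 ≠ 0 := by
      by_contra hcon
      push Not at hcon
      apply hx
      funext a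
      fin_cases a
      · exact hcon.1
      · exact hcon.2
    have hb : ∀ a b : Fin 2, (Matrix.of fun a a' => Phi Prod.fst s ρ z (e2 d a) (e2 d a') ξ :
      Matrix (Fin 2) (Fin 2) ℝ) a b = (B2.Bk cross cl ξ a b).im / (Real.pi * ρ) := fun a b =>
      h.Phi_edge hz hzE a b
    rw [hb, hb, hb]
    have key := im_block_pos h.im0 h.cross.im0 h1
    have e : ((1 / (1 - cl ξ * cl (cross ξ))) * ((x 0 : ℂ) ^ 2 * cl ξ -
        2 * x 0 * x 1 * (cl ξ * cl (cross ξ)) + (x 1 : ℂ) ^ 2 * cl (cross ξ))).im =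
        x 0 ^ 2 * (B2.Bk cross cl ξ 0 0).im + 2 * x 0 * x 1 * (B2.Bk cross cl ξ 0 1).im +
          x 1 ^ 2 * (B2.Bk cross cl ξ 1 1).im := by
      have b00 : B2.Bk cross cl ξ 0 0 = (1 / (1 - cl ξ * cl (cross ξ))) * cl ξ := rfl
      have b01 : B2.Bk cross cl ξ 0 1 =
        (1 / (1 - cl ξ * cl (cross ξ))) * -(cl ξ * cl (cross ξ)) := rfl
      have b11 : B2.Bk cross cl ξ 1 1 = (1 / (1 - cl ξ * cl (cross ξ))) * cl (cross ξ) := rfl
      rw [b00, b01, b11]
      have k1 : (1 / (1 - cl ξ * cl (cross ξ))) * ((x 0 : ℂ) ^ 2 * cl ξ -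
        2 * x 0 * x 1 * (cl ξ * cl (cross ξ)) + (x 1 : ℂ) ^ 2 * cl (cross ξ)) =
        ((x 0 ^ 2 : ℝ) : ℂ) * ((1 / (1 - cl ξ * cl (cross ξ))) * cl ξ) +
        ((2 * x 0 * x 1 : ℝ) : ℂ) * ((1 / (1 - cl ξ * cl (cross ξ))) *
          -(cl ξ * cl (cross ξ))) +
        ((x 1 ^ 2 : ℝ) : ℂ) * ((1 / (1 - cl ξ * cl (cross ξ))) * cl (cross ξ)) := by
        push_cast
        ring
      rw [k1, Complex.add_im, Complex.add_im, Complex.im_ofReal_mul, Complex.im_ofReal_mul,
        Complex.im_ofReal_mul]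
    rw [e] at key
    have e' : x 0 ^ 2 * ((B2.Bk cross cl ξ 0 0).im / (Real.pi * ρ)) +
        2 * x 0 * x 1 * ((B2.Bk cross cl ξ 0 1).im / (Real.pi * ρ)) +
        x 1 ^ 2 * ((B2.Bk cross cl ξ 1 1).im / (Real.pi * ρ)) =
        (x 0 ^ 2 * (B2.Bk cross cl ξ 0 0).im + 2 * x 0 * x 1 * (B2.Bk cross cl ξ 0 1).im +
          x 1 ^ 2 * (B2.Bk cross cl ξ 1 1).im) / (Real.pi * ρ) := by ring
    rw [e']
    have := Real.pi_pos
    positivity

/-! ### Fixed `η` -/

/-- approximate edge Markov property of the law at `E + iη` -/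
theorem approxCI_law (hU : SpecB1.Stmt_U) (hL : SpecB1.Stmt_LLNStar) {b k : ℕ}
    {S : Seq980.Seq (b + 1) k} {s E K' : ℝ} (hX : SpecB1.Extra S s E K') {η c t : ℝ}
    (hη : 0 < η) (hc : 0 < c) (ht : 0 < t) {Q : Measure (Conf (b + 1) (NoiseLim849.S2 (b + 1) k))}
    (h1 : SpecB1.IsNoisyLim S s E η c Q) (h3 : Inv Q)
    (h5 : ∀ w (r : ℝ), Q {ζ | (ζ w).2.1 = r} = 0)
    (h6 : ∀ w i (r : ℝ), Q {ζ | (ζ w).2.2.1 i + Real.sqrt t * (ζ w).2.2.2 i = r} = 0) (R : ℕ) :
    Lim47.ApproxCI Q (sideC (b := b) (pyS k t) id R ⊔ Ced b (poC k) (pyS k t))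
      (sideC (b := b) (pyS k t) cross R ⊔ Ced b (poC k) (pyS k t))
      (Ced b (poC k) (pyS k t))
      (2 * Real.sqrt (2 * EntTree397.sR b R * ((k : ℝ) / 2 * Real.log ((t + η / c) / t)))) := by
  have hQ : IsProbabilityMeasure Q := h1.1
  obtain ⟨l, hl⟩ := LogDet424.stmt_LogDet (b + 1) k S s E K' η c hη hc hX
  have hLLN : SpecB1.LLNStar S s E η c t Q :=
    hL (b + 1) k S s E K' η c t Q hη hc ht hX h1 h5 h6
  have hTl := TypC674.stmt_T (b + 1) k S s E K' η c t l Q hη hc ht hX hQ hLLN hl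
  have hUl := hU (b + 1) k S s E K' η c t l Q hη hc ht hX hQ hLLN hl
  exact PsiBridge397.approxCI_of_psiDiff R h3 (SpecB1.psiDiff_of ht (by positivity) hTl hUl)

/-! ### The limit -/

theorem tendsto_ze {E : ℝ} {η : ℕ → ℝ} (hη0 : Tendsto η atTop (𝓝 0)) :
    Tendsto (fun l => ze E (η l)) atTop (𝓝 (E : ℂ)) := by
  have h1 : Tendsto (fun l => ((η l : ℝ) : ℂ)) atTop (𝓝 ((0 : ℝ) : ℂ)) :=
    (Complex.continuous_ofReal.tendsto 0).comp hη0
  have h2 := (h1.const_mul Complex.I).const_add (E : ℂ)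
  have h3 : (fun l => ze E (η l)) = fun l => (E : ℂ) + Complex.I * ((η l : ℝ) : ℂ) := by
    funext l
    simp [ze]
  rw [h3]
  simpa using h2

/-- 793's data from the laws -/
theorem confSetup {s ρ E : ℝ} (hρ : 0 < ρ) {S : Seq980.Seq d k}
    {η : ℕ → ℝ} (hη : ∀ l, 0 < η l) (hη0 : Tendsto η atTop (𝓝 0))
    {cl : Conf d (NoiseLim849.S1 d k) → ℂ}
    (hgood : ∀ᵐ ξ ∂S.P, Good Prod.fst s (fun l => ze E (η l)) cl ξ)
    {Q : ℕ → Measure (Conf d (NoiseLim849.S2 d k))} {Q0 : Measure (Conf d (NoiseLim849.S2 d k))}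
    (hS : Q0_955.LawSeq S s E ρ η Q Q0) :
    Lim793.ConfSetup S.P Q Q0 (fun l => gamG k s E (η l) (1 / (Real.pi * ρ)))
      (Phi (T := ℝ × (Fin k → ℝ)) Prod.fst s ρ fun l => ze E (η l)) (e2 d) := by
  have hz : ∀ l, 0 < (ze E (η l)).im := fun l => by rw [ze_im]; exact hη l
  have hzE : Tendsto (fun l => ze E (η l)) atTop (𝓝 (E : ℂ)) := tendsto_ze hη0
  refine ⟨S.prob, hS.prob, hS.prob0, fun l => (hS.cov l).meas, hS.cov0.meas,
    fun l => (hS.nlaw l).charForm, hS.nlaw0.charForm, fun l => ?_, ?_, fun l => ?_, ?_, hS.lim⟩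
  · filter_upwards [(hS.cov l).psd] with ξ hξ
    refine ⟨fun w w' => ?_, hξ⟩
    simp only [gamG]
    rw [treeG_symm s (hz l)]
  · filter_upwards [hS.cov0.psd] with ξ hξ
    exact ⟨fun w w' => Phi_symm hz _ _ _, hξ⟩
  · rw [Q0_955.gamG_eq_PhiL]
    exact ae_of_all _ fun ξ => pd_PhiL hρ (hz l) ξ
  · filter_upwards [hgood] with ξ hξ
    exact pd_Phi hρ hz hzE hξ

/-- **The field `markov` of `LimProc` for the limit law `Q0` of an extracted sequence.** -/
theorem markov_of_seq (hU : SpecB1.Stmt_U) (hL : SpecB1.Stmt_LLNStar) {b k : ℕ}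
    {S : Seq980.Seq (b + 1) k} {s E K' ρ t : ℝ} (hX : SpecB1.Extra S s E K') (hρ : 0 < ρ)
    (ht : 0 < t) {η : ℕ → ℝ} (hη : ∀ l, 0 < η l) (hη0 : Tendsto η atTop (𝓝 0))
    {cl : Conf (b + 1) (NoiseLim849.S1 (b + 1) k) → ℂ}
    (hgood : ∀ᵐ ξ ∂S.P, Good Prod.fst s (fun l => ze E (η l)) cl ξ)
    {Q : ℕ → Measure (Conf (b + 1) (NoiseLim849.S2 (b + 1) k))}
    {Q0 : Measure (Conf (b + 1) (NoiseLim849.S2 (b + 1) k))}
    (hS : Q0_955.LawSeq S s E ρ η Q Q0)
    (F G : Conf (b + 1) (NoiseLim849.S2 (b + 1) k) → ℝ) (hFb : ∃ C, ∀ h, |F h| ≤ C)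
    (hGb : ∃ C, ∀ h, |G h| ≤ C)
    (hF : Measurable[⨆ w : {w : List ℕ // B2.OutW (b + 1) w},
      MeasurableSpace.comap (fun h => B2.YY t X0 Z0 (B2.wd cross (rotn 1) w.1 h)) inferInstance] F)
    (hG : Measurable[⨆ w : {w : List ℕ // B2.OutW (b + 1) w},
      MeasurableSpace.comap (fun h => B2.YY t X0 Z0 (B2.wd cross (rotn 1) w.1 (cross h)))
        inferInstance] G) :
    Q0[fun h => F h * G h | EdgeM (b + 1) k t] =ᵐ[Q0]
      fun h => (Q0[F | EdgeM (b + 1) k t] h) * (Q0[G | EdgeM (b + 1) k t] h) := by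
  have hc : 0 < 1 / (Real.pi * ρ) := by
    have := Real.pi_pos
    positivity
  refine markov_field (confSetup hρ hη hη0 hgood hS) (fun R => ?_) F G hFb hGb hF hG
  refine ⟨_, B1Fin47.tendsto_err b k R (c := 1 / (Real.pi * ρ)) ht hη0, fun n => ?_⟩
  exact approxCI_law hU hL hX (hη n) hc ht (hS.noisy n) (hS.inv n) (hS.om_null n)
    (hS.Y_null n t ht) R

/-- the same for any `d ≥ 1` -/
theorem markov_of_seq' (hU : SpecB1.Stmt_U) (hL : SpecB1.Stmt_LLNStar)
    {S : Seq980.Seq d k} {s E K' ρ t : ℝ} (hX : SpecB1.Extra S s E K') (hρ : 0 < ρ)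
    (ht : 0 < t) {η : ℕ → ℝ} (hη : ∀ l, 0 < η l) (hη0 : Tendsto η atTop (𝓝 0))
    {cl : Conf d (NoiseLim849.S1 d k) → ℂ}
    (hgood : ∀ᵐ ξ ∂S.P, Good Prod.fst s (fun l => ze E (η l)) cl ξ)
    {Q : ℕ → Measure (Conf d (NoiseLim849.S2 d k))}
    {Q0 : Measure (Conf d (NoiseLim849.S2 d k))}
    (hS : Q0_955.LawSeq S s E ρ η Q Q0) :
    ∀ (F G : Conf d (NoiseLim849.S2 d k) → ℝ), (∃ C, ∀ h, |F h| ≤ C) →
      (∃ C, ∀ h, |G h| ≤ C) →
      Measurable[⨆ w : {w : List ℕ // B2.OutW d w},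
        MeasurableSpace.comap (fun h => B2.YY t X0 Z0 (B2.wd cross (rotn 1) w.1 h))
          inferInstance] F →
      Measurable[⨆ w : {w : List ℕ // B2.OutW d w},
        MeasurableSpace.comap (fun h => B2.YY t X0 Z0 (B2.wd cross (rotn 1) w.1 (cross h)))
          inferInstance] G →
      Q0[fun h => F h * G h | EdgeM d k t] =ᵐ[Q0]
        fun h => (Q0[F | EdgeM d k t] h) * (Q0[G | EdgeM d k t] h) := by
  obtain ⟨b, rfl⟩ : ∃ b, d = b + 1 := ⟨d - 1, by have := NeZero.ne d; omega⟩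
  exact markov_of_seq hU hL hX hρ ht hη hη0 hgood hS

end Crest.Agent.R166.Q0Fin47
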