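import Mathlib

/-!
# Row 166, section 52 (reconstruction), part 1: spectral sums of real symmetric matrices (helper255)

* `hs`            : squared Hilbert–Schmidt norm
* `IsDg A a`      : `A = O diag(a) Oᵀ` with `O` orthogonal
* `sum_sub_eq`    : `∑ k(a_i) - ∑ k(b_j) = ∑_{ij} W_ij² (k(a_i) - k(b_j))`
* `abs_sum_sub_le`: `|∑ k(a_i) - ∑ k(b_j)| ≤ α(|A|²+|B|²) + c √(2(|A|²+|B|²)) |A-B|`
* `sum_eig_comm`  : equality of spectral sums of `XY` and of a matrix with the charpoly of `YX`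
-/

set_option autoImplicit false

noncomputable section

namespace Crest.Agent.R166.Rec255

open Matrix Finset

/-- squared Hilbert–Schmidt norm -/
def hs {ι κ : Type*} [Fintype ι] [Fintype κ] (A : Matrix ι κ ℝ) : ℝ := ∑ i, ∑ j, A i j ^ 2

section HS

variable {ι κ : Type*} [Fintype ι] [DecidableEq ι] [Fintype κ] [DecidableEq κ]

omit [DecidableEq ι] [DecidableEq κ] in
lemma hs_nonneg (A : Matrix ι κ ℝ) : 0 ≤ hs A := by unfold hs; positivity

omit [DecidableEq ι] [DecidableEq κ] in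
lemma hs_eq_trace (A : Matrix ι κ ℝ) : hs A = (Aᵀ * A).trace := by
  unfold hs
  rw [Finset.sum_comm]
  simp only [Matrix.trace, Matrix.diag, Matrix.mul_apply, Matrix.transpose_apply, sq]

omit [DecidableEq ι] [DecidableEq κ] in
lemma hs_transpose (A : Matrix ι κ ℝ) : hs Aᵀ = hs A := by
  unfold hs
  rw [Finset.sum_comm]
  rfl

omit [DecidableEq κ] in
lemma hs_orth_mul {O : Matrix ι ι ℝ} (hO : Oᵀ * O = 1) (A : Matrix ι κ ℝ) :
    hs (O * A) = hs A := by
  rw [hs_eq_trace, hs_eq_trace, Matrix.transpose_mul, Matrix.mul_assoc, ← Matrix.mul_assoc Oᵀ, hO,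
    Matrix.one_mul]

omit [DecidableEq ι] in
lemma hs_mul_orth {O : Matrix κ κ ℝ} (hO : O * Oᵀ = 1) (A : Matrix ι κ ℝ) :
    hs (A * O) = hs A := by
  rw [← hs_transpose, Matrix.transpose_mul, hs_orth_mul (by rwa [Matrix.transpose_transpose]),
    hs_transpose]

omit [DecidableEq ι] [DecidableEq κ] in
lemma hs_neg (A : Matrix ι κ ℝ) : hs (-A) = hs A := by
  unfold hs; simp

omit [DecidableEq ι] [DecidableEq κ] in
lemma hs_sub_comm (A B : Matrix ι κ ℝ) : hs (A - B) = hs (B - A) := by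
  rw [← hs_neg, neg_sub]

omit [DecidableEq ι] [DecidableEq κ] in
lemma hs_add_le (A B : Matrix ι κ ℝ) : hs (A + B) ≤ 2 * (hs A + hs B) := by
  unfold hs
  rw [← Finset.sum_add_distrib, Finset.mul_sum]
  refine Finset.sum_le_sum fun i _ => ?_
  rw [← Finset.sum_add_distrib, Finset.mul_sum]
  refine Finset.sum_le_sum fun j _ => ?_
  rw [Matrix.add_apply]
  nlinarith [sq_nonneg (A i j - B i j)]

omit [DecidableEq ι] [DecidableEq κ] in
lemma hs_smul (c : ℝ) (A : Matrix ι κ ℝ) : hs (c • A) = c ^ 2 * hs A := by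
  unfold hs
  rw [Finset.mul_sum]
  refine Finset.sum_congr rfl fun i _ => ?_
  rw [Finset.mul_sum]
  refine Finset.sum_congr rfl fun j _ => ?_
  rw [Matrix.smul_apply, smul_eq_mul, mul_pow]

omit [DecidableEq ι] [DecidableEq κ] in
/-- Frobenius norm is submultiplicative -/
lemma hs_mul_le {μ : Type*} [Fintype μ] (A : Matrix ι κ ℝ) (B : Matrix κ μ ℝ) :
    hs (A * B) ≤ hs A * hs B := by
  unfold hs
  have h1 : ∀ i j, (A * B) i j ^ 2 ≤ (∑ k, A i k ^ 2) * ∑ k, B k j ^ 2 := by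
    intro i j
    rw [Matrix.mul_apply]
    exact Finset.sum_mul_sq_le_sq_mul_sq _ _ _
  calc ∑ i, ∑ j, (A * B) i j ^ 2 ≤ ∑ i, ∑ j, (∑ k, A i k ^ 2) * ∑ k, B k j ^ 2 :=
        Finset.sum_le_sum fun i _ => Finset.sum_le_sum fun j _ => h1 i j
    _ = (∑ i, ∑ k, A i k ^ 2) * ∑ j, ∑ k, B k j ^ 2 := by
        rw [Finset.sum_mul_sum]
    _ = _ := by
        rw [Finset.sum_comm (γ := μ) (α := κ)]

omit [DecidableEq κ] in
/-- multiplication by a bounded diagonal matrix -/
lemma hs_diag_mul_le {d : ι → ℝ} {T : ℝ} (hd : ∀ i, |d i| ≤ T)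
    (A : Matrix ι κ ℝ) : hs (diagonal d * A) ≤ T ^ 2 * hs A := by
  unfold hs
  rw [Finset.mul_sum]
  refine Finset.sum_le_sum fun i _ => ?_
  rw [Finset.mul_sum]
  refine Finset.sum_le_sum fun j _ => ?_
  rw [Matrix.diagonal_mul, mul_pow]
  have : d i ^ 2 ≤ T ^ 2 := sq_le_sq' (abs_le.mp (hd i)).1 (abs_le.mp (hd i)).2
  gcongr

omit [DecidableEq ι] in
lemma hs_mul_diag_le {d : κ → ℝ} {T : ℝ} (hd : ∀ i, |d i| ≤ T)
    (A : Matrix ι κ ℝ) : hs (A * diagonal d) ≤ T ^ 2 * hs A := by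
  rw [← hs_transpose, Matrix.transpose_mul, Matrix.diagonal_transpose, ← hs_transpose A]
  exact hs_diag_mul_le hd _

lemma hs_diagonal (d : ι → ℝ) : hs (diagonal d) = ∑ i, d i ^ 2 := by
  unfold hs
  refine Finset.sum_congr rfl fun i _ => ?_
  rw [Finset.sum_eq_single i]
  · rw [Matrix.diagonal_apply_eq]
  · intro j _ hj
    rw [Matrix.diagonal_apply_ne _ (Ne.symm hj)]; simp
  · simp

end HS

section Dg

variable {ι : Type*} [Fintype ι] [DecidableEq ι]

/-- orthogonal diagonalisation -/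
def IsDg (A : Matrix ι ι ℝ) (a : ι → ℝ) : Prop :=
  ∃ O : Matrix ι ι ℝ, Oᵀ * O = 1 ∧ O * Oᵀ = 1 ∧ A = O * diagonal a * Oᵀ

lemma isDg_diagonal (a : ι → ℝ) : IsDg (diagonal a) a :=
  ⟨1, by simp, by simp, by simp⟩

lemma isDg_eigenvalues {A : Matrix ι ι ℝ} (hA : A.IsHermitian) : IsDg A hA.eigenvalues := by
  refine ⟨(hA.eigenvectorUnitary : Matrix ι ι ℝ), ?_, ?_, ?_⟩
  · have := Unitary.star_mul_self_of_mem hA.eigenvectorUnitary.2
    rwa [star_eq_conjTranspose, conjTranspose_eq_transpose_of_trivial] at this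
  · have := Unitary.mul_star_self_of_mem hA.eigenvectorUnitary.2
    rwa [star_eq_conjTranspose, conjTranspose_eq_transpose_of_trivial] at this
  · have := hA.spectral_theorem
    rw [Unitary.conjStarAlgAut_apply] at this
    rw [star_eq_conjTranspose, conjTranspose_eq_transpose_of_trivial] at this
    exact this

lemma IsDg.hs_eq {A : Matrix ι ι ℝ} {a : ι → ℝ} (h : IsDg A a) : hs A = ∑ i, a i ^ 2 := by
  obtain ⟨O, h1, h2, rfl⟩ := h
  rw [Matrix.mul_assoc, hs_orth_mul h1, hs_mul_orth (by rw [Matrix.transpose_transpose, h1]),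
    hs_diagonal]

/-- the comparison matrix -/
lemma exists_W {A B : Matrix ι ι ℝ} {a b : ι → ℝ} (hA : IsDg A a) (hB : IsDg B b) :
    ∃ W : Matrix ι ι ℝ, (∀ i, ∑ j, W i j ^ 2 = 1) ∧ (∀ j, ∑ i, W i j ^ 2 = 1) ∧
      hs (A - B) = ∑ i, ∑ j, W i j ^ 2 * (a i - b j) ^ 2 := by
  obtain ⟨O, h1, h2, hA'⟩ := hA
  obtain ⟨V, h3, h4, hB'⟩ := hB
  refine ⟨Oᵀ * V, fun i => ?_, fun j => ?_, ?_⟩
  · have h : ((Oᵀ * V) * (Oᵀ * V)ᵀ) i i = 1 := by
      rw [Matrix.transpose_mul, Matrix.transpose_transpose, Matrix.mul_assoc,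
        ← Matrix.mul_assoc V, h4, Matrix.one_mul, h1, Matrix.one_apply_eq]
    rw [Matrix.mul_apply] at h
    simpa [sq] using h
  · have h : ((Oᵀ * V)ᵀ * (Oᵀ * V)) j j = 1 := by
      rw [Matrix.transpose_mul, Matrix.transpose_transpose, Matrix.mul_assoc,
        ← Matrix.mul_assoc O, h2, Matrix.one_mul, h3, Matrix.one_apply_eq]
    rw [Matrix.mul_apply] at h
    simpa [sq] using h
  · have e1 : Oᵀ * ((A - B) * V) = diagonal a * (Oᵀ * V) - (Oᵀ * V) * diagonal b := by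
      rw [hA', hB', Matrix.sub_mul, Matrix.mul_sub]
      congr 1
      · rw [← Matrix.mul_assoc, ← Matrix.mul_assoc, ← Matrix.mul_assoc, h1, Matrix.one_mul,
          Matrix.mul_assoc]
      · rw [Matrix.mul_assoc _ Vᵀ V, h3, Matrix.mul_one, Matrix.mul_assoc]
    have e2 : hs (A - B) = hs (Oᵀ * ((A - B) * V)) := by
      rw [hs_orth_mul (by rw [Matrix.transpose_transpose, h2]), hs_mul_orth h4]
    rw [e2, e1]
    unfold hs
    refine Finset.sum_congr rfl fun i _ => Finset.sum_congr rfl fun j _ => ?_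
    rw [Matrix.sub_apply, Matrix.diagonal_mul, Matrix.mul_diagonal]
    ring

/-- **stability of spectral sums in Hilbert–Schmidt norm** -/
theorem abs_sum_sub_le {A B : Matrix ι ι ℝ} {a b : ι → ℝ} (hA : IsDg A a) (hB : IsDg B b)
    {k : ℝ → ℝ} {α c : ℝ} (hc : 0 ≤ c)
    (hk : ∀ x y, |k x - k y| ≤ α * (x ^ 2 + y ^ 2) + c * ((|x| + |y|) * |x - y|)) :
    |∑ i, k (a i) - ∑ i, k (b i)| ≤
      α * (hs A + hs B) + c * (Real.sqrt (2 * (hs A + hs B)) * Real.sqrt (hs (A - B))) := by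
  obtain ⟨W, hW1, hW2, hW⟩ := exists_W hA hB
  have e1 : ∑ i, k (a i) = ∑ i, ∑ j, W i j ^ 2 * k (a i) := by
    refine Finset.sum_congr rfl fun i _ => ?_
    rw [← Finset.sum_mul, hW1, one_mul]
  have e2 : ∑ i, k (b i) = ∑ i, ∑ j, W i j ^ 2 * k (b j) := by
    rw [Finset.sum_comm]
    refine Finset.sum_congr rfl fun i _ => ?_
    rw [← Finset.sum_mul, hW2, one_mul]
  have e3 : ∑ i, k (a i) - ∑ i, k (b i) = ∑ i, ∑ j, W i j ^ 2 * (k (a i) - k (b j)) := by
    rw [e1, e2, ← Finset.sum_sub_distrib]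
    refine Finset.sum_congr rfl fun i _ => ?_
    rw [← Finset.sum_sub_distrib]
    refine Finset.sum_congr rfl fun j _ => ?_
    ring
  have s1 : ∑ i, ∑ j, W i j ^ 2 * (a i ^ 2 + b j ^ 2) = hs A + hs B := by
    rw [hA.hs_eq, hB.hs_eq]
    have : ∀ i, ∑ j, W i j ^ 2 * (a i ^ 2 + b j ^ 2) =
        a i ^ 2 + ∑ j, W i j ^ 2 * b j ^ 2 := by
      intro i
      simp only [mul_add]
      rw [Finset.sum_add_distrib, ← Finset.sum_mul, hW1, one_mul]
    simp only [this]
    rw [Finset.sum_add_distrib, Finset.sum_comm (γ := ι) (α := ι)]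
    congr 1
    refine Finset.sum_congr rfl fun i _ => ?_
    rw [← Finset.sum_mul, hW2, one_mul]
  have s2 : ∑ i, ∑ j, W i j ^ 2 * ((|a i| + |b j|) * |a i - b j|) ≤
      Real.sqrt (2 * (hs A + hs B)) * Real.sqrt (hs (A - B)) := by
    rw [← Real.sqrt_mul (by have := hs_nonneg A; have := hs_nonneg B; positivity)]
    apply Real.le_sqrt_of_sq_le
    have cs := Finset.sum_mul_sq_le_sq_mul_sq (Finset.univ ×ˢ Finset.univ : Finset (ι × ι))
      (fun p => |W p.1 p.2| * (|a p.1| + |b p.2|)) (fun p => |W p.1 p.2| * |a p.1 - b p.2|)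
    rw [Finset.sum_product, Finset.sum_product, Finset.sum_product] at cs
    have t1 : ∑ i, ∑ j, |W i j| * (|a i| + |b j|) * (|W i j| * |a i - b j|) =
        ∑ i, ∑ j, W i j ^ 2 * ((|a i| + |b j|) * |a i - b j|) := by
      refine Finset.sum_congr rfl fun i _ => Finset.sum_congr rfl fun j _ => ?_
      rw [← sq_abs (W i j)]; ring
    have t2 : ∑ i, ∑ j, (|W i j| * |a i - b j|) ^ 2 = hs (A - B) := by
      rw [hW]
      refine Finset.sum_congr rfl fun i _ => Finset.sum_congr rfl fun j _ => ?_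
      rw [mul_pow, sq_abs, sq_abs]
    have t3 : ∑ i, ∑ j, (|W i j| * (|a i| + |b j|)) ^ 2 ≤ 2 * (hs A + hs B) := by
      rw [← s1, Finset.mul_sum]
      refine Finset.sum_le_sum fun i _ => ?_
      rw [Finset.mul_sum]
      refine Finset.sum_le_sum fun j _ => ?_
      rw [mul_pow, sq_abs]
      have h0 : (|a i| + |b j|) ^ 2 ≤ 2 * (a i ^ 2 + b j ^ 2) := by
        nlinarith [sq_nonneg (|a i| - |b j|), sq_abs (a i), sq_abs (b j)]
      have h1 := sq_nonneg (W i j)
      nlinarith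
    rw [t1, t2] at cs
    exact cs.trans (mul_le_mul_of_nonneg_right t3 (hs_nonneg _))
  rw [e3]
  calc |∑ i, ∑ j, W i j ^ 2 * (k (a i) - k (b j))|
      ≤ ∑ i, ∑ j, W i j ^ 2 * |k (a i) - k (b j)| := by
        refine (Finset.abs_sum_le_sum_abs _ _).trans (Finset.sum_le_sum fun i _ => ?_)
        refine (Finset.abs_sum_le_sum_abs _ _).trans (Finset.sum_le_sum fun j _ => ?_)
        rw [abs_mul, abs_of_nonneg (sq_nonneg (W i j))]
    _ ≤ ∑ i, ∑ j, W i j ^ 2 * (α * (a i ^ 2 + b j ^ 2) + c * ((|a i| + |b j|) * |a i - b j|)) := by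
        refine Finset.sum_le_sum fun i _ => Finset.sum_le_sum fun j _ => ?_
        exact mul_le_mul_of_nonneg_left (hk _ _) (sq_nonneg _)
    _ = α * ∑ i, ∑ j, W i j ^ 2 * (a i ^ 2 + b j ^ 2) +
        c * ∑ i, ∑ j, W i j ^ 2 * ((|a i| + |b j|) * |a i - b j|) := by
        rw [Finset.mul_sum, Finset.mul_sum, ← Finset.sum_add_distrib]
        refine Finset.sum_congr rfl fun i _ => ?_
        rw [Finset.mul_sum, Finset.mul_sum, ← Finset.sum_add_distrib]
        refine Finset.sum_congr rfl fun j _ => ?_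
        ring
    _ ≤ _ := by
        rw [s1]
        gcongr

/-- the spectral sum does not depend on the diagonalisation -/
lemma sum_eq_of_isDg {A : Matrix ι ι ℝ} {a b : ι → ℝ} (hA : IsDg A a) (hB : IsDg A b)
    (k : ℝ → ℝ) : ∑ i, k (a i) = ∑ i, k (b i) := by
  obtain ⟨W, hW1, hW2, hW⟩ := exists_W hA hB
  have h0 : hs (A - A) = 0 := by rw [sub_self]; simp [hs]
  rw [h0] at hW
  have hz : ∀ i j, W i j ^ 2 * (a i - b j) ^ 2 = 0 := by
    intro i j
    have h1 := (Finset.sum_eq_zero_iff_of_nonneg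
      (fun i _ => Finset.sum_nonneg fun j _ => by positivity)).mp hW.symm i (Finset.mem_univ _)
    exact (Finset.sum_eq_zero_iff_of_nonneg (fun j _ => by positivity)).mp h1 j (Finset.mem_univ _)
  have hz' : ∀ i j, W i j ^ 2 * k (a i) = W i j ^ 2 * k (b j) := by
    intro i j
    rcases mul_eq_zero.mp (hz i j) with h | h
    · rw [h]; ring
    · have : a i = b j := by
        have := pow_eq_zero_iff (two_ne_zero) |>.mp h
        linarith
      rw [this]
  calc ∑ i, k (a i) = ∑ i, ∑ j, W i j ^ 2 * k (a i) := by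
        refine Finset.sum_congr rfl fun i _ => ?_
        rw [← Finset.sum_mul, hW1, one_mul]
    _ = ∑ i, ∑ j, W i j ^ 2 * k (b j) := by
        refine Finset.sum_congr rfl fun i _ => Finset.sum_congr rfl fun j _ => hz' i j
    _ = ∑ i, k (b i) := by
        rw [Finset.sum_comm]
        refine Finset.sum_congr rfl fun i _ => ?_
        rw [← Finset.sum_mul, hW2, one_mul]

end Dg

section Comm

variable {ι κ : Type*} [Fintype ι] [DecidableEq ι] [Fintype κ] [DecidableEq κ]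

open Polynomial in
/-- spectral sums of `XY` and of a symmetric matrix with the characteristic polynomial of `YX` -/
theorem sum_eig_comm {X' : Matrix ι κ ℝ} {Y : Matrix κ ι ℝ} (hXY : (X' * Y).IsHermitian)
    {B : Matrix κ κ ℝ} (hB : B.IsHermitian) (hc : B.charpoly = (Y * X').charpoly)
    {k : ℝ → ℝ} (k0 : k 0 = 0) :
    ∑ i, k (hXY.eigenvalues i) = ∑ i, k (hB.eigenvalues i) := by
  have h := Matrix.charpoly_mul_comm' X' Y
  rw [← hc] at h
  have h1 : (X ^ Fintype.card κ * (X' * Y).charpoly).roots =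
      (X ^ Fintype.card ι * B.charpoly).roots := by rw [h]
  have n1 : (X' * Y).charpoly ≠ 0 := (Matrix.charpoly_monic _).ne_zero
  have n2 : B.charpoly ≠ 0 := (Matrix.charpoly_monic _).ne_zero
  have n3 : ∀ j : ℕ, (X ^ j : ℝ[X]) ≠ 0 := fun j => pow_ne_zero _ X_ne_zero
  rw [Polynomial.roots_mul (mul_ne_zero (n3 _) n1), Polynomial.roots_mul (mul_ne_zero (n3 _) n2),
    Polynomial.roots_X_pow, Polynomial.roots_X_pow, hXY.roots_charpoly_eq_eigenvalues,
    hB.roots_charpoly_eq_eigenvalues] at h1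
  have h2 := congrArg (fun s => (s.map k).sum) h1
  simp only [Multiset.map_add, Multiset.sum_add, Multiset.map_nsmul, Multiset.map_singleton, k0,
    Multiset.sum_nsmul, Multiset.sum_singleton, smul_zero, zero_add, Multiset.map_map] at h2
  exact h2

end Comm

end Crest.Agent.R166.Rec255
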