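import Crest.Agent.R166.Gauss_286
import Crest.Agent.R166.Rec1_255

/-!
# Row 166, section 52 (reconstruction), part 2: Gaussian second moments (helper255)

* `int_rows`  : `E ∑_{kl} (∑_i c_i (g_ik g_il - δ_kl))² ≤ V4 m² ∑ c_i²`
* `int_gram`  : `E ∑_{ij} (∑_k (g_ik g_jk - δ_ij))² ≤ V4 r² m`
-/

set_option autoImplicit false

noncomputable section

namespace Crest.Agent.R166.Rec255

open Matrix MeasureTheory ProbabilityTheory Gauss286

variable {ι κ : Type*} [Fintype ι] [Fintype κ]

/-- a bound for the variance of `g_k g_l - δ_kl` -/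
def V4 : ℝ := 2 * (∫ x : ℝ, x ^ 4 ∂gaussianReal 0 1) + 2

lemma V4_pos : 0 < V4 := by
  unfold V4
  have : 0 ≤ ∫ x : ℝ, x ^ 4 ∂gaussianReal 0 1 := integral_nonneg fun x => by positivity
  linarith

lemma integrable_pow4 : Integrable (fun x : ℝ => x ^ 4) (gaussianReal 0 1) := by
  have h := (memLp_id_gaussianReal' (μ := 0) (v := 1) 4 (by norm_num)).integrable_norm_pow
    (p := 4) (by norm_num)
  refine h.congr (Filter.Eventually.of_forall fun x => ?_)
  simp only [id, Real.norm_eq_abs]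
  exact Even.pow_abs (by decide) x

lemma integrable_sq' : Integrable (fun x : ℝ => x ^ 2) (gaussianReal 0 1) := by
  have h := (memLp_id_gaussianReal' (μ := 0) (v := 1) 2 (by norm_num)).integrable_norm_pow
    (p := 2) (by norm_num)
  refine h.congr (Filter.Eventually.of_forall fun x => ?_)
  simp only [id, Real.norm_eq_abs, sq_abs]

lemma integral_sq' : ∫ x : ℝ, x ^ 2 ∂gaussianReal 0 1 = 1 := by
  have h := variance_id_gaussianReal (μ := 0) (v := 1)
  rw [variance_of_integral_eq_zero (by fun_prop) (by simp)] at h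
  simpa using h

lemma gv_eval {f : ℝ → ℝ} (k : κ) (hf : Measurable f) :
    ∫ v : κ → ℝ, f (v k) ∂gv κ = ∫ x, f x ∂gaussianReal 0 1 := by
  have h := measurePreserving_eval (fun _ : κ => gaussianReal 0 1) k
  rw [← h.map_eq, integral_map h.measurable.aemeasurable hf.aestronglyMeasurable]

lemma integrable_eval {f : ℝ → ℝ} (k : κ) (hf : Integrable f (gaussianReal 0 1)) :
    Integrable (fun v : κ → ℝ => f (v k)) (gv κ) :=
  (measurePreserving_eval (fun _ : κ => gaussianReal 0 1) k).integrable_comp_of_integrable hf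

section
variable [DecidableEq κ]

/-- `g_k g_l - δ_kl` -/
def Zc (k l : κ) (v : κ → ℝ) : ℝ := v k * v l - if k = l then 1 else 0

omit [Fintype κ] in
lemma measurable_Zc (k l : κ) : Measurable (Zc k l) := by
  unfold Zc
  exact ((measurable_pi_apply k).mul (measurable_pi_apply l)).sub_const _

omit [DecidableEq κ] in
lemma integrable_mul_eval (k l : κ) : Integrable (fun v : κ → ℝ => v k * v l) (gv κ) := by
  have h1 := integrable_eval k integrable_sq' (κ := κ)
  have h2 := integrable_eval l integrable_sq' (κ := κ)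
  refine (h1.add h2).mono' (by fun_prop) (Filter.Eventually.of_forall fun v => ?_)
  rw [Real.norm_eq_abs, abs_mul, Pi.add_apply]
  nlinarith [sq_nonneg (|v k| - |v l|), sq_abs (v k), sq_abs (v l), sq_nonneg (v k),
    sq_nonneg (v l)]

lemma integral_mul_eval (k l : κ) : ∫ v : κ → ℝ, v k * v l ∂gv κ = if k = l then 1 else 0 := by
  split_ifs with h
  · subst h
    have := gv_eval (κ := κ) k (f := fun x => x ^ 2) (by fun_prop)
    rw [integral_sq'] at this
    rw [← this]
    exact integral_congr_ae (Filter.Eventually.of_forall fun v => by simp only; ring)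
  · have hI := iIndepFun_pi (μ := fun _ : κ => gaussianReal 0 1) (X := fun _ => id)
      (fun _ => aemeasurable_id)
    have h2 := (hI.indepFun h).integral_fun_mul_eq_mul_integral
      ((measurable_pi_apply k).aestronglyMeasurable) ((measurable_pi_apply l).aestronglyMeasurable)
    simp only [id] at h2
    rw [h2, gv_eval (κ := κ) k (f := fun x => x) measurable_id, integral_id_gaussianReal, zero_mul]

lemma integral_Zc (k l : κ) : ∫ v, Zc k l v ∂gv κ = 0 := by
  unfold Zc
  rw [integral_sub (integrable_mul_eval k l) (integrable_const _), integral_mul_eval]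
  simp

lemma integrable_Zc_sq (k l : κ) : Integrable (fun v => Zc k l v ^ 2) (gv κ) ∧
    ∫ v, Zc k l v ^ 2 ∂gv κ ≤ V4 := by
  have h1 := integrable_eval k integrable_pow4 (κ := κ)
  have h2 := integrable_eval l integrable_pow4 (κ := κ)
  have hle : ∀ v : κ → ℝ, Zc k l v ^ 2 ≤ v k ^ 4 + v l ^ 4 + 2 := by
    intro v
    unfold Zc
    have a1 : (v k * v l) ^ 2 ≤ (v k ^ 4 + v l ^ 4) / 2 := by
      nlinarith [sq_nonneg (v k ^ 2 - v l ^ 2)]
    split_ifs
    · nlinarith [sq_nonneg (v k * v l + 1)]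
    · nlinarith [sq_nonneg (v k * v l), sq_nonneg (v k ^ 2), sq_nonneg (v l ^ 2)]
  have hI : Integrable (fun v : κ → ℝ => v k ^ 4 + v l ^ 4 + 2) (gv κ) :=
    (h1.add h2).add (integrable_const _)
  have hI2 : Integrable (fun v => Zc k l v ^ 2) (gv κ) := by
    refine hI.mono' ((measurable_Zc k l).pow_const 2).aestronglyMeasurable
      (Filter.Eventually.of_forall fun v => ?_)
    rw [Real.norm_of_nonneg (sq_nonneg _)]
    exact hle v
  refine ⟨hI2, ?_⟩
  calc ∫ v, Zc k l v ^ 2 ∂gv κ ≤ ∫ v : κ → ℝ, (v k ^ 4 + v l ^ 4 + 2) ∂gv κ :=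
        integral_mono hI2 hI hle
    _ = V4 := by
        have e1 := gv_eval (κ := κ) k (f := fun x => x ^ 4) (by fun_prop)
        have e2 := gv_eval (κ := κ) l (f := fun x => x ^ 4) (by fun_prop)
        have h12 : Integrable (fun v : κ → ℝ => v k ^ 4 + v l ^ 4) (gv κ) := h1.add h2
        rw [integral_add h12 (integrable_const _), integral_add h1 h2, e1, e2]
        simp only [integral_const, probReal_univ, smul_eq_mul, one_mul]
        unfold V4
        ring

/-- second moment of a sum over rows -/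
lemma int_sum_sq (c : ι → ℝ) {Z : (κ → ℝ) → ℝ} (hm : Measurable Z) (h0 : ∫ v, Z v ∂gv κ = 0)
    (h2 : Integrable (fun v => Z v ^ 2) (gv κ)) :
    Integrable (fun g : ι → κ → ℝ => (∑ i, c i * Z (g i)) ^ 2) (gm ι κ) ∧
    ∫ g : ι → κ → ℝ, (∑ i, c i * Z (g i)) ^ 2 ∂gm ι κ = (∑ i, c i ^ 2) * ∫ v, Z v ^ 2 ∂gv κ := by
  classical
  have hL : MemLp Z 2 (gv κ) := (memLp_two_iff_integrable_sq hm.aestronglyMeasurable).mpr h2
  have hI := iIndepFun_pi (μ := fun _ : ι => gv κ) (X := fun i v => c i * Z v)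
    (fun i => (hm.const_mul (c i)).aemeasurable)
  have hp : ∀ i, MeasurePreserving (Function.eval i) (gm ι κ) (gv κ) := fun i =>
    measurePreserving_eval (fun _ : ι => gv κ) i
  have hLi : ∀ i, MemLp (fun g : ι → κ → ℝ => c i * Z (g i)) 2 (gm ι κ) := fun i =>
    (hL.const_mul (c i)).comp_measurePreserving (hp i)
  have hv := IndepFun.variance_sum (s := Finset.univ)
    (X := fun i (g : ι → κ → ℝ) => c i * Z (g i)) (μ := gm ι κ) (fun i _ => hLi i)
    (fun i _ j _ hij => hI.indepFun hij)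
  have e0 : (∑ i : ι, fun g : ι → κ → ℝ => c i * Z (g i)) = fun g => ∑ i, c i * Z (g i) := by
    ext g; simp
  rw [e0] at hv
  have hmi : ∀ i, Measurable (fun g : ι → κ → ℝ => c i * Z (g i)) := fun i =>
    (hm.comp (measurable_pi_apply i)).const_mul _
  have hZi : ∀ i, ∫ g : ι → κ → ℝ, c i * Z (g i) ∂gm ι κ = 0 := by
    intro i
    rw [integral_const_mul]
    have : ∫ g : ι → κ → ℝ, Z (g i) ∂gm ι κ = ∫ v, Z v ∂gv κ := by
      rw [← (hp i).map_eq, integral_map (hp i).measurable.aemeasurable hm.aestronglyMeasurable]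
    rw [this, h0, mul_zero]
  have hsum : MemLp (fun g : ι → κ → ℝ => ∑ i, c i * Z (g i)) 2 (gm ι κ) :=
    memLp_finsetSum _ fun i _ => hLi i
  refine ⟨hsum.integrable_sq, ?_⟩
  rw [variance_of_integral_eq_zero hsum.aestronglyMeasurable.aemeasurable (by
    rw [integral_finsetSum _ fun i _ => (hLi i).integrable one_le_two]
    exact Finset.sum_eq_zero fun i _ => hZi i)] at hv
  have e1 : ∀ i, Var[fun g : ι → κ → ℝ => c i * Z (g i); gm ι κ] =
      c i ^ 2 * ∫ v, Z v ^ 2 ∂gv κ := by
    intro i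
    rw [variance_of_integral_eq_zero (hmi i).aemeasurable (hZi i)]
    have : ∫ g : ι → κ → ℝ, Z (g i) ^ 2 ∂gm ι κ = ∫ v, Z v ^ 2 ∂gv κ := by
      rw [← (hp i).map_eq, integral_map (hp i).measurable.aemeasurable
        (hm.pow_const 2).aestronglyMeasurable]
    rw [← this, ← integral_const_mul]
    exact integral_congr_ae (Filter.Eventually.of_forall fun g => by
      simp only; ring)
  simp only [e1] at hv
  rw [Finset.sum_mul]
  exact hv

/-- `∑_i c_i (g_ik g_il - δ_kl)` -/
def rowM (c : ι → ℝ) (g : ι → κ → ℝ) : Matrix κ κ ℝ := fun k l => ∑ i, c i * Zc k l (g i)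

/-- `E hs ≤ V4 m² ∑ c²` -/
theorem int_rows (c : ι → ℝ) :
    Integrable (fun g : ι → κ → ℝ => hs (rowM c g)) (gm ι κ) ∧
    ∫ g : ι → κ → ℝ, hs (rowM c g) ∂gm ι κ ≤
      V4 * (Fintype.card κ : ℝ) ^ 2 * ∑ i, c i ^ 2 := by
  unfold hs rowM
  have h : ∀ k l : κ, _ := fun k l => int_sum_sq (ι := ι) c (measurable_Zc k l) (integral_Zc k l)
    (integrable_Zc_sq k l).1
  have hI : ∀ k : κ, Integrable (fun g : ι → κ → ℝ => ∑ l, (∑ i, c i * Zc k l (g i)) ^ 2)
      (gm ι κ) := fun k => integrable_finsetSum _ fun l _ => (h k l).1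
  refine ⟨integrable_finsetSum _ fun k _ => hI k, ?_⟩
  rw [integral_finsetSum _ fun k _ => hI k]
  calc ∑ k : κ, ∫ g : ι → κ → ℝ, ∑ l, (∑ i, c i * Zc k l (g i)) ^ 2 ∂gm ι κ
      = ∑ k : κ, ∑ l : κ, (∑ i, c i ^ 2) * ∫ v, Zc k l v ^ 2 ∂gv κ := by
        refine Finset.sum_congr rfl fun k _ => ?_
        rw [integral_finsetSum _ fun l _ => (h k l).1]
        exact Finset.sum_congr rfl fun l _ => (h k l).2
    _ ≤ ∑ k : κ, ∑ l : κ, (∑ i, c i ^ 2) * V4 := by
        refine Finset.sum_le_sum fun k _ => Finset.sum_le_sum fun l _ => ?_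
        exact mul_le_mul_of_nonneg_left (integrable_Zc_sq k l).2 (by positivity)
    _ = _ := by
        simp only [Finset.sum_const, Finset.card_univ, nsmul_eq_mul]
        ring

end

section
variable [DecidableEq ι]

/-- `∑_k (g_ik g_jk - δ_ij)` -/
def gramM (g : ι → κ → ℝ) : Matrix ι ι ℝ := fun i j => ∑ k, (g i k * g j k - if i = j then 1 else 0)

/-- `E hs ≤ V4 r² m` -/
theorem int_gram :
    Integrable (fun g : ι → κ → ℝ => hs (gramM g)) (gm ι κ) ∧
    ∫ g : ι → κ → ℝ, hs (gramM g) ∂gm ι κ ≤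
      V4 * (Fintype.card ι : ℝ) ^ 2 * (Fintype.card κ : ℝ) := by
  have hT := gm_map_transpose (ι := κ) (κ := ι)
  have hmt : Measurable (fun (g : κ → ι → ℝ) (i : ι) (k : κ) => g k i) := by fun_prop
  obtain ⟨h1, h2⟩ := int_rows (ι := κ) (κ := ι) (fun _ => (1 : ℝ))
  have e1 : ∀ g : κ → ι → ℝ, hs (gramM fun i k => g k i) = hs (rowM (fun _ => (1 : ℝ)) g) := by
    intro g
    unfold hs gramM rowM Zc
    simp only [one_mul]
  have hmh : Measurable (fun g : ι → κ → ℝ => hs (gramM g)) := by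
    unfold hs gramM
    fun_prop
  constructor
  · rw [← hT, integrable_map_measure hmh.aestronglyMeasurable hmt.aemeasurable]
    exact h1.congr (Filter.Eventually.of_forall fun g => (e1 g).symm)
  · rw [← hT, integral_map hmt.aemeasurable hmh.aestronglyMeasurable]
    simp only [e1]
    refine h2.trans (le_of_eq ?_)
    simp

end

end Crest.Agent.R166.Rec255
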