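import Crest.Agent.R166.Rec2_255

/-!
# Row 166, section 52 (reconstruction), part 3: deterministic estimates (helper255)

* `kf h μ = h (1/μ)` (`0` at `0`) and its modulus `kf_mod`
* `near_sum` : spectral sums of `Gᵀ D G` for an almost orthonormal family
* `det_core` : `|∑ k(λ_i(N+F)) - ∑ k(d_j)| ≤ ε` when `F` and `G Gᵀ - 1` are small
-/

set_option autoImplicit false

noncomputable section

namespace Crest.Agent.R166.Rec255

open Matrix

/-- `μ ↦ h (1/μ)`, value `0` at `0` -/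
def kf (h : ℝ → ℝ) (μ : ℝ) : ℝ := if μ = 0 then 0 else h μ⁻¹

lemma kf_zero (h : ℝ → ℝ) : kf h 0 = 0 := if_pos rfl

lemma kf_nonneg {h : ℝ → ℝ} (h0 : ∀ t, 0 ≤ h t) (μ : ℝ) : 0 ≤ kf h μ := by
  unfold kf; split_ifs
  · exact le_rfl
  · exact h0 _

/-- modulus of `kf h` -/
lemma kf_mod {h : ℝ → ℝ} (hc : Continuous h) (hs : HasCompactSupport h) {ε : ℝ} (hε : 0 < ε) :
    ∃ c : ℝ, 0 ≤ c ∧ ∀ x y, |kf h x - kf h y| ≤ ε * (x ^ 2 + y ^ 2) + c * ((|x| + |y|) * |x - y|) := by
  -- support radius and bound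
  obtain ⟨R, hR1, hR⟩ : ∃ R : ℝ, 1 ≤ R ∧ ∀ t, R < |t| → h t = 0 := by
    obtain ⟨R, hR⟩ := hs.isCompact.isBounded.subset_closedBall 0
    refine ⟨max R 1, le_max_right _ _, fun t ht => ?_⟩
    by_contra hne
    have h1 : t ∈ tsupport h := subset_tsupport h hne
    have h2 := hR h1
    rw [Metric.mem_closedBall, dist_zero_right, Real.norm_eq_abs] at h2
    exact absurd (lt_of_lt_of_le ht h2) (not_lt.mpr (le_max_left _ _))
  obtain ⟨B, hB0, hB⟩ : ∃ B : ℝ, 0 ≤ B ∧ ∀ t, |h t| ≤ B := by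
    obtain ⟨B, hB⟩ := hc.bounded_above_of_compact_support hs
    exact ⟨B, (norm_nonneg _).trans (hB 0), fun t => hB t⟩
  have hu : UniformContinuous h := hc.uniformContinuous_of_tendsto_cocompact
    hs.is_zero_at_infty
  obtain ⟨η, hη, hη'⟩ := Metric.uniformContinuous_iff.mp hu (ε / R ^ 2) (by positivity)
  have hR0 : 0 < R := by linarith
  have hkB : ∀ x y, |kf h x - kf h y| ≤ 2 * B := by
    intro x y
    have : ∀ z, |kf h z| ≤ B := by
      intro z; unfold kf; split_ifs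
      · simpa using hB0
      · exact hB _
    calc |kf h x - kf h y| ≤ |kf h x| + |kf h y| := abs_sub _ _
      _ ≤ _ := by linarith [this x, this y]
  have hk0 : ∀ x, |x| < 1 / R → kf h x = 0 := by
    intro x hx
    unfold kf
    split_ifs with h0
    · rfl
    · apply hR
      rw [abs_inv]
      have hx0 : 0 < |x| := abs_pos.mpr h0
      rw [lt_inv_comm₀ hR0 hx0, ← one_div]
      exact hx
  refine ⟨2 * B * (2 * R) * R + 2 * B * (4 * R ^ 2 / η) * R, by positivity, fun x y => ?_⟩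
  have hp1 : 0 ≤ ε * (x ^ 2 + y ^ 2) := by positivity
  have hp2 : 0 ≤ (|x| + |y|) * |x - y| := by positivity
  by_cases hxy : |x| < 1 / R ∧ |y| < 1 / R
  · rw [hk0 x hxy.1, hk0 y hxy.2, sub_self, abs_zero]
    positivity
  -- at least one is large
  have hbig : 1 / R ≤ |x| ∨ 1 / R ≤ |y| := by
    by_contra hcon
    push Not at hcon
    exact hxy hcon
  have hsum : 1 ≤ R * (|x| + |y|) := by
    have h1 : 1 / R ≤ |x| + |y| := by
      rcases hbig with h | h
      · linarith [abs_nonneg y]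
      · linarith [abs_nonneg x]
    calc (1 : ℝ) = R * (1 / R) := by field_simp
      _ ≤ _ := by gcongr
  have hsq : 1 / R ^ 2 ≤ x ^ 2 + y ^ 2 := by
    have h2 : ∀ z : ℝ, 1 / R ≤ |z| → 1 / R ^ 2 ≤ z ^ 2 := by
      intro z hz
      rw [← sq_abs z]
      calc 1 / R ^ 2 = (1 / R) ^ 2 := by rw [div_pow, one_pow]
        _ ≤ _ := by gcongr
    rcases hbig with h | h
    · linarith [h2 x h, sq_nonneg y]
    · linarith [h2 y h, sq_nonneg x]
  -- far apart
  by_cases hfar : 1 / (2 * R) ≤ |x - y|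
  · have h1 : 1 ≤ 2 * R * |x - y| := by
      calc (1 : ℝ) = 2 * R * (1 / (2 * R)) := by field_simp
        _ ≤ _ := by gcongr
    calc |kf h x - kf h y| ≤ 2 * B := hkB x y
      _ = 2 * B * 1 * 1 := by ring
      _ ≤ 2 * B * (2 * R * |x - y|) * (R * (|x| + |y|)) := by gcongr
      _ = 2 * B * (2 * R) * R * ((|x| + |y|) * |x - y|) := by ring
      _ ≤ (2 * B * (2 * R) * R + 2 * B * (4 * R ^ 2 / η) * R) * ((|x| + |y|) * |x - y|) := by
          apply mul_le_mul_of_nonneg_right _ hp2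
          have : 0 ≤ 2 * B * (4 * R ^ 2 / η) * R := by positivity
          linarith
      _ ≤ _ := by linarith
  · push Not at hfar
    -- both are large
    have hx2 : 1 / (2 * R) < |x| ∧ 1 / (2 * R) < |y| := by
      have e1 : 1 / R = 1 / (2 * R) + 1 / (2 * R) := by field_simp; norm_num
      have e0 : 0 < 1 / (2 * R) := by positivity
      rcases hbig with h | h
      · have h3 : |x| ≤ |y| + |x - y| := by
          have := abs_add_le y (x - y)
          rwa [add_sub_cancel] at this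
        exact ⟨by linarith, by linarith⟩
      · have h3 : |y| ≤ |x| + |x - y| := by
          have := abs_add_le x (y - x)
          rw [add_sub_cancel, abs_sub_comm y x] at this
          exact this
        exact ⟨by linarith, by linarith⟩
    have hx0 : x ≠ 0 := by
      rintro rfl
      rw [abs_zero] at hx2
      exact absurd hx2.1 (not_lt.mpr (by positivity))
    have hy0 : y ≠ 0 := by
      rintro rfl
      rw [abs_zero] at hx2
      exact absurd hx2.2 (not_lt.mpr (by positivity))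
    have hinv : |x⁻¹ - y⁻¹| ≤ 4 * R ^ 2 * |x - y| := by
      have e1 : x⁻¹ - y⁻¹ = (y - x) / (x * y) := by field_simp
      rw [e1, abs_div, abs_mul, abs_sub_comm y x, div_le_iff₀ (by positivity)]
      have h4 : 1 / (4 * R ^ 2) ≤ |x| * |y| := by
        calc 1 / (4 * R ^ 2) = 1 / (2 * R) * (1 / (2 * R)) := by field_simp; norm_num
          _ ≤ |x| * |y| := mul_le_mul hx2.1.le hx2.2.le (by positivity) (abs_nonneg _)
      calc |x - y| = 4 * R ^ 2 * |x - y| * (1 / (4 * R ^ 2)) := by field_simp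
        _ ≤ 4 * R ^ 2 * |x - y| * (|x| * |y|) := by gcongr
    have ekx : kf h x = h x⁻¹ := if_neg hx0
    have eky : kf h y = h y⁻¹ := if_neg hy0
    by_cases hclose : |x⁻¹ - y⁻¹| < η
    · have h5 := hη' (show dist x⁻¹ y⁻¹ < η by rwa [Real.dist_eq])
      rw [Real.dist_eq] at h5
      rw [ekx, eky]
      calc |h x⁻¹ - h y⁻¹| ≤ ε / R ^ 2 := h5.le
        _ = ε * (1 / R ^ 2) := by ring
        _ ≤ ε * (x ^ 2 + y ^ 2) := by gcongr
        _ ≤ _ := by
            have : 0 ≤ (2 * B * (2 * R) * R + 2 * B * (4 * R ^ 2 / η) * R) *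
              ((|x| + |y|) * |x - y|) := by positivity
            linarith
    · push Not at hclose
      have h6 : 1 ≤ 4 * R ^ 2 / η * |x - y| := by
        rw [div_mul_eq_mul_div, le_div_iff₀ hη, one_mul]
        exact hclose.trans hinv
      calc |kf h x - kf h y| ≤ 2 * B := hkB x y
        _ = 2 * B * 1 * 1 := by ring
        _ ≤ 2 * B * (4 * R ^ 2 / η * |x - y|) * (R * (|x| + |y|)) := by gcongr
        _ = 2 * B * (4 * R ^ 2 / η) * R * ((|x| + |y|) * |x - y|) := by ring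
        _ ≤ (2 * B * (2 * R) * R + 2 * B * (4 * R ^ 2 / η) * R) * ((|x| + |y|) * |x - y|) := by
            apply mul_le_mul_of_nonneg_right _ hp2
            have : 0 ≤ 2 * B * (2 * R) * R := by positivity
            linarith
        _ ≤ _ := by linarith

section

variable {ι κ : Type*} [Fintype ι] [DecidableEq ι] [Fintype κ] [DecidableEq κ]

omit [DecidableEq ι] in
/-- symmetric square root, close to `1` -/
lemma exists_sqrt (G : Matrix κ ι ℝ) : ∃ S : Matrix κ κ ℝ, Sᵀ = S ∧ S * S = G * Gᵀ ∧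
    hs (S - 1) ≤ hs (G * Gᵀ - 1) := by
  have hps : (G * Gᵀ).PosSemidef := by
    have := Matrix.posSemidef_self_mul_conjTranspose G
    rwa [conjTranspose_eq_transpose_of_trivial] at this
  have hH := hps.isHermitian
  obtain ⟨O, h1, h2, h3⟩ := isDg_eigenvalues hH
  set γ := hH.eigenvalues with hγ
  have hγ0 : ∀ i, 0 ≤ γ i := hps.eigenvalues_nonneg
  refine ⟨O * diagonal (fun i => Real.sqrt (γ i)) * Oᵀ, ?_, ?_, ?_⟩
  · rw [Matrix.transpose_mul, Matrix.transpose_mul, Matrix.transpose_transpose,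
      Matrix.diagonal_transpose, Matrix.mul_assoc]
  · rw [h3, Matrix.mul_assoc (O * diagonal _) Oᵀ, ← Matrix.mul_assoc Oᵀ, ← Matrix.mul_assoc Oᵀ, h1,
      Matrix.one_mul, ← Matrix.mul_assoc, Matrix.mul_assoc O, Matrix.diagonal_mul_diagonal]
    simp only [Real.mul_self_sqrt (hγ0 _)]
  · have e1 : (1 : Matrix κ κ ℝ) = O * diagonal (fun _ => (1 : ℝ)) * Oᵀ := by
      rw [Matrix.diagonal_one, Matrix.mul_one, h2]
    have hd : ∀ a : κ → ℝ, hs (O * diagonal a * Oᵀ - 1) = ∑ i, (a i - 1) ^ 2 := by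
      intro a
      have : IsDg (O * diagonal a * Oᵀ - 1) (fun i => a i - 1) := by
        refine ⟨O, h1, h2, ?_⟩
        rw [← Matrix.diagonal_sub a (fun _ => (1 : ℝ)), Matrix.mul_sub, Matrix.sub_mul, ← e1]
      exact this.hs_eq
    have e2 : hs (G * Gᵀ - 1) = ∑ i, (γ i - 1) ^ 2 := by
      conv_lhs => rw [h3]
      exact hd _
    rw [hd, e2]
    refine Finset.sum_le_sum fun i _ => ?_
    have s1 := Real.sqrt_nonneg (γ i)
    have s2 := Real.mul_self_sqrt (hγ0 i)
    have e3 : γ i - 1 = (Real.sqrt (γ i) - 1) * (Real.sqrt (γ i) + 1) := by nlinarith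
    rw [e3, mul_pow]
    have : 1 ≤ (Real.sqrt (γ i) + 1) ^ 2 := by nlinarith
    nlinarith [sq_nonneg (Real.sqrt (γ i) - 1)]

/-- `S D S - D` is small -/
lemma hs_SDS_le {S : Matrix κ κ ℝ} {d : κ → ℝ} {θ : ℝ} (hd : ∀ i, |d i| ≤ θ)
    (hS : hs (S - 1) ≤ 1) :
    hs (S * diagonal d * S - diagonal d) ≤ 12 * θ ^ 2 * hs (S - 1) := by
  have e1 : S * diagonal d * S - diagonal d =
      ((S - 1) * diagonal d + diagonal d * (S - 1)) + (S - 1) * diagonal d * (S - 1) := by
    noncomm_ring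
  have h0 := hs_nonneg (S - 1)
  have a1 := hs_mul_diag_le hd (S - 1)
  have a2 := hs_diag_mul_le hd (S - 1)
  have a3 : hs ((S - 1) * diagonal d * (S - 1)) ≤ θ ^ 2 * hs (S - 1) := by
    refine (hs_mul_le _ _).trans ?_
    calc hs ((S - 1) * diagonal d) * hs (S - 1) ≤ θ ^ 2 * hs (S - 1) * 1 := by
          apply mul_le_mul a1 hS h0 (by positivity)
      _ = _ := by ring
  rw [e1]
  have b1 := hs_add_le ((S - 1) * diagonal d + diagonal d * (S - 1)) ((S - 1) * diagonal d * (S - 1))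
  have b2 := hs_add_le ((S - 1) * diagonal d) (diagonal d * (S - 1))
  have b3 : 0 ≤ θ ^ 2 * hs (S - 1) := by positivity
  nlinarith

/-- spectral sums of `Gᵀ D G` -/
lemma near_sum {G : Matrix κ ι ℝ} {S : Matrix κ κ ℝ} {d : κ → ℝ} (hS : Sᵀ = S)
    (hSS : S * S = G * Gᵀ) (hN : (Gᵀ * (diagonal d * G)).IsHermitian) :
    ∃ hB : (S * diagonal d * S).IsHermitian, ∀ k : ℝ → ℝ, k 0 = 0 →
      ∑ i, k (hN.eigenvalues i) = ∑ i, k (hB.eigenvalues i) := by
  have hB : (S * diagonal d * S).IsHermitian := by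
    rw [Matrix.IsHermitian, conjTranspose_eq_transpose_of_trivial, Matrix.transpose_mul,
      Matrix.transpose_mul, Matrix.diagonal_transpose, hS, Matrix.mul_assoc]
  refine ⟨hB, fun k k0 => ?_⟩
  refine sum_eig_comm hN hB ?_ k0
  rw [Matrix.mul_assoc, Matrix.charpoly_mul_comm, Matrix.mul_assoc, hSS, Matrix.mul_assoc]

lemma hs_eq_sum_eig {A : Matrix ι ι ℝ} (hA : A.IsHermitian) : hs A = ∑ i, hA.eigenvalues i ^ 2 :=
  (isDg_eigenvalues hA).hs_eq

end

/-- **deterministic core** -/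
theorem det_core {h : ℝ → ℝ} (hc : Continuous h) (hs' : HasCompactSupport h) {H θ ε : ℝ}
    (hH : 0 ≤ H) (hε : 0 < ε) :
    ∃ φ : ℝ, 0 < φ ∧ ∀ {ι κ : Type} [Fintype ι] [DecidableEq ι] [Fintype κ] [DecidableEq κ]
      (G : Matrix κ ι ℝ) (d : κ → ℝ) (F : Matrix ι ι ℝ)
      (hA : (Gᵀ * (diagonal d * G) + F).IsHermitian), (∀ j, |d j| ≤ θ) → ∑ j, d j ^ 2 ≤ H →
      hs (G * Gᵀ - 1) ≤ φ → hs F ≤ φ →
      |∑ i, kf h (hA.eigenvalues i) - ∑ j, kf h (d j)| ≤ ε := by
  set ε1 : ℝ := ε / (32 * (H + 1)) with hε1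
  have hε1' : 0 < ε1 := by positivity
  obtain ⟨c, hc0, hcm⟩ := kf_mod hc hs' hε1'
  set φ0 : ℝ := min 1 ((ε / (16 * (c + 1) * Real.sqrt (H + 1))) ^ 2) with hφ0
  have hφ0' : 0 < φ0 := by
    refine lt_min one_pos ?_
    positivity
  refine ⟨min φ0 (φ0 / (12 * (θ ^ 2 + 1))), by positivity, ?_⟩
  intro ι κ _ _ _ _ G d F hA hd hdH hG hF
  obtain ⟨S, hS, hSS, hS1⟩ := exists_sqrt G
  have hF0 : hs F ≤ φ0 := hF.trans (min_le_left _ _)
  have hF1 : hs F ≤ 1 := hF0.trans (min_le_left _ _)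
  have hSle : hs (S - 1) ≤ φ0 / (12 * (θ ^ 2 + 1)) := hS1.trans (hG.trans (min_le_right _ _))
  have hSle1 : hs (S - 1) ≤ 1 := hS1.trans (hG.trans ((min_le_left _ _).trans (min_le_left _ _)))
  have hq : hs (S * diagonal d * S - diagonal d) ≤ φ0 := by
    refine (hs_SDS_le hd hSle1).trans ?_
    calc 12 * θ ^ 2 * hs (S - 1) ≤ 12 * (θ ^ 2 + 1) * (φ0 / (12 * (θ ^ 2 + 1))) := by
          apply mul_le_mul _ hSle (hs_nonneg _) (by positivity)
          nlinarith
      _ = φ0 := by field_simp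
  have hq1 : hs (S * diagonal d * S - diagonal d) ≤ 1 := hq.trans (min_le_left _ _)
  have hN : (Gᵀ * (diagonal d * G)).IsHermitian := by
    rw [Matrix.IsHermitian, conjTranspose_eq_transpose_of_trivial, Matrix.transpose_mul,
      Matrix.transpose_mul, Matrix.diagonal_transpose, Matrix.transpose_transpose, Matrix.mul_assoc]
  obtain ⟨hB, hNB⟩ := near_sum hS hSS hN
  have hDd : hs (diagonal d) ≤ H := by rw [hs_diagonal]; exact hdH
  have hB2 : hs (S * diagonal d * S) ≤ 2 * (H + 1) := by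
    have := hs_add_le (diagonal d) (S * diagonal d * S - diagonal d)
    rw [add_sub_cancel] at this
    linarith
  have hN2 : hs (Gᵀ * (diagonal d * G)) ≤ 2 * (H + 1) := by
    rw [hs_eq_sum_eig hN, hNB (fun μ => μ ^ 2) (by norm_num), ← hs_eq_sum_eig hB]
    exact hB2
  have hA2 : hs (Gᵀ * (diagonal d * G) + F) ≤ 6 * (H + 1) := by
    have := hs_add_le (Gᵀ * (diagonal d * G)) F
    linarith
  -- first comparison
  have c1 := abs_sum_sub_le (isDg_eigenvalues hA) (isDg_eigenvalues hN) hc0 hcm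
  have c2 := abs_sum_sub_le (isDg_eigenvalues hB) (isDg_diagonal d) hc0 hcm
  rw [add_sub_cancel_left] at c1
  have hsq : ∀ a q : ℝ, 0 ≤ a → a ≤ 8 * (H + 1) → 0 ≤ q → q ≤ φ0 →
      ε1 * a + c * (Real.sqrt (2 * a) * Real.sqrt q) ≤ ε / 2 := by
    intro a q ha0 ha hq0 hq
    have t1 : ε1 * a ≤ ε / 4 := by
      calc ε1 * a ≤ ε1 * (8 * (H + 1)) := by gcongr
        _ = ε / 4 := by rw [hε1]; field_simp; norm_num
    have t2 : Real.sqrt (2 * a) ≤ 4 * Real.sqrt (H + 1) := by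
      rw [show (4 : ℝ) * Real.sqrt (H + 1) = Real.sqrt (16 * (H + 1)) by
        rw [Real.sqrt_mul (by norm_num), show (16 : ℝ) = 4 ^ 2 by norm_num,
          Real.sqrt_sq (by norm_num)]]
      exact Real.sqrt_le_sqrt (by linarith)
    have t3 : Real.sqrt q ≤ ε / (16 * (c + 1) * Real.sqrt (H + 1)) := by
      rw [← Real.sqrt_sq (show (0 : ℝ) ≤ ε / (16 * (c + 1) * Real.sqrt (H + 1)) by positivity)]
      exact Real.sqrt_le_sqrt (hq.trans (min_le_right _ _))
    have t4 : c * (Real.sqrt (2 * a) * Real.sqrt q) ≤ ε / 4 := by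
      have hH1 : 0 < Real.sqrt (H + 1) := Real.sqrt_pos.mpr (by linarith)
      calc c * (Real.sqrt (2 * a) * Real.sqrt q)
          ≤ (c + 1) * (4 * Real.sqrt (H + 1) * (ε / (16 * (c + 1) * Real.sqrt (H + 1)))) := by
            gcongr
            linarith
        _ = ε / 4 := by field_simp; norm_num
    linarith
  have d1 := hsq (hs (Gᵀ * (diagonal d * G) + F) + hs (Gᵀ * (diagonal d * G))) (hs F)
    (add_nonneg (hs_nonneg _) (hs_nonneg _)) (by linarith) (hs_nonneg _) hF0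
  have d2 := hsq (hs (S * diagonal d * S) + hs (diagonal d)) (hs (S * diagonal d * S - diagonal d))
    (add_nonneg (hs_nonneg _) (hs_nonneg _)) (by linarith) (hs_nonneg _) hq
  have c3 : |∑ i, kf h (hA.eigenvalues i) - ∑ i, kf h (hN.eigenvalues i)| ≤ ε / 2 := c1.trans d1
  have c4 : |∑ i, kf h (hB.eigenvalues i) - ∑ i, kf h (d i)| ≤ ε / 2 := c2.trans d2
  rw [← hNB (kf h) (kf_zero h)] at c4
  calc |∑ i, kf h (hA.eigenvalues i) - ∑ j, kf h (d j)|
      ≤ |∑ i, kf h (hA.eigenvalues i) - ∑ i, kf h (hN.eigenvalues i)| +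
        |∑ i, kf h (hN.eigenvalues i) - ∑ i, kf h (d i)| := abs_sub_le _ _ _
    _ ≤ ε := by linarith

end Crest.Agent.R166.Rec255
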