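import Crest.Agent.R166.Rec3_255

/-!
# Row 166, section 52 (reconstruction), part 4: fixed spectrum, fixed `x` (helper255)
-/

set_option autoImplicit false

noncomputable section

namespace Crest.Agent.R166.Rec255

open Matrix MeasureTheory ProbabilityTheory Gauss286

/-- `∑ e_i/(e_i²+K²)` -/
def aK {n : ℕ} (K : ℝ) (e : Fin n → ℝ) : ℝ := ∑ i, e i / (e i ^ 2 + K ^ 2)

/-- `∑ K/(e_i²+K²)` -/
def yK {n : ℕ} (K : ℝ) (e : Fin n → ℝ) : ℝ := ∑ i, K / (e i ^ 2 + K ^ 2)

/-- `∑ g_i g_iᵀ/(e_i - x)` -/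
def arr {n m : ℕ} (e : Fin n → ℝ) (x : ℝ) (g : Fin n → Fin m → ℝ) : Matrix (Fin m) (Fin m) ℝ :=
  fun k l => ∑ i, g i k * g i l / (e i - x)

/-- `(1/m) (arr - a)` -/
def Am {n m : ℕ} (e : Fin n → ℝ) (x a : ℝ) (g : Fin n → Fin m → ℝ) : Matrix (Fin m) (Fin m) ℝ :=
  (1 / (m : ℝ)) • (arr e x g - a • (1 : Matrix (Fin m) (Fin m) ℝ))

lemma yK_nonneg {n : ℕ} {K : ℝ} (hK : 0 ≤ K) (e : Fin n → ℝ) : 0 ≤ yK K e := by
  unfold yK
  exact Finset.sum_nonneg fun i _ => by positivity

lemma isHermitian_Am {n m : ℕ} (e : Fin n → ℝ) (x a : ℝ) (g : Fin n → Fin m → ℝ) :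
    (Am e x a g).IsHermitian := by
  rw [Matrix.IsHermitian, conjTranspose_eq_transpose_of_trivial]
  ext k l
  simp only [Am, arr, Matrix.transpose_apply, Matrix.smul_apply, Matrix.sub_apply, smul_eq_mul,
    Matrix.one_apply]
  congr 1
  congr 1
  · exact Finset.sum_congr rfl fun i _ => by ring
  · simp only [eq_comm]

lemma measurable_Am {n m : ℕ} (e : Fin n → ℝ) (a : ℝ) :
    Measurable fun (p : ℝ × (Fin n → Fin m → ℝ)) (k l : Fin m) => Am e p.1 a p.2 k l := by
  refine measurable_pi_lambda _ fun k => measurable_pi_lambda _ fun l => ?_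
  simp only [Am, arr, Matrix.smul_apply, Matrix.sub_apply, smul_eq_mul]
  refine Measurable.const_mul (Measurable.sub_const (Finset.measurable_sum _ fun i _ => ?_) _) _
  exact (((measurable_entry i k).comp measurable_snd).mul
    ((measurable_entry i l).comp measurable_snd)).div (measurable_const.sub measurable_fst)

variable {n m : ℕ}

/-- the near indices -/
def near (L : ℝ) (e : Fin n → ℝ) : Finset (Fin n) := Finset.univ.filter fun i => |e i| ≤ L

/-- the far coefficients -/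
def cfar (L x : ℝ) (e : Fin n → ℝ) (i : Fin n) : ℝ := if |e i| ≤ L then 0 else (e i - x)⁻¹

/-- the near frame -/
def Gm (L : ℝ) (e : Fin n → ℝ) (g : Fin n → Fin m → ℝ) : Matrix {i // i ∈ near L e} (Fin m) ℝ :=
  fun j k => g j.1 k / Real.sqrt m

/-- the remainder -/
def Fm (L x a : ℝ) (e : Fin n → ℝ) (g : Fin n → Fin m → ℝ) : Matrix (Fin m) (Fin m) ℝ :=
  (1 / (m : ℝ)) • rowM (cfar L x e) g +
    ((1 / (m : ℝ)) * (∑ i, cfar L x e i - a)) • (1 : Matrix (Fin m) (Fin m) ℝ)

lemma sum_near (L : ℝ) (e : Fin n → ℝ) (f : Fin n → ℝ) :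
    ∑ j : {i // i ∈ near L e}, f j.1 = ∑ i, if |e i| ≤ L then f i else 0 := by
  rw [Finset.sum_coe_sort (near L e) f, near, Finset.sum_filter]

lemma decomp (hm : 0 < m) (L x a : ℝ) (e : Fin n → ℝ) (g : Fin n → Fin m → ℝ) :
    Am e x a g = (Gm L e g)ᵀ * (diagonal (fun j : {i // i ∈ near L e} => (e j.1 - x)⁻¹) * Gm L e g) +
      Fm L x a e g := by
  have hm' : (0 : ℝ) < m := by exact_mod_cast hm
  have hs : Real.sqrt m * Real.sqrt m = m := Real.mul_self_sqrt hm'.le
  ext k l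
  rw [Matrix.add_apply, Matrix.mul_apply]
  have e1 : ∑ j : {i // i ∈ near L e}, (Gm L e g)ᵀ k j *
      (diagonal (fun j : {i // i ∈ near L e} => (e j.1 - x)⁻¹) * Gm L e g) j l =
      (1 / (m : ℝ)) * ∑ i, if |e i| ≤ L then g i k * g i l * (e i - x)⁻¹ else 0 := by
    rw [← sum_near L e (fun i => g i k * g i l * (e i - x)⁻¹), Finset.mul_sum]
    refine Finset.sum_congr rfl fun j _ => ?_
    rw [Matrix.diagonal_mul, Matrix.transpose_apply]
    unfold Gm
    rw [div_mul_eq_mul_div, mul_div_assoc', mul_div_assoc', div_div, hs]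
    ring
  rw [e1]
  simp only [Am, arr, Fm, rowM, Zc, cfar, Matrix.smul_apply, Matrix.sub_apply, Matrix.add_apply,
    smul_eq_mul, Matrix.one_apply]
  have e2 : ∑ i, g i k * g i l / (e i - x) =
      (∑ i, if |e i| ≤ L then g i k * g i l * (e i - x)⁻¹ else 0) +
      (∑ i, (if |e i| ≤ L then 0 else (e i - x)⁻¹) * (g i k * g i l - if k = l then 1 else 0)) +
      (∑ i, if |e i| ≤ L then 0 else (e i - x)⁻¹) * (if k = l then 1 else 0) := by
    rw [Finset.sum_mul, ← Finset.sum_add_distrib, ← Finset.sum_add_distrib]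
    refine Finset.sum_congr rfl fun i _ => ?_
    split_ifs <;> ring
  rw [e2]
  ring

/-- estimates for the far coefficients -/
lemma far_bounds {L x Y : ℝ} {e : Fin n → ℝ} (hL : 2 ≤ L) (hx0 : 0 ≤ x) (hx1 : x ≤ 1)
    (hY : yK L e ≤ Y) : ∑ i, cfar L x e i ^ 2 ≤ 8 * Y / L ∧ |∑ i, cfar L x e i - aK L e| ≤ 4 * Y := by
  have hL0 : 0 < L := by linarith
  have hden : ∀ i, 0 < e i ^ 2 + L ^ 2 := fun i => by positivity
  have habs : ∀ i, ¬ |e i| ≤ L → |e i| / 2 ≤ |e i - x| := by
    intro i hi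
    push Not at hi
    have h1 : |e i| ≤ |e i - x| + |x| := by
      have := abs_add_le (e i - x) x
      rwa [sub_add_cancel] at this
    rw [abs_of_nonneg hx0] at h1
    linarith
  constructor
  · calc ∑ i, cfar L x e i ^ 2 ≤ ∑ i, 8 / L * (L / (e i ^ 2 + L ^ 2)) := by
          refine Finset.sum_le_sum fun i _ => ?_
          unfold cfar
          split_ifs with h
          · have := hden i
            simp only [ne_eq, OfNat.ofNat_ne_zero, not_false_eq_true, zero_pow]
            positivity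
          · have h2 := habs i h
            push Not at h
            have h3 : 0 < |e i - x| := by linarith
            have e1 : 8 / L * (L / (e i ^ 2 + L ^ 2)) = 8 / (e i ^ 2 + L ^ 2) := by
              field_simp
            rw [e1, inv_pow, ← one_div, div_le_div_iff₀ (by rw [← sq_abs]; positivity) (hden i)]
            rw [← sq_abs (e i - x), ← sq_abs (e i)]
            nlinarith [abs_nonneg (e i), abs_nonneg (e i - x)]
      _ = 8 / L * yK L e := by rw [← Finset.mul_sum]; rfl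
      _ ≤ 8 / L * Y := by gcongr
      _ = _ := by ring
  · have : ∑ i, cfar L x e i - aK L e = ∑ i, (cfar L x e i - e i / (e i ^ 2 + L ^ 2)) := by
      rw [Finset.sum_sub_distrib]; rfl
    rw [this]
    calc |∑ i, (cfar L x e i - e i / (e i ^ 2 + L ^ 2))|
        ≤ ∑ i, |cfar L x e i - e i / (e i ^ 2 + L ^ 2)| := Finset.abs_sum_le_sum_abs _ _
      _ ≤ ∑ i, 4 * (L / (e i ^ 2 + L ^ 2)) := by
          refine Finset.sum_le_sum fun i _ => ?_
          unfold cfar
          have hd := hden i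
          split_ifs with h
          · rw [zero_sub, abs_neg, abs_div, abs_of_pos hd]
            calc |e i| / (e i ^ 2 + L ^ 2) ≤ L / (e i ^ 2 + L ^ 2) := by gcongr
              _ ≤ _ := by
                have : 0 ≤ L / (e i ^ 2 + L ^ 2) := by positivity
                linarith
          · have h2 := habs i h
            push Not at h
            have h3 : 0 < |e i - x| := by linarith
            have h4 : e i - x ≠ 0 := abs_pos.mp h3
            have e1 : (e i - x)⁻¹ - e i / (e i ^ 2 + L ^ 2) =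
                (L ^ 2 + e i * x) / ((e i - x) * (e i ^ 2 + L ^ 2)) := by
              field_simp
              ring
            rw [e1, abs_div, abs_mul, abs_of_pos hd, mul_div_assoc', div_le_div_iff₀ (by positivity) hd]
            have h5 : |L ^ 2 + e i * x| ≤ L ^ 2 + |e i| := by
              refine (abs_add_le _ _).trans ?_
              rw [abs_of_nonneg (sq_nonneg L), abs_mul, abs_of_nonneg hx0]
              nlinarith [abs_nonneg (e i)]
            have h6 : L ^ 2 + |e i| ≤ 4 * L * |e i - x| := by nlinarith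
            calc |L ^ 2 + e i * x| * (e i ^ 2 + L ^ 2) ≤ (4 * L * |e i - x|) * (e i ^ 2 + L ^ 2) := by
                  gcongr
                  exact h5.trans h6
              _ = _ := by ring
      _ = 4 * yK L e := by rw [← Finset.mul_sum]; rfl
      _ ≤ 4 * Y := by linarith

/-- number of near indices -/
lemma card_near_le {L Y : ℝ} {e : Fin n → ℝ} (hL : 0 < L) (hY : yK L e ≤ Y) :
    ((near L e).card : ℝ) ≤ 2 * L * Y := by
  have h1 : ((near L e).card : ℝ) = ∑ i ∈ near L e, (1 : ℝ) := by simp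
  rw [h1]
  calc ∑ i ∈ near L e, (1 : ℝ) ≤ ∑ i ∈ near L e, 2 * L * (L / (e i ^ 2 + L ^ 2)) := by
        refine Finset.sum_le_sum fun i hi => ?_
        have hi' : |e i| ≤ L := (Finset.mem_filter.mp hi).2
        rw [mul_div_assoc', le_div_iff₀ (by positivity)]
        have : e i ^ 2 ≤ L ^ 2 := by rw [← sq_abs]; gcongr
        nlinarith
    _ ≤ ∑ i, 2 * L * (L / (e i ^ 2 + L ^ 2)) :=
        Finset.sum_le_sum_of_subset_of_nonneg (Finset.filter_subset _ _)
          fun i _ _ => by positivity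
    _ = 2 * L * yK L e := by rw [← Finset.mul_sum]; rfl
    _ ≤ _ := by gcongr

/-- counting with the scale `L1` -/
lemma card_le {L1 Y r : ℝ} {e : Fin n → ℝ} (hL : 0 < L1) (hY : yK L1 e ≤ Y) :
    ((near r e).card : ℝ) ≤ Y * ((r ^ 2 + L1 ^ 2) / L1) := by
  have h1 : ((near r e).card : ℝ) = ∑ i ∈ near r e, (1 : ℝ) := by simp
  rw [h1]
  calc ∑ i ∈ near r e, (1 : ℝ) ≤ ∑ i ∈ near r e, (r ^ 2 + L1 ^ 2) / L1 * (L1 / (e i ^ 2 + L1 ^ 2)) := by
        refine Finset.sum_le_sum fun i hi => ?_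
        have hi' : |e i| ≤ r := (Finset.mem_filter.mp hi).2
        have : e i ^ 2 ≤ r ^ 2 := by rw [← sq_abs]; gcongr
        rw [div_mul_div_comm, mul_comm L1 (e i ^ 2 + L1 ^ 2), le_div_iff₀ (by positivity), one_mul]
        gcongr
    _ ≤ ∑ i, (r ^ 2 + L1 ^ 2) / L1 * (L1 / (e i ^ 2 + L1 ^ 2)) :=
        Finset.sum_le_sum_of_subset_of_nonneg (Finset.filter_subset _ _)
          fun i _ _ => by positivity
    _ = (r ^ 2 + L1 ^ 2) / L1 * yK L1 e := by rw [← Finset.mul_sum]; rfl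
    _ ≤ (r ^ 2 + L1 ^ 2) / L1 * Y := by gcongr
    _ = _ := by ring

/-- `∑ (e_i - x)^{-2}` -/
lemma sum_inv_sq_le {L L1 Y x τ : ℝ} {e : Fin n → ℝ} (hL : 0 < L1) (hY : yK L1 e ≤ Y) (hτ : 0 < τ)
    (hx0 : 0 ≤ x) (hx1 : x ≤ 1) (hg : ∀ i, τ ≤ |e i - x|) :
    ∑ j : {i // i ∈ near L e}, ((e j.1 - x)⁻¹) ^ 2 ≤ Y * ((2 + (2 + L1 ^ 2) / τ ^ 2) / L1) := by
  rw [sum_near L e (fun i => ((e i - x)⁻¹) ^ 2)]
  calc (∑ i, if |e i| ≤ L then ((e i - x)⁻¹) ^ 2 else 0)
      ≤ ∑ i, (2 + (2 + L1 ^ 2) / τ ^ 2) / L1 * (L1 / (e i ^ 2 + L1 ^ 2)) := by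
        refine Finset.sum_le_sum fun i _ => ?_
        have hd : 0 < |e i - x| := lt_of_lt_of_le hτ (hg i)
        have h1 : ((e i - x)⁻¹) ^ 2 ≤ (2 + (2 + L1 ^ 2) / τ ^ 2) / L1 * (L1 / (e i ^ 2 + L1 ^ 2)) := by
          rw [div_mul_div_comm, mul_comm L1 (e i ^ 2 + L1 ^ 2), mul_div_mul_right _ _ hL.ne',
            inv_pow, ← one_div, div_le_div_iff₀ (by rw [← sq_abs]; positivity) (by positivity),
            one_mul]
          have h2 : τ ^ 2 ≤ (e i - x) ^ 2 := by rw [← sq_abs (e i - x)]; gcongr; exact hg i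
          have h3 : (2 + L1 ^ 2) ≤ (2 + L1 ^ 2) / τ ^ 2 * (e i - x) ^ 2 := by
            rw [div_mul_eq_mul_div, le_div_iff₀ (by positivity)]
            gcongr
          nlinarith [sq_nonneg (e i - 2 * x), sq_nonneg x]
        split_ifs
        · exact h1
        · exact (sq_nonneg _).trans h1
    _ = (2 + (2 + L1 ^ 2) / τ ^ 2) / L1 * yK L1 e := by rw [← Finset.mul_sum]; rfl
    _ ≤ (2 + (2 + L1 ^ 2) / τ ^ 2) / L1 * Y := by gcongr
    _ = _ := by ring

/-- second moment of one Gram entry -/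
lemma int_gram_entry (i j : Fin n) :
    Integrable (fun g : Fin n → Fin m → ℝ => (∑ k, (g i k * g j k - if i = j then 1 else 0)) ^ 2)
      (gm (Fin n) (Fin m)) ∧
    ∫ g : Fin n → Fin m → ℝ, (∑ k, (g i k * g j k - if i = j then 1 else 0)) ^ 2
      ∂gm (Fin n) (Fin m) ≤ V4 * m := by
  have hT := gm_map_transpose (ι := Fin m) (κ := Fin n)
  have hmt : Measurable (fun (g : Fin m → Fin n → ℝ) (i : Fin n) (k : Fin m) => g k i) := by
    fun_prop
  obtain ⟨h1, h2⟩ := int_sum_sq (ι := Fin m) (fun _ => (1 : ℝ)) (measurable_Zc i j)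
    (integral_Zc i j) (integrable_Zc_sq i j).1
  have hmh : Measurable (fun g : Fin n → Fin m → ℝ =>
      (∑ k, (g i k * g j k - if i = j then 1 else 0)) ^ 2) := by
    fun_prop
  have e1 : ∀ g : Fin m → Fin n → ℝ, (∑ k, (g k i * g k j - if i = j then 1 else 0)) ^ 2 =
      (∑ k, 1 * Zc i j (g k)) ^ 2 := by
    intro g; simp only [one_mul, Zc]
  constructor
  · rw [← hT, integrable_map_measure hmh.aestronglyMeasurable hmt.aemeasurable]
    exact h1.congr (Filter.Eventually.of_forall fun g => (e1 g).symm)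
  · rw [← hT, integral_map hmt.aemeasurable hmh.aestronglyMeasurable]
    simp only [e1]
    rw [h2]
    calc (∑ _k : Fin m, (1 : ℝ) ^ 2) * ∫ v, Zc i j v ^ 2 ∂gv (Fin n)
        ≤ (∑ _k : Fin m, (1 : ℝ) ^ 2) * V4 := by
          gcongr
          exact (integrable_Zc_sq i j).2
      _ = _ := by simp [mul_comm]

/-- second moment of `G Gᵀ - 1` -/
lemma int_Gm (hm : 0 < m) (L : ℝ) (e : Fin n → ℝ) :
    Integrable (fun g : Fin n → Fin m → ℝ => hs (Gm L e g * (Gm L e g)ᵀ - 1))
      (gm (Fin n) (Fin m)) ∧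
    ∫ g : Fin n → Fin m → ℝ, hs (Gm L e g * (Gm L e g)ᵀ - 1) ∂gm (Fin n) (Fin m) ≤
      V4 * ((near L e).card : ℝ) ^ 2 / m := by
  have hm' : (0 : ℝ) < m := by exact_mod_cast hm
  have hs' : Real.sqrt m * Real.sqrt m = m := Real.mul_self_sqrt hm'.le
  have e1 : ∀ g : Fin n → Fin m → ℝ, hs (Gm L e g * (Gm L e g)ᵀ - 1) =
      ∑ i : {i // i ∈ near L e}, ∑ j : {i // i ∈ near L e}, (1 / (m : ℝ) ^ 2) *
        (∑ k, (g i.1 k * g j.1 k - if i.1 = j.1 then 1 else 0)) ^ 2 := by
    intro g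
    unfold hs
    refine Finset.sum_congr rfl fun i _ => Finset.sum_congr rfl fun j _ => ?_
    rw [Matrix.sub_apply, Matrix.mul_apply, ← _root_.one_div_pow, ← mul_pow]
    congr 1
    rw [Finset.mul_sum, Matrix.one_apply]
    have e3 : (if i = j then (1 : ℝ) else 0) = ∑ _k : Fin m, (1 / (m : ℝ)) *
        (if i.1 = j.1 then 1 else 0) := by
      rw [Finset.sum_const, Finset.card_univ, Fintype.card_fin, nsmul_eq_mul]
      by_cases h : i = j
      · rw [if_pos h, if_pos (congrArg _ h)]; field_simp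
      · rw [if_neg h, if_neg (fun h' => h (Subtype.ext h'))]; ring
    rw [e3, ← Finset.sum_sub_distrib]
    refine Finset.sum_congr rfl fun k _ => ?_
    rw [Matrix.transpose_apply]
    unfold Gm
    rw [div_mul_div_comm, hs']
    ring
  have hI : ∀ i j : {i // i ∈ near L e}, Integrable (fun g : Fin n → Fin m → ℝ =>
      (1 / (m : ℝ) ^ 2) * (∑ k, (g i.1 k * g j.1 k - if i.1 = j.1 then 1 else 0)) ^ 2)
      (gm (Fin n) (Fin m)) := fun i j => (int_gram_entry i.1 j.1).1.const_mul _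
  simp only [e1]
  refine ⟨integrable_finsetSum _ fun i _ => integrable_finsetSum _ fun j _ => hI i j, ?_⟩
  rw [integral_finsetSum _ fun i _ => integrable_finsetSum _ fun j _ => hI i j]
  calc _ = ∑ i : {i // i ∈ near L e}, ∑ j : {i // i ∈ near L e}, (1 / (m : ℝ) ^ 2) *
        ∫ g : Fin n → Fin m → ℝ, (∑ k, (g i.1 k * g j.1 k - if i.1 = j.1 then 1 else 0)) ^ 2
          ∂gm (Fin n) (Fin m) := by
        refine Finset.sum_congr rfl fun i _ => ?_
        rw [integral_finsetSum _ fun j _ => hI i j]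
        refine Finset.sum_congr rfl fun j _ => ?_
        rw [integral_const_mul]
    _ ≤ ∑ _i : {i // i ∈ near L e}, ∑ _j : {i // i ∈ near L e}, (1 / (m : ℝ) ^ 2) * (V4 * m) := by
        refine Finset.sum_le_sum fun i _ => Finset.sum_le_sum fun j _ => ?_
        gcongr
        exact (int_gram_entry i.1 j.1).2
    _ = _ := by
        simp only [Finset.sum_const, Finset.card_univ, Fintype.card_coe, nsmul_eq_mul]
        field_simp

/-- second moment of the remainder -/
lemma int_Fm (hm : 0 < m) {L x a : ℝ} {e : Fin n → ℝ} :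
    Integrable (fun g : Fin n → Fin m → ℝ => hs (Fm L x a e g)) (gm (Fin n) (Fin m)) ∧
    ∫ g : Fin n → Fin m → ℝ, hs (Fm L x a e g) ∂gm (Fin n) (Fin m) ≤
      2 * (V4 * ∑ i, cfar L x e i ^ 2 + (∑ i, cfar L x e i - a) ^ 2 / m) := by
  have hm' : (0 : ℝ) < m := by exact_mod_cast hm
  obtain ⟨h1, h2⟩ := int_rows (ι := Fin n) (κ := Fin m) (cfar L x e)
  have hone : hs (1 : Matrix (Fin m) (Fin m) ℝ) = m := by
    rw [← Matrix.diagonal_one, hs_diagonal]; simp
  have hle : ∀ g : Fin n → Fin m → ℝ, hs (Fm L x a e g) ≤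
      2 * ((1 / (m : ℝ)) ^ 2 * hs (rowM (cfar L x e) g) +
        ((1 / (m : ℝ)) * (∑ i, cfar L x e i - a)) ^ 2 * m) := by
    intro g
    refine (hs_add_le _ _).trans (le_of_eq ?_)
    rw [hs_smul, hs_smul, hone]
  have hI : Integrable (fun g : Fin n → Fin m → ℝ =>
      2 * ((1 / (m : ℝ)) ^ 2 * hs (rowM (cfar L x e) g) +
        ((1 / (m : ℝ)) * (∑ i, cfar L x e i - a)) ^ 2 * m)) (gm (Fin n) (Fin m)) :=
    ((h1.const_mul _).add (integrable_const _)).const_mul _
  have hmeas : Measurable (fun g : Fin n → Fin m → ℝ => hs (Fm L x a e g)) := by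
    unfold hs
    refine Finset.measurable_sum _ fun k _ => Finset.measurable_sum _ fun l _ => ?_
    refine Measurable.pow_const ?_ 2
    unfold Fm rowM
    simp only [Matrix.add_apply, Matrix.smul_apply, smul_eq_mul]
    refine Measurable.add_const (Measurable.const_mul (Finset.measurable_sum _ fun i _ => ?_) _) _
    exact ((measurable_Zc k l).comp (measurable_pi_apply i)).const_mul _
  have hI' : Integrable (fun g : Fin n → Fin m → ℝ => hs (Fm L x a e g)) (gm (Fin n) (Fin m)) := by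
    refine hI.mono' hmeas.aestronglyMeasurable (Filter.Eventually.of_forall fun g => ?_)
    rw [Real.norm_of_nonneg (hs_nonneg _)]
    exact hle g
  refine ⟨hI', (integral_mono hI' hI hle).trans ?_⟩
  rw [integral_const_mul, integral_add (h1.const_mul _) (integrable_const _), integral_const_mul]
  simp only [integral_const, probReal_univ, smul_eq_mul, one_mul]
  rw [Fintype.card_fin] at h2
  have e3 : (1 / (m : ℝ)) ^ 2 * ∫ g : Fin n → Fin m → ℝ, hs (rowM (cfar L x e) g)
      ∂gm (Fin n) (Fin m) ≤ V4 * ∑ i, cfar L x e i ^ 2 := by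
    calc _ ≤ (1 / (m : ℝ)) ^ 2 * (V4 * (m : ℝ) ^ 2 * ∑ i, cfar L x e i ^ 2) := by gcongr
      _ = _ := by field_simp
  have e4 : ((1 / (m : ℝ)) * (∑ i, cfar L x e i - a)) ^ 2 * m = (∑ i, cfar L x e i - a) ^ 2 / m := by
    field_simp
  rw [e4]
  linarith

end Crest.Agent.R166.Rec255
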