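import Crest.Agent.R166.Rec4_255

/-!
# Row 166, section 52 (reconstruction), part 5: the core for a fixed spectrum (helper255)
-/

set_option autoImplicit false

noncomputable section

namespace Crest.Agent.R166.Rec255

open Matrix MeasureTheory ProbabilityTheory Gauss286

variable {n m : ℕ}

lemma abs_exp_neg_sub_le {s t : ℝ} (hs : 0 ≤ s) (ht : 0 ≤ t) :
    |Real.exp (-s) - Real.exp (-t)| ≤ |s - t| := by
  wlog h : s ≤ t generalizing s t with H
  · rw [abs_sub_comm, abs_sub_comm s t]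
    exact H ht hs (le_of_not_ge h)
  · have h1 : Real.exp (-t) ≤ Real.exp (-s) := Real.exp_le_exp.mpr (by linarith)
    rw [abs_of_nonneg (by linarith), abs_of_nonpos (by linarith)]
    have h2 : Real.exp (-t) = Real.exp (-s) * Real.exp (-(t - s)) := by
      rw [← Real.exp_add]; congr 1; ring
    have h3 : 1 - (t - s) ≤ Real.exp (-(t - s)) := by
      have := Real.add_one_le_exp (-(t - s)); linarith
    have h4 : Real.exp (-s) ≤ 1 := Real.exp_le_one_iff.mpr (by linarith)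
    have h5 := Real.exp_pos (-s)
    rw [h2]
    nlinarith

/-- the functional -/
def IsLap (h : ℝ → ℝ) (m : ℕ) (Φ : Matrix (Fin m) (Fin m) ℝ → ℝ) : Prop :=
  ∀ (A : Matrix (Fin m) (Fin m) ℝ) (hA : A.IsHermitian),
    Φ A = Real.exp (-∑ i, kf h (hA.eigenvalues i))

lemma IsLap.mem {h : ℝ → ℝ} (h0 : ∀ t, 0 ≤ h t) {Φ : Matrix (Fin m) (Fin m) ℝ → ℝ}
    (hΦ : IsLap h m Φ) {A : Matrix (Fin m) (Fin m) ℝ} (hA : A.IsHermitian) :
    0 ≤ Φ A ∧ Φ A ≤ 1 := by
  rw [hΦ A hA]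
  refine ⟨(Real.exp_pos _).le, Real.exp_le_one_iff.mpr ?_⟩
  rw [neg_nonpos]
  exact Finset.sum_nonneg fun i _ => kf_nonneg h0 _

lemma sum_near_kf {h : ℝ → ℝ} {R L x : ℝ} {e : Fin n → ℝ} (hR : ∀ t, R < |t| → h t = 0)
    (hL : R + 1 ≤ L) (hx0 : 0 ≤ x) (hx1 : x ≤ 1) (hne : ∀ i, e i - x ≠ 0) :
    ∑ j : {i // i ∈ near L e}, kf h ((e j.1 - x)⁻¹) = ∑ i, h (e i - x) := by
  rw [sum_near L e (fun i => kf h ((e i - x)⁻¹))]
  refine Finset.sum_congr rfl fun i _ => ?_
  split_ifs with hi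
  · unfold kf
    rw [if_neg (inv_ne_zero (hne i)), inv_inv]
  · push Not at hi
    symm
    apply hR
    have h1 : |e i| ≤ |e i - x| + |x| := by
      have := abs_add_le (e i - x) x
      rwa [sub_add_cancel] at this
    rw [abs_of_nonneg hx0] at h1
    linarith

set_option maxHeartbeats 2000000 in
/-- estimate for a fixed good `x` -/
theorem fixed_x {h : ℝ → ℝ} (h0 : ∀ t, 0 ≤ h t) {R : ℝ} (hR : ∀ t, R < |t| → h t = 0)
    {H θ ε2 φ : ℝ} (hφ0 : 0 < φ) (hε2 : 0 ≤ ε2)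
    (hφ : ∀ {ι κ : Type} [Fintype ι] [DecidableEq ι] [Fintype κ] [DecidableEq κ]
      (G : Matrix κ ι ℝ) (d : κ → ℝ) (F : Matrix ι ι ℝ)
      (hA : (Gᵀ * (diagonal d * G) + F).IsHermitian), (∀ j, |d j| ≤ θ) → ∑ j, d j ^ 2 ≤ H →
      hs (G * Gᵀ - 1) ≤ φ → hs F ≤ φ →
      |∑ i, kf h (hA.eigenvalues i) - ∑ j, kf h (d j)| ≤ ε2)
    (hm : 0 < m) {Φ : Matrix (Fin m) (Fin m) ℝ → ℝ}
    (hΦm : Measurable fun A : Fin m → Fin m → ℝ => Φ (Matrix.of A)) (hΦ : IsLap h m Φ)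
    {e : Fin n → ℝ} {x L Y T a : ℝ} (hL2 : 2 ≤ L) (hLR : R + 1 ≤ L) (hx0 : 0 ≤ x) (hx1 : x ≤ 1)
    (hne : ∀ i, e i - x ≠ 0) (hθ : ∀ i, |(e i - x)⁻¹| ≤ θ)
    (hHs : ∑ j : {i // i ∈ near L e}, ((e j.1 - x)⁻¹) ^ 2 ≤ H)
    (hY : yK L e ≤ Y) (hT : |a - aK L e| ≤ T) :
    |(∫ g : Fin n → Fin m → ℝ, Φ (Am e x a g) ∂gm (Fin n) (Fin m)) -
        Real.exp (-∑ i, h (e i - x))| ≤
      ε2 + 2 * (V4 * (8 * Y / L) + (T + 4 * Y) ^ 2 / m) / φ + V4 * (2 * L * Y) ^ 2 / m / φ := by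
  have hm' : (0 : ℝ) < m := by exact_mod_cast hm
  set v := Real.exp (-∑ i, h (e i - x)) with hv
  have hS0 : 0 ≤ ∑ i, h (e i - x) := Finset.sum_nonneg fun i _ => h0 _
  have hv0 : 0 ≤ v := (Real.exp_pos _).le
  have hv1 : v ≤ 1 := Real.exp_le_one_iff.mpr (by linarith)
  obtain ⟨iF, bF⟩ := int_Fm (n := n) (m := m) hm (L := L) (x := x) (a := a) (e := e)
  obtain ⟨iG, bG⟩ := int_Gm (n := n) (m := m) hm L e
  -- pointwise bound
  have hpt : ∀ g : Fin n → Fin m → ℝ, |Φ (Am e x a g) - v| ≤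
      ε2 + hs (Fm L x a e g) / φ + hs (Gm L e g * (Gm L e g)ᵀ - 1) / φ := by
    intro g
    have b1 : 0 ≤ hs (Fm L x a e g) / φ := div_nonneg (hs_nonneg _) hφ0.le
    have b2 : 0 ≤ hs (Gm L e g * (Gm L e g)ᵀ - 1) / φ := div_nonneg (hs_nonneg _) hφ0.le
    obtain ⟨p0, p1⟩ := hΦ.mem h0 (isHermitian_Am e x a g)
    have htriv : |Φ (Am e x a g) - v| ≤ 1 := by rw [abs_le]; constructor <;> linarith
    by_cases hF : hs (Fm L x a e g) ≤ φ
    · by_cases hG : hs (Gm L e g * (Gm L e g)ᵀ - 1) ≤ φ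
      · have hA := isHermitian_Am e x a g
        rw [decomp hm L] at hA ⊢
        rw [hΦ _ hA]
        have key := hφ (Gm L e g) (fun j : {i // i ∈ near L e} => (e j.1 - x)⁻¹) (Fm L x a e g) hA
          (fun j => hθ j.1) hHs hG hF
        rw [sum_near_kf hR hLR hx0 hx1 hne] at key
        have hsk : 0 ≤ ∑ i, kf h (hA.eigenvalues i) :=
          Finset.sum_nonneg fun i _ => kf_nonneg h0 (hA.eigenvalues i)
        have h9 := abs_exp_neg_sub_le hsk hS0
        rw [← hv] at h9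
        linarith
      · push Not at hG
        have : 1 ≤ hs (Gm L e g * (Gm L e g)ᵀ - 1) / φ := by
          rw [le_div_iff₀ hφ0]; linarith
        linarith
    · push Not at hF
      have : 1 ≤ hs (Fm L x a e g) / φ := by
        rw [le_div_iff₀ hφ0]; linarith
      linarith
  have hmeas : Measurable fun g : Fin n → Fin m → ℝ => Φ (Am e x a g) :=
    hΦm.comp ((measurable_Am (n := n) (m := m) e a).comp (measurable_prodMk_left (x := x)))
  have hint : Integrable (fun g : Fin n → Fin m → ℝ => Φ (Am e x a g)) (gm (Fin n) (Fin m)) := by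
    refine Integrable.mono' (integrable_const (1 : ℝ)) hmeas.aestronglyMeasurable
      (Filter.Eventually.of_forall fun g => ?_)
    obtain ⟨p0, p1⟩ := hΦ.mem h0 (isHermitian_Am e x a g)
    rw [Real.norm_of_nonneg p0]; exact p1
  have hB : Integrable (fun g : Fin n → Fin m → ℝ =>
      ε2 + hs (Fm L x a e g) / φ + hs (Gm L e g * (Gm L e g)ᵀ - 1) / φ) (gm (Fin n) (Fin m)) :=
    ((integrable_const _).add (iF.div_const _)).add (iG.div_const _)
  have e1 : (∫ g : Fin n → Fin m → ℝ, Φ (Am e x a g) ∂gm (Fin n) (Fin m)) - v =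
      ∫ g : Fin n → Fin m → ℝ, (Φ (Am e x a g) - v) ∂gm (Fin n) (Fin m) := by
    rw [integral_sub hint (integrable_const _)]
    simp
  rw [e1, ← Real.norm_eq_abs]
  refine (norm_integral_le_of_norm_le hB (Filter.Eventually.of_forall fun g => hpt g)).trans ?_
  have e2 : ∫ g : Fin n → Fin m → ℝ, (ε2 + hs (Fm L x a e g) / φ +
      hs (Gm L e g * (Gm L e g)ᵀ - 1) / φ) ∂gm (Fin n) (Fin m) =
      ε2 + (∫ g : Fin n → Fin m → ℝ, hs (Fm L x a e g) ∂gm (Fin n) (Fin m)) / φ +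
        (∫ g : Fin n → Fin m → ℝ, hs (Gm L e g * (Gm L e g)ᵀ - 1) ∂gm (Fin n) (Fin m)) / φ := by
    have hI1 : Integrable (fun g : Fin n → Fin m → ℝ => ε2 + hs (Fm L x a e g) / φ)
        (gm (Fin n) (Fin m)) := (integrable_const _).add (iF.div_const _)
    rw [integral_add hI1 (iG.div_const _),
      integral_add (integrable_const _) (iF.div_const _), integral_div, integral_div]
    simp
  rw [e2]
  obtain ⟨f1, f2⟩ := far_bounds (Y := Y) hL2 hx0 hx1 hY
  have hL0 : 0 < L := by linarith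
  have hab : |∑ i, cfar L x e i - a| ≤ T + 4 * Y := by
    calc |∑ i, cfar L x e i - a| ≤ |∑ i, cfar L x e i - aK L e| + |aK L e - a| := abs_sub_le _ _ _
      _ ≤ _ := by rw [abs_sub_comm (aK L e) a]; linarith
  have hab2 : (∑ i, cfar L x e i - a) ^ 2 ≤ (T + 4 * Y) ^ 2 := by
    rw [← sq_abs]; gcongr
  have t1 : ∫ g : Fin n → Fin m → ℝ, hs (Fm L x a e g) ∂gm (Fin n) (Fin m) ≤
      2 * (V4 * (8 * Y / L) + (T + 4 * Y) ^ 2 / m) := by
    refine bF.trans ?_
    have := V4_pos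
    gcongr
  have t2 : ∫ g : Fin n → Fin m → ℝ, hs (Gm L e g * (Gm L e g)ᵀ - 1) ∂gm (Fin n) (Fin m) ≤
      V4 * (2 * L * Y) ^ 2 / m := by
    refine bG.trans ?_
    have := V4_pos
    have := card_near_le hL0 hY
    gcongr
  gcongr

/-- averaging over `x` -/
theorem x_int {e : Fin n → ℝ} {Ψ : ℝ → ℝ} (hΨm : Measurable Ψ) (h01 : ∀ x, 0 ≤ Ψ x ∧ Ψ x ≤ 1)
    {v δ τ ε' : ℝ} (hv0 : 0 ≤ v) (hv1 : v ≤ 1) (hδ : 0 < δ) (hδ1 : δ ≤ 1) (hτ : 0 < τ)
    (hτ1 : τ ≤ 1) (hε' : 0 ≤ ε')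
    (hgood : ∀ x, 0 ≤ x → x ≤ δ → (∀ i, τ ≤ |e i - x|) → |Ψ x - v| ≤ ε') :
    |v - δ⁻¹ * ∫ x in (0 : ℝ)..δ, Ψ x| ≤ ε' + 2 * τ * ((near 2 e).card : ℝ) / δ := by
  have hΨi : IntervalIntegrable Ψ volume 0 δ := by
    rw [intervalIntegrable_iff, Set.uIoc_of_le hδ.le]
    refine Integrable.mono' (integrable_const (1 : ℝ)) hΨm.aestronglyMeasurable
      (Filter.Eventually.of_forall fun x => ?_)
    rw [Real.norm_of_nonneg (h01 x).1]; exact (h01 x).2
  set ind : Fin n → ℝ → ℝ := fun i => Set.indicator (Set.Ioo (e i - τ) (e i + τ)) fun _ => (1 : ℝ)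
    with hind
  have hindi : ∀ i, IntervalIntegrable (ind i) volume 0 δ := by
    intro i
    rw [intervalIntegrable_iff, Set.uIoc_of_le hδ.le]
    exact (integrable_const (1 : ℝ)).indicator measurableSet_Ioo
  have hindb : ∀ i, ∫ x in (0 : ℝ)..δ, ind i x ≤ 2 * τ := by
    intro i
    rw [intervalIntegral.integral_of_le hδ.le, hind]
    simp only
    rw [integral_indicator measurableSet_Ioo, Measure.restrict_restrict measurableSet_Ioo,
      integral_const, smul_eq_mul, mul_one]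
    calc (volume.restrict (Set.Ioo (e i - τ) (e i + τ) ∩ Set.Ioc 0 δ)).real Set.univ
        = volume.real (Set.Ioo (e i - τ) (e i + τ) ∩ Set.Ioc 0 δ) := by
          rw [measureReal_restrict_apply_univ]
      _ ≤ volume.real (Set.Ioo (e i - τ) (e i + τ)) :=
          measureReal_mono Set.inter_subset_left (by simp)
      _ = 2 * τ := by
          rw [Measure.real, Real.volume_Ioo, ENNReal.toReal_ofReal (by linarith)]; ring
  have hpt : ∀ x ∈ Set.Ioc 0 δ, ‖v - Ψ x‖ ≤ ε' + ∑ i ∈ near 2 e, ind i x := by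
    intro x hx
    have hnn : ∀ i, 0 ≤ ind i x := fun i => Set.indicator_nonneg (fun _ _ => zero_le_one) x
    rw [Real.norm_eq_abs, abs_sub_comm]
    by_cases hg : ∀ i, τ ≤ |e i - x|
    · have := hgood x hx.1.le hx.2 hg
      have h2 : 0 ≤ ∑ i ∈ near 2 e, ind i x := Finset.sum_nonneg fun i _ => hnn i
      linarith
    · push Not at hg
      obtain ⟨i, hi⟩ := hg
      have hi2 : |e i| ≤ 2 := by
        have h1 : |e i| ≤ |e i - x| + |x| := by
          have := abs_add_le (e i - x) x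
          rwa [sub_add_cancel] at this
        rw [abs_of_nonneg hx.1.le] at h1
        linarith [hx.2]
      have h3 : ind i x = 1 := by
        rw [hind]
        apply Set.indicator_of_mem
        rw [abs_lt] at hi
        constructor <;> linarith [hi.1, hi.2]
      have h4 : 1 ≤ ∑ i ∈ near 2 e, ind i x := by
        rw [← h3]
        exact Finset.single_le_sum (fun j _ => hnn j) (Finset.mem_filter.mpr ⟨Finset.mem_univ _, hi2⟩)
      have h5 : |Ψ x - v| ≤ 1 := by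
        rw [abs_le]; constructor <;> linarith [(h01 x).1, (h01 x).2]
      linarith
  have e1 : v - δ⁻¹ * ∫ x in (0 : ℝ)..δ, Ψ x = δ⁻¹ * ∫ x in (0 : ℝ)..δ, (v - Ψ x) := by
    rw [intervalIntegral.integral_sub intervalIntegrable_const hΨi, intervalIntegral.integral_const,
      smul_eq_mul, sub_zero]
    field_simp
  have e2 : ‖∫ x in (0 : ℝ)..δ, (v - Ψ x)‖ ≤ ∫ x in (0 : ℝ)..δ, (ε' + ∑ i ∈ near 2 e, ind i x) := by
    refine intervalIntegral.norm_integral_le_of_norm_le hδ.le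
      (Filter.Eventually.of_forall fun x hx => hpt x hx) ?_
    refine intervalIntegrable_const.add ?_
    have := IntervalIntegrable.sum (near 2 e) (f := ind) (μ := volume) (a := 0) (b := δ)
      (fun i _ => hindi i)
    refine this.congr ?_
    intro x _
    simp
  have e3 : ∫ x in (0 : ℝ)..δ, (ε' + ∑ i ∈ near 2 e, ind i x) ≤
      δ * ε' + 2 * τ * ((near 2 e).card : ℝ) := by
    have hsumi : IntervalIntegrable (fun x => ∑ i ∈ near 2 e, ind i x) volume 0 δ := by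
      have := IntervalIntegrable.sum (near 2 e) (f := ind) (μ := volume) (a := 0) (b := δ)
        (fun i _ => hindi i)
      refine this.congr ?_
      intro x _
      simp
    rw [intervalIntegral.integral_add intervalIntegrable_const hsumi,
      intervalIntegral.integral_const, smul_eq_mul, sub_zero,
      intervalIntegral.integral_finsetSum fun i _ => hindi i]
    have : ∑ i ∈ near 2 e, ∫ x in (0 : ℝ)..δ, ind i x ≤ ∑ _i ∈ near 2 e, 2 * τ :=
      Finset.sum_le_sum fun i _ => hindb i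
    rw [Finset.sum_const, nsmul_eq_mul] at this
    linarith
  rw [e1, abs_mul, abs_of_pos (inv_pos.mpr hδ)]
  rw [Real.norm_eq_abs] at e2
  calc δ⁻¹ * |∫ x in (0 : ℝ)..δ, (v - Ψ x)| ≤ δ⁻¹ * (δ * ε' + 2 * τ * ((near 2 e).card : ℝ)) := by
        have := e2.trans e3
        gcongr
    _ = _ := by field_simp

set_option maxHeartbeats 2000000 in
/-- **Core of the reconstruction** for a fixed spectrum `e` (mean density `1`). -/
theorem core {h : ℝ → ℝ} (hc : Continuous h) (hs' : HasCompactSupport h) (h0 : ∀ t, 0 ≤ h t)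
    (Y L1 : ℝ) (hL1 : 0 < L1) {ε : ℝ} (hε : 0 < ε) :
    ∃ δ0 : ℝ, 0 < δ0 ∧ ∀ δ : ℝ, 0 < δ → δ ≤ δ0 → ∃ L0 : ℝ, 0 < L0 ∧ ∀ L : ℝ, L0 ≤ L → ∀ T : ℝ,
    ∃ m0 : ℕ, ∀ m : ℕ, m0 ≤ m → ∀ Φ : Matrix (Fin m) (Fin m) ℝ → ℝ,
      (Measurable fun A : Fin m → Fin m → ℝ => Φ (Matrix.of A)) → IsLap h m Φ →
      ∀ (n : ℕ) (e : Fin n → ℝ) (a : ℝ), yK L1 e ≤ Y → yK L e ≤ Y → |a - aK L e| ≤ T →
      |Real.exp (-∑ i, h (e i)) - δ⁻¹ * ∫ x in (0 : ℝ)..δ,
        ∫ g : Fin n → Fin m → ℝ, Φ (Am e x a g) ∂gm (Fin n) (Fin m)| ≤ ε := by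
  rcases lt_or_ge Y 0 with hYneg | hY0
  · refine ⟨1, one_pos, fun δ _ _ => ⟨1, one_pos, fun L _ T => ⟨0, fun m _ Φ _ _ n e a h1 _ _ => ?_⟩⟩⟩
    exact absurd (lt_of_le_of_lt h1 hYneg) (not_lt.mpr (yK_nonneg hL1.le e))
  obtain ⟨R, hR1, hR⟩ : ∃ R : ℝ, 1 ≤ R ∧ ∀ t, R < |t| → h t = 0 := by
    obtain ⟨R, hR⟩ := hs'.isCompact.isBounded.subset_closedBall 0
    refine ⟨max R 1, le_max_right _ _, fun t ht => ?_⟩
    by_contra hne
    have h1 : t ∈ tsupport h := subset_tsupport h hne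
    have h2 := hR h1
    rw [Metric.mem_closedBall, dist_zero_right, Real.norm_eq_abs] at h2
    exact absurd (lt_of_lt_of_le ht h2) (not_lt.mpr (le_max_left _ _))
  have hu : UniformContinuous h := hc.uniformContinuous_of_tendsto_cocompact hs'.is_zero_at_infty
  set Q1 : ℝ := Y * (((R + 1) ^ 2 + L1 ^ 2) / L1) with hQ1
  set Q2 : ℝ := Y * ((2 ^ 2 + L1 ^ 2) / L1) with hQ2
  have hQ1' : 0 ≤ Q1 := by positivity
  have hQ2' : 0 ≤ Q2 := by positivity
  obtain ⟨δ1, hδ1, hδ1'⟩ := Metric.uniformContinuous_iff.mp hu (ε / (4 * (Q1 + 1))) (by positivity)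
  refine ⟨min 1 (δ1 / 2), by positivity, fun δ hδ hδ0 => ?_⟩
  have hδle1 : δ ≤ 1 := hδ0.trans (min_le_left _ _)
  have hδlt : δ < δ1 := lt_of_le_of_lt (hδ0.trans (min_le_right _ _)) (by linarith)
  set τ : ℝ := min 1 (ε * δ / (8 * (Q2 + 1))) with hτ
  have hτ0 : 0 < τ := by
    refine lt_min one_pos ?_
    positivity
  have hτ1 : τ ≤ 1 := min_le_left _ _
  set H : ℝ := Y * ((2 + (2 + L1 ^ 2) / τ ^ 2) / L1) with hH
  have hH0 : 0 ≤ H := by positivity
  obtain ⟨φ, hφ0, hφ⟩ := det_core (θ := 1 / τ) hc hs' hH0 (show (0 : ℝ) < ε / 8 by positivity)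
  have hV := V4_pos
  refine ⟨max (max 2 (R + 1)) (128 * V4 * Y / (ε * φ)), by positivity, fun L hL T => ?_⟩
  have hL2 : 2 ≤ L := ((le_max_left _ _).trans (le_max_left _ _)).trans hL
  have hLR : R + 1 ≤ L := ((le_max_right _ _).trans (le_max_left _ _)).trans hL
  have hLφ : 128 * V4 * Y / (ε * φ) ≤ L := (le_max_right _ _).trans hL
  have hL0 : 0 < L := by linarith
  set W : ℝ := 2 * (T + 4 * Y) ^ 2 + V4 * (2 * L * Y) ^ 2 with hW
  have hW0 : 0 ≤ W := by positivity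
  obtain ⟨m0, hm0⟩ := exists_nat_gt (8 * W / (ε * φ))
  refine ⟨m0 + 1, fun m hm Φ hΦm hΦ n e a hY1 hYL hT => ?_⟩
  have hmpos : 0 < m := by omega
  have hm' : (0 : ℝ) < m := by exact_mod_cast hmpos
  have hmW : 8 * W / (ε * φ) ≤ m := by
    have : (m0 : ℝ) ≤ m := by exact_mod_cast (by omega : m0 ≤ m)
    linarith
  set v := Real.exp (-∑ i, h (e i)) with hv
  have hv0 : 0 ≤ v := (Real.exp_pos _).le
  have hv1 : v ≤ 1 := Real.exp_le_one_iff.mpr (by
    rw [neg_nonpos]; exact Finset.sum_nonneg fun i _ => h0 _)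
  have hmeas2 : Measurable fun p : ℝ × (Fin n → Fin m → ℝ) => Φ (Am e p.1 a p.2) :=
    hΦm.comp (measurable_Am (n := n) (m := m) e a)
  have hΨm : Measurable fun x : ℝ => ∫ g : Fin n → Fin m → ℝ, Φ (Am e x a g)
      ∂gm (Fin n) (Fin m) :=
    hmeas2.stronglyMeasurable.integral_prod_right.measurable
  have h01 : ∀ x : ℝ, 0 ≤ (∫ g : Fin n → Fin m → ℝ, Φ (Am e x a g) ∂gm (Fin n) (Fin m)) ∧
      (∫ g : Fin n → Fin m → ℝ, Φ (Am e x a g) ∂gm (Fin n) (Fin m)) ≤ 1 := by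
    intro x
    refine ⟨integral_nonneg fun g => (hΦ.mem h0 (isHermitian_Am e x a g)).1, ?_⟩
    have hmx : Measurable fun g : Fin n → Fin m → ℝ => Φ (Am e x a g) :=
      hmeas2.comp (measurable_prodMk_left (x := x))
    calc (∫ g : Fin n → Fin m → ℝ, Φ (Am e x a g) ∂gm (Fin n) (Fin m))
        ≤ ∫ _g : Fin n → Fin m → ℝ, (1 : ℝ) ∂gm (Fin n) (Fin m) := by
          refine integral_mono ?_ (integrable_const _) fun g =>
            (hΦ.mem h0 (isHermitian_Am e x a g)).2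
          refine Integrable.mono' (integrable_const (1 : ℝ)) hmx.aestronglyMeasurable
            (Filter.Eventually.of_forall fun g => ?_)
          obtain ⟨p0, p1⟩ := hΦ.mem h0 (isHermitian_Am e x a g)
          rw [Real.norm_of_nonneg p0]; exact p1
      _ = 1 := by simp
  -- shift of `x`
  have hshift : ∀ x, 0 ≤ x → x ≤ δ → |Real.exp (-∑ i, h (e i - x)) - v| ≤ ε / 4 := by
    intro x hx0 hxδ
    refine (abs_exp_neg_sub_le (Finset.sum_nonneg fun i _ => h0 _)
      (Finset.sum_nonneg fun i _ => h0 _)).trans ?_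
    rw [← Finset.sum_sub_distrib]
    calc |∑ i, (h (e i - x) - h (e i))| ≤ ∑ i, |h (e i - x) - h (e i)| :=
          Finset.abs_sum_le_sum_abs _ _
      _ ≤ ∑ i, if |e i| ≤ R + 1 then ε / (4 * (Q1 + 1)) else 0 := by
          refine Finset.sum_le_sum fun i _ => ?_
          split_ifs with hi
          · have h2 : dist (e i - x) (e i) < δ1 := by
              rw [Real.dist_eq, show e i - x - e i = -x by ring, abs_neg, abs_of_nonneg hx0]
              linarith
            have := hδ1' h2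
            rw [Real.dist_eq] at this
            exact this.le
          · push Not at hi
            have h3 : h (e i) = 0 := hR _ (by linarith)
            have h4 : h (e i - x) = 0 := by
              apply hR
              have h1 : |e i| ≤ |e i - x| + |x| := by
                have := abs_add_le (e i - x) x
                rwa [sub_add_cancel] at this
              rw [abs_of_nonneg hx0] at h1
              linarith
            rw [h3, h4, sub_self, abs_zero]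
      _ = ((near (R + 1) e).card : ℝ) * (ε / (4 * (Q1 + 1))) := by
          rw [← Finset.sum_filter, Finset.sum_const, nsmul_eq_mul]; rfl
      _ ≤ Q1 * (ε / (4 * (Q1 + 1))) := by
          have := card_le (r := R + 1) hL1 hY1
          gcongr
      _ ≤ (Q1 + 1) * (ε / (4 * (Q1 + 1))) := by gcongr; linarith
      _ = ε / 4 := by field_simp
  have key := x_int (e := e) (v := v) (δ := δ) (τ := τ) (ε' := 5 * ε / 8) hΨm h01 hv0 hv1 hδ hδle1
    hτ0 hτ1 (by positivity) (by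
      intro x hx0 hxδ hg
      have hx1 : x ≤ 1 := hxδ.trans hδle1
      have hne : ∀ i, e i - x ≠ 0 := fun i hi => by
        have := hg i
        rw [hi, abs_zero] at this
        linarith
      have hθ : ∀ i, |(e i - x)⁻¹| ≤ 1 / τ := by
        intro i
        rw [abs_inv, ← one_div]
        exact one_div_le_one_div_of_le hτ0 (hg i)
      have hHs := sum_inv_sq_le (L := L) hL1 hY1 hτ0 hx0 hx1 hg
      have fx := fixed_x h0 hR hφ0 (by positivity) hφ hmpos hΦm hΦ hL2 hLR hx0 hx1 hne hθ hHs hYL hT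
      have s1 : 2 * (V4 * (8 * Y / L) + (T + 4 * Y) ^ 2 / m) / φ + V4 * (2 * L * Y) ^ 2 / m / φ =
          16 * V4 * Y / (L * φ) + W / (m * φ) := by
        rw [hW]; field_simp; ring
      have s2 : 16 * V4 * Y / (L * φ) ≤ ε / 8 := by
        rw [div_le_div_iff₀ (by positivity) (by norm_num)]
        rw [div_le_iff₀ (by positivity)] at hLφ
        nlinarith
      have s3 : W / (m * φ) ≤ ε / 8 := by
        rw [div_le_div_iff₀ (by positivity) (by norm_num)]
        rw [div_le_iff₀ (by positivity)] at hmW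
        nlinarith
      have s4 := hshift x hx0 hxδ
      calc |(∫ g : Fin n → Fin m → ℝ, Φ (Am e x a g) ∂gm (Fin n) (Fin m)) - v|
          ≤ |(∫ g : Fin n → Fin m → ℝ, Φ (Am e x a g) ∂gm (Fin n) (Fin m)) -
              Real.exp (-∑ i, h (e i - x))| + |Real.exp (-∑ i, h (e i - x)) - v| :=
            abs_sub_le _ _ _
        _ ≤ 5 * ε / 8 := by linarith)
  refine key.trans ?_
  have hc2 := card_le (r := 2) (e := e) hL1 hY1
  have hτ2 : τ ≤ ε * δ / (8 * (Q2 + 1)) := min_le_right _ _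
  have : 2 * τ * ((near 2 e).card : ℝ) / δ ≤ ε / 4 := by
    rw [div_le_iff₀ hδ]
    calc 2 * τ * ((near 2 e).card : ℝ) ≤ 2 * (ε * δ / (8 * (Q2 + 1))) * (Q2 + 1) := by
          gcongr
          linarith
      _ = ε / 4 * δ := by field_simp; norm_num
  linarith

end Crest.Agent.R166.Rec255
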