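import Mathlib

/-!
Row 166, section 52 (reconstruction), deterministic part (helper8).

* `scalar_ineq`  : the scalar form of the trace comparison;
* `trace_ineq`   : `|∑ k(λ_i(A)) - ∑ k(d_j)| ≤ #{|d_j| ≥ c/2} ω + B (1/η² + 4/c²) ‖A - ∑ d_j v_j v_jᵀ‖²_HS`;
* `exists_orthonormal_near` : polar decomposition of an almost orthonormal family.
-/

set_option autoImplicit false

namespace Crest.Agent.R166.Rec8

open Finset

/-- pointwise comparison -/
theorem point_ineq {k : ℝ → ℝ} {B c η ω : ℝ} (hk0 : ∀ t, 0 ≤ k t) (hkB : ∀ t, k t ≤ B)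
    (hc : 0 < c) (hη : 0 < η) (hω : 0 ≤ ω) (hkc : ∀ t, |t| < c → k t = 0)
    (hmod : ∀ a b, |a - b| ≤ η → |k a - k b| ≤ ω) (a b : ℝ) :
    |k a - k b| ≤ (if c / 2 ≤ |b| then ω else 0) + B * (1 / η ^ 2 + 4 / c ^ 2) * (a - b) ^ 2 := by
  have hB : 0 ≤ B := (hk0 0).trans (hkB 0)
  have hdiff : |k a - k b| ≤ B := by
    rw [abs_le]; constructor
    · have := hkB b; have := hk0 a; linarith
    · have := hkB a; have := hk0 b; linarith
  have hsq : 0 ≤ (a - b) ^ 2 := sq_nonneg _
  have hP : 0 ≤ B * (1 / η ^ 2 + 4 / c ^ 2) * (a - b) ^ 2 := by positivity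
  by_cases h1 : |a - b| ≤ η
  · by_cases h2 : c / 2 ≤ |b|
    · rw [if_pos h2]
      have := hmod a b h1
      linarith
    · rw [if_neg h2, zero_add]
      push Not at h2
      have hb0 : k b = 0 := hkc b (by linarith)
      by_cases h3 : |a| < c
      · rw [hkc a h3, hb0]; simpa using hP
      · push Not at h3
        have h4 : c / 2 ≤ |a - b| := by
          have := abs_sub_abs_le_abs_sub a b
          linarith
        have h5 : (c / 2) ^ 2 ≤ (a - b) ^ 2 := by
          rw [← sq_abs (a - b)]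
          exact pow_le_pow_left₀ (by positivity) h4 2
        have h6 : B ≤ B * (4 / c ^ 2) * (a - b) ^ 2 := by
          have : 1 ≤ 4 / c ^ 2 * (a - b) ^ 2 := by
            have : 4 / c ^ 2 * (c / 2) ^ 2 = 1 := by field_simp; norm_num
            calc (1 : ℝ) = 4 / c ^ 2 * (c / 2) ^ 2 := this.symm
              _ ≤ 4 / c ^ 2 * (a - b) ^ 2 := by gcongr
          nlinarith
        have h7 : 0 ≤ B * (1 / η ^ 2) * (a - b) ^ 2 := by positivity
        calc |k a - k b| ≤ B := hdiff
          _ ≤ B * (4 / c ^ 2) * (a - b) ^ 2 := h6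
          _ ≤ B * (1 / η ^ 2 + 4 / c ^ 2) * (a - b) ^ 2 := by nlinarith
  · push Not at h1
    have h5 : η ^ 2 ≤ (a - b) ^ 2 := by
      rw [← sq_abs (a - b)]
      exact pow_le_pow_left₀ hη.le h1.le 2
    have h6 : B ≤ B * (1 / η ^ 2) * (a - b) ^ 2 := by
      have : 1 ≤ 1 / η ^ 2 * (a - b) ^ 2 := by
        have : 1 / η ^ 2 * η ^ 2 = 1 := by field_simp
        calc (1 : ℝ) = 1 / η ^ 2 * η ^ 2 := this.symm
          _ ≤ 1 / η ^ 2 * (a - b) ^ 2 := by gcongr
      nlinarith
    have h7 : 0 ≤ B * (4 / c ^ 2) * (a - b) ^ 2 := by positivity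
    have h8 : 0 ≤ (if c / 2 ≤ |b| then ω else 0) := by split_ifs <;> simp [hω]
    calc |k a - k b| ≤ B := hdiff
      _ ≤ B * (1 / η ^ 2) * (a - b) ^ 2 := h6
      _ ≤ (if c / 2 ≤ |b| then ω else 0) + B * (1 / η ^ 2 + 4 / c ^ 2) * (a - b) ^ 2 := by nlinarith

/-- scalar form of the trace comparison -/
theorem scalar_ineq {I J : Type*} [Fintype I] [Fintype J] {k : ℝ → ℝ} {B c η ω : ℝ}
    (hk0 : ∀ t, 0 ≤ k t) (hkB : ∀ t, k t ≤ B)
    (hc : 0 < c) (hη : 0 < η) (hω : 0 ≤ ω) (hkc : ∀ t, |t| < c → k t = 0)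
    (hmod : ∀ a b, |a - b| ≤ η → |k a - k b| ≤ ω)
    (lam : I → ℝ) (d : J → ℝ) (w : I → J → ℝ) (hw : ∀ i j, 0 ≤ w i j)
    (hw1 : ∀ j, ∑ i, w i j = 1) (hw2 : ∀ i, ∑ j, w i j ≤ 1) :
    |∑ i, k (lam i) - ∑ j, k (d j)| ≤
      ((univ.filter fun j => c / 2 ≤ |d j|).card : ℝ) * ω +
        B * (1 / η ^ 2 + 4 / c ^ 2) *
          ∑ i, (∑ j, w i j * (lam i - d j) ^ 2 + lam i ^ 2 * (1 - ∑ j, w i j)) := by
  have hB : 0 ≤ B := (hk0 0).trans (hkB 0)
  have e1 : ∑ i, k (lam i) - ∑ j, k (d j) =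
      ∑ i, ∑ j, w i j * (k (lam i) - k (d j)) + ∑ i, (1 - ∑ j, w i j) * k (lam i) := by
    have a1 : ∑ j, k (d j) = ∑ i, ∑ j, w i j * k (d j) := by
      rw [sum_comm]
      refine sum_congr rfl fun j _ => ?_
      rw [← sum_mul, hw1 j, one_mul]
    rw [a1]
    simp only [mul_sub, sum_sub_distrib, sub_mul, one_mul, sum_mul]
    ring
  rw [e1]
  have b1 : |∑ i, ∑ j, w i j * (k (lam i) - k (d j))| ≤
      ((univ.filter fun j => c / 2 ≤ |d j|).card : ℝ) * ω +
      B * (1 / η ^ 2 + 4 / c ^ 2) * ∑ i, ∑ j, w i j * (lam i - d j) ^ 2 := by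
    calc |∑ i, ∑ j, w i j * (k (lam i) - k (d j))|
        ≤ ∑ i, ∑ j, w i j * |k (lam i) - k (d j)| := by
          refine (abs_sum_le_sum_abs _ _).trans (sum_le_sum fun i _ => ?_)
          refine (abs_sum_le_sum_abs _ _).trans (sum_le_sum fun j _ => ?_)
          rw [abs_mul, abs_of_nonneg (hw i j)]
      _ ≤ ∑ i, ∑ j, w i j * ((if c / 2 ≤ |d j| then ω else 0) +
            B * (1 / η ^ 2 + 4 / c ^ 2) * (lam i - d j) ^ 2) := by
          refine sum_le_sum fun i _ => sum_le_sum fun j _ => ?_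
          exact mul_le_mul_of_nonneg_left
            (point_ineq hk0 hkB hc hη hω hkc hmod _ _) (hw i j)
      _ = ((univ.filter fun j => c / 2 ≤ |d j|).card : ℝ) * ω +
            B * (1 / η ^ 2 + 4 / c ^ 2) * ∑ i, ∑ j, w i j * (lam i - d j) ^ 2 := by
          simp only [mul_add, sum_add_distrib]
          congr 1
          · rw [sum_comm]
            have : ∀ j, ∑ i, w i j * (if c / 2 ≤ |d j| then ω else 0) =
                (if c / 2 ≤ |d j| then ω else 0) := by
              intro j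
              rw [← sum_mul, hw1 j, one_mul]
            simp only [this]
            rw [← sum_filter, sum_const, nsmul_eq_mul]
          · rw [mul_sum]
            refine sum_congr rfl fun i _ => ?_
            rw [mul_sum]
            refine sum_congr rfl fun j _ => ?_
            ring
  have b2 : |∑ i, (1 - ∑ j, w i j) * k (lam i)| ≤
      B * (1 / η ^ 2 + 4 / c ^ 2) * ∑ i, lam i ^ 2 * (1 - ∑ j, w i j) := by
    calc |∑ i, (1 - ∑ j, w i j) * k (lam i)| ≤ ∑ i, (1 - ∑ j, w i j) * k (lam i) := by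
          rw [abs_of_nonneg]
          exact sum_nonneg fun i _ => mul_nonneg (by linarith [hw2 i]) (hk0 _)
      _ ≤ ∑ i, B * (1 / η ^ 2 + 4 / c ^ 2) * (lam i ^ 2 * (1 - ∑ j, w i j)) := by
          refine sum_le_sum fun i _ => ?_
          have hnn : 0 ≤ 1 - ∑ j, w i j := by linarith [hw2 i]
          by_cases h : |lam i| < c
          · rw [hkc _ h, mul_zero]; positivity
          · push Not at h
            have h2 : c ^ 2 ≤ lam i ^ 2 := by
              rw [← sq_abs (lam i)]
              exact pow_le_pow_left₀ hc.le h 2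
            have h3 : 1 ≤ 4 / c ^ 2 * lam i ^ 2 := by
              have : 1 / c ^ 2 * c ^ 2 = 1 := by field_simp
              calc (1 : ℝ) = 1 / c ^ 2 * c ^ 2 := this.symm
                _ ≤ 4 / c ^ 2 * lam i ^ 2 := by gcongr; norm_num
            have h4 : k (lam i) ≤ B * (1 / η ^ 2 + 4 / c ^ 2) * lam i ^ 2 := by
              have h5 : 0 ≤ B * (1 / η ^ 2) * lam i ^ 2 := by positivity
              calc k (lam i) ≤ B := hkB _
                _ ≤ B * (4 / c ^ 2 * lam i ^ 2) := le_mul_of_one_le_right hB h3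
                _ ≤ B * (1 / η ^ 2 + 4 / c ^ 2) * lam i ^ 2 := by nlinarith
            calc (1 - ∑ j, w i j) * k (lam i) ≤
                (1 - ∑ j, w i j) * (B * (1 / η ^ 2 + 4 / c ^ 2) * lam i ^ 2) :=
                  mul_le_mul_of_nonneg_left h4 hnn
              _ = B * (1 / η ^ 2 + 4 / c ^ 2) * (lam i ^ 2 * (1 - ∑ j, w i j)) := by ring
      _ = B * (1 / η ^ 2 + 4 / c ^ 2) * ∑ i, lam i ^ 2 * (1 - ∑ j, w i j) := by rw [mul_sum]
  calc |∑ i, ∑ j, w i j * (k (lam i) - k (d j)) + ∑ i, (1 - ∑ j, w i j) * k (lam i)|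
      ≤ _ := abs_add_le _ _
    _ ≤ (((univ.filter fun j => c / 2 ≤ |d j|).card : ℝ) * ω +
      B * (1 / η ^ 2 + 4 / c ^ 2) * ∑ i, ∑ j, w i j * (lam i - d j) ^ 2) +
      B * (1 / η ^ 2 + 4 / c ^ 2) * ∑ i, lam i ^ 2 * (1 - ∑ j, w i j) := add_le_add b1 b2
    _ = _ := by
      rw [sum_add_distrib]; ring


section Mat

variable {ι : Type*} [Fintype ι]

/-- Hilbert-Schmidt norm in an arbitrary orthonormal basis -/
theorem hs_basis (X : Matrix ι ι ℝ) (u : OrthonormalBasis ι ℝ (EuclideanSpace ℝ ι)) :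
    ∑ i, ∑ p, (∑ q, X p q * u i q) ^ 2 = ∑ p, ∑ q, X p q ^ 2 := by
  rw [sum_comm]
  refine sum_congr rfl fun p _ => ?_
  have h := u.sum_sq_norm_inner_right (WithLp.toLp 2 (X p) : EuclideanSpace ℝ ι)
  rw [EuclideanSpace.real_norm_sq_eq] at h
  rw [← h]
  refine sum_congr rfl fun i _ => ?_
  rw [Real.norm_eq_abs, sq_abs]
  congr 1

/-- norm of `lam u - ∑ d_j <v_j,u> v_j` -/
theorem resid_norm {J : Type*} [Fintype J] (v : J → EuclideanSpace ℝ ι) (hv : Orthonormal ℝ v)
    (u : EuclideanSpace ℝ ι) (hu : ‖u‖ = 1) (lam : ℝ) (d : J → ℝ) :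
    ‖lam • u - ∑ j, (d j * inner ℝ (v j) u) • v j‖ ^ 2 =
      ∑ j, (inner ℝ (v j) u) ^ 2 * (lam - d j) ^ 2 +
        lam ^ 2 * (1 - ∑ j, (inner ℝ (v j) u) ^ 2) := by
  classical
  have h1 : inner ℝ u (∑ j, (d j * inner ℝ (v j) u) • v j) =
      ∑ j, d j * (inner ℝ (v j) u) ^ 2 := by
    rw [inner_sum]
    refine sum_congr rfl fun j _ => ?_
    rw [inner_smul_right, real_inner_comm]; ring
  have h2 : ‖∑ j, (d j * inner ℝ (v j) u) • v j‖ ^ 2 =
      ∑ j, d j ^ 2 * (inner ℝ (v j) u) ^ 2 := by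
    rw [← real_inner_self_eq_norm_sq, hv.inner_sum]
    refine sum_congr rfl fun j _ => ?_
    simp only [conj_trivial]; ring
  rw [norm_sub_sq_real, inner_smul_left, h1, h2, norm_smul, hu]
  simp only [conj_trivial, mul_one, Real.norm_eq_abs, sq_abs]
  have e : ∑ j, (inner ℝ (v j) u) ^ 2 * (lam - d j) ^ 2 =
      lam ^ 2 * ∑ j, (inner ℝ (v j) u) ^ 2 - 2 * (lam * ∑ j, d j * (inner ℝ (v j) u) ^ 2) +
        ∑ j, d j ^ 2 * (inner ℝ (v j) u) ^ 2 := by
    rw [mul_sum, mul_sum, mul_sum, ← sum_sub_distrib, ← sum_add_distrib]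
    refine sum_congr rfl fun j _ => ?_
    ring
  rw [e]; ring

/-- the trace comparison -/
theorem trace_ineq [DecidableEq ι] {J : Type*} [Fintype J] {k : ℝ → ℝ} {B c η ω : ℝ}
    (hk0 : ∀ t, 0 ≤ k t) (hkB : ∀ t, k t ≤ B)
    (hc : 0 < c) (hη : 0 < η) (hω : 0 ≤ ω) (hkc : ∀ t, |t| < c → k t = 0)
    (hmod : ∀ a b, |a - b| ≤ η → |k a - k b| ≤ ω)
    (A : Matrix ι ι ℝ) (hA : A.IsHermitian)
    (v : J → EuclideanSpace ℝ ι) (hv : Orthonormal ℝ v) (d : J → ℝ) :
    |∑ i, k (hA.eigenvalues i) - ∑ j, k (d j)| ≤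
      ((univ.filter fun j => c / 2 ≤ |d j|).card : ℝ) * ω +
        B * (1 / η ^ 2 + 4 / c ^ 2) *
          ∑ p, ∑ q, (A p q - ∑ j, d j * v j p * v j q) ^ 2 := by
  classical
  set u := hA.eigenvectorBasis with hu
  have hun : ∀ i, ‖u i‖ = 1 := fun i => u.orthonormal.norm_eq_one i
  have key := scalar_ineq hk0 hkB hc hη hω hkc hmod hA.eigenvalues d
    (fun i j => (inner ℝ (v j) (u i)) ^ 2) (fun i j => sq_nonneg _)
    (fun j => by
      have h := u.sum_sq_norm_inner_left (v j)
      rw [hv.norm_eq_one j, one_pow] at h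
      rw [← h]
      refine sum_congr rfl fun i _ => ?_
      rw [Real.norm_eq_abs, sq_abs])
    (fun i => by
      have h := hv.sum_inner_products_le (u i) (s := univ)
      rw [hun i, one_pow] at h
      refine le_trans (le_of_eq ?_) h
      refine sum_congr rfl fun j _ => ?_
      rw [Real.norm_eq_abs, sq_abs])
  refine key.trans (le_of_eq ?_)
  congr 2
  set X : Matrix ι ι ℝ := fun p q => A p q - ∑ j, d j * v j p * v j q with hX
  have hXb := hs_basis X u
  rw [← hXb]
  refine sum_congr rfl fun i _ => ?_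
  rw [← resid_norm v hv (u i) (hun i) (hA.eigenvalues i) d, EuclideanSpace.real_norm_sq_eq]
  refine sum_congr rfl fun p _ => ?_
  congr 1
  have e1 : ∑ q, A p q * u i q = hA.eigenvalues i * u i p := by
    have := congrFun (hA.mulVec_eigenvectorBasis i) p
    simpa [Matrix.mulVec, dotProduct] using this
  have e2 : ∑ q, (∑ j, d j * v j p * v j q) * u i q =
      ∑ j, (d j * inner ℝ (v j) (u i)) * v j p := by
    simp only [sum_mul]
    rw [sum_comm]
    refine sum_congr rfl fun j _ => ?_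
    rw [PiLp.inner_apply, mul_sum, sum_mul]
    refine sum_congr rfl fun q _ => ?_
    simp only [RCLike.inner_apply, conj_trivial]
    ring
  have e3 : ∑ q, X p q * u i q = hA.eigenvalues i * u i p -
      ∑ j, (d j * inner ℝ (v j) (u i)) * v j p := by
    rw [← e1, ← e2, ← sum_sub_distrib]
    refine sum_congr rfl fun q _ => ?_
    simp only [hX]; ring
  rw [e3]
  simp only [PiLp.sub_apply, PiLp.smul_apply, smul_eq_mul, WithLp.ofLp_sum, Finset.sum_apply,
    WithLp.ofLp_smul, Pi.smul_apply]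

/-- scalar form of the refined trace comparison: the part of the weight outside the near vectors
is controlled by a separate estimate. -/
theorem scalar_ineq2 {I J : Type*} [Fintype I] [Fintype J] {k : ℝ → ℝ} {B c η ω Q : ℝ}
    (hk0 : ∀ t, 0 ≤ k t) (hkB : ∀ t, k t ≤ B)
    (hη : 0 < η) (hω : 0 ≤ ω) (hkc : ∀ t, |t| < c → k t = 0)
    (hmod : ∀ a b, |a - b| ≤ η → |k a - k b| ≤ ω)
    (lam : I → ℝ) (d : J → ℝ) (w : I → J → ℝ) (hw : ∀ i j, 0 ≤ w i j)
    (hw1 : ∀ j, ∑ i, w i j = 1) (hw2 : ∀ i, ∑ j, w i j ≤ 1)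
    (hQ : ∑ i, (if c ≤ |lam i| then (1 - ∑ j, w i j) else 0) ≤ Q) :
    |∑ i, k (lam i) - ∑ j, k (d j)| ≤
      (Fintype.card J : ℝ) * ω + B * (1 / η ^ 2) * ∑ i, ∑ j, w i j * (lam i - d j) ^ 2 + B * Q := by
  have hB : 0 ≤ B := (hk0 0).trans (hkB 0)
  have e1 : ∑ i, k (lam i) - ∑ j, k (d j) =
      ∑ i, ∑ j, w i j * (k (lam i) - k (d j)) + ∑ i, (1 - ∑ j, w i j) * k (lam i) := by
    have a1 : ∑ j, k (d j) = ∑ i, ∑ j, w i j * k (d j) := by
      rw [sum_comm]
      refine sum_congr rfl fun j _ => ?_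
      rw [← sum_mul, hw1 j, one_mul]
    rw [a1]
    simp only [mul_sub, sum_sub_distrib, sub_mul, one_mul, sum_mul]
    ring
  rw [e1]
  have pt : ∀ a b, |k a - k b| ≤ ω + B * (1 / η ^ 2) * (a - b) ^ 2 := by
    intro a b
    have hdiff : |k a - k b| ≤ B := by
      rw [abs_le]; constructor
      · have := hkB b; have := hk0 a; linarith
      · have := hkB a; have := hk0 b; linarith
    by_cases h1 : |a - b| ≤ η
    · have := hmod a b h1
      have : 0 ≤ B * (1 / η ^ 2) * (a - b) ^ 2 := by positivity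
      linarith
    · push Not at h1
      have h5 : η ^ 2 ≤ (a - b) ^ 2 := by
        rw [← sq_abs (a - b)]
        exact pow_le_pow_left₀ hη.le h1.le 2
      have h6 : B ≤ B * (1 / η ^ 2) * (a - b) ^ 2 := by
        have : 1 ≤ 1 / η ^ 2 * (a - b) ^ 2 := by
          have : 1 / η ^ 2 * η ^ 2 = 1 := by field_simp
          calc (1 : ℝ) = 1 / η ^ 2 * η ^ 2 := this.symm
            _ ≤ 1 / η ^ 2 * (a - b) ^ 2 := by gcongr
        nlinarith
      linarith
  have b1 : |∑ i, ∑ j, w i j * (k (lam i) - k (d j))| ≤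
      (Fintype.card J : ℝ) * ω + B * (1 / η ^ 2) * ∑ i, ∑ j, w i j * (lam i - d j) ^ 2 := by
    calc |∑ i, ∑ j, w i j * (k (lam i) - k (d j))|
        ≤ ∑ i, ∑ j, w i j * |k (lam i) - k (d j)| := by
          refine (abs_sum_le_sum_abs _ _).trans (sum_le_sum fun i _ => ?_)
          refine (abs_sum_le_sum_abs _ _).trans (sum_le_sum fun j _ => ?_)
          rw [abs_mul, abs_of_nonneg (hw i j)]
      _ ≤ ∑ i, ∑ j, w i j * (ω + B * (1 / η ^ 2) * (lam i - d j) ^ 2) := by
          refine sum_le_sum fun i _ => sum_le_sum fun j _ => ?_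
          exact mul_le_mul_of_nonneg_left (pt _ _) (hw i j)
      _ = (Fintype.card J : ℝ) * ω +
            B * (1 / η ^ 2) * ∑ i, ∑ j, w i j * (lam i - d j) ^ 2 := by
          simp only [mul_add, sum_add_distrib]
          congr 1
          · rw [sum_comm]
            have : ∀ j, ∑ i, w i j * ω = ω := by
              intro j
              rw [← sum_mul, hw1 j, one_mul]
            simp only [this]
            rw [sum_const, nsmul_eq_mul, card_univ]
          · rw [mul_sum]
            refine sum_congr rfl fun i _ => ?_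
            rw [mul_sum]
            refine sum_congr rfl fun j _ => ?_
            ring
  have b2 : |∑ i, (1 - ∑ j, w i j) * k (lam i)| ≤ B * Q := by
    calc |∑ i, (1 - ∑ j, w i j) * k (lam i)| ≤ ∑ i, (1 - ∑ j, w i j) * k (lam i) := by
          rw [abs_of_nonneg]
          exact sum_nonneg fun i _ => mul_nonneg (by linarith [hw2 i]) (hk0 _)
      _ ≤ ∑ i, B * (if c ≤ |lam i| then (1 - ∑ j, w i j) else 0) := by
          refine sum_le_sum fun i _ => ?_
          have hnn : 0 ≤ 1 - ∑ j, w i j := by linarith [hw2 i]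
          by_cases h : |lam i| < c
          · rw [hkc _ h, mul_zero, if_neg (not_le.mpr h), mul_zero]
          · rw [if_pos (not_lt.mp h), mul_comm]
            exact mul_le_mul_of_nonneg_right (hkB _) hnn
      _ = B * ∑ i, (if c ≤ |lam i| then (1 - ∑ j, w i j) else 0) := by rw [mul_sum]
      _ ≤ B * Q := mul_le_mul_of_nonneg_left hQ hB
  calc |∑ i, ∑ j, w i j * (k (lam i) - k (d j)) + ∑ i, (1 - ∑ j, w i j) * k (lam i)|
      ≤ _ := abs_add_le _ _
    _ ≤ _ := add_le_add b1 b2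

/-- the refined trace comparison: only the action of `X = A - ∑ d_j v_j v_jᵀ` on the near vectors
matters, as soon as `‖X‖_HS ≤ c/2`. -/
theorem trace_ineq2 [DecidableEq ι] {J : Type*} [Fintype J] {k : ℝ → ℝ} {B c η ω : ℝ}
    (hk0 : ∀ t, 0 ≤ k t) (hkB : ∀ t, k t ≤ B)
    (hc : 0 < c) (hη : 0 < η) (hω : 0 ≤ ω) (hkc : ∀ t, |t| < c → k t = 0)
    (hmod : ∀ a b, |a - b| ≤ η → |k a - k b| ≤ ω)
    (A : Matrix ι ι ℝ) (hA : A.IsHermitian)
    (v : J → EuclideanSpace ℝ ι) (hv : Orthonormal ℝ v) (d : J → ℝ)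
    (hX : ∑ p, ∑ q, (A p q - ∑ j, d j * v j p * v j q) ^ 2 ≤ c ^ 2 / 4) :
    |∑ i, k (hA.eigenvalues i) - ∑ j, k (d j)| ≤
      (Fintype.card J : ℝ) * ω + B * (1 / η ^ 2 + 4 / c ^ 2) *
        ∑ j, ∑ p, (∑ q, (A p q - ∑ j', d j' * v j' p * v j' q) * v j q) ^ 2 := by
  classical
  set u := hA.eigenvectorBasis with hu
  have hun : ∀ i, ‖u i‖ = 1 := fun i => u.orthonormal.norm_eq_one i
  set X : Matrix ι ι ℝ := fun p q => A p q - ∑ j, d j * v j p * v j q with hXdef
  -- `X v_j`
  set Y : J → EuclideanSpace ℝ ι := fun j => WithLp.toLp 2 (fun p => ∑ q, X p q * v j q) with hY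
  have hYp : ∀ j p, Y j p = ∑ q, X p q * v j q := fun j p => rfl
  have hAs : ∀ p q, A p q = A q p := by
    intro p q
    have := congrFun (congrFun hA q) p
    simpa [Matrix.conjTranspose_apply] using this
  have hAu : ∀ i p, ∑ q, A p q * u i q = hA.eigenvalues i * u i p := by
    intro i p
    have := congrFun (hA.mulVec_eigenvectorBasis i) p
    simpa [Matrix.mulVec, dotProduct] using this
  have inn : ∀ x y : EuclideanSpace ℝ ι, inner ℝ x y = ∑ p, x p * y p := by
    intro x y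
    rw [PiLp.inner_apply]
    refine sum_congr rfl fun p _ => ?_
    simp only [RCLike.inner_apply, conj_trivial]; ring
  have hvo : ∀ j l, inner ℝ (v j) (v l) = if j = l then (1:ℝ) else 0 :=
    fun j l => orthonormal_iff_ite.mp hv j l
  -- `X` is symmetric
  have hXs : ∀ p q, X p q = X q p := by
    intro p q
    simp only [hXdef]
    rw [hAs p q]
    congr 1
    exact sum_congr rfl fun j _ => by ring
  -- `X v_j = A v_j - d_j v_j`
  have hXv : ∀ j p, Y j p = ∑ q, A p q * v j q - d j * v j p := by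
    intro j p
    rw [hYp]
    simp only [hXdef, sub_mul, sum_sub_distrib]
    congr 1
    simp only [sum_mul]
    rw [sum_comm]
    have h1 : ∀ l, ∑ q, d l * v l p * v l q * v j q = d l * v l p * inner ℝ (v l) (v j) := by
      intro l
      rw [inn, mul_sum]
      exact sum_congr rfl fun q _ => by ring
    simp only [h1, hvo, mul_ite, mul_one, mul_zero, sum_ite_eq', mem_univ, if_true]
  -- `<u_i, X v_j> = (λ_i - d_j) <v_j,u_i>`
  have hUY : ∀ i j, inner ℝ (u i) (Y j) = (hA.eigenvalues i - d j) * inner ℝ (v j) (u i) := by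
    intro i j
    rw [inn, inn]
    simp only [hXv, mul_sub, sum_sub_distrib, sub_mul]
    congr 1
    · have h1 : ∑ p, u i p * ∑ q, A p q * v j q = ∑ q, v j q * ∑ p, A q p * u i p := by
        simp only [mul_sum]
        rw [sum_comm]
        refine sum_congr rfl fun q _ => sum_congr rfl fun p _ => ?_
        rw [hAs q p]; ring
      rw [h1]
      simp only [hAu, mul_sum]
      exact sum_congr rfl fun q _ => by ring
    · rw [mul_sum]
      exact sum_congr rfl fun q _ => by ring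
  have hYn : ∀ j, ‖Y j‖ ^ 2 = ∑ p, (∑ q, X p q * v j q) ^ 2 := by
    intro j
    rw [EuclideanSpace.real_norm_sq_eq]
  -- first sum
  have hS1 : ∑ i, ∑ j, (inner ℝ (v j) (u i)) ^ 2 * (hA.eigenvalues i - d j) ^ 2 =
      ∑ j, ∑ p, (∑ q, X p q * v j q) ^ 2 := by
    rw [sum_comm]
    refine sum_congr rfl fun j _ => ?_
    rw [← hYn j, ← u.sum_sq_norm_inner_right (Y j)]
    refine sum_congr rfl fun i _ => ?_
    rw [Real.norm_eq_abs, sq_abs, hUY]; ring
  -- the residual vectors
  set r : ι → EuclideanSpace ℝ ι := fun i => u i - ∑ j, (inner ℝ (v j) (u i)) • v j with hr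
  have hrn : ∀ i, ‖r i‖ ^ 2 = 1 - ∑ j, (inner ℝ (v j) (u i)) ^ 2 := by
    intro i
    have h := resid_norm v hv (u i) (hun i) 1 (fun _ => 1)
    simp only [one_smul, one_mul, sub_self, one_pow] at h
    rw [hr]; simp only
    rw [h]; ring_nf
    simp
  have hrv : ∀ i j, inner ℝ (v j) (r i) = 0 := by
    intro i j
    simp only [hr, inner_sub_right, inner_sum, inner_smul_right, hvo, mul_ite, mul_one,
      mul_zero, sum_ite_eq, mem_univ, if_true, sub_self]
  set y : ι → EuclideanSpace ℝ ι := fun i => ∑ j, (inner ℝ (v j) (u i)) • Y j with hy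
  have hyn : ∑ i, ‖y i‖ ^ 2 = ∑ j, ∑ p, (∑ q, X p q * v j q) ^ 2 := by
    have h1 : ∀ i, ‖y i‖ ^ 2 = ∑ p, (∑ j, inner ℝ (v j) (u i) * Y j p) ^ 2 := by
      intro i
      rw [EuclideanSpace.real_norm_sq_eq]
      refine sum_congr rfl fun p _ => ?_
      simp only [hy, WithLp.ofLp_sum, Finset.sum_apply, WithLp.ofLp_smul, Pi.smul_apply,
        smul_eq_mul]
    simp only [h1]
    rw [sum_comm]
    conv_rhs => rw [sum_comm]
    refine sum_congr rfl fun p _ => ?_
    have h2 : ∀ i, ∑ j, inner ℝ (v j) (u i) * Y j p = inner ℝ (u i) (∑ j, Y j p • v j) := by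
      intro i
      rw [inner_sum]
      refine sum_congr rfl fun j _ => ?_
      rw [inner_smul_right, real_inner_comm]; ring
    have h3 : ∑ i, (∑ j, inner ℝ (v j) (u i) * Y j p) ^ 2 = ‖∑ j, Y j p • v j‖ ^ 2 := by
      rw [← u.sum_sq_norm_inner_right]
      refine sum_congr rfl fun i _ => ?_
      rw [h2 i, Real.norm_eq_abs, sq_abs]
    rw [h3, ← real_inner_self_eq_norm_sq, hv.inner_sum]
    refine sum_congr rfl fun j _ => ?_
    simp only [conj_trivial, hYp]; ring
  -- the operator norm of `X`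
  have hop : ∀ x : EuclideanSpace ℝ ι, |∑ p, x p * ∑ q, X p q * x q| ≤ c / 2 * ‖x‖ ^ 2 := by
    intro x
    have h1 : (∑ p, x p * ∑ q, X p q * x q) ^ 2 ≤ (c / 2 * ‖x‖ ^ 2) ^ 2 := by
      calc (∑ p, x p * ∑ q, X p q * x q) ^ 2
          ≤ (∑ p, x p ^ 2) * ∑ p, (∑ q, X p q * x q) ^ 2 := sum_mul_sq_le_sq_mul_sq _ _ _
        _ ≤ (∑ p, x p ^ 2) * ∑ p, ((∑ q, X p q ^ 2) * ∑ q, x q ^ 2) := by
            refine mul_le_mul_of_nonneg_left ?_ (sum_nonneg fun p _ => sq_nonneg _)
            exact sum_le_sum fun p _ => sum_mul_sq_le_sq_mul_sq _ _ _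
        _ = ‖x‖ ^ 2 * ((∑ p, ∑ q, X p q ^ 2) * ‖x‖ ^ 2) := by
            rw [EuclideanSpace.real_norm_sq_eq, ← sum_mul]
        _ ≤ ‖x‖ ^ 2 * (c ^ 2 / 4 * ‖x‖ ^ 2) := by gcongr
        _ = (c / 2 * ‖x‖ ^ 2) ^ 2 := by ring
    exact abs_le_of_sq_le_sq h1 (by positivity)
  have hXu : ∀ i, hA.eigenvalues i * ‖r i‖ ^ 2 =
      ∑ p, r i p * ∑ q, X p q * r i q + inner ℝ (r i) (y i) := by
    intro i
    -- `<r_i, X u_i>` computed in two ways
    have hup : ∀ q, u i q = r i q + ∑ j, inner ℝ (v j) (u i) * v j q := by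
      intro q
      simp only [hr, PiLp.sub_apply, WithLp.ofLp_sum, Finset.sum_apply, WithLp.ofLp_smul,
        Pi.smul_apply, smul_eq_mul]
      ring
    have e1 : ∑ p, r i p * ∑ q, X p q * u i q =
        ∑ p, r i p * ∑ q, X p q * r i q + inner ℝ (r i) (y i) := by
      rw [inn, ← sum_add_distrib]
      refine sum_congr rfl fun p _ => ?_
      rw [← mul_add]
      congr 1
      have h1 : y i p = ∑ j, inner ℝ (v j) (u i) * ∑ q, X p q * v j q := by
        simp only [hy, WithLp.ofLp_sum, Finset.sum_apply, WithLp.ofLp_smul, Pi.smul_apply,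
          smul_eq_mul, hYp]
      rw [h1]
      have h2 : ∀ q, X p q * u i q = X p q * r i q +
          ∑ j, inner ℝ (v j) (u i) * (X p q * v j q) := by
        intro q
        rw [hup q, mul_add, mul_sum]
        congr 1
        exact sum_congr rfl fun j _ => by ring
      simp only [h2, sum_add_distrib]
      congr 1
      rw [sum_comm]
      refine sum_congr rfl fun j _ => ?_
      rw [mul_sum]
    have e2 : ∑ p, r i p * ∑ q, X p q * u i q = hA.eigenvalues i * ‖r i‖ ^ 2 := by
      have h1 : ∀ p, ∑ q, X p q * u i q = hA.eigenvalues i * u i p -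
          ∑ j, d j * inner ℝ (v j) (u i) * v j p := by
        intro p
        simp only [hXdef, sub_mul, sum_sub_distrib]
        rw [hAu]
        congr 1
        simp only [sum_mul]
        rw [sum_comm]
        refine sum_congr rfl fun j _ => ?_
        rw [inn, mul_sum, sum_mul]
        exact sum_congr rfl fun q _ => by ring
      simp only [h1, mul_sub, sum_sub_distrib]
      have h2 : ∑ p, r i p * ∑ j, d j * inner ℝ (v j) (u i) * v j p = 0 := by
        simp only [mul_sum]
        rw [sum_comm]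
        refine sum_eq_zero fun j _ => ?_
        have h3 := hrv i j
        rw [inn] at h3
        have h4 : ∑ p, r i p * (d j * inner ℝ (v j) (u i) * v j p) =
            d j * inner ℝ (v j) (u i) * ∑ p, v j p * r i p := by
          rw [mul_sum]
          exact sum_congr rfl fun p _ => by ring
        rw [h4, h3, mul_zero]
      rw [h2, sub_zero]
      have h5 : ∑ p, r i p * (hA.eigenvalues i * u i p) =
          hA.eigenvalues i * inner ℝ (r i) (u i) := by
        rw [inn, mul_sum]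
        exact sum_congr rfl fun p _ => by ring
      rw [h5]
      congr 1
      have h6 : u i = r i + ∑ j, (inner ℝ (v j) (u i)) • v j := by
        simp only [hr]; abel
      conv_lhs => rw [h6]
      rw [inner_add_right, real_inner_self_eq_norm_sq, inner_sum]
      have h7 : ∑ j, inner ℝ (r i) ((inner ℝ (v j) (u i)) • v j) = 0 := by
        refine sum_eq_zero fun j _ => ?_
        have h8 := hrv i j
        rw [real_inner_comm] at h8
        rw [inner_smul_right, h8, mul_zero]
      rw [h7, add_zero]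
    rw [← e2, e1]
  have hQ : ∑ i, (if c ≤ |hA.eigenvalues i| then (1 - ∑ j, (inner ℝ (v j) (u i)) ^ 2) else 0) ≤
      4 / c ^ 2 * ∑ j, ∑ p, (∑ q, X p q * v j q) ^ 2 := by
    rw [← hyn, mul_sum]
    refine sum_le_sum fun i _ => ?_
    split_ifs with hi
    · rw [← hrn i]
      have h1 : |hA.eigenvalues i| * ‖r i‖ ^ 2 ≤ c / 2 * ‖r i‖ ^ 2 + ‖r i‖ * ‖y i‖ := by
        have h2 : |hA.eigenvalues i * ‖r i‖ ^ 2| ≤ c / 2 * ‖r i‖ ^ 2 + ‖r i‖ * ‖y i‖ := by
          rw [hXu i]
          refine (abs_add_le _ _).trans (add_le_add (hop (r i)) ?_)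
          exact abs_real_inner_le_norm _ _
        rwa [abs_mul, abs_of_nonneg (sq_nonneg ‖r i‖)] at h2
      have h3 : c / 2 * ‖r i‖ ^ 2 ≤ ‖r i‖ * ‖y i‖ := by
        have : c * ‖r i‖ ^ 2 ≤ |hA.eigenvalues i| * ‖r i‖ ^ 2 :=
          mul_le_mul_of_nonneg_right hi (sq_nonneg _)
        linarith
      by_cases hr0 : ‖r i‖ = 0
      · have h9 : 0 ≤ 4 / c ^ 2 * ‖y i‖ ^ 2 := by positivity
        rw [hr0]; simpa using h9
      · have hrp : 0 < ‖r i‖ := lt_of_le_of_ne (norm_nonneg _) (Ne.symm hr0)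
        have h4 : c / 2 * ‖r i‖ ≤ ‖y i‖ := by
          have : ‖r i‖ * (c / 2 * ‖r i‖) ≤ ‖r i‖ * ‖y i‖ := by
            calc ‖r i‖ * (c / 2 * ‖r i‖) = c / 2 * ‖r i‖ ^ 2 := by ring
              _ ≤ _ := h3
          exact le_of_mul_le_mul_left this hrp
        have h5 : (c / 2 * ‖r i‖) ^ 2 ≤ ‖y i‖ ^ 2 := pow_le_pow_left₀ (by positivity) h4 2
        calc ‖r i‖ ^ 2 = 4 / c ^ 2 * (c / 2 * ‖r i‖) ^ 2 := by field_simp; ring
          _ ≤ 4 / c ^ 2 * ‖y i‖ ^ 2 := by gcongr
    · positivity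
  have key := scalar_ineq2 (c := c) hk0 hkB hη hω hkc hmod hA.eigenvalues d
    (fun i j => (inner ℝ (v j) (u i)) ^ 2) (fun i j => sq_nonneg _)
    (fun j => by
      have h := u.sum_sq_norm_inner_left (v j)
      rw [hv.norm_eq_one j, one_pow] at h
      rw [← h]
      refine sum_congr rfl fun i _ => ?_
      rw [Real.norm_eq_abs, sq_abs])
    (fun i => by
      have h := hv.sum_inner_products_le (u i) (s := univ)
      rw [hun i, one_pow] at h
      refine le_trans (le_of_eq ?_) h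
      refine sum_congr rfl fun j _ => ?_
      rw [Real.norm_eq_abs, sq_abs]) hQ
  refine key.trans (le_of_eq ?_)
  rw [hS1]; ring

/-- polar decomposition of an almost orthonormal family -/
theorem exists_orthonormal_near {J : Type*} [Fintype J] [DecidableEq J]
    (g : J → EuclideanSpace ℝ ι)
    (hS : ∑ j, ∑ l, (inner ℝ (g j) (g l) - if j = l then 1 else 0) ^ 2 < 1) :
    ∃ v : J → EuclideanSpace ℝ ι, Orthonormal ℝ v ∧
      ∑ j, ‖g j - v j‖ ^ 2 ≤
        ∑ j, ∑ l, (inner ℝ (g j) (g l) - if j = l then 1 else 0) ^ 2 := by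
  classical
  set S : Matrix J J ℝ := fun j l => inner ℝ (g j) (g l) with hSdef
  have hSh : S.IsHermitian := by
    ext j l
    exact real_inner_comm (g j) (g l)
  set q := hSh.eigenvectorBasis with hq
  set s := hSh.eigenvalues with hs
  have hSq : ∀ a j, ∑ l, S j l * q a l = s a * q a j := by
    intro a j
    have := congrFun (hSh.mulVec_eigenvectorBasis a) j
    simpa [Matrix.mulVec, dotProduct] using this
  have hqq : ∀ a b, ∑ j, q a j * q b j = if a = b then 1 else 0 := by
    intro a b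
    have h := orthonormal_iff_ite.mp q.orthonormal a b
    rw [PiLp.inner_apply] at h
    rw [← h]
    refine sum_congr rfl fun j _ => ?_
    simp only [RCLike.inner_apply, conj_trivial]; ring
  have hqc : ∀ j l, ∑ a, q a j * q a l = if j = l then 1 else 0 := by
    intro j l
    have h := q.sum_inner_mul_inner (EuclideanSpace.single j (1 : ℝ))
      (EuclideanSpace.single l (1 : ℝ))
    simp only [EuclideanSpace.inner_single_left, EuclideanSpace.inner_single_right,
      conj_trivial, one_mul, map_one] at h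
    rw [h]
    by_cases hjl : j = l
    · subst hjl; simp
    · simp [hjl]
  -- eigenvalues are close to one
  have hsum : ∑ a, (s a - 1) ^ 2 =
      ∑ j, ∑ l, (inner ℝ (g j) (g l) - if j = l then 1 else 0) ^ 2 := by
    rw [← hs_basis (fun j l => inner ℝ (g j) (g l) - if j = l then 1 else 0) q]
    refine sum_congr rfl fun a _ => ?_
    have h1 : ∀ p, ∑ l, (inner ℝ (g p) (g l) - if p = l then 1 else 0) * q a l =
        (s a - 1) * q a p := by
      intro p
      have h2 := hSq a p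
      simp only [sub_mul, sum_sub_distrib, ite_mul, one_mul, zero_mul, sum_ite_eq, mem_univ,
        if_true]
      rw [← h2]
    simp only [h1, mul_pow]
    rw [← mul_sum]
    have h3 := hqq a a
    rw [if_pos rfl] at h3
    have h4 : ∑ p, q a p ^ 2 = 1 := by
      rw [← h3]; exact sum_congr rfl fun p _ => by ring
    rw [h4, mul_one]
  have hspos : ∀ a, 0 < s a := by
    intro a
    have h1 : (s a - 1) ^ 2 < 1 := by
      refine lt_of_le_of_lt ?_ hS
      rw [← hsum]
      exact single_le_sum (f := fun a => (s a - 1) ^ 2) (fun b _ => sq_nonneg _) (mem_univ a)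
    nlinarith
  set T : J → EuclideanSpace ℝ ι := fun a => ∑ j, q a j • g j with hT
  have hTT : ∀ a b, inner ℝ (T a) (T b) = if a = b then s a else 0 := by
    intro a b
    have h1 : ∀ j, ∑ l, q b l * (q a j * inner ℝ (g j) (g l)) = q a j * (s b * q b j) := by
      intro j
      rw [← hSq b j, mul_sum]
      refine sum_congr rfl fun l _ => ?_
      simp only [hSdef]; ring
    have h2 : ∑ j, q a j * (s b * q b j) = s b * ∑ j, q a j * q b j := by
      rw [mul_sum]; exact sum_congr rfl fun j _ => by ring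
    have h3 : inner ℝ (T a) (T b) = ∑ j, ∑ l, q b l * (q a j * inner ℝ (g j) (g l)) := by
      simp only [hT, sum_inner]
      refine sum_congr rfl fun j _ => ?_
      rw [inner_sum]
      refine sum_congr rfl fun l _ => ?_
      rw [real_inner_smul_left, real_inner_smul_right]; ring
    rw [h3, sum_congr rfl fun j _ => h1 j, h2, hqq]
    split_ifs with h
    · rw [h, mul_one]
    · rw [mul_zero]
  set P : J → EuclideanSpace ℝ ι := fun a => (Real.sqrt (s a))⁻¹ • T a with hP
  have hPo : Orthonormal ℝ P := by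
    rw [orthonormal_iff_ite]
    intro a b
    simp only [hP, inner_smul_left, inner_smul_right, conj_trivial, hTT]
    split_ifs with h
    · subst h
      have h1 : Real.sqrt (s a) ≠ 0 := (Real.sqrt_pos.mpr (hspos a)).ne'
      have h2 : Real.sqrt (s a) * Real.sqrt (s a) = s a := Real.mul_self_sqrt (hspos a).le
      field_simp
      rw [sq]; exact h2.symm
    · ring
  refine ⟨fun j => ∑ a, q a j • P a, ?_, ?_⟩
  · rw [orthonormal_iff_ite]
    intro j l
    rw [hPo.inner_sum]
    simp only [conj_trivial]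
    exact hqc j l
  · rw [← hsum]
    have hg : ∀ j, g j = ∑ a, (q a j * Real.sqrt (s a)) • P a := by
      intro j
      have h1 : ∀ a, (q a j * Real.sqrt (s a)) • P a = q a j • T a := by
        intro a
        have h1 : Real.sqrt (s a) ≠ 0 := (Real.sqrt_pos.mpr (hspos a)).ne'
        simp only [hP, smul_smul]
        rw [mul_assoc, mul_inv_cancel₀ h1, mul_one]
      simp only [h1, hT, smul_sum, smul_smul]
      rw [sum_comm]
      have h2 : ∀ l, ∑ a, (q a j * q a l) • g l = (if j = l then (1:ℝ) else 0) • g l := by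
        intro l
        rw [← sum_smul, hqc]
      simp only [h2, ite_smul, one_smul, zero_smul, sum_ite_eq, mem_univ, if_true]
    have hd : ∀ j, ‖g j - ∑ a, q a j • P a‖ ^ 2 = ∑ a, q a j ^ 2 * (Real.sqrt (s a) - 1) ^ 2 := by
      intro j
      have h1 : g j - ∑ a, q a j • P a = ∑ a, (q a j * (Real.sqrt (s a) - 1)) • P a := by
        conv_lhs => rw [hg j]
        rw [← sum_sub_distrib]
        refine sum_congr rfl fun a _ => ?_
        rw [← sub_smul]; congr 1; ring
      rw [h1, ← real_inner_self_eq_norm_sq, hPo.inner_sum]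
      refine sum_congr rfl fun a _ => ?_
      simp only [conj_trivial]; ring
    simp only [hd]
    rw [sum_comm]
    refine sum_le_sum fun a _ => ?_
    rw [← sum_mul]
    have h3 := hqq a a
    rw [if_pos rfl] at h3
    have h4 : ∑ p, q a p ^ 2 = 1 := by
      rw [← h3]; exact sum_congr rfl fun p _ => by ring
    rw [h4, one_mul]
    have h5 : s a = Real.sqrt (s a) ^ 2 := (Real.sq_sqrt (hspos a).le).symm
    have h6 : 0 ≤ Real.sqrt (s a) := Real.sqrt_nonneg _
    set r := Real.sqrt (s a) with hr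
    have h7 : (s a - 1) ^ 2 = (r - 1) ^ 2 * (r + 1) ^ 2 := by rw [h5]; ring
    rw [h7]
    have h8 : 1 ≤ (r + 1) ^ 2 := by nlinarith
    nlinarith [sq_nonneg (r - 1)]

end Mat

end Crest.Agent.R166.Rec8
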