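import Crest.Agent.R166.Res2_789
import Crest.Agent.R166.Res10_598
import Crest.Agent.R166.Defs_419

/-!
# R166, section 10: resolvent toolkit, part 3 (helper789)

Bridge to `Res10_598` and `Defs_419`; change of the spectral parameter: (10.5) scale monotonicity,
(10.6) stability; vector form of (10.1), (10.2); (10.7) cavity comparison.
-/

set_option autoImplicit false
set_option linter.unusedSectionVars false

open Matrix Complex

namespace Crest.Agent.R166.Res789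

variable {V : Type*} [Fintype V] [DecidableEq V]
variable {P : Type*} [Fintype P] [DecidableEq P]
variable {Q : Type*} [Fintype Q] [DecidableEq Q]

/-! ## bridge -/

lemma cx_eq598 {m n : Type*} (A : Matrix m n ℝ) : Res598.cx A = cx A := rfl

lemma imM_eq598 {m n : Type*} (A : Matrix m n ℂ) : Res598.imM A = imM A := rfl

lemma reM_eq598 {m n : Type*} (A : Matrix m n ℂ) : Res598.reM A = reM A := rfl

lemma qf_eq598 (Y : Matrix P P ℝ) (x : P → ℂ) : Res598.qf Y x = qf Y x := by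
  rw [qf_expand]
  unfold Res598.qf Res598.vre Res598.vim
  simp only [dotProduct, mulVec, Finset.mul_sum, ← Finset.sum_add_distrib]
  refine Finset.sum_congr rfl fun i _ => Finset.sum_congr rfl fun j _ => ?_
  ring

lemma nq_eq598 (Y : Matrix P P ℝ) (x : P → ℂ) : Res598.nq Y x = Real.sqrt (qf Y x) := by
  rw [Res598.nq, qf_eq598]

lemma siegel_iff {Z : Matrix P P ℂ} : Res598.Siegel Z ↔ Sieg Z :=
  ⟨fun h => Sieg.of_posDef h.symm h.pos, fun h => ⟨h.symm, h.posDef⟩⟩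

lemma Sieg.siegel {Z : Matrix P P ℂ} (h : Sieg Z) : Res598.Siegel Z := siegel_iff.2 h

lemma Res_eq419 (H : Matrix V V ℝ) (z : ℂ) : Crest.Agent.R166.Res H z = Res H z := rfl

lemma mob_eq_Pm {Z : Matrix P P ℂ} (h : Sieg Z) {K : Matrix P P ℝ} (hK : Kᵀ = K) :
    Res598.mob K Z = Pm Z K := by
  rw [h.Pm_eq hK]; rfl

/-! ## vectors supported on an index set -/

/-- extension by zero of a vector along `f` -/
def ext0 (f : P → V) (u : P → ℂ) : V → ℂ := fun x => ∑ p, if f p = x then u p else 0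

lemma ext0_apply {f : P → V} (hf : Function.Injective f) (u : P → ℂ) (p : P) :
    ext0 f u (f p) = u p := by
  unfold ext0
  rw [Finset.sum_eq_single p]
  · simp
  · intro b _ hb
    rw [if_neg]
    exact fun h => hb (hf h)
  · simp

lemma ext0_of_notMem {f : P → V} (u : P → ℂ) {x : V} (hx : x ∉ Set.range f) :
    ext0 f u x = 0 := by
  unfold ext0
  apply Finset.sum_eq_zero
  intro q _
  rw [if_neg]
  exact fun h => hx ⟨q, h⟩

lemma sum_ext0 (f : P → V) (u : P → ℂ) (g : V → ℂ) :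
    ext0 f u ⬝ᵥ g = ∑ p, u p * g (f p) := by
  unfold ext0
  simp only [dotProduct, Finset.sum_mul]
  rw [Finset.sum_comm]
  refine Finset.sum_congr rfl fun p _ => ?_
  rw [Finset.sum_eq_single (f p)]
  · simp
  · intro b _ hb; rw [if_neg (Ne.symm hb)]; simp
  · simp

lemma ext0_dot (f : P → V) (u : P → ℂ) (M : Matrix V V ℂ) (g : Q → V) (w : Q → ℂ) :
    ext0 f u ⬝ᵥ (M *ᵥ ext0 g w) = u ⬝ᵥ (M.submatrix f g *ᵥ w) := by
  rw [sum_ext0]
  simp only [dotProduct]
  refine Finset.sum_congr rfl fun p _ => ?_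
  congr 1
  have : (M *ᵥ ext0 g w) (f p) = ext0 g w ⬝ᵥ (fun y => M (f p) y) := by
    rw [mulVec, dotProduct_comm]
  rw [this, sum_ext0]
  simp only [mulVec, dotProduct, Matrix.submatrix_apply]
  exact Finset.sum_congr rfl fun q _ => mul_comm _ _

lemma qf_ext0 (Y : Matrix V V ℝ) {f : P → V} (hf : Function.Injective f) (u : P → ℂ) :
    qf Y (ext0 f u) = qf (Y.submatrix f f) u := (qf_submatrix Y hf u).symm

lemma star_ext0 (f : P → V) (u : P → ℂ) : star (ext0 f u) = ext0 f (star u) := by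
  ext x
  simp only [ext0, Pi.star_apply, star_sum]
  refine Finset.sum_congr rfl fun p _ => ?_
  split_ifs <;> simp

/-! ## norms of `R x` -/

/-- `Im` of a form through the adjoint: `η ‖R u‖² = qf (Im R) u` -/
theorem sum_norm_sq_Res {H : Matrix V V ℝ} (hH : Hᵀ = H) {z : ℂ} (hz : 0 < z.im) (u : V → ℂ) :
    z.im * ∑ y, ‖(Res H z *ᵥ u) y‖ ^ 2 = qf (imM (Res H z)) u := by
  have hR := Res_sieg hH hz
  have h1 : Res H z = -(z • (1 : Matrix V V ℂ) - cx H)⁻¹ := Res_eq_neg H z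
  have h2 := (sieg_smul_one_sub hH hz).qf_neg_inv u
  rw [← h1] at h2
  rw [h2]
  have h3 : imM (z • (1 : Matrix V V ℂ) - cx H) = z.im • (1 : Matrix V V ℝ) := by
    ext i j
    by_cases hij : i = j
    · subst hij; simp
    · simp [hij]
  rw [h3, qf_smul_mat]
  have h4 : (z • (1 : Matrix V V ℂ) - cx H)⁻¹ *ᵥ u = -(Res H z *ᵥ u) := by
    rw [h1, Matrix.neg_mulVec, neg_neg]
  rw [h4, qf_neg_vec, qf_one]

/-- bilinear Cauchy-Schwarz -/
lemma norm_dot_sq_le (a b : V → ℂ) : ‖a ⬝ᵥ b‖ ≤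
    Real.sqrt (∑ y, ‖a y‖ ^ 2) * Real.sqrt (∑ y, ‖b y‖ ^ 2) := by
  have h := Res598.norm_dotProduct_le a b
  rwa [EuclideanSpace.norm_eq, EuclideanSpace.norm_eq] at h

/-- **(10.5)/(10.6), general two-point bound** -/
theorem norm_Res_sub_form_le {H : Matrix V V ℝ} (hH : Hᵀ = H) {z w : ℂ} (hz : 0 < z.im)
    (hw : 0 < w.im) (x y : V → ℂ) :
    ‖x ⬝ᵥ ((Res H w - Res H z) *ᵥ y)‖ ≤ ‖w - z‖ / Real.sqrt (z.im * w.im) *
      (Res598.nq (imM (Res H z)) x * Res598.nq (imM (Res H w)) y) := by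
  have h0 : Res H w - Res H z = (w - z) • (Res H z * Res H w) := by
    have := Res_sub hH hz hw
    rw [← neg_sub (Res H z), this, ← neg_smul, neg_sub]
  have h1 : x ⬝ᵥ ((Res H w - Res H z) *ᵥ y) =
      (w - z) * ((Res H z *ᵥ x) ⬝ᵥ (Res H w *ᵥ y)) := by
    rw [h0, Matrix.smul_mulVec, dotProduct_smul, smul_eq_mul, ← Matrix.mulVec_mulVec,
      Matrix.dotProduct_mulVec x, ← Matrix.mulVec_transpose, Res_transpose hH hz]
  have hzq := sum_norm_sq_Res hH hz x
  have hwq := sum_norm_sq_Res hH hw y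
  rw [h1, norm_mul, nq_eq598, nq_eq598, ← hzq, ← hwq]
  have h2 := norm_dot_sq_le (Res H z *ᵥ x) (Res H w *ᵥ y)
  have hs : Real.sqrt (z.im * w.im) = Real.sqrt z.im * Real.sqrt w.im := Real.sqrt_mul hz.le _
  have p1 : 0 < Real.sqrt z.im := Real.sqrt_pos.2 hz
  have p2 : 0 < Real.sqrt w.im := Real.sqrt_pos.2 hw
  rw [hs, Real.sqrt_mul hz.le, Real.sqrt_mul hw.le]
  have e : ‖w - z‖ / (Real.sqrt z.im * Real.sqrt w.im) *
      (Real.sqrt z.im * Real.sqrt (∑ y, ‖(Res H z *ᵥ x) y‖ ^ 2) *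
      (Real.sqrt w.im * Real.sqrt (∑ y_1, ‖(Res H w *ᵥ y) y_1‖ ^ 2))) =
      ‖w - z‖ * (Real.sqrt (∑ y, ‖(Res H z *ᵥ x) y‖ ^ 2) *
      Real.sqrt (∑ y_1, ‖(Res H w *ᵥ y) y_1‖ ^ 2)) := by
    field_simp
  rw [e]
  exact mul_le_mul_of_nonneg_left h2 (norm_nonneg _)

/-! ## comparison of spectral parameters -/

/-- `z` and `w` are within the hyperbolic distance `log t` -/
structure Hyp (t : ℝ) (z w : ℂ) : Prop where
  one_le : 1 ≤ t
  zpos : 0 < z.im
  wpos : 0 < w.im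
  le : ‖w - z‖ ^ 2 * t ≤ (t - 1) ^ 2 * (z.im * w.im)

lemma Hyp.symm {t : ℝ} {z w : ℂ} (h : Hyp t z w) : Hyp t w z :=
  ⟨h.one_le, h.wpos, h.zpos, by rw [norm_sub_rev, mul_comm w.im]; exact h.le⟩

lemma Hyp.ratio {t : ℝ} {z w : ℂ} (h : Hyp t z w) :
    ‖w - z‖ / Real.sqrt (z.im * w.im) ≤ (t - 1) / Real.sqrt t := by
  have ht : 0 < t := lt_of_lt_of_le one_pos h.one_le
  have hzw : 0 < z.im * w.im := mul_pos h.zpos h.wpos
  rw [div_le_div_iff₀ (Real.sqrt_pos.2 hzw) (Real.sqrt_pos.2 ht)]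
  have h1 : 0 ≤ t - 1 := by linarith [h.one_le]
  rw [← Real.sqrt_sq (norm_nonneg (w - z)), ← Real.sqrt_mul (sq_nonneg _)]
  rw [← Real.sqrt_sq h1, ← Real.sqrt_mul (sq_nonneg _)]
  exact Real.sqrt_le_sqrt h.le

/-- vertical move -/
lemma hyp_vert {t : ℝ} {z w : ℂ} (hz : 0 < z.im) (hre : z.re = w.re) (h1 : z.im ≤ w.im)
    (h2 : w.im ≤ t * z.im) : Hyp t z w := by
  have hw : 0 < w.im := lt_of_lt_of_le hz h1
  have ht : 1 ≤ t := by
    by_contra hcon
    push Not at hcon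
    nlinarith
  refine ⟨ht, hz, hw, ?_⟩
  have hn : ‖w - z‖ ^ 2 = (w.im - z.im) ^ 2 := by
    rw [← Complex.normSq_eq_norm_sq, Complex.normSq_apply]
    simp [hre]
    ring
  rw [hn]
  set a := z.im
  set b := w.im
  -- (b - a)^2 t <= (t-1)^2 a b  <=>  (b - t a)(t b - a) <= 0
  have key : (b - a) ^ 2 * t - (t - 1) ^ 2 * (a * b) = (b - t * a) * (t * b - a) := by ring
  have h3 : 0 ≤ t * b - a := by nlinarith
  have h4 : b - t * a ≤ 0 := by linarith
  nlinarith [mul_nonpos_of_nonpos_of_nonneg h4 h3]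

/-- horizontal move -/
lemma hyp_horiz {c : ℝ} {z w : ℂ} (hc : 0 ≤ c) (hz : 0 < z.im) (him : z.im = w.im)
    (h : |w.re - z.re| ≤ c * z.im) : Hyp (1 + c + c ^ 2) z w := by
  have hw : 0 < w.im := him ▸ hz
  refine ⟨by nlinarith, hz, hw, ?_⟩
  have hn : ‖w - z‖ ^ 2 = (w.re - z.re) ^ 2 := by
    rw [← Complex.normSq_eq_norm_sq, Complex.normSq_apply]
    simp [him]
    ring
  have h1 : (w.re - z.re) ^ 2 ≤ (c * z.im) ^ 2 := by
    rw [← sq_abs]
    exact pow_le_pow_left₀ (abs_nonneg _) h 2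
  rw [hn, ← him]
  have h2 : (1 + c + c ^ 2 - 1) ^ 2 * (z.im * z.im) =
      (c * z.im) ^ 2 * (1 + c) ^ 2 := by ring
  rw [h2]
  have h3 : 1 + c + c ^ 2 ≤ (1 + c) ^ 2 := by nlinarith
  have h4 : 0 ≤ (c * z.im) ^ 2 := sq_nonneg _
  calc (w.re - z.re) ^ 2 * (1 + c + c ^ 2) ≤ (c * z.im) ^ 2 * (1 + c + c ^ 2) := by
        apply mul_le_mul_of_nonneg_right h1; positivity
    _ ≤ _ := mul_le_mul_of_nonneg_left h3 h4

/-- scalar step: `(a' - a)² t ≤ (t-1)² a a'` implies `a ≤ t a'` and `a' ≤ t a` -/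
lemma ratio_of_sq {t a b : ℝ} (ht : 1 ≤ t) (ha : 0 ≤ a) (hb : 0 ≤ b)
    (h : (b - a) ^ 2 * t ≤ (t - 1) ^ 2 * (a * b)) : a ≤ t * b ∧ b ≤ t * a := by
  have key : (b - a) ^ 2 * t - (t - 1) ^ 2 * (a * b) = (b - t * a) * (t * b - a) := by ring
  have h1 : (b - t * a) * (t * b - a) ≤ 0 := by linarith
  constructor
  · by_contra hcon
    push Not at hcon
    -- t b < a, so t b - a < 0 and hence b - t a ≥ 0
    have h2 : t * b - a < 0 := by linarith
    have h3 : 0 ≤ b - t * a := by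
      by_contra h4
      push Not at h4
      nlinarith [mul_pos_of_neg_of_neg h4 h2]
    nlinarith
  · by_contra hcon
    push Not at hcon
    have h2 : 0 < b - t * a := by linarith
    have h3 : t * b - a ≤ 0 := by
      by_contra h4
      push Not at h4
      nlinarith [mul_pos h2 h4]
    nlinarith

/-- forms `u^* R(z) u`: two-point inequality (Schwarz–Pick) -/
theorem form_sub_sq_le {H : Matrix V V ℝ} (hH : Hᵀ = H) {t : ℝ} {z w : ℂ} (h : Hyp t z w)
    (u : V → ℂ) :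
    ‖star u ⬝ᵥ (Res H w *ᵥ u) - star u ⬝ᵥ (Res H z *ᵥ u)‖ ^ 2 * t ≤
      (t - 1) ^ 2 * (qf (imM (Res H z)) u * qf (imM (Res H w)) u) := by
  have h1 := norm_Res_sub_form_le hH h.zpos h.wpos (star u) u
  rw [Matrix.sub_mulVec, dotProduct_sub, nq_eq598, nq_eq598, qf_star,
    ← Real.sqrt_mul ((Res_sieg hH h.zpos).nonneg u)] at h1
  have hq : 0 ≤ qf (imM (Res H z)) u * qf (imM (Res H w)) u :=
    mul_nonneg ((Res_sieg hH h.zpos).nonneg u) ((Res_sieg hH h.wpos).nonneg u)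
  have ht : 0 < t := lt_of_lt_of_le one_pos h.one_le
  have h2 := h1.trans (mul_le_mul_of_nonneg_right h.ratio (Real.sqrt_nonneg _))
  have h3 := pow_le_pow_left₀ (norm_nonneg _) h2 2
  rw [mul_pow, Real.sq_sqrt hq, div_pow, Real.sq_sqrt ht.le] at h3
  calc _ ≤ ((t - 1) ^ 2 / t * (qf (imM (Res H z)) u * qf (imM (Res H w)) u)) * t :=
        mul_le_mul_of_nonneg_right h3 ht.le
    _ = _ := by field_simp

/-- **(10.5)** imaginary parts at comparable spectral parameters -/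
theorem qf_Res_le {H : Matrix V V ℝ} (hH : Hᵀ = H) {t : ℝ} {z w : ℂ} (h : Hyp t z w)
    (u : V → ℂ) : qf (imM (Res H w)) u ≤ t * qf (imM (Res H z)) u := by
  have h1 := form_sub_sq_le hH h u
  have hz := (Res_sieg hH h.zpos)
  have hw := (Res_sieg hH h.wpos)
  have h2 : (qf (imM (Res H w)) u - qf (imM (Res H z)) u) ^ 2 ≤
      ‖star u ⬝ᵥ (Res H w *ᵥ u) - star u ⬝ᵥ (Res H z *ᵥ u)‖ ^ 2 := by
    rw [← hw.form, ← hz.form, ← Complex.sub_im, ← sq_abs]
    exact pow_le_pow_left₀ (abs_nonneg _) (Complex.abs_im_le_norm _) 2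
  refine (ratio_of_sq h.one_le (hz.nonneg u) (hw.nonneg u) ?_).2
  exact (mul_le_mul_of_nonneg_right h2 (by linarith [h.one_le])).trans h1

/-- **(10.5)** moduli of forms -/
theorem norm_form_Res_le {H : Matrix V V ℝ} (hH : Hᵀ = H) {t : ℝ} {z w : ℂ} (h : Hyp t z w)
    (u : V → ℂ) :
    ‖star u ⬝ᵥ (Res H w *ᵥ u)‖ ≤ t * ‖star u ⬝ᵥ (Res H z *ᵥ u)‖ := by
  have h1 := form_sub_sq_le hH h u
  have hz := (Res_sieg hH h.zpos)
  have hw := (Res_sieg hH h.wpos)
  set A := star u ⬝ᵥ (Res H z *ᵥ u) with hA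
  set B := star u ⬝ᵥ (Res H w *ᵥ u) with hB
  have h2 : (‖B‖ - ‖A‖) ^ 2 ≤ ‖B - A‖ ^ 2 := by
    rw [← sq_abs]
    exact pow_le_pow_left₀ (abs_nonneg _) (abs_norm_sub_norm_le B A) 2
  have h3 : qf (imM (Res H z)) u ≤ ‖A‖ := by
    rw [← hz.form, hA]
    exact (le_abs_self _).trans (Complex.abs_im_le_norm _)
  have h4 : qf (imM (Res H w)) u ≤ ‖B‖ := by
    rw [← hw.form, hB]
    exact (le_abs_self _).trans (Complex.abs_im_le_norm _)
  have ht : 0 ≤ t := by linarith [h.one_le]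
  refine (ratio_of_sq h.one_le (norm_nonneg A) (norm_nonneg B) ?_).2
  refine ((mul_le_mul_of_nonneg_right h2 ht).trans h1).trans ?_
  apply mul_le_mul_of_nonneg_left _ (sq_nonneg _)
  exact mul_le_mul h3 h4 (hw.nonneg u) (norm_nonneg _)

lemma star_single_form (M : Matrix V V ℂ) (x : V) :
    star (Pi.single x (1 : ℂ) : V → ℂ) ⬝ᵥ (M *ᵥ Pi.single x 1) = M x x := by
  have h1 : star (Pi.single x (1 : ℂ) : V → ℂ) = Pi.single x 1 := by
    ext y
    by_cases h : y = x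
    · subst h; simp
    · simp [h]
  rw [h1, single_dotProduct, one_mul, Matrix.mulVec_single_one]
  rfl

/-- **(10.5)** diagonal entries -/
theorem norm_Res_diag_le {H : Matrix V V ℝ} (hH : Hᵀ = H) {t : ℝ} {z w : ℂ} (h : Hyp t z w)
    (x : V) : ‖Res H w x x‖ ≤ t * ‖Res H z x x‖ := by
  have := norm_form_Res_le hH h (Pi.single x 1)
  rwa [star_single_form, star_single_form] at this

theorem im_Res_diag_le {H : Matrix V V ℝ} (hH : Hᵀ = H) {t : ℝ} {z w : ℂ} (h : Hyp t z w)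
    (x : V) : (Res H w x x).im ≤ t * (Res H z x x).im := by
  have := qf_Res_le hH h (Pi.single x 1)
  rwa [← (Res_sieg hH h.wpos).form, ← (Res_sieg hH h.zpos).form, star_single_form,
    star_single_form] at this

/-- **(10.6)** -/
theorem Res_near {H : Matrix V V ℝ} (hH : Hᵀ = H) {t : ℝ} {z w : ℂ} (h : Hyp t z w) :
    Res598.Near (t - 1) (Res H z) (Res H w) := by
  refine ⟨Res_transpose hH h.wpos, fun x y => ?_⟩
  have h1 := norm_Res_sub_form_le hH h.zpos h.wpos x y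
  have ht : 0 < t := lt_of_lt_of_le one_pos h.one_le
  have h2 : Res598.nq (imM (Res H w)) y ≤ Real.sqrt t * Res598.nq (imM (Res H z)) y := by
    rw [nq_eq598, nq_eq598, ← Real.sqrt_mul ht.le]
    exact Real.sqrt_le_sqrt (qf_Res_le hH h y)
  have p1 := Res598.nq_nonneg (imM (Res H z)) x
  have p2 := Res598.nq_nonneg (imM (Res H z)) y
  have p3 := Res598.nq_nonneg (imM (Res H w)) y
  have ht1 : 0 ≤ t - 1 := by linarith [h.one_le]
  calc _ ≤ _ := h1
    _ ≤ (t - 1) / Real.sqrt t *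
      (Res598.nq (imM (Res H z)) x * (Real.sqrt t * Res598.nq (imM (Res H z)) y)) := by
        apply mul_le_mul h.ratio
        · exact mul_le_mul_of_nonneg_left h2 p1
        · exact mul_nonneg p1 p3
        · positivity
    _ = _ := by
        have : Real.sqrt t ≠ 0 := (Real.sqrt_pos.2 ht).ne'
        rw [imM_eq598]
        field_simp

/-- `Near` passes to corners -/
theorem Near_submatrix {ε : ℝ} {Z Z' : Matrix V V ℂ} (h : Res598.Near ε Z Z') {f : P → V}
    (hf : Function.Injective f) : Res598.Near ε (Z.submatrix f f) (Z'.submatrix f f) := by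
  refine ⟨by rw [Matrix.transpose_submatrix, h.1], fun x y => ?_⟩
  have h1 := h.2 (ext0 f x) (ext0 f y)
  rw [ext0_dot, nq_eq598, nq_eq598, imM_eq598, qf_ext0 _ hf, qf_ext0 _ hf] at h1
  rw [nq_eq598, nq_eq598, imM_eq598, imM_submatrix]
  exact h1

/-- **(10.6)** for blocks -/
theorem Res_block_near {H : Matrix V V ℝ} (hH : Hᵀ = H) {t : ℝ} {z w : ℂ} (h : Hyp t z w)
    {f : P → V} (hf : Function.Injective f) :
    Res598.Near (t - 1) ((Res H z).submatrix f f) ((Res H w).submatrix f f) :=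
  Near_submatrix (Res_near hH h) hf

end Crest.Agent.R166.Res789
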