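import Mathlib

/-!
# Row 166, section 30.3: sequential revealing, abstract part (helper811)

`Ω` is a finite nonempty set (half-edges), `ι` a finite index set (`|ι| = N` choices), the choices
`e : ι → Ω` are uniform.  `av f` is the average over all choices.

* `av_mul_le` : conditional expectation bound (one coordinate is averaged, the rest is frozen)
* `prob_not_adm_zero`, `prob_not_adm_one`, `prob_not_adm_two` : the probability bounds of (30.3)
* `av_coord`, `av_norm_sum_sq` : one-coordinate averages, variance of sums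
-/

set_option autoImplicit false

open Finset

namespace Crest.Agent.R166.Rev811

variable {ι Ω : Type*} [Fintype ι] [DecidableEq ι] [Fintype Ω]

/-- average over all choices `e : ι → Ω` -/
noncomputable def av (f : (ι → Ω) → ℝ) : ℝ := (∑ e, f e) / (Fintype.card (ι → Ω) : ℝ)

/-- average over `Ω` -/
noncomputable def av1 (f : Ω → ℝ) : ℝ := (∑ x, f x) / (Fintype.card Ω : ℝ)

open Classical in
/-- probability of an event -/
noncomputable def pr (P : (ι → Ω) → Prop) : ℝ := av fun e => if P e then 1 else 0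

open Classical in
/-- probability of an event for one choice -/
noncomputable def pr1 (P : Ω → Prop) : ℝ := av1 fun x => if P x then 1 else 0

lemma av_nonneg {f : (ι → Ω) → ℝ} (h : ∀ e, 0 ≤ f e) : 0 ≤ av f :=
  div_nonneg (Finset.sum_nonneg fun e _ => h e) (Nat.cast_nonneg _)

lemma av1_nonneg {f : Ω → ℝ} (h : ∀ e, 0 ≤ f e) : 0 ≤ av1 f :=
  div_nonneg (Finset.sum_nonneg fun e _ => h e) (Nat.cast_nonneg _)

lemma av_mono {f g : (ι → Ω) → ℝ} (h : ∀ e, f e ≤ g e) : av f ≤ av g :=
  div_le_div_of_nonneg_right (Finset.sum_le_sum fun e _ => h e) (Nat.cast_nonneg _)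

lemma av_add (f g : (ι → Ω) → ℝ) : av (fun e => f e + g e) = av f + av g := by
  unfold av; rw [Finset.sum_add_distrib, add_div]

lemma av_sub (f g : (ι → Ω) → ℝ) : av (fun e => f e - g e) = av f - av g := by
  unfold av; rw [Finset.sum_sub_distrib, sub_div]

lemma av_const_mul (c : ℝ) (f : (ι → Ω) → ℝ) : av (fun e => c * f e) = c * av f := by
  unfold av; rw [← Finset.mul_sum, mul_div_assoc]

lemma av_sum {κ : Type*} (s : Finset κ) (f : κ → (ι → Ω) → ℝ) :
    av (fun e => ∑ k ∈ s, f k e) = ∑ k ∈ s, av (f k) := by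
  unfold av; rw [Finset.sum_comm, Finset.sum_div]

lemma av_const [Nonempty Ω] (c : ℝ) : av (fun _ : ι → Ω => c) = c := by
  unfold av
  have : (Fintype.card (ι → Ω) : ℝ) ≠ 0 := by
    have : 0 < Fintype.card (ι → Ω) := Fintype.card_pos
    positivity
  rw [Finset.sum_const, Finset.card_univ, nsmul_eq_mul]
  field_simp

lemma pr_nonneg (P : (ι → Ω) → Prop) : 0 ≤ pr P :=
  av_nonneg fun e => by split_ifs <;> norm_num

lemma pr_mono {P Q : (ι → Ω) → Prop} (h : ∀ e, P e → Q e) : pr P ≤ pr Q := by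
  apply av_mono
  intro e
  by_cases hP : P e
  · simp [hP, h e hP]
  · simp only [hP, if_false]; split_ifs <;> norm_num

lemma pr_or (P Q : (ι → Ω) → Prop) : pr (fun e => P e ∨ Q e) ≤ pr P + pr Q := by
  classical
  unfold pr
  rw [← av_add]
  apply av_mono
  intro e
  by_cases hP : P e <;> by_cases hQ : Q e <;> simp [hP, hQ]

lemma pr_exists {κ : Type*} (s : Finset κ) (P : κ → (ι → Ω) → Prop) :
    pr (fun e => ∃ k ∈ s, P k e) ≤ ∑ k ∈ s, pr (P k) := by
  classical
  unfold pr
  rw [← av_sum]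
  apply av_mono
  intro e
  split_ifs with h
  · obtain ⟨k, hk, hP⟩ := h
    calc (1 : ℝ) = if P k e then 1 else 0 := by simp [hP]
      _ ≤ _ := Finset.single_le_sum (f := fun k => if P k e then (1 : ℝ) else 0)
          (fun k _ => by positivity) hk
  · exact Finset.sum_nonneg fun k _ => by positivity

/-- resampling one coordinate -/
lemma sum_update (i : ι) (F : (ι → Ω) → ℝ) :
    ∑ e : ι → Ω, ∑ x : Ω, F (Function.update e i x) =
      (Fintype.card Ω : ℝ) * ∑ e : ι → Ω, F e := by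
  classical
  have key : ∀ x : Ω, ∑ e : ι → Ω, F (Function.update e i x) =
      (Fintype.card Ω : ℝ) * ∑ e : ι → Ω, if e i = x then F e else 0 := by
    intro x
    have h1 : ∑ e : ι → Ω, F (Function.update e i x) =
        ∑ e' : ι → Ω, ∑ e ∈ Finset.univ.filter (fun e => Function.update e i x = e'), F e' := by
      rw [← Finset.sum_fiberwise (s := Finset.univ) (g := fun e : ι → Ω => Function.update e i x)
        (f := fun e => F (Function.update e i x))]
      refine Finset.sum_congr rfl fun e' _ => ?_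
      refine Finset.sum_congr rfl fun e he => ?_
      simp only [Finset.mem_filter, Finset.mem_univ, true_and] at he
      rw [he]
    rw [h1, Finset.mul_sum]
    refine Finset.sum_congr rfl fun e' _ => ?_
    rw [Finset.sum_const, nsmul_eq_mul]
    by_cases hx : e' i = x
    · rw [if_pos hx]
      congr 1
      have : (Finset.univ.filter (fun e : ι → Ω => Function.update e i x = e')) =
          Finset.univ.image (fun y : Ω => Function.update e' i y) := by
        ext e
        simp only [Finset.mem_filter, Finset.mem_univ, true_and, Finset.mem_image]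
        constructor
        · intro h
          refine ⟨e i, ?_⟩
          rw [← h]; simp
        · rintro ⟨y, rfl⟩
          simp only [Function.update_idem]
          rw [← hx]; simp
      rw [this, Finset.card_image_of_injective]
      · simp
      · intro y y' h
        have := congrFun h i
        simpa using this
    · rw [if_neg hx, mul_zero]
      have : (Finset.univ.filter (fun e : ι → Ω => Function.update e i x = e')) = ∅ := by
        rw [Finset.filter_eq_empty_iff]
        intro e _ h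
        apply hx
        rw [← h]; simp
      rw [this]; simp
  rw [Finset.sum_comm]
  rw [Finset.sum_congr rfl fun x _ => key x, ← Finset.mul_sum, Finset.sum_comm]
  congr 1
  refine Finset.sum_congr rfl fun e _ => ?_
  simp

/-- **conditional bound**: `f ≥ 0` does not depend on coordinate `i`, the average of `g` over
coordinate `i` is at most `b`; then `E[f g] ≤ b E[f]`. -/
lemma av_mul_le [Nonempty Ω] (i : ι) (f g : (ι → Ω) → ℝ) (b : ℝ) (hf : ∀ e, 0 ≤ f e)
    (hi : ∀ e x, f (Function.update e i x) = f e)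
    (hg : ∀ e, av1 (fun x => g (Function.update e i x)) ≤ b) :
    av (fun e => f e * g e) ≤ b * av f := by
  have hO : (0 : ℝ) < Fintype.card Ω := by exact_mod_cast Fintype.card_pos
  have h1 := sum_update i (fun e => f e * g e)
  have h2 : ∑ e : ι → Ω, ∑ x : Ω, f (Function.update e i x) * g (Function.update e i x) ≤
      ∑ e : ι → Ω, f e * (b * Fintype.card Ω) := by
    refine Finset.sum_le_sum fun e _ => ?_
    rw [Finset.sum_congr rfl fun x _ => by rw [hi e x], ← Finset.mul_sum]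
    refine mul_le_mul_of_nonneg_left ?_ (hf e)
    have := hg e
    unfold av1 at this
    rwa [div_le_iff₀ hO] at this
  rw [h1, ← Finset.sum_mul] at h2
  have h3 : ∑ e : ι → Ω, f e * g e ≤ b * ∑ e, f e := by
    have : (Fintype.card Ω : ℝ) * ∑ e : ι → Ω, f e * g e ≤
        (Fintype.card Ω : ℝ) * (b * ∑ e, f e) := by
      calc _ ≤ _ := h2
        _ = _ := by ring
    exact le_of_mul_le_mul_left this hO
  unfold av
  rw [← mul_div_assoc]
  exact div_le_div_of_nonneg_right h3 (Nat.cast_nonneg _)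

/-- the same with equality -/
lemma av_mul_eq [Nonempty Ω] (i : ι) (f g : (ι → Ω) → ℝ) (b : ℝ)
    (hi : ∀ e x, f (Function.update e i x) = f e)
    (hg : ∀ e, av1 (fun x => g (Function.update e i x)) = b) :
    av (fun e => f e * g e) = b * av f := by
  have hO : (0 : ℝ) < Fintype.card Ω := by exact_mod_cast Fintype.card_pos
  have h1 := sum_update i (fun e => f e * g e)
  have h2 : ∑ e : ι → Ω, ∑ x : Ω, f (Function.update e i x) * g (Function.update e i x) =
      ∑ e : ι → Ω, f e * (b * Fintype.card Ω) := by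
    refine Finset.sum_congr rfl fun e _ => ?_
    rw [Finset.sum_congr rfl fun x _ => by rw [hi e x], ← Finset.mul_sum]
    congr 1
    have := hg e
    unfold av1 at this
    rwa [div_eq_iff hO.ne'] at this
  rw [h1, ← Finset.sum_mul] at h2
  have h3 : ∑ e : ι → Ω, f e * g e = b * ∑ e, f e := by
    have : (Fintype.card Ω : ℝ) * ∑ e : ι → Ω, f e * g e =
        (Fintype.card Ω : ℝ) * (b * ∑ e, f e) := by
      calc _ = _ := h2
        _ = _ := by ring
    exact mul_left_cancel₀ hO.ne' this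
  unfold av
  rw [h3, mul_div_assoc]

/-- average of a function of one coordinate -/
lemma av_coord [Nonempty Ω] (i : ι) (g : Ω → ℝ) : av (fun e : ι → Ω => g (e i)) = av1 g := by
  have := av_mul_eq (Ω := Ω) i (fun _ => 1) (fun e => g (e i)) (av1 g) (fun _ _ => rfl)
    (fun e => by simp)
  simpa [av_const] using this

/-- average of a product of functions of two different coordinates -/
lemma av_coord_mul [Nonempty Ω] {i j : ι} (hij : i ≠ j) (g h : Ω → ℝ) :
    av (fun e : ι → Ω => g (e i) * h (e j)) = av1 g * av1 h := by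
  have := av_mul_eq (Ω := Ω) j (fun e => g (e i)) (fun e => h (e j)) (av1 h)
    (fun e x => by rw [Function.update_of_ne hij])
    (fun e => by simp)
  rw [this, av_coord, mul_comm]

lemma pr1_eq_card (P : Ω → Prop) [DecidablePred P] :
    pr1 P = ((Finset.univ.filter P).card : ℝ) / Fintype.card Ω := by
  classical
  unfold pr1 av1
  congr 1
  rw [Finset.card_filter]
  push_cast
  refine Finset.sum_congr rfl fun x _ => ?_
  split_ifs <;> rfl

lemma pr1_nonneg (P : Ω → Prop) : 0 ≤ pr1 P :=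
  av1_nonneg fun e => by split_ifs <;> norm_num

lemma av1_mono {f g : Ω → ℝ} (h : ∀ e, f e ≤ g e) : av1 f ≤ av1 g :=
  div_le_div_of_nonneg_right (Finset.sum_le_sum fun e _ => h e) (Nat.cast_nonneg _)

lemma av1_add (f g : Ω → ℝ) : av1 (fun e => f e + g e) = av1 f + av1 g := by
  unfold av1; rw [Finset.sum_add_distrib, add_div]

lemma av1_const_mul (c : ℝ) (f : Ω → ℝ) : av1 (fun e => c * f e) = c * av1 f := by
  unfold av1; rw [← Finset.mul_sum, mul_div_assoc]

lemma av1_zero : av1 (fun _ : Ω => (0 : ℝ)) = 0 := by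
  unfold av1; simp

lemma pr1_mono {P Q : Ω → Prop} (h : ∀ e, P e → Q e) : pr1 P ≤ pr1 Q := by
  apply av1_mono
  intro e
  by_cases hP : P e
  · simp [hP, h e hP]
  · simp only [hP, if_false]; split_ifs <;> norm_num

lemma pr1_or (P Q : Ω → Prop) : pr1 (fun e => P e ∨ Q e) ≤ pr1 P + pr1 Q := by
  classical
  unfold pr1
  rw [← av1_add]
  apply av1_mono
  intro e
  by_cases hP : P e <;> by_cases hQ : Q e <;> simp [hP, hQ]

/-- conditional bound for events: given the other coordinates, `P(B) ≤ b` -/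
lemma pr_and_le [Nonempty Ω] (i : ι) (P B : (ι → Ω) → Prop) (b : ℝ)
    (hi : ∀ e x, P (Function.update e i x) ↔ P e)
    (hB : ∀ e, P e → pr1 (fun x => B (Function.update e i x)) ≤ b) (hb : 0 ≤ b) :
    pr (fun e => P e ∧ B e) ≤ b * pr P := by
  classical
  have h := av_mul_le (Ω := Ω) i (fun e => if P e then (1 : ℝ) else 0)
    (fun e => if P e ∧ B e then (1 : ℝ) else 0) b (fun e => by positivity)
    (fun e x => by simp only [hi e x]) (by
      intro e
      by_cases hP : P e
      · refine le_trans (le_of_eq ?_) (hB e hP)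
        unfold pr1
        congr 1
        ext x
        simp only [hi e x, hP, true_and]
      · have : (fun x : Ω => if P (Function.update e i x) ∧ B (Function.update e i x) then (1 : ℝ)
            else 0) = fun _ => 0 := by
          ext x
          simp only [hi e x, hP, false_and, if_false]
        rw [this, av1_zero]
        exact hb)
  refine le_trans (le_of_eq ?_) h
  unfold pr
  congr 1
  ext e
  by_cases hP : P e <;> by_cases hB' : B e <;> simp [hP, hB']

lemma pr_true [Nonempty Ω] : pr (fun _ : ι → Ω => True) = 1 := by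
  unfold pr
  simp [av_const]

/-- unconditional version -/
lemma pr_le [Nonempty Ω] (i : ι) (B : (ι → Ω) → Prop) (b : ℝ)
    (hB : ∀ e, pr1 (fun x => B (Function.update e i x)) ≤ b) (hb : 0 ≤ b) : pr B ≤ b := by
  have := pr_and_le (Ω := Ω) i (fun _ => True) B b (fun _ _ => Iff.rfl) (fun e _ => hB e) hb
  simpa [pr_true] using this

/-! ### admissible sets -/

section adm

variable (Bad : Ω → Prop) (Cp : Finset ι → (ι → Ω) → Ω → Prop) (Pr : Ω → Ω → Prop)

/-- failure of the index `j` relative to the revealed set `A` -/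
def Wk (A : Finset ι) (e : ι → Ω) (j : ι) : Prop := Bad (e j) ∨ Cp A e (e j)

/-- strong coupling of two unrevealed indices, the first one good -/
def Qk (e : ι → Ω) (j k : ι) : Prop := ¬ Bad (e j) ∧ Pr (e j) (e k)

/-- the set `A` is admissible for the choices `e`: outside `A` everything is good and decoupled -/
def Adm (A : Finset ι) (e : ι → Ω) : Prop :=
  (∀ j, j ∉ A → ¬ Wk Bad Cp A e j) ∧
    ∀ j k, j ∉ A → k ∉ A → j ≠ k → ¬ Pr (e j) (e k)

lemma not_adm {A : Finset ι} {e : ι → Ω} (h : ¬ Adm Bad Cp Pr A e) :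
    (∃ j, j ∉ A ∧ Wk Bad Cp A e j) ∨
      ∃ j k, j ∉ A ∧ k ∉ A ∧ j ≠ k ∧ Qk Bad Pr e j k := by
  by_cases h1 : ∃ j, j ∉ A ∧ Wk Bad Cp A e j
  · exact Or.inl h1
  · right
    push Not at h1
    unfold Adm at h
    rw [not_and_or] at h
    rcases h with h | h
    · exact absurd (fun j hj => h1 j hj) h
    · push Not at h
      obtain ⟨j, k, hj, hk, hjk, hP⟩ := h
      exact ⟨j, k, hj, hk, hjk, fun hb => h1 j hj (Or.inl hb), hP⟩

variable {Bad Cp Pr}

variable {p q : ℝ}

/-- hypotheses on the densities -/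
structure Hyp (Bad : Ω → Prop) (Cp : Finset ι → (ι → Ω) → Ω → Prop) (Pr : Ω → Ω → Prop)
    (m : ℕ) (p q : ℝ) : Prop where
  p0 : 0 ≤ p
  q0 : 0 ≤ q
  bad : pr1 Bad ≤ p
  /-- the coupling predicate only looks at the revealed coordinates -/
  loc : ∀ (A : Finset ι) (e : ι → Ω) (i : ι) (x : Ω), i ∉ A → Cp A (Function.update e i x) = Cp A e
  cp : ∀ (A : Finset ι) (e : ι → Ω), A.card ≤ m → pr1 (Cp A e) ≤ q
  pair : ∀ x, ¬ Bad x → pr1 (Pr x) ≤ q

/-- a new index fails with conditional probability at most `p + q` -/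
lemma pr_and_Wk [Nonempty Ω] {m : ℕ} (H : Hyp Bad Cp Pr m p q) (A : Finset ι) (hA : A.card ≤ m)
    (i : ι) (hi : i ∉ A) (P : (ι → Ω) → Prop) (hP : ∀ e x, P (Function.update e i x) ↔ P e) :
    pr (fun e => P e ∧ Wk Bad Cp A e i) ≤ (p + q) * pr P := by
  refine pr_and_le i P _ (p + q) hP (fun e _ => ?_) (add_nonneg H.p0 H.q0)
  have : (fun x => Wk Bad Cp A (Function.update e i x) i) = fun x => Bad x ∨ Cp A e x := by
    ext x
    unfold Wk
    rw [H.loc A e i x hi, Function.update_self]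
  rw [this]
  exact (pr1_or _ _).trans (add_le_add H.bad (H.cp A e hA))

/-- a new pair is strongly coupled with conditional probability at most `q` -/
lemma pr_and_Qk [Nonempty Ω] {m : ℕ} (H : Hyp Bad Cp Pr m p q) (i l : ι) (hil : i ≠ l)
    (P : (ι → Ω) → Prop) (hP : ∀ e x, P (Function.update e i x) ↔ P e)
    (hP' : ∀ e x, P (Function.update e l x) ↔ P e) :
    pr (fun e => P e ∧ Qk Bad Pr e i l) ≤ q * pr P := by
  classical
  have h1 : pr (fun e => P e ∧ Qk Bad Pr e i l) =
      pr (fun e => (P e ∧ ¬ Bad (e i)) ∧ Pr (e i) (e l)) := by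
    congr 1; ext e; unfold Qk; rw [and_assoc]
  rw [h1]
  refine (pr_and_le l (fun e => P e ∧ ¬ Bad (e i)) (fun e => Pr (e i) (e l)) q ?_ ?_ H.q0).trans ?_
  · intro e x
    show P (Function.update e l x) ∧ ¬ Bad (Function.update e l x i) ↔ P e ∧ ¬ Bad (e i)
    rw [hP' e x, Function.update_of_ne hil]
  · intro e he
    have : (fun x => Pr (Function.update e l x i) (Function.update e l x l)) =
        fun x => Pr (e i) x := by
      ext x
      rw [Function.update_of_ne hil, Function.update_self]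
    rw [this]
    exact H.pair _ he.2
  · exact mul_le_mul_of_nonneg_left (pr_mono fun e he => he.1) H.q0

lemma pr_Wk [Nonempty Ω] {m : ℕ} (H : Hyp Bad Cp Pr m p q) (A : Finset ι) (hA : A.card ≤ m)
    (i : ι) (hi : i ∉ A) : pr (fun e => Wk Bad Cp A e i) ≤ p + q := by
  have := pr_and_Wk H A hA i hi (fun _ => True) (fun _ _ => Iff.rfl)
  simpa [pr_true] using this

lemma pr_Qk [Nonempty Ω] {m : ℕ} (H : Hyp Bad Cp Pr m p q) (i l : ι) (hil : i ≠ l) :
    pr (fun e => Qk Bad Pr e i l) ≤ q := by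
  have := pr_and_Qk H i l hil (fun _ => True) (fun _ _ => Iff.rfl) (fun _ _ => Iff.rfl)
  simpa [pr_true] using this

/-- `P(∅ not admissible) ≤ N (p+q) + N² q` -/
theorem pr_not_adm_zero [Nonempty Ω] {m : ℕ} (H : Hyp Bad Cp Pr m p q) :
    pr (fun e => ¬ Adm Bad Cp Pr ∅ e) ≤
      Fintype.card ι * (p + q) + (Fintype.card ι : ℝ) ^ 2 * q := by
  classical
  have h1 : pr (fun e => ¬ Adm Bad Cp Pr ∅ e) ≤
      pr (fun e => (∃ j ∈ (Finset.univ : Finset ι), Wk Bad Cp ∅ e j) ∨
        ∃ jk ∈ (Finset.univ : Finset (ι × ι)), jk.1 ≠ jk.2 ∧ Qk Bad Pr e jk.1 jk.2) := by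
    apply pr_mono
    intro e he
    rcases not_adm Bad Cp Pr he with ⟨j, _, hj⟩ | ⟨j, k, _, _, hjk, hQ⟩
    · exact Or.inl ⟨j, Finset.mem_univ _, hj⟩
    · exact Or.inr ⟨(j, k), Finset.mem_univ _, hjk, hQ⟩
  refine h1.trans ((pr_or _ _).trans (add_le_add ?_ ?_))
  · refine (pr_exists _ _).trans ?_
    refine (Finset.sum_le_sum fun j _ => pr_Wk H ∅ (by simp) j (by simp)).trans ?_
    rw [Finset.sum_const, nsmul_eq_mul, Finset.card_univ]
  · refine (pr_exists _ _).trans ?_
    refine (Finset.sum_le_sum (g := fun _ => q) fun jk _ => ?_).trans ?_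
    · by_cases h : jk.1 = jk.2
      · have : (fun e : ι → Ω => jk.1 ≠ jk.2 ∧ Qk Bad Pr e jk.1 jk.2) = fun _ => False := by
          ext e; simp [h]
        rw [this]
        unfold pr
        simp only [if_false]
        unfold av
        simpa using H.q0
      · refine le_trans (pr_mono fun e he => he.2) (pr_Qk H jk.1 jk.2 h)
    · rw [Finset.sum_const, nsmul_eq_mul, Finset.card_univ, Fintype.card_prod]
      push_cast
      rw [sq]

lemma pr_false : pr (fun _ : ι → Ω => False) = 0 := by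
  unfold pr av
  simp

/-- first failure of type `W`, and `{j}` is not admissible -/
lemma pr_case_one [Nonempty Ω] {m : ℕ} (hm : 1 ≤ m) (H : Hyp Bad Cp Pr m p q) (j : ι) :
    pr (fun e => Wk Bad Cp ∅ e j ∧ ¬ Adm Bad Cp Pr {j} e) ≤
      (Fintype.card ι : ℝ) * (p + q) ^ 2 + (Fintype.card ι : ℝ) ^ 2 * (q * (p + q)) := by
  classical
  have hpq : 0 ≤ p + q := add_nonneg H.p0 H.q0
  have h1 : pr (fun e => Wk Bad Cp ∅ e j ∧ ¬ Adm Bad Cp Pr {j} e) ≤
      pr (fun e => (∃ i ∈ (Finset.univ : Finset ι), i ≠ j ∧ Wk Bad Cp ∅ e j ∧ Wk Bad Cp {j} e i) ∨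
        ∃ il ∈ (Finset.univ : Finset (ι × ι)), (il.1 ≠ il.2 ∧ il.1 ≠ j ∧ il.2 ≠ j) ∧
          Wk Bad Cp ∅ e j ∧ Qk Bad Pr e il.1 il.2) := by
    apply pr_mono
    rintro e ⟨hW, he⟩
    rcases not_adm Bad Cp Pr he with ⟨i, hi, hj⟩ | ⟨i, l, hi, hl, hil, hQ⟩
    · exact Or.inl ⟨i, Finset.mem_univ _, by simpa using hi, hW, hj⟩
    · exact Or.inr ⟨(i, l), Finset.mem_univ _, ⟨hil, by simpa using hi, by simpa using hl⟩, hW, hQ⟩
  have hWup : ∀ (i : ι), i ≠ j → ∀ (e : ι → Ω) (x : Ω),
      Wk Bad Cp ∅ (Function.update e i x) j ↔ Wk Bad Cp ∅ e j := by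
    intro i hij e x
    unfold Wk
    rw [H.loc ∅ e i x (by simp), Function.update_of_ne (Ne.symm hij)]
  refine h1.trans ((pr_or _ _).trans (add_le_add ?_ ?_))
  · refine (pr_exists _ _).trans ?_
    refine (Finset.sum_le_sum (g := fun _ => (p + q) ^ 2) fun i _ => ?_).trans ?_
    · by_cases h : i = j
      · have : (fun e : ι → Ω => i ≠ j ∧ Wk Bad Cp ∅ e j ∧ Wk Bad Cp {j} e i) =
            fun _ => False := by
          ext e; simp [h]
        rw [this, pr_false]
        positivity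
      · refine le_trans (pr_mono fun e he => he.2) ?_
        refine (pr_and_Wk H {j} (by simpa using hm) i (by simpa using h) _ (hWup i h)).trans ?_
        rw [sq]
        exact mul_le_mul_of_nonneg_left (pr_Wk H ∅ (by simp) j (by simp)) hpq
    · rw [Finset.sum_const, nsmul_eq_mul, Finset.card_univ]
  · refine (pr_exists _ _).trans ?_
    refine (Finset.sum_le_sum (g := fun _ => q * (p + q)) fun il _ => ?_).trans ?_
    · by_cases h : il.1 ≠ il.2 ∧ il.1 ≠ j ∧ il.2 ≠ j
      · refine le_trans (pr_mono fun e he => he.2) ?_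
        refine (pr_and_Qk H il.1 il.2 h.1 _ (hWup _ h.2.1) (hWup _ h.2.2)).trans ?_
        exact mul_le_mul_of_nonneg_left (pr_Wk H ∅ (by simp) j (by simp)) H.q0
      · have : (fun e : ι → Ω => (il.1 ≠ il.2 ∧ il.1 ≠ j ∧ il.2 ≠ j) ∧
            Wk Bad Cp ∅ e j ∧ Qk Bad Pr e il.1 il.2) = fun _ => False := by
          ext e; simp only [h, false_and]
        rw [this, pr_false]
        exact mul_nonneg H.q0 hpq
    · rw [Finset.sum_const, nsmul_eq_mul, Finset.card_univ, Fintype.card_prod]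
      push_cast
      rw [sq (Fintype.card ι : ℝ)]

/-- first failure is a coupled pair `(j,k)`, and `{j,k}` is not admissible -/
lemma pr_case_two [Nonempty Ω] {m : ℕ} (hm : 2 ≤ m) (H : Hyp Bad Cp Pr m p q) (j k : ι)
    (hjk : j ≠ k) :
    pr (fun e => Qk Bad Pr e j k ∧ ¬ Adm Bad Cp Pr {j, k} e) ≤
      (Fintype.card ι : ℝ) * ((p + q) * q) + (Fintype.card ι : ℝ) ^ 2 * (q * q) := by
  classical
  have hpq : 0 ≤ p + q := add_nonneg H.p0 H.q0
  have h1 : pr (fun e => Qk Bad Pr e j k ∧ ¬ Adm Bad Cp Pr {j, k} e) ≤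
      pr (fun e => (∃ i ∈ (Finset.univ : Finset ι), (i ≠ j ∧ i ≠ k) ∧ Qk Bad Pr e j k ∧
          Wk Bad Cp {j, k} e i) ∨
        ∃ il ∈ (Finset.univ : Finset (ι × ι)), (il.1 ≠ il.2 ∧ (il.1 ≠ j ∧ il.1 ≠ k) ∧
          (il.2 ≠ j ∧ il.2 ≠ k)) ∧ Qk Bad Pr e j k ∧ Qk Bad Pr e il.1 il.2) := by
    apply pr_mono
    rintro e ⟨hW, he⟩
    rcases not_adm Bad Cp Pr he with ⟨i, hi, hj⟩ | ⟨i, l, hi, hl, hil, hQ⟩
    · exact Or.inl ⟨i, Finset.mem_univ _, by simpa using hi, hW, hj⟩
    · exact Or.inr ⟨(i, l), Finset.mem_univ _, ⟨hil, by simpa using hi, by simpa using hl⟩, hW, hQ⟩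
  have hQup : ∀ (i : ι), (i ≠ j ∧ i ≠ k) → ∀ (e : ι → Ω) (x : Ω),
      Qk Bad Pr (Function.update e i x) j k ↔ Qk Bad Pr e j k := by
    intro i hij e x
    unfold Qk
    rw [Function.update_of_ne (Ne.symm hij.1), Function.update_of_ne (Ne.symm hij.2)]
  refine h1.trans ((pr_or _ _).trans (add_le_add ?_ ?_))
  · refine (pr_exists _ _).trans ?_
    refine (Finset.sum_le_sum (g := fun _ => (p + q) * q) fun i _ => ?_).trans ?_
    · by_cases h : i ≠ j ∧ i ≠ k
      · refine le_trans (pr_mono fun e he => he.2) ?_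
        refine (pr_and_Wk H {j, k} ?_ i (by simpa using h) _ (hQup i h)).trans ?_
        · rw [Finset.card_pair hjk]; exact hm
        · exact mul_le_mul_of_nonneg_left (pr_Qk H j k hjk) hpq
      · have : (fun e : ι → Ω => (i ≠ j ∧ i ≠ k) ∧ Qk Bad Pr e j k ∧
            Wk Bad Cp {j, k} e i) = fun _ => False := by
          ext e; simp only [h, false_and]
        rw [this, pr_false]
        exact mul_nonneg hpq H.q0
    · rw [Finset.sum_const, nsmul_eq_mul, Finset.card_univ]
  · refine (pr_exists _ _).trans ?_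
    refine (Finset.sum_le_sum (g := fun _ => q * q) fun il _ => ?_).trans ?_
    · by_cases h : il.1 ≠ il.2 ∧ (il.1 ≠ j ∧ il.1 ≠ k) ∧ (il.2 ≠ j ∧ il.2 ≠ k)
      · refine le_trans (pr_mono fun e he => he.2) ?_
        refine (pr_and_Qk H il.1 il.2 h.1 _ (hQup _ h.2.1) (hQup _ h.2.2)).trans ?_
        exact mul_le_mul_of_nonneg_left (pr_Qk H j k hjk) H.q0
      · have : (fun e : ι → Ω => (il.1 ≠ il.2 ∧ (il.1 ≠ j ∧ il.1 ≠ k) ∧
            (il.2 ≠ j ∧ il.2 ≠ k)) ∧ Qk Bad Pr e j k ∧ Qk Bad Pr e il.1 il.2) =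
            fun _ => False := by
          ext e; simp only [h, false_and]
        rw [this, pr_false]
        exact mul_nonneg H.q0 H.q0
    · rw [Finset.sum_const, nsmul_eq_mul, Finset.card_univ, Fintype.card_prod]
      push_cast
      rw [sq (Fintype.card ι : ℝ)]

/-- **(30.3), two arbitrary inputs**: no admissible `A` with `|A| ≤ 2` has probability
`≤ 2 N² (p+q)² + 2 N³(..)`.  The cases: -/
theorem pr_not_adm_two [Nonempty Ω] {m : ℕ} (hm : 2 ≤ m) (H : Hyp Bad Cp Pr m p q) :
    pr (fun e => ∀ A : Finset ι, A.card ≤ 2 → ¬ Adm Bad Cp Pr A e) ≤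
      4 * (Fintype.card ι : ℝ) ^ 4 * (p + q) ^ 2 := by
  classical
  have hpq : 0 ≤ p + q := add_nonneg H.p0 H.q0
  set N : ℝ := (Fintype.card ι : ℝ) with hN
  by_cases hN0 : Fintype.card ι = 0
  · have : IsEmpty ι := Fintype.card_eq_zero_iff.1 hN0
    have h0 : (fun e : ι → Ω => ∀ A : Finset ι, A.card ≤ 2 → ¬ Adm Bad Cp Pr A e) =
        fun _ => False := by
      ext e
      simp only [iff_false]
      intro h
      exact h ∅ (by simp) ⟨fun j => isEmptyElim j, fun j => isEmptyElim j⟩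
    rw [h0, pr_false]
    positivity
  have hN1 : 1 ≤ N := by
    rw [hN]; exact_mod_cast Nat.one_le_iff_ne_zero.2 hN0
  have h1 : pr (fun e => ∀ A : Finset ι, A.card ≤ 2 → ¬ Adm Bad Cp Pr A e) ≤
      pr (fun e => (∃ j ∈ (Finset.univ : Finset ι), Wk Bad Cp ∅ e j ∧ ¬ Adm Bad Cp Pr {j} e) ∨
        ∃ jk ∈ (Finset.univ : Finset (ι × ι)), jk.1 ≠ jk.2 ∧ Qk Bad Pr e jk.1 jk.2 ∧
          ¬ Adm Bad Cp Pr {jk.1, jk.2} e) := by
    apply pr_mono
    intro e he
    rcases not_adm Bad Cp Pr (he ∅ (by simp)) with ⟨j, _, hj⟩ | ⟨j, k, _, _, hjk, hQ⟩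
    · exact Or.inl ⟨j, Finset.mem_univ _, hj, he _ (by simp)⟩
    · exact Or.inr ⟨(j, k), Finset.mem_univ _, hjk, hQ, he _ (by rw [Finset.card_pair hjk])⟩
  have h2 : pr (fun e => ∀ A : Finset ι, A.card ≤ 2 → ¬ Adm Bad Cp Pr A e) ≤
      N * (N * (p + q) ^ 2 + N ^ 2 * (q * (p + q))) +
        N ^ 2 * (N * ((p + q) * q) + N ^ 2 * (q * q)) := by
    refine h1.trans ((pr_or _ _).trans (add_le_add ?_ ?_))
    · refine (pr_exists _ _).trans ?_
      refine (Finset.sum_le_sum fun j _ => pr_case_one (by omega) H j).trans ?_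
      rw [Finset.sum_const, nsmul_eq_mul, Finset.card_univ]
    · refine (pr_exists _ _).trans ?_
      refine (Finset.sum_le_sum (g := fun _ => N * ((p + q) * q) + N ^ 2 * (q * q))
        fun jk _ => ?_).trans ?_
      · by_cases h : jk.1 = jk.2
        · have : (fun e : ι → Ω => jk.1 ≠ jk.2 ∧ Qk Bad Pr e jk.1 jk.2 ∧
              ¬ Adm Bad Cp Pr {jk.1, jk.2} e) = fun _ => False := by
            ext e; simp [h]
          rw [this, pr_false]
          have := H.q0
          positivity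
        · exact le_trans (pr_mono fun e he => he.2) (pr_case_two hm H jk.1 jk.2 h)
      · rw [Finset.sum_const, nsmul_eq_mul, Finset.card_univ, Fintype.card_prod]
        push_cast
        rw [← hN, ← sq N]
  refine h2.trans ?_
  have hq : q ≤ p + q := by linarith [H.p0]
  have hq0 := H.q0
  have e1 : q * (p + q) ≤ (p + q) ^ 2 := by nlinarith
  have e2 : q * q ≤ (p + q) ^ 2 := by nlinarith [H.p0]
  have hN2 : N ^ 2 ≤ N ^ 4 := pow_le_pow_right₀ hN1 (by norm_num)
  have hN3 : N ^ 3 ≤ N ^ 4 := pow_le_pow_right₀ hN1 (by norm_num)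
  have hs : 0 ≤ (p + q) ^ 2 := sq_nonneg _
  calc N * (N * (p + q) ^ 2 + N ^ 2 * (q * (p + q))) +
        N ^ 2 * (N * ((p + q) * q) + N ^ 2 * (q * q))
      = N ^ 2 * (p + q) ^ 2 + N ^ 3 * (q * (p + q)) + N ^ 3 * (q * (p + q)) +
        N ^ 4 * (q * q) := by ring
    _ ≤ N ^ 4 * (p + q) ^ 2 + N ^ 4 * (p + q) ^ 2 + N ^ 4 * (p + q) ^ 2 +
        N ^ 4 * (p + q) ^ 2 := by
        gcongr
    _ = _ := by ring

/-- **(30.3), one arbitrary input**: no admissible `A` with `|A| ≤ 1`. -/
theorem pr_not_adm_one [Nonempty Ω] {m : ℕ} (hm : 1 ≤ m) (H : Hyp Bad Cp Pr m p q) :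
    pr (fun e => ∀ A : Finset ι, A.card ≤ 1 → ¬ Adm Bad Cp Pr A e) ≤
      2 * (Fintype.card ι : ℝ) ^ 3 * (p + q) ^ 2 + (Fintype.card ι : ℝ) ^ 2 * q := by
  classical
  have hpq : 0 ≤ p + q := add_nonneg H.p0 H.q0
  set N : ℝ := (Fintype.card ι : ℝ) with hN
  by_cases hN0 : Fintype.card ι = 0
  · have : IsEmpty ι := Fintype.card_eq_zero_iff.1 hN0
    have h0 : (fun e : ι → Ω => ∀ A : Finset ι, A.card ≤ 1 → ¬ Adm Bad Cp Pr A e) =
        fun _ => False := by
      ext e
      simp only [iff_false]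
      intro h
      exact h ∅ (by simp) ⟨fun j => isEmptyElim j, fun j => isEmptyElim j⟩
    rw [h0, pr_false]
    have := H.q0
    positivity
  have hN1 : 1 ≤ N := by
    rw [hN]; exact_mod_cast Nat.one_le_iff_ne_zero.2 hN0
  have h1 : pr (fun e => ∀ A : Finset ι, A.card ≤ 1 → ¬ Adm Bad Cp Pr A e) ≤
      pr (fun e => (∃ j ∈ (Finset.univ : Finset ι), Wk Bad Cp ∅ e j ∧ ¬ Adm Bad Cp Pr {j} e) ∨
        ∃ jk ∈ (Finset.univ : Finset (ι × ι)), jk.1 ≠ jk.2 ∧ Qk Bad Pr e jk.1 jk.2) := by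
    apply pr_mono
    intro e he
    rcases not_adm Bad Cp Pr (he ∅ (by simp)) with ⟨j, _, hj⟩ | ⟨j, k, _, _, hjk, hQ⟩
    · exact Or.inl ⟨j, Finset.mem_univ _, hj, he _ (by simp)⟩
    · exact Or.inr ⟨(j, k), Finset.mem_univ _, hjk, hQ⟩
  have h2 : pr (fun e => ∀ A : Finset ι, A.card ≤ 1 → ¬ Adm Bad Cp Pr A e) ≤
      N * (N * (p + q) ^ 2 + N ^ 2 * (q * (p + q))) + N ^ 2 * q := by
    refine h1.trans ((pr_or _ _).trans (add_le_add ?_ ?_))
    · refine (pr_exists _ _).trans ?_
      refine (Finset.sum_le_sum fun j _ => pr_case_one hm H j).trans ?_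
      rw [Finset.sum_const, nsmul_eq_mul, Finset.card_univ]
    · refine (pr_exists _ _).trans ?_
      refine (Finset.sum_le_sum (g := fun _ => q) fun jk _ => ?_).trans ?_
      · by_cases h : jk.1 = jk.2
        · have : (fun e : ι → Ω => jk.1 ≠ jk.2 ∧ Qk Bad Pr e jk.1 jk.2) = fun _ => False := by
            ext e; simp [h]
          rw [this, pr_false]
          exact H.q0
        · exact le_trans (pr_mono fun e he => he.2) (pr_Qk H jk.1 jk.2 h)
      · rw [Finset.sum_const, nsmul_eq_mul, Finset.card_univ, Fintype.card_prod]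
        push_cast
        rw [← hN, ← sq N]
  refine h2.trans ?_
  have hq : q ≤ p + q := by linarith [H.p0]
  have hq0 := H.q0
  have e1 : q * (p + q) ≤ (p + q) ^ 2 := by nlinarith
  have hN2 : N ^ 2 ≤ N ^ 3 := pow_le_pow_right₀ hN1 (by norm_num)
  have hs : 0 ≤ (p + q) ^ 2 := sq_nonneg _
  calc N * (N * (p + q) ^ 2 + N ^ 2 * (q * (p + q))) + N ^ 2 * q
      = N ^ 2 * (p + q) ^ 2 + N ^ 3 * (q * (p + q)) + N ^ 2 * q := by ring
    _ ≤ N ^ 3 * (p + q) ^ 2 + N ^ 3 * (p + q) ^ 2 + N ^ 2 * q := by gcongr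
    _ = _ := by ring

end adm

/-! ### expectations of sums (variance) -/

/-- complex average over `Ω` -/
noncomputable def avc (f : Ω → ℂ) : ℂ := (∑ x, f x) / (Fintype.card Ω : ℂ)

lemma avc_re (f : Ω → ℂ) : (avc f).re = av1 fun x => (f x).re := by
  unfold avc av1
  have : ((Fintype.card Ω : ℝ) : ℂ) = (Fintype.card Ω : ℂ) := by push_cast; rfl
  rw [← this, Complex.div_ofReal_re, Complex.re_sum]

lemma avc_im (f : Ω → ℂ) : (avc f).im = av1 fun x => (f x).im := by
  unfold avc av1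
  have : ((Fintype.card Ω : ℝ) : ℂ) = (Fintype.card Ω : ℂ) := by push_cast; rfl
  rw [← this, Complex.div_ofReal_im, Complex.im_sum]

/-- real version of the second moment of a sum of iid terms -/
lemma av_sum_sq_real [Nonempty Ω] (g : ι → Ω → ℝ) :
    av (fun e : ι → Ω => (∑ i, g i (e i)) ^ 2) ≤
      (∑ i, av1 fun x => (g i x) ^ 2) + (∑ i, av1 (g i)) ^ 2 := by
  classical
  have h1 : (fun e : ι → Ω => (∑ i, g i (e i)) ^ 2) =
      fun e => ∑ i, ∑ j, g i (e i) * g j (e j) := by
    ext e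
    rw [sq, Finset.sum_mul_sum]
  rw [h1, av_sum]
  have h2 : ∀ i : ι, av (fun e : ι → Ω => ∑ j, g i (e i) * g j (e j)) =
      av1 (fun x => g i x ^ 2) - av1 (g i) ^ 2 + ∑ j, av1 (g i) * av1 (g j) := by
    intro i
    rw [av_sum, ← Finset.add_sum_erase _ _ (Finset.mem_univ i),
      ← Finset.add_sum_erase (a := i) (f := fun j => av1 (g i) * av1 (g j)) _
        (Finset.mem_univ i)]
    have h3 : av (fun e : ι → Ω => g i (e i) * g i (e i)) = av1 (fun x => g i x ^ 2) := by
      rw [← av_coord i (fun x => g i x ^ 2)]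
      congr 1; ext e; ring
    rw [h3]
    have h4 : ∑ j ∈ Finset.univ.erase i, av (fun e : ι → Ω => g i (e i) * g j (e j)) =
        ∑ j ∈ Finset.univ.erase i, av1 (g i) * av1 (g j) := by
      refine Finset.sum_congr rfl fun j hj => ?_
      exact av_coord_mul (Finset.ne_of_mem_erase hj).symm _ _
    rw [h4]
    ring
  rw [Finset.sum_congr rfl fun i _ => h2 i, Finset.sum_add_distrib]
  have h5 : (∑ i, ∑ j, av1 (g i) * av1 (g j)) = (∑ i, av1 (g i)) ^ 2 := by
    rw [sq, Finset.sum_mul_sum]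
  rw [h5]
  have h6 : ∑ i, (av1 (fun x => g i x ^ 2) - av1 (g i) ^ 2) ≤ ∑ i, av1 (fun x => g i x ^ 2) :=
    Finset.sum_le_sum fun i _ => by linarith [sq_nonneg (av1 (g i))]
  linarith

/-- second moment of a sum of independent complex terms -/
lemma av_norm_sum_sq [Nonempty Ω] (g : ι → Ω → ℂ) :
    av (fun e : ι → Ω => ‖∑ i, g i (e i)‖ ^ 2) ≤
      (∑ i, av1 fun x => ‖g i x‖ ^ 2) + ‖∑ i, avc (g i)‖ ^ 2 := by
  have h1 : (fun e : ι → Ω => ‖∑ i, g i (e i)‖ ^ 2) =
      fun e => (∑ i, (g i (e i)).re) ^ 2 + (∑ i, (g i (e i)).im) ^ 2 := by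
    ext e
    rw [← Complex.normSq_eq_norm_sq, Complex.normSq_apply, Complex.re_sum, Complex.im_sum]
    ring
  rw [h1, av_add]
  have hr := av_sum_sq_real (ι := ι) (fun i x => (g i x).re)
  have hi := av_sum_sq_real (ι := ι) (fun i x => (g i x).im)
  refine (add_le_add hr hi).trans (le_of_eq ?_)
  have h2 : ‖∑ i, avc (g i)‖ ^ 2 = (∑ i, av1 fun x => (g i x).re) ^ 2 +
      (∑ i, av1 fun x => (g i x).im) ^ 2 := by
    rw [← Complex.normSq_eq_norm_sq, Complex.normSq_apply, Complex.re_sum, Complex.im_sum]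
    rw [Finset.sum_congr rfl fun i _ => avc_re (g i), Finset.sum_congr rfl fun i _ => avc_im (g i)]
    ring
  have h3 : (∑ i, av1 fun x => ‖g i x‖ ^ 2) =
      (∑ i, av1 fun x => (g i x).re ^ 2) + ∑ i, av1 fun x => (g i x).im ^ 2 := by
    rw [← Finset.sum_add_distrib]
    refine Finset.sum_congr rfl fun i _ => ?_
    rw [← av1_add]
    congr 1
    ext x
    rw [← Complex.normSq_eq_norm_sq, Complex.normSq_apply]
    ring
  rw [h2, h3]
  ring

end Crest.Agent.R166.Rev811
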