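import Mathlib

/-!
# Row 166, section 70: a positive functional on the continuous functions is a measure (helper356)

Also: limits of positive functionals which are eventually constant on polynomials.
-/

set_option autoImplicit false

open MeasureTheory Filter Topology

namespace Crest.Agent.R166.Riesz356

/-- positive normalised functional on the continuous functions on `[-R,R]` -/
structure Fn (R : ℝ) (L : (ℝ → ℝ) → ℝ) : Prop where
  add : ∀ f g, Continuous f → Continuous g → L (fun x => f x + g x) = L f + L g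
  mul : ∀ c f, Continuous f → L (fun x => c * f x) = c * L f
  pos : ∀ f, Continuous f → (∀ x ∈ Set.Icc (-R) R, 0 ≤ f x) → 0 ≤ L f
  one : L (fun _ => 1) = 1

variable {R : ℝ} {L : (ℝ → ℝ) → ℝ}

lemma Fn.sub (h : Fn R L) {f g : ℝ → ℝ} (hf : Continuous f) (hg : Continuous g) :
    L (fun x => f x - g x) = L f - L g := by
  have h1 := h.add f (fun x => (-1) * g x) hf (continuous_const.mul hg)
  rw [h.mul (-1) g hg] at h1
  have h2 : (fun x => f x + -1 * g x) = fun x => f x - g x := by funext x; ring
  rw [h2] at h1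
  rw [h1]; ring

lemma Fn.mono (h : Fn R L) {f g : ℝ → ℝ} (hf : Continuous f) (hg : Continuous g)
    (hfg : ∀ x ∈ Set.Icc (-R) R, f x ≤ g x) : L f ≤ L g := by
  have := h.pos (fun x => g x - f x) (hg.sub hf) (fun x hx => sub_nonneg.2 (hfg x hx))
  rw [h.sub hg hf] at this
  linarith

lemma Fn.congr (h : Fn R L) {f g : ℝ → ℝ} (hf : Continuous f) (hg : Continuous g)
    (hfg : ∀ x ∈ Set.Icc (-R) R, f x = g x) : L f = L g :=
  le_antisymm (h.mono hf hg fun x hx => (hfg x hx).le) (h.mono hg hf fun x hx => (hfg x hx).ge)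

lemma Fn.const (h : Fn R L) (c : ℝ) : L (fun _ => c) = c := by
  have := h.mul c (fun _ => 1) continuous_const
  simpa [h.one] using this

lemma Fn.abs_sub_le (h : Fn R L) {f g : ℝ → ℝ} (hf : Continuous f) (hg : Continuous g) {ε : ℝ}
    (hfg : ∀ x ∈ Set.Icc (-R) R, |f x - g x| ≤ ε) : |L f - L g| ≤ ε := by
  rw [← h.sub hf hg, abs_le]
  constructor
  · rw [← h.const (-ε)]
    exact h.mono continuous_const (hf.sub hg) fun x hx => (abs_le.1 (hfg x hx)).1
  · rw [← h.const ε]
    exact h.mono (hf.sub hg) continuous_const fun x hx => (abs_le.1 (hfg x hx)).2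

/-- Riesz representation -/
theorem Fn.exists_measure (h : Fn R L) (hR : 0 ≤ R) :
    ∃ ν : Measure ℝ, IsProbabilityMeasure ν ∧ ν (Set.Icc (-R) R)ᶜ = 0 ∧
      ∀ f, Continuous f → ∫ x, f x ∂ν = L f := by
  have hRR : -R ≤ R := by linarith
  let X := Set.Icc (-R) R
  let pr : ℝ → X := Set.projIcc (-R) R hRR
  have hpr : Continuous pr := continuous_projIcc
  let Λ0 : CompactlySupportedContinuousMap X ℝ →ₗ[ℝ] ℝ :=
    { toFun := fun g => L fun t => g (pr t)
      map_add' := fun g1 g2 => h.add _ _ (g1.continuous.comp hpr) (g2.continuous.comp hpr)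
      map_smul' := fun c g => h.mul c _ (g.continuous.comp hpr) }
  let Λ : CompactlySupportedContinuousMap X ℝ →ₚ[ℝ] ℝ := PositiveLinearMap.mk₀ Λ0
    (fun g hg => h.pos _ (g.continuous.comp hpr) fun x _ => hg (pr x))
  let ν0 : Measure X := RealRMK.rieszMeasure Λ
  have hint : ∀ g : C(X, ℝ), ∫ x, g x ∂ν0 = L fun t => g (pr t) := by
    intro g
    let g' : CompactlySupportedContinuousMap X ℝ := ⟨g, HasCompactSupport.of_compactSpace _⟩
    exact RealRMK.integral_rieszMeasure Λ g'
  have hprob : IsProbabilityMeasure ν0 := by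
    have h1 := hint (ContinuousMap.const X 1)
    simp only [ContinuousMap.const_apply] at h1
    rw [h.one, integral_const, smul_eq_mul, mul_one] at h1
    refine ⟨?_⟩
    rw [measureReal_def] at h1
    rw [← ENNReal.ofReal_toReal (measure_ne_top ν0 Set.univ), h1, ENNReal.ofReal_one]
  refine ⟨ν0.map Subtype.val, ?_, ?_, ?_⟩
  · exact Measure.isProbabilityMeasure_map measurable_subtype_coe.aemeasurable
  · rw [Measure.map_apply measurable_subtype_coe measurableSet_Icc.compl]
    have : (Subtype.val : X → ℝ) ⁻¹' (Set.Icc (-R) R)ᶜ = ∅ := by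
      ext x
      simp only [Set.mem_preimage, Set.mem_compl_iff, Set.mem_empty_iff_false, iff_false, not_not]
      exact x.2
    rw [this, measure_empty]
  · intro f hf
    rw [integral_map measurable_subtype_coe.aemeasurable hf.aestronglyMeasurable]
    have h1 := hint ⟨fun x => f x.1, hf.comp continuous_subtype_val⟩
    simp only [ContinuousMap.coe_mk] at h1
    rw [h1]
    apply h.congr ((hf.comp continuous_subtype_val).comp hpr) hf
    intro x hx
    simp only [Function.comp, pr, Set.projIcc_of_mem hRR hx]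

/-- limit of positive functionals which converge on polynomials -/
theorem exists_lim {Ln : ℕ → (ℝ → ℝ) → ℝ} (h : ∀ n, Fn R (Ln n))
    (hp : ∀ k : ℕ, ∃ l, Tendsto (fun n => Ln n fun x => x ^ k) atTop (𝓝 l)) :
    ∃ L, Fn R L ∧ ∀ f, Continuous f → Tendsto (fun n => Ln n f) atTop (𝓝 (L f)) := by
  -- polynomials
  have hpoly : ∀ p : Polynomial ℝ, ∃ l, Tendsto (fun n => Ln n fun x => p.eval x) atTop (𝓝 l) := by
    intro p
    induction p using Polynomial.induction_on' with
    | add p q hp hq =>
      obtain ⟨l1, h1⟩ := hp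
      obtain ⟨l2, h2⟩ := hq
      refine ⟨l1 + l2, (h1.add h2).congr fun n => ?_⟩
      rw [← (h n).add _ _ p.continuous q.continuous]
      simp
    | monomial k a =>
      obtain ⟨l, hl⟩ := hp k
      refine ⟨a * l, (hl.const_mul a).congr fun n => ?_⟩
      rw [← (h n).mul a _ (continuous_pow k)]
      simp
  have hcau : ∀ f, Continuous f → CauchySeq fun n => Ln n f := by
    intro f hf
    rw [Metric.cauchySeq_iff']
    intro ε hε
    obtain ⟨p, hpf⟩ := exists_polynomial_near_of_continuousOn (-R) R f hf.continuousOn (ε / 4)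
      (by linarith)
    obtain ⟨l, hl⟩ := hpoly p
    obtain ⟨N, hN⟩ := Metric.cauchySeq_iff'.1 hl.cauchySeq (ε / 4) (by linarith)
    refine ⟨N, fun n hn => ?_⟩
    have h1 : ∀ m, |Ln m f - Ln m fun x => p.eval x| ≤ ε / 4 := fun m =>
      (h m).abs_sub_le hf p.continuous fun x hx => by
        rw [abs_sub_comm]; exact (hpf x hx).le
    have h2 := hN n hn
    rw [Real.dist_eq] at h2 ⊢
    have h3 := h1 n
    have h4 := h1 N
    calc |Ln n f - Ln N f| = |(Ln n f - Ln n fun x => p.eval x) +
          ((Ln n fun x => p.eval x) - Ln N fun x => p.eval x) -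
          (Ln N f - Ln N fun x => p.eval x)| := by congr 1; ring
      _ ≤ |Ln n f - Ln n fun x => p.eval x| +
          |(Ln n fun x => p.eval x) - Ln N fun x => p.eval x| +
          |Ln N f - Ln N fun x => p.eval x| := by
          refine (abs_sub _ _).trans ?_
          gcongr
          exact abs_add_le _ _
      _ < ε := by linarith
  have hex : ∀ f, ∃ l, Continuous f → Tendsto (fun n => Ln n f) atTop (𝓝 l) := by
    intro f
    by_cases hf : Continuous f
    · obtain ⟨l, hl⟩ := cauchySeq_tendsto_of_complete (hcau f hf)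
      exact ⟨l, fun _ => hl⟩
    · exact ⟨0, fun h => absurd h hf⟩
  choose L hL using hex
  refine ⟨L, ⟨?_, ?_, ?_, ?_⟩, fun f hf => hL f hf⟩
  · intro f g hf hg
    refine tendsto_nhds_unique (hL _ (hf.add hg)) (((hL f hf).add (hL g hg)).congr fun n => ?_)
    rw [← (h n).add f g hf hg]
  · intro c f hf
    refine tendsto_nhds_unique (hL _ (continuous_const.mul hf))
      (((hL f hf).const_mul c).congr fun n => ?_)
    rw [← (h n).mul c f hf]
  · intro f hf hpos
    exact ge_of_tendsto' (hL f hf) fun n => (h n).pos f hf hpos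
  · refine tendsto_nhds_unique (hL _ continuous_const) (tendsto_const_nhds.congr fun n => ?_)
    rw [(h n).one]

end Crest.Agent.R166.Riesz356
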