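import Crest.Agent.R166.S2P_811
import Crest.Agent.R166.TreeE2_263

/-!
Row 166, section 31.3 (helper263): `S2P` unconditional.
-/

set_option autoImplicit false

namespace Crest.Agent.R166.S2Pf263

theorem e2F (d : ℕ) [NeZero d] : S2P811.E2F d := TreeE2263.e2 d

theorem s2P {d : ℕ} [NeZero d] (hd : 3 ≤ d) : Spec31.S2P d := S2P811.s2p_of hd (e2F d)

end Crest.Agent.R166.S2Pf263
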