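import Crest.Agent.R166.FrameB_974

/-!
Row 166 (helper974): pigeonhole over dyadic scales for `Im p` (section 42.7).
-/

set_option autoImplicit false
set_option linter.unusedSectionVars false

open Matrix Complex

namespace Crest.Agent.R166.FrameB974

open Crest.Agent.R166.Res789 Crest.Agent.R166.ScaleD355

variable {V : Type*} [Fintype V] [DecidableEq V]

lemma transpose_of_herm {H : Matrix V V ℝ} (hH : H.IsHermitian) : Hᵀ = H := by
  have h := hH.eq
  rw [Matrix.conjTranspose_eq_transpose_of_trivial] at h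
  exact h

/-- coefficients in the eigenbasis -/
noncomputable def cf {H : Matrix V V ℝ} (hH : H.IsHermitian) (w : V → ℝ) (j : V) : ℝ :=
  ∑ v, hH.eigenvectorBasis j v * w v

lemma sum_cf_mul {H : Matrix V V ℝ} (hH : H.IsHermitian) (w w' : V → ℝ) :
    ∑ j, cf hH w j * cf hH w' j = ∑ v, w v * w' v := by
  have h := hH.eigenvectorBasis.sum_inner_mul_inner (WithLp.toLp 2 w) (WithLp.toLp 2 w')
  simp only [EuclideanSpace.inner_eq_star_dotProduct, dotProduct, star_trivial, Pi.star_apply] at h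
  have e1 : ∀ j, cf hH w j = ∑ v, hH.eigenvectorBasis j v * w v := fun _ => rfl
  have e2 : ∀ j, cf hH w' j = ∑ v, w' v * hH.eigenvectorBasis j v := fun j =>
    Finset.sum_congr rfl fun v _ => mul_comm _ _
  calc ∑ j, cf hH w j * cf hH w' j = ∑ v, w' v * w v := by
        rw [← h]
        exact Finset.sum_congr rfl fun j _ => by rw [e1, e2]
    _ = _ := Finset.sum_congr rfl fun v _ => mul_comm _ _

lemma cf_mulVec {H : Matrix V V ℝ} (hH : H.IsHermitian) (w : V → ℝ) (j : V) :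
    cf hH (H *ᵥ w) j = hH.eigenvalues j * cf hH w j := by
  have h1 := hH.mulVec_eigenvectorBasis j
  have h2 : ∀ y, ∑ v, hH.eigenvectorBasis j v * H v y = hH.eigenvalues j * hH.eigenvectorBasis j y := by
    intro y
    have := congrFun h1 y
    simp only [Matrix.mulVec, dotProduct, Pi.smul_apply, smul_eq_mul] at this
    rw [← this]
    refine Finset.sum_congr rfl fun v _ => ?_
    rw [mul_comm]
    congr 1
    have := congrFun (congrFun hH y) v
    simpa using this
  unfold cf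
  simp only [Matrix.mulVec, dotProduct, Finset.mul_sum]
  rw [Finset.sum_comm]
  refine Finset.sum_congr rfl fun y _ => ?_
  rw [← mul_assoc, ← h2, Finset.sum_mul]
  exact Finset.sum_congr rfl fun v _ => by ring

lemma cf_add {H : Matrix V V ℝ} (hH : H.IsHermitian) (w w' : V → ℝ) (j : V) :
    cf hH (fun v => w v + w' v) j = cf hH w j + cf hH w' j := by
  simp only [cf, mul_add, Finset.sum_add_distrib]

lemma cf_smul {H : Matrix V V ℝ} (hH : H.IsHermitian) (c : ℝ) (w : V → ℝ) (j : V) :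
    cf hH (fun v => c * w v) j = c * cf hH w j := by
  simp only [cf, Finset.mul_sum]
  exact Finset.sum_congr rfl fun v _ => by ring

/-- real and imaginary parts of `(H - z) u = ξ` -/
lemma pv_eqs {H : Matrix V V ℝ} (hH : Hᵀ = H) {E η : ℝ} (hη : 0 < η) (ξ : V → ℝ) (v : V) :
    (H *ᵥ (fun y => (pv H ξ E η y).re)) v - E * (pv H ξ E η v).re + η * (pv H ξ E η v).im = 0 ∧
    (H *ᵥ (fun y => (pv H ξ E η y).im)) v - E * (pv H ξ E η v).im - η * (pv H ξ E η v).re
      = -(η * ξ v) := by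
  have hz : 0 < (ze E η).im := by simpa [ze] using hη
  have h1 := sub_mul_Res hH hz
  have h2 : ((cx H - (ze E η) • (1 : Matrix V V ℂ)) * Res789.Res H (ze E η)) *ᵥ (fun y => (ξ y : ℂ))
      = fun y => (ξ y : ℂ) := by rw [h1, Matrix.one_mulVec]
  have h3 := congrFun h2 v
  rw [← Matrix.mulVec_mulVec] at h3
  have h4 : (∑ y, (H v y : ℂ) * pv H ξ E η y) - (ze E η) * pv H ξ E η v
      = -(I * (η : ℂ)) * (ξ v : ℂ) := by
    rw [← h3]
    simp only [Matrix.mulVec, dotProduct]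
    have e1 : ∀ y, pv H ξ E η y = -(I * (η : ℂ)) * ∑ x, Res789.Res H (ze E η) y x * (ξ x : ℂ) :=
      fun _ => rfl
    simp only [e1, Matrix.sub_apply, sub_mul, Finset.sum_sub_distrib, cx_apply, Matrix.smul_apply,
      Matrix.one_apply, smul_eq_mul, mul_sub]
    congr 1
    · rw [Finset.mul_sum]
      exact Finset.sum_congr rfl fun y _ => by ring
    · have : ∑ y, (ze E η * if v = y then (1 : ℂ) else 0) * ∑ x, Res789.Res H (ze E η) y x * (ξ x : ℂ)
          = ze E η * ∑ x, Res789.Res H (ze E η) v x * (ξ x : ℂ) := by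
        rw [Finset.sum_eq_single v]
        · simp
        · intro b _ hb
          rw [if_neg (Ne.symm hb)]
          ring
        · intro hv
          exact absurd (Finset.mem_univ v) hv
      rw [this]
      ring
  constructor
  · have h5 := congrArg Complex.re h4
    simp only [Complex.sub_re, Complex.re_sum, Complex.re_ofReal_mul, ze] at h5
    simp only [Matrix.mulVec, dotProduct]
    simp at h5
    linarith
  · have h5 := congrArg Complex.im h4
    simp only [Complex.sub_im, Complex.im_sum, Complex.im_ofReal_mul, ze] at h5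
    simp only [Matrix.mulVec, dotProduct]
    simp at h5
    linarith

lemma cf_pv {H : Matrix V V ℝ} (hH : H.IsHermitian) {E η : ℝ} (hη : 0 < η) (ξ : V → ℝ) (j : V) :
    cf hH (fun v => (pv H ξ E η v).re) j
      = η ^ 2 / ((hH.eigenvalues j - E) ^ 2 + η ^ 2) * cf hH ξ j ∧
    cf hH (fun v => (pv H ξ E η v).im) j
      = -(η * (hH.eigenvalues j - E)) / ((hH.eigenvalues j - E) ^ 2 + η ^ 2) * cf hH ξ j := by
  have hH' : Hᵀ = H := transpose_of_herm hH
  set A := cf hH (fun v => (pv H ξ E η v).re) j with hA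
  set B := cf hH (fun v => (pv H ξ E η v).im) j with hB
  set x := hH.eigenvalues j - E with hx
  have e1 : x * A + η * B = 0 := by
    have : cf hH (fun v => (H *ᵥ (fun y => (pv H ξ E η y).re)) v - E * (pv H ξ E η v).re
        + η * (pv H ξ E η v).im) j = 0 := by
      simp only [(pv_eqs hH' hη ξ _).1]
      simp [cf]
    have e2 : cf hH (fun v => (H *ᵥ (fun y => (pv H ξ E η y).re)) v - E * (pv H ξ E η v).re
        + η * (pv H ξ E η v).im) j = cf hH (H *ᵥ (fun y => (pv H ξ E η y).re)) j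
          - E * A + η * B := by
      simp only [cf, hA, hB, Finset.mul_sum, ← Finset.sum_sub_distrib, ← Finset.sum_add_distrib]
      exact Finset.sum_congr rfl fun v _ => by ring
    rw [e2, cf_mulVec] at this
    rw [hx]
    linarith
  have e2 : x * B - η * A = -(η * cf hH ξ j) := by
    have : cf hH (fun v => (H *ᵥ (fun y => (pv H ξ E η y).im)) v - E * (pv H ξ E η v).im
        - η * (pv H ξ E η v).re) j = -(η * cf hH ξ j) := by
      simp only [(pv_eqs hH' hη ξ _).2]
      simp only [cf, Finset.mul_sum, ← Finset.sum_neg_distrib]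
      exact Finset.sum_congr rfl fun v _ => by ring
    have e2 : cf hH (fun v => (H *ᵥ (fun y => (pv H ξ E η y).im)) v - E * (pv H ξ E η v).im
        - η * (pv H ξ E η v).re) j = cf hH (H *ᵥ (fun y => (pv H ξ E η y).im)) j
          - E * B - η * A := by
      simp only [cf, hA, hB, Finset.mul_sum, ← Finset.sum_sub_distrib]
      exact Finset.sum_congr rfl fun v _ => by ring
    rw [e2, cf_mulVec] at this
    rw [hx]
    linarith
  have hpos : 0 < x ^ 2 + η ^ 2 := by positivity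
  constructor
  · rw [div_mul_eq_mul_div, eq_div_iff hpos.ne']
    linear_combination x * e1 - η * e2
  · rw [div_mul_eq_mul_div, eq_div_iff hpos.ne']
    linear_combination x * e2 + η * e1

lemma scal_ineq (x η : ℝ) (hη : 0 < η) :
    (-(η * x) / (x ^ 2 + η ^ 2)) ^ 2 ≤
      (4 / 3) * (η ^ 2 / (x ^ 2 + η ^ 2) - (η / 2) ^ 2 / (x ^ 2 + (η / 2) ^ 2)) := by
  have h1 : 0 < x ^ 2 + η ^ 2 := by positivity
  have h2 : 0 < x ^ 2 + (η / 2) ^ 2 := by positivity
  have e : (4 / 3 : ℝ) * (η ^ 2 / (x ^ 2 + η ^ 2) - (η / 2) ^ 2 / (x ^ 2 + (η / 2) ^ 2))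
      = η ^ 2 * x ^ 2 / ((x ^ 2 + η ^ 2) * (x ^ 2 + (η / 2) ^ 2)) := by
    field_simp
    ring
  rw [e, div_pow, div_le_div_iff₀ (by positivity) (by positivity)]
  have h3 : x ^ 2 + (η / 2) ^ 2 ≤ x ^ 2 + η ^ 2 := by nlinarith
  have h4 : (-(η * x)) ^ 2 = η ^ 2 * x ^ 2 := by ring
  rw [h4]
  have h5 : 0 ≤ η ^ 2 * x ^ 2 := by positivity
  calc η ^ 2 * x ^ 2 * ((x ^ 2 + η ^ 2) * (x ^ 2 + (η / 2) ^ 2))
      ≤ η ^ 2 * x ^ 2 * ((x ^ 2 + η ^ 2) * (x ^ 2 + η ^ 2)) := by gcongr
    _ = _ := by ring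

/-- one dyadic scale -/
theorem sum_im_sq_le {H : Matrix V V ℝ} (hH : H.IsHermitian) {E η : ℝ} (hη : 0 < η) (ξ : V → ℝ) :
    ∑ v, ((pv H ξ E η v).im) ^ 2 ≤ (4 / 3) * (∑ v, ξ v * (pv H ξ E η v).re -
      ∑ v, ξ v * (pv H ξ E (η / 2) v).re) := by
  have hη2 : 0 < η / 2 := by positivity
  have e1 : ∑ v, ((pv H ξ E η v).im) ^ 2 = ∑ j, (cf hH (fun v => (pv H ξ E η v).im) j) ^ 2 := by
    have := sum_cf_mul hH (fun v => (pv H ξ E η v).im) (fun v => (pv H ξ E η v).im)
    simp only [← sq] at this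
    exact this.symm
  rw [e1, ← sum_cf_mul hH ξ (fun v => (pv H ξ E η v).re),
    ← sum_cf_mul hH ξ (fun v => (pv H ξ E (η / 2) v).re), ← Finset.sum_sub_distrib, Finset.mul_sum]
  refine Finset.sum_le_sum fun j _ => ?_
  rw [(cf_pv hH hη ξ j).2, (cf_pv hH hη ξ j).1, (cf_pv hH hη2 ξ j).1, mul_pow]
  have h := scal_ineq (hH.eigenvalues j - E) η hη
  have h0 : 0 ≤ (cf hH ξ j) ^ 2 := sq_nonneg _
  calc _ ≤ (4 / 3) * (η ^ 2 / ((hH.eigenvalues j - E) ^ 2 + η ^ 2) -
        (η / 2) ^ 2 / ((hH.eigenvalues j - E) ^ 2 + (η / 2) ^ 2)) * (cf hH ξ j) ^ 2 := by gcongr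
    _ = _ := by ring

/-- sum over the dyadic scales -/
theorem sum_scales {H : Matrix V V ℝ} (hH : H.IsHermitian) {E η : ℝ} (hη : 0 < η) (ξ : V → ℝ)
    (J : ℕ) :
    ∑ i ∈ Finset.range J, ∑ v, ((pv H ξ E (η / 2 ^ i) v).im) ^ 2 ≤ (4 / 3) * ∑ v, (ξ v) ^ 2 := by
  have hH' : Hᵀ = H := transpose_of_herm hH
  have h1 : ∀ i ∈ Finset.range J, ∑ v, ((pv H ξ E (η / 2 ^ i) v).im) ^ 2 ≤
      (4 / 3) * (∑ v, ξ v * (pv H ξ E (η / 2 ^ i) v).re) -
        (4 / 3) * (∑ v, ξ v * (pv H ξ E (η / 2 ^ (i + 1)) v).re) := by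
    intro i _
    have := sum_im_sq_le hH (E := E) (η := η / 2 ^ i) (by positivity) ξ
    have e : η / 2 ^ i / 2 = η / 2 ^ (i + 1) := by
      rw [div_div, pow_succ]
    rw [e] at this
    linarith
  refine (Finset.sum_le_sum h1).trans ?_
  rw [Finset.sum_range_sub' (fun i => (4 / 3) * ∑ v, ξ v * (pv H ξ E (η / 2 ^ i) v).re)]
  have h2 : ∑ v, ξ v * (pv H ξ E (η / 2 ^ 0) v).re ≤ ∑ v, (ξ v) ^ 2 := by
    rw [← sum_normSq_pv hH' (by positivity) ξ]
    exact sum_normSq_pv_le hH' (by positivity) ξ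
  have h3 : 0 ≤ ∑ v, ξ v * (pv H ξ E (η / 2 ^ J) v).re := by
    rw [← sum_normSq_pv hH' (by positivity) ξ]
    exact Finset.sum_nonneg fun _ _ => by positivity
  linarith

end Crest.Agent.R166.FrameB974
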