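import Crest.Agent.R166.CayDet_93

/-!
# R166 / Schur_93 (helper93)

The exact Schur complement relation: removing one coordinate acts on the Cayley transform of the
test array by `κ = diag(-i,1,..,1)`.
-/

set_option autoImplicit false

open Matrix
open scoped BigOperators

namespace Crest.Agent.R166.Schur93

open Crest.Agent.R166 Crest.Agent.R166.CayDet93

section rel
variable {m : ℕ}

/-- indicator of the slot `0` -/
noncomputable def e0 : Fin (m + 1) → ℝ := Fin.cons 1 (fun _ => 0)
/-- indicator of the slots `≥ 1` -/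
noncomputable def p0 : Fin (m + 1) → ℝ := Fin.cons 0 (fun _ => 1)
/-- the diagonal of `κ` -/
noncomputable def kd : Fin (m + 1) → ℂ := Fin.cons (-Complex.I) (fun _ => 1)
/-- `κ = diag(-i,1,…,1)` -/
noncomputable def kap (m : ℕ) : Matrix (Fin (m + 1)) (Fin (m + 1)) ℂ := diagonal kd
/-- `κ⁻¹ = diag(i,1,…,1)` -/
noncomputable def kd' : Fin (m + 1) → ℂ := Fin.cons Complex.I (fun _ => 1)
noncomputable def kap' (m : ℕ) : Matrix (Fin (m + 1)) (Fin (m + 1)) ℂ := diagonal kd'

lemma kap_mul_kap' : kap m * kap' m = 1 := by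
  rw [kap, kap', diagonal_mul_diagonal, ← diagonal_one]
  congr 1
  ext i
  refine Fin.cases ?_ (fun j => ?_) i <;> simp [kd, kd']

lemma kap'_mul_kap : kap' m * kap m = 1 := mul_eq_one_comm.mp kap_mul_kap'

lemma kap_transpose : (kap m)ᵀ = kap m := by simp [kap]

lemma kap_mem : kap m ∈ Matrix.unitaryGroup (Fin (m + 1)) ℂ := by
  rw [Matrix.mem_unitaryGroup_iff]
  have : star (kap m) = kap' m := by
    rw [Matrix.star_eq_conjTranspose, kap, diagonal_conjTranspose, kap']
    congr 1
    ext i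
    refine Fin.cases ?_ (fun j => ?_) i <;> simp [kd, kd']
  rw [this, kap_mul_kap']

/-- The partial Möbius relation gives conjugation by `κ` after the Cayley transform. -/
theorem Cay_of_rel (T N : Matrix (Fin (m + 1)) (Fin (m + 1)) ℝ) (hN : Nᵀ = N)
    (hrel : T * (diagonal e0 * N + diagonal p0) = diagonal p0 * N - diagonal e0) :
    Cay T = kap m * Cay N * kap m := by
  have hrelc : cx T * (cx (diagonal e0) * cx N + cx (diagonal p0))
      = cx (diagonal p0) * cx N - cx (diagonal e0) := by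
    rw [← cx_mul, ← cx_add, ← cx_mul, hrel, cx_sub, cx_mul]
  set E := cx (diagonal (e0 (m := m))) with hE
  set P := cx (diagonal (p0 (m := m))) with hP
  set B := E * cx N + P with hB
  have hEP : kap m = P - Complex.I • E := by
    ext i j
    simp only [kap, hE, hP, cx, Matrix.sub_apply, Matrix.smul_apply, Matrix.map_apply,
      diagonal_apply]
    by_cases h : i = j
    · subst h
      simp only [if_true]
      refine Fin.cases ?_ (fun j => ?_) i <;> simp [kd, e0, p0]
    · simp [h]
  have hEP' : kap' m = P + Complex.I • E := by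
    ext i j
    simp only [kap', hE, hP, cx, Matrix.add_apply, Matrix.smul_apply, Matrix.map_apply,
      diagonal_apply]
    by_cases h : i = j
    · subst h
      simp only [if_true]
      refine Fin.cases ?_ (fun j => ?_) i <;> simp [kd', e0, p0]
    · simp [h]
  have hI : Complex.I • (Complex.I • E) = -E := by
    rw [smul_smul, Complex.I_mul_I, neg_one_smul]
  have h1 : (cx T + Complex.I • (1 : Matrix (Fin (m+1)) (Fin (m+1)) ℂ)) * B
      = kap' m * (cx N + Complex.I • (1 : Matrix (Fin (m+1)) (Fin (m+1)) ℂ)) := by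
    rw [Matrix.add_mul, hrelc, hEP', hB]
    simp only [Matrix.add_mul, Matrix.mul_add, Matrix.smul_mul, Matrix.one_mul, Matrix.mul_smul,
      Matrix.mul_one, hI, smul_add]
    abel
  have h2 : (cx T - Complex.I • (1 : Matrix (Fin (m+1)) (Fin (m+1)) ℂ)) * B
      = kap m * (cx N - Complex.I • (1 : Matrix (Fin (m+1)) (Fin (m+1)) ℂ)) := by
    rw [Matrix.sub_mul, hrelc, hEP, hB]
    simp only [Matrix.sub_mul, Matrix.mul_sub, Matrix.smul_mul, Matrix.one_mul, Matrix.mul_smul,
      Matrix.mul_one, hI, smul_add, smul_sub]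
    abel
  -- inverse of T + i
  have h3 : Yi T = B * Yi N * kap m := by
    have h4 : (cx T + Complex.I • (1 : Matrix (Fin (m+1)) (Fin (m+1)) ℂ)) * (B * Yi N * kap m) = 1 := by
      rw [Matrix.mul_assoc B, ← Matrix.mul_assoc, h1, Matrix.mul_assoc (kap' m),
        ← Matrix.mul_assoc (cx N + _), mul_Yi N hN, Matrix.one_mul, kap'_mul_kap]
    exact Matrix.inv_eq_right_inv h4
  rw [Cay_eq, h3, ← Matrix.mul_assoc, ← Matrix.mul_assoc, h2, Cay_eq]
  simp only [Matrix.mul_assoc]

end rel

section schur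

/-- the array of a matrix `A` (to be inverted) and directions `G`. -/
noncomputable def arr {n m : ℕ} (A : Matrix (Fin n) (Fin n) ℝ) (G : Fin n → Fin m → ℝ) :
    Matrix (Fin m) (Fin m) ℝ := (Matrix.of G)ᵀ * A⁻¹ * Matrix.of G

lemma arr_transpose {n m : ℕ} (A : Matrix (Fin n) (Fin n) ℝ) (hA : Aᵀ = A)
    (G : Fin n → Fin m → ℝ) : (arr A G)ᵀ = arr A G := by
  rw [arr, Matrix.transpose_mul, Matrix.transpose_mul, Matrix.transpose_transpose,
    Matrix.transpose_nonsing_inv, hA, Matrix.mul_assoc]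

lemma arr_mul {n m : ℕ} (A : Matrix (Fin n) (Fin n) ℝ) (G : Fin n → Fin m → ℝ)
    (S : Matrix (Fin m) (Fin m) ℝ) :
    arr A (fun i j => (Matrix.of G * S) i j) = Sᵀ * arr A G * S := by
  have h : (Matrix.of fun i j => (Matrix.of G * S) i j) = Matrix.of G * S := rfl
  rw [arr, h, arr, Matrix.transpose_mul]
  simp only [Matrix.mul_assoc]

lemma arr_left {n m : ℕ} (A O : Matrix (Fin n) (Fin n) ℝ) (hO : O * Oᵀ = 1)
    (G : Fin n → Fin m → ℝ) :
    arr (O * A * Oᵀ) (fun i j => (O * Matrix.of G) i j) = arr A G := by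
  have hO' : Oᵀ * O = 1 := mul_eq_one_comm.mp hO
  have h : (Matrix.of fun i j => (O * Matrix.of G) i j) = O * Matrix.of G := rfl
  have hinv : O⁻¹ = Oᵀ := Matrix.inv_eq_right_inv hO
  have hinv' : (Oᵀ)⁻¹ = O := Matrix.inv_eq_right_inv hO'
  rw [arr, h, arr, Matrix.transpose_mul, Matrix.mul_inv_rev, Matrix.mul_inv_rev, hinv, hinv']
  calc (Matrix.of G)ᵀ * Oᵀ * (O * (A⁻¹ * Oᵀ)) * (O * Matrix.of G)
      = (Matrix.of G)ᵀ * (Oᵀ * O) * A⁻¹ * (Oᵀ * O) * Matrix.of G := by
        simp only [Matrix.mul_assoc]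
    _ = _ := by rw [hO', Matrix.mul_one, Matrix.mul_one]

variable {n m : ℕ}

/-- reduced direction matrix: first column `ω`, other columns `ξ`. -/
def Gred (ω : Fin n → ℝ) (ξ : Fin n → Fin m → ℝ) : Fin n → Fin (m + 1) → ℝ :=
  fun j => Fin.cons (ω j) (ξ j)

/-- extended direction matrix: first column `s0 e_0`, other columns supported on `≥ 1`. -/
def Gext (s0 : ℝ) (ξ : Fin n → Fin m → ℝ) : Fin (n + 1) → Fin (m + 1) → ℝ :=
  Fin.cons (Fin.cons s0 fun _ => 0) (fun j => Fin.cons 0 (ξ j))

/-- **Schur complement relation** in Cayley form. -/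
theorem Cay_arr_Gext (A : Matrix (Fin (n + 1)) (Fin (n + 1)) ℝ) (hA : Aᵀ = A)
    (hdet : IsUnit A.det) (hdet' : IsUnit (A.submatrix Fin.succ Fin.succ).det)
    (s0 : ℝ) (hs0 : s0 ≠ 0) (ω : Fin n → ℝ) (hω : ∀ j, A 0 j.succ = s0 * ω j)
    (ξ : Fin n → Fin m → ℝ) :
    Cay (arr A (Gext s0 ξ)) = kap m *
      Cay (arr (A.submatrix Fin.succ Fin.succ) (Gred ω ξ) - (A 0 0 / s0 ^ 2) • diagonal e0)
      * kap m := by
  set D := A.submatrix Fin.succ Fin.succ with hD
  have hDt : Dᵀ = D := by
    rw [hD, Matrix.transpose_submatrix, hA]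
  have hAsymm : ∀ i j, A i j = A j i := fun i j => by
    conv_lhs => rw [← hA]
    rfl
  set M := arr D (Gred ω ξ) with hM
  have hMt : Mᵀ = M := arr_transpose D hDt _
  set N := M - (A 0 0 / s0 ^ 2) • diagonal (e0 (m := m)) with hN
  have hNt : Nᵀ = N := by
    rw [hN, Matrix.transpose_sub, hMt, Matrix.transpose_smul, diagonal_transpose]
  refine Cay_of_rel _ _ hNt ?_
  -- the solution matrix
  set Y : Matrix (Fin n) (Fin (m + 1)) ℝ := D⁻¹ * Matrix.of (Gred ω ξ) with hY
  have hDY : D * Y = Matrix.of (Gred ω ξ) := by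
    rw [hY, ← Matrix.mul_assoc, Matrix.mul_nonsing_inv _ hdet', Matrix.one_mul]
  have hMY : M = (Matrix.of (Gred ω ξ))ᵀ * Y := by rw [hM, arr, hY, Matrix.mul_assoc]
  set Z : Matrix (Fin (n + 1)) (Fin (m + 1)) ℝ :=
    Matrix.of (Fin.cons (fun k => -(1 / s0) * e0 k) (fun j k => Y j k)) with hZ
  have hAZ : A * Z = Matrix.of (Gext s0 ξ) * (diagonal e0 * N + diagonal p0) := by
    ext i k
    rw [Matrix.mul_apply, Matrix.mul_apply, Fin.sum_univ_succ, Fin.sum_univ_succ]
    refine Fin.cases ?_ (fun j => ?_) i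
    · -- row 0
      have h1 : ∑ l : Fin n, A 0 l.succ * Z l.succ k = s0 * M 0 k := by
        rw [hMY, Matrix.mul_apply, Finset.mul_sum]
        refine Finset.sum_congr rfl fun l _ => ?_
        rw [hω l, Matrix.transpose_apply, Matrix.of_apply]
        simp only [Gred, Fin.cons_zero, hZ, Matrix.of_apply, Fin.cons_succ]
        ring
      have h2 : Z 0 k = -(1 / s0) * e0 k := by simp [hZ]
      have h3 : ∑ l : Fin m, (Matrix.of (Gext s0 ξ)) (0 : Fin (n+1)) l.succ *
          (diagonal (e0 (m := m)) * N + diagonal (p0 (m := m))) l.succ k = 0 := by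
        refine Finset.sum_eq_zero fun l _ => ?_
        simp [Gext]
      have h4 : (Matrix.of (Gext s0 ξ)) (0 : Fin (n+1)) 0 = s0 := by simp [Gext]
      have h5 : (diagonal (e0 (m := m)) * N + diagonal (p0 (m := m))) 0 k = N 0 k := by
        rw [Matrix.add_apply, Matrix.diagonal_mul]
        refine Fin.cases ?_ (fun k' => ?_) k
        · simp [e0, p0]
        · simp [e0, p0, diagonal_apply]
      have h6 : N 0 k = M 0 k - (A 0 0 / s0 ^ 2) * e0 k := by
        rw [hN, Matrix.sub_apply, Matrix.smul_apply, smul_eq_mul, diagonal_apply]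
        refine Fin.cases ?_ (fun k' => ?_) k
        · simp
        · simp [e0]
          intro h; exact absurd h (Fin.succ_ne_zero k').symm
      rw [h1, h2, h3, h4, h5, h6]
      field_simp
      ring
    · -- rows ≥ 1
      have h1 : ∑ l : Fin n, A j.succ l.succ * Z l.succ k = Gred ω ξ j k := by
        have := congrFun (congrFun hDY j) k
        rw [Matrix.mul_apply] at this
        simp only [Matrix.of_apply] at this
        rw [← this]
        refine Finset.sum_congr rfl fun l _ => ?_
        simp [hZ, hD]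
      have h2 : Z 0 k = -(1 / s0) * e0 k := by simp [hZ]
      have h3 : (Matrix.of (Gext s0 ξ)) j.succ 0 = 0 := by simp [Gext]
      have h4 : ∑ l : Fin m, (Matrix.of (Gext s0 ξ)) j.succ l.succ *
          (diagonal (e0 (m := m)) * N + diagonal (p0 (m := m))) l.succ k = ∑ l : Fin m, ξ j l * (diagonal (p0 (m := m))) l.succ k := by
        refine Finset.sum_congr rfl fun l _ => ?_
        rw [Matrix.add_apply, Matrix.diagonal_mul]
        simp [Gext, e0]
      rw [h1, h2, h3, h4, hAsymm j.succ 0, hω j]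
      refine Fin.cases ?_ (fun k' => ?_) k
      · have : ∑ l : Fin m, ξ j l * (diagonal (p0 (m := m))) l.succ 0 = 0 :=
          Finset.sum_eq_zero fun l _ => by
            rw [diagonal_apply_ne _ (Fin.succ_ne_zero l)]; ring
        rw [this]
        simp only [Gred, Fin.cons_zero, e0]
        field_simp
        ring
      · have : ∑ l : Fin m, ξ j l * (diagonal (p0 (m := m))) l.succ k'.succ = ξ j k' := by
          rw [Finset.sum_eq_single k']
          · rw [diagonal_apply_eq]; simp [p0]
          · intro l _ hl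
            rw [diagonal_apply_ne _ (fun h => hl (Fin.succ_injective _ h))]; ring
          · simp
        rw [this]
        simp [Gred, e0]
  have hGZ : (Matrix.of (Gext s0 ξ))ᵀ * Z = diagonal p0 * N - diagonal e0 := by
    ext a k
    rw [Matrix.mul_apply, Fin.sum_univ_succ, Matrix.sub_apply, Matrix.diagonal_mul]
    refine Fin.cases ?_ (fun a' => ?_) a
    · have h1 : ∑ l : Fin n, (Matrix.of (Gext s0 ξ))ᵀ 0 l.succ * Z l.succ k = 0 :=
        Finset.sum_eq_zero fun l _ => by simp [Gext]
      rw [h1]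
      refine Fin.cases ?_ (fun k' => ?_) k
      · simp [Gext, hZ, e0, p0, hs0]
      · rw [diagonal_apply_ne _ (Fin.succ_ne_zero k').symm]
        simp [Gext, hZ, e0, p0]
    · have h1 : ∑ l : Fin n, (Matrix.of (Gext s0 ξ))ᵀ a'.succ l.succ * Z l.succ k
          = M a'.succ k := by
        rw [hMY, Matrix.mul_apply]
        refine Finset.sum_congr rfl fun l _ => ?_
        simp [Gext, Gred, hZ]
      rw [h1]
      have h2 : (diagonal (e0 (m := m))) a'.succ k = 0 := by
        by_cases h : a'.succ = k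
        · rw [← h, diagonal_apply_eq]; simp [e0]
        · rw [diagonal_apply_ne _ h]
      rw [hN, Matrix.sub_apply, Matrix.smul_apply, h2]
      simp [Gext, p0]
  rw [arr, Matrix.mul_assoc, ← hAZ, Matrix.mul_assoc, ← Matrix.mul_assoc A⁻¹,
    Matrix.nonsing_inv_mul _ hdet, Matrix.one_mul, hGZ]

end schur

end Crest.Agent.R166.Schur93
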