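import Crest.Agent.R166.ShapeT_598
import Crest.Agent.R166.MuU_395

/-!
# Row 166, section 30.4 (helper598): (S0) and (SM) on port numbered graphs

From `ShapeT598.tree_good`, the tree estimate `TreeP` and 395's `shape0`, `shapeM`.
-/

set_option autoImplicit false
set_option linter.unusedSectionVars false

open Matrix Finset

namespace Crest.Agent.R166.ShapeP598

open Crest.Agent.R166 Crest.Agent.R166.Stab269 Crest.Agent.R166.TreeT327
  Crest.Agent.R166.TreeF598 Crest.Agent.R166.DecP789 Crest.Agent.R166.ShapeT598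
  Crest.Agent.R166.Shape395 Crest.Agent.R166.TreeDet350 Crest.Agent.R166.Spec30
  Crest.Agent.R166.MuU395
open Crest.Agent.R166.SwP470 (BVal bv TL BI NZ NZw wd rt tau ab np)
open Crest.Agent.R166.Res598 (Siegel Near qf imM)
open Crest.Agent.R166.Rev811 (cpl cpl2 GA)

/-- the tree estimate at depth `L + 1` -/
def TreeP (d : ℕ) [NeZero d] (A : ℝ) (L : ℕ) (CL : ℝ) : Prop :=
  ∀ (E s η : ℝ), |E| ≤ A → |s| ≤ 1 → 0 < η → η ≤ 1 → ∀ V : Tr Bool (NZ d) (L + 1) → ℝ,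
    (∀ x, |V x| ≤ |s|) → ∀ r : Bool,
      TreeEst (mc d (ze E η)) (mc d (ze E η) ^ (2 * (L + 1))) CL s (Iside (L + 1) r)
        (fun x => treeF (ze E η) (L + 1) V (x ∘ (layE (L + 1)).symm) r)

/-- coercivity of the good edges -/
def GoodC (d : ℕ) [NeZero d] (A rs c : ℝ) : Prop :=
  ∀ (n : ℕ) (E s η : ℝ) (ω : Fin n → ℝ), Rng A n E s η ω → ∀ p : Equiv.Perm (HE n d), IsPort p →
    ∀ x : HE n d, ¬ BadP rs p s ω (ze E η) x → ∀ y : Fin 2 → ℂ,
      c * ∑ i, ‖y i‖ ^ 2 ≤ qf (imM (BE p s ω (ze E η) x)) y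

section basic

variable {n d : ℕ} [NeZero d] {p : Equiv.Perm (HE n d)} {h0 : HE n d} {L : ℕ}

/-- the constant of the couplings -/
noncomputable def CE (c : ℝ) : ℝ := 2 / Real.sqrt c + 1 / c

lemma CE_pos {c : ℝ} (hc : 0 < c) : 0 < CE c := by
  unfold CE
  have := Real.sqrt_pos.2 hc
  positivity

theorem S0t_eq : S0t p h0 L = Sv (L + 1) p h0 := by
  ext x
  unfold S0t S0 Sv
  simp only [Finset.mem_union, Finset.mem_image, Finset.mem_univ, true_and, Finset.mem_filter]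
  constructor
  · rintro (⟨y, rfl⟩ | ⟨i, rfl⟩)
    · obtain ⟨s, w, hw, hl, he⟩ := (phi_range (p := p) (h0 := h0) (L := L + 1) _).1 ⟨y, rfl⟩
      exact ⟨s, w, hw, hl.le, he⟩
    · exact ⟨i.1, wd i.2, SwP470.wd_NZw i.2, (SwP470.wd_length i.2).le, rfl⟩
  · rintro ⟨s, w, hw, hl, rfl⟩
    rcases lt_or_eq_of_le hl with h1 | h1
    · obtain ⟨y, hy⟩ := (phi_range (p := p) (h0 := h0) (L := L + 1) _).2 ⟨s, w, hw, h1, rfl⟩
      exact Or.inl ⟨y, hy⟩
    · obtain ⟨f, hf⟩ := SwP470.exists_wd hw h1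
      exact Or.inr ⟨(s, f), by rw [← hf]; rfl⟩

theorem cEs_nonneg (L : ℕ) (p : Equiv.Perm (HE n d)) (s : ℝ) (ω : Fin n → ℝ) (z : ℂ)
    (h0 : HE n d) (A : Finset (BI d L)) (b : BI d L → HE n d) : 0 ≤ cEs L p s ω z h0 A b := by
  unfold cEs
  exact add_nonneg (Finset.sum_nonneg fun _ _ => Real.sqrt_nonneg _)
    (Finset.sum_nonneg fun _ _ => Real.sqrt_nonneg _)

theorem cE_le {c : ℝ} (hc : 0 < c) (s : ℝ) (ω : Fin n → ℝ) (z : ℂ)
    (A : Finset (BI d (L + 1))) (b : BI d (L + 1) → HE n d) :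
    cE (S0t p h0 L) (RR p s ω z) p b A c ≤ CE c * cEs (L + 1) p s ω z h0 A b := by
  rw [S0t_eq]
  unfold cE cEs CE
  set X := ∑ j ∈ Aᶜ, Real.sqrt (cpl (GA (Sv (L + 1) p h0) p A b) (RR p s ω z) p (b j)) with hX
  set Y := ∑ jk ∈ (Aᶜ).offDiag, Real.sqrt (cpl2 (RR p s ω z) p (b jk.1) (b jk.2)) with hY
  have hX0 : 0 ≤ X := Finset.sum_nonneg fun _ _ => Real.sqrt_nonneg _
  have hY0 : 0 ≤ Y := Finset.sum_nonneg fun _ _ => Real.sqrt_nonneg _
  have hs := Real.sqrt_pos.2 hc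
  have h1 : 0 ≤ 2 / Real.sqrt c * Y := by positivity
  have h2 : 0 ≤ 1 / c * X := by positivity
  have e1 : 2 * X / Real.sqrt c = 2 / Real.sqrt c * X := by ring
  have e2 : Y / c = 1 / c * Y := by ring
  rw [e1, e2]
  show _ ≤ (2 / Real.sqrt c + 1 / c) * (X + Y)
  nlinarith

end basic

section good

variable {b : ℕ} {y0 : ℝ} {z m : ℂ}

/-- imaginary parts at good blocks -/
theorem good_im (h : Adm b y0 z m) {rs : ℝ} (hrs : rs ≤ y0 / 8) {B : Matrix (Fin 2) (Fin 2) ℂ}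
    (hg : dv rs m B < rs) (i : Fin 2) : y0 / 2 ≤ (B i i).im := by
  have h1 := diag_le_dv hg i
  have h2 : |(B i i - m).im| ≤ y0 / 8 :=
    (Complex.abs_im_le_norm _).trans (h1.trans (hg.le.trans hrs))
  rw [Complex.sub_im] at h2
  have h3 := (abs_le.1 h2).1
  have h4 := h.him
  have h5 := h.hy
  linarith

theorem good_off (h : Adm b y0 z m) {rs : ℝ} (hrs : rs ≤ y0 / 8) {B : Matrix (Fin 2) (Fin 2) ℂ}
    (hg : dv rs m B < rs) : ‖B 0 1‖ ≤ y0 / 2 / 2 := by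
  have h1 := off_le_dv hg (show (0 : Fin 2) ≠ 1 by decide)
  have h5 := h.hy
  linarith

end good

section main

variable {d : ℕ} [NeZero d]

/-- `CN` -/
noncomputable def CN (y0 c : ℝ) : ℝ := 4 / (y0 / 2) ^ 2 + 4 * CE c

lemma CN_pos {y0 c : ℝ} (hy : 0 < y0) (hc : 0 < c) : 0 < CN y0 c := by
  unfold CN
  have := CE_pos hc
  positivity

/-- common part of (S0) and (SM): either the trivial bound or the decoupled form -/
theorem common (hd : 3 ≤ d) {A : ℝ} (hA : A ^ 2 < 4 * ((d : ℝ) - 1)) {rs c : ℝ}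
    (hrs8 : rs ≤ y00 d A / 8) (hc : 0 < c) (hG : GoodC d A rs c) {L n : ℕ} {E s η : ℝ}
    {ω : Fin n → ℝ} (hR : Rng A n E s η ω) {p : Equiv.Perm (HE n d)} (hp : IsPort p) {h0 : HE n d}
    {b : BI d (L + 1) → HE n d} (hb : BVal (L + 1) p h0 b)
    (hg : ∀ i, dv rs (mc d (ze E η)) (B0 p s ω (ze E η) (b i)) < rs) :
    (1 ≤ 2 * CN (y00 d A) c * ((∑ jk ∈ (univ : Finset (BI d (L + 1))).offDiag,
        dv rs (mc d (ze E η)) (B0 p s ω (ze E η) (b jk.1)) *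
          dv rs (mc d (ze E η)) (B0 p s ω (ze E η) (b jk.2))) +
        cEs (L + 1) p s ω (ze E η) h0 ∅ b)) ∨
    ∃ (xh : BI d (L + 1) → ℂ) (ε : ℝ), 0 ≤ ε ∧
      ε ≤ CN (y00 d A) c * (cEs (L + 1) p s ω (ze E η) h0 ∅ b +
        ∑ jk ∈ (univ : Finset (BI d (L + 1))).offDiag,
          ‖B0 p s ω (ze E η) (b jk.1) 0 1‖ * ‖B0 p s ω (ze E η) (b jk.2) 0 1‖) ∧
      (∀ i, ‖xh i - B0 p s ω (ze E η) (b i) 0 0‖ ≤
        1 / (y00 d A / 2) * ‖B0 p s ω (ze E η) (b i) 0 1‖ ^ 2) ∧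
      (∀ i, 0 < (xh i).im) ∧
      Near ε
        (Matrix.diagonal ![treeF (ze E η) (L + 1) (Vt p h0 (L + 1) s ω)
            (xh ∘ (layE (L + 1)).symm) false,
          treeF (ze E η) (L + 1) (Vt p h0 (L + 1) s ω) (xh ∘ (layE (L + 1)).symm) true])
        (B0 (np p h0 b) s ω (ze E η) h0) := by
  have hadm := adm_of hd hA hR.E hR.η0 hR.η1
  have hy := hadm.hy
  set y0 := y00 d A with hy0
  set z := ze E η with hzdef
  have hz : 0 < z.im := by rw [hzdef]; simpa [ze] using hR.η0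
  have hCE := CE_pos hc
  have hh1 : 0 < y0 / 2 := by linarith
  set O := ∑ jk ∈ (univ : Finset (BI d (L + 1))).offDiag,
    ‖B0 p s ω z (b jk.1) 0 1‖ * ‖B0 p s ω z (b jk.2) 0 1‖ with hO
  set P := ∑ jk ∈ (univ : Finset (BI d (L + 1))).offDiag,
    dv rs (mc d z) (B0 p s ω z (b jk.1)) * dv rs (mc d z) (B0 p s ω z (b jk.2)) with hP
  have hrs0 : 0 < rs ∨ IsEmpty (BI d (L + 1)) := by
    rcases isEmpty_or_nonempty (BI d (L + 1)) with h | ⟨⟨i⟩⟩
    · exact Or.inr h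
    · left
      by_contra hneg
      push Not at hneg
      have h1 := hg i
      unfold dv at h1
      have h2 := Shape395.bnorm_nonneg (B0 p s ω z (b i) - mc d z • (1 : Matrix (Fin 2) (Fin 2) ℂ))
      rw [min_lt_iff] at h1
      rcases h1 with h1 | h1
      · exact lt_irrefl _ h1
      · linarith
  have hOP : O ≤ P := by
    refine Finset.sum_le_sum fun q _ => ?_
    have hq : 0 < rs := by
      rcases hrs0 with h | h
      · exact h
      · exact (h.false q.1).elim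
    exact mul_le_mul (off_le_dv (hg _) (by decide)) (off_le_dv (hg _) (by decide))
      (norm_nonneg _) (dv_nonneg hq.le)
  have hO0 : 0 ≤ O := Finset.sum_nonneg fun _ _ => mul_nonneg (norm_nonneg _) (norm_nonneg _)
  have hP0 : 0 ≤ P := hO0.trans hOP
  set S := cEs (L + 1) p s ω z h0 ∅ b with hS
  have hS0 : 0 ≤ S := cEs_nonneg _ _ _ _ _ _ _ _
  have hCN : CN y0 c = 4 / (y0 / 2) ^ 2 + 4 * CE c := rfl
  by_cases h1 : 2 / (y0 / 2) ^ 2 * O ≤ 1 / 2
  · by_cases h2 : CE c * S ≤ 1 / 2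
    · right
      obtain ⟨xh, g1, g2, g3⟩ := tree_good hp hb s ω hz hc hh1
        (fun j => hG n E s η ω hR p hp (b j) (not_le.2 (hg j)))
        (fun j => good_im hadm hrs8 (hg j) 0) (fun j => good_im hadm hrs8 (hg j) 1)
        (fun j => good_off hadm hrs8 (hg j)) (le_refl _) h1 (cE_le hc s ω z ∅ b) h2
      refine ⟨xh, _, ?_, ?_, fun i => ?_, fun i => ?_, g3⟩
      · have : 0 ≤ CE c * S := mul_nonneg hCE.le hS0
        positivity
      · have e1 : 2 * (2 / (y0 / 2) ^ 2 * O) + 4 * (CE c * S) ≤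
            (4 / (y0 / 2) ^ 2 + 4 * CE c) * (S + O) := by
          have a1 : 0 ≤ 4 / (y0 / 2) ^ 2 * S := by positivity
          have a2 : 0 ≤ 4 * CE c * O := by positivity
          have a3 : 2 * (2 / (y0 / 2) ^ 2 * O) = 4 / (y0 / 2) ^ 2 * O := by ring
          rw [a3]
          nlinarith
        exact e1
      · refine (g1 i).trans (le_of_eq ?_)
        ring
      · exact lt_of_lt_of_le (by linarith) (g2 i)
    · left
      push Not at h2
      rw [hCN]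
      have a1 : 0 ≤ 4 / (y0 / 2) ^ 2 * (P + S) := by positivity
      have a2 : 0 ≤ 4 * CE c * P := by positivity
      nlinarith
  · left
    push Not at h1
    rw [hCN]
    have a1 : 1 / 2 < 2 / (y0 / 2) ^ 2 * P :=
      lt_of_lt_of_le h1 (mul_le_mul_of_nonneg_left hOP (by positivity))
    have a2 : 0 ≤ 4 / (y0 / 2) ^ 2 * S := by positivity
    have a3 : 0 ≤ 4 * CE c * (P + S) := by positivity
    have a4 : 4 / (y0 / 2) ^ 2 * P = 2 * (2 / (y0 / 2) ^ 2 * P) := by ring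
    nlinarith

lemma Vt_le {n : ℕ} {A E s η : ℝ} {ω : Fin n → ℝ} (hR : Rng A n E s η ω)
    (p : Equiv.Perm (HE n d)) (h0 : HE n d) (L : ℕ) (x : Tr Bool (NZ d) L) :
    |Vt p h0 L s ω x| ≤ |s| := by
  unfold Vt
  rw [abs_mul]
  have := hR.ω (phi p h0 L x)
  nlinarith [abs_nonneg s]

lemma adm_good {L n : ℕ} {rs ε s : ℝ} {ω : Fin n → ℝ} {z : ℂ} {p : Equiv.Perm (HE n d)}
    {h0 : HE n d} {A : Finset (BI d L)} {b : BI d L → HE n d}
    (h : AdmP L rs ε p s ω z h0 A b) (i : BI d L) (hi : i ∉ A) :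
    dv rs (mc d z) (B0 p s ω z (b i)) < rs := by
  have h1 := h.1 i hi
  unfold Rev811.Wk at h1
  push Not at h1
  have h2 : ¬ rs ≤ SpecA.Dv rs p s ω z (b i) := h1.1
  exact not_le.1 h2

/-- **(S0)** -/
theorem s0P (hd : 3 ≤ d) {A : ℝ} (hA : A ^ 2 < 4 * ((d : ℝ) - 1)) {rs c : ℝ} (hrs : 0 < rs)
    (hrs1 : rs ≤ 1) (hrs8 : rs ≤ y00 d A / 8) (hc : 0 < c) (hG : GoodC d A rs c) {L : ℕ} {CLt : ℝ}
    (hCL : 0 ≤ CLt) (hT : TreeP d A L CLt) (ε : ℝ) :
    S0P d (L + 1) A rs ε (4 + 8 * C2 (y00 d A) (1 / (y00 d A / 2)))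
      (8 * CLt * (C3 (y00 d A) rs (1 / (y00 d A / 2)) ^ 2 + 1) + 2 * CN (y00 d A) c) := by
  intro n E s η ω hR p hp h0 b hb hA0
  have hadm := adm_of hd hA hR.E hR.η0 hR.η1
  have hy := hadm.hy
  have hg : ∀ i, dv rs (mc d (ze E η)) (B0 p s ω (ze E η) (b i)) < rs := fun i =>
    adm_good hA0 i (Finset.notMem_empty _)
  have hz : 0 < (ze E η).im := by simpa [ze] using hR.η0
  have hCN := CN_pos hy hc
  have hC2 : 0 ≤ C2 (y00 d A) (1 / (y00 d A / 2)) := by unfold C2; positivity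
  have hS0 := cEs_nonneg (L + 1) p s ω (ze E η) h0 ∅ b
  have hd0 : ∀ i, 0 ≤ dv rs (mc d (ze E η)) (B0 p s ω (ze E η) (b i)) := fun i => dv_nonneg hrs.le
  rcases common hd hA hrs8 hc hG hR hp hb hg with h1 | ⟨xh, ε', e0, e1, e2, e3, e4⟩
  · have h2 : SpecA.Dv rs (np p h0 b) s ω (ze E η) h0 ≤ 1 := dv_le.trans hrs1
    refine h2.trans (h1.trans ?_)
    simp only [dv_eq]
    set P := ∑ jk ∈ (univ : Finset (BI d (L + 1))).offDiag,
      dv rs (mc d (ze E η)) (B0 p s ω (ze E η) (b jk.1)) *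
        dv rs (mc d (ze E η)) (B0 p s ω (ze E η) (b jk.2)) with hP
    have hP0 : 0 ≤ P := Finset.sum_nonneg fun _ _ => mul_nonneg (hd0 _) (hd0 _)
    set S := cEs (L + 1) p s ω (ze E η) h0 ∅ b with hS
    have hQ0 : 0 ≤ ∑ i, dv rs (mc d (ze E η)) (B0 p s ω (ze E η) (b i)) ^ 2 :=
      Finset.sum_nonneg fun _ _ => sq_nonneg _
    have hs0 := abs_nonneg s
    have a1 : 0 ≤ (4 + 8 * C2 (y00 d A) (1 / (y00 d A / 2))) *
        (‖mc d (ze E η) ^ (2 * (L + 1)) * ∑ i ∈ Iside (L + 1) false, yP p s ω (ze E η) (b i)‖ +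
          ‖mc d (ze E η) ^ (2 * (L + 1)) * ∑ i ∈ Iside (L + 1) true, yP p s ω (ze E η) (b i)‖) := by
      positivity
    have a2 : 0 ≤ (4 + 8 * C2 (y00 d A) (1 / (y00 d A / 2))) * ‖mc d (ze E η)‖ ^ (2 * (L + 1)) *
        (∑ i, dv rs (mc d (ze E η)) (B0 p s ω (ze E η) (b i)) ^ 2) := by
      positivity
    have a3 : 0 ≤ 8 * CLt * (C3 (y00 d A) rs (1 / (y00 d A / 2)) ^ 2 + 1) * (P + |s| + S) := by
      positivity
    have a4 : 0 ≤ 2 * CN (y00 d A) c * |s| := by positivity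
    nlinarith
  · have hTr := hT E s η hR.E hR.s hR.η0 hR.η1 (Vt p h0 (L + 1) s ω) (Vt_le hR p h0 (L + 1))
    have key := shape0 hadm hrs hrs1 (be := ‖mc d (ze E η)‖ ^ (2 * (L + 1))) (cE := cEs (L + 1) p s ω
      (ze E η) h0 ∅ b) (CN := CN (y00 d A) c) (Cx := 1 / (y00 d A / 2))
      (le_of_eq (norm_pow _ _)) (by positivity) hCL hCN.le hS0
      (hTr false) (hTr true) (Bb := fun i => B0 p s ω (ze E η) (b i))
      (fun i => im_B0_pos hp s ω hz _ 0) hg e3 e2 e0 e1 e4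
    exact key

lemma offDiag_eq {ι : Type*} [Fintype ι] [DecidableEq ι] (F : ι → ι → ℝ) :
    (∑ jk ∈ (univ : Finset ι).offDiag, F jk.1 jk.2) = ∑ i, ∑ j ∈ univ.erase i, F i j := by
  have h1 : ∀ i : ι, ∑ j ∈ univ.erase i, F i j = ∑ j, if i = j then 0 else F i j := by
    intro i
    rw [← Finset.add_sum_erase _ _ (Finset.mem_univ i), if_pos rfl, zero_add]
    refine Finset.sum_congr rfl fun j hj => ?_
    rw [if_neg (Finset.ne_of_mem_erase hj).symm]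
  simp only [h1]
  rw [← Finset.sum_product', ← Finset.diag_union_offDiag,
    Finset.sum_union (Finset.disjoint_diag_offDiag _)]
  have h3 : ∑ x ∈ (univ : Finset ι).diag, (if x.1 = x.2 then 0 else F x.1 x.2) = 0 := by
    apply Finset.sum_eq_zero
    intro x hx
    rw [if_pos (Finset.mem_diag.1 hx).2]
  rw [h3, zero_add]
  refine Finset.sum_congr rfl fun x hx => ?_
  rw [if_neg (Finset.mem_offDiag.1 hx).2.2]

/-- **(SM)** -/
theorem sMP (hd : 3 ≤ d) {A : ℝ} (hA : A ^ 2 < 4 * ((d : ℝ) - 1)) {rs c : ℝ} (hrs : 0 < rs)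
    (hrs1 : rs ≤ 1) (hrs8 : rs ≤ y00 d A / 8) (hc : 0 < c) (hG : GoodC d A rs c) {CLt : ℝ}
    (hCL : 0 ≤ CLt) (hT : TreeP d A 0 CLt) (ε : ℝ) :
    ∃ C, 0 ≤ C ∧ SMP d A rs ε C := by
  set y0 := y00 d A with hy0
  have hy : 0 < y0 := y00_pos (by omega) hA
  set K : ℝ := BB y0 * (1 + Fintype.card (BI d 1)) with hK
  have hK0 : 0 ≤ K := by
    have := BB_pos hy
    rw [hK]; positivity
  set Cx : ℝ := 1 / (y0 / 2) with hCx
  have hCx0 : 0 ≤ Cx := by rw [hCx]; positivity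
  have hC2 : 0 ≤ C2 y0 Cx := by unfold C2; positivity
  have hCN := CN_pos (c := c) hy hc
  set Cb : ℝ := CLt * (C3 y0 rs Cx ^ 2 + 1) + 3 / y0 * CN y0 c with hCb
  have hCb0 : 0 ≤ Cb := by rw [hCb]; positivity
  refine ⟨C2 y0 Cx + Cb + K * (2 * CN y0 c), by positivity, ?_⟩
  intro n E s η ω hR p hp h0 b hb hA0
  have hadm := adm_of hd hA hR.E hR.η0 hR.η1
  have hg : ∀ i, dv rs (mc d (ze E η)) (B0 p s ω (ze E η) (b i)) < rs := fun i =>
    adm_good hA0 i (Finset.notMem_empty _)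
  have hz : 0 < (ze E η).im := by simpa [ze] using hR.η0
  have hS0 := cEs_nonneg 1 p s ω (ze E η) h0 ∅ b
  have hd0 : ∀ i, 0 ≤ dv rs (mc d (ze E η)) (B0 p s ω (ze E η) (b i)) := fun i => dv_nonneg hrs.le
  have hbp : IsPort (np p h0 b) := hb.isPort (le_refl 1) hp
  have hsum : (∑ i, Real.sqrt (cpl (Sv 1 p h0) (Rr p s ω (ze E η)) p (b i))) +
      ∑ i, ∑ j ∈ Finset.univ.erase i, Real.sqrt (cpl2 (Rr p s ω (ze E η)) p (b i) (b j)) =
      cEs 1 p s ω (ze E η) h0 ∅ b := by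
    unfold cEs
    have e1 : GA (Sv 1 p h0) p (∅ : Finset (BI d 1)) b = Sv 1 p h0 := by
      unfold GA
      rw [Finset.biUnion_empty, Finset.union_empty]
    rw [e1, Finset.compl_empty,
      offDiag_eq (fun i j => Real.sqrt (cpl2 (Rr p s ω (ze E η)) p (b i) (b j)))]
  rw [← offDiag_eq (fun i j => SpecA.Dv rs p s ω (ze E η) (b i) * SpecA.Dv rs p s ω (ze E η) (b j)),
    add_assoc (_ + |s|), hsum]
  simp only [dv_eq]
  set P := ∑ jk ∈ (univ : Finset (BI d 1)).offDiag,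
    dv rs (mc d (ze E η)) (B0 p s ω (ze E η) (b jk.1)) *
      dv rs (mc d (ze E η)) (B0 p s ω (ze E η) (b jk.2)) with hP
  have hP0 : 0 ≤ P := Finset.sum_nonneg fun _ _ => mul_nonneg (hd0 _) (hd0 _)
  set S := cEs 1 p s ω (ze E η) h0 ∅ b with hS
  set Q := ∑ i, dv rs (mc d (ze E η)) (B0 p s ω (ze E η) (b i)) ^ 2 with hQ
  have hQ0 : 0 ≤ Q := Finset.sum_nonneg fun _ _ => sq_nonneg _
  have hs0 := abs_nonneg s
  have hm2 : ‖mc d (ze E η) ^ 2‖ ≤ 1 := by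
    rw [norm_pow]
    have := hadm.norm_le
    nlinarith [norm_nonneg (mc d (ze E η))]
  have hBt : 0 < (B0 (np p h0 b) s ω (ze E η) h0 0 0).im := im_B0_pos hbp s ω hz h0 0
  rcases common hd hA hrs8 hc hG hR hp hb hg with h1 | ⟨xh, ε', e0, e1, e2, e3, e4⟩
  · -- trivial bound
    have h2 : ‖yP (np p h0 b) s ω (ze E η) h0 -
        mc d (ze E η) ^ 2 * ∑ i ∈ Iside 1 false, yP p s ω (ze E η) (b i)‖ ≤ K := by
      have t1 : ‖yP (np p h0 b) s ω (ze E η) h0‖ ≤ BB y0 := hadm.norm_uu_le hBt.le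
      have t2 : ‖mc d (ze E η) ^ 2 * ∑ i ∈ Iside 1 false, yP p s ω (ze E η) (b i)‖ ≤
          1 * (Fintype.card (BI d 1) * BB y0) := by
        rw [norm_mul]
        refine mul_le_mul hm2 ?_ (norm_nonneg _) zero_le_one
        refine (norm_sum_le _ _).trans ?_
        refine (Finset.sum_le_sum_of_subset_of_nonneg (Finset.subset_univ _)
          (fun _ _ _ => norm_nonneg _)).trans ?_
        refine (Finset.sum_le_card_nsmul _ _ (BB y0) fun i _ =>
          hadm.norm_uu_le (im_B0_pos hp s ω hz (b i) 0).le).trans (le_of_eq ?_)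
        rw [nsmul_eq_mul, Finset.card_univ]
      refine (norm_sub_le _ _).trans ?_
      rw [hK]
      nlinarith
    have h3 : K ≤ K * (2 * CN y0 c * (P + S)) := by
      have := mul_le_mul_of_nonneg_left h1 hK0
      linarith
    refine h2.trans (h3.trans ?_)
    have a1 : 0 ≤ (C2 y0 Cx + Cb) * (Q + P + |s| + S) := by positivity
    have a2 : 0 ≤ K * (2 * CN y0 c) * (Q + |s|) := by positivity
    nlinarith
  · have hTr := hT E s η hR.E hR.s hR.η0 hR.η1 (Vt p h0 (0 + 1) s ω) (Vt_le hR p h0 (0 + 1))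
    have key := shapeM hadm hrs hrs1 (al := mc d (ze E η) ^ (2 * (0 + 1))) (be := 1)
      (cE := cEs 1 p s ω (ze E η) h0 ∅ b) (CN := CN y0 c) (Cx := Cx) hm2 hCx0 hCL hCN.le hS0
      (hTr false) (hTr true) (Bb := fun i => B0 p s ω (ze E η) (b i))
      (fun i => im_B0_pos hp s ω hz _ 0) hg e3 e2 hBt e1 e4
    have key' : ‖yP (np p h0 b) s ω (ze E η) h0 -
        mc d (ze E η) ^ 2 * ∑ i ∈ Iside 1 false, yP p s ω (ze E η) (b i)‖ ≤
        1 * C2 y0 Cx * Q + Cb * (P + |s| + S) := key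
    refine key'.trans ?_
    have a1 : 0 ≤ C2 y0 Cx * (P + |s| + S) := by positivity
    have a2 : 0 ≤ Cb * Q := by positivity
    have a3 : 0 ≤ K * (2 * CN y0 c) * (Q + P + |s| + S) := by positivity
    nlinarith

end main

end Crest.Agent.R166.ShapeP598
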