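import Crest.Agent.R166.ShapeP_598
import Crest.Agent.R166.ShapeP1_789

/-!
# Row 166, section 30.4 (helper598): (S0) and (SM), final forms

With 789's `RsOK`, `TEst` and coercivity constant `y00 / 8`.
-/

set_option autoImplicit false
set_option linter.unusedSectionVars false

open Matrix Finset

namespace Crest.Agent.R166.ShapeQ598

open Crest.Agent.R166 Crest.Agent.R166.Stab269 Crest.Agent.R166.Shape395
  Crest.Agent.R166.TreeDet350 Crest.Agent.R166.Spec30 Crest.Agent.R166.MuU395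
  Crest.Agent.R166.ShapeP598 Crest.Agent.R166.GoodE789 Crest.Agent.R166.ShapeP1789

variable {d : ℕ} [NeZero d] {A rs : ℝ}

theorem goodC (hd : 3 ≤ d) (hA : A ^ 2 < 4 * ((d : ℝ) - 1)) (hrs : RsOK d A rs) :
    GoodC d A rs (y00 d A / 8) := by
  intro n E s η ω hR p hp x hx y
  have hx' : SpecA.Dv rs p s ω (ze E η) x < rs := not_le.1 hx
  exact qf_ge hd hA hrs hp hR.E hR.η0 hR.η1 hx' y

theorem treeP_of {L : ℕ} {CLt : ℝ} (hT : TEst d (L + 1) A CLt) : TreeP d A L CLt := hT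

theorem le8 (h : RsOK d A rs) (hd : 3 ≤ d) (hA : A ^ 2 < 4 * ((d : ℝ) - 1)) :
    rs ≤ y00 d A / 8 := by
  have h1 := h.le
  have h2 := y00_pos (by omega : 2 ≤ d) hA
  linarith

/-- the constant of (S0), independent of `L` -/
noncomputable def C0 (d : ℕ) (A : ℝ) : ℝ := 4 + 8 * C2 (y00 d A) (1 / (y00 d A / 2))

/-- the constant `CL` of (S0) -/
noncomputable def CL0 (d : ℕ) (A rs CLt : ℝ) : ℝ :=
  8 * CLt * (C3 (y00 d A) rs (1 / (y00 d A / 2)) ^ 2 + 1) + 2 * CN (y00 d A) (y00 d A / 8)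

theorem C0_pos (hd : 3 ≤ d) (hA : A ^ 2 < 4 * ((d : ℝ) - 1)) : 0 < C0 d A := by
  have hy := y00_pos (by omega : 2 ≤ d) hA
  unfold C0 C2
  positivity

theorem CL0_pos (hd : 3 ≤ d) (hA : A ^ 2 < 4 * ((d : ℝ) - 1)) {CLt : ℝ}
    (hCL : 0 ≤ CLt) : 0 < CL0 d A rs CLt := by
  have hy := y00_pos (by omega : 2 ≤ d) hA
  have := CN_pos hy (by positivity : 0 < y00 d A / 8)
  unfold CL0
  positivity

/-- **(S0)**, every `ε` -/
theorem s0P_of {L : ℕ} {CLt : ℝ} (ε : ℝ) (hd : 3 ≤ d) (hA : A ^ 2 < 4 * ((d : ℝ) - 1))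
    (hrs : RsOK d A rs) (hCL : 0 ≤ CLt) (hT : TEst d (L + 1) A CLt) :
    S0P d (L + 1) A rs ε (C0 d A) (CL0 d A rs CLt) := by
  have hy := y00_pos (by omega : 2 ≤ d) hA
  exact s0P hd hA hrs.pos (hrs.le_one hd hA) (le8 hrs hd hA) (by positivity)
    (goodC hd hA hrs) hCL (treeP_of hT) ε

/-- **(SM)**, every `ε` -/
theorem sMP_of {CLt : ℝ} (ε : ℝ) (hd : 3 ≤ d) (hA : A ^ 2 < 4 * ((d : ℝ) - 1))
    (hrs : RsOK d A rs) (hCL : 0 ≤ CLt) (hT : TEst d 1 A CLt) :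
    ∃ C, 0 ≤ C ∧ SMP d A rs ε C := by
  have hy := y00_pos (by omega : 2 ≤ d) hA
  exact sMP hd hA hrs.pos (hrs.le_one hd hA) (le8 hrs hd hA) (by positivity)
    (goodC hd hA hrs) hCL (treeP_of hT) ε

end Crest.Agent.R166.ShapeQ598
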