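import Crest.Agent.R166.ScaleP_974

/-!
Row 166 (helper974): one-site resampling identity (section 42.7), deterministic part.
-/

set_option autoImplicit false
set_option linter.unusedSectionVars false

open Matrix Complex

namespace Crest.Agent.R166.FrameB974

open Crest.Agent.R166.Res789 Crest.Agent.R166.ScaleD355

variable {V : Type*} [Fintype V] [DecidableEq V]

/-- `A + s diag ω` -/
noncomputable def Hs (A : Matrix V V ℝ) (s : ℝ) (ω : V → ℝ) : Matrix V V ℝ :=
  A + s • Matrix.diagonal ω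

lemma Hs_symm {A : Matrix V V ℝ} (hA : Aᵀ = A) (s : ℝ) (ω : V → ℝ) : (Hs A s ω)ᵀ = Hs A s ω := by
  unfold Hs
  rw [Matrix.transpose_add, hA, Matrix.transpose_smul, Matrix.diagonal_transpose]

lemma Hs_herm {A : Matrix V V ℝ} (hA : Aᵀ = A) (s : ℝ) (ω : V → ℝ) :
    (Hs A s ω).IsHermitian := by
  unfold Matrix.IsHermitian
  rw [Matrix.conjTranspose_eq_transpose_of_trivial]
  exact Hs_symm hA s ω

lemma res_diff {H H' : Matrix V V ℝ} (hH : Hᵀ = H) (hH' : H'ᵀ = H') {z : ℂ} (hz : 0 < z.im) :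
    Res789.Res H z - Res789.Res H' z = Res789.Res H z * cx (H' - H) * Res789.Res H' z := by
  have h1 : Res789.Res H z * ((cx H' - z • (1 : Matrix V V ℂ)) - (cx H - z • 1)) *
      Res789.Res H' z = Res789.Res H z - Res789.Res H' z := by
    rw [mul_sub, sub_mul, mul_assoc, sub_mul_Res hH' hz, mul_one, Res_mul_sub hH hz, one_mul]
  rw [← h1, cx_sub]
  congr 2
  abel

/-- rank-one difference at the site `v` -/
lemma site_diff {A : Matrix V V ℝ} (hA : Aᵀ = A) (s : ℝ) (ω : V → ℝ) (v : V) (t : ℝ) {z : ℂ}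
    (hz : 0 < z.im) (x y : V) :
    Res (Hs A s ω) z x y - Res (Hs A s (Function.update ω v t)) z x y =
      (s * (t - ω v) : ℝ) * (Res (Hs A s ω) z x v *
        Res (Hs A s (Function.update ω v t)) z v y) := by
  have h := congrFun (congrFun (res_diff (Hs_symm hA s ω) (Hs_symm hA s (Function.update ω v t))
    hz) x) y
  have hD : Hs A s (Function.update ω v t) - Hs A s ω
      = Matrix.single v v (s * (t - ω v)) := by
    ext a b
    unfold Hs
    simp only [Matrix.sub_apply, Matrix.add_apply, Matrix.smul_apply, Matrix.diagonal_apply,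
      smul_eq_mul, Matrix.single_apply]
    by_cases hab : a = b
    · subst hab
      by_cases hav : v = a
      · subst hav
        simp
        ring
      · have hn : ¬ (v = a ∧ v = a) := fun h => hav h.1
        rw [if_neg hn]
        simp [Function.update_of_ne (Ne.symm hav)]
    · rw [if_neg hab, if_neg hab, if_neg]
      · ring
      · rintro ⟨rfl, rfl⟩
        exact hab rfl
  rw [hD] at h
  change (Res789.Res (Hs A s ω) z - Res789.Res (Hs A s (Function.update ω v t)) z) x y = _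
  rw [h]
  have e : cx (Matrix.single v v (s * (t - ω v))) = Matrix.single v v ((s * (t - ω v) : ℝ) : ℂ) := by
    ext a b
    simp only [cx_apply, Matrix.single_apply]
    split_ifs <;> simp
  rw [e, Matrix.mul_apply, Finset.sum_eq_single v]
  · rw [Matrix.mul_single_apply_same]
    change _ = _ * (Res789.Res (Hs A s ω) z x v *
        Res789.Res (Hs A s (Function.update ω v t)) z v y)
    ring
  · intro b _ hb
    rw [Matrix.mul_single_apply_of_ne (hbj := hb), zero_mul]
  · intro hv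
    exact absurd (Finset.mem_univ v) hv

/-- `R'_vy R_vv = R_vy R'_vv` -/
lemma site_cross {A : Matrix V V ℝ} (hA : Aᵀ = A) (s : ℝ) (ω : V → ℝ) (v : V) (t : ℝ) {z : ℂ}
    (hz : 0 < z.im) (y : V) :
    Res (Hs A s (Function.update ω v t)) z v y * Res (Hs A s ω) z v v =
      Res (Hs A s ω) z v y * Res (Hs A s (Function.update ω v t)) z v v := by
  have h1 := site_diff hA s ω v t hz v y
  have h2 := site_diff hA s ω v t hz v v
  -- symmetric version of the difference
  have h3 : Res (Hs A s ω) z v y - Res (Hs A s (Function.update ω v t)) z v y =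
      (s * (t - ω v) : ℝ) * (Res (Hs A s (Function.update ω v t)) z v v *
        Res (Hs A s ω) z v y) := by
    have h4 := site_diff hA s ω v t hz y v
    have a1 : Res (Hs A s ω) z y v = Res (Hs A s ω) z v y :=
      Res_symm_apply (Hs_symm hA s ω) hz y v
    have a2 : Res (Hs A s (Function.update ω v t)) z y v
        = Res (Hs A s (Function.update ω v t)) z v y :=
      Res_symm_apply (Hs_symm hA s _) hz y v
    rw [a1, a2] at h4
    rw [h4]
    ring
  linear_combination (-1 : ℂ) * (Res (Hs A s ω) z v v) * h3 + (Res (Hs A s ω) z v y) * h2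

lemma diag_ne_zero {H : Matrix V V ℝ} (hH : Hᵀ = H) {z : ℂ} (hz : 0 < z.im) (v : V) :
    Res H z v v ≠ 0 ∧ 0 < (Res H z v v).im := by
  have h1 : 0 < (Res H z v v).im := by
    have h2 := sum_row_sq hH hz v
    have h3 : 0 ≤ (Res H z v v).im := im_diag_nonneg hH hz v
    rcases h3.eq_or_lt with h | h
    · exfalso
      have h4 : (Res789.Res H z v v).im = 0 := h.symm
      rw [h4, zero_div] at h2
      have h5 : ∀ k, Res789.Res H z v k = 0 := by
        intro k
        have := (Finset.sum_eq_zero_iff_of_nonneg (fun k _ => by positivity)).1 h2 k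
          (Finset.mem_univ k)
        simpa using this
      have h6 := congrFun (congrFun (Res_mul_sub hH hz) v) v
      rw [Matrix.mul_apply] at h6
      simp only [h5, zero_mul, Finset.sum_const_zero, Matrix.one_apply_eq] at h6
      exact zero_ne_one h6
    · exact h
  refine ⟨fun h => ?_, h1⟩
  rw [h] at h1
  simp at h1

/-- the part of `1/R_vv` which does not depend on `ω_v` -/
noncomputable def Wv (A : Matrix V V ℝ) (s : ℝ) (ω : V → ℝ) (z : ℂ) (v : V) : ℂ :=
  (Res (Hs A s ω) z v v)⁻¹ - ((s * ω v : ℝ) : ℂ)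

lemma Wv_update {A : Matrix V V ℝ} (hA : Aᵀ = A) (s : ℝ) (ω : V → ℝ) (v : V) (t : ℝ) {z : ℂ}
    (hz : 0 < z.im) : Wv A s (Function.update ω v t) z v = Wv A s ω z v := by
  have h2 := site_diff hA s ω v t hz v v
  have n1 := (diag_ne_zero (Hs_symm hA s ω) hz v).1
  have n2 := (diag_ne_zero (Hs_symm hA s (Function.update ω v t)) hz v).1
  unfold Wv
  rw [Function.update_self]
  have h3 : (Res (Hs A s (Function.update ω v t)) z v v)⁻¹ - (Res (Hs A s ω) z v v)⁻¹
      = ((s * (t - ω v) : ℝ) : ℂ) := by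
    field_simp
    rw [h2]
    ring
  push_cast at h3 ⊢
  linear_combination h3

lemma im_Wv (A : Matrix V V ℝ) (s : ℝ) (ω : V → ℝ) (z : ℂ) (v : V) :
    (Wv A s ω z v).im = -((Res (Hs A s ω) z v v).im / ‖Res (Hs A s ω) z v v‖ ^ 2) := by
  unfold Wv
  rw [Complex.sub_im, Complex.ofReal_im, sub_zero, Complex.inv_im, Complex.normSq_eq_norm_sq]
  ring

/-- size of the local change of `ξ` -/
lemma local_err {H : Matrix V V ℝ} (hH : Hᵀ = H) {E η : ℝ} (hη : 0 < η) (ζ : V → ℝ)
    (N : Finset V) {B : ℝ} (hN : (N.card : ℝ) ≤ B) (hζ : ∀ y, |ζ y| ≤ 2)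
    (hζN : ∀ y, y ∉ N → ζ y = 0) (v : V) :
    ‖pv H ζ E η v / Res H (ze E η) v v‖ ≤
      2 * Real.sqrt (B * η * ((Res H (ze E η) v v).im / ‖Res H (ze E η) v v‖ ^ 2)) := by
  have hz : 0 < (ze E η).im := by simpa [ze] using hη
  have hzim : (ze E η).im = η := by simp [ze]
  obtain ⟨hr0, hr1⟩ := diag_ne_zero hH hz v
  have hB : 0 ≤ B := le_trans (by positivity) hN
  set r := Res H (ze E η) v v with hr
  have hrp : 0 < ‖r‖ := norm_pos_iff.2 hr0
  have h1 : ‖∑ y, Res H (ze E η) v y * (ζ y : ℂ)‖ ≤ 2 * (Real.sqrt B * Real.sqrt (r.im / η)) := by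
    have e : ∑ y, Res H (ze E η) v y * (ζ y : ℂ) = ∑ y ∈ N, Res H (ze E η) v y * (ζ y : ℂ) := by
      symm
      apply Finset.sum_subset (Finset.subset_univ N)
      intro y _ hy
      rw [hζN y hy]
      simp
    rw [e]
    calc ‖∑ y ∈ N, Res H (ze E η) v y * (ζ y : ℂ)‖
        ≤ ∑ y ∈ N, ‖Res H (ze E η) v y * (ζ y : ℂ)‖ := norm_sum_le _ _
      _ ≤ ∑ y ∈ N, 2 * (1 * ‖Res H (ze E η) v y‖) := by
          refine Finset.sum_le_sum fun y _ => ?_
          rw [norm_mul, Complex.norm_real, Real.norm_eq_abs]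
          have := hζ y
          nlinarith [norm_nonneg (Res H (ze E η) v y)]
      _ = 2 * ∑ y ∈ N, 1 * ‖Res H (ze E η) v y‖ := by rw [Finset.mul_sum]
      _ ≤ 2 * (Real.sqrt (∑ y ∈ N, (1 : ℝ) ^ 2) * Real.sqrt (∑ y ∈ N, ‖Res H (ze E η) v y‖ ^ 2)) := by
          have := Real.sum_mul_le_sqrt_mul_sqrt N (fun _ => (1 : ℝ))
            (fun y => ‖Res H (ze E η) v y‖)
          linarith
      _ ≤ 2 * (Real.sqrt B * Real.sqrt (r.im / η)) := by
          have g1 : ∑ y ∈ N, (1 : ℝ) ^ 2 ≤ B := by simpa using hN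
          have g2 : ∑ y ∈ N, ‖Res H (ze E η) v y‖ ^ 2 ≤ r.im / η := by
            have := sum_row_sq hH hz v
            rw [hzim] at this
            have h2 : r.im / η = ∑ k, ‖Res H (ze E η) v k‖ ^ 2 := this.symm
            rw [h2]
            exact Finset.sum_le_sum_of_subset_of_nonneg (Finset.subset_univ N)
              (fun _ _ _ => by positivity)
          have := mul_le_mul (Real.sqrt_le_sqrt g1) (Real.sqrt_le_sqrt g2) (Real.sqrt_nonneg _)
            (Real.sqrt_nonneg _)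
          linarith
  have h2 : ‖pv H ζ E η v / r‖ = η / ‖r‖ * ‖∑ y, Res H (ze E η) v y * (ζ y : ℂ)‖ := by
    unfold pv
    rw [norm_div, norm_mul, norm_neg, norm_mul, Complex.norm_I, Complex.norm_real,
      Real.norm_eq_abs, abs_of_pos hη]
    ring
  rw [h2]
  have h3 : η / ‖r‖ * ‖∑ y, Res H (ze E η) v y * (ζ y : ℂ)‖ ≤
      η / ‖r‖ * (2 * (Real.sqrt B * Real.sqrt (r.im / η))) := by gcongr
  refine h3.trans (le_of_eq ?_)
  have h4 : Real.sqrt (B * η * (r.im / ‖r‖ ^ 2)) = Real.sqrt B * (η / ‖r‖ * Real.sqrt (r.im / η)) := by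
    have : B * η * (r.im / ‖r‖ ^ 2) = B * ((η / ‖r‖) ^ 2 * (r.im / η)) := by
      field_simp
    rw [this, Real.sqrt_mul hB, Real.sqrt_mul (by positivity), Real.sqrt_sq (by positivity)]
  rw [h4]
  ring

lemma pv_sub (H : Matrix V V ℝ) (ξ ξ' : V → ℝ) (E η : ℝ) (v : V) :
    pv H (fun y => ξ' y - ξ y) E η v = pv H ξ' E η v - pv H ξ E η v := by
  unfold pv
  rw [← mul_sub, ← Finset.sum_sub_distrib]
  congr 1
  refine Finset.sum_congr rfl fun y _ => ?_
  push_cast
  ring

/-- `(R'ξ)_v / R'_vv = (Rξ)_v / R_vv` -/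
lemma pv_div_update {A : Matrix V V ℝ} (hA : Aᵀ = A) (s : ℝ) (ω : V → ℝ) (v : V) (t : ℝ)
    {E η : ℝ} (hη : 0 < η) (ξ : V → ℝ) :
    pv (Hs A s (Function.update ω v t)) ξ E η v / Res (Hs A s (Function.update ω v t)) (ze E η) v v
      = pv (Hs A s ω) ξ E η v / Res (Hs A s ω) (ze E η) v v := by
  have hz : 0 < (ze E η).im := by simpa [ze] using hη
  have n1 := (diag_ne_zero (Hs_symm hA s ω) hz v).1
  have n2 := (diag_ne_zero (Hs_symm hA s (Function.update ω v t)) hz v).1
  rw [div_eq_div_iff n2 n1]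
  unfold pv
  rw [mul_assoc, mul_assoc, Finset.sum_mul, Finset.sum_mul]
  congr 1
  refine Finset.sum_congr rfl fun y _ => ?_
  have := site_cross hA s ω v t hz y
  linear_combination (ξ y : ℂ) * this

/-- **one-site resampling inequality** -/
theorem site_bound {A : Matrix V V ℝ} (hA : Aᵀ = A) (s : ℝ) (ω : V → ℝ) (v : V) (t : ℝ)
    {E η : ℝ} (hη : 0 < η) (hω : |ω v| ≤ 1) (ht : |t| ≤ 1) (ξ ξ' : V → ℝ) (N : Finset V)
    {B M : ℝ} (hN : (N.card : ℝ) ≤ B) (hξ : ∀ y, |ξ y| ≤ 1) (hξ' : ∀ y, |ξ' y| ≤ 1)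
    (hloc : ∀ y, y ∉ N → ξ' y = ξ y)
    (hM : 0 < M) (hW : ‖Wv A s ω (ze E η) v‖ ≤ M) (hW2 : 1 / M ≤ |(Wv A s ω (ze E η) v).im|) :
    |s| * |t - ω v| * |(pv (Hs A s ω) ξ E η v).re| ≤
      (1 + M * (M + |s|)) * (2 * Real.sqrt (B * η * M) + (M + |s|) *
        (|(pv (Hs A s ω) ξ E η v).im| +
          |(pv (Hs A s (Function.update ω v t)) ξ' E η v).im|)) := by
  have hz : 0 < (ze E η).im := by simpa [ze] using hη
  set ω' := Function.update ω v t with hω'
  have hω'v : ω' v = t := by rw [hω']; exact Function.update_self v t ω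
  set W := Wv A s ω (ze E η) v with hWdef
  have hW' : Wv A s ω' (ze E η) v = W := Wv_update hA s ω v t hz
  set p := pv (Hs A s ω) ξ E η v with hp
  set p' := pv (Hs A s ω') ξ' E η v with hp'
  have n1 := (diag_ne_zero (Hs_symm hA s ω) hz v).1
  have n2 := (diag_ne_zero (Hs_symm hA s ω') hz v).1
  have hB : 0 ≤ B := le_trans (by positivity) hN
  -- P and P'
  have hP : p / Res (Hs A s ω) (ze E η) v v = p * (((s * ω v : ℝ) : ℂ) + W) := by
    rw [hWdef]; unfold Wv
    rw [div_eq_mul_inv]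
    ring
  have hP' : p' / Res (Hs A s ω') (ze E η) v v = p' * (((s * t : ℝ) : ℂ) + W) := by
    rw [← hW']; unfold Wv
    rw [div_eq_mul_inv, hω'v]
    ring
  set e := p' * (((s * t : ℝ) : ℂ) + W) - p * (((s * ω v : ℝ) : ℂ) + W) with he
  have he1 : ‖e‖ ≤ 2 * Real.sqrt (B * η * M) := by
    have h1 : e = pv (Hs A s ω') (fun y => ξ' y - ξ y) E η v / Res (Hs A s ω') (ze E η) v v := by
      rw [he, ← hP, ← hP', pv_sub, sub_div, pv_div_update hA s ω v t hη ξ]
    rw [h1]
    refine (local_err (Hs_symm hA s ω') hη (fun y => ξ' y - ξ y) N hN ?_ ?_ v).trans ?_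
    · intro y
      have := abs_sub (ξ' y) (ξ y)
      linarith [hξ y, hξ' y]
    · intro y hy
      rw [hloc y hy, sub_self]
    · have h2 : (Res (Hs A s ω') (ze E η) v v).im / ‖Res (Hs A s ω') (ze E η) v v‖ ^ 2 = -W.im := by
        rw [← hW', im_Wv]
        ring
      rw [h2]
      have h3 : -W.im ≤ M := (neg_le_abs _).trans ((Complex.abs_im_le_norm _).trans hW)
      gcongr
  -- e2
  set e2 := e - Complex.I * (p'.im : ℂ) * (((s * t : ℝ) : ℂ) + W)
    + Complex.I * (p.im : ℂ) * (((s * ω v : ℝ) : ℂ) + W) with he2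
  have he2n : ‖e2‖ ≤ 2 * Real.sqrt (B * η * M) + (M + |s|) * (|p.im| + |p'.im|) := by
    have h1 : ‖Complex.I * (p'.im : ℂ) * (((s * t : ℝ) : ℂ) + W)‖ ≤ (M + |s|) * |p'.im| := by
      rw [norm_mul, norm_mul, Complex.norm_I, Complex.norm_real, one_mul, Real.norm_eq_abs]
      have : ‖((s * t : ℝ) : ℂ) + W‖ ≤ M + |s| := by
        refine (norm_add_le _ _).trans ?_
        rw [Complex.norm_real, Real.norm_eq_abs, abs_mul]
        have : |s| * |t| ≤ |s| := by nlinarith [abs_nonneg s]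
        linarith
      rw [mul_comm]
      gcongr
    have h2 : ‖Complex.I * (p.im : ℂ) * (((s * ω v : ℝ) : ℂ) + W)‖ ≤ (M + |s|) * |p.im| := by
      rw [norm_mul, norm_mul, Complex.norm_I, Complex.norm_real, one_mul, Real.norm_eq_abs]
      have : ‖((s * ω v : ℝ) : ℂ) + W‖ ≤ M + |s| := by
        refine (norm_add_le _ _).trans ?_
        rw [Complex.norm_real, Real.norm_eq_abs, abs_mul]
        have : |s| * |ω v| ≤ |s| := by nlinarith [abs_nonneg s]
        linarith
      rw [mul_comm]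
      gcongr
    calc ‖e2‖ ≤ ‖e‖ + ‖Complex.I * (p'.im : ℂ) * (((s * t : ℝ) : ℂ) + W)‖
          + ‖Complex.I * (p.im : ℂ) * (((s * ω v : ℝ) : ℂ) + W)‖ := by
          rw [he2]
          exact (norm_add_le _ _).trans (add_le_add (norm_sub_le _ _) le_rfl)
      _ ≤ _ := by linarith
  have hq : (p'.re : ℂ) * (((s * t : ℝ) : ℂ) + W) - (p.re : ℂ) * (((s * ω v : ℝ) : ℂ) + W) = e2 := by
    rw [he2, he]
    have h1 : p' = (p'.re : ℂ) + (p'.im : ℂ) * I := (Complex.re_add_im p').symm
    have h2 : p = (p.re : ℂ) + (p.im : ℂ) * I := (Complex.re_add_im p).symm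
    linear_combination (-(((s * t : ℝ) : ℂ) + W)) * h1 + (((s * ω v : ℝ) : ℂ) + W) * h2
  -- real and imaginary parts
  have hIm := congrArg Complex.im hq
  have hRe := congrArg Complex.re hq
  simp only [Complex.sub_im, Complex.im_ofReal_mul, Complex.add_im, Complex.ofReal_im,
    zero_add] at hIm
  simp only [Complex.sub_re, Complex.re_ofReal_mul, Complex.add_re, Complex.ofReal_re] at hRe
  have hWim : 0 < |W.im| := lt_of_lt_of_le (by positivity) hW2
  have hd : |p'.re - p.re| ≤ M * ‖e2‖ := by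
    have h1 : (p'.re - p.re) * W.im = e2.im := by linarith
    have h2 : |p'.re - p.re| * |W.im| ≤ ‖e2‖ := by
      rw [← abs_mul, h1]
      exact Complex.abs_im_le_norm _
    have h3 : |p'.re - p.re| * (1 / M) ≤ ‖e2‖ :=
      (mul_le_mul_of_nonneg_left hW2 (abs_nonneg _)).trans h2
    calc |p'.re - p.re| = M * (|p'.re - p.re| * (1 / M)) := by field_simp
      _ ≤ M * ‖e2‖ := by gcongr
  have hmain : s * (t - ω v) * p.re = e2.re - (p'.re - p.re) * (W.re + s * t) := by
    rw [← hRe]; ring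
  have h5 : |s| * |t - ω v| * |p.re| ≤ (1 + M * (M + |s|)) * ‖e2‖ := by
    rw [← abs_mul, ← abs_mul, hmain]
    have h6 : |W.re + s * t| ≤ M + |s| := by
      refine (abs_add_le _ _).trans ?_
      have h7 : |W.re| ≤ M := (Complex.abs_re_le_norm _).trans hW
      have h8 : |s * t| ≤ |s| := by
        rw [abs_mul]
        nlinarith [abs_nonneg s]
      linarith
    calc |e2.re - (p'.re - p.re) * (W.re + s * t)|
        ≤ |e2.re| + |(p'.re - p.re) * (W.re + s * t)| := abs_sub _ _
      _ ≤ ‖e2‖ + (M * ‖e2‖) * (M + |s|) := by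
          refine add_le_add (Complex.abs_re_le_norm _) ?_
          rw [abs_mul]
          exact mul_le_mul hd h6 (abs_nonneg _) (by positivity)
      _ = _ := by ring
  refine h5.trans ?_
  have : 0 ≤ 1 + M * (M + |s|) := by positivity
  exact mul_le_mul_of_nonneg_left he2n this

end Crest.Agent.R166.FrameB974
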