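import Crest.Agent.R166.InvFin_348
import Crest.Agent.R166.Master_423

/-!
Row 166 (helper348): section 50 in the form consumed by `Master_423`.
-/

set_option autoImplicit false

namespace Crest.Agent.R166.InvFin348

theorem stmt50 : Master423.Stmt50 := fun _ _ _ _ hd hρ hEnv hIm hLoc hND hB =>
  InvG348.invG (by omega) hρ hEnv hLoc hND (Inv988.keyCmp (by omega) hρ hB hIm hLoc)

end Crest.Agent.R166.InvFin348
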