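import Crest.Agent.R166.InvK_988
import Crest.Agent.R166.InvG3_348
import Crest.Agent.R166.Master_423

/-!
Row 166: section 50, final form.
-/

set_option autoImplicit false

namespace Crest.Agent.R166.Inv988

open Crest.Agent.R166

/-- **section 50** -/
theorem stmt50 : Master423.Stmt50 := fun _ _ _ _ hd hρ hEnv hIm hLoc hND hB =>
  InvG348.invG (by omega) hρ hEnv hLoc hND (keyCmp (by omega) hρ hB hIm hLoc)

end Crest.Agent.R166.Inv988
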