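import Crest.Agent.R166.SwP3_470
import Crest.Agent.R166.DecP_789

/-!
# Row 166, section 20.1: the single-edge move on ports (helper470)

Move `m = (h, b) : HE n d × HE n d`; `x = h.1`, `y = (p h).1`, `u = b.1`, `w = (p b).1`.
`V1 p h b` : validity: `x, y, u, w` distinct, `x ≁ u`, `y ≁ w`.
`sw1 p (h, b)`: new pairs `h — b` and `p h — p b`; returned move `(h, p h)`; lazy if invalid.

* `V1.np_h`, `V1.np_ph`, `V1.np_b`, `V1.np_pb`, `V1.np_off`
* `moveSystem1 : MoveSystem (Ports n d) univ univ Prod.fst (card (HE n d)) sw1`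
* `card_not_V1`  : `#{b | ¬ V1 p h b} ≤ 2 d (d+2)`
* `card_Ch_sw1`  : `#Ch ≤ 4`
* `hcomm1`       : the commutation hypothesis of `Sec269.second_moment` with `δ₁ = 16 / n`
* `Hm_sw1`       : change of the Hamiltonian
* `card_pairs_le`: abstract count of interfering pairs
-/

set_option autoImplicit false
set_option linter.unusedSectionVars false

open Finset

namespace Crest.Agent.R166.SwP470

variable {n d : ℕ}

/-- interfering pairs: if every value is taken by every coordinate function at most `c` times -/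
lemma card_pairs_le {M V D : Type*} [Fintype M] [Fintype D] [DecidableEq V]
    (f : D → M → V) (c : ℕ) (hc : ∀ x v, (univ.filter fun m => f x m = v).card ≤ c)
    (Bad : Finset (M × M)) (hBad : ∀ m m', (m, m') ∈ Bad → ∃ x x', f x m = f x' m') :
    Bad.card ≤ Fintype.card M * (Fintype.card D * Fintype.card D * c) := by
  classical
  have h1 : Bad ⊆ (univ : Finset M).biUnion fun m =>
      (univ : Finset (D × D)).biUnion fun x =>
        (univ.filter fun m' => f x.2 m' = f x.1 m).image fun m' => (m, m') := by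
    rintro ⟨m, m'⟩ hm
    obtain ⟨x, x', hx⟩ := hBad m m' hm
    simp only [mem_biUnion, mem_univ, true_and, mem_image, mem_filter]
    exact ⟨m, (x, x'), m', hx.symm, rfl⟩
  refine (card_le_card h1).trans ?_
  refine (card_biUnion_le_card_mul _ _ (Fintype.card D * Fintype.card D * c) ?_).trans ?_
  · intro m _
    refine (card_biUnion_le_card_mul _ _ c ?_).trans ?_
    · intro x _
      exact card_image_le.trans (hc _ _)
    · rw [card_univ, Fintype.card_prod]
  · rw [card_univ]

/-- validity of the single-edge switching -/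
structure V1 (p : Equiv.Perm (HE n d)) (h b : HE n d) : Prop where
  xu : h.1 ≠ b.1
  xw : h.1 ≠ (p b).1
  yu : (p h).1 ≠ b.1
  yw : (p h).1 ≠ (p b).1
  nxu : ¬ (graphOf p).Adj h.1 b.1
  nyw : ¬ (graphOf p).Adj (p h).1 (p b).1

/-- the switched pairing -/
noncomputable def np1 (p : Equiv.Perm (HE n d)) (h b : HE n d) : Equiv.Perm (HE n d) :=
  cj (fun _ : Unit => p h) (fun _ : Unit => b) p

section

variable {p : Equiv.Perm (HE n d)} {h b : HE n d}

lemma V1.val (hp : IsPort p) (hv : V1 p h b) :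
    Val (α := HE n d) Prod.fst p (fun _ : Unit => p h) (fun _ : Unit => b) where
  aa := fun _ _ _ => rfl
  uu := fun _ _ _ => rfl
  ww := fun _ _ _ => rfl
  au := fun _ _ => hv.yu
  aw := fun _ _ => hv.yw
  uw := fun _ _ => (hp.noloop b).symm
  ta := fun _ _ => by rw [hp.inv]; exact (hp.noloop h).symm
  tu := fun _ _ => by rw [hp.inv]; exact hv.xu
  tw := fun _ _ => by rw [hp.inv]; exact hv.xw
  ntu := fun _ => by rw [hp.inv, adj_iff_adj hp]; exact hv.nxu
  naw := fun _ => by rw [adj_iff_adj hp]; exact hv.nyw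

/-- the new pairing is simple -/
theorem V1.isPort (hp : IsPort p) (hv : V1 p h b) : IsPort (np1 p h b) :=
  isPort_of_isSP ((hv.val hp).isSP (isSP_of_isPort hp))

/-- new pairs -/
lemma V1.np_h (hp : IsPort p) (hv : V1 p h b) : np1 p h b h = b := by
  have := (hv.val hp).cj_t (isSP_of_isPort hp) ()
  simp only [hp.inv] at this
  exact this

lemma V1.np_ph (hp : IsPort p) (hv : V1 p h b) : np1 p h b (p h) = p b :=
  (hv.val hp).cj_a ()

lemma V1.np_b (hp : IsPort p) (hv : V1 p h b) : np1 p h b b = h := by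
  have := (hv.val hp).cj_b ()
  simp only [hp.inv] at this
  exact this

lemma V1.np_pb (hp : IsPort p) (hv : V1 p h b) : np1 p h b (p b) = p h :=
  (hv.val hp).cj_w (isSP_of_isPort hp) ()

/-- other half-edges are not changed (also when the switching is not valid, with distinct
half-edges) -/
lemma V1.np_off (hp : IsPort p) {x : HE n d} (h1 : x ≠ h) (h2 : x ≠ p h) (h3 : x ≠ b)
    (h4 : x ≠ p b) : np1 p h b x = p x := by
  have ho : Out p (fun _ : Unit => p h) (fun _ : Unit => b) x :=
    ⟨fun _ => h2.symm, fun _ => h3.symm, fun _ => by rw [hp.inv]; exact h1.symm,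
      fun _ => h4.symm⟩
  exact ho.cj (isSP_of_isPort hp)

/-- the switching is valid in the other direction -/
theorem V1.symm (hp : IsPort p) (hv : V1 p h b) : V1 (np1 p h b) h (p h) := by
  have hS := (hv.val hp).symm (isSP_of_isPort hp)
  have hpp := hv.isPort hp
  refine ⟨(hp.noloop h).symm, ?_, ?_, ?_, ?_, ?_⟩
  · rw [hv.np_ph hp]; exact hv.xw
  · rw [hv.np_h hp]; exact hv.yu.symm
  · rw [hv.np_h hp, hv.np_ph hp]; exact (hp.noloop b).symm
  · have h1 := hS.ntu ()
    have h2 : cj (fun _ : Unit => p h) (fun _ : Unit => b) p = np1 p h b := rfl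
    rw [h2, adj_iff_adj hpp, hv.np_b hp] at h1
    exact h1
  · have h1 := hS.naw ()
    have h2 : cj (fun _ : Unit => p h) (fun _ : Unit => b) p = np1 p h b := rfl
    rw [h2, adj_iff_adj hpp] at h1
    rw [hv.np_h hp]
    exact h1

/-- switching back -/
theorem V1.np_np (hp : IsPort p) (hv : V1 p h b) : np1 (np1 p h b) h (p h) = p := by
  have h1 : np1 (np1 p h b) h (p h) = cj (fun _ : Unit => np1 p h b h) (fun _ : Unit => p h)
    (cj (fun _ : Unit => p h) (fun _ : Unit => b) p) := rfl
  rw [h1, hv.np_h hp]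
  exact cj_cj _ _ _

/-- it is a move in the sense of `DecP_789` -/
theorem V1.isMove (hp : IsPort p) (hv : V1 p h b) :
    DecP789.IsMove p (np1 p h b) (fun _ : Unit => h) (fun _ : Unit => b) where
  ntau := fun _ => hv.np_h hp
  nout := fun _ => hv.np_ph hp
  rest := fun _ h1 h2 h3 h4 => V1.np_off hp (h1 ()) (h2 ()) (h3 ()) (h4 ())
  tau_inj := fun _ _ _ => rfl
  b_inj := fun _ _ _ => rfl
  tau_out := fun _ _ => (hp.ne_self h).symm
  tau_b := fun _ _ hh => hv.xu (by rw [hh])
  tau_c := fun _ _ hh => hv.xw (by rw [← hh])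
  b_c := fun _ _ => (hp.ne_self b).symm

/-- **change of the Hamiltonian** -/
theorem Hm_sw1 (hp : IsPort p) (hv : V1 p h b) (s : ℝ) (ω : Fin n → ℝ) :
    Hm (graphOf (np1 p h b)) s ω = Hm (graphOf p) s ω + (DecP789.EE h b + DecP789.EE (p h) (p b)
      - DecP789.EE h (p h) - DecP789.EE b (p b)) := by
  have := (hv.isMove hp).Hm_move hp (hv.isPort hp) s ω
  simpa using this

end

open Classical in
/-- the lazy single-edge switching -/
noncomputable def sw1 (p : Equiv.Perm (HE n d)) (m : HE n d × HE n d) :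
    Equiv.Perm (HE n d) × (HE n d × HE n d) :=
  if V1 p m.1 m.2 then (np1 p m.1 m.2, (m.1, p m.1)) else (p, m)

lemma sw1_pos {p : Equiv.Perm (HE n d)} {m : HE n d × HE n d}
    (h : V1 p m.1 m.2) : sw1 p m = (np1 p m.1 m.2, (m.1, p m.1)) := by
  unfold sw1; rw [if_pos h]

lemma sw1_neg {p : Equiv.Perm (HE n d)} {m : HE n d × HE n d}
    (h : ¬ V1 p m.1 m.2) : sw1 p m = (p, m) := by
  unfold sw1; rw [if_neg h]

/-- **the single-edge switching is a move system** -/
theorem moveSystem1 (n d : ℕ) :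
    Sec269.MoveSystem (Ports n d)
      (Finset.univ : Finset (HE n d × HE n d)) (Finset.univ : Finset (HE n d)) Prod.fst
      (Fintype.card (HE n d)) sw1 where
  ctr_mem := fun _ _ => Finset.mem_univ _
  ctr_card := fun e _ _ => by
    classical
    have : (Finset.univ.filter fun m : HE n d × HE n d => m.1 = e)
        = (Finset.univ : Finset (HE n d)).map
          ⟨fun b => (e, b), fun _ _ h => (Prod.mk.inj h).2⟩ := by
      ext m
      rw [Finset.mem_filter, Finset.mem_map]
      constructor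
      · rintro ⟨_, h⟩
        exact ⟨m.2, Finset.mem_univ _, Prod.ext h.symm rfl⟩
      · rintro ⟨y', _, h⟩
        exact ⟨Finset.mem_univ _, (congrArg Prod.fst h).symm⟩
    rw [this, Finset.card_map, Finset.card_univ]
  mem_left := fun p hp m _ => by
    rw [mem_Ports] at hp
    by_cases h : V1 p m.1 m.2
    · rw [sw1_pos h, mem_Ports]; exact h.isPort hp
    · rw [sw1_neg h, mem_Ports]; exact hp
  mem_right := fun _ _ _ _ => Finset.mem_univ _
  inv := fun p hp m _ => by
    rw [mem_Ports] at hp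
    by_cases h : V1 p m.1 m.2
    · rw [sw1_pos h]
      have h2 : V1 (np1 p m.1 m.2) m.1 (p m.1) := h.symm hp
      rw [sw1_pos (m := (m.1, p m.1)) h2]
      show (np1 (np1 p m.1 m.2) m.1 (p m.1), (m.1, np1 p m.1 m.2 m.1)) = (p, m)
      rw [h.np_np hp, h.np_h hp]
    · rw [sw1_neg h, sw1_neg h]
  ctr_sw := fun p _ m _ => by
    by_cases h : V1 p m.1 m.2
    · rw [sw1_pos h]
    · rw [sw1_neg h]

/-! ### counts -/

lemma card_fst_eq (v : Fin n) : (univ.filter fun h : HE n d => h.1 = v).card = d := by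
  classical
  have : (univ.filter fun h : HE n d => h.1 = v) = (univ : Finset (Fin d)).map
      ⟨fun i => (v, i), fun _ _ h => (Prod.mk.inj h).2⟩ := by
    ext x
    rw [mem_filter, mem_map]
    constructor
    · rintro ⟨_, h⟩; exact ⟨x.2, mem_univ _, Prod.ext h.symm rfl⟩
    · rintro ⟨i, _, h⟩; exact ⟨mem_univ _, (congrArg Prod.fst h).symm⟩
  rw [this, card_map, card_univ, Fintype.card_fin]

lemma card_pfst_eq (p : Equiv.Perm (HE n d)) (v : Fin n) :
    (univ.filter fun h : HE n d => (p h).1 = v).card = d := by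
  classical
  refine Eq.trans ?_ (card_fst_eq (n := n) (d := d) v)
  refine card_bij (fun h _ => p h) ?_ ?_ ?_
  · intro a ha
    rw [mem_filter] at ha ⊢
    exact ⟨mem_univ _, ha.2⟩
  · intro a _ b _ hab
    exact p.injective hab
  · intro b hb
    rw [mem_filter] at hb
    exact ⟨p.symm b, by rw [mem_filter]; exact ⟨mem_univ _, by simpa using hb.2⟩, by simp⟩

lemma card_fst_adj (p : Equiv.Perm (HE n d)) (hp : IsPort p) (v : Fin n) [DecidableRel (graphOf p).Adj] :
    (univ.filter fun h : HE n d => (graphOf p).Adj v h.1).card ≤ d * d := by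
  classical
  have h1 : (univ.filter fun h : HE n d => (graphOf p).Adj v h.1) ⊆
      (univ.filter fun w => (graphOf p).Adj v w).biUnion
        fun w => univ.filter fun h : HE n d => h.1 = w := by
    intro h hh
    rw [mem_filter] at hh
    rw [mem_biUnion]
    exact ⟨h.1, by rw [mem_filter]; exact ⟨mem_univ _, hh.2⟩, by rw [mem_filter]; exact ⟨mem_univ _, rfl⟩⟩
  refine (card_le_card h1).trans ?_
  refine (card_biUnion_le_card_mul _ _ d ?_).trans ?_
  · intro w _
    exact (card_fst_eq w).le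
  · rw [hp.card_nbr]

lemma card_pfst_adj (p : Equiv.Perm (HE n d)) (hp : IsPort p) (v : Fin n) [DecidableRel (graphOf p).Adj] :
    (univ.filter fun h : HE n d => (graphOf p).Adj v (p h).1).card ≤ d * d := by
  classical
  refine le_trans ?_ (card_fst_adj p hp v)
  refine card_le_card_of_injOn p ?_ (fun _ _ _ _ h => p.injective h)
  intro a ha
  rw [mem_coe, mem_filter] at ha ⊢
  exact ⟨mem_univ _, ha.2⟩

open Classical in
/-- **few choices are invalid** -/
theorem card_not_V1 (p : Equiv.Perm (HE n d)) (hp : IsPort p) (h : HE n d) :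
    (univ.filter fun b => ¬ V1 p h b).card ≤ 2 * d * (d + 2) := by
  have hsub : (univ.filter fun b => ¬ V1 p h b) ⊆
      (((univ.filter fun b : HE n d => b.1 = h.1) ∪ (univ.filter fun b : HE n d => (p b).1 = h.1))
      ∪ ((univ.filter fun b : HE n d => b.1 = (p h).1) ∪
        (univ.filter fun b : HE n d => (p b).1 = (p h).1)))
      ∪ ((univ.filter fun b : HE n d => (graphOf p).Adj h.1 b.1) ∪
        (univ.filter fun b : HE n d => (graphOf p).Adj (p h).1 (p b).1)) := by
    intro b hb
    simp only [mem_filter, mem_univ, true_and, mem_union] at hb ⊢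
    by_contra hc
    push Not at hc
    obtain ⟨⟨⟨h1, h2⟩, ⟨h3, h4⟩⟩, h5, h6⟩ := hc
    exact hb ⟨h1.symm, h2.symm, h3.symm, h4.symm, h5, h6⟩
  refine (card_le_card hsub).trans ?_
  have e1 := card_fst_eq (d := d) h.1
  have e2 := card_pfst_eq p h.1
  have e3 := card_fst_eq (d := d) (p h).1
  have e4 := card_pfst_eq p (p h).1
  have e5 := card_fst_adj p hp h.1
  have e6 := card_pfst_adj p hp (p h).1
  calc _ ≤ ((d + d) + (d + d)) + (d * d + d * d) := by
        refine (card_union_le _ _).trans (add_le_add ?_ ?_)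
        · refine (card_union_le _ _).trans (add_le_add ?_ ?_)
          · refine (card_union_le _ _).trans (add_le_add e1.le e2.le)
          · refine (card_union_le _ _).trans (add_le_add e3.le e4.le)
        · exact (card_union_le _ _).trans (add_le_add e5 e6)
    _ = _ := by ring

/-- at most 4 half-edges are changed -/
theorem card_Ch_sw1 {p : Equiv.Perm (HE n d)} (hp : IsPort p) (m : HE n d × HE n d) :
    (Stab269.Ch p (sw1 p m).1).card ≤ 4 := by
  classical
  by_cases h : V1 p m.1 m.2
  · rw [sw1_pos h]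
    have hsub : Stab269.Ch p (np1 p m.1 m.2) ⊆ {m.1, p m.1, m.2, p m.2} := by
      intro x hx
      simp only [Stab269.Ch, mem_filter, mem_univ, true_and] at hx
      simp only [mem_insert, mem_singleton]
      by_contra hc
      push Not at hc
      exact hx (V1.np_off hp hc.1 hc.2.1 hc.2.2.1 hc.2.2.2).symm
    exact (card_le_card hsub).trans card_le_four
  · rw [sw1_neg h]
    have : Stab269.Ch p p = ∅ := by
      ext x; simp [Stab269.Ch]
    rw [this]; simp

/-- the four vertices of a move -/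
def dep1 (p : Equiv.Perm (HE n d)) (x : Fin 4) (m : HE n d × HE n d) : Fin n :=
  ![m.1.1, (p m.1).1, m.2.1, (p m.2).1] x

lemma sw1_off {p : Equiv.Perm (HE n d)} (hp : IsPort p) (m : HE n d × HE n d) {x : HE n d}
    (hx : ∀ i, dep1 p i m ≠ x.1) : (sw1 p m).1 x = p x := by
  by_cases h : V1 p m.1 m.2
  · rw [sw1_pos h]
    exact V1.np_off hp (fun e => hx 0 (by rw [e]; rfl)) (fun e => hx 1 (by rw [e]; rfl))
      (fun e => hx 2 (by rw [e]; rfl)) (fun e => hx 3 (by rw [e]; rfl))
  · rw [sw1_neg h]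

/-- validity is local -/
lemma V1.congr {p q : Equiv.Perm (HE n d)} (hp : IsPort p) (hq : IsPort q)
    {m : HE n d × HE n d} (he : ∀ x : HE n d, (∃ i, dep1 p i m = x.1) → q x = p x)
    (h : V1 p m.1 m.2) : V1 q m.1 m.2 := by
  have e1 : q m.1 = p m.1 := he _ ⟨0, rfl⟩
  have e2 : q m.2 = p m.2 := he _ ⟨2, rfl⟩
  refine ⟨h.xu, by rw [e2]; exact h.xw, by rw [e1]; exact h.yu, by rw [e1, e2]; exact h.yw,
    ?_, ?_⟩
  · rw [hq.adj_iff]
    rintro ⟨i, hi⟩
    rw [he (m.1.1, i) ⟨0, rfl⟩] at hi
    exact h.nxu (hp.adj_iff.2 ⟨i, hi⟩)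
  · rw [e1, e2, hq.adj_iff]
    rintro ⟨i, hi⟩
    rw [he ((p m.1).1, i) ⟨1, rfl⟩] at hi
    exact h.nyw (hp.adj_iff.2 ⟨i, hi⟩)

lemma V1.congr_iff {p q : Equiv.Perm (HE n d)} (hp : IsPort p) (hq : IsPort q)
    {m : HE n d × HE n d} (he : ∀ x : HE n d, (∃ i, dep1 p i m = x.1) → q x = p x) :
    V1 q m.1 m.2 ↔ V1 p m.1 m.2 := by
  refine ⟨fun h => ?_, fun h => h.congr hp hq he⟩
  have e1 : q m.1 = p m.1 := he _ ⟨0, rfl⟩
  have e2 : q m.2 = p m.2 := he _ ⟨2, rfl⟩
  refine V1.congr hq hp (fun x hx => (he x ?_).symm) h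
  obtain ⟨i, hi⟩ := hx
  refine ⟨i, ?_⟩
  rw [← hi]
  unfold dep1
  rw [e1, e2]

/-- moves with disjoint sets of vertices commute -/
theorem sw1_comm {p : Equiv.Perm (HE n d)} (hp : IsPort p) (m m' : HE n d × HE n d)
    (hdis : ∀ i i', dep1 p i m ≠ dep1 p i' m') :
    (sw1 (sw1 p m).1 m').1 = (sw1 (sw1 p m').1 m).1 := by
  have hsys := moveSystem1 n d
  have hp1 : IsPort (sw1 p m).1 :=
    mem_Ports.1 (hsys.mem_left p (mem_Ports.2 hp) m (mem_univ _))
  have hp2 : IsPort (sw1 p m').1 :=
    mem_Ports.1 (hsys.mem_left p (mem_Ports.2 hp) m' (mem_univ _))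
  have e1 : ∀ x : HE n d, (∃ i, dep1 p i m' = x.1) → (sw1 p m).1 x = p x := fun x ⟨i', hi'⟩ =>
    sw1_off hp m fun i hi => hdis i i' (by rw [hi, hi'])
  have e2 : ∀ x : HE n d, (∃ i, dep1 p i m = x.1) → (sw1 p m').1 x = p x := fun x ⟨i, hi⟩ =>
    sw1_off hp m' fun i' hi' => hdis i i' (by rw [hi, hi'])
  have i1 := V1.congr_iff hp hp1 e1
  have i2 := V1.congr_iff hp hp2 e2
  by_cases h : V1 p m.1 m.2
  · by_cases h' : V1 p m'.1 m'.2
    · rw [sw1_pos (p := (sw1 p m).1) (i1.2 h'), sw1_pos (p := (sw1 p m').1) (i2.2 h)]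
      show np1 _ _ _ = np1 _ _ _
      unfold np1
      have a1 : (sw1 p m).1 m'.1 = p m'.1 := e1 _ ⟨0, rfl⟩
      have a2 : (sw1 p m').1 m.1 = p m.1 := e2 _ ⟨0, rfl⟩
      rw [a1, a2, sw1_pos h, sw1_pos h']
      show cj _ _ (cj _ _ p) = cj _ _ (cj _ _ p)
      have hc := msw_commute (a := fun _ : Unit => p m.1) (b := fun _ : Unit => m.2)
        (a' := fun _ : Unit => p m'.1) (b' := fun _ : Unit => m'.2)
        (fun _ _ hij => hdis 1 1 (by unfold dep1; simpa using congrArg Prod.fst hij))
        (fun _ _ hij => hdis 1 2 (by unfold dep1; simpa using congrArg Prod.fst hij))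
        (fun _ _ hij => hdis 2 1 (by unfold dep1; simpa using congrArg Prod.fst hij))
        (fun _ _ hij => hdis 2 2 (by unfold dep1; simpa using congrArg Prod.fst hij))
      ext1 x
      simp only [cj_apply]
      rw [hc, hc]
    · have e : (sw1 p m').1 = p := by rw [sw1_neg h']
      rw [e, sw1_neg (p := (sw1 p m).1) (fun hh => h' (i1.1 hh))]
  · by_cases h' : V1 p m'.1 m'.2
    · have e : (sw1 p m).1 = p := by rw [sw1_neg h]
      rw [e, sw1_neg (p := (sw1 p m').1) (fun hh => h (i2.1 hh))]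
    · have e : (sw1 p m).1 = p := by rw [sw1_neg h]
      have e' : (sw1 p m').1 = p := by rw [sw1_neg h']
      rw [e, e', e]

open Classical in
/-- the interfering pairs of moves -/
noncomputable def Bad1 (p : Equiv.Perm (HE n d)) :
    Finset ((HE n d × HE n d) × (HE n d × HE n d)) :=
  univ.filter fun x => ∃ i i', dep1 p i x.1 = dep1 p i' x.2

lemma card_dep1 (p : Equiv.Perm (HE n d)) (i : Fin 4) (v : Fin n) :
    (univ.filter fun m => dep1 p i m = v).card = d * (n * d) := by
  classical
  have hc : Fintype.card (HE n d) = n * d := IsPort.card_HE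
  have key1 : ∀ S : Finset (HE n d), (univ.filter fun m : HE n d × HE n d => m.1 ∈ S).card
      = S.card * (n * d) := by
    intro S
    have : (univ.filter fun m : HE n d × HE n d => m.1 ∈ S) = S ×ˢ univ := by
      ext m; simp
    rw [this, card_product, card_univ, hc]
  have key2 : ∀ S : Finset (HE n d), (univ.filter fun m : HE n d × HE n d => m.2 ∈ S).card
      = S.card * (n * d) := by
    intro S
    have : (univ.filter fun m : HE n d × HE n d => m.2 ∈ S) = univ ×ˢ S := by
      ext m; simp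
    rw [this, card_product, card_univ, hc, mul_comm]
  fin_cases i
  · have := key1 (univ.filter fun h : HE n d => h.1 = v)
    rw [card_fst_eq] at this
    rw [← this]
    congr 1
    ext m
    simp [dep1]
  · have := key1 (univ.filter fun h : HE n d => (p h).1 = v)
    rw [card_pfst_eq] at this
    rw [← this]
    congr 1
    ext m
    simp [dep1]
  · have := key2 (univ.filter fun h : HE n d => h.1 = v)
    rw [card_fst_eq] at this
    rw [← this]
    congr 1
    ext m
    simp [dep1]
  · have := key2 (univ.filter fun h : HE n d => (p h).1 = v)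
    rw [card_pfst_eq] at this
    rw [← this]
    congr 1
    ext m
    simp [dep1]

/-- the number of interfering pairs -/
theorem card_Bad1 (p : Equiv.Perm (HE n d)) :
    ((Bad1 p).card : ℝ) ≤ (16 / n) * ((univ : Finset (HE n d × HE n d)).card : ℝ) ^ 2 := by
  classical
  have h1 := card_pairs_le (dep1 p) (d * (n * d)) (fun x v => (card_dep1 p x v).le) (Bad1 p)
    (fun m m' hm => by
      unfold Bad1 at hm
      rw [mem_filter] at hm
      exact hm.2)
  rw [Fintype.card_prod, Fintype.card_fin, IsPort.card_HE] at h1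
  rw [card_univ, Fintype.card_prod, IsPort.card_HE]
  have h2 : ((Bad1 p).card : ℝ) ≤ (n * d * (n * d)) * (4 * 4 * (d * (n * d))) := by
    exact_mod_cast h1
  refine h2.trans (le_of_eq ?_)
  rcases Nat.eq_zero_or_pos n with hn | hn
  · subst hn; simp
  · have : (n : ℝ) ≠ 0 := by exact_mod_cast hn.ne'
    push_cast
    field_simp
    ring

/-- **commutation hypothesis of the second moment lemma** -/
theorem hcomm1 : ∃ Bad : Equiv.Perm (HE n d) → Finset ((HE n d × HE n d) × (HE n d × HE n d)),
    (∀ p ∈ Ports n d, ((Bad p).card : ℝ) ≤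
      (16 / n) * ((univ : Finset (HE n d × HE n d)).card : ℝ) ^ 2) ∧
    (∀ p ∈ Ports n d, ∀ m ∈ (univ : Finset (HE n d × HE n d)),
      ∀ m' ∈ (univ : Finset (HE n d × HE n d)), (m, m') ∉ Bad p →
        (sw1 (sw1 p m).1 m').1 = (sw1 (sw1 p m').1 m).1) := by
  classical
  refine ⟨Bad1, fun p _ => card_Bad1 p, fun p hp m _ m' _ hm => ?_⟩
  refine sw1_comm (mem_Ports.1 hp) m m' fun i i' hii => hm ?_
  unfold Bad1
  rw [mem_filter]
  exact ⟨mem_univ _, i, i', hii⟩

end Crest.Agent.R166.SwP470
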