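import Mathlib

/-!
# Row 166, section 20: switchings of port-numbered graphs (helper470)

Half-edges: a type `α` with the vertex map `vt : α → V`; `p : Equiv.Perm α` a pairing.

* `IsSP vt p`   : simple pairing
* `msw a b`     : the product of the transpositions `(a i, b i)`
* `cj a b p`    : `msw a b * p * msw a b`
* `Val vt p a b`: validity of a multi-switching (symmetric)
* `Val.isSP`, `Val.symm`, `cj_cj` : the switching is an involution of valid configurations
-/

set_option autoImplicit false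
set_option linter.unusedSectionVars false

open Finset

namespace Crest.Agent.R166.SwP470

variable {α V ι κ : Type*}

/-- simple pairing of the half-edges `α`; `vt h` is the vertex of the half-edge `h` -/
structure IsSP (vt : α → V) (p : Equiv.Perm α) : Prop where
  inv : ∀ h, p (p h) = h
  loop : ∀ h, vt (p h) ≠ vt h
  multi : ∀ h h', vt h = vt h' → vt (p h) = vt (p h') → h = h'

/-- adjacency of vertices -/
def Adj (vt : α → V) (p : Equiv.Perm α) (v w : V) : Prop := ∃ h, vt h = v ∧ vt (p h) = w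

lemma Adj.symm {vt : α → V} {p : Equiv.Perm α} (hp : IsSP vt p) {v w : V} (h : Adj vt p v w) :
    Adj vt p w v := by
  obtain ⟨x, h1, h2⟩ := h
  exact ⟨p x, h2, by rw [hp.inv, h1]⟩

/-! ### multi-swaps -/

/-- all half-edges `a i`, `b i` are distinct -/
structure Dj (a b : ι → α) : Prop where
  ia : Function.Injective a
  ib : Function.Injective b
  ab : ∀ i j, a i ≠ b j

lemma Dj.symm {a b : ι → α} (h : Dj a b) : Dj b a := ⟨h.ib, h.ia, fun i j => (h.ab j i).symm⟩

open Classical in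
/-- the product of the transpositions `(a i, b i)` as a function -/
noncomputable def mswf (a b : ι → α) (h : α) : α :=
  if hx : ∃ i, a i = h then b hx.choose else if hx : ∃ i, b i = h then a hx.choose else h

lemma mswf_a {a b : ι → α} (h : Dj a b) (i : ι) : mswf a b (a i) = b i := by
  have hx : ∃ j, a j = a i := ⟨i, rfl⟩
  unfold mswf
  rw [dif_pos hx, h.ia hx.choose_spec]

lemma mswf_b {a b : ι → α} (h : Dj a b) (i : ι) : mswf a b (b i) = a i := by
  have hn : ¬ ∃ j, a j = b i := fun ⟨j, hj⟩ => h.ab j i hj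
  have hx : ∃ j, b j = b i := ⟨i, rfl⟩
  unfold mswf
  rw [dif_neg hn, dif_pos hx, h.ib hx.choose_spec]

lemma mswf_o {a b : ι → α} {h : α} (ha : ∀ i, a i ≠ h) (hb : ∀ i, b i ≠ h) : mswf a b h = h := by
  unfold mswf
  rw [dif_neg (fun ⟨j, hj⟩ => ha j hj), dif_neg (fun ⟨j, hj⟩ => hb j hj)]

lemma mswf_invol {a b : ι → α} (h : Dj a b) : Function.Involutive (mswf a b) := by
  intro x
  by_cases ha : ∃ i, a i = x
  · obtain ⟨i, rfl⟩ := ha
    rw [mswf_a h, mswf_b h]
  · by_cases hb : ∃ i, b i = x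
    · obtain ⟨i, rfl⟩ := hb
      rw [mswf_b h, mswf_a h]
    · have h1 : ∀ i, a i ≠ x := fun i hi => ha ⟨i, hi⟩
      have h2 : ∀ i, b i ≠ x := fun i hi => hb ⟨i, hi⟩
      rw [mswf_o h1 h2, mswf_o h1 h2]

open Classical in
/-- the product of the transpositions `(a i, b i)` -/
noncomputable def msw (a b : ι → α) : Equiv.Perm α :=
  if h : Dj a b then (mswf_invol h).toPerm else 1

lemma msw_a {a b : ι → α} (h : Dj a b) (i : ι) : msw a b (a i) = b i := by
  unfold msw; rw [dif_pos h]; exact mswf_a h i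

lemma msw_b {a b : ι → α} (h : Dj a b) (i : ι) : msw a b (b i) = a i := by
  unfold msw; rw [dif_pos h]; exact mswf_b h i

lemma msw_o {a b : ι → α} {x : α} (ha : ∀ i, a i ≠ x) (hb : ∀ i, b i ≠ x) : msw a b x = x := by
  unfold msw
  split_ifs
  · exact mswf_o ha hb
  · rfl

lemma msw_msw {a b : ι → α} (x : α) : msw a b (msw a b x) = x := by
  unfold msw
  split_ifs with h
  · exact mswf_invol h x
  · rfl

lemma msw_comm {a b : ι → α} : msw b a = msw a b := by
  by_cases h : Dj a b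
  · ext x
    by_cases ha : ∃ i, a i = x
    · obtain ⟨i, rfl⟩ := ha
      rw [msw_a h, msw_b h.symm]
    · by_cases hb : ∃ i, b i = x
      · obtain ⟨i, rfl⟩ := hb
        rw [msw_b h, msw_a h.symm]
      · have h1 : ∀ i, a i ≠ x := fun i hi => ha ⟨i, hi⟩
        have h2 : ∀ i, b i ≠ x := fun i hi => hb ⟨i, hi⟩
        rw [msw_o h1 h2, msw_o h2 h1]
  · have h' : ¬ Dj b a := fun h1 => h h1.symm
    unfold msw
    rw [dif_neg h, dif_neg h']

/-- the switched pairing -/
noncomputable def cj (a b : ι → α) (p : Equiv.Perm α) : Equiv.Perm α := msw a b * p * msw a b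

lemma cj_apply (a b : ι → α) (p : Equiv.Perm α) (x : α) :
    cj a b p x = msw a b (p (msw a b x)) := rfl

lemma cj_cj (a b : ι → α) (p : Equiv.Perm α) : cj b a (cj a b p) = p := by
  ext x
  rw [cj_apply, cj_apply, msw_comm, msw_msw, msw_msw]

/-! ### validity -/

/-- validity of the multi-switching with removed edges `{a i, p (a i)}`, `{b i, p (b i)}`; the new
edges are `{p (a i), b i}` and `{a i, p (b i)}`. Vertices: `a_i = vt (a i)`, `t_i = vt (p (a i))`,
`u_i = vt (b i)`, `w_i = vt (p (b i))`; only the `t_i` may coincide. -/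
structure Val (vt : α → V) (p : Equiv.Perm α) (a b : ι → α) : Prop where
  aa : ∀ i j, vt (a i) = vt (a j) → i = j
  uu : ∀ i j, vt (b i) = vt (b j) → i = j
  ww : ∀ i j, vt (p (b i)) = vt (p (b j)) → i = j
  au : ∀ i j, vt (a i) ≠ vt (b j)
  aw : ∀ i j, vt (a i) ≠ vt (p (b j))
  uw : ∀ i j, vt (b i) ≠ vt (p (b j))
  ta : ∀ i j, vt (p (a i)) ≠ vt (a j)
  tu : ∀ i j, vt (p (a i)) ≠ vt (b j)
  tw : ∀ i j, vt (p (a i)) ≠ vt (p (b j))
  ntu : ∀ i, ¬ Adj vt p (vt (p (a i))) (vt (b i))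
  naw : ∀ i, ¬ Adj vt p (vt (a i)) (vt (p (b i)))

section core
variable {vt : α → V} {p : Equiv.Perm α} {a b : ι → α}

lemma Val.dj (h : Val vt p a b) : Dj a b where
  ia := fun i j hij => h.aa i j (by rw [hij])
  ib := fun i j hij => h.uu i j (by rw [hij])
  ab := fun i j hij => h.au i j (by rw [hij])

lemma Val.cj_a (h : Val vt p a b) (i : ι) : cj a b p (a i) = p (b i) := by
  rw [cj_apply, msw_a h.dj]
  exact msw_o (fun j hj => h.aw j i (by rw [hj])) (fun j hj => h.uw j i (by rw [hj]))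

lemma Val.cj_b (h : Val vt p a b) (i : ι) : cj a b p (b i) = p (a i) := by
  rw [cj_apply, msw_b h.dj]
  exact msw_o (fun j hj => h.ta i j (by rw [hj])) (fun j hj => h.tu i j (by rw [hj]))

lemma Val.cj_t (hp : IsSP vt p) (h : Val vt p a b) (i : ι) : cj a b p (p (a i)) = b i := by
  rw [cj_apply, msw_o (x := p (a i)) (fun j hj => h.ta i j (by rw [hj]))
    (fun j hj => h.tu i j (by rw [hj])), hp.inv, msw_a h.dj]

lemma Val.cj_w (hp : IsSP vt p) (h : Val vt p a b) (i : ι) : cj a b p (p (b i)) = a i := by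
  rw [cj_apply, msw_o (x := p (b i)) (fun j hj => h.aw j i (by rw [hj]))
    (fun j hj => h.uw j i (by rw [hj])), hp.inv, msw_b h.dj]

/-- half-edges which are not touched -/
structure Out (p : Equiv.Perm α) (a b : ι → α) (x : α) : Prop where
  oa : ∀ i, a i ≠ x
  ob : ∀ i, b i ≠ x
  ot : ∀ i, p (a i) ≠ x
  ow : ∀ i, p (b i) ≠ x

lemma Out.cj (hp : IsSP vt p) {x : α} (h : Out p a b x) : cj a b p x = p x := by
  rw [cj_apply, msw_o h.oa h.ob]
  refine msw_o (fun i hi => h.ot i ?_) (fun i hi => h.ow i ?_)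
  · rw [hi, hp.inv]
  · rw [hi, hp.inv]

lemma classify (p : Equiv.Perm α) (a b : ι → α) (x : α) :
    (∃ i, x = a i) ∨ (∃ i, x = b i) ∨ (∃ i, x = p (a i)) ∨ (∃ i, x = p (b i)) ∨ Out p a b x := by
  by_cases h1 : ∃ i, x = a i
  · exact Or.inl h1
  by_cases h2 : ∃ i, x = b i
  · exact Or.inr (Or.inl h2)
  by_cases h3 : ∃ i, x = p (a i)
  · exact Or.inr (Or.inr (Or.inl h3))
  by_cases h4 : ∃ i, x = p (b i)
  · exact Or.inr (Or.inr (Or.inr (Or.inl h4)))
  refine Or.inr (Or.inr (Or.inr (Or.inr ⟨?_, ?_, ?_, ?_⟩)))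
  · exact fun i hi => h1 ⟨i, hi.symm⟩
  · exact fun i hi => h2 ⟨i, hi.symm⟩
  · exact fun i hi => h3 ⟨i, hi.symm⟩
  · exact fun i hi => h4 ⟨i, hi.symm⟩

/-- the switched pairing is simple -/
theorem Val.isSP (hp : IsSP vt p) (h : Val vt p a b) : IsSP vt (cj a b p) where
  inv := fun x => by
    rw [cj_apply, cj_apply, msw_msw, hp.inv, msw_msw]
  loop := fun x => by
    rcases classify p a b x with ⟨i, rfl⟩ | ⟨i, rfl⟩ | ⟨i, rfl⟩ | ⟨i, rfl⟩ | ho
    · rw [h.cj_a]; exact (h.aw i i).symm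
    · rw [h.cj_b]; exact h.tu i i
    · rw [h.cj_t hp]; exact (h.tu i i).symm
    · rw [h.cj_w hp]; exact h.aw i i
    · rw [ho.cj hp]; exact hp.loop x
  multi := fun x y hxy hpxy => by
    rcases classify p a b x with ⟨i, rfl⟩ | ⟨i, rfl⟩ | ⟨i, rfl⟩ | ⟨i, rfl⟩ | ho <;>
    rcases classify p a b y with ⟨j, rfl⟩ | ⟨j, rfl⟩ | ⟨j, rfl⟩ | ⟨j, rfl⟩ | ho'
    · rw [h.aa i j hxy]
    · exact absurd hxy (h.au i j)
    · exact absurd hxy.symm (h.ta j i)
    · exact absurd hxy (h.aw i j)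
    · rw [h.cj_a, ho'.cj hp] at hpxy
      exact absurd ⟨y, hxy.symm, hpxy.symm⟩ (h.naw i)
    · exact absurd hxy.symm (h.au j i)
    · rw [h.uu i j hxy]
    · exact absurd hxy.symm (h.tu j i)
    · exact absurd hxy (h.uw i j)
    · rw [h.cj_b, ho'.cj hp] at hpxy
      exact absurd ⟨p y, hpxy.symm, by rw [hp.inv, ← hxy]⟩ (h.ntu i)
    · exact absurd hxy (h.ta i j)
    · exact absurd hxy (h.tu i j)
    · rw [h.cj_t hp, h.cj_t hp] at hpxy
      rw [h.uu i j hpxy]
    · exact absurd hxy (h.tw i j)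
    · rw [h.cj_t hp, ho'.cj hp] at hpxy
      exact absurd ⟨y, hxy.symm, hpxy.symm⟩ (h.ntu i)
    · exact absurd hxy.symm (h.aw j i)
    · exact absurd hxy.symm (h.uw j i)
    · exact absurd hxy.symm (h.tw j i)
    · rw [h.ww i j hxy]
    · rw [h.cj_w hp, ho'.cj hp] at hpxy
      exact absurd ⟨p y, hpxy.symm, by rw [hp.inv, ← hxy]⟩ (h.naw i)
    · rw [h.cj_a, ho.cj hp] at hpxy
      exact absurd ⟨x, hxy, hpxy⟩ (h.naw j)
    · rw [h.cj_b, ho.cj hp] at hpxy
      exact absurd ⟨p x, hpxy, by rw [hp.inv, hxy]⟩ (h.ntu j)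
    · rw [h.cj_t hp, ho.cj hp] at hpxy
      exact absurd ⟨x, hxy, hpxy⟩ (h.ntu j)
    · rw [h.cj_w hp, ho.cj hp] at hpxy
      exact absurd ⟨p x, hpxy, by rw [hp.inv, hxy]⟩ (h.naw j)
    · rw [ho.cj hp, ho'.cj hp] at hpxy
      exact hp.multi x y hxy hpxy

/-- validity is symmetric -/
theorem Val.symm (hp : IsSP vt p) (h : Val vt p a b) : Val vt (cj a b p) b a where
  aa := h.uu
  uu := h.aa
  ww := fun i j hij => by
    rw [h.cj_a, h.cj_a] at hij
    exact h.ww i j hij
  au := fun i j => (h.au j i).symm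
  aw := fun i j => by
    rw [h.cj_a]; exact h.uw i j
  uw := fun i j => by
    rw [h.cj_a]; exact h.aw i j
  ta := fun i j => by
    rw [h.cj_b]; exact h.tu i j
  tu := fun i j => by
    rw [h.cj_b]; exact h.ta i j
  tw := fun i j => by
    rw [h.cj_b, h.cj_a]; exact h.tw i j
  ntu := fun i => by
    rw [h.cj_b]
    rintro ⟨x, hx1, hx2⟩
    rcases classify p a b x with ⟨j, rfl⟩ | ⟨j, rfl⟩ | ⟨j, rfl⟩ | ⟨j, rfl⟩ | ho
    · exact h.ta i j hx1.symm
    · exact h.tu i j hx1.symm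
    · rw [h.cj_t hp] at hx2
      exact h.au i j hx2.symm
    · exact h.tw i j hx1.symm
    · rw [ho.cj hp] at hx2
      have := hp.multi x (p (a i)) hx1 (by rw [hx2, hp.inv])
      exact ho.ot i this.symm
  naw := fun i => by
    rw [h.cj_a]
    rintro ⟨x, hx1, hx2⟩
    rcases classify p a b x with ⟨j, rfl⟩ | ⟨j, rfl⟩ | ⟨j, rfl⟩ | ⟨j, rfl⟩ | ho
    · exact h.au j i hx1
    · rw [h.cj_b] at hx2
      exact h.tw j i hx2
    · exact h.tu j i hx1
    · exact h.uw i j hx1.symm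
    · rw [ho.cj hp] at hx2
      have := hp.multi x (b i) hx1 hx2
      exact ho.ob i this.symm

end core

end Crest.Agent.R166.SwP470
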