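import Mathlib
import Crest.Prelude.Def_RandomRegular

/-!
# R166, section 20: switchings, part 1 (helper798)

Simple switching on `SimpleGraph V`, edge-set probabilities
`#{G d-regular : F ⊆ E(G)} ≤ (C/n)^j #{G d-regular}`.
-/

set_option autoImplicit false
set_option linter.unusedSectionVars false

open Finset

namespace Crest.Agent.R166.Sw798

open Classical

/-- `d`-regular graphs on `V` -/
noncomputable def Reg (V : Type*) [Fintype V] (d : ℕ) : Finset (SimpleGraph V) :=
  Finset.univ.filter fun G => ∀ v : V, (Finset.univ.filter fun w => G.Adj v w).card = d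

lemma regularGraphs_eq (n d : ℕ) :
    Crest.ProbabilityR.RandomMatrix.regularGraphs n d = Reg (Fin n) d := by
  ext G
  simp [Reg, Crest.ProbabilityR.RandomMatrix.regularGraphs]

variable {V : Type*} [Fintype V]

/-- degree, in the form of the statement -/
noncomputable def dg (G : SimpleGraph V) (v : V) : ℕ := (Finset.univ.filter fun w => G.Adj v w).card

lemma mem_Reg {d : ℕ} {G : SimpleGraph V} : G ∈ Reg V d ↔ ∀ v, dg G v = d := by
  simp [Reg, dg]

/-- The simple switching: remove `xy` and `uw`, add `xu` and `yw`. -/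
def sw (G : SimpleGraph V) (x y u w : V) : SimpleGraph V where
  Adj a b := (G.Adj a b ∧ s(a, b) ≠ s(x, y) ∧ s(a, b) ≠ s(u, w)) ∨
    ((s(a, b) = s(x, u) ∨ s(a, b) = s(y, w)) ∧ a ≠ b)
  symm := ⟨by
    intro a b h
    rw [Sym2.eq_swap (a := b) (b := a)]
    rcases h with ⟨h1, h2, h3⟩ | ⟨h1, h2⟩
    · exact Or.inl ⟨h1.symm, h2, h3⟩
    · exact Or.inr ⟨h1, h2.symm⟩⟩
  loopless := ⟨by
    intro a h
    rcases h with ⟨h1, _⟩ | ⟨_, h2⟩
    · exact G.loopless.irrefl a h1
    · exact h2 rfl⟩

/-- validity of a simple switching -/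
structure VSw (G : SimpleGraph V) (x y u w : V) : Prop where
  xy : G.Adj x y
  uw : G.Adj u w
  xu : x ≠ u
  xw : x ≠ w
  yu : y ≠ u
  yw : y ≠ w
  nxu : ¬ G.Adj x u
  nyw : ¬ G.Adj y w

lemma sw_adj {G : SimpleGraph V} {x y u w : V} (a b : V) :
    (sw G x y u w).Adj a b ↔ (G.Adj a b ∧ s(a, b) ≠ s(x, y) ∧ s(a, b) ≠ s(u, w)) ∨
    ((s(a, b) = s(x, u) ∨ s(a, b) = s(y, w)) ∧ a ≠ b) := Iff.rfl

/-- the switched configuration is valid (with `y` and `u` exchanged) -/
lemma VSw.sw {G : SimpleGraph V} {x y u w : V} (h : VSw G x y u w) :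
    VSw (sw G x y u w) x u y w := by
  have hxy := h.xy.ne
  have huw := h.uw.ne
  refine ⟨?_, ?_, hxy, h.xw, h.yu.symm, huw, ?_, ?_⟩
  · rw [sw_adj]; right; exact ⟨Or.inl rfl, h.xu⟩
  · rw [sw_adj]; right; exact ⟨Or.inr rfl, h.yw⟩
  · rw [sw_adj]
    rintro (⟨_, h2, _⟩ | ⟨h1, _⟩)
    · exact h2 rfl
    · rcases h1 with h1 | h1
      · rw [Sym2.eq_iff] at h1
        rcases h1 with ⟨_, h1⟩ | ⟨h1, _⟩
        · exact h.yu h1
        · exact h.xu h1
      · rw [Sym2.eq_iff] at h1
        rcases h1 with ⟨h1, _⟩ | ⟨h1, _⟩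
        · exact hxy h1
        · exact h.xw h1
  · rw [sw_adj]
    rintro (⟨_, _, h2⟩ | ⟨h1, _⟩)
    · exact h2 rfl
    · rcases h1 with h1 | h1
      · rw [Sym2.eq_iff] at h1
        rcases h1 with ⟨h1, _⟩ | ⟨_, h1⟩
        · exact h.xu h1.symm
        · exact h.xw h1.symm
      · rw [Sym2.eq_iff] at h1
        rcases h1 with ⟨h1, _⟩ | ⟨h1, _⟩
        · exact h.yu h1.symm
        · exact huw h1

/-- the switching is an involution (exchange `y` and `u`) -/
lemma VSw.sw_sw {G : SimpleGraph V} {x y u w : V} (h : VSw G x y u w) :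
    Sw798.sw (Sw798.sw G x y u w) x u y w = G := by
  have hxy := h.xy.ne
  have huw := h.uw.ne
  ext a b
  rw [sw_adj, sw_adj]
  constructor
  · rintro (⟨(⟨h1, _⟩ | ⟨h1, _⟩), h2, h3⟩ | ⟨h1 | h1, h2⟩)
    · exact h1
    · rcases h1 with h1 | h1
      · exact absurd h1 h2
      · exact absurd h1 h3
    · have := h.xy
      rw [← SimpleGraph.mem_edgeSet, ← h1, SimpleGraph.mem_edgeSet] at this
      exact this
    · have := h.uw
      rw [← SimpleGraph.mem_edgeSet, ← h1, SimpleGraph.mem_edgeSet] at this
      exact this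
  · intro hab
    by_cases h1 : s(a, b) = s(x, y)
    · right; exact ⟨Or.inl h1, hab.ne⟩
    · by_cases h2 : s(a, b) = s(u, w)
      · right; exact ⟨Or.inr h2, hab.ne⟩
      · left
        refine ⟨Or.inl ⟨hab, h1, h2⟩, ?_, ?_⟩
        · intro h3
          have := h.nxu
          rw [← SimpleGraph.mem_edgeSet, ← h3, SimpleGraph.mem_edgeSet] at this
          exact this hab
        · intro h3
          have := h.nyw
          rw [← SimpleGraph.mem_edgeSet, ← h3, SimpleGraph.mem_edgeSet] at this
          exact this hab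

lemma card_insert_erase {N : Finset V} {y u : V} (hy : y ∈ N) (hu : u ∉ N) :
    (insert u (N.erase y)).card = N.card := by
  have h1 : u ∉ N.erase y := fun h => hu (Finset.mem_of_mem_erase h)
  rw [Finset.card_insert_of_notMem h1, Finset.card_erase_of_mem hy]
  have : 0 < N.card := Finset.card_pos.2 ⟨y, hy⟩
  omega

lemma VSw.dg_x {G : SimpleGraph V} {x y u w : V} (h : VSw G x y u w) :
    dg (Sw798.sw G x y u w) x = dg G x := by
  unfold dg
  rw [← card_insert_erase (N := Finset.univ.filter fun a => G.Adj x a) (y := y) (u := u)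
    (by simpa using h.xy) (by simpa using h.nxu)]
  congr 1
  ext a
  have hxy := h.xy.ne
  have huw := h.uw.ne
  have h1 := h.xu
  have h2 := h.xw
  simp only [Finset.mem_filter, Finset.mem_univ, true_and, sw_adj, Sym2.eq_iff, Finset.mem_insert,
    Finset.mem_erase, ne_eq]
  rcases eq_or_ne a u with rfl | hau
  · simp [h1]
  · rcases eq_or_ne a y with rfl | hay
    · simp [hau, hxy, h1, h2]
    · simp [hau, hay, hxy, h1, h2]

/-- symmetries of the switching -/
lemma sw_symm1 (G : SimpleGraph V) (x y u w : V) : sw G x y u w = sw G y x w u := by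
  ext a b
  simp only [sw_adj]
  rw [Sym2.eq_swap (a := y) (b := x), Sym2.eq_swap (a := w) (b := u), or_comm (a := s(a, b) = s(y, w))]

lemma sw_symm2 (G : SimpleGraph V) (x y u w : V) : sw G x y u w = sw G u w x y := by
  ext a b
  simp only [sw_adj]
  rw [Sym2.eq_swap (a := u) (b := x), Sym2.eq_swap (a := w) (b := y),
    and_comm (a := s(a, b) ≠ s(u, w))]

lemma VSw.symm1 {G : SimpleGraph V} {x y u w : V} (h : VSw G x y u w) : VSw G y x w u :=
  ⟨h.xy.symm, h.uw.symm, h.yw, h.yu, h.xw, h.xu, h.nyw, h.nxu⟩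

lemma VSw.symm2 {G : SimpleGraph V} {x y u w : V} (h : VSw G x y u w) : VSw G u w x y :=
  ⟨h.uw, h.xy, h.xu.symm, h.yu.symm, h.xw.symm, h.yw.symm, fun h' => h.nxu h'.symm,
    fun h' => h.nyw h'.symm⟩

lemma VSw.dg_eq {G : SimpleGraph V} {x y u w : V} (h : VSw G x y u w) (v : V) :
    dg (Sw798.sw G x y u w) v = dg G v := by
  by_cases hx : v = x
  · subst hx; exact h.dg_x
  by_cases hy : v = y
  · subst hy; rw [sw_symm1]; exact h.symm1.dg_x
  by_cases hu : v = u
  · subst hu; rw [sw_symm2]; exact h.symm2.dg_x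
  by_cases hw : v = w
  · subst hw; rw [sw_symm1, sw_symm2]; exact h.symm1.symm2.dg_x
  unfold dg
  congr 1
  ext a
  simp only [Finset.mem_filter, Finset.mem_univ, true_and, sw_adj, Sym2.eq_iff, ne_eq]
  simp [hx, hy, hu, hw]

lemma VSw.sw_mem_Reg {d : ℕ} {G : SimpleGraph V} {x y u w : V} (h : VSw G x y u w)
    (hG : G ∈ Reg V d) : Sw798.sw G x y u w ∈ Reg V d := by
  rw [mem_Reg] at hG ⊢
  intro v
  rw [h.dg_eq, hG v]

/-! ### counting -/

/-- darts of `G` as ordered pairs -/
noncomputable def darts (G : SimpleGraph V) : Finset (V × V) :=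
  Finset.univ.filter fun p => G.Adj p.1 p.2

lemma mem_darts {G : SimpleGraph V} {p : V × V} : p ∈ darts G ↔ G.Adj p.1 p.2 := by
  simp [darts]

lemma card_darts_fst {d : ℕ} {G : SimpleGraph V} (hG : G ∈ Reg V d) (A : Finset V) :
    ((darts G).filter fun p => p.1 ∈ A).card = d * A.card := by
  rw [Finset.card_eq_sum_card_fiberwise (f := Prod.fst) (t := A)]
  · rw [Finset.sum_congr rfl (g := fun _ => d)]
    · rw [Finset.sum_const, smul_eq_mul, mul_comm]
    · intro a ha
      rw [← (mem_Reg.1 hG) a]
      unfold dg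
      apply Finset.card_bij (fun p _ => p.2)
      · intro p hp
        simp only [Finset.mem_filter, mem_darts] at hp
        simp only [Finset.mem_filter, Finset.mem_univ, true_and]
        rw [← hp.2]; exact hp.1.1
      · intro p hp q hq hpq
        simp only [Finset.mem_filter, mem_darts] at hp hq
        exact Prod.ext (hp.2.trans hq.2.symm) hpq
      · intro b hb
        simp only [Finset.mem_filter, Finset.mem_univ, true_and] at hb
        exact ⟨(a, b), by simp [mem_darts, ha, hb], rfl⟩
  · intro p hp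
    simp only [Finset.coe_filter, Set.mem_setOf_eq] at hp
    exact hp.2

lemma card_darts {d : ℕ} {G : SimpleGraph V} (hG : G ∈ Reg V d) :
    (darts G).card = Fintype.card V * d := by
  have := card_darts_fst hG (Finset.univ)
  simpa [mul_comm] using this

lemma card_darts_snd {d : ℕ} {G : SimpleGraph V} (hG : G ∈ Reg V d) (A : Finset V) :
    ((darts G).filter fun p => p.2 ∈ A).card = d * A.card := by
  rw [← card_darts_fst hG A]
  apply Finset.card_bij (fun p _ => p.swap)
  · intro p hp
    simp only [Finset.mem_filter, mem_darts] at hp ⊢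
    exact ⟨hp.1.symm, hp.2⟩
  · intro p _ q _ hpq
    exact Prod.swap_injective hpq
  · intro p hp
    simp only [Finset.mem_filter, mem_darts] at hp
    exact ⟨p.swap, by simp only [Finset.mem_filter, mem_darts]; exact ⟨hp.1.symm, hp.2⟩, by simp⟩

lemma card_darts_sym (G : SimpleGraph V) (F : Finset (Sym2 V)) :
    ((darts G).filter fun p => s(p.1, p.2) ∈ F).card ≤ 2 * F.card := by
  rw [Finset.card_eq_sum_card_fiberwise (f := fun p : V × V => s(p.1, p.2)) (t := F)]
  · calc _ ≤ ∑ _f ∈ F, 2 := by
          apply Finset.sum_le_sum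
          intro f _
          induction f with
          | _ a b =>
            calc _ ≤ ({(a, b), (b, a)} : Finset (V × V)).card := by
                  apply Finset.card_le_card
                  intro p hp
                  simp only [Finset.mem_filter, Sym2.eq_iff] at hp
                  simp only [Finset.mem_insert, Finset.mem_singleton]
                  rcases hp.2 with h | h
                  · exact Or.inl (Prod.ext h.1 h.2)
                  · exact Or.inr (Prod.ext h.1 h.2)
              _ ≤ 2 := Finset.card_le_two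
    _ = 2 * F.card := by rw [Finset.sum_const, smul_eq_mul, mul_comm]
  · intro p hp
    simp only [Finset.coe_filter, Set.mem_setOf_eq] at hp
    exact hp.2

/-- good darts for switching the edge `xy` away, keeping the edges in `F` -/
noncomputable def good (G : SimpleGraph V) (x y : V) (F : Finset (Sym2 V)) : Finset (V × V) :=
  (darts G).filter fun p => x ≠ p.1 ∧ x ≠ p.2 ∧ y ≠ p.1 ∧ y ≠ p.2 ∧ ¬ G.Adj x p.1 ∧
    ¬ G.Adj y p.2 ∧ s(p.1, p.2) ∉ F

lemma card_good {d : ℕ} {G : SimpleGraph V} (hG : G ∈ Reg V d) (x y : V) (F : Finset (Sym2 V)) :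
    Fintype.card V * d ≤ (good G x y F).card + (2 * d * (d + 2) + 2 * F.card) := by
  rw [← card_darts hG]
  set A : Finset V := insert x (insert y (Finset.univ.filter fun a => G.Adj x a)) with hA
  set B : Finset V := insert x (insert y (Finset.univ.filter fun a => G.Adj y a)) with hB
  have hsub : darts G ⊆ good G x y F ∪ (((darts G).filter fun p => p.1 ∈ A) ∪
      (((darts G).filter fun p => p.2 ∈ B) ∪ ((darts G).filter fun p => s(p.1, p.2) ∈ F))) := by
    intro p hp
    simp only [Finset.mem_union, good, Finset.mem_filter, hp, true_and, hA, hB, Finset.mem_insert,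
      Finset.mem_univ]
    by_cases h1 : p.1 = x
    · simp [h1]
    by_cases h2 : p.1 = y
    · simp [h2]
    by_cases h3 : p.2 = x
    · simp [h3]
    by_cases h4 : p.2 = y
    · simp [h4]
    by_cases h5 : G.Adj x p.1
    · simp [h5]
    by_cases h6 : G.Adj y p.2
    · simp [h6]
    by_cases h7 : s(p.1, p.2) ∈ F
    · simp [h7]
    left
    exact ⟨Ne.symm h1, Ne.symm h3, Ne.symm h2, Ne.symm h4, h5, h6, h7⟩
  have hdA : A.card ≤ d + 2 := by
    calc A.card ≤ (Finset.univ.filter fun a => G.Adj x a).card + 1 + 1 := by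
          refine (Finset.card_insert_le _ _).trans ?_
          have := Finset.card_insert_le y (Finset.univ.filter fun a => G.Adj x a)
          omega
      _ = d + 2 := by
          have := mem_Reg.1 hG x
          unfold dg at this
          rw [this]
  have hdB : B.card ≤ d + 2 := by
    calc B.card ≤ (Finset.univ.filter fun a => G.Adj y a).card + 1 + 1 := by
          refine (Finset.card_insert_le _ _).trans ?_
          have := Finset.card_insert_le y (Finset.univ.filter fun a => G.Adj y a)
          omega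
      _ = d + 2 := by
          have := mem_Reg.1 hG y
          unfold dg at this
          rw [this]
  calc (darts G).card ≤ _ := Finset.card_le_card hsub
    _ ≤ (good G x y F).card + (((darts G).filter fun p => p.1 ∈ A).card +
      (((darts G).filter fun p => p.2 ∈ B).card +
        ((darts G).filter fun p => s(p.1, p.2) ∈ F).card)) := by
        refine (Finset.card_union_le _ _).trans ?_
        gcongr
        refine (Finset.card_union_le _ _).trans ?_
        gcongr
        exact Finset.card_union_le _ _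
    _ ≤ (good G x y F).card + (d * (d + 2) + (d * (d + 2) + 2 * F.card)) := by
        rw [card_darts_fst hG, card_darts_snd hG]
        gcongr
        exact card_darts_sym G F
    _ = _ := by ring

/-- `d`-regular graphs containing the edges `F` -/
noncomputable def RegF (V : Type*) [Fintype V] (d : ℕ) (F : Finset (Sym2 V)) :
    Finset (SimpleGraph V) :=
  (Reg V d).filter fun G => ∀ f ∈ F, f ∈ G.edgeSet

lemma mem_RegF {d : ℕ} {F : Finset (Sym2 V)} {G : SimpleGraph V} :
    G ∈ RegF V d F ↔ G ∈ Reg V d ∧ ∀ f ∈ F, f ∈ G.edgeSet := by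
  simp [RegF]

/-- one switching step -/
lemma card_RegF_step (d : ℕ) (F : Finset (Sym2 V)) (x y : V) (hxy : s(x, y) ∈ F) :
    (RegF V d F).card * (Fintype.card V * d) ≤
      (RegF V d (F.erase s(x, y))).card * (d * d) +
        (RegF V d F).card * (2 * d * (d + 2) + 2 * F.card) := by
  have h1 : (RegF V d F).card * (Fintype.card V * d) ≤
      (∑ G ∈ RegF V d F, (good G x y F).card) +
        (RegF V d F).card * (2 * d * (d + 2) + 2 * F.card) := by
    rw [← smul_eq_mul, ← smul_eq_mul (a := (RegF V d F).card), ← Finset.sum_const,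
      ← Finset.sum_const, ← Finset.sum_add_distrib]
    exact Finset.sum_le_sum fun G hG => card_good (mem_RegF.1 hG).1 x y F
  refine h1.trans (Nat.add_le_add_right ?_ _)
  have h2 : (RegF V d (F.erase s(x, y))).card * (d * d) =
      ((RegF V d (F.erase s(x, y))).sigma fun G' =>
        (Finset.univ.filter fun a => G'.Adj x a) ×ˢ (Finset.univ.filter fun a => G'.Adj y a)).card := by
    rw [Finset.card_sigma, ← smul_eq_mul, ← Finset.sum_const]
    refine Finset.sum_congr rfl fun G' hG' => ?_
    rw [Finset.card_product]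
    have hR := mem_Reg.1 (mem_RegF.1 hG').1
    have e1 := hR x
    have e2 := hR y
    unfold dg at e1 e2
    rw [e1, e2]
  rw [h2, ← Finset.card_sigma]
  have hval : ∀ G ∈ RegF V d F, ∀ p ∈ good G x y F, VSw G x y p.1 p.2 := by
    intro G hG p hp
    simp only [good, Finset.mem_filter, mem_darts] at hp
    exact ⟨(mem_RegF.1 hG).2 _ hxy, hp.1, hp.2.1, hp.2.2.1, hp.2.2.2.1, hp.2.2.2.2.1,
      hp.2.2.2.2.2.1, hp.2.2.2.2.2.2.1⟩
  apply Finset.card_le_card_of_injOn
    (fun q : (Σ _ : SimpleGraph V, V × V) => ⟨sw q.1 x y q.2.1 q.2.2, q.2⟩)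
  · rintro ⟨G, p⟩ hq
    simp only [Finset.coe_sigma, Set.mem_sigma_iff, Finset.mem_coe] at hq
    have hv := hval G hq.1 p hq.2
    have hF := (mem_RegF.1 hq.1)
    simp only [Finset.coe_sigma, Set.mem_sigma_iff, Finset.mem_coe]
    refine ⟨mem_RegF.2 ⟨hv.sw_mem_Reg hF.1, ?_⟩, ?_⟩
    · intro f hf
      have hf1 := Finset.mem_of_mem_erase hf
      have hf2 := Finset.ne_of_mem_erase hf
      have hf3 := hF.2 f hf1
      have hp := hq.2
      simp only [good, Finset.mem_filter] at hp
      have hf4 : f ≠ s(p.1, p.2) := fun h => hp.2.2.2.2.2.2.2 (h ▸ hf1)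
      induction f with
      | _ a b =>
        rw [SimpleGraph.mem_edgeSet] at hf3 ⊢
        exact Or.inl ⟨hf3, hf2, hf4⟩
    · simp only [Finset.mem_product, Finset.mem_filter, Finset.mem_univ, true_and]
      exact ⟨hv.sw.xy, hv.sw.uw⟩
  · rintro ⟨G, p⟩ hq ⟨G', p'⟩ hq' h
    simp only [Finset.coe_sigma, Set.mem_sigma_iff, Finset.mem_coe] at hq hq'
    have hv := hval G hq.1 p hq.2
    have hv' := hval G' hq'.1 p' hq'.2
    simp only [Sigma.mk.injEq, heq_eq_eq] at h
    obtain ⟨h3, h4⟩ := h
    subst h4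
    have e1 := hv.sw_sw
    have e2 := hv'.sw_sw
    rw [h3, e2] at e1
    subst e1
    rfl

lemma RegF_empty (d : ℕ) : RegF V d ∅ = Reg V d := by
  ext G; simp [mem_RegF]

lemma RegF_subset (d : ℕ) (F : Finset (Sym2 V)) : RegF V d F ⊆ Reg V d := fun _ hG =>
  (mem_RegF.1 hG).1

/-- **Edge-set probabilities.** `P(F ⊆ E(G)) ≤ (C/n)^{|F|}`, `C = 6d+8+4j`, `|F| ≤ j`. -/
theorem card_RegF_le {d : ℕ} (hd : 1 ≤ d) (j : ℕ) (F : Finset (Sym2 V)) (hF : F.card ≤ j) :
    ((RegF V d F).card : ℝ) ≤
      ((6 * d + 8 + 4 * j : ℝ) / Fintype.card V) ^ F.card * (Reg V d).card := by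
  rcases Nat.eq_zero_or_pos (Fintype.card V) with h0 | hpos
  · -- no vertices
    have hV : IsEmpty V := Fintype.card_eq_zero_iff.1 h0
    have hFe : F = ∅ := by
      ext f
      induction f with
      | _ a b => exact (hV.false a).elim
    subst hFe
    simp [RegF_empty]
  induction hk : F.card generalizing F with
  | zero =>
    rw [Finset.card_eq_zero] at hk
    subst hk
    simp [RegF_empty]
  | succ k ih =>
    obtain ⟨f, hf⟩ : ∃ f, f ∈ F := by
      rcases F.eq_empty_or_nonempty with h | h
      · rw [h] at hk; simp at hk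
      · exact h
    have hnpos : (0 : ℝ) < Fintype.card V := by exact_mod_cast hpos
    by_cases hbig : 4 * (d + 2) + 4 * j ≤ Fintype.card V
    · obtain ⟨⟨x, y⟩, rfl⟩ := Quot.exists_rep f
      change s(x, y) ∈ F at hf
      have hstep := card_RegF_step d F x y hf
      have hcard : (F.erase s(x, y)).card = k := by
        rw [Finset.card_erase_of_mem hf, hk]; rfl
      have hih := ih (F.erase s(x, y)) (by omega) hcard
      have h1 : ((RegF V d F).card : ℝ) * (Fintype.card V * d) ≤
          (RegF V d (F.erase s(x, y))).card * (d * d) +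
          (RegF V d F).card * (2 * d * (d + 2) + 2 * F.card) := by exact_mod_cast hstep
      have h2 : (2 * d * (d + 2) + 2 * F.card : ℝ) ≤ Fintype.card V * d / 2 := by
        have h3 : (4 * (d + 2) + 4 * j : ℝ) ≤ Fintype.card V := by exact_mod_cast hbig
        have h4 : (F.card : ℝ) ≤ j := by exact_mod_cast hF
        have h5 : (1 : ℝ) ≤ d := by exact_mod_cast hd
        nlinarith
      have h3 : ((RegF V d F).card : ℝ) * (Fintype.card V * d / 2) ≤
          (RegF V d (F.erase s(x, y))).card * (d * d) := by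
        have := mul_le_mul_of_nonneg_left h2 (Nat.cast_nonneg (α := ℝ) (RegF V d F).card)
        linarith
      have hd0 : (0 : ℝ) < d := by exact_mod_cast hd
      have h4 : ((RegF V d F).card : ℝ) ≤
          (2 * d / Fintype.card V) * (RegF V d (F.erase s(x, y))).card := by
        rw [div_mul_eq_mul_div, le_div_iff₀ hnpos]
        nlinarith
      calc ((RegF V d F).card : ℝ) ≤ (2 * d / Fintype.card V) *
            (RegF V d (F.erase s(x, y))).card := h4
        _ ≤ ((6 * d + 8 + 4 * j : ℝ) / Fintype.card V) *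
            (((6 * d + 8 + 4 * j : ℝ) / Fintype.card V) ^ k * (Reg V d).card) := by
            have hj : (0 : ℝ) ≤ j := Nat.cast_nonneg j
            apply mul_le_mul _ hih (Nat.cast_nonneg _) (by positivity)
            gcongr
            linarith
        _ = _ := by ring
    · push Not at hbig
      have h1 : (1 : ℝ) ≤ (6 * d + 8 + 4 * j : ℝ) / Fintype.card V := by
        rw [le_div_iff₀ hnpos, one_mul]
        have : (Fintype.card V : ℝ) < 4 * (d + 2) + 4 * j := by exact_mod_cast hbig
        have hd0 : (0 : ℝ) ≤ d := Nat.cast_nonneg d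
        linarith
      calc ((RegF V d F).card : ℝ) ≤ (Reg V d).card := by
            exact_mod_cast Finset.card_le_card (RegF_subset d F)
        _ = 1 * (Reg V d).card := (one_mul _).symm
        _ ≤ _ := by
            gcongr
            exact one_le_pow₀ h1

end Crest.Agent.R166.Sw798
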