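import Crest.Agent.R166.F5b_980
import Crest.Agent.R166.F5a_487

/-!
# Row 166 (helper980): F5 and the unconditional Theorem B
-/

set_option autoImplicit false

namespace Crest.Agent.R166.ThmBAll980

open Crest.ProbabilityR.RandomMatrix Crest.Agent.R166

/-- **F5** (the violation contradicts `EdgeGauss`) -/
theorem f5 : ThmBFin980.F5 :=
  F5b980.f5_of fun S _ _ _ _ hX τ χ hχ hs _ hε _ hη hv => F5a487.f5a S hX τ χ hχ hs hε hη hv

/-- **Theorem B** -/
theorem thmB {d : ℕ} [NeZero d] {s E ρ : ℝ} (hd : 3 ≤ d) (hs : 0 ≤ s) (hE : E ≠ d) (hρ : 0 < ρ)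
    (hFix : ImFix d s E ρ) (hLoc : LocLim d s E) (hNd : NonDeg d s E) (hNo : NoEsc d s E) :
    ThmB d s E ρ :=
  ThmBFin980.thmB f5 hd hs hE hρ hFix hLoc hNd hNo

end Crest.Agent.R166.ThmBAll980
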