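import Crest.Agent.R166.TreeL_327

/-!
Row 166, sections 30.x: the bridge from the resolvent of the finite forest to the layer
recursion (helper327).

`treeB z L V Ξ` is the iterated one-layer map; `tree_out` : it is the root corner of
`treeOut (Res789.Res (hTree V) z) (par L) Ξ`.
-/

set_option autoImplicit false
set_option linter.unusedSectionVars false
set_option linter.unusedVariables false

namespace Crest.Agent.R166.TreeB327

open Matrix Crest.Agent.R166.TreeT327 Crest.Agent.R166.TreeL327 Crest.Agent.R166.Res598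
  Crest.Agent.R166.Dec598

section schur

variable {α κ : Type*} [Fintype α] [DecidableEq α] [Fintype κ] [DecidableEq κ]

/-- Schur complement: the upper left block of the inverse -/
theorem schur_tl {A : Matrix α α ℂ} {B : Matrix α κ ℂ} {C : Matrix κ α ℂ} {D : Matrix κ κ ℂ}
    (hM : IsUnit (fromBlocks A B C D).det) (hD : IsUnit D.det) :
    (fromBlocks A B C D)⁻¹.toBlocks₁₁ = (A - B * D⁻¹ * C)⁻¹ := by
  set G := (fromBlocks A B C D)⁻¹ with hG
  have h3 : fromBlocks A B C D * G = 1 := Matrix.mul_nonsing_inv _ hM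
  rw [← fromBlocks_toBlocks G, fromBlocks_multiply, ← fromBlocks_one, fromBlocks_inj] at h3
  obtain ⟨ha, -, hc, -⟩ := h3
  have h4 : G.toBlocks₂₁ = -(D⁻¹ * (C * G.toBlocks₁₁)) := by
    have h5 := congrArg (fun X => D⁻¹ * X) hc
    simp only [Matrix.mul_add, Matrix.mul_zero] at h5
    rw [← Matrix.mul_assoc D⁻¹ D, Matrix.nonsing_inv_mul _ hD, Matrix.one_mul] at h5
    exact eq_neg_of_add_eq_zero_right h5
  rw [h4] at ha
  symm
  apply Matrix.inv_eq_right_inv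
  rw [Matrix.sub_mul, ← ha, Matrix.mul_neg]
  simp only [Matrix.mul_assoc]
  abel

/-- entries of `Eᵀ Ξ E` -/
lemma leaf_form {T I : Type*} [Fintype T] [DecidableEq T] [Fintype I] [DecidableEq I]
    (t : I → T) (Ξ : Matrix I I ℂ) (x y : T) :
    ((cx (leafM t))ᵀ * Ξ * cx (leafM t)) x y =
      ∑ q, ∑ q', if x = t q ∧ y = t q' then Ξ q q' else 0 := by
  simp only [Matrix.mul_apply, Matrix.transpose_apply, cx, Matrix.map_apply, leafM,
    Finset.sum_mul]
  rw [Finset.sum_comm]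
  refine Finset.sum_congr rfl fun q _ => Finset.sum_congr rfl fun q' _ => ?_
  by_cases h1 : x = t q <;> by_cases h2 : y = t q' <;> simp [h1, h2]

end schur

section bridge

variable {ρ β : Type} [Fintype ρ] [DecidableEq ρ] [Fintype β] [DecidableEq β]

/-- the iterated recursion -/
noncomputable def treeB (z : ℂ) : ∀ (L : ℕ) (_ : Tr ρ β L → ℝ)
    (_ : Matrix (Lay ρ β L) (Lay ρ β L) ℂ), Matrix ρ ρ ℂ
  | 0, _, Ξ => Ξ
  | L + 1, V, Ξ => treeB z L (fun x => V (Sum.inl x))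
      (step (κ := Lay ρ β L) (β := β) (fun q => z - V (Sum.inr q)) Ξ)

lemma treeB_zero (z : ℂ) (V : Tr ρ β 0 → ℝ) (Ξ : Matrix (Lay ρ β 0) (Lay ρ β 0) ℂ) :
    treeB z 0 V Ξ = (Ξ : Matrix ρ ρ ℂ) := rfl

lemma treeB_succ (z : ℂ) (L : ℕ) (V : Tr ρ β (L + 1) → ℝ)
    (Ξ : Matrix (Lay ρ β (L + 1)) (Lay ρ β (L + 1)) ℂ) :
    treeB z (L + 1) V Ξ = treeB z L (fun x => V (Sum.inl x))
      (step (κ := Lay ρ β L) (β := β) (fun q => z - V (Sum.inr q)) Ξ) := rfl

/-- `Eᵀ Ξ E`, `E` the leaf incidence matrix -/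
def attach (L : ℕ) (Ξ : Matrix (Lay ρ β (L + 1)) (Lay ρ β (L + 1)) ℂ) :
    Matrix (Tr ρ β (L + 1)) (Tr ρ β (L + 1)) ℂ :=
  (cx (leafM (par (ρ := ρ) (β := β) L)))ᵀ * Ξ * cx (leafM (par L))

lemma attach_apply (L : ℕ) (Ξ : Matrix (Lay ρ β (L + 1)) (Lay ρ β (L + 1)) ℂ)
    (x y : Tr ρ β (L + 1)) :
    attach L Ξ x y = ∑ q, ∑ q', if x = par L q ∧ y = par L q' then Ξ q q' else 0 :=
  leaf_form (par L) Ξ x y

lemma attach_eq (L : ℕ) (Ξ : Matrix (Lay ρ β (L + 1)) (Lay ρ β (L + 1)) ℂ) :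
    attach L Ξ = (fromBlocks 0 0 0 (coll (κ := Lay ρ β L) (β := β) Ξ) :
      Matrix (Tr ρ β L ⊕ Lay ρ β L) (Tr ρ β L ⊕ Lay ρ β L) ℂ) := by
  ext x y
  rw [attach_apply]
  rcases x with x | x <;> rcases y with y | y
  · show _ = (0 : ℂ)
    refine Finset.sum_eq_zero fun q _ => Finset.sum_eq_zero fun q' _ => if_neg ?_
    rintro ⟨h, -⟩
    exact Sum.inl_ne_inr h
  · show _ = (0 : ℂ)
    refine Finset.sum_eq_zero fun q _ => Finset.sum_eq_zero fun q' _ => if_neg ?_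
    rintro ⟨h, -⟩
    exact Sum.inl_ne_inr h
  · show _ = (0 : ℂ)
    refine Finset.sum_eq_zero fun q _ => Finset.sum_eq_zero fun q' _ => if_neg ?_
    rintro ⟨-, h⟩
    exact Sum.inl_ne_inr h
  · show _ = ∑ a, ∑ a', Ξ (x, a) (y, a')
    have h0 : ∀ (g : Lay ρ β (L + 1) → Lay ρ β (L + 1) → ℂ),
        (∑ q : Lay ρ β (L + 1), ∑ q' : Lay ρ β (L + 1), g q q') =
        ∑ p : Lay ρ β L, ∑ a : β, ∑ p' : Lay ρ β L, ∑ a' : β, g (p, a) (p', a') := by
      intro g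
      exact (Fintype.sum_prod_type (α₁ := Lay ρ β L) (α₂ := β)
        (f := fun q => ∑ q' : Lay ρ β (L + 1), g q q')).trans
        (Finset.sum_congr rfl fun p _ => Finset.sum_congr rfl fun a _ =>
          Fintype.sum_prod_type (α₁ := Lay ρ β L) (α₂ := β) (f := fun q' => g (p, a) q'))
    rw [h0]
    rw [Finset.sum_eq_single x]
    · refine Finset.sum_congr rfl fun a _ => ?_
      rw [Finset.sum_eq_single y]
      · refine Finset.sum_congr rfl fun a' _ => ?_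
        exact if_pos ⟨rfl, rfl⟩
      · intro p' _ hp'
        refine Finset.sum_eq_zero fun a' _ => if_neg ?_
        rintro ⟨-, h⟩
        exact hp' (Sum.inr_injective h).symm
      · intro h; exact absurd (Finset.mem_univ _) h
    · intro p _ hp
      refine Finset.sum_eq_zero fun a _ => Finset.sum_eq_zero fun p' _ =>
        Finset.sum_eq_zero fun a' _ => if_neg ?_
      rintro ⟨h, -⟩
      exact hp (Sum.inr_injective h).symm
    · intro h; exact absurd (Finset.mem_univ _) h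

lemma NN.cor {α κ : Type*} [Fintype α] [DecidableEq α] [Fintype κ] [DecidableEq κ]
    {Z : Matrix κ κ ℂ} (hZ : NN Z) (P : Matrix κ α ℝ) : NN ((cx P)ᵀ * Z * cx P) := by
  intro u
  have h := hZ (cx P *ᵥ u)
  rw [star_cx_mulVec, ← dot_cor] at h
  exact h

lemma NN_neg_cx {α : Type*} [Fintype α] [DecidableEq α] {H : Matrix α α ℝ} (hH : Hᵀ = H) :
    NN (-cx H) := by
  intro u
  rw [neg_mulVec, dotProduct_neg, Complex.neg_im, star_dot_real hH]
  simp

/-- invertibility of `H - z - Z` -/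
lemma isUnit_sub {α : Type*} [Fintype α] [DecidableEq α] {H : Matrix α α ℝ} (hH : Hᵀ = H)
    {z : ℂ} (hz : 0 < z.im) {Z : Matrix α α ℂ} (hZ : NN Z) :
    IsUnit (cx H - z • (1 : Matrix α α ℂ) - Z).det := by
  have h1 : IsUnit (Matrix.diagonal (fun _ : α => z) + (-cx H + Z)).det :=
    diag_add_isUnit ((NN_neg_cx hH).add hZ) fun _ => hz
  have h2 : cx H - z • (1 : Matrix α α ℂ) - Z
      = -(Matrix.diagonal (fun _ : α => z) + (-cx H + Z)) := by
    rw [Matrix.smul_one_eq_diagonal]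
    abel
  rw [h2, Matrix.det_neg]
  exact ((isUnit_one.neg).pow _).mul h1

/-- the matrix whose inverse is the resolvent with the inputs attached -/
noncomputable def gM (z : ℂ) (L : ℕ) (V : Tr ρ β (L + 1) → ℝ)
    (Ξ : Matrix (Lay ρ β (L + 1)) (Lay ρ β (L + 1)) ℂ) :
    Matrix (Tr ρ β (L + 1)) (Tr ρ β (L + 1)) ℂ :=
  cx (hTree V) - z • (1 : Matrix (Tr ρ β (L + 1)) (Tr ρ β (L + 1)) ℂ) - attach L Ξ

lemma gM_isUnit {z : ℂ} (hz : 0 < z.im) (L : ℕ) (V : Tr ρ β (L + 1) → ℝ)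
    {Ξ : Matrix (Lay ρ β (L + 1)) (Lay ρ β (L + 1)) ℂ} (hΞ : NN Ξ) :
    IsUnit (gM z L V Ξ).det :=
  isUnit_sub (hTree_symm V) hz (NN.cor hΞ _)

lemma gM_eq (z : ℂ) (L : ℕ) (V : Tr ρ β (L + 1) → ℝ)
    (Ξ : Matrix (Lay ρ β (L + 1)) (Lay ρ β (L + 1)) ℂ) :
    gM z L V Ξ = (fromBlocks
      (cx (hTree (fun x => V (Sum.inl x)) : Matrix (Tr ρ β L) (Tr ρ β L) ℝ) - z • 1)
      (cx (adjTL L)) (cx (adjTL L))ᵀ
      (-(Matrix.diagonal (fun q => z - V (Sum.inr q)) + coll (κ := Lay ρ β L) (β := β) Ξ)) :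
      Matrix (Tr ρ β L ⊕ Lay ρ β L) (Tr ρ β L ⊕ Lay ρ β L) ℂ) := by
  rw [gM, attach_eq]
  have key : ∀ (V' : Tr ρ β L ⊕ Lay ρ β L → ℝ),
      (cx (Matrix.diagonal V' + fromBlocks (adjT L) (adjTL L) (adjTL L)ᵀ 0) -
        z • (1 : Matrix (Tr ρ β L ⊕ Lay ρ β L) (Tr ρ β L ⊕ Lay ρ β L) ℂ) -
        fromBlocks 0 0 0 (coll (κ := Lay ρ β L) (β := β) Ξ)) =
      fromBlocks (cx (hTree (fun x => V' (Sum.inl x)) : Matrix (Tr ρ β L) (Tr ρ β L) ℝ) - z • 1)
      (cx (adjTL L)) (cx (adjTL L))ᵀ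
      (-(Matrix.diagonal (fun q => z - V' (Sum.inr q)) +
        coll (κ := Lay ρ β L) (β := β) Ξ)) := by
    intro V'
    ext x y
    rcases x with x | x <;> rcases y with y | y
    · simp [cx, hTree, Matrix.diagonal_apply, Matrix.one_apply]
    · simp [cx, hTree, Matrix.diagonal_apply, Matrix.one_apply]
    · simp [cx, hTree, Matrix.diagonal_apply, Matrix.one_apply]
    · by_cases h : x = y
      · subst h
        simp [cx, hTree]
        ring
      · simp [cx, hTree, Matrix.diagonal_apply, Matrix.one_apply, h]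
  exact key V

lemma adjTL_eq (L : ℕ) : (adjTL (L + 1) : Matrix (Tr ρ β (L + 1)) (Lay ρ β (L + 1)) ℝ) =
    (leafM (par (ρ := ρ) (β := β) L))ᵀ := by
  ext x q
  rcases x with x | p
  · show (0 : ℝ) = if (Sum.inl x : Tr ρ β L ⊕ Lay ρ β L) = Sum.inr q.1 then 1 else 0
    rw [if_neg Sum.inl_ne_inr]
  · show (if p = q.1 then (1 : ℝ) else 0) =
      if (Sum.inr p : Tr ρ β L ⊕ Lay ρ β L) = Sum.inr q.1 then 1 else 0
    by_cases h : p = q.1
    · rw [if_pos h, if_pos (by rw [h])]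
    · rw [if_neg h, if_neg (fun h' => h (Sum.inr_injective h'))]

lemma neg_inv_eq {κ : Type*} [Fintype κ] [DecidableEq κ] {D : Matrix κ κ ℂ} (hD : IsUnit D.det) :
    (-D)⁻¹ = -D⁻¹ := by
  apply Matrix.inv_eq_right_inv
  rw [neg_mul_neg, Matrix.mul_nonsing_inv _ hD]

lemma isUnit_neg_det {κ : Type*} [Fintype κ] [DecidableEq κ] {D : Matrix κ κ ℂ}
    (hD : IsUnit D.det) : IsUnit (-D).det := by
  rw [Matrix.det_neg]
  exact ((isUnit_one.neg).pow _).mul hD

/-- peeling the last layer -/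
theorem gM_succ {z : ℂ} (hz : 0 < z.im) (L : ℕ) (V : Tr ρ β (L + 2) → ℝ)
    {Ξ : Matrix (Lay ρ β (L + 2)) (Lay ρ β (L + 2)) ℂ} (hΞ : NN Ξ) (r r' : ρ) :
    (gM z (L + 1) V Ξ)⁻¹ (root (L + 1) r) (root (L + 1) r') =
      (gM z L (fun x => V (Sum.inl x))
        (step (κ := Lay ρ β (L + 1)) (β := β) (fun q => z - V (Sum.inr q)) Ξ))⁻¹
        (root L r) (root L r') := by
  have hc : NN (coll (κ := Lay ρ β (L + 1)) (β := β) Ξ) :=
    NN.coll (κ := Lay ρ β (L + 1)) (β := β) hΞ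
  have he : ∀ q : Lay ρ β (L + 1), 0 < (z - (V (Sum.inr q) : ℂ)).im := fun q => by simpa using hz
  have hD := diag_add_isUnit (κ := Lay ρ β (L + 1)) hc he
  have h1 := gM_isUnit hz (L + 1) V hΞ
  rw [gM_eq] at h1 ⊢
  have h2 := schur_tl h1 (isUnit_neg_det hD)
  have h3 := congrFun (congrFun h2 (root L r)) (root L r')
  refine (show _ = _ from h3).trans ?_
  rw [gM, neg_inv_eq hD, adjTL_eq]
  rfl

lemma inv_empty_block {α κ : Type*} [Fintype α] [DecidableEq α] [IsEmpty α] [Fintype κ]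
    [DecidableEq κ] (A : Matrix α α ℂ) (B : Matrix α κ ℂ) (C : Matrix κ α ℂ) {D : Matrix κ κ ℂ}
    (hD : IsUnit D.det) : (fromBlocks A B C D)⁻¹ = fromBlocks 0 0 0 D⁻¹ := by
  apply Matrix.inv_eq_right_inv
  rw [fromBlocks_multiply, ← fromBlocks_one, Matrix.mul_nonsing_inv _ hD]
  congr 1
  · exact Subsingleton.elim _ _
  · exact Subsingleton.elim _ _
  · simp
  · ext i j
    simp

instance instEmptyTr : IsEmpty (Tr ρ β 0) := inferInstanceAs (IsEmpty Empty)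

/-- the root corner of the inverse is the iterated recursion -/
theorem gM_root {z : ℂ} (hz : 0 < z.im) : ∀ (L : ℕ) (V : Tr ρ β (L + 1) → ℝ)
    {Ξ : Matrix (Lay ρ β (L + 1)) (Lay ρ β (L + 1)) ℂ} (hΞ : NN Ξ) (r r' : ρ),
    (gM z L V Ξ)⁻¹ (root L r) (root L r') = treeB z (L + 1) V Ξ r r'
  | 0, V, Ξ, hΞ, r, r' => by
    have hc : NN (coll (κ := ρ) (β := β) Ξ) := NN.coll (κ := ρ) (β := β) hΞ
    have he : ∀ q : ρ, 0 < (z - (V (Sum.inr q) : ℂ)).im := fun q => by simpa using hz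
    have hD := diag_add_isUnit (κ := ρ) hc he
    rw [gM_eq]
    refine (congrFun (congrFun (inv_empty_block (α := Tr ρ β 0) (κ := ρ) _ _ _
      (isUnit_neg_det hD)) (Sum.inr r)) (Sum.inr r')).trans ?_
    rw [neg_inv_eq hD]
    rfl
  | L + 1, V, Ξ, hΞ, r, r' => by
    rw [gM_succ hz L V hΞ]
    exact gM_root hz L _ (step_NN (κ := Lay ρ β (L + 1)) (β := β) hΞ fun q => by simpa using hz) r r'

/-- **bridge**: the root corner of `treeOut` is the iterated one-layer map -/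
theorem tree_out {z : ℂ} (hz : 0 < z.im) (L : ℕ) (V : Tr ρ β (L + 1) → ℝ)
    {Ξ : Matrix (Lay ρ β (L + 1)) (Lay ρ β (L + 1)) ℂ} (hΞ : Siegel Ξ) :
    (treeOut (Res789.Res (hTree V) z) (par L) Ξ).submatrix (root L) (root L) =
      treeB z (L + 1) V Ξ := by
  have hS : Siegel (Res789.Res (hTree V) z) := siegel_Res (hTree_symm V) hz
  have hNN : NN Ξ := by
    intro u
    rw [im_form hΞ.symm]
    exact qf_nonneg hΞ.pos.posSemidef u
  rw [treeOut_eq hS _ hΞ, Res_inv (hTree_symm V) hz]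
  ext r r'
  rw [← gM_root hz L V hNN r r']
  rfl

end bridge

end Crest.Agent.R166.TreeB327
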