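import Crest.Agent.R166.Mob_327
import Crest.Agent.R166.TreeT_327

/-!
Row 166, sections 30.1/30.2/31.2: layers of the rooted tree, the layer recursion `step`,
structure of `step` on nearly diagonal inputs, and the bridge to the resolvent of the finite tree
(helper327).
-/

set_option autoImplicit false
set_option linter.unusedSectionVars false
set_option linter.unusedVariables false

namespace Crest.Agent.R166.TreeL327

open Matrix

section onestep

variable {κ β : Type*} [Fintype κ] [DecidableEq κ] [Fintype β] [DecidableEq β]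

/-- `Im` of the quadratic form is nonnegative -/
def NN {ι : Type*} [Fintype ι] (Z : Matrix ι ι ℂ) : Prop :=
  ∀ u : ι → ℂ, 0 ≤ (star u ⬝ᵥ (Z *ᵥ u)).im

/-- collapse an input matrix to the parents -/
def coll (Z : Matrix (κ × β) (κ × β) ℂ) : Matrix κ κ ℂ :=
  fun p q => ∑ a, ∑ a', Z (p, a) (q, a')

/-- one layer of the recursion -/
noncomputable def step (e : κ → ℂ) (Z : Matrix (κ × β) (κ × β) ℂ) : Matrix κ κ ℂ :=
  -(Matrix.diagonal e + coll Z)⁻¹

lemma coll_form (Z : Matrix (κ × β) (κ × β) ℂ) (u : κ → ℂ) :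
    star u ⬝ᵥ (coll Z *ᵥ u)
      = star (fun x : κ × β => u x.1) ⬝ᵥ (Z *ᵥ (fun x : κ × β => u x.1)) := by
  simp only [dotProduct, mulVec, coll, Pi.star_apply, Fintype.sum_prod_type, Finset.sum_mul,
    Finset.mul_sum]
  refine Finset.sum_congr rfl fun p _ => ?_
  rw [Finset.sum_comm]

lemma NN.coll {Z : Matrix (κ × β) (κ × β) ℂ} (h : NN Z) : NN (coll Z) := by
  intro u
  rw [coll_form]
  exact h _

lemma diag_form (e : κ → ℂ) (u : κ → ℂ) :
    star u ⬝ᵥ (Matrix.diagonal e *ᵥ u) = ∑ p, e p * ((‖u p‖ ^ 2 : ℝ) : ℂ) := by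
  simp only [dotProduct, mulVec_diagonal, Pi.star_apply]
  refine Finset.sum_congr rfl fun p _ => ?_
  have : ((‖u p‖ ^ 2 : ℝ) : ℂ) = star (u p) * u p := by
    rw [← Complex.normSq_eq_norm_sq, ← Complex.mul_conj]
    simp [mul_comm]
  rw [this]; ring

lemma diag_form_im (e : κ → ℂ) (u : κ → ℂ) :
    (star u ⬝ᵥ (Matrix.diagonal e *ᵥ u)).im = ∑ p, (e p).im * ‖u p‖ ^ 2 := by
  rw [diag_form, Complex.im_sum]
  exact Finset.sum_congr rfl fun p _ => by rw [Complex.im_mul_ofReal]

/-- `Im ≥ κ` quadratic form lower bound of `diag e + W`. -/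
lemma form_ge {e : κ → ℂ} {W : Matrix κ κ ℂ} (hW : NN W) {t : ℝ} (he : ∀ p, t ≤ (e p).im)
    (u : κ → ℂ) : t * ∑ p, ‖u p‖ ^ 2 ≤ (star u ⬝ᵥ ((Matrix.diagonal e + W) *ᵥ u)).im := by
  rw [add_mulVec, dotProduct_add, Complex.add_im, diag_form_im, Finset.mul_sum]
  have h1 := hW u
  have h2 : ∑ p, t * ‖u p‖ ^ 2 ≤ ∑ p, (e p).im * ‖u p‖ ^ 2 :=
    Finset.sum_le_sum fun p _ => mul_le_mul_of_nonneg_right (he p) (by positivity)
  linarith

lemma det_unit_of_inj {A : Matrix κ κ ℂ} (h : ∀ s : κ → ℂ, A *ᵥ s = 0 → s = 0) :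
    IsUnit A.det := by
  rw [isUnit_iff_ne_zero]
  intro h0
  obtain ⟨v, hv, hv'⟩ := Matrix.exists_mulVec_eq_zero_iff.mpr h0
  exact hv (h v hv')

lemma diag_add_isUnit {e : κ → ℂ} {W : Matrix κ κ ℂ} (hW : NN W) (he : ∀ p, 0 < (e p).im) :
    IsUnit (Matrix.diagonal e + W).det := by
  apply det_unit_of_inj
  intro s hs
  have h1 := hW s
  have h2 : (star s ⬝ᵥ ((Matrix.diagonal e + W) *ᵥ s)).im = 0 := by rw [hs]; simp
  rw [add_mulVec, dotProduct_add, Complex.add_im, diag_form_im] at h2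
  have h3 : ∑ p, (e p).im * ‖s p‖ ^ 2 ≤ 0 := by linarith
  have h4 : ∀ p, (e p).im * ‖s p‖ ^ 2 = 0 := by
    have h5 : ∑ p, (e p).im * ‖s p‖ ^ 2 = 0 :=
      le_antisymm h3 (Finset.sum_nonneg fun p _ => mul_nonneg (he p).le (by positivity))
    intro p
    exact (Finset.sum_eq_zero_iff_of_nonneg
      (fun p _ => mul_nonneg (he p).le (by positivity))).mp h5 p (Finset.mem_univ p)
  ext p
  have h6 := h4 p
  have h7 : ‖s p‖ ^ 2 = 0 := by
    rcases mul_eq_zero.mp h6 with h | h
    · exact absurd h (he p).ne'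
    · exact h
  simpa using h7

lemma star_dot_swap (x y : κ → ℂ) : (star x ⬝ᵥ y).im = -(star y ⬝ᵥ x).im := by
  have : star x ⬝ᵥ y = star (star y ⬝ᵥ x) := by
    simp only [dotProduct, Pi.star_apply, star_sum, star_mul', star_star]
    exact Finset.sum_congr rfl fun i _ => mul_comm _ _
  rw [this, Complex.star_def, Complex.conj_im]

/-- minus the inverse of a matrix with nonnegative imaginary part has the same property -/
lemma NN.neg_inv {N : Matrix κ κ ℂ} (hN : NN N) (hu : IsUnit N.det) : NN (-N⁻¹) := by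
  intro u
  set v := N⁻¹ *ᵥ u with hv
  have h1 : N *ᵥ v = u := by
    rw [hv, mulVec_mulVec, mul_nonsing_inv _ hu, one_mulVec]
  have h2 := hN v
  rw [h1] at h2
  rw [neg_mulVec, ← hv, dotProduct_neg, Complex.neg_im, star_dot_swap, neg_neg]
  exact h2

lemma NN_diagonal {e : κ → ℂ} (he : ∀ p, 0 ≤ (e p).im) : NN (Matrix.diagonal e) := by
  intro u
  rw [diag_form_im]
  exact Finset.sum_nonneg fun p _ => mul_nonneg (he p) (by positivity)

lemma NN.add {A B : Matrix κ κ ℂ} (hA : NN A) (hB : NN B) : NN (A + B) := by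
  intro u
  rw [add_mulVec, dotProduct_add, Complex.add_im]
  exact add_nonneg (hA u) (hB u)

lemma NN.im_diag {A : Matrix κ κ ℂ} (hA : NN A) (p : κ) : 0 ≤ (A p p).im := by
  have h := hA (Pi.single p 1)
  have e1 : star (Pi.single p (1 : ℂ)) ⬝ᵥ (A *ᵥ Pi.single p 1) = A p p := by
    rw [mulVec_single_one]
    simp [dotProduct, Pi.single_apply]
  rwa [e1] at h

lemma NN.submatrix {α : Type*} [Fintype α] [DecidableEq α] {A : Matrix κ κ ℂ} (hA : NN A)
    {f : α → κ} (hf : Function.Injective f) : NN (A.submatrix f f) := by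
  intro u
  have h := hA (fun p => ∑ x, if f x = p then u x else 0)
  have e1 : ∀ (g : κ → ℂ), (∑ p, (∑ x, if f x = p then u x else 0) * g p) = ∑ x, u x * g (f x) := by
    intro g
    simp only [Finset.sum_mul]
    rw [Finset.sum_comm]
    refine Finset.sum_congr rfl fun x _ => ?_
    simp
  have e2 : (A *ᵥ fun p => ∑ x, if f x = p then u x else 0) = fun p => ∑ x, A p (f x) * u x := by
    ext p
    simp only [mulVec, dotProduct]
    have := e1 (fun q => A p q)
    calc ∑ q, A p q * (∑ x, if f x = q then u x else 0)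
        = ∑ q, (∑ x, if f x = q then u x else 0) * A p q :=
          Finset.sum_congr rfl fun q _ => mul_comm _ _
      _ = ∑ x, u x * A p (f x) := this
      _ = _ := Finset.sum_congr rfl fun q _ => mul_comm _ _
  rw [e2] at h
  have e3 : star (fun p => ∑ x, if f x = p then u x else 0) ⬝ᵥ (fun p => ∑ x, A p (f x) * u x)
      = star u ⬝ᵥ (A.submatrix f f *ᵥ u) := by
    simp only [dotProduct, Pi.star_apply, star_sum, mulVec, submatrix_apply]
    have : ∀ p, (∑ x, star (if f x = p then u x else 0)) = ∑ x, if f x = p then star (u x) else 0 := by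
      intro p
      refine Finset.sum_congr rfl fun x _ => ?_
      split <;> simp
    simp only [this, Finset.sum_mul]
    rw [Finset.sum_comm]
    refine Finset.sum_congr rfl fun x _ => ?_
    simp
  rw [e3] at h
  exact h

lemma step_NN {e : κ → ℂ} {Z : Matrix (κ × β) (κ × β) ℂ} (hZ : NN Z)
    (he : ∀ p, 0 < (e p).im) : NN (step e Z) :=
  NN.neg_inv ((NN_diagonal fun p => (he p).le).add hZ.coll) (diag_add_isUnit hZ.coll he)

lemma coll_symm {Z : Matrix (κ × β) (κ × β) ℂ} (hZ : Zᵀ = Z) : (coll Z)ᵀ = coll Z := by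
  ext p q
  simp only [transpose_apply, coll]
  rw [Finset.sum_comm]
  refine Finset.sum_congr rfl fun a _ => Finset.sum_congr rfl fun a' _ => ?_
  have := congrFun (congrFun hZ (p, a)) (q, a')
  simpa [transpose_apply] using this

lemma step_symm {e : κ → ℂ} {Z : Matrix (κ × β) (κ × β) ℂ} (hZ : Zᵀ = Z) :
    (step e Z)ᵀ = step e Z := by
  rw [step, transpose_neg, transpose_nonsing_inv, transpose_add, coll_symm hZ,
    diagonal_transpose]

/-- row of the inverse when the row of the matrix is diagonal -/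
lemma inv_row {N : Matrix κ κ ℂ} (hu : IsUnit N.det) {p : κ} (hp : ∀ q, q ≠ p → N p q = 0)
    (q : κ) : N p p * N⁻¹ p q = if p = q then 1 else 0 := by
  have h := congrFun (congrFun (mul_nonsing_inv N hu) p) q
  rw [mul_apply, Finset.sum_eq_single p, one_apply] at h
  · exact h
  · intro r _ hr; rw [hp r hr, zero_mul]
  · simp

/-- the two by two block at `(i,k)` -/
def blk {ι : Type*} (Z : Matrix ι ι ℂ) (i k : ι) : Matrix (Fin 2) (Fin 2) ℂ :=
  !![Z i i, Z i k; Z k i, Z k k]

/-- block of the inverse when the matrix splits off a `2 x 2` block -/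
lemma inv_blk {N : Matrix κ κ ℂ} (hu : IsUnit N.det) {p q : κ} (hpq : p ≠ q)
    (hp : ∀ r, r ≠ p → r ≠ q → N p r = 0) (hq : ∀ r, r ≠ p → r ≠ q → N q r = 0) :
    blk N p q * blk N⁻¹ p q = 1 := by
  have h0 := mul_nonsing_inv N hu
  have key : ∀ x : κ, (∀ r, r ≠ p → r ≠ q → N x r = 0) → ∀ y,
      N x p * N⁻¹ p y + N x q * N⁻¹ q y = (1 : Matrix κ κ ℂ) x y := by
    intro x hx y
    rw [← h0, mul_apply, ← Finset.add_sum_erase _ _ (Finset.mem_univ p),
      ← Finset.add_sum_erase _ _ (Finset.mem_erase.mpr ⟨hpq.symm, Finset.mem_univ q⟩)]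
    rw [Finset.sum_eq_zero, add_zero]
    intro r hr
    rw [Finset.mem_erase, Finset.mem_erase] at hr
    rw [hx r hr.2.1 hr.1, zero_mul]
  ext a c
  fin_cases a <;> fin_cases c <;>
    simp [blk, mul_apply, Fin.sum_univ_two, key p hp, key q hq, one_apply, hpq, hpq.symm]

/-- off-diagonal entries vanish except at `(i,k)`, `(k,i)` -/
def Str {ι : Type*} (i k : ι) (Z : Matrix ι ι ℂ) : Prop :=
  ∀ p q, p ≠ q → ¬ (p = i ∧ q = k) → ¬ (p = k ∧ q = i) → Z p q = 0

lemma coll_str {Z : Matrix (κ × β) (κ × β) ℂ} {i k : κ × β} (hZ : Str i k Z) :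
    Str i.1 k.1 (coll Z) := by
  intro p q hpq h1 h2
  refine Finset.sum_eq_zero fun a _ => Finset.sum_eq_zero fun a' _ => ?_
  apply hZ
  · intro h; exact hpq (congrArg Prod.fst h)
  · rintro ⟨h3, h4⟩; exact h1 ⟨congrArg Prod.fst h3, congrArg Prod.fst h4⟩
  · rintro ⟨h3, h4⟩; exact h2 ⟨congrArg Prod.fst h3, congrArg Prod.fst h4⟩

/-- diagonal entries of `coll Z` away from a common parent -/
lemma coll_diag {Z : Matrix (κ × β) (κ × β) ℂ} {i k : κ × β} (hZ : Str i k Z)
    {p : κ} (hp : ¬ (p = i.1 ∧ p = k.1)) : coll Z p p = ∑ a, Z (p, a) (p, a) := by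
  refine Finset.sum_congr rfl fun a _ => ?_
  rw [Finset.sum_eq_single a]
  · intro a' _ ha'
    apply hZ
    · intro h; exact ha' (congrArg Prod.snd h).symm
    · rintro ⟨h3, h4⟩; exact hp ⟨congrArg Prod.fst h3, congrArg Prod.fst h4⟩
    · rintro ⟨h3, h4⟩; exact hp ⟨congrArg Prod.fst h4, congrArg Prod.fst h3⟩
  · simp

/-- off-diagonal entry of `coll Z` at distinct parents -/
lemma coll_off {Z : Matrix (κ × β) (κ × β) ℂ} {i k : κ × β} (hZ : Str i k Z)
    (hik : i.1 ≠ k.1) : coll Z i.1 k.1 = Z i k := by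
  have f : ∀ {x y : κ × β}, x = y → x.1 = y.1 := fun h => congrArg Prod.fst h
  rw [coll, Finset.sum_eq_single i.2, Finset.sum_eq_single k.2]
  · intro a' _ ha'
    apply hZ
    · intro h; have h' := f h; exact hik h'
    · rintro ⟨h3, h4⟩; exact ha' (congrArg Prod.snd h4)
    · rintro ⟨h3, h4⟩; have h' := f h3; exact hik h'
  · simp
  · intro a _ ha
    refine Finset.sum_eq_zero fun a' _ => ?_
    apply hZ
    · intro h; have h' := f h; exact hik h'
    · rintro ⟨h3, h4⟩; exact ha (congrArg Prod.snd h3)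
    · rintro ⟨h3, h4⟩; have h' := f h3; exact hik h'
  · simp

/-- the parameter seen by input `(p,a)` from the other inputs at `p` -/
def cpar (e : κ → ℂ) (Z : Matrix (κ × β) (κ × β) ℂ) (x : κ × β) : ℂ :=
  e x.1 + ∑ a ∈ Finset.univ.erase x.2, Z (x.1, a) (x.1, a)

/-- distinct parents: structure and the block of `step` -/
theorem step_blk {e : κ → ℂ} {Z : Matrix (κ × β) (κ × β) ℂ} {i k : κ × β}
    (hZs : Zᵀ = Z) (hN : NN Z) (he : ∀ p, 0 < (e p).im) (hZ : Str i k Z) (hik : i.1 ≠ k.1) :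
    Str i.1 k.1 (step e Z) ∧
    (∀ p, p ≠ i.1 → p ≠ k.1 → step e Z p p = -(e p + ∑ a, Z (p, a) (p, a))⁻¹) ∧
    (Matrix.diagonal ![cpar e Z i, cpar e Z k] + blk Z i k) * blk (step e Z) i.1 k.1 = -1 := by
  have hu : IsUnit (Matrix.diagonal e + coll Z).det := diag_add_isUnit hN.coll he
  have hcs := coll_str hZ
  have hrow : ∀ p, p ≠ i.1 → p ≠ k.1 → ∀ q, q ≠ p → (Matrix.diagonal e + coll Z) p q = 0 := by
    intro p h1 h2 q hq
    rw [Matrix.add_apply, diagonal_apply_ne _ hq.symm, zero_add]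
    exact hcs p q hq.symm (fun h => h1 h.1) (fun h => h2 h.1)
  have hdiag : ∀ p, (Matrix.diagonal e + coll Z) p p = e p + ∑ a, Z (p, a) (p, a) := by
    intro p
    rw [Matrix.add_apply, diagonal_apply_eq, coll_diag hZ]
    rintro ⟨h1, h2⟩
    exact hik (h1.symm.trans h2)
  have hne : ∀ p, e p + ∑ a, Z (p, a) (p, a) ≠ 0 := by
    intro p h0
    have := congrArg Complex.im h0
    rw [Complex.add_im, Complex.im_sum, Complex.zero_im] at this
    have h2 : 0 ≤ ∑ a, (Z (p, a) (p, a)).im := Finset.sum_nonneg fun a _ => hN.im_diag _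
    have := he p
    linarith
  have hinv : ∀ p, p ≠ i.1 → p ≠ k.1 → ∀ q, (Matrix.diagonal e + coll Z)⁻¹ p q
      = if p = q then (e p + ∑ a, Z (p, a) (p, a))⁻¹ else 0 := by
    intro p h1 h2 q
    have h3 := inv_row hu (hrow p h1 h2) q
    rw [hdiag] at h3
    split_ifs at h3 ⊢ with h4
    · exact eq_inv_of_mul_eq_one_right h3
    · exact (mul_eq_zero.mp h3).resolve_left (hne p)
  have hsymm : ∀ p q, (Matrix.diagonal e + coll Z)⁻¹ p q = (Matrix.diagonal e + coll Z)⁻¹ q p := by
    intro p q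
    have h1 := step_symm (e := e) hZs
    have h2 := congrFun (congrFun h1 q) p
    simp only [transpose_apply, step, Matrix.neg_apply, neg_inj] at h2
    exact h2
  refine ⟨?_, ?_, ?_⟩
  · intro p q hpq h1 h2
    rw [step, Matrix.neg_apply, neg_eq_zero]
    by_cases hp : p = i.1 ∨ p = k.1
    · -- then q is outside
      have hq1 : q ≠ i.1 := by
        rintro rfl
        rcases hp with rfl | rfl
        · exact hpq rfl
        · exact h2 ⟨rfl, rfl⟩
      have hq2 : q ≠ k.1 := by
        rintro rfl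
        rcases hp with rfl | rfl
        · exact h1 ⟨rfl, rfl⟩
        · exact hpq rfl
      rw [hsymm, hinv q hq1 hq2, if_neg (Ne.symm hpq)]
    · push Not at hp
      rw [hinv p hp.1 hp.2, if_neg hpq]
  · intro p h1 h2
    rw [step, Matrix.neg_apply, hinv p h1 h2, if_pos rfl]
  · have hblk := inv_blk hu hik
      (by
        intro r h1 h2
        rw [Matrix.add_apply, diagonal_apply_ne _ h1.symm, zero_add]
        exact hcs _ _ h1.symm (fun h => h2 h.2) (fun h => hik h.1))
      (by
        intro r h1 h2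
        rw [Matrix.add_apply, diagonal_apply_ne _ h2.symm, zero_add]
        exact hcs _ _ h2.symm (fun h => hik h.1.symm) (fun h => h1 h.2))
    have e1 : blk (step e Z) i.1 k.1 = -(blk (Matrix.diagonal e + coll Z)⁻¹ i.1 k.1) := by
      ext a c
      fin_cases a <;> fin_cases c <;> simp [blk, step]
    have hzki : Z k i = Z i k := by
      have := congrFun (congrFun hZs i) k
      simpa [transpose_apply] using this
    have hZ' : Str k i Z := fun p q h1 h2 h3 => hZ p q h1 h3 h2
    have e2 : Matrix.diagonal ![cpar e Z i, cpar e Z k] + blk Z i k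
        = blk (Matrix.diagonal e + coll Z) i.1 k.1 := by
      have hii : cpar e Z i + Z i i = e i.1 + ∑ a, Z (i.1, a) (i.1, a) := by
        rw [cpar, add_assoc, add_comm (∑ a ∈ Finset.univ.erase i.2, _) (Z i i)]
        congr 1
        exact Finset.add_sum_erase _ (fun a => Z (i.1, a) (i.1, a)) (Finset.mem_univ i.2)
      have hkk : cpar e Z k + Z k k = e k.1 + ∑ a, Z (k.1, a) (k.1, a) := by
        rw [cpar, add_assoc, add_comm (∑ a ∈ Finset.univ.erase k.2, _) (Z k k)]
        congr 1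
        exact Finset.add_sum_erase _ (fun a => Z (k.1, a) (k.1, a)) (Finset.mem_univ k.2)
      ext a c
      fin_cases a <;> fin_cases c
      · simpa [blk, coll_diag hZ (p := i.1) (fun h => hik h.2)] using hii
      · simp [blk, diagonal_apply_ne _ hik, coll_off hZ hik]
      · simp [blk, diagonal_apply_ne _ hik.symm, coll_off hZ' hik.symm]
      · simpa [blk, coll_diag hZ (p := k.1) (fun h => hik h.1.symm)] using hkk
    rw [e1, e2, mul_neg, hblk]

/-- equal parents: `step` is diagonal -/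
theorem step_merge {e : κ → ℂ} {Z : Matrix (κ × β) (κ × β) ℂ} {i k : κ × β}
    (hN : NN Z) (he : ∀ p, 0 < (e p).im) (hZ : Str i k Z) (hik : i.1 = k.1) :
    step e Z = Matrix.diagonal (fun p => -(e p + coll Z p p)⁻¹) := by
  have hu : IsUnit (Matrix.diagonal e + coll Z).det := diag_add_isUnit hN.coll he
  have hcs := coll_str hZ
  have hrow : ∀ p q, q ≠ p → (Matrix.diagonal e + coll Z) p q = 0 := by
    intro p q hq
    rw [Matrix.add_apply, diagonal_apply_ne _ hq.symm, zero_add]
    apply hcs p q hq.symm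
    · rintro ⟨rfl, rfl⟩; exact hq hik.symm
    · rintro ⟨rfl, rfl⟩; exact hq hik
  have hne : ∀ p, e p + coll Z p p ≠ 0 := by
    intro p h0
    have := congrArg Complex.im h0
    rw [Complex.add_im, Complex.zero_im] at this
    have h2 := hN.coll.im_diag p
    have := he p
    linarith
  ext p q
  rw [step, Matrix.neg_apply]
  have h3 := inv_row hu (hrow p) q
  rw [Matrix.add_apply, diagonal_apply_eq] at h3
  by_cases h4 : p = q
  · subst h4
    rw [if_pos rfl] at h3
    rw [diagonal_apply_eq, eq_inv_of_mul_eq_one_right h3]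
  · rw [if_neg h4] at h3
    rw [diagonal_apply_ne _ h4, (mul_eq_zero.mp h3).resolve_left (hne p), neg_zero]

/-- diagonal inputs -/
theorem step_diagonal {e : κ → ℂ} {X : κ × β → ℂ} (hX : ∀ x, 0 ≤ (X x).im)
    (he : ∀ p, 0 < (e p).im) :
    step e (Matrix.diagonal X) = Matrix.diagonal (fun p => -(e p + ∑ a, X (p, a))⁻¹) := by
  have hc : ∀ p, coll (Matrix.diagonal X) p p = ∑ a, X (p, a) := by
    intro p
    refine Finset.sum_congr rfl fun a _ => ?_
    rw [Finset.sum_eq_single a]
    · simp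
    · intro a' _ ha'
      rw [diagonal_apply_ne]
      intro h; exact ha' (congrArg Prod.snd h).symm
    · simp
  have hcoll : coll (Matrix.diagonal X) = Matrix.diagonal (fun p => ∑ a, X (p, a)) := by
    ext p q
    by_cases h : p = q
    · subst h; rw [hc, diagonal_apply_eq]
    · rw [diagonal_apply_ne _ h]
      refine Finset.sum_eq_zero fun a _ => Finset.sum_eq_zero fun a' _ => ?_
      rw [diagonal_apply_ne]
      intro h'; exact h (congrArg Prod.fst h')
  have hne : ∀ p, e p + ∑ a, X (p, a) ≠ 0 := by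
    intro p h0
    have := congrArg Complex.im h0
    rw [Complex.add_im, Complex.im_sum, Complex.zero_im] at this
    have h2 : 0 ≤ ∑ a, (X (p, a)).im := Finset.sum_nonneg fun a _ => hX _
    have := he p
    linarith
  rw [step, hcoll, diagonal_add]
  have : (Matrix.diagonal fun p => e p + ∑ a, X (p, a))⁻¹
      = Matrix.diagonal fun p => (e p + ∑ a, X (p, a))⁻¹ := by
    apply inv_eq_right_inv
    rw [diagonal_mul_diagonal, ← diagonal_one]
    congr 1
    ext p
    exact mul_inv_cancel₀ (hne p)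
  rw [this, ← diagonal_neg]

end onestep

end Crest.Agent.R166.TreeL327
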