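import Mathlib

/-!
Row 166, section 40.5 (helper942): superexponential tree-likeness in the configuration model.

* `IsPairing p` : `p : Equiv.Perm α` is a fixed-point free involution.
* Part I: sequential exposure counting, `closeCount_bound`.
* Part II and III are in `TreeLike2_942`.
-/

set_option autoImplicit false

namespace Crest.Agent.R166.TreeLike942

open Finset
open scoped Nat

noncomputable section

variable {α : Type*}

/-- fixed-point free involution -/
def IsPairing (p : Equiv.Perm α) : Prop := (∀ x, p (p x) = x) ∧ ∀ x, p x ≠ x

/-- the partial pairing which is exposed before `x` (order given by `rk`) -/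
def expo (rk : α → ℕ) (p : Equiv.Perm α) (x : α) : α → α :=
  fun z => if min (rk z) (rk (p z)) < rk x then p z else z

open Classical in
/-- the set of close steps inside `A` -/
def closeSet (rk : α → ℕ) (close : (α → α) → α → α → Prop) (p : Equiv.Perm α)
    (A : Finset α) : Finset α :=
  A.filter fun x => rk x < rk (p x) ∧ close (expo rk p x) x (p x)

section PartI

variable [Fintype α] [DecidableEq α]

open Classical in
/-- the completions of a partial pairing `g` (defined outside `A`) with at least `m` close steps -/
def comps (rk : α → ℕ) (close : (α → α) → α → α → Prop) (A : Finset α) (g : α → α) (m : ℕ) :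
    Finset (Equiv.Perm α) :=
  univ.filter fun p => IsPairing p ∧ (∀ z, z ∉ A → p z = g z) ∧ m ≤ (closeSet rk close p A).card

theorem mem_comps {rk : α → ℕ} {close : (α → α) → α → α → Prop} {A : Finset α} {g : α → α}
    {m : ℕ} {p : Equiv.Perm α} : p ∈ comps rk close A g m ↔
      IsPairing p ∧ (∀ z, z ∉ A → p z = g z) ∧ m ≤ (closeSet rk close p A).card := by
  simp [comps]

theorem comps_anti (rk : α → ℕ) (close : (α → α) → α → α → Prop) (A : Finset α) (g : α → α)
    {m m' : ℕ} (h : m ≤ m') : comps rk close A g m' ⊆ comps rk close A g m := by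
  intro p hp
  rw [mem_comps] at hp ⊢
  exact ⟨hp.1, hp.2.1, h.trans hp.2.2⟩

omit [Fintype α] [DecidableEq α] in
theorem maps_of {A : Finset α} {g : α → α} (hgA : ∀ z, z ∉ A → g z ∉ A) {p : Equiv.Perm α}
    (hp : IsPairing p) (hpg : ∀ z, z ∉ A → p z = g z) : ∀ z ∈ A, p z ∈ A := by
  intro z hz
  by_contra hcon
  have h1 := hpg _ hcon
  rw [hp.1] at h1
  exact hgA _ hcon (h1 ▸ hz)

omit [Fintype α] in
theorem expo_min {rk : α → ℕ} {A : Finset α} {g : α → α} {x : α} (hx : x ∈ A)
    (hmin : ∀ a ∈ A, rk x ≤ rk a) (hg : ∀ z, z ∉ A → ∀ a ∈ A, min (rk z) (rk (g z)) < rk a)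
    (hgA : ∀ z, z ∉ A → g z ∉ A) {p : Equiv.Perm α}
    (hp : IsPairing p) (hpg : ∀ z, z ∉ A → p z = g z) :
    expo rk p x = fun z => if z ∈ A then z else g z := by
  funext z
  unfold expo
  by_cases hz : z ∈ A
  · have h1 : ¬ (min (rk z) (rk (p z)) < rk x) := by
      rw [not_lt]
      exact le_min (hmin z hz) (hmin _ (maps_of hgA hp hpg z hz))
    rw [if_neg h1, if_pos hz]
  · have h1 : min (rk z) (rk (p z)) < rk x := by
      rw [hpg z hz]; exact hg z hz x hx
    rw [if_pos h1, if_neg hz, hpg z hz]

open Classical in
/-- one exposure step -/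
theorem step_subset {rk : α → ℕ} {close : (α → α) → α → α → Prop}
    {A : Finset α} {g : α → α} {x y : α} (hx : x ∈ A) (hyx : y ≠ x)
    (hmin : ∀ a ∈ A, rk x ≤ rk a) (hg : ∀ z, z ∉ A → ∀ a ∈ A, min (rk z) (rk (g z)) < rk a)
    (hgA : ∀ z, z ∉ A → g z ∉ A) (m : ℕ) :
    (comps rk close A g m).filter (fun p => p x = y) ⊆
      comps rk close ((A.erase x).erase y) (Function.update (Function.update g x y) y x)
        (m - if close (fun z => if z ∈ A then z else g z) x y then 1 else 0) := by
  intro p hp
  rw [mem_filter, mem_comps] at hp
  obtain ⟨⟨hp1, hp2, hp3⟩, hxy⟩ := hp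
  have hpA := maps_of hgA hp1 hp2
  have hpy : p y = x := by rw [← hxy, hp1.1]
  have hexp := expo_min hx hmin hg hgA hp1 hp2
  have hyA : y ∈ A := hxy ▸ hpA x hx
  rw [mem_comps]
  refine ⟨hp1, ?_, ?_⟩
  · intro z hz
    by_cases hzy : z = y
    · subst hzy; simp [hpy]
    · by_cases hzx : z = x
      · subst hzx
        rw [Function.update_of_ne hzy, Function.update_self, hxy]
      · rw [Function.update_of_ne hzy, Function.update_of_ne hzx]
        apply hp2
        intro hzA
        exact hz (mem_erase.2 ⟨hzy, mem_erase.2 ⟨hzx, hzA⟩⟩)
  · -- count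
    have hsub : closeSet rk close p A ⊆ (closeSet rk close p ((A.erase x).erase y)) ∪
        (if close (fun z => if z ∈ A then z else g z) x y then {x} else ∅) := by
      intro z hz
      simp only [closeSet, mem_filter] at hz
      obtain ⟨hzA, hz1, hz2⟩ := hz
      by_cases hzx : z = x
      · subst hzx
        rw [hexp, hxy] at hz2
        rw [if_pos hz2]
        simp
      · have hzy : z ≠ y := by
          intro h
          subst h
          rw [hpy] at hz1
          exact absurd (hmin z hyA) (not_le.2 hz1)
        apply mem_union_left
        simp only [closeSet, mem_filter, mem_erase]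
        exact ⟨⟨hzy, hzx, hzA⟩, hz1, hz2⟩
    have h1 := card_le_card hsub
    have h2 := card_union_le (closeSet rk close p ((A.erase x).erase y))
        (if close (fun z => if z ∈ A then z else g z) x y then {x} else ∅)
    split_ifs at h1 h2 ⊢ with hc
    · simp only [card_singleton] at h2
      omega
    · simp only [card_empty] at h2
      omega

theorem comps_card {rk : α → ℕ} (hrk : Function.Injective rk)
    {close : (α → α) → α → α → Prop} {C : ℕ}
    (hC : ∀ (g : α → α) (x : α), Nat.card {y // close g x y} ≤ C) :
    ∀ (N : ℕ) (A : Finset α) (g : α → α) (m : ℕ), A.card = N →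
      (∀ z, z ∉ A → ∀ a ∈ A, min (rk z) (rk (g z)) < rk a) →
      (∀ z, z ∉ A → g z ∉ A) →
      (comps rk close A g m).card * m ! ≤ (N / 2).choose m * C ^ m * (N - 1)‼ := by
  classical
  intro N
  induction N using Nat.twoStepInduction with
  | zero =>
    intro A g m hA hg hgA
    have hA0 : A = ∅ := card_eq_zero.1 hA
    subst hA0
    rcases Nat.eq_zero_or_pos m with hm | hm
    · subst hm
      have h1 : (comps rk close ∅ g 0).card ≤ 1 := by
        rw [card_le_one]
        intro p hp q hq
        rw [mem_comps] at hp hq
        ext z
        rw [hp.2.1 z (by simp), hq.2.1 z (by simp)]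
      simpa using h1
    · have h1 : comps rk close ∅ g m = ∅ := by
        rw [eq_empty_iff_forall_notMem]
        intro p hp
        rw [mem_comps] at hp
        have := hp.2.2
        simp [closeSet] at this
        omega
      rw [h1]
      simp
  | one =>
    intro A g m hA hg hgA
    obtain ⟨x, hx⟩ := card_eq_one.1 hA
    have h1 : comps rk close A g m = ∅ := by
      rw [eq_empty_iff_forall_notMem]
      intro p hp
      rw [mem_comps] at hp
      have := maps_of hgA hp.1 hp.2.1 x (by simp [hx])
      rw [hx, mem_singleton] at this
      exact hp.1.2 x this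
    rw [h1]
    simp
  | more N ih _ =>
    intro A g m hA hg hgA
    have hne : A.Nonempty := by
      rw [← card_pos]; omega
    obtain ⟨x, hx, hmin⟩ := exists_min_image A rk hne
    have hcov : (comps rk close A g m).card =
        ∑ y ∈ A.erase x, ((comps rk close A g m).filter (fun p => p x = y)).card := by
      apply card_eq_sum_card_fiberwise
      intro p hp
      simp only [mem_coe] at hp ⊢
      rw [mem_comps] at hp
      exact mem_erase.2 ⟨hp.1.2 x, maps_of hgA hp.1 hp.2.1 x hx⟩
    have hcard : ∀ y ∈ A.erase x, ((A.erase x).erase y).card = N := by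
      intro y hy
      rw [card_erase_of_mem hy, card_erase_of_mem hx, hA]
      omega
    have hgn : ∀ y ∈ A.erase x, ∀ z, z ∉ (A.erase x).erase y → ∀ a ∈ (A.erase x).erase y,
        min (rk z) (rk (Function.update (Function.update g x y) y x z)) < rk a := by
      intro y hy z hz a ha
      have haA : a ∈ A := mem_of_mem_erase (mem_of_mem_erase ha)
      have hax : a ≠ x := (mem_erase.1 (mem_of_mem_erase ha)).1
      have hlt : rk x < rk a := lt_of_le_of_ne (hmin a haA) fun h => hax (hrk h).symm
      by_cases hzy : z = y
      · subst hzy
        rw [Function.update_self]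
        exact lt_of_le_of_lt (min_le_right _ _) hlt
      · by_cases hzx : z = x
        · subst hzx
          exact lt_of_le_of_lt (min_le_left _ _) hlt
        · rw [Function.update_of_ne hzy, Function.update_of_ne hzx]
          apply hg _ _ _ haA
          intro hzA
          exact hz (mem_erase.2 ⟨hzy, mem_erase.2 ⟨hzx, hzA⟩⟩)
    have hgAn : ∀ y ∈ A.erase x, ∀ z, z ∉ (A.erase x).erase y →
        Function.update (Function.update g x y) y x z ∉ (A.erase x).erase y := by
      intro y hy z hz
      by_cases hzy : z = y
      · subst hzy
        rw [Function.update_self]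
        simp
      · by_cases hzx : z = x
        · subst hzx
          rw [Function.update_of_ne hzy, Function.update_self]
          simp
        · rw [Function.update_of_ne hzy, Function.update_of_ne hzx]
          intro hcon
          have hzA : z ∉ A := fun hzA => hz (mem_erase.2 ⟨hzy, mem_erase.2 ⟨hzx, hzA⟩⟩)
          exact hgA z hzA (mem_of_mem_erase (mem_of_mem_erase hcon))
    have hfac : (N + 2 - 1)‼ = (N + 1) * (N - 1)‼ := by
      cases N with
      | zero => rfl
      | succ M =>
        show (M + 2)‼ = _
        rw [Nat.doubleFactorial_add_two]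
        rfl
    have hdiv : (N + 2) / 2 = N / 2 + 1 := by omega
    rw [hfac, hdiv]
    have hcardE : (A.erase x).card = N + 1 := by
      rw [card_erase_of_mem hx, hA]; omega
    rcases Nat.eq_zero_or_pos m with hm | hm
    · subst hm
      have h1 : ∀ y ∈ A.erase x, ((comps rk close A g 0).filter (fun p => p x = y)).card ≤
          (N - 1)‼ := by
        intro y hy
        have h2 := card_le_card (step_subset (close := close) hx (mem_erase.1 hy).1 hmin hg hgA 0)
        have h3 := ih ((A.erase x).erase y) (Function.update (Function.update g x y) y x) 0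
          (hcard y hy) (hgn y hy) (hgAn y hy)
        simp only [Nat.factorial_zero, mul_one, Nat.choose_zero_right, pow_zero, one_mul] at h3
        simp only [Nat.zero_sub] at h2
        exact h2.trans h3
      have h2 := sum_le_sum h1
      rw [← hcov, sum_const, hcardE, smul_eq_mul] at h2
      simpa using h2
    · obtain ⟨m, rfl⟩ : ∃ m', m = m' + 1 := ⟨m - 1, by omega⟩
      set B : Finset α := (A.erase x).filter (fun y => close (fun z => if z ∈ A then z else g z) x y)
        with hB
      have hBC : B.card ≤ C := by
        refine le_trans ?_ (hC (fun z => if z ∈ A then z else g z) x)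
        rw [Nat.card_eq_fintype_card, Fintype.card_subtype]
        apply card_le_card
        intro y hy
        simp only [hB, mem_filter] at hy
        simp [hy.2]
      have h1 : ∀ y ∈ A.erase x,
          ((comps rk close A g (m+1)).filter (fun p => p x = y)).card * (m+1)! ≤
          (if close (fun z => if z ∈ A then z else g z) x y then
            (m + 1) * ((N / 2).choose m * C ^ m * (N - 1)‼) else 0) +
          (N / 2).choose (m+1) * C ^ (m+1) * (N - 1)‼ := by
        intro y hy
        have h2 := card_le_card (step_subset (close := close) hx (mem_erase.1 hy).1 hmin hg hgA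
          (m+1))
        split_ifs at h2 ⊢ with hc
        · have h3 := ih ((A.erase x).erase y) (Function.update (Function.update g x y) y x) m
            (hcard y hy) (hgn y hy) (hgAn y hy)
          simp only [Nat.add_sub_cancel] at h2
          calc _ ≤ (comps rk close ((A.erase x).erase y)
                (Function.update (Function.update g x y) y x) m).card * (m+1)! :=
                  Nat.mul_le_mul_right _ h2
            _ = (m + 1) * ((comps rk close ((A.erase x).erase y)
                (Function.update (Function.update g x y) y x) m).card * m !) := by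
                  rw [Nat.factorial_succ]; ring
            _ ≤ (m + 1) * ((N / 2).choose m * C ^ m * (N - 1)‼) := Nat.mul_le_mul_left _ h3
            _ ≤ _ := Nat.le_add_right _ _
        · have h3 := ih ((A.erase x).erase y) (Function.update (Function.update g x y) y x) (m+1)
            (hcard y hy) (hgn y hy) (hgAn y hy)
          simp only [Nat.sub_zero] at h2
          rw [zero_add]
          exact (Nat.mul_le_mul_right _ h2).trans h3
      have h2 := sum_le_sum h1
      rw [← sum_mul, ← hcov, sum_add_distrib, sum_const, hcardE, smul_eq_mul,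
        ← sum_filter, ← hB, sum_const, smul_eq_mul] at h2
      refine h2.trans ?_
      have h3 : B.card * ((m + 1) * ((N / 2).choose m * C ^ m * (N - 1)‼)) ≤
          C * ((m + 1) * ((N / 2).choose m * C ^ m * (N - 1)‼)) := Nat.mul_le_mul_right _ hBC
      refine (Nat.add_le_add_right h3 _).trans ?_
      have h4 : (m + 1) * (N / 2).choose m ≤ (N + 1) * (N/2).choose m := by
        by_cases hmN : m ≤ N / 2
        · apply Nat.mul_le_mul_right
          omega
        · rw [Nat.choose_eq_zero_of_lt (by omega)]
          simp
      rw [Nat.choose_succ_succ]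
      calc C * ((m + 1) * ((N / 2).choose m * C ^ m * (N - 1)‼)) +
            (N + 1) * ((N / 2).choose (m + 1) * C ^ (m + 1) * (N - 1)‼)
          = ((m + 1) * (N / 2).choose m) * (C ^ (m+1) * (N - 1)‼) +
            (N + 1) * ((N / 2).choose (m + 1) * C ^ (m + 1) * (N - 1)‼) := by ring
        _ ≤ ((N + 1) * (N / 2).choose m) * (C ^ (m+1) * (N - 1)‼) +
            (N + 1) * ((N / 2).choose (m + 1) * C ^ (m + 1) * (N - 1)‼) :=
              Nat.add_le_add_right (Nat.mul_le_mul_right _ h4) _
        _ = _ := by ring

/-- PART I: number of pairings with at least `m` close steps. -/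
theorem closeCount_bound {rk : α → ℕ} (hrk : Function.Injective rk)
    {close : (α → α) → α → α → Prop} {C : ℕ}
    (hC : ∀ (g : α → α) (x : α), Nat.card {y // close g x y} ≤ C) (m : ℕ) :
    Nat.card {p : Equiv.Perm α // IsPairing p ∧ m ≤ (closeSet rk close p univ).card} * m ! ≤
      (Fintype.card α / 2).choose m * C ^ m * (Fintype.card α - 1)‼ := by
  classical
  have h := comps_card hrk hC (Fintype.card α) univ (fun z => z) m card_univ (by simp) (by simp)
  rw [Nat.card_eq_fintype_card, Fintype.card_subtype]
  refine le_trans (Nat.mul_le_mul_right _ (card_le_card ?_)) h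
  intro p hp
  simp only [mem_filter, mem_univ, true_and] at hp
  rw [mem_comps]
  exact ⟨hp.1, by simp, hp.2⟩

end PartI

end

end Crest.Agent.R166.TreeLike942
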