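import Crest.Agent.R166.Ports_269
import Crest.Agent.R166.Cyc_798

/-!
# R166, section 20: tree-likeness of edge balls in port numbered graphs (helper798)

`nd p h b w` = vertex of the two-sided edge ball of the directed edge `h` reached by the word `w`
on the side `b` (`b = false`: side of `(p h).1`, `b = true`: side of `h.1`).
`TreeE p L h` : the word map is injective on words with non-zero letters of length at most `L`.
Main result: the number of pairs `(p, h)` with `¬ TreeE p L h` is at most `C * #Ports`.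
-/

set_option autoImplicit false

open Finset

namespace Crest.Agent.R166.Tree798

open Crest.Agent.R166 Crest.Agent.R166.Sw798

variable {n d : ℕ} [NeZero d] {p : Equiv.Perm (HE n d)}

/-- all letters are non-zero -/
def NZ (w : List (Fin d)) : Prop := ∀ k ∈ w, k ≠ 0

omit [NeZero d] in
lemma NZ_append [NeZero d] {w w' : List (Fin d)} : NZ (w ++ w') ↔ NZ w ∧ NZ w' := by
  simp only [NZ, List.mem_append]
  constructor
  · intro h
    exact ⟨fun k hk => h k (Or.inl hk), fun k hk => h k (Or.inr hk)⟩
  · rintro ⟨h1, h2⟩ k (hk | hk)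
    · exact h1 k hk
    · exact h2 k hk

lemma NZ_take {w : List (Fin d)} (h : NZ w) (i : ℕ) : NZ (w.take i) :=
  fun k hk => h k (List.mem_of_mem_take hk)

/-- vertices of the walk -/
def vs (p : Equiv.Perm (HE n d)) (h : HE n d) (u : List (Fin d)) (j : ℕ) : Fin n :=
  (desc p h (u.take j)).1

lemma desc_take_succ (p : Equiv.Perm (HE n d)) (h : HE n d) (u : List (Fin d)) (j : ℕ)
    (hj : j < u.length) :
    desc p h (u.take (j + 1)) = child p (desc p h (u.take j)) u[j] := by
  rw [List.take_succ_eq_append_getElem hj, desc_append]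
  rfl

lemma vs_succ (h : HE n d) (u : List (Fin d)) (j : ℕ) (hj : j < u.length) :
    vs p h u (j + 1) = (p (desc p h (u.take j))).1 := by
  unfold vs
  rw [desc_take_succ p h u j hj]
  rfl

lemma vs_adj (hp : IsPort p) (h : HE n d) (u : List (Fin d)) (j : ℕ) (hj : j < u.length) :
    (graphOf p).Adj (vs p h u j) (vs p h u (j + 1)) := by
  rw [vs_succ h u j hj]
  exact hp.adj_half _

lemma vs_ne_one (hp : IsPort p) (h : HE n d) (u : List (Fin d)) (j : ℕ) (hj : j < u.length) :
    vs p h u j ≠ vs p h u (j + 1) := (vs_adj hp h u j hj).ne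

lemma vs_ne_two (hp : IsPort p) (h : HE n d) (u : List (Fin d)) (hu : NZ u) (j : ℕ)
    (hj : j + 1 < u.length) :
    vs p h u j ≠ vs p h u (j + 2) := by
  intro he
  have h1 : vs p h u (j + 2) = (p (desc p h (u.take (j + 1)))).1 := vs_succ h u (j + 1) hj
  have h2 := desc_take_succ p h u j (by omega)
  set g := desc p h (u.take j) with hg
  have h3 : (desc p h (u.take (j + 1))).1 = (p g).1 := by rw [h2]; rfl
  have h4 : (p (desc p h (u.take (j + 1)))).1 = (p (p g)).1 := by
    rw [← h1, ← he, hp.inv]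
    rfl
  have h5 := hp.fst_inj h3 h4
  rw [h2] at h5
  have h6 : u[j] = 0 := (rot_eq_iff _ _).1 h5
  exact hu _ (List.getElem_mem _) h6

/-- a nonbacktracking walk which visits a vertex twice contains a cycle -/
theorem walk_cycle (hp : IsPort p) (h : HE n d) (u : List (Fin d)) (hu : NZ u) {i j : ℕ}
    (hij : i < j) (hj : j ≤ u.length) (he : vs p h u i = vs p h u j) :
    ∃ i m : ℕ, i + (m + 3) ≤ u.length ∧ ∃ c ∈ cycs (graphOf p) (m + 3), c 0 = vs p h u i := by
  classical
  have hex : ∃ t, 0 < t ∧ ∃ i, i + t ≤ u.length ∧ vs p h u i = vs p h u (i + t) :=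
    ⟨j - i, by omega, i, by omega, by rw [he]; congr 1; omega⟩
  set t := Nat.find hex with ht
  obtain ⟨htpos, i0, hi0, hv⟩ := Nat.find_spec hex
  have hmin : ∀ s, s < t → ¬ (0 < s ∧ ∃ i, i + s ≤ u.length ∧ vs p h u i = vs p h u (i + s)) :=
    fun s hs => Nat.find_min hex hs
  rw [← ht] at htpos hi0 hv
  have h1 : t ≠ 1 := by
    intro h1
    rw [h1] at hv hi0
    exact vs_ne_one hp h u i0 (by omega) hv
  have h2 : t ≠ 2 := by
    intro h2
    rw [h2] at hv hi0
    exact vs_ne_two hp h u hu i0 (by omega) hv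
  obtain ⟨m, hm⟩ : ∃ m, t = m + 3 := ⟨t - 3, by omega⟩
  rw [hm] at hi0 hv hmin
  refine ⟨i0, m, hi0, fun s : Fin (m + 3) => vs p h u (i0 + s), ?_, by simp⟩
  rw [mem_cycs]
  constructor
  · intro s s' hss
    by_contra hne
    rcases lt_or_gt_of_ne (fun h => hne (Fin.ext h) : (s : ℕ) ≠ s') with hlt | hlt
    · apply hmin (s' - s) (by omega)
      refine ⟨by omega, i0 + s, by omega, ?_⟩
      simp only at hss
      rw [hss]; congr 1; omega
    · apply hmin (s - s') (by omega)
      refine ⟨by omega, i0 + s', by omega, ?_⟩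
      simp only at hss
      rw [← hss]; congr 1; omega
  · intro s
    by_cases hs : (s : ℕ) + 1 < m + 3
    · have : ((s + 1 : Fin (m + 3)) : ℕ) = s + 1 := by
        rw [Fin.val_add, Fin.val_one']
        rw [Nat.mod_eq_of_lt (show 1 < m + 3 by omega), Nat.mod_eq_of_lt hs]
      simp only [this]
      exact vs_adj hp h u (i0 + s) (by omega)
    · have hs' : (s : ℕ) = m + 2 := by omega
      have : ((s + 1 : Fin (m + 3)) : ℕ) = 0 := by
        rw [Fin.val_add, Fin.val_one', hs']
        rw [Nat.mod_eq_of_lt (show 1 < m + 3 by omega)]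
        simp
      simp only [this, hs', add_zero]
      rw [hv]
      exact vs_adj hp h u (i0 + (m + 2)) (by omega)

/-! ### reversing words -/

/-- the reversed word -/
def rv (w : List (Fin d)) : List (Fin d) := (w.map fun k => -k).reverse

omit [NeZero d] in
lemma rv_length [NeZero d] (w : List (Fin d)) : (rv w).length = w.length := by simp [rv]

lemma NZ_rv {w : List (Fin d)} (h : NZ w) : NZ (rv w) := by
  intro k hk
  simp only [rv, List.mem_reverse, List.mem_map] at hk
  obtain ⟨a, ha, rfl⟩ := hk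
  exact neg_ne_zero.2 (h a ha)

lemma child_rev (hp : IsPort p) (h : HE n d) (k l : Fin d) :
    child p (p (child p h k)) (l - k) = child p h l := by
  unfold child
  rw [hp.inv, rot_rot]
  congr 1
  abel

lemma rev_desc (hp : IsPort p) (w : List (Fin d)) (h : HE n d) :
    desc p (p (desc p h w)) (rv w) = p h := by
  induction w generalizing h with
  | nil => rfl
  | cons k w ih =>
    have : rv (k :: w) = rv w ++ [-k] := by simp [rv]
    rw [this, desc_append]
    show child p (desc p (p (desc p (child p h k) w)) (rv w)) (-k) = p h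
    rw [ih]
    have h1 := child_rev hp h k 0
    rw [zero_sub] at h1
    rw [h1]
    simp [child]

/-! ### edge balls -/

/-- the two orientations -/
def hb (p : Equiv.Perm (HE n d)) (b : Bool) (h : HE n d) : HE n d := if b then p h else h

omit [NeZero d] in
lemma hb_injective (p : Equiv.Perm (HE n d)) (b : Bool) : Function.Injective (hb p b) := by
  cases b
  · exact fun _ _ e => e
  · exact fun _ _ e => p.injective e

omit [NeZero d] in
lemma hb_ne (hp : IsPort p) {b b' : Bool} (hbb : b ≠ b') (h : HE n d) :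
    hb p b' h = p (hb p b h) := by
  cases b <;> cases b' <;> simp_all [hb, hp.inv]

/-- the vertices of the edge ball -/
def nd (p : Equiv.Perm (HE n d)) (h : HE n d) (b : Bool) (w : List (Fin d)) : Fin n :=
  (p (desc p (hb p b h) w)).1

/-- the edge ball of radius `L` is a tree -/
def TreeE (p : Equiv.Perm (HE n d)) (L : ℕ) (h : HE n d) : Prop :=
  ∀ b w b' w', NZ w → NZ w' → w.length ≤ L → w'.length ≤ L →
    nd p h b w = nd p h b' w' → b = b' ∧ w = w'

lemma TreeE.mono {L L' : ℕ} (hL : L ≤ L') {h : HE n d} (hT : TreeE p L' h) : TreeE p L h :=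
  fun b w b' w' h1 h2 h3 h4 h5 => hT b w b' w' h1 h2 (h3.trans hL) (h4.trans hL) h5

lemma split_words {α : Type*} (w w' : List α) (h : w ≠ w') :
    ∃ c a a', w = c ++ a ∧ w' = c ++ a' ∧
      ((a = [] ∧ a' ≠ []) ∨ (a' = [] ∧ a ≠ []) ∨
        ∃ x u y u', a = x :: u ∧ a' = y :: u' ∧ x ≠ y) := by
  classical
  induction w generalizing w' with
  | nil => exact ⟨[], [], w', rfl, rfl, Or.inl ⟨rfl, fun e => h e.symm⟩⟩
  | cons x w ih =>
    cases w' with
    | nil => exact ⟨[], x :: w, [], rfl, rfl, Or.inr (Or.inl ⟨rfl, by simp⟩)⟩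
    | cons y w' =>
      by_cases hxy : x = y
      · subst hxy
        obtain ⟨c, a, a', h1, h2, h3⟩ := ih w' (fun e => h (by rw [e]))
        exact ⟨x :: c, a, a', by rw [h1]; rfl, by rw [h2]; rfl, h3⟩
      · exact ⟨[], x :: w, y :: w', rfl, rfl, Or.inr (Or.inr ⟨x, w, y, w', rfl, rfl, hxy⟩)⟩

/-- if the edge ball is not a tree there is a short cycle at a bounded distance -/
theorem exists_cycle (hd : 2 ≤ d) (hp : IsPort p) {L : ℕ} {h : HE n d} (hT : ¬ TreeE p L h) :
    ∃ b b2 : Bool, ∃ c w2 : List (Fin d), c.length ≤ L ∧ w2.length ≤ 2 * L + 1 ∧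
      ∃ m, m ≤ 2 * L ∧ ∃ y ∈ cycs (graphOf p) (m + 3),
        y 0 = (desc p (hb p b2 (desc p (hb p b h) c)) w2).1 := by
  have h1ne : (1 : Fin d) ≠ 0 := by
    intro h
    have := congrArg Fin.val h
    rw [Fin.val_one', Nat.mod_eq_of_lt (by omega)] at this
    simp at this
  -- general conclusion from a walk
  have key : ∀ (b b2 : Bool) (c u : List (Fin d)) (i j : ℕ), c.length ≤ L →
      u.length ≤ 2 * L + 1 → NZ u → i < j → j ≤ u.length →
      vs p (hb p b2 (desc p (hb p b h) c)) u i = vs p (hb p b2 (desc p (hb p b h) c)) u j →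
      ∃ b b2 : Bool, ∃ c w2 : List (Fin d), c.length ≤ L ∧ w2.length ≤ 2 * L + 1 ∧
      ∃ m, m ≤ 2 * L ∧ ∃ y ∈ cycs (graphOf p) (m + 3),
        y 0 = (desc p (hb p b2 (desc p (hb p b h) c)) w2).1 := by
    intro b b2 c u i j hc hu hnz hij hj he
    obtain ⟨i', m, him, y, hy, hy0⟩ := walk_cycle hp _ u hnz hij hj he
    refine ⟨b, b2, c, u.take i', hc, ?_, m, by omega, y, hy, hy0⟩
    rw [List.length_take]
    omega
  -- the last vertex
  have hlast : ∀ (g : HE n d) (u : List (Fin d)),
      vs p g (u ++ [1]) (u.length + 1) = (p (desc p g u)).1 := by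
    intro g u
    rw [vs_succ _ _ _ (by simp)]
    congr 3
    simp
  have hnz1 : NZ ([1] : List (Fin d)) := by
    intro k hk
    simp only [List.mem_singleton] at hk
    rw [hk]
    exact h1ne
  unfold TreeE at hT
  push Not at hT
  obtain ⟨b, w, b', w', hw, hw', hl, hl', hnd, hne⟩ := hT
  unfold nd at hnd
  by_cases hbb : b = b'
  · subst hbb
    obtain ⟨c, a, a', rfl, rfl, hc⟩ := split_words w w' (hne rfl)
    rw [NZ_append] at hw hw'
    rw [List.length_append] at hl hl'
    rw [desc_append, desc_append] at hnd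
    rcases hc with ⟨rfl, ha⟩ | ⟨rfl, ha⟩ | ⟨x, u, y, u', rfl, rfl, hxy⟩
    · -- w prefix of w'
      have hpos : 0 < a'.length := List.length_pos_iff.2 ha
      refine key b false c (a' ++ [1]) 1 (a'.length + 1) (by omega) (by simp; omega)
        (NZ_append.2 ⟨hw'.2, hnz1⟩) (by omega) (by simp) ?_
      rw [hlast]
      rw [vs_succ _ _ _ (by simp)]
      simpa [hb] using hnd
    · have hpos : 0 < a.length := List.length_pos_iff.2 ha
      refine key b false c (a ++ [1]) 1 (a.length + 1) (by omega) (by simp; omega)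
        (NZ_append.2 ⟨hw.2, hnz1⟩) (by omega) (by simp) ?_
      rw [hlast]
      rw [vs_succ _ _ _ (by simp)]
      simpa [hb] using hnd.symm
    · -- turn at the last common ancestor
      have hx : NZ u ∧ NZ u' := ⟨fun k hk => hw.2 k (List.mem_cons_of_mem _ hk),
        fun k hk => hw'.2 k (List.mem_cons_of_mem _ hk)⟩
      have hnyx : NZ ([y - x] : List (Fin d)) := by
        intro k hk
        simp only [List.mem_singleton] at hk
        rw [hk]
        exact sub_ne_zero.2 (Ne.symm hxy)
      simp only [List.length_cons] at hl hl'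
      have e0 : hb p true (desc p (hb p b h) (c ++ x :: u))
          = p (desc p (desc p (hb p b h) c) (x :: u)) := by
        rw [desc_append]; rfl
      refine key b true (c ++ x :: u) ((rv u ++ [y - x] ++ u') ++ [1]) 0
        ((rv u ++ [y - x] ++ u').length + 1) (by simp; omega) (by simp [rv_length]; omega)
        (NZ_append.2 ⟨NZ_append.2 ⟨NZ_append.2 ⟨NZ_rv hx.1, hnyx⟩, hx.2⟩, hnz1⟩) (by omega)
        (by simp) ?_
      rw [hlast, e0]
      have e1 : desc p (p (desc p (desc p (hb p b h) c) (x :: u))) (rv u ++ [y - x] ++ u')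
          = desc p (desc p (hb p b h) c) (y :: u') := by
        rw [desc_append, desc_append]
        show desc p (child p (desc p (p (desc p (child p (desc p (hb p b h) c) x) u)) (rv u))
          (y - x)) u' = desc p (child p (desc p (hb p b h) c) y) u'
        rw [rev_desc hp, child_rev hp]
      rw [e1]
      exact hnd
  · have hb' := hb_ne hp hbb h
    refine key b true w ((rv w ++ w') ++ [1]) 0 ((rv w ++ w').length + 1) hl
      (by simp [rv_length]; omega)
      (NZ_append.2 ⟨NZ_append.2 ⟨NZ_rv hw, hw'⟩, hnz1⟩) (by omega) (by simp) ?_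
    rw [hlast]
    have e1 : desc p (hb p true (desc p (hb p b h) w)) (rv w ++ w')
          = desc p (hb p b' h) w' := by
      rw [desc_append]
      show desc p (desc p (p (desc p (hb p b h) w)) (rv w)) w' = _
      rw [rev_desc hp, hb']
    rw [e1]
    exact hnd

/-! ### counting -/

omit [NeZero d] in
/-- words of length at most `m` -/
noncomputable def WL (d m : ℕ) : Finset (List (Fin d)) := (List.finite_length_le (Fin d) m).toFinset

omit [NeZero d] in
lemma mem_WL {m : ℕ} {w : List (Fin d)} : w ∈ WL d m ↔ w.length ≤ m := by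
  simp [WL]

omit [NeZero d] in
/-- half-edges at a vertex of a short cycle -/
noncomputable def nearC (p : Equiv.Perm (HE n d)) (M : ℕ) : Finset (HE n d) := by
  classical exact Finset.univ.filter fun g => ∃ m, m ≤ M ∧ ∃ y ∈ cycs (graphOf p) (m + 3), y 0 = g.1

omit [NeZero d] in
lemma card_nearC (p : Equiv.Perm (HE n d)) (M : ℕ) :
    (nearC p M).card ≤ d * ∑ m ∈ Finset.range (M + 1), (cycs (graphOf p) (m + 3)).card := by
  classical
  have hsub : nearC p M ⊆ (Finset.range (M + 1)).biUnion fun m =>
      ((cycs (graphOf p) (m + 3)) ×ˢ (Finset.univ : Finset (Fin d))).image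
        fun x => ((x.1 0, x.2) : HE n d) := by
    rintro ⟨v, i⟩ hg
    simp only [nearC, Finset.mem_filter, Finset.mem_univ, true_and] at hg
    obtain ⟨m, hm, y, hy, hy0⟩ := hg
    simp only [Finset.mem_biUnion, Finset.mem_range, Finset.mem_image, Finset.mem_product,
      Finset.mem_univ, and_true, Prod.exists, Prod.mk.injEq]
    exact ⟨m, by omega, y, i, hy, hy0, rfl⟩
  refine (Finset.card_le_card hsub).trans (Finset.card_biUnion_le.trans ?_)
  rw [Finset.mul_sum]
  refine Finset.sum_le_sum fun m _ => ?_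
  refine Finset.card_image_le.trans ?_
  rw [Finset.card_product, Finset.card_univ, Fintype.card_fin, mul_comm]

/-- half-edges whose edge ball is not a tree -/
noncomputable def notT (p : Equiv.Perm (HE n d)) (L : ℕ) : Finset (HE n d) := by
  classical exact Finset.univ.filter fun h => ¬ TreeE p L h

lemma card_notT (hd : 2 ≤ d) (hp : IsPort p) (L : ℕ) :
    (notT p L).card ≤ 4 * (WL d L).card * (WL d (2 * L + 1)).card * (nearC p (2 * L)).card := by
  classical
  set I : Finset (Bool × Bool × List (Fin d) × List (Fin d)) :=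
    (Finset.univ : Finset Bool) ×ˢ (Finset.univ : Finset Bool) ×ˢ (WL d L) ×ˢ (WL d (2 * L + 1))
    with hI
  set ψ : Bool × Bool × List (Fin d) × List (Fin d) → HE n d → HE n d :=
    fun x h => desc p (hb p x.2.1 (desc p (hb p x.1 h) x.2.2.1)) x.2.2.2 with hψ
  have hψi : ∀ x, Function.Injective (ψ x) := by
    intro x a b hab
    exact hb_injective p _ (desc_injective p _ (hb_injective p _ (desc_injective p _ hab)))
  have hsub : notT p L ⊆ I.biUnion fun x => Finset.univ.filter fun h => ψ x h ∈ nearC p (2 * L) := by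
    intro h hh
    simp only [notT, Finset.mem_filter, Finset.mem_univ, true_and] at hh
    obtain ⟨b, b2, c, w2, hc, hw2, m, hm, y, hy, hy0⟩ := exists_cycle hd hp hh
    simp only [Finset.mem_biUnion, Finset.mem_filter, Finset.mem_univ, true_and]
    refine ⟨(b, b2, c, w2), ?_, ?_⟩
    · simp only [hI, Finset.mem_product, Finset.mem_univ, true_and, mem_WL]
      exact ⟨hc, hw2⟩
    · simp only [nearC, Finset.mem_filter, Finset.mem_univ, true_and]
      exact ⟨m, hm, y, hy, hy0⟩
  refine (Finset.card_le_card hsub).trans (Finset.card_biUnion_le.trans ?_)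
  have hle : ∀ x ∈ I, (Finset.univ.filter fun h => ψ x h ∈ nearC p (2 * L)).card
      ≤ (nearC p (2 * L)).card := by
    intro x _
    refine Finset.card_le_card_of_injOn (ψ x) ?_ ((hψi x).injOn)
    intro h hh
    simpa using hh
  refine (Finset.sum_le_card_nsmul _ _ _ hle).trans ?_
  rw [smul_eq_mul, hI]
  simp only [Finset.card_product, Finset.card_univ, Fintype.card_bool]
  apply le_of_eq
  ring

omit [NeZero d] in
/-- the constant -/
noncomputable def CT (d L : ℕ) : ℝ :=
  4 * (WL d L).card * (WL d (2 * L + 1)).card *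
    (d * ∑ m ∈ Finset.range (2 * L + 1), (6 * d + 8 + 4 * (m + 3 : ℕ) : ℝ) ^ (m + 3))

omit [NeZero d] in
lemma sum_card_nearC_le (hd : 1 ≤ d) (M : ℕ) :
    (∑ p ∈ Ports n d, ((nearC p M).card : ℝ)) ≤
      (d * ∑ m ∈ Finset.range (M + 1), (6 * d + 8 + 4 * (m + 3 : ℕ) : ℝ) ^ (m + 3)) *
        (Ports n d).card := by
  have h1 : (∑ p ∈ Ports n d, ((nearC p M).card : ℝ)) ≤
      ∑ p ∈ Ports n d, (d : ℝ) * ∑ m ∈ Finset.range (M + 1),
        ((cycs (graphOf p) (m + 3)).card : ℝ) := by
    refine Finset.sum_le_sum fun p _ => ?_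
    exact_mod_cast card_nearC p M
  refine h1.trans ?_
  rw [← Finset.mul_sum, Finset.sum_comm, mul_assoc]
  refine mul_le_mul_of_nonneg_left ?_ (Nat.cast_nonneg d)
  rw [Finset.sum_mul]
  refine Finset.sum_le_sum fun m _ => ?_
  rw [sum_Ports (fun G => ((cycs G (m + 3)).card : ℝ)), card_Ports, nsmul_eq_mul, Nat.cast_mul,
    ← mul_assoc, mul_comm _ ((Nat.factorial d ^ n : ℕ) : ℝ), mul_assoc]
  refine mul_le_mul_of_nonneg_left ?_ (Nat.cast_nonneg _)
  have := sum_card_cycs_le (V := Fin n) hd (m + 3) (by omega)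
  rw [regularGraphs_eq]
  exact this

/-- **tree-likeness**: the expected number of half-edges whose edge ball of radius `L` is not a
tree is bounded uniformly in `n` -/
theorem sum_card_notT_le (hd : 2 ≤ d) (L : ℕ) :
    (∑ p ∈ Ports n d, ((notT p L).card : ℝ)) ≤ CT d L * (Ports n d).card := by
  have h1 : (∑ p ∈ Ports n d, ((notT p L).card : ℝ)) ≤
      ∑ p ∈ Ports n d, (4 * (WL d L).card * (WL d (2 * L + 1)).card : ℝ) *
        ((nearC p (2 * L)).card : ℝ) := by
    refine Finset.sum_le_sum fun p hp => ?_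
    exact_mod_cast card_notT hd (mem_Ports.1 hp) L
  refine h1.trans ?_
  have h2 := sum_card_nearC_le (n := n) (d := d) (by omega) (2 * L)
  have h3 : (0 : ℝ) ≤ 4 * (WL d L).card * (WL d (2 * L + 1)).card := by positivity
  have h4 := mul_le_mul_of_nonneg_left h2 h3
  rw [← Finset.mul_sum, CT, mul_assoc (4 * ((WL d L).card : ℝ) * ((WL d (2 * L + 1)).card : ℝ))]
  exact h4

omit [NeZero d] in
lemma CT_nonneg (d L : ℕ) : 0 ≤ CT d L := by
  unfold CT
  positivity

/-- Markov: except for a fraction `CT / a` of the port numbered graphs, at most `a` half-edges are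
not tree-like -/
theorem card_notT_markov (hd : 2 ≤ d) (L : ℕ) {a : ℝ} (ha : 0 < a) :
    (((Ports n d).filter fun p => a ≤ ((notT p L).card : ℝ)).card : ℝ) ≤
      CT d L / a * (Ports n d).card := by
  have h := sum_card_notT_le (n := n) hd L
  have h2 : a * (((Ports n d).filter fun p => a ≤ ((notT p L).card : ℝ)).card : ℝ) ≤
      ∑ p ∈ Ports n d, ((notT p L).card : ℝ) := by
    have h3 : a * (((Ports n d).filter fun p => a ≤ ((notT p L).card : ℝ)).card : ℝ) ≤
        ∑ p ∈ (Ports n d).filter (fun p => a ≤ ((notT p L).card : ℝ)), ((notT p L).card : ℝ) := by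
      rw [mul_comm, ← nsmul_eq_mul]
      exact Finset.card_nsmul_le_sum _ _ _ fun p hp => (Finset.mem_filter.1 hp).2
    refine h3.trans (Finset.sum_le_sum_of_subset_of_nonneg (Finset.filter_subset _ _) ?_)
    intro p _ _
    positivity
  have h4 := h2.trans h
  rw [div_mul_eq_mul_div, le_div_iff₀ ha]
  linarith

end Crest.Agent.R166.Tree798
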