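import Crest.Agent.R166.Tweedie_487

/-!
Row 166, section 42 (helper487).  Lemma T in random-variable form, with the whitening matrix.
-/

set_option autoImplicit false
set_option linter.unusedSectionVars false
set_option linter.unusedVariables false

namespace Crest.Agent.R166.Tweedie487

open MeasureTheory ProbabilityTheory

variable {ι : Type*} [Fintype ι] {α β Ω : Type*} [MeasurableSpace α] [MeasurableSpace β]
  [MeasurableSpace Ω] {P : Measure Ω} [IsProbabilityMeasure P]

/-- whitened form (`B = 1`). -/
theorem tweedie_rv_one [StandardBorelSpace β] [Nonempty β]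
    {U : Ω → α} {X : Ω → (ι → ℝ)} {I : Ω → β} {N : Ω → (ι → ℝ)}
    (hU : Measurable U) (hX : Measurable X) (hI : Measurable I) (hN : Measurable N)
    (hlaw : P.map (fun x => ((U x, (X x, I x)), N x)) =
      (P.map fun x => (U x, (X x, I x))).prod (gs ι))
    {w : β → ℝ} (hw : Measurable w) (C : ℝ) (hC : 0 ≤ C)
    (hwC : ∀ i, |w i| ≤ C) {G : α × (ι → ℝ) → ℝ} (hG : Measurable G) (hGC : ∀ y, |G y| ≤ C)
    (H0 : ∀ b : α × (ι → ℝ) → ℝ, Measurable b → (∀ y, |b y| ≤ 1) →
      ∫ x, (w (I x) - G (U x, X x + N x)) * b (U x, X x + N x) ∂P = 0)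
    (H1 : ∀ j, ∀ b : α × (ι → ℝ) → ℝ, Measurable b → (∀ y, |b y| ≤ 1) →
      ∫ x, N x j * ((w (I x) - G (U x, X x + N x)) * b (U x, X x + N x)) ∂P = 0) :
    ∃ wb : α → ℝ, Measurable wb ∧ (∀ a, |wb a| ≤ C) ∧ ∀ᵐ x ∂P, G (U x, X x + N x) = wb (U x) := by
  have hXI : Measurable fun x => (X x, I x) := hX.prodMk hI
  have hV : Measurable fun x => (U x, (X x, I x)) := hU.prodMk hXI
  have hT : Measurable fun x => ((U x, (X x, I x)), N x) := hV.prodMk hN
  set κ : Kernel α ((ι → ℝ) × β) := condDistrib (fun x => (X x, I x)) U P with hκ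
  have hcomp : (P.map U) ⊗ₘ κ = P.map (fun x => (U x, (X x, I x))) :=
    compProd_map_condDistrib hXI.aemeasurable
  have : IsProbabilityMeasure (P.map U) := Measure.isProbabilityMeasure_map hU.aemeasurable
  have hfull : ((P.map U) ⊗ₘ κ).prod (gs ι) = P.map (fun x => ((U x, (X x, I x)), N x)) := by
    rw [hcomp, hlaw]
  have eY : Measurable fun r : (α × ((ι → ℝ) × β)) × (ι → ℝ) => (r.1.1, r.1.2.1 + r.2) := by
    refine (measurable_fst.comp measurable_fst).prodMk ?_
    exact (measurable_fst.comp (measurable_snd.comp measurable_fst)).add measurable_snd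
  have ewI : Measurable fun r : (α × ((ι → ℝ) × β)) × (ι → ℝ) => w r.1.2.2 :=
    hw.comp (measurable_snd.comp (measurable_snd.comp measurable_fst))
  have main := tweedie_joint (P := P.map U) (κ := κ) hw C hC hwC hG hGC (by
      intro b hb hb1
      have hm : Measurable fun r : (α × ((ι → ℝ) × β)) × (ι → ℝ) =>
        (w r.1.2.2 - G (r.1.1, r.1.2.1 + r.2)) * b (r.1.1, r.1.2.1 + r.2) :=
        (ewI.sub (hG.comp eY)).mul (hb.comp eY)
      rw [hfull, integral_map hT.aemeasurable hm.aestronglyMeasurable]
      exact H0 b hb hb1) (by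
      intro j b hb hb1
      have hm : Measurable fun r : (α × ((ι → ℝ) × β)) × (ι → ℝ) =>
        r.2 j * ((w r.1.2.2 - G (r.1.1, r.1.2.1 + r.2)) * b (r.1.1, r.1.2.1 + r.2)) :=
        ((measurable_pi_apply j).comp measurable_snd).mul
          ((ewI.sub (hG.comp eY)).mul (hb.comp eY))
      rw [hfull, integral_map hT.aemeasurable hm.aestronglyMeasurable]
      exact H1 j b hb hb1)
  have hwbm : Measurable fun a : α => ∫ q, w q.2 ∂(κ a) := by
    have h1 : StronglyMeasurable (Function.uncurry fun (r : α) (q : (ι → ℝ) × β) => w q.2) :=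
      Measurable.stronglyMeasurable (hw.comp (measurable_snd.comp measurable_snd))
    exact (h1.integral_kernel_prod_right (κ := κ)).measurable
  refine ⟨fun a => ∫ q, w q.2 ∂(κ a), hwbm, ?_, ?_⟩
  · intro a
    have := norm_integral_le_of_norm_le_const (μ := κ a) (f := fun q : (ι → ℝ) × β => w q.2)
      (C := C) (Filter.Eventually.of_forall fun q => by
        rw [Real.norm_eq_abs]; exact hwC _)
    simpa using this
  · -- the law of `(U, Y)` is absolutely continuous
    set A : Set (α × (ι → ℝ)) := {t | G t ≠ ∫ q, w q.2 ∂(κ t.1)} with hA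
    have hAm : MeasurableSet A :=
      (measurableSet_eq_fun hG (hwbm.comp measurable_fst)).compl
    have hA0 : ((P.map U).prod (volume : Measure (ι → ℝ))) A = 0 := by
      rw [hA]
      exact main
    classical
    have hb : Measurable (A.indicator fun _ => (1 : ℝ)) := measurable_const.indicator hAm
    have hb1 : ∀ y, |A.indicator (fun _ => (1 : ℝ)) y| ≤ 1 := by
      intro y
      by_cases hy : y ∈ A <;> simp [Set.indicator, hy]
    have hph1 : (fun z : ι → ℝ => (1 : ℝ) * ph z) = ph := by ext z; ring
    obtain ⟨_, f1⟩ := fubini_joint (P := P.map U) (κ := κ) (w := fun _ => (1 : ℝ))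
      measurable_const 1 zero_le_one (by simp) (k := fun _ => 1) continuous_const
      (by rw [hph1]; exact continuous_ph) (by rw [hph1]; exact integrable_ph) hb 1 hb1
    have f2 : ∫ t, A.indicator (fun _ => (1 : ℝ)) t * smk κ (fun _ => 1) (fun z => 1 * ph z) t
        ∂((P.map U).prod (volume : Measure (ι → ℝ))) = 0 := by
      apply integral_eq_zero_of_ae
      have : ∀ᵐ t ∂((P.map U).prod (volume : Measure (ι → ℝ))), t ∉ A := by
        rw [ae_iff]
        simpa using hA0
      filter_upwards [this] with t ht
      simp [Set.indicator, ht]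
    rw [f2, mul_zero, hfull, integral_map hT.aemeasurable] at f1
    · have f3 : ∫ x, A.indicator (fun _ => (1 : ℝ)) (U x, X x + N x) ∂P = 0 := by
        simpa using f1
      have f4 := (integral_eq_zero_iff_of_nonneg_ae (Filter.Eventually.of_forall fun x =>
        Set.indicator_nonneg (fun _ _ => zero_le_one) _) ?_).1 f3
      · filter_upwards [f4] with x hx
        by_contra hne
        have : (U x, X x + N x) ∈ A := hne
        simp [Set.indicator, this] at hx
      · refine Integrable.mono' (integrable_const (1 : ℝ)) ?_ ?_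
        · exact (hb.comp (hU.prodMk (hX.add hN))).aestronglyMeasurable
        · exact Filter.Eventually.of_forall fun x => by
            rw [Real.norm_eq_abs]; exact hb1 _
    · exact ((measurable_const.mul measurable_const).mul (hb.comp eY)).aestronglyMeasurable

open Matrix in
/-- **Lemma T** in random-variable form: `Y = X + B(U) N`, `N` standard Gaussian independent of
`(U, X, I)`, `B(U)` invertible.  If `E[(w(I) - G(U,Y)) b(U,Y)] = 0` and
`E[(B(U)N)_j (w(I) - G(U,Y)) b(U,Y)] = 0` for all bounded measurable `b`, then `G(U,Y)` is a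
function of `U`. -/
theorem tweedie_rv [DecidableEq ι] [StandardBorelSpace β] [Nonempty β]
    {U : Ω → α} {X : Ω → (ι → ℝ)} {I : Ω → β} {N : Ω → (ι → ℝ)}
    (hU : Measurable U) (hX : Measurable X) (hI : Measurable I) (hN : Measurable N)
    (hlaw : P.map (fun x => ((U x, (X x, I x)), N x)) =
      (P.map fun x => (U x, (X x, I x))).prod (gs ι))
    {B Binv : α → Matrix ι ι ℝ} (hB : ∀ k l, Measurable fun a => B a k l)
    (hBi : ∀ k l, Measurable fun a => Binv a k l)
    (hinv : ∀ᵐ x ∂P, Binv (U x) * B (U x) = 1)
    {w : β → ℝ} (hw : Measurable w) (C : ℝ) (hC : 0 ≤ C)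
    (hwC : ∀ i, |w i| ≤ C) {G : α × (ι → ℝ) → ℝ} (hG : Measurable G) (hGC : ∀ y, |G y| ≤ C)
    (H0 : ∀ b : α × (ι → ℝ) → ℝ, Measurable b → (∀ y, |b y| ≤ 1) →
      ∫ x, (w (I x) - G (U x, X x + B (U x) *ᵥ N x)) * b (U x, X x + B (U x) *ᵥ N x) ∂P = 0)
    (H1 : ∀ j, ∀ b : α × (ι → ℝ) → ℝ, Measurable b → (∀ y, |b y| ≤ 1) →
      ∫ x, (B (U x) *ᵥ N x) j * ((w (I x) - G (U x, X x + B (U x) *ᵥ N x)) *
        b (U x, X x + B (U x) *ᵥ N x)) ∂P = 0) :
    ∃ wb : α → ℝ, Measurable wb ∧ (∀ a, |wb a| ≤ C) ∧
      ∀ᵐ x ∂P, G (U x, X x + B (U x) *ᵥ N x) = wb (U x) := by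
  have hmv : ∀ {A : α → Matrix ι ι ℝ}, (∀ k l, Measurable fun a => A a k l) →
      ∀ {V : Ω → (ι → ℝ)}, Measurable V → Measurable fun x => A (U x) *ᵥ V x := by
    intro A hA V hV
    refine measurable_pi_lambda _ fun k => ?_
    simp only [Matrix.mulVec, dotProduct]
    exact Finset.measurable_sum _ fun l _ =>
      ((hA k l).comp hU).mul ((measurable_pi_apply l).comp hV)
  have hmv' : ∀ {A : α → Matrix ι ι ℝ}, (∀ k l, Measurable fun a => A a k l) →
      Measurable fun t : α × (ι → ℝ) => (t.1, A t.1 *ᵥ t.2) := by
    intro A hA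
    refine measurable_fst.prodMk (measurable_pi_lambda _ fun k => ?_)
    simp only [Matrix.mulVec, dotProduct]
    exact Finset.measurable_sum _ fun l _ =>
      ((hA k l).comp measurable_fst).mul ((measurable_pi_apply l).comp measurable_snd)
  set X' : Ω → (ι → ℝ) := fun x => Binv (U x) *ᵥ X x with hX'
  have hX'm : Measurable X' := hmv hBi hX
  set G' : α × (ι → ℝ) → ℝ := fun t => G (t.1, B t.1 *ᵥ t.2) with hG'
  have hG'm : Measurable G' := hG.comp (hmv' hB)
  have hBN : Measurable fun x => B (U x) *ᵥ N x := hmv hB hN
  -- law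
  have hlaw' : P.map (fun x => ((U x, (X' x, I x)), N x)) =
      (P.map fun x => (U x, (X' x, I x))).prod (gs ι) := by
    set T : α × ((ι → ℝ) × β) → α × ((ι → ℝ) × β) :=
      fun t => (t.1, (Binv t.1 *ᵥ t.2.1, t.2.2)) with hT
    have hTm : Measurable T := by
      refine measurable_fst.prodMk (Measurable.prodMk ?_ (measurable_snd.comp measurable_snd))
      exact measurable_snd.comp ((hmv' hBi).comp
        (measurable_fst.prodMk (measurable_fst.comp measurable_snd)))
    have e1 : (fun x => ((U x, (X' x, I x)), N x)) =
        (Prod.map T id) ∘ fun x => ((U x, (X x, I x)), N x) := rfl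
    have e2 : (fun x => (U x, (X' x, I x))) = T ∘ fun x => (U x, (X x, I x)) := rfl
    have hXI : Measurable fun x => (U x, (X x, I x)) := hU.prodMk (hX.prodMk hI)
    rw [e1, e2, ← Measure.map_map (hTm.prodMap measurable_id) (hXI.prodMk hN), hlaw,
      ← Measure.map_map hTm hXI, ← Measure.map_prod_map _ _ hTm measurable_id, Measure.map_id]
  have hrel : ∀ᵐ x ∂P, B (U x) *ᵥ (X' x + N x) = X x + B (U x) *ᵥ N x ∧
      Binv (U x) *ᵥ (X x + B (U x) *ᵥ N x) = X' x + N x ∧
      Binv (U x) *ᵥ (B (U x) *ᵥ N x) = N x := by
    filter_upwards [hinv] with x hx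
    have hx' : B (U x) * Binv (U x) = 1 := mul_eq_one_comm.1 hx
    refine ⟨?_, ?_, ?_⟩
    · rw [Matrix.mulVec_add, hX', Matrix.mulVec_mulVec, hx', Matrix.one_mulVec]
    · rw [Matrix.mulVec_add, Matrix.mulVec_mulVec, hx, Matrix.one_mulVec]
    · rw [Matrix.mulVec_mulVec, hx, Matrix.one_mulVec]
  have hNint : ∀ j, Integrable (fun x => N x j) P := by
    intro j
    have h1 : P.map N = gs ι := by
      have e1 : N = Prod.snd ∘ fun x => ((U x, (X x, I x)), N x) := rfl
      have hXI : Measurable fun x => (U x, (X x, I x)) := hU.prodMk (hX.prodMk hI)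
      have : IsProbabilityMeasure (P.map fun x => (U x, (X x, I x))) :=
        Measure.isProbabilityMeasure_map hXI.aemeasurable
      rw [e1, ← Measure.map_map measurable_snd (hXI.prodMk hN), hlaw, Measure.map_snd_prod]
      simp
    have h2 : Integrable (fun z : ι → ℝ => z j) (P.map N) := by
      rw [h1]
      exact (integrable_gs_iff _).2 (integrable_coord_ph j)
    exact h2.comp_measurable hN
  obtain ⟨wb, m1, m2, m3⟩ := tweedie_rv_one (P := P) hU hX'm hI hN hlaw' hw C hC hwC hG'm
    (fun y => hGC _) (by
      intro b hb hb1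
      have := H0 (fun t => b (t.1, Binv t.1 *ᵥ t.2)) (hb.comp (hmv' hBi)) (fun y => hb1 _)
      rw [← this]
      apply integral_congr_ae
      filter_upwards [hrel] with x hx
      simp only [hG']
      rw [hx.1, hx.2.1]) (by
      intro j b hb hb1
      -- truncation
      set S : ℕ → Set α := fun M => {a | ∀ k l, |Binv a k l| ≤ M ∧ |B a k l| ≤ M} with hS
      have hSm : ∀ M, MeasurableSet (S M) := by
        intro M
        have : S M = ⋂ k, ⋂ l, ({a | |Binv a k l| ≤ M} ∩ {a | |B a k l| ≤ M}) := by
          ext a; simp [hS]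
        rw [this]
        exact MeasurableSet.iInter fun k => MeasurableSet.iInter fun l =>
          (measurableSet_le (hBi k l).abs measurable_const).inter
            (measurableSet_le (hB k l).abs measurable_const)
      classical
      have hSex : ∀ a, ∃ M0 : ℕ, ∀ M : ℕ, M0 ≤ M → a ∈ S M := by
        intro a
        obtain ⟨M0, hM0⟩ := exists_nat_ge (∑ k, ∑ l, (|Binv a k l| + |B a k l|))
        refine ⟨M0, fun M hM k l => ?_⟩
        have h1 : |Binv a k l| + |B a k l| ≤ ∑ k, ∑ l, (|Binv a k l| + |B a k l|) := by
          refine le_trans ?_ (Finset.single_le_sum (f := fun k => ∑ l, (|Binv a k l| + |B a k l|))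
            (fun i _ => Finset.sum_nonneg fun l _ => by positivity) (Finset.mem_univ k))
          exact Finset.single_le_sum (f := fun l => (|Binv a k l| + |B a k l|))
            (fun i _ => by positivity) (Finset.mem_univ l)
        have h2 : (M0 : ℝ) ≤ M := by exact_mod_cast hM
        have h3 := abs_nonneg (Binv a k l)
        have h4 := abs_nonneg (B a k l)
        constructor <;> linarith
      set F : Ω → ℝ := fun x => N x j * ((w (I x) - G' (U x, X' x + N x)) *
        b (U x, X' x + N x)) with hF
      have hFm : Measurable F := by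
        refine ((measurable_pi_apply j).comp hN).mul (Measurable.mul ?_ ?_)
        · exact (hw.comp hI).sub (hG'm.comp (hU.prodMk (hX'm.add hN)))
        · exact hb.comp (hU.prodMk (hX'm.add hN))
      have hFb : ∀ x, ‖F x‖ ≤ |N x j| * (2 * C) := by
        intro x
        rw [hF, Real.norm_eq_abs, abs_mul, abs_mul]
        refine mul_le_mul_of_nonneg_left ?_ (abs_nonneg _)
        calc |w (I x) - G' (U x, X' x + N x)| * |b (U x, X' x + N x)|
            ≤ (2 * C) * 1 := by
              refine mul_le_mul ?_ (hb1 _) (abs_nonneg _) (by positivity)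
              have h1 := hwC (I x)
              have h2 := hGC (U x, B (U x) *ᵥ (X' x + N x))
              calc |w (I x) - G' (U x, X' x + N x)| ≤ |w (I x)| + |G' (U x, X' x + N x)| :=
                    abs_sub _ _
                _ ≤ C + C := add_le_add h1 h2
                _ = 2 * C := by ring
          _ = 2 * C := mul_one _
      have htr : ∀ M : ℕ, ∫ x, (S M).indicator (fun _ => (1 : ℝ)) (U x) * F x ∂P = 0 := by
        intro M
        have hk : ∀ k, ∫ x, (B (U x) *ᵥ N x) k *
            ((w (I x) - G (U x, X x + B (U x) *ᵥ N x)) *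
            ((fun t : α × (ι → ℝ) => b (t.1, Binv t.1 *ᵥ t.2) *
              ((S M).indicator (fun a => Binv a j k / (M + 1)) t.1))
              (U x, X x + B (U x) *ᵥ N x))) ∂P = 0 := by
          intro k
          refine H1 k (fun t : α × (ι → ℝ) => b (t.1, Binv t.1 *ᵥ t.2) *
              ((S M).indicator (fun a => Binv a j k / (M + 1)) t.1)) ?_ ?_
          · refine (hb.comp (hmv' hBi)).mul ?_
            exact (((hBi j k).div_const _).indicator (hSm M)).comp measurable_fst
          · intro y
            rw [abs_mul]
            have h1 : |(S M).indicator (fun a => Binv a j k / ((M : ℝ) + 1)) y.1| ≤ 1 := by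
              by_cases hy : y.1 ∈ S M
              · rw [Set.indicator_of_mem hy, abs_div, abs_of_pos (by positivity : (0:ℝ) < M + 1)]
                rw [div_le_one (by positivity)]
                have := (hy j k).1
                linarith
              · rw [Set.indicator_of_notMem hy]; simp
            calc |b (y.1, Binv y.1 *ᵥ y.2)| *
                |(S M).indicator (fun a => Binv a j k / ((M : ℝ) + 1)) y.1| ≤ 1 * 1 :=
                  mul_le_mul (hb1 _) h1 (abs_nonneg _) zero_le_one
              _ = 1 := one_mul 1
        have hsum : ∫ x, ∑ k, (B (U x) *ᵥ N x) k *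
            ((w (I x) - G (U x, X x + B (U x) *ᵥ N x)) *
            ((fun t : α × (ι → ℝ) => b (t.1, Binv t.1 *ᵥ t.2) *
              ((S M).indicator (fun a => Binv a j k / (M + 1)) t.1))
              (U x, X x + B (U x) *ᵥ N x))) ∂P = 0 := by
          rw [integral_finsetSum]
          · exact Finset.sum_eq_zero fun k _ => hk k
          · intro k _
            have hd : Integrable (fun x => (2 * C) * ∑ l, (M : ℝ) * |N x l|) P := by
              refine Integrable.const_mul ?_ _
              exact integrable_finsetSum _ fun l _ => ((hNint l).abs.const_mul _)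
            refine hd.mono' ?_ (Filter.Eventually.of_forall fun x => ?_)
            · refine (Measurable.mul ((measurable_pi_apply k).comp hBN)
                (Measurable.mul ?_ ?_)).aestronglyMeasurable
              · exact (hw.comp hI).sub (hG.comp (hU.prodMk (hX.add hBN)))
              · exact ((hb.comp (hmv' hBi)).mul
                  ((((hBi j k).div_const _).indicator (hSm M)).comp measurable_fst)).comp
                  (hU.prodMk (hX.add hBN))
            · rw [Real.norm_eq_abs, abs_mul, abs_mul]
              by_cases hy : U x ∈ S M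
              · have h1 : |(B (U x) *ᵥ N x) k| ≤ ∑ l, (M : ℝ) * |N x l| := by
                  simp only [Matrix.mulVec, dotProduct]
                  refine (Finset.abs_sum_le_sum_abs _ _).trans (Finset.sum_le_sum fun l _ => ?_)
                  rw [abs_mul]
                  exact mul_le_mul_of_nonneg_right (hy k l).2 (abs_nonneg _)
                have h2 : |w (I x) - G (U x, X x + B (U x) *ᵥ N x)| ≤ 2 * C := by
                  calc |w (I x) - G (U x, X x + B (U x) *ᵥ N x)| ≤
                        |w (I x)| + |G (U x, X x + B (U x) *ᵥ N x)| := abs_sub _ _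
                    _ ≤ C + C := add_le_add (hwC _) (hGC _)
                    _ = 2 * C := by ring
                have h3 : |b (U x, Binv (U x) *ᵥ (X x + B (U x) *ᵥ N x)) *
                    (S M).indicator (fun a => Binv a j k / ((M : ℝ) + 1)) (U x)| ≤ 1 := by
                  rw [abs_mul]
                  have h1 : |(S M).indicator (fun a => Binv a j k / ((M : ℝ) + 1)) (U x)| ≤ 1 := by
                    rw [Set.indicator_of_mem hy, abs_div,
                      abs_of_pos (by positivity : (0:ℝ) < M + 1)]
                    rw [div_le_one (by positivity)]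
                    have := (hy j k).1
                    linarith
                  calc _ ≤ 1 * 1 := mul_le_mul (hb1 _) h1 (abs_nonneg _) zero_le_one
                    _ = 1 := one_mul 1
                calc |(B (U x) *ᵥ N x) k| * (|w (I x) - G (U x, X x + B (U x) *ᵥ N x)| *
                      |b (U x, Binv (U x) *ᵥ (X x + B (U x) *ᵥ N x)) *
                      (S M).indicator (fun a => Binv a j k / ((M : ℝ) + 1)) (U x)|)
                    ≤ (∑ l, (M : ℝ) * |N x l|) * ((2 * C) * 1) := by
                      refine mul_le_mul h1 (mul_le_mul h2 h3 (abs_nonneg _) (by positivity))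
                        (by positivity) ?_
                      exact Finset.sum_nonneg fun l _ => by positivity
                  _ = (2 * C) * ∑ l, (M : ℝ) * |N x l| := by ring
              · simp only [Set.indicator_of_notMem hy, mul_zero, abs_zero]
                have : 0 ≤ ∑ l, (M : ℝ) * |N x l| :=
                  Finset.sum_nonneg fun l _ => by positivity
                positivity
        have hM1 : (0 : ℝ) < M + 1 := by positivity
        have heq : ∀ᵐ x ∂P, ∑ k, (B (U x) *ᵥ N x) k *
            ((w (I x) - G (U x, X x + B (U x) *ᵥ N x)) *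
            ((fun t : α × (ι → ℝ) => b (t.1, Binv t.1 *ᵥ t.2) *
              ((S M).indicator (fun a => Binv a j k / (M + 1)) t.1))
              (U x, X x + B (U x) *ᵥ N x))) =
            (1 / ((M : ℝ) + 1)) * ((S M).indicator (fun _ => (1 : ℝ)) (U x) * F x) := by
          filter_upwards [hrel] with x hx
          by_cases hy : U x ∈ S M
          · simp only [Set.indicator_of_mem hy, hF, hG', hx.1, hx.2.1, one_mul]
            have h5 : N x j = ∑ k, Binv (U x) j k * (B (U x) *ᵥ N x) k := by
              have := congrFun hx.2.2 j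
              simpa [Matrix.mulVec, dotProduct] using this.symm
            rw [h5, Finset.sum_mul, Finset.mul_sum]
            apply Finset.sum_congr rfl
            intro k _
            field_simp
          · simp [Set.indicator_of_notMem hy]
        rw [integral_congr_ae heq, integral_const_mul] at hsum
        have := (mul_eq_zero.1 hsum).resolve_left (by positivity)
        exact this
      -- limit M → ∞
      have hlim := tendsto_integral_of_dominated_convergence (μ := P)
        (F := fun (M : ℕ) x => (S M).indicator (fun _ => (1 : ℝ)) (U x) * F x) (f := F)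
        (fun x => |N x j| * (2 * C)) (fun M => ((measurable_const.indicator (hSm M)).comp
          hU |>.mul hFm).aestronglyMeasurable) ((hNint j).abs.mul_const _)
        (fun M => Filter.Eventually.of_forall fun x => by
          rw [norm_mul]
          have h1 : ‖(S M).indicator (fun _ => (1 : ℝ)) (U x)‖ ≤ 1 := by
            by_cases hy : U x ∈ S M <;> simp [Set.indicator, hy]
          calc ‖(S M).indicator (fun _ => (1 : ℝ)) (U x)‖ * ‖F x‖ ≤ 1 * ‖F x‖ :=
                mul_le_mul_of_nonneg_right h1 (norm_nonneg _)
            _ = ‖F x‖ := one_mul _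
            _ ≤ _ := hFb x)
        (Filter.Eventually.of_forall fun x => by
          obtain ⟨M0, hM0⟩ := hSex (U x)
          refine tendsto_const_nhds.congr' ?_
          filter_upwards [Filter.eventually_ge_atTop M0] with M hM
          rw [Set.indicator_of_mem (hM0 M hM), one_mul])
      have h0 : Filter.Tendsto (fun M : ℕ => ∫ x, (S M).indicator (fun _ => (1 : ℝ)) (U x) * F x ∂P)
          Filter.atTop (nhds 0) := by
        simp only [htr]
        exact tendsto_const_nhds
      exact tendsto_nhds_unique hlim h0)
  refine ⟨wb, m1, m2, ?_⟩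
  filter_upwards [m3, hrel] with x hx hx2
  rw [← hx, hG']
  simp only
  rw [hx2.1]

end Crest.Agent.R166.Tweedie487
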