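import Crest.Agent.R166.TwoPort_522
import Crest.Agent.R166.Res10_598

/-!
# Row 166, section 32: gain of a two-port, part 2 (helper522)

`tau Z` = supremum of the power gain over all loads; `tau Z ∈ [0,1]`; multiplicative under gluing;
stable under `Near`; comparison with the off-diagonal entry.
-/

set_option autoImplicit false

namespace Crest.Agent.R166.TwoPort522

open Complex Matrix Crest.Agent.R166.Res598

/-- the maximal power gain -/
noncomputable def tau (a o b : ℂ) : ℝ := ⨆ ζ : {ζ : ℂ // 0 < ζ.im}, gain a o b ζ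

instance : Nonempty {ζ : ℂ // 0 < ζ.im} := ⟨⟨Complex.I, by simp⟩⟩

lemma bdd_gain {a o b : ℂ} (h : Sg a o b) :
    BddAbove (Set.range fun ζ : {ζ : ℂ // 0 < ζ.im} => gain a o b ζ) :=
  ⟨1, by rintro _ ⟨ζ, rfl⟩; exact gain_le_one h ζ.2⟩

lemma gain_le_tau {a o b ζ : ℂ} (h : Sg a o b) (hζ : 0 < ζ.im) : gain a o b ζ ≤ tau a o b :=
  le_ciSup (bdd_gain h) (⟨ζ, hζ⟩ : {ζ : ℂ // 0 < ζ.im})

lemma tau_le {a o b : ℂ} {c : ℝ} (h : ∀ ζ : ℂ, 0 < ζ.im → gain a o b ζ ≤ c) : tau a o b ≤ c :=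
  ciSup_le fun ζ => h ζ ζ.2

lemma tau_nonneg {a o b : ℂ} (h : Sg a o b) : 0 ≤ tau a o b :=
  le_trans (gain_nonneg h (ζ := Complex.I) (by simp)) (gain_le_tau h (by simp))

lemma tau_le_one {a o b : ℂ} (h : Sg a o b) : tau a o b ≤ 1 :=
  tau_le fun _ hζ => gain_le_one h hζ

/-- multiplicativity under gluing -/
theorem tau_glue {a o b a1 o1 b1 : ℂ} (h : Sg a o b) (h1 : Sg a1 o1 b1)
    (hg : 0 < (gb b a1 o1 b1).im) :
    tau (ga a o b a1) (go o b a1 o1) (gb b a1 o1 b1) ≤ tau a o b * tau a1 o1 b1 := by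
  apply tau_le
  intro ζ hζ
  rw [gain_glue h h1 hζ hg]
  exact mul_le_mul (gain_le_tau h (inp_im_pos h1 hζ)) (gain_le_tau h1 hζ) (gain_nonneg h1 hζ)
    (tau_nonneg h)

/-- upper bound -/
theorem tau_le_off {a o b : ℂ} (h : Sg a o b) :
    tau a o b ≤ ‖o‖ ^ 2 / (4 * (a.im * b.im - o.im ^ 2)) := by
  apply tau_le
  intro ζ hζ
  have hb := h.2.1
  have hD : 0 < a.im * b.im - o.im ^ 2 := by linarith [h.2.2]
  have hI := inp_im_pos h hζ
  unfold gain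
  rw [div_le_div_iff₀ hI (by positivity)]
  -- Im inp ≥ (a.im b.im - o.im^2)/b.im
  have h1 : (a.im * b.im - o.im ^ 2) ≤ b.im * (inp a o b ζ).im := by
    rw [inp_im hb hζ]
    set c := ζ * cur o b ζ
    have h2 : ‖c‖ ^ 2 = c.re ^ 2 + c.im ^ 2 := by
      rw [← Complex.normSq_eq_norm_sq, Complex.normSq_apply]; ring
    have h3 : b.im * q1 a o b c = (a.im * b.im - o.im ^ 2) + (b.im * c.re + o.im) ^ 2
        + (b.im * c.im) ^ 2 := by
      unfold q1; rw [h2]; ring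
    have h4 : 0 ≤ b.im * (‖cur o b ζ‖ ^ 2 * ζ.im) := by positivity
    nlinarith [sq_nonneg (b.im * c.re + o.im), sq_nonneg (b.im * c.im)]
  have hne : 0 < ‖1 - b * ζ‖ ^ 2 := by
    have := norm_pos_iff.mpr (one_sub_ne hb hζ)
    positivity
  have h5 : ‖cur o b ζ‖ ^ 2 * ‖1 - b * ζ‖ ^ 2 = ‖o‖ ^ 2 := by
    rw [← mul_pow, ← norm_mul, cur, div_mul_cancel₀ _ (one_sub_ne hb hζ)]
  have h6 := norm_one_sub_sq hb hζ
  -- ‖cur‖² ζ.im * 4 D ≤ ‖cur‖² ζ.im * 4 b.im Im inp ≤ ‖cur‖² ‖1-bζ‖² Im inp = ‖o‖² Im inp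
  calc ‖cur o b ζ‖ ^ 2 * ζ.im * (4 * (a.im * b.im - o.im ^ 2))
      ≤ ‖cur o b ζ‖ ^ 2 * ζ.im * (4 * (b.im * (inp a o b ζ).im)) := by
        apply mul_le_mul_of_nonneg_left _ (by positivity)
        linarith
    _ = ‖cur o b ζ‖ ^ 2 * (4 * (b.im * ζ.im)) * (inp a o b ζ).im := by ring
    _ ≤ ‖cur o b ζ‖ ^ 2 * ‖1 - b * ζ‖ ^ 2 * (inp a o b ζ).im := by
        apply mul_le_mul_of_nonneg_right _ hI.le
        exact mul_le_mul_of_nonneg_left h6 (by positivity)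
    _ = ‖o‖ ^ 2 * (inp a o b ζ).im := by rw [h5]

/-- lower bound -/
theorem off_le_tau {a o b : ℂ} (h : Sg a o b) {M : ℝ} (hM : 1 ≤ M) (ha : ‖a‖ ≤ M) (hb : ‖b‖ ≤ M)
    (ho : ‖o‖ ≤ M) : ‖o‖ ^ 2 ≤ 8 * M ^ 4 * tau a o b := by
  have hI : (0 : ℝ) < Complex.I.im := by simp
  have h1 := gain_le_tau h hI
  have h2 : gain a o b Complex.I = ‖cur o b Complex.I‖ ^ 2 / (inp a o b Complex.I).im := by
    unfold gain; simp
  have hpos := inp_im_pos h hI
  have hne := one_sub_ne h.2.1 hI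
  have h3 : ‖1 - b * Complex.I‖ ≤ 1 + M := by
    calc ‖1 - b * Complex.I‖ ≤ ‖(1 : ℂ)‖ + ‖b * Complex.I‖ := norm_sub_le _ _
      _ ≤ 1 + M := by simp; exact hb
  have h4 : 1 ≤ ‖1 - b * Complex.I‖ := by
    have : (1 - b * Complex.I).re = 1 + b.im := by simp
    have h5 := Complex.abs_re_le_norm (1 - b * Complex.I)
    rw [this] at h5
    have h6 := h.2.1
    have h7 := le_abs_self (1 + b.im)
    linarith
  have h5 : (inp a o b Complex.I).im ≤ M + M ^ 2 := by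
    calc (inp a o b Complex.I).im ≤ ‖inp a o b Complex.I‖ :=
          le_trans (le_abs_self _) (Complex.abs_im_le_norm _)
      _ ≤ ‖a‖ + ‖o ^ 2 * Complex.I / (1 - b * Complex.I)‖ := norm_add_le _ _
      _ ≤ M + M ^ 2 := by
        rw [norm_div, norm_mul, norm_pow, Complex.norm_I, mul_one]
        have : ‖o‖ ^ 2 / ‖1 - b * Complex.I‖ ≤ ‖o‖ ^ 2 := div_le_self (by positivity) h4
        have : ‖o‖ ^ 2 ≤ M ^ 2 := pow_le_pow_left₀ (norm_nonneg _) ho 2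
        linarith
  have h6 : ‖cur o b Complex.I‖ ^ 2 * ‖1 - b * Complex.I‖ ^ 2 = ‖o‖ ^ 2 := by
    rw [← mul_pow, ← norm_mul, cur, div_mul_cancel₀ _ hne]
  have h7 : ‖cur o b Complex.I‖ ^ 2 ≤ tau a o b * (M + M ^ 2) := by
    rw [h2, div_le_iff₀ hpos] at h1
    refine le_trans h1 (mul_le_mul_of_nonneg_left h5 (tau_nonneg h))
  have ht := tau_nonneg h
  calc ‖o‖ ^ 2 = ‖cur o b Complex.I‖ ^ 2 * ‖1 - b * Complex.I‖ ^ 2 := h6.symm
    _ ≤ (tau a o b * (M + M ^ 2)) * (1 + M) ^ 2 :=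
        mul_le_mul h7 (pow_le_pow_left₀ (norm_nonneg _) h3 2) (by positivity) (by positivity)
    _ ≤ tau a o b * (8 * M ^ 4) := by
        rw [mul_assoc]
        apply mul_le_mul_of_nonneg_left _ ht
        have hM2 : M ≤ M ^ 2 := by nlinarith
        have hM3 : M + M ^ 2 ≤ 2 * M ^ 2 := by linarith
        have hM4 : (1 + M) ^ 2 ≤ 4 * M ^ 2 := by nlinarith
        calc (M + M ^ 2) * (1 + M) ^ 2 ≤ (2 * M ^ 2) * (4 * M ^ 2) :=
              mul_le_mul hM3 hM4 (by positivity) (by positivity)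
          _ = 8 * M ^ 4 := by ring
    _ = 8 * M ^ 4 * tau a o b := by ring

/-! ### stability under `Near` -/

lemma sg_of_siegel {Z : Matrix (Fin 2) (Fin 2) ℂ} (hZ : Siegel Z) : Sg (Z 0 0) (Z 0 1) (Z 1 1) := by
  have hs : Z 1 0 = Z 0 1 := by
    have := congrFun (congrFun hZ.symm 0) 1
    simpa [Matrix.transpose_apply] using this
  have hdiag : ∀ i, 0 < (imM Z) i i := fun i => hZ.pos.diag_pos
  have hdet := hZ.pos.det_pos
  rw [Matrix.det_fin_two] at hdet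
  simp only [imM_apply, hs] at hdet hdiag
  refine ⟨hdiag 0, hdiag 1, ?_⟩
  nlinarith

lemma qf_two (Z : Matrix (Fin 2) (Fin 2) ℂ) (hs : Z 1 0 = Z 0 1) (c : ℂ) :
    qf (imM Z) ![1, c] = q1 (Z 0 0) (Z 0 1) (Z 1 1) c := by
  have h2 : ‖c‖ ^ 2 = c.re ^ 2 + c.im ^ 2 := by
    rw [← Complex.normSq_eq_norm_sq, Complex.normSq_apply]; ring
  unfold qf q1 vre vim
  rw [h2]
  simp [Matrix.mulVec, dotProduct, Fin.sum_univ_two, hs]
  ring

lemma qf_two' (Z : Matrix (Fin 2) (Fin 2) ℂ) :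
    qf (imM Z) ![0, 1] = (Z 1 1).im := by
  unfold qf vre vim
  simp [Matrix.mulVec, dotProduct, Fin.sum_univ_two]

/-- the maximal power gain of a `2 × 2` block (from port `0` to port `1`) -/
noncomputable def tauM (Z : Matrix (Fin 2) (Fin 2) ℂ) : ℝ := tau (Z 0 0) (Z 0 1) (Z 1 1)

theorem Near.gain_le {ε : ℝ} (hε0 : 0 ≤ ε) (hε : ε ≤ 1 / 2) {Z Z' : Matrix (Fin 2) (Fin 2) ℂ}
    (hZ : Siegel Z) (h : Near ε Z Z') {ζ : ℂ} (hζ : 0 < ζ.im) :
    gain (Z' 0 0) (Z' 0 1) (Z' 1 1) ζ ≤ gain (Z 0 0) (Z 0 1) (Z 1 1) ζ + 12 * ε := by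
  have hZ' : Siegel Z' := h.siegel (by linarith) hZ
  have hs : Z 1 0 = Z 0 1 := by
    have := congrFun (congrFun hZ.symm 0) 1
    simpa [Matrix.transpose_apply] using this
  have hs' : Z' 1 0 = Z' 0 1 := by
    have := congrFun (congrFun hZ'.symm 0) 1
    simpa [Matrix.transpose_apply] using this
  have hg := sg_of_siegel hZ
  have hg' := sg_of_siegel hZ'
  set a := Z 0 0 with ha
  set o := Z 0 1 with ho
  set b := Z 1 1 with hb
  set a' := Z' 0 0 with ha'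
  set o' := Z' 0 1 with ho'
  set b' := Z' 1 1 with hb'
  set y := cur o b ζ with hy
  set y' := cur o' b' ζ with hy'
  have hne : 1 - b * ζ ≠ 0 := one_sub_ne hg.2.1 hζ
  have hne' : 1 - b' * ζ ≠ 0 := one_sub_ne hg'.2.1 hζ
  have hoy : o = y - b * (ζ * y) := by
    have : y * (1 - b * ζ) = o := by rw [hy, cur, div_mul_cancel₀ _ hne]
    rw [← this]; ring
  have hoy' : o' = y' - b' * (ζ * y') := by
    have : y' * (1 - b' * ζ) = o' := by rw [hy', cur, div_mul_cancel₀ _ hne']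
    rw [← this]; ring
  have hQ : inp a o b ζ = a + o * (ζ * y) := by
    rw [inp, hy, cur]; field_simp
  have hQ' : inp a' o' b' ζ = a' + o' * (ζ * y') := by
    rw [inp, hy', cur]; field_simp
  set Q := inp a o b ζ with hQd
  set Q' := inp a' o' b' ζ with hQd'
  set x : Fin 2 → ℂ := ![1, ζ * y] with hx
  set x' : Fin 2 → ℂ := ![1, ζ * y'] with hx'
  have hQpos : 0 < Q.im := inp_im_pos hg hζ
  have hQpos' : 0 < Q'.im := inp_im_pos hg' hζ
  have hqx : qf (imM Z) x ≤ Q.im := by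
    rw [hx, qf_two Z hs, hQd, inp_im hg.2.1 hζ]
    have : 0 ≤ ‖cur o b ζ‖ ^ 2 * ζ.im := by positivity
    linarith
  have hqx' : qf (imM Z') x' ≤ Q'.im := by
    rw [hx', qf_two Z' hs', hQd', inp_im hg'.2.1 hζ]
    have : 0 ≤ ‖cur o' b' ζ‖ ^ 2 * ζ.im := by positivity
    linarith
  have hqx2 : qf (imM Z) x' ≤ 2 * Q'.im := by
    have h1 := h.qf_ge hZ x'
    have h2 := qf_nonneg hZ.pos.posSemidef x'
    nlinarith
  -- norms
  have hnx : nq (imM Z) x ≤ Real.sqrt Q.im := Real.sqrt_le_sqrt hqx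
  have hnx' : nq (imM Z) x' ≤ Real.sqrt 2 * Real.sqrt Q'.im := by
    rw [← Real.sqrt_mul (by norm_num)]; exact Real.sqrt_le_sqrt hqx2
  have hnt : nq (imM Z) ![0, 1] = Real.sqrt b.im := by rw [nq, qf_two']
  -- (1)
  have e1 : (![0, 1] : Fin 2 → ℂ) ⬝ᵥ ((Z' - Z) *ᵥ x') = (y' - y) * (1 - b * ζ) := by
    have : (![0, 1] : Fin 2 → ℂ) ⬝ᵥ ((Z' - Z) *ᵥ x') = (Z' 1 0 - Z 1 0) + (Z' 1 1 - Z 1 1) * (ζ * y') := by
      simp [hx', Matrix.mulVec, dotProduct, Fin.sum_univ_two]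
    rw [this, hs, hs']
    change (o' - o) + (b' - b) * (ζ * y') = (y' - y) * (1 - b * ζ)
    linear_combination hoy' - hoy
  have h1 := h.2 ![0, 1] x'
  rw [e1, norm_mul, hnt] at h1
  have hw := norm_one_sub_ge hg.2.1 hζ
  have hsb : 0 < Real.sqrt b.im := Real.sqrt_pos.mpr hg.2.1
  have hsz : 0 < Real.sqrt ζ.im := Real.sqrt_pos.mpr hζ
  have hsQ : 0 < Real.sqrt Q.im := Real.sqrt_pos.mpr hQpos
  have hsQ' : 0 < Real.sqrt Q'.im := Real.sqrt_pos.mpr hQpos'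
  have hs2 : Real.sqrt 2 ≤ 2 := by
    rw [Real.sqrt_le_left (by norm_num)]; norm_num
  -- |y'-y| √Imζ ≤ ε √Im Q'
  have h2 : ‖y' - y‖ * Real.sqrt ζ.im ≤ ε * Real.sqrt Q'.im := by
    have h3 : ‖y' - y‖ * (2 * (Real.sqrt b.im * Real.sqrt ζ.im))
        ≤ ε * Real.sqrt b.im * (Real.sqrt 2 * Real.sqrt Q'.im) := by
      refine le_trans (mul_le_mul_of_nonneg_left hw (norm_nonneg _)) (le_trans h1 ?_)
      exact mul_le_mul_of_nonneg_left hnx' (by positivity)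
    have h4 : Real.sqrt b.im * (2 * (‖y' - y‖ * Real.sqrt ζ.im))
        ≤ Real.sqrt b.im * (2 * (ε * Real.sqrt Q'.im)) := by
      calc Real.sqrt b.im * (2 * (‖y' - y‖ * Real.sqrt ζ.im))
          = ‖y' - y‖ * (2 * (Real.sqrt b.im * Real.sqrt ζ.im)) := by ring
        _ ≤ ε * Real.sqrt b.im * (Real.sqrt 2 * Real.sqrt Q'.im) := h3
        _ ≤ ε * Real.sqrt b.im * (2 * Real.sqrt Q'.im) := by
            apply mul_le_mul_of_nonneg_left _ (by positivity)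
            exact mul_le_mul_of_nonneg_right hs2 hsQ'.le
        _ = _ := by ring
    have h5 := le_of_mul_le_mul_left h4 hsb
    linarith
  -- (4)
  have e4 : x ⬝ᵥ ((Z' - Z) *ᵥ x') = Q' - Q := by
    have : x ⬝ᵥ ((Z' - Z) *ᵥ x') = (Z' 0 0 - Z 0 0) + (Z' 0 1 - Z 0 1) * (ζ * y')
        + (ζ * y) * ((Z' 1 0 - Z 1 0) + (Z' 1 1 - Z 1 1) * (ζ * y')) := by
      simp [hx, hx', Matrix.mulVec, dotProduct, Fin.sum_univ_two]
    rw [this, hs, hs', hQ, hQ']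
    change (a' - a) + (o' - o) * (ζ * y') + (ζ * y) * ((o' - o) + (b' - b) * (ζ * y'))
      = a' + o' * (ζ * y') - (a + o * (ζ * y))
    linear_combination (ζ * y) * hoy' - (ζ * y') * hoy
  have h4 := h.2 x x'
  rw [e4] at h4
  have h5 : ‖Q' - Q‖ ≤ ε * Real.sqrt Q.im * (Real.sqrt 2 * Real.sqrt Q'.im) := by
    refine le_trans h4 ?_
    have := mul_le_mul_of_nonneg_left hnx hε0
    exact mul_le_mul this hnx' (nq_nonneg _ _) (by positivity)
  have h6 : Q.im ≤ Q'.im + 2 * ε * (Real.sqrt Q.im * Real.sqrt Q'.im) := by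
    have h7 : Q.im - Q'.im ≤ ‖Q' - Q‖ := by
      have := Complex.abs_im_le_norm (Q' - Q)
      rw [Complex.sub_im] at this
      have := neg_abs_le (Q'.im - Q.im)
      linarith
    have h8 : ε * Real.sqrt Q.im * (Real.sqrt 2 * Real.sqrt Q'.im)
        ≤ 2 * ε * (Real.sqrt Q.im * Real.sqrt Q'.im) := by
      have : ε * Real.sqrt Q.im * (Real.sqrt 2 * Real.sqrt Q'.im)
          = Real.sqrt 2 * (ε * (Real.sqrt Q.im * Real.sqrt Q'.im)) := by ring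
      rw [this]
      have := mul_le_mul_of_nonneg_right hs2
        (mul_nonneg hε0 (mul_nonneg hsQ.le hsQ'.le))
      linarith
    linarith
  -- r ≤ 1 + 2ε : √Q ≤ (1+2ε) √Q'
  have h9 : Real.sqrt Q.im ≤ (1 + 2 * ε) * Real.sqrt Q'.im := by
    have hq : Real.sqrt Q.im ^ 2 = Q.im := Real.sq_sqrt hQpos.le
    have hq' : Real.sqrt Q'.im ^ 2 = Q'.im := Real.sq_sqrt hQpos'.le
    generalize hu : Real.sqrt Q.im = u at hq h6 hsQ
    generalize hv : Real.sqrt Q'.im = v at hq' h6 hsQ'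
    rw [← hq, ← hq'] at h6
    by_contra hcon
    push Not at hcon
    have hx1 : 0 < u - (1 + 2 * ε) * v := by linarith
    have hx2 : 0 ≤ ε * v := mul_nonneg hε0 hsQ'.le
    have hx3 : v < u := by linarith
    -- u² - v² - 2 ε u v = (u - (1+2ε) v) u + v (u - v) > 0
    nlinarith [mul_pos hx1 hsQ, mul_pos hsQ' (sub_pos.mpr hx3)]
  -- conclude
  have hG : gain a o b ζ = (‖y‖ * Real.sqrt ζ.im / Real.sqrt Q.im) ^ 2 := by
    unfold gain
    rw [div_pow, mul_pow, Real.sq_sqrt hζ.le, Real.sq_sqrt hQpos.le]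
  have hG' : gain a' o' b' ζ = (‖y'‖ * Real.sqrt ζ.im / Real.sqrt Q'.im) ^ 2 := by
    unfold gain
    rw [div_pow, mul_pow, Real.sq_sqrt hζ.le, Real.sq_sqrt hQpos'.le]
  set g := ‖y‖ * Real.sqrt ζ.im / Real.sqrt Q.im with hgd
  set g' := ‖y'‖ * Real.sqrt ζ.im / Real.sqrt Q'.im with hgd'
  have hg0 : 0 ≤ g := by positivity
  have hg0' : 0 ≤ g' := by positivity
  have hg1 : g ≤ 1 := by
    have := gain_le_one hg hζ
    rw [hG] at this
    nlinarith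
  have h10 : g' ≤ g + 3 * ε := by
    rw [hgd', div_le_iff₀ hsQ']
    have h11 : ‖y'‖ * Real.sqrt ζ.im ≤ ‖y‖ * Real.sqrt ζ.im + ε * Real.sqrt Q'.im := by
      have h12 : ‖y'‖ ≤ ‖y‖ + ‖y' - y‖ := by
        have := norm_add_le y (y' - y)
        rwa [add_sub_cancel] at this
      have := mul_le_mul_of_nonneg_right h12 hsz.le
      linarith
    have h13 : ‖y‖ * Real.sqrt ζ.im = g * Real.sqrt Q.im := by
      rw [hgd, div_mul_cancel₀ _ hsQ.ne']
    rw [h13] at h11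
    have h14 : g * Real.sqrt Q.im ≤ g * ((1 + 2 * ε) * Real.sqrt Q'.im) :=
      mul_le_mul_of_nonneg_left h9 hg0
    have h15 : g * (2 * ε * Real.sqrt Q'.im) ≤ 1 * (2 * ε * Real.sqrt Q'.im) :=
      mul_le_mul_of_nonneg_right hg1 (by positivity)
    nlinarith
  rw [hG, hG']
  nlinarith

theorem Near.tauM_le {ε : ℝ} (hε0 : 0 ≤ ε) (hε : ε ≤ 1 / 2) {Z Z' : Matrix (Fin 2) (Fin 2) ℂ}
    (hZ : Siegel Z) (h : Near ε Z Z') : tauM Z' ≤ tauM Z + 12 * ε := by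
  apply tau_le
  intro ζ hζ
  refine le_trans (Near.gain_le hε0 hε hZ h hζ) ?_
  have := gain_le_tau (sg_of_siegel hZ) hζ
  unfold tauM
  linarith

lemma tauM_nonneg {Z : Matrix (Fin 2) (Fin 2) ℂ} (hZ : Siegel Z) : 0 ≤ tauM Z :=
  tau_nonneg (sg_of_siegel hZ)

lemma tauM_le_one {Z : Matrix (Fin 2) (Fin 2) ℂ} (hZ : Siegel Z) : tauM Z ≤ 1 :=
  tau_le_one (sg_of_siegel hZ)

/-- `Near` is symmetric up to the constant -/
theorem near_symm {ι : Type*} [Fintype ι] [DecidableEq ι] {ε : ℝ} (hε0 : 0 ≤ ε) (hε : ε < 1)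
    {Z Z' : Matrix ι ι ℂ} (hZ : Siegel Z) (h : Near ε Z Z') : Near (ε / (1 - ε)) Z' Z := by
  refine ⟨hZ.symm, fun x y => ?_⟩
  have h1 := h.2 x y
  have e : Z - Z' = -(Z' - Z) := by abel
  rw [e, Matrix.neg_mulVec, dotProduct_neg, norm_neg]
  have hZ' := h.siegel hε hZ
  have h1ε : 0 < 1 - ε := by linarith
  have key : ∀ v : ι → ℂ, nq (imM Z) v ≤ nq (imM Z') v / Real.sqrt (1 - ε) := by
    intro v
    rw [nq, nq, ← Real.sqrt_div' _ h1ε.le]
    apply Real.sqrt_le_sqrt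
    rw [le_div_iff₀ h1ε]
    have := h.qf_ge hZ v
    linarith
  have hs : 0 < Real.sqrt (1 - ε) := Real.sqrt_pos.mpr h1ε
  calc ‖x ⬝ᵥ ((Z' - Z) *ᵥ y)‖ ≤ ε * nq (imM Z) x * nq (imM Z) y := h1
    _ ≤ ε * (nq (imM Z') x / Real.sqrt (1 - ε)) * (nq (imM Z') y / Real.sqrt (1 - ε)) := by
        apply mul_le_mul (mul_le_mul_of_nonneg_left (key x) hε0) (key y) (nq_nonneg _ _)
        exact mul_nonneg hε0 (div_nonneg (nq_nonneg _ _) hs.le)
    _ = ε / (1 - ε) * nq (imM Z') x * nq (imM Z') y := by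
        have : Real.sqrt (1 - ε) ^ 2 = 1 - ε := Real.sq_sqrt h1ε.le
        field_simp
        rw [this]

end Crest.Agent.R166.TwoPort522
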