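import Mathlib

/-!
# Row 166, section 32: the gain of a two-port (helper522)

A cavity block `B⁰_e = [[a,o],[o,b]]` with positive definite imaginary part is a passive two-port.
For a load `ζ` (`Im ζ > 0`) attached to the second port,
* `cur a o b ζ = o / (1 - b ζ)` is the response at the second port to a unit current at the first,
* `inp a o b ζ = a + o^2 ζ / (1 - b ζ)` is the input response at the first port,
* `gain = |cur|^2 Im ζ / Im inp ∈ [0,1]` is the fraction of the power that reaches the load.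
`sg a o b = sup_ζ sqrt gain` is multiplicative under gluing two blocks along an edge; it is Lipschitz
for the weak-coupling neighbourhoods, `≥ c_κ |o|` on `κ`-good blocks and `≤ C |o|` near the clean block.
-/

set_option autoImplicit false

namespace Crest.Agent.R166.TwoPort522

open Complex

/-- `[[a,o],[o,b]]` has positive definite imaginary part -/
def Sg (a o b : ℂ) : Prop := 0 < a.im ∧ 0 < b.im ∧ o.im ^ 2 < a.im * b.im

/-- response at the second port -/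
noncomputable def cur (o b ζ : ℂ) : ℂ := o / (1 - b * ζ)

/-- input response -/
noncomputable def inp (a o b ζ : ℂ) : ℂ := a + o ^ 2 * ζ / (1 - b * ζ)

/-- power gain -/
noncomputable def gain (a o b ζ : ℂ) : ℝ := ‖cur o b ζ‖ ^ 2 * ζ.im / (inp a o b ζ).im

/-- quadratic form of the imaginary part at the vector `(1, c)` -/
noncomputable def q1 (a o b c : ℂ) : ℝ := a.im + 2 * o.im * c.re + b.im * ‖c‖ ^ 2

lemma q1_pos {a o b : ℂ} (h : Sg a o b) (c : ℂ) : 0 < q1 a o b c := by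
  obtain ⟨ha, hb, ho⟩ := h
  unfold q1
  have h1 : ‖c‖ ^ 2 = c.re ^ 2 + c.im ^ 2 := by
    rw [← Complex.normSq_eq_norm_sq, Complex.normSq_apply]; ring
  rw [h1]
  have h2 : 0 < a.im * (a.im + 2 * o.im * c.re + b.im * (c.re ^ 2 + c.im ^ 2)) ∨ True := Or.inr trivial
  -- multiply by b.im
  have h3 : 0 < b.im * (a.im + 2 * o.im * c.re + b.im * (c.re ^ 2 + c.im ^ 2)) := by
    have : b.im * (a.im + 2 * o.im * c.re + b.im * (c.re ^ 2 + c.im ^ 2))
        = (a.im * b.im - o.im ^ 2) + (b.im * c.re + o.im) ^ 2 + (b.im * c.im) ^ 2 := by ring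
    rw [this]
    nlinarith [sq_nonneg (b.im * c.re + o.im), sq_nonneg (b.im * c.im)]
  exact (mul_pos_iff_of_pos_left hb).mp h3

lemma one_sub_ne {b ζ : ℂ} (hb : 0 < b.im) (hζ : 0 < ζ.im) : 1 - b * ζ ≠ 0 := by
  intro h
  have h1 : b * ζ = 1 := by linear_combination -h
  have hb0 : b ≠ 0 := by
    rintro rfl; simp at hb
  have h2 : ζ = b⁻¹ := by
    field_simp
    linear_combination h1
  rw [h2, Complex.inv_im] at hζ
  have h3 : 0 < Complex.normSq b := Complex.normSq_pos.mpr hb0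
  have h4 : -b.im / Complex.normSq b < 0 := div_neg_of_neg_of_pos (by linarith) h3
  linarith

/-- `|1 - b ζ|^2 ≥ 4 Im b Im ζ` -/
lemma norm_one_sub_sq {b ζ : ℂ} (hb : 0 < b.im) (hζ : 0 < ζ.im) :
    4 * (b.im * ζ.im) ≤ ‖1 - b * ζ‖ ^ 2 := by
  have h1 : ‖1 - b * ζ‖ ^ 2 = (1 - (b.re * ζ.re - b.im * ζ.im)) ^ 2
      + (b.re * ζ.im + b.im * ζ.re) ^ 2 := by
    rw [← Complex.normSq_eq_norm_sq, Complex.normSq_apply]
    simp only [Complex.sub_re, Complex.one_re, Complex.mul_re, Complex.sub_im, Complex.one_im,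
      Complex.mul_im]
    ring
  rw [h1]
  -- (1 - p + q)^2 + (..)^2 - 4 q  with p = re*re, q = im*im
  have h2 : (1 - (b.re * ζ.re - b.im * ζ.im)) ^ 2 + (b.re * ζ.im + b.im * ζ.re) ^ 2
      - 4 * (b.im * ζ.im)
      = (1 - b.re * ζ.re - b.im * ζ.im) ^ 2 + (b.re * ζ.im - b.im * ζ.re) ^ 2 := by ring
  nlinarith [sq_nonneg (1 - b.re * ζ.re - b.im * ζ.im), sq_nonneg (b.re * ζ.im - b.im * ζ.re)]

lemma norm_one_sub_ge {b ζ : ℂ} (hb : 0 < b.im) (hζ : 0 < ζ.im) :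
    2 * (Real.sqrt b.im * Real.sqrt ζ.im) ≤ ‖1 - b * ζ‖ := by
  have h := norm_one_sub_sq hb hζ
  have h1 : (2 * (Real.sqrt b.im * Real.sqrt ζ.im)) ^ 2 ≤ ‖1 - b * ζ‖ ^ 2 := by
    rw [mul_pow, mul_pow, Real.sq_sqrt hb.le, Real.sq_sqrt hζ.le]
    linarith
  exact le_of_sq_le_sq h1 (norm_nonneg _)

/-- energy balance -/
lemma inp_im {a o b ζ : ℂ} (hb : 0 < b.im) (hζ : 0 < ζ.im) :
    (inp a o b ζ).im = ‖cur o b ζ‖ ^ 2 * ζ.im + q1 a o b (ζ * cur o b ζ) := by
  set y := cur o b ζ with hy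
  have hne := one_sub_ne hb hζ
  have ho : o = y * (1 - b * ζ) := by
    rw [hy, cur, div_mul_cancel₀ _ hne]
  have hQ : inp a o b ζ = a + o * (ζ * y) := by
    rw [inp, hy, cur]
    field_simp
  set c := ζ * y with hc
  have ho2 : o = y - b * c := by rw [ho, hc]; ring
  rw [hQ, q1]
  have e1 : ‖y‖ ^ 2 = y.re ^ 2 + y.im ^ 2 := by
    rw [← Complex.normSq_eq_norm_sq, Complex.normSq_apply]; ring
  have e2 : ‖c‖ ^ 2 = c.re ^ 2 + c.im ^ 2 := by
    rw [← Complex.normSq_eq_norm_sq, Complex.normSq_apply]; ring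
  rw [e1, e2]
  have e3 : o.im = y.im - (b.re * c.im + b.im * c.re) := by
    rw [ho2]; simp [Complex.sub_im, Complex.mul_im]
  have e4 : o.re = y.re - (b.re * c.re - b.im * c.im) := by
    rw [ho2]; simp [Complex.sub_re, Complex.mul_re]
  have e5 : c.re = ζ.re * y.re - ζ.im * y.im := by rw [hc, Complex.mul_re]
  have e6 : c.im = ζ.re * y.im + ζ.im * y.re := by rw [hc, Complex.mul_im]
  rw [Complex.add_im, Complex.mul_im, e4]
  have e7 : (y.re ^ 2 + y.im ^ 2) * ζ.im = y.re * c.im - y.im * c.re := by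
    rw [e5, e6]; ring
  rw [e7, e3]
  ring

lemma inp_im_pos {a o b ζ : ℂ} (h : Sg a o b) (hζ : 0 < ζ.im) : 0 < (inp a o b ζ).im := by
  rw [inp_im h.2.1 hζ]
  have := q1_pos h (ζ * cur o b ζ)
  have : 0 ≤ ‖cur o b ζ‖ ^ 2 * ζ.im := by positivity
  linarith

lemma gain_nonneg {a o b ζ : ℂ} (h : Sg a o b) (hζ : 0 < ζ.im) : 0 ≤ gain a o b ζ := by
  unfold gain
  have := inp_im_pos h hζ
  positivity

lemma gain_le_one {a o b ζ : ℂ} (h : Sg a o b) (hζ : 0 < ζ.im) : gain a o b ζ ≤ 1 := by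
  unfold gain
  rw [div_le_one (inp_im_pos h hζ), inp_im h.2.1 hζ]
  linarith [q1_pos h (ζ * cur o b ζ)]

/-! ### gluing -/

/-- gluing `[[a,o],[o,b]]` and `[[a1,o1],[o1,b1]]` by an edge between the ports `b` and `a1`;
the new ports are `a` and `b1` -/
noncomputable def ga (a o b a1 : ℂ) : ℂ := a + o ^ 2 * a1 / (1 - b * a1)
noncomputable def go (o b a1 o1 : ℂ) : ℂ := -(o * o1 / (1 - b * a1))
noncomputable def gb (b a1 o1 b1 : ℂ) : ℂ := b1 + o1 ^ 2 * b / (1 - a1 * b)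

theorem gain_glue {a o b a1 o1 b1 ζ : ℂ} (h : Sg a o b) (h1 : Sg a1 o1 b1) (hζ : 0 < ζ.im)
    (hg : 0 < (gb b a1 o1 b1).im) :
    gain (ga a o b a1) (go o b a1 o1) (gb b a1 o1 b1) ζ
      = gain a o b (inp a1 o1 b1 ζ) * gain a1 o1 b1 ζ := by
  have hn1 : 1 - b * a1 ≠ 0 := one_sub_ne h.2.1 h1.1
  have hn1' : 1 - a1 * b ≠ 0 := by rw [mul_comm]; exact hn1
  have hn2 : 1 - b1 * ζ ≠ 0 := one_sub_ne h1.2.1 hζ
  have hζ1 : 0 < (inp a1 o1 b1 ζ).im := inp_im_pos h1 hζ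
  have hn3 : 1 - b * inp a1 o1 b1 ζ ≠ 0 := one_sub_ne h.2.1 hζ1
  have hn4 : 1 - gb b a1 o1 b1 * ζ ≠ 0 := one_sub_ne hg hζ
  -- key identity
  have key : (1 - b * a1) * (1 - gb b a1 o1 b1 * ζ) = (1 - b * inp a1 o1 b1 ζ) * (1 - b1 * ζ) := by
    unfold gb inp
    field_simp
    ring
  have hcur : cur (go o b a1 o1) (gb b a1 o1 b1) ζ
      = -(cur o b (inp a1 o1 b1 ζ) * cur o1 b1 ζ) := by
    unfold cur go
    rw [neg_div, div_div, key, div_mul_div_comm]
  have hinp : inp (ga a o b a1) (go o b a1 o1) (gb b a1 o1 b1) ζ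
      = inp a o b (inp a1 o1 b1 ζ) := by
    have e1 : inp (ga a o b a1) (go o b a1 o1) (gb b a1 o1 b1) ζ
        = a + o ^ 2 * a1 / (1 - b * a1)
          + (o * o1 / (1 - b * a1)) ^ 2 * ζ / (1 - gb b a1 o1 b1 * ζ) := by
      unfold inp ga go
      rw [neg_sq]
    have e2 : (1 - gb b a1 o1 b1 * ζ) = (1 - b * inp a1 o1 b1 ζ) * (1 - b1 * ζ) / (1 - b * a1) := by
      rw [← key]; field_simp
    rw [e1, e2]
    have e3 : inp a o b (inp a1 o1 b1 ζ) = a + o ^ 2 * inp a1 o1 b1 ζ / (1 - b * inp a1 o1 b1 ζ) :=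
      rfl
    rw [e3]
    have hI : inp a1 o1 b1 ζ * (1 - b1 * ζ) = a1 * (1 - b1 * ζ) + o1 ^ 2 * ζ := by
      unfold inp
      rw [add_mul, div_mul_cancel₀ _ hn2]
    set I := inp a1 o1 b1 ζ with hIdef
    clear_value I
    clear e1 e2 e3 key hcur hIdef
    set D := 1 - b1 * ζ with hD
    clear_value D
    have hB := hn3
    have hA := hn1
    rw [add_assoc, add_right_inj, div_pow, div_div_eq_mul_div]
    rw [div_add_div _ _ hA (mul_ne_zero hB hn2), div_eq_div_iff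
      (mul_ne_zero hA (mul_ne_zero hB hn2)) hB]
    have hA2 : (o * o1) ^ 2 / (1 - b * a1) ^ 2 * ζ * (1 - b * a1) = (o * o1) ^ 2 * ζ / (1 - b * a1) := by
      field_simp
    rw [hA2]
    have hA3 : (1 - b * a1) * ((o * o1) ^ 2 * ζ / (1 - b * a1)) = (o * o1) ^ 2 * ζ := by
      field_simp
    rw [hA3]
    linear_combination (-(1 - b * I) * o ^ 2) * hI
  unfold gain
  rw [hcur, hinp, norm_neg, norm_mul]
  have hp1 := inp_im_pos h hζ1
  field_simp

end Crest.Agent.R166.TwoPort522
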