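import Crest.Agent.R166.MeanZ_974

/-!
Row 166 (helper974): no-mass-escape events and uniform integrability of the frames.
-/

set_option autoImplicit false

namespace Crest.Agent.R166.Mean974

open MeasureTheory Filter Topology ProbabilityTheory
open Crest.ProbabilityR.RandomMatrix
open Crest.Agent.R166 Crest.Agent.R166.Words955 Crest.Agent.R166.Seq980
open Crest.Agent.R166.LimProps974 Crest.Agent.R166.FrameB974

variable {d : ℕ} [NeZero d]

/-- tail of the diagonal of the imaginary part at scale `1/n` -/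
noncomputable def escTail {n : ℕ} (H : Matrix (Fin n) (Fin n) ℝ) (E M : ℝ) : ℝ :=
  vAvg fun v => if M < (Res H (zz E 1 n) v v).im then (Res H (zz E 1 n) v v).im else 0

/-- no-mass-escape events -/
def GEsc (d : ℕ) (s E M ε : ℝ) (n : ℕ) : Set (PS d n) :=
  {x | escTail (Hm (graphOf x.1) s x.2) E M ≤ ε}

theorem portLaw_eq_zero_of_empty {n : ℕ} (h : ¬ (regularGraphs n d).Nonempty) (A : Set (PS d n)) :
    portLaw d n A = 0 := by
  have h1 : Ports n d = ∅ := by
    rw [Finset.eq_empty_iff_forall_notMem]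
    intro p hp
    exact h (Ports_nonempty_iff.1 ⟨p, hp⟩)
  rw [portLaw_apply, h1]
  simp

/-- choice of the thresholds -/
theorem exists_GEsc {s E : ℝ} (hNE : NoEsc d s E) {ε0 : ℝ} (hε0 : 0 < ε0) :
    ∃ M : ℕ → ℝ, ∀ i : ℕ, ∃ N : ℕ, ∀ n, N ≤ n →
      portLaw d n (GEsc d s E (M i) (1 / ((i : ℝ) + 1)) n)ᶜ ≤ ENNReal.ofReal (ε0 / 4 ^ (i + 2)) := by
  have h1 : ∀ i : ℕ, ∃ M : ℝ, ∃ N : ℕ, ∀ n, N ≤ n →
      portLaw d n (GEsc d s E M (1 / ((i : ℝ) + 1)) n)ᶜ ≤ ENNReal.ofReal (ε0 / 4 ^ (i + 2)) := by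
    intro i
    have hp : 0 < min (1 / ((i : ℝ) + 1)) (ε0 / 4 ^ (i + 2)) := lt_min (by positivity) (by positivity)
    obtain ⟨M, N, hN⟩ := hNE 1 one_pos _ hp
    refine ⟨M, N, fun n hn => ?_⟩
    by_cases hne : (regularGraphs n d).Nonempty
    · have h2 := hN n hn hne
      rw [Whp_iff_port] at h2
      refine (measure_mono ?_).trans (h2.trans (ENNReal.ofReal_le_ofReal (min_le_right _ _)))
      intro x hx hcon
      apply hx
      exact le_trans hcon (min_le_left _ _)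
    · rw [portLaw_eq_zero_of_empty hne]
      exact zero_le
  choose M hM using h1
  exact ⟨M, hM⟩

/-- **uniform integrability of the frames** from the events -/
theorem UIF_of_events {k : ℕ} (S : Seq d k) {s E K : ℝ}
    (hG : ∀ i : ℕ, ∃ M : ℝ, ∀ᶠ j in atTop, S.U j ⊆ GEsc d s E M (1 / ((i : ℝ) + 1)) (S.n j))
    (hF : ∀ᶠ j in atTop, ∀ x ∈ S.U j, IsFrame (Hm (graphOf x.1) s x.2) E K k (S.F j x)) :
    UIF S := by
  intro ε hε
  set C : ℝ := k * (1 + K ^ 2) + 1 with hC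
  have hCp : 0 < C := by positivity
  obtain ⟨i, hi⟩ := exists_nat_one_div_lt (show 0 < ε / C by positivity)
  obtain ⟨M, hM⟩ := hG i
  refine ⟨C * max M 0, by positivity, ?_⟩
  filter_upwards [hM, hF] with j hj hFj x hx
  have hn : 0 < S.n j := S.pos j
  have hnR : (0 : ℝ) < S.n j := by exact_mod_cast hn
  have hH := Hm_transpose (graphOf x.1) s x.2
  set I : Fin (S.n j) → ℝ := fun v => (Res (Hm (graphOf x.1) s x.2) (zz E 1 (S.n j)) v v).im with hI
  have hz : 0 < (zz E 1 (S.n j)).im := by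
    simp [zz]
    exact hn
  have hI0 : ∀ v, 0 ≤ I v := fun v => ScaleD355.im_diag_nonneg hH hz v
  have h1 : ∀ v, ∑ l, (S.F j x l v) ^ 2 ≤ C * I v := by
    intro v
    have h2 : ∀ l, (S.F j x l v) ^ 2 ≤ (1 + K ^ 2) * I v := by
      intro l
      have h3 := frame_sq_le hH one_pos hn (hFj x hx) l v
      simpa using h3
    calc ∑ l, (S.F j x l v) ^ 2 ≤ ∑ _l : Fin k, (1 + K ^ 2) * I v := Finset.sum_le_sum fun l _ => h2 l
      _ = k * (1 + K ^ 2) * I v := by
          rw [Finset.sum_const, Finset.card_univ, Fintype.card_fin, nsmul_eq_mul]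
          ring
      _ ≤ C * I v := by
          have := hI0 v
          rw [hC]
          nlinarith
  have h2 : ∀ v, (if C * max M 0 < ∑ l, (S.F j x l v) ^ 2 then ∑ l, (S.F j x l v) ^ 2 else 0) ≤
      C * (if M < I v then I v else 0) := by
    intro v
    split_ifs with h3 h4 h4
    · exact h1 v
    · exfalso
      have h5 := h3.trans_le (h1 v)
      have h6 : max M 0 < I v := lt_of_mul_lt_mul_left h5 hCp.le
      exact h4 ((le_max_left _ _).trans_lt h6)
    · have := hI0 v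
      positivity
    · simp
  have h3 : ∑ v, (if M < I v then I v else 0) ≤ 1 / ((i : ℝ) + 1) * S.n j := by
    have h4 : escTail (Hm (graphOf x.1) s x.2) E M ≤ 1 / ((i : ℝ) + 1) := hj hx
    unfold escTail vAvg at h4
    rwa [div_le_iff₀ hnR] at h4
  calc ∑ v, (if C * max M 0 < ∑ l, (S.F j x l v) ^ 2 then ∑ l, (S.F j x l v) ^ 2 else 0)
      ≤ ∑ v, C * (if M < I v then I v else 0) := Finset.sum_le_sum fun v _ => h2 v
    _ = C * ∑ v, (if M < I v then I v else 0) := by rw [Finset.mul_sum]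
    _ ≤ C * (1 / ((i : ℝ) + 1) * S.n j) := by gcongr
    _ ≤ C * (ε / C * S.n j) := by gcongr
    _ = ε * S.n j := by field_simp

/-- the near-window condition from `IsFrame` -/
theorem near_of_frame {k : ℕ} (S : Seq d k) {s E K : ℝ}
    (hF : ∀ᶠ j in atTop, ∀ x ∈ S.U j, IsFrame (Hm (graphOf x.1) s x.2) E K k (S.F j x)) :
    ∀ δ : ℝ, 0 < δ → ∀ᶠ j in atTop, ∀ x ∈ S.U j, ∀ l,
      ∑ v, (((Hm (graphOf x.1) s x.2).mulVec (S.F j x l)) v - E * S.F j x l v) ^ 2
        ≤ δ * S.n j := by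
  intro δ hδ
  have h1 : Tendsto (fun j => (K / (S.n j : ℝ)) ^ 2) atTop (𝓝 0) := by
    have h2 : Tendsto (fun j => (S.n j : ℝ)) atTop atTop :=
      tendsto_natCast_atTop_atTop.comp S.tendsto_n
    have h3 := (tendsto_const_nhds (x := K)).div_atTop h2
    have h4 := h3.pow 2
    simpa using h4
  filter_upwards [hF, h1.eventually (gt_mem_nhds hδ)] with j hj hδj x hx l
  refine ((hj x hx).2 l).trans ?_
  have : (0 : ℝ) ≤ S.n j := Nat.cast_nonneg _
  gcongr

theorem orth_of_frame {k : ℕ} (S : Seq d k) {s E K : ℝ}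
    (hF : ∀ᶠ j in atTop, ∀ x ∈ S.U j, IsFrame (Hm (graphOf x.1) s x.2) E K k (S.F j x)) :
    ∀ᶠ j in atTop, ∀ x ∈ S.U j, ∀ l l', ∑ v, S.F j x l v * S.F j x l' v
      = if l = l' then (S.n j : ℝ) else 0 := by
  filter_upwards [hF] with j hj x hx l l'
  exact (hj x hx).1 l l'

end Crest.Agent.R166.Mean974
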