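import Crest.Agent.R166.UIfin_566

/-!
Row 166, section 31.4 (helper566): half-edge form of the final statement. The non-exceptional set
`ne` is a set of half-edges; a vertex is covered as soon as one of its half-edges is in `ne`.
The threshold `rs` of `StepR` is chosen first, then `QuadR` is used with `r = min (rs/2) (1/16)`.
-/

set_option autoImplicit false
set_option linter.unusedSectionVars false

open Finset Crest.ProbabilityR.RandomMatrix

namespace Crest.Agent.R166.Clean566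

open Crest.Agent.R166

/-- `Step0` with `rs` fixed -/
def StepR (d : ℕ) (E rs : ℝ) : Prop :=
  ∃ C c : ℝ, 0 < C ∧ 0 < c ∧
    ∀ n : ℕ, 0 < n → ∃ err : Equiv.Perm (HE n d) → ℝ, (∀ p, 0 ≤ err p) ∧
      ∑ p ∈ Ports n d, err p ≤ C / n * (Ports n d).card ∧
      ∀ η : ℝ, 0 < η → η ≤ 1 →
        ∃ (gV : Equiv.Perm (HE n d) → ℝ) (μ gm : Equiv.Perm (HE n d) → ℂ) (a : ℂ),
          Multi383.Step (Ports n d) (fun p => SpecA.Vp rs p 0 0 (ze E η)) gV μ gm err
            a C c (1 / 4) (1 / (n * η)) 0 ∧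
          TrV (Ports n d) (fun p => SpecA.Vp rs p 0 0 (ze E η)) gV C (1 / (n * η))

/-- `Quad0` with `rs`, `r` fixed, half-edge form -/
def QuadR (d : ℕ) (E rs r : ℝ) (ne : ∀ n : ℕ, Equiv.Perm (HE n d) → HE n d → Prop) : Prop :=
  ∃ C r1 : ℝ, 0 < C ∧ 0 < r1 ∧ ∃ N0 : ℕ, ∀ n : ℕ, N0 ≤ n →
    (Ports n d).Nonempty → ∀ η : ℝ, 0 < η → η ≤ 1 →
      ∃ (M : Type) (_ : Fintype M) (_ : Nonempty M)
        (sw : {p // p ∈ Ports n d} → HE n d → M → {p // p ∈ Ports n d})
        (valid : {p // p ∈ Ports n d} → HE n d → M → Prop),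
        Hyp3 (fun p h => SpecA.Dv rs p.1 0 0 (ze E η) h) sw valid
          (fun p h => ne n p.1 h) C r r1 (1 / (n * η))

set_option maxHeartbeats 2000000 in
open Classical in
/-- **(31.4)**, half-edge form -/
theorem uniEscH {d : ℕ} (hd : 3 ≤ d) {E : ℝ} (hE : E ^ 2 < 4 * ((d : ℝ) - 1))
    {exc : ∀ n : ℕ, Equiv.Perm (HE n d) → Fin n → Prop}
    {ne : ∀ n : ℕ, Equiv.Perm (HE n d) → HE n d → Prop} {rs : ℝ} (hrs : 0 < rs)
    (hS : StepR d E rs) (hA : SpecA.ThmA d) (hQ : QuadR d E rs (min (rs / 2) (1 / 16)) ne)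
    (hexc : ∀ (n : ℕ) (p : Equiv.Perm (HE n d)) (v : Fin n), IsPort p → ¬ exc n p v →
      ∃ i : Fin d, ne n p (v, i)) : UniEsc d E exc := by
  obtain ⟨C, c, hC, hc, hstep⟩ := hS
  have hA1 : 0 < (|E| + 2 * Real.sqrt ((d : ℝ) - 1)) / 2 := by
    have : (3 : ℝ) ≤ d := by exact_mod_cast hd
    have : 0 < Real.sqrt ((d : ℝ) - 1) := Real.sqrt_pos.2 (by linarith)
    positivity
  have hd' : (3 : ℝ) ≤ d := by exact_mod_cast hd
  have hsd : 0 < Real.sqrt ((d : ℝ) - 1) := Real.sqrt_pos.2 (by linarith)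
  have hsd2 : Real.sqrt ((d : ℝ) - 1) ^ 2 = (d : ℝ) - 1 := Real.sq_sqrt (by linarith)
  have hElt : |E| < 2 * Real.sqrt ((d : ℝ) - 1) := by
    apply abs_lt_of_sq_lt_sq _ (by positivity)
    rw [mul_pow, hsd2]; linarith
  obtain ⟨rsA, C1, s0, hrsA, hC1, hs0, hThm⟩ := hA ((|E| + 2 * Real.sqrt ((d : ℝ) - 1)) / 2) hA1
    (by
      have h1 : (|E| + 2 * Real.sqrt ((d : ℝ) - 1)) / 2 < 2 * Real.sqrt ((d : ℝ) - 1) := by
        linarith
      have h2 := pow_lt_pow_left₀ h1 hA1.le (n := 2) (by norm_num)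
      rw [mul_pow, hsd2] at h2
      linarith)
  -- constants
  set r : ℝ := min (rs / 2) (1 / 16) with hr
  have hr0 : 0 < r := by rw [hr]; positivity
  have hrrs : r < rs := by
    have : r ≤ rs / 2 := min_le_left _ _
    linarith
  obtain ⟨Cq, r1, hCq, hr1, N0, hq⟩ := hQ
  set A : ℝ := C * (1 + 4 * C ^ 2 / c ^ 2) with hAdef
  have hA0 : 0 < A := by positivity
  set v : ℝ := 3 / (16 * A) with hv
  have hv0 : 0 < v := by positivity
  have hv1 : 2 * A * v ≤ (1 - 1 / 4) / 2 := by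
    rw [hv]
    apply le_of_eq
    field_simp
    norm_num
  set e1 : ℝ := e1c (1 / 4) C c v with he1
  have he10 : 0 < e1 := e1c_pos (by norm_num) hC hc hv0
  set cc : ℝ := c2 Cq e1 r1 with hcc
  have hcc0 : 0 < cc := c2_pos hCq he10 hr1
  intro κ hκ ε hε
  -- Theorem A
  set lam : ℝ := max 1 (rs / rsA) with hlam
  have hlam1 : 1 ≤ lam := le_max_left _ _
  set δ : ℝ := min (ε / 4) (v / lam ^ 2) with hδ
  have hδ0 : 0 < δ := by rw [hδ]; positivity
  obtain ⟨KA, hKA0, hKA⟩ := hThm δ hδ0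
  set K1 : ℝ := max (max 1 (4 / v ^ 2)) (max (max (Cq ^ 2) KA) ((16 * e1 / ε) ^ 2)) with hK1
  have hK1a : 1 ≤ K1 := (le_max_left _ _).trans (le_max_left _ _)
  have hK1b : 4 / v ^ 2 ≤ K1 := (le_max_right _ _).trans (le_max_left _ _)
  have hK1c : Cq ^ 2 ≤ K1 := ((le_max_left _ _).trans (le_max_left _ _)).trans (le_max_right _ _)
  have hK1d : KA ≤ K1 := ((le_max_right _ _).trans (le_max_left _ _)).trans (le_max_right _ _)
  have hK1e : (16 * e1 / ε) ^ 2 ≤ K1 := (le_max_right _ _).trans (le_max_right _ _)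
  set t : ℝ := max 1 (K1 / κ) with ht
  have ht1 : 1 ≤ t := le_max_left _ _
  set ε' : ℝ := ε / (t * d) with hε'
  have hε'0 : 0 < ε' := by rw [hε']; positivity
  -- choice of a
  obtain ⟨a, ha⟩ : ∃ a : ℕ, 8 * 8 * cc * ((Real.sqrt 2)⁻¹) ^ a / ε' ≤ ε / 4 := by
    obtain ⟨h0, h1⟩ := sqrt_two_facts
    have htend : Filter.Tendsto (fun a : ℕ => 8 * 8 * cc * ((Real.sqrt 2)⁻¹) ^ a / ε')
        Filter.atTop (nhds (8 * 8 * cc * 0 / ε')) :=
      ((tendsto_pow_atTop_nhds_zero_of_lt_one h0.le (by linarith)).const_mul _).div_const _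
    rw [mul_zero, zero_div] at htend
    have := (htend.eventually (gt_mem_nhds (by positivity : (0 : ℝ) < ε / 4))).exists
    obtain ⟨a, ha⟩ := this
    exact ⟨a, ha.le⟩
  refine ⟨t * (8 * 2 ^ a), fun K hK => ?_⟩
  have hK0 : 0 < K := lt_of_lt_of_le hκ hK
  set Ks : ℝ := max K K1 with hKs
  have hKs1 : K1 ≤ Ks := le_max_right _ _
  have hKsK : K ≤ Ks := le_max_left _ _
  have hKspos : 0 < Ks := by linarith
  have hKst : Ks ≤ t * K := by
    rw [hKs]
    apply max_le
    · nlinarith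
    · calc K1 = K1 / κ * κ := by field_simp
        _ ≤ t * κ := by gcongr; exact le_max_right _ _
        _ ≤ t * K := by gcongr
  obtain ⟨NA, hNA⟩ := hKA Ks (hK1d.trans hKs1)
  obtain ⟨N2, hN2⟩ := exists_nat_ge (Ks * 2 ^ a)
  refine ⟨max (max NA N0) (max N2 1), fun n hn => ?_⟩
  have hn1 : NA ≤ n := ((le_max_left _ _).trans (le_max_left _ _)).trans hn
  have hn2 : N0 ≤ n := ((le_max_right _ _).trans (le_max_left _ _)).trans hn
  have hn3 : N2 ≤ n := ((le_max_left _ _).trans (le_max_right _ _)).trans hn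
  have hn4 : 1 ≤ n := ((le_max_right _ _).trans (le_max_right _ _)).trans hn
  have hnpos : 0 < n := hn4
  have hn' : (0 : ℝ) < n := by exact_mod_cast hnpos
  rcases (Ports n d).eq_empty_or_nonempty with hempty | hne
  · simp only [hempty, Finset.filter_empty, Finset.card_empty, Nat.cast_zero, mul_zero, le_refl]
  have hcard : (0 : ℝ) < (Ports n d).card := by exact_mod_cast hne.card_pos
  have : Nonempty {p // p ∈ Ports n d} := hne.to_subtype
  have : Nonempty (HE n d) := ⟨(⟨0, hnpos⟩, ⟨0, by omega⟩)⟩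
  have hKn : Ks * 2 ^ a ≤ n := hN2.trans (by exact_mod_cast hn3)
  obtain ⟨err, herr0, herr, hst⟩ := hstep n hnpos
  -- EV at every scale
  have hEV : ∀ K, Ks ≤ K → K ≤ n → (av fun p : {p // p ∈ Ports n d} =>
      if VV (fun p : {p // p ∈ Ports n d} => fun h => SpecA.Dv rs p.1 0 0 (zz E K n) h) p ≤ v then
        VV (fun p : {p // p ∈ Ports n d} => fun h => SpecA.Dv rs p.1 0 0 (zz E K n) h) p else 0) ≤
        e1 / K := by
    intro K' hK' hK'n
    have hK'0 : 0 < K' := by linarith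
    have hη0 : 0 < K' / n := by positivity
    have hη1 : K' / n ≤ 1 := by rw [div_le_one hn']; exact hK'n
    obtain ⟨gV, μ, gm, a', h1, h2⟩ := hst (K' / n) hη0 hη1
    have hκe : (1 : ℝ) / (n * (K' / n)) = 1 / K' := by field_simp
    rw [hκe] at h1 h2
    have h3 := EV_of_step h1 h2 (by norm_num) hC hc (by positivity) herr0 (by
      refine herr.trans ?_
      apply mul_le_mul_of_nonneg_right _ hcard.le
      rw [mul_one_div]
      exact div_le_div_of_nonneg_left hC.le hK'0 hK'n) hv0 hv1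
    have h4 : (av fun p : {p // p ∈ Ports n d} =>
      if VV (fun p : {p // p ∈ Ports n d} => fun h => SpecA.Dv rs p.1 0 0 (zz E K' n) h) p ≤ v then
        VV (fun p : {p // p ∈ Ports n d} => fun h => SpecA.Dv rs p.1 0 0 (zz E K' n) h) p else 0) =
        (∑ p ∈ Ports n d, (if SpecA.Vp rs p 0 0 (ze E (K' / n)) ≤ v then
          SpecA.Vp rs p 0 0 (ze E (K' / n)) else 0)) / (Ports n d).card := by
      rw [← av_ports (fun p => if SpecA.Vp rs p 0 0 (ze E (K' / n)) ≤ v then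
          SpecA.Vp rs p 0 0 (ze E (K' / n)) else 0)]
      congr 1
      funext p
      rw [Vp_eq_VV, ze_eq_zz]
    rw [h4, div_le_iff₀ hcard]
    calc _ ≤ _ := h3
      _ = _ := by rw [he1]; ring
  have hP : ∀ K, Ks ≤ K → K ≤ n → (av fun p : {p // p ∈ Ports n d} =>
      if VV (fun p : {p // p ∈ Ports n d} => fun h => SpecA.Dv rs p.1 0 0 (zz E K n) h) p ≤
        1 / Real.sqrt K then
        pne (fun p : {p // p ∈ Ports n d} => fun h => SpecA.Dv rs p.1 0 0 (zz E K n) h)
          (fun p h => ne n p.1 h) r p else 0) ≤ cc / (K * Real.sqrt K) := by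
    intro K' hK' hK'n
    have hK'0 : 0 < K' := by linarith
    have hη0 : 0 < K' / n := by positivity
    have hη1 : K' / n ≤ 1 := by rw [div_le_one hn']; exact hK'n
    obtain ⟨M, hMF, hMN, sw, valid, h1⟩ := hq n hn2 hne (K' / n) hη0 hη1
    have hκe : (1 : ℝ) / (n * (K' / n)) = 1 / K' := by field_simp
    rw [hκe, ze_eq_zz] at h1
    exact Epne_scale h1 hCq hr1 hv0 he10.le (hEV K' hK' hK'n) (by linarith) (by linarith)
      (by linarith)
  have hbase := base_fixed (n := n) (d := d) hnpos (by omega) (E := E) (K0 := Ks)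
    (D := fun K p h => SpecA.Dv rs p 0 0 (zz E K n) h) (ne := fun p h => ne n p h)
    (r := r) (M0 := 8) (v := v) (e1 := e1) (c := cc) hne
    (by
      intro K' p h hK' hp hD
      apply qv_le_of_dev hp hd hnpos (by linarith)
      unfold SpecA.Dv at hD
      have h1 : r ≤ 1 / 16 := min_le_right _ _
      rcases min_cases rs (SpecA.dev p 0 0 (zz E K' n) h) with ⟨h2, _⟩ | ⟨h2, _⟩
      · rw [h2] at hD; linarith
      · rw [h2] at hD; linarith)
    (by norm_num) hKspos he10.le hcc0.le hEV hP a hKn hε'0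
  -- the three terms
  have hT1 : (av fun p : {p // p ∈ Ports n d} => if ∀ K, Ks ≤ K → K ≤ n →
        VV (fun p : {p // p ∈ Ports n d} => fun h => SpecA.Dv rs p.1 0 0 (zz E K n) h) p ≤ v
        then (0 : ℝ) else 1) ≤ ε / 4 := by
    have h1 := hNA n hn1 E 0 (by linarith) (by simpa using hs0.le) 0 (by simp)
    have h2 : (av fun p : {p // p ∈ Ports n d} => if ∀ K, Ks ≤ K → K ≤ n →
        VV (fun p : {p // p ∈ Ports n d} => fun h => SpecA.Dv rs p.1 0 0 (zz E K n) h) p ≤ v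
        then (0 : ℝ) else 1) ≤ av fun p : {p // p ∈ Ports n d} =>
          if (∃ η : ℝ, Ks / n ≤ η ∧ η ≤ 1 ∧
            C1 * (0 : ℝ) ^ 2 + δ < SpecA.Vp rsA p.1 0 0 (ze E η)) then (1 : ℝ) else 0 := by
      apply av_mono
      intro p
      by_cases h : ∃ η : ℝ, Ks / n ≤ η ∧ η ≤ 1 ∧
            C1 * (0 : ℝ) ^ 2 + δ < SpecA.Vp rsA p.1 0 0 (ze E η)
      · rw [if_pos h]
        split_ifs <;> norm_num
      · rw [if_neg h, if_pos]
        push Not at h
        intro K' hK' hK'n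
        have h3 := h (K' / n) (div_le_div_of_nonneg_right hK' hn'.le)
          (by rw [div_le_one hn']; exact hK'n)
        rw [← ze_eq_zz, ← Vp_eq_VV]
        have h4 := Vp_le_mul hrs hrsA p.1 (ze E (K' / n))
        have h5 : C1 * (0 : ℝ) ^ 2 + δ ≤ v / lam ^ 2 := by
          have : δ ≤ v / lam ^ 2 := min_le_right _ _
          linarith
        calc SpecA.Vp rs p.1 0 0 (ze E (K' / n)) ≤ lam ^ 2 *
              SpecA.Vp rsA p.1 0 0 (ze E (K' / n)) := h4
          _ ≤ lam ^ 2 * (v / lam ^ 2) := by gcongr; exact h3.trans h5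
          _ = v := by field_simp
    refine h2.trans ?_
    rw [av_ports (fun p => if (∃ η : ℝ, Ks / n ≤ η ∧ η ≤ 1 ∧
            C1 * (0 : ℝ) ^ 2 + δ < SpecA.Vp rsA p 0 0 (ze E η)) then (1 : ℝ) else 0),
      Finset.sum_boole, div_le_iff₀ hcard]
    refine h1.trans ?_
    gcongr
    exact min_le_left _ _
  have hT2 : 4 * e1 / Real.sqrt Ks ≤ ε / 4 := by
    have h1 : 16 * e1 / ε ≤ Real.sqrt Ks := Real.le_sqrt_of_sq_le (hK1e.trans hKs1)
    have h2 : 0 < Real.sqrt Ks := Real.sqrt_pos.2 hKspos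
    rw [div_le_iff₀ h2]
    rw [div_le_iff₀ hε] at h1
    linarith
  have hT3 : 8 * 8 * cc / (Ks * Real.sqrt Ks) * ((Real.sqrt 2)⁻¹) ^ a / ε' ≤ ε / 4 := by
    refine le_trans ?_ ha
    have h1 : (1 : ℝ) ≤ Ks * Real.sqrt Ks := by
      have h2 : (1 : ℝ) ≤ Real.sqrt Ks := Real.le_sqrt_of_sq_le (by
        rw [one_pow]; linarith)
      nlinarith
    have h0 := sqrt_two_facts.1
    have h3 : 8 * 8 * cc / (Ks * Real.sqrt Ks) ≤ 8 * 8 * cc :=
      div_le_self (by positivity) h1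
    gcongr
  -- comparison of the events
  have hfin : (((Ports n d).filter fun p => ε < vAvg (fun v : Fin n =>
      if ¬ exc n p v ∧ t * (8 * 2 ^ a) < ‖Res (Hm (graphOf p) 0 0) (zz E K n) v v‖ then
        ‖Res (Hm (graphOf p) 0 0) (zz E K n) v v‖ else 0)).card : ℝ) ≤
      (av fun p : {p // p ∈ Ports n d} => if ε' < (av fun h => if ne n p.1 h ∧
        8 * 2 ^ a < qv E Ks p.1 h then qv E Ks p.1 h else 0) then (1 : ℝ) else 0) *
        (Ports n d).card := by
    have h1 : (((Ports n d).filter fun p => ε < vAvg (fun v : Fin n =>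
      if ¬ exc n p v ∧ t * (8 * 2 ^ a) < ‖Res (Hm (graphOf p) 0 0) (zz E K n) v v‖ then
        ‖Res (Hm (graphOf p) 0 0) (zz E K n) v v‖ else 0)).card : ℝ) =
        (av fun p : {p // p ∈ Ports n d} => if ε < vAvg (fun v : Fin n =>
      if ¬ exc n p.1 v ∧ t * (8 * 2 ^ a) < ‖Res (Hm (graphOf p.1) 0 0) (zz E K n) v v‖ then
        ‖Res (Hm (graphOf p.1) 0 0) (zz E K n) v v‖ else 0) then (1 : ℝ) else 0) *
        (Ports n d).card := by
      rw [av_ports (fun p => if ε < vAvg (fun v : Fin n =>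
      if ¬ exc n p v ∧ t * (8 * 2 ^ a) < ‖Res (Hm (graphOf p) 0 0) (zz E K n) v v‖ then
        ‖Res (Hm (graphOf p) 0 0) (zz E K n) v v‖ else 0) then (1 : ℝ) else 0),
        Finset.sum_boole, div_mul_cancel₀ _ hcard.ne']
    rw [h1]
    apply mul_le_mul_of_nonneg_right _ hcard.le
    apply av_mono
    intro p
    have hp := mem_Ports.1 p.2
    have hcmp : vAvg (fun v : Fin n =>
      if ¬ exc n p.1 v ∧ t * (8 * 2 ^ a) < ‖Res (Hm (graphOf p.1) 0 0) (zz E K n) v v‖ then
        ‖Res (Hm (graphOf p.1) 0 0) (zz E K n) v v‖ else 0) ≤ (t * d) *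
        (av fun h : HE n d => if ne n p.1 h ∧
        8 * 2 ^ a < qv E Ks p.1 h then qv E Ks p.1 h else 0) := by
      set g : HE n d → ℝ := fun h => if ne n p.1 h ∧
        8 * 2 ^ a < qv E Ks p.1 h then qv E Ks p.1 h else 0 with hg
      have hg0 : ∀ h, 0 ≤ g h := by
        intro h
        rw [hg]
        dsimp only
        split_ifs
        · exact qv_nonneg _ _ _ _
        · exact le_rfl
      have hv : ∀ v : Fin n, (if ¬ exc n p.1 v ∧
          t * (8 * 2 ^ a) < ‖Res (Hm (graphOf p.1) 0 0) (zz E K n) v v‖ then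
          ‖Res (Hm (graphOf p.1) 0 0) (zz E K n) v v‖ else 0) ≤ t * ∑ i : Fin d, g (v, i) := by
        intro v
        by_cases h3 : ¬ exc n p.1 v ∧
            t * (8 * 2 ^ a) < ‖Res (Hm (graphOf p.1) 0 0) (zz E K n) v v‖
        · rw [if_pos h3]
          obtain ⟨i, hi⟩ := hexc n p.1 v hp h3.1
          have h2 : ‖Res (Hm (graphOf p.1) 0 0) (zz E K n) v v‖ ≤ t * qv E Ks p.1 (v, i) :=
            norm_Res_scale (Stab269.Hm_symm _ _ _) hnpos hK0 hKsK hKst v
          have h4 : t * (8 * 2 ^ a) < t * qv E Ks p.1 (v, i) := lt_of_lt_of_le h3.2 h2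
          have h5 : 8 * 2 ^ a < qv E Ks p.1 (v, i) := lt_of_mul_lt_mul_left h4 (by linarith)
          have h6 : g (v, i) = qv E Ks p.1 (v, i) := by
            rw [hg]
            dsimp only
            rw [if_pos ⟨hi, h5⟩]
          refine h2.trans (mul_le_mul_of_nonneg_left ?_ (by linarith))
          rw [← h6]
          exact Finset.single_le_sum (f := fun i => g (v, i)) (fun i _ => hg0 _)
            (Finset.mem_univ i)
        · rw [if_neg h3]
          exact mul_nonneg (by linarith) (Finset.sum_nonneg fun i _ => hg0 _)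
      have h7 : vAvg (fun v : Fin n =>
        if ¬ exc n p.1 v ∧ t * (8 * 2 ^ a) < ‖Res (Hm (graphOf p.1) 0 0) (zz E K n) v v‖ then
        ‖Res (Hm (graphOf p.1) 0 0) (zz E K n) v v‖ else 0) ≤
          (∑ v : Fin n, t * ∑ i : Fin d, g (v, i)) / n := by
        unfold vAvg
        apply div_le_div_of_nonneg_right _ hn'.le
        exact Finset.sum_le_sum fun v _ => hv v
      refine h7.trans (le_of_eq ?_)
      unfold av
      rw [← Finset.mul_sum, ← Fintype.sum_prod_type (f := fun h : Fin n × Fin d => g h),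
        Fintype.card_prod, Fintype.card_fin, Fintype.card_fin]
      push_cast
      have hdne : (d : ℝ) ≠ 0 := by positivity
      field_simp
    split_ifs with h4 h5 h5
    · exact le_rfl
    · exfalso
      apply h5
      rw [hε', div_lt_iff₀ (by positivity)]
      linarith
    · norm_num
    · exact le_rfl
  refine hfin.trans ?_
  apply mul_le_mul_of_nonneg_right _ hcard.le
  have hb2 := hbase.trans (show _ ≤ ε by linarith)
  convert hb2

end Crest.Agent.R166.Clean566
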