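import Crest.Agent.R166.Clean1_566
import Crest.Agent.R166.Clean2_566
import Crest.Agent.R166.Res3_789
import Crest.Agent.R166.Root_355
import Crest.Agent.R166.SpecA_598

/-!
Row 166, section 31.4 (helper566): uniform integrability of `|R_vv|` over the non exceptional
vertices of the uniform random regular graph (`s = 0`), from the one-scale hypotheses `Clean566.Hyp`
at every scale `K ≤ n` and Theorem A.
-/

set_option autoImplicit false
set_option linter.unusedSectionVars false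

open Finset Crest.ProbabilityR.RandomMatrix

namespace Crest.Agent.R166.Clean566

open Crest.Agent.R166

section ports

variable {n d : ℕ}

lemma av_ports (F : Equiv.Perm (HE n d) → ℝ) :
    av (fun p : {p // p ∈ Ports n d} => F p.1) = (∑ p ∈ Ports n d, F p) / (Ports n d).card := by
  unfold av
  rw [Finset.sum_coe_sort (Ports n d) F, Fintype.card_coe]

open Classical in
/-- probabilities on the graph side are averages over port-numbered graphs -/
lemma card_filter_regular (Q : SimpleGraph (Fin n) → Prop) (hne : (Ports n d).Nonempty) :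
    (((regularGraphs n d).filter Q).card : ℝ) =
      (av fun p : {p // p ∈ Ports n d} => if Q (graphOf p.1) then (1 : ℝ) else 0) *
        (regularGraphs n d).card := by
  rw [av_ports (fun p => if Q (graphOf p) then (1 : ℝ) else 0),
    sum_Ports (fun G => if Q G then (1 : ℝ) else 0), card_Ports, nsmul_eq_mul]
  have h1 : ((Nat.factorial d ^ n : ℕ) : ℝ) ≠ 0 := by
    exact_mod_cast (pow_pos (Nat.factorial_pos d) n).ne'
  have h2 : ((regularGraphs n d).card : ℝ) ≠ 0 := by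
    have := Finset.card_pos.2 (Ports_nonempty_iff.1 hne)
    exact_mod_cast this.ne'
  rw [Nat.cast_mul, mul_div_mul_left _ _ h1, div_mul_cancel₀ _ h2, Finset.sum_boole]

/-- vertex averages as half-edge averages -/
lemma av_fst (hd : 0 < d) (f : Fin n → ℝ) :
    av (fun h : HE n d => f h.1) = (∑ v, f v) / n := by
  have h := IsPort.vAvg_eq (n := n) hd f
  unfold vAvg at h
  unfold av
  rw [h, Fintype.card_prod, Fintype.card_fin, Fintype.card_fin]
  push_cast
  rfl

/-- `|R_vv|` at the scale `K` at the base vertex of a half-edge -/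
noncomputable def qv (E K : ℝ) (p : Equiv.Perm (HE n d)) (h : HE n d) : ℝ :=
  ‖Res (Hm (graphOf p) 0 0) (zz E K n) h.1 h.1‖

lemma qv_nonneg (E K : ℝ) (p : Equiv.Perm (HE n d)) (h : HE n d) : 0 ≤ qv E K p h :=
  norm_nonneg _

lemma zz_im (E K : ℝ) (n : ℕ) : (zz E K n).im = K / n := by
  unfold zz
  simp

lemma zz_re (E K : ℝ) (n : ℕ) : (zz E K n).re = E := by
  unfold zz
  simp

/-- scale comparison -/
lemma norm_Res_scale {H : Matrix (Fin n) (Fin n) ℝ} (hH : H.transpose = H) (hn : 0 < n)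
    {E K K' t : ℝ} (hK : 0 < K) (h1 : K ≤ K') (h2 : K' ≤ t * K) (v : Fin n) :
    ‖Res H (zz E K n) v v‖ ≤ t * ‖Res H (zz E K' n) v v‖ := by
  have hn' : (0 : ℝ) < n := by exact_mod_cast hn
  have hyp : Res789.Hyp t (zz E K n) (zz E K' n) := by
    apply Res789.hyp_vert
    · rw [zz_im]; positivity
    · rw [zz_re, zz_re]
    · rw [zz_im, zz_im]; gcongr
    · rw [zz_im, zz_im, ← mul_div_assoc]; gcongr
  exact Res789.norm_Res_diag_le hH hyp.symm v

lemma norm_Res_le_div {H : Matrix (Fin n) (Fin n) ℝ} (hH : H.transpose = H) (hn : 0 < n)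
    {E K : ℝ} (hK : 0 < K) (v : Fin n) : ‖Res H (zz E K n) v v‖ ≤ n / K := by
  have hn' : (0 : ℝ) < n := by exact_mod_cast hn
  have hz : 0 < (zz E K n).im := by rw [zz_im]; positivity
  have h1 := Res789.sum_norm_sq_Res hH hz (Pi.single v 1)
  have h2 := (Res789.Res_sieg hH hz).form (Pi.single v 1)
  rw [Res789.star_single_form] at h2
  rw [← h2] at h1
  have h3 : ‖Res789.Res H (zz E K n) v v‖ ^ 2 ≤
      ∑ y, ‖(Matrix.mulVec (Res789.Res H (zz E K n)) (Pi.single v 1)) y‖ ^ 2 := by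
    have := Finset.single_le_sum (f := fun y => ‖(Matrix.mulVec (Res789.Res H (zz E K n))
      (Pi.single v 1)) y‖ ^ 2) (fun y _ => sq_nonneg _) (Finset.mem_univ v)
    simpa using this
  have h4 : (Res789.Res H (zz E K n) v v).im ≤ ‖Res789.Res H (zz E K n) v v‖ :=
    (le_abs_self _).trans (Complex.abs_im_le_norm _)
  set x := ‖Res789.Res H (zz E K n) v v‖ with hx
  have h5 : (zz E K n).im * x ^ 2 ≤ x := by
    calc (zz E K n).im * x ^ 2 ≤ _ := mul_le_mul_of_nonneg_left h3 hz.le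
      _ = _ := h1
      _ ≤ x := h4
  have hx0 : 0 ≤ x := norm_nonneg _
  have h6 : (zz E K n).im * x ≤ 1 := by
    rcases hx0.eq_or_lt with h | h
    · rw [← h]; simp
    · have : (zz E K n).im * x * x ≤ 1 * x := by
        calc _ = (zz E K n).im * x ^ 2 := by ring
          _ ≤ x := h5
          _ = 1 * x := by ring
      exact le_of_mul_le_mul_right this h
  rw [zz_im] at h6
  show x ≤ n / K
  rw [le_div_iff₀ hK]
  rw [div_mul_eq_mul_div, div_le_one hn'] at h6
  linarith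

/-! ### good cavity block implies bounded resolvent -/

attribute [local instance] Matrix.linftyOpNormedRing Matrix.linftyOpNormedAlgebra

open Stab269 in
lemma norm_block_le {B : Matrix (Fin 2) (Fin 2) ℂ} (hB : RegB B) {m : ℂ}
    (hm : 2 * Complex.normSq m ≤ 1)
    (h : bnorm (cavB B - m • (1 : Matrix (Fin 2) (Fin 2) ℂ)) ≤ 1 / 16) (i j : Fin 2) :
    ‖B i j‖ ≤ 8 := by
  set X := cavB B with hX
  set Δ := X - m • (1 : Matrix (Fin 2) (Fin 2) ℂ) with hΔ
  have e2 : (B⁻¹ - W2) * X = 1 := Matrix.mul_nonsing_inv _ hB.det0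
  have b1 : B * B⁻¹ = 1 := Matrix.mul_nonsing_inv _ hB.det
  have f2 : B * (1 + W2 * X) = X := by
    have h1 : 1 + W2 * X = B⁻¹ * X := by
      rw [sub_mul] at e2
      rw [← e2]; abel
    rw [h1, ← mul_assoc, b1, one_mul]
  have hWW : W2 * W2 = 1 := by
    ext i j
    fin_cases i <;> fin_cases j <;> simp [W2, Matrix.mul_apply, Fin.sum_univ_two]
  have hXe : X = m • (1 : Matrix (Fin 2) (Fin 2) ℂ) + Δ := by rw [hΔ]; abel
  have h3 : B * (1 + m • W2) = X - B * W2 * Δ := by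
    have h4 : 1 + W2 * X = 1 + m • W2 + W2 * Δ := by
      rw [hXe, mul_add, Matrix.mul_smul, mul_one]; abel
    rw [h4, mul_add] at f2
    rw [← f2, ← mul_assoc]
    abel
  have h5 : (1 + m • W2) * (1 - m • W2) = (1 - m ^ 2) • (1 : Matrix (Fin 2) (Fin 2) ℂ) := by
    have h51 : (1 + m • W2) * (1 - m • W2) = 1 - m ^ 2 • (W2 * W2) := by
      simp only [mul_sub, add_mul, one_mul, mul_one, Matrix.smul_mul, Matrix.mul_smul, smul_smul,
        sq]
      abel
    rw [h51, hWW, sub_smul, one_smul]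
  have h6 : (1 - m ^ 2) • B = (X - B * W2 * Δ) * (1 - m • W2) := by
    rw [← h3, mul_assoc, h5, Matrix.mul_smul, mul_one]
  have hn1 : ‖(1 : Matrix (Fin 2) (Fin 2) ℂ)‖ = 1 := norm_one
  have hΔn : ‖Δ‖ ≤ 1 / 8 := by
    have h7 := norm_le_of_entries (A := Δ) (c := 1 / 16) (fun i j =>
      (by
        have h8 : ‖Δ i j‖ ≤ bnorm Δ := by
          unfold bnorm
          fin_cases i <;> fin_cases j <;> simp
        exact h8.trans h))
    linarith
  have hXn : ‖X‖ ≤ ‖m‖ + 1 / 8 := by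
    rw [hXe]
    refine (norm_add_le _ _).trans ?_
    have h7 : ‖m • (1 : Matrix (Fin 2) (Fin 2) ℂ)‖ ≤ ‖m‖ := by
      rw [norm_smul, hn1, mul_one]
    linarith
  have hmn : ‖m‖ ^ 2 ≤ 1 / 2 := by
    rw [Complex.normSq_eq_norm_sq] at hm; linarith
  have hm0 := norm_nonneg m
  have hm1 : ‖m‖ ≤ 71 / 100 := by nlinarith
  have hlow : (1 - ‖m‖) * (1 + ‖m‖) ≤ ‖(1 : ℂ) - m ^ 2‖ := by
    have h8 := norm_sub_norm_le (1 : ℂ) (m ^ 2)
    rw [norm_one, norm_pow] at h8
    nlinarith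
  have h9 : ‖(1 : ℂ) - m ^ 2‖ * ‖B‖ ≤ (‖X‖ + ‖B‖ * (1 / 8)) * (1 + ‖m‖) := by
    rw [← norm_smul, h6]
    refine (norm_mul_le _ _).trans ?_
    have h10 : ‖X - B * W2 * Δ‖ ≤ ‖X‖ + ‖B‖ * (1 / 8) := by
      refine (norm_sub_le _ _).trans ?_
      have h11 : ‖B * W2 * Δ‖ ≤ ‖B‖ * (1 / 8) := by
        refine (norm_mul_le _ _).trans ?_
        have h12 : ‖B * W2‖ ≤ ‖B‖ * 1 :=
          (norm_mul_le _ _).trans (mul_le_mul_of_nonneg_left norm_W2_le (norm_nonneg _))
        rw [mul_one] at h12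
        exact mul_le_mul h12 hΔn (norm_nonneg _) (norm_nonneg _)
      linarith
    have h13 : ‖1 - m • W2‖ ≤ 1 + ‖m‖ := by
      refine (norm_sub_le _ _).trans ?_
      rw [hn1, norm_smul]
      have := mul_le_mul_of_nonneg_left norm_W2_le hm0
      linarith
    exact mul_le_mul h10 h13 (norm_nonneg _) (by positivity)
  have hB0 := norm_nonneg B
  have h14 : (1 - ‖m‖) * ‖B‖ ≤ ‖X‖ + ‖B‖ * (1 / 8) := by
    have h15 : (1 - ‖m‖) * ‖B‖ * (1 + ‖m‖) ≤ (‖X‖ + ‖B‖ * (1 / 8)) * (1 + ‖m‖) := by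
      calc (1 - ‖m‖) * ‖B‖ * (1 + ‖m‖) = (1 - ‖m‖) * (1 + ‖m‖) * ‖B‖ := by ring
        _ ≤ ‖(1 : ℂ) - m ^ 2‖ * ‖B‖ := mul_le_mul_of_nonneg_right hlow hB0
        _ ≤ _ := h9
    exact le_of_mul_le_mul_right h15 (by linarith)
  have h16 : ‖B‖ ≤ 8 := by nlinarith
  exact (entry_le_norm B i j).trans h16

/-- a good half-edge has a bounded resolvent entry -/
lemma qv_le_of_dev {p : Equiv.Perm (HE n d)} (hp : IsPort p) (hd : 3 ≤ d) (hn : 0 < n) {E K : ℝ}
    (hK : 0 < K) {h : HE n d} (hD : SpecA.dev p 0 0 (zz E K n) h ≤ 1 / 16) : qv E K p h ≤ 8 := by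
  have hn' : (0 : ℝ) < n := by exact_mod_cast hn
  have hz : 0 < (zz E K n).im := by rw [zz_im]; positivity
  have hm := (Root355.mc_isRoot (d := d) (by omega) hz).b_normSq_le hz.le
  have hd' : (3 : ℝ) ≤ d := by exact_mod_cast hd
  have hm2 : 2 * Complex.normSq (mc d (zz E K n)) ≤ 1 := by
    have h0 := Complex.normSq_nonneg (mc d (zz E K n))
    nlinarith
  have := norm_block_le (Stab269.regB_BE hp 0 0 hz h) hm2 hD 0 0
  simpa [Stab269.BE, Blk, qv] using this

open Classical in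
/-- (31.4) at fixed `n` -/
theorem base_fixed (hn : 0 < n) (hd : 0 < d) {E K0 : ℝ}
    {D : ℝ → Equiv.Perm (HE n d) → HE n d → ℝ} {ne : Equiv.Perm (HE n d) → HE n d → Prop}
    {r M0 v e1 c : ℝ}
    (hne : (Ports n d).Nonempty)
    (hR : ∀ K p h, K0 ≤ K → IsPort p → D K p h ≤ r → qv E K p h ≤ M0) (hM0 : 1 ≤ M0)
    (hK0 : 0 < K0) (he1 : 0 ≤ e1) (hc : 0 ≤ c)
    (hEV : ∀ K, K0 ≤ K → K ≤ n → (av fun p : {p // p ∈ Ports n d} =>
      if VV (fun p : {p // p ∈ Ports n d} => D K p.1) p ≤ v then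
        VV (fun p : {p // p ∈ Ports n d} => D K p.1) p else 0) ≤ e1 / K)
    (hP : ∀ K, K0 ≤ K → K ≤ n → (av fun p : {p // p ∈ Ports n d} =>
      if VV (fun p : {p // p ∈ Ports n d} => D K p.1) p ≤ 1 / Real.sqrt K then
        pne (fun p : {p // p ∈ Ports n d} => D K p.1) (fun p => ne p.1) r p else 0) ≤
        c / (K * Real.sqrt K))
    (a : ℕ) (ha : K0 * 2 ^ a ≤ n) {ε : ℝ} (hε : 0 < ε) :
    (av fun p : {p // p ∈ Ports n d} => if ε < (av fun h => if ne p.1 h ∧
        M0 * 2 ^ a < qv E K0 p.1 h then qv E K0 p.1 h else 0) then (1 : ℝ) else 0) ≤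
      (av fun p : {p // p ∈ Ports n d} => if ∀ K, K0 ≤ K → K ≤ n →
        VV (fun p : {p // p ∈ Ports n d} => D K p.1) p ≤ v then (0 : ℝ) else 1) +
      4 * e1 / Real.sqrt K0 +
      8 * M0 * c / (K0 * Real.sqrt K0) * ((Real.sqrt 2)⁻¹) ^ a / ε := by
  have : Nonempty {p // p ∈ Ports n d} := hne.to_subtype
  have : Nonempty (HE n d) := ⟨(⟨0, hn⟩, ⟨0, hd⟩)⟩
  have hn' : (0 : ℝ) < n := by exact_mod_cast hn
  -- the number of scales
  have hx1 : (1 : ℝ) ≤ n / K0 := by
    rw [le_div_iff₀ hK0, one_mul]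
    have : (1 : ℝ) ≤ 2 ^ a := one_le_pow₀ (by norm_num)
    nlinarith
  obtain ⟨J, hJ1, hJ2⟩ := exists_nat_pow_near hx1 (by norm_num : (1 : ℝ) < 2)
  have haJ : a ≤ J := by
    by_contra hcon
    push Not at hcon
    have h1 : (2 : ℝ) ^ (J + 1) ≤ 2 ^ a := pow_le_pow_right₀ (by norm_num) (by omega)
    have h2 : (2 : ℝ) ^ a ≤ n / K0 := by
      rw [le_div_iff₀ hK0, mul_comm]; exact ha
    linarith
  have hscale : ∀ j, j ≤ J → K0 * 2 ^ j ≤ n := by
    intro j hj
    have h1 : (2 : ℝ) ^ j ≤ 2 ^ J := pow_le_pow_right₀ (by norm_num) hj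
    have h2 : (2 : ℝ) ^ j ≤ n / K0 := h1.trans hJ1
    rw [le_div_iff₀ hK0] at h2
    linarith
  have hge : ∀ j : ℕ, K0 ≤ K0 * 2 ^ j := by
    intro j
    have : (1 : ℝ) ≤ 2 ^ j := one_le_pow₀ (by norm_num)
    nlinarith
  set DD : ℕ → {p // p ∈ Ports n d} → HE n d → ℝ := fun j p => D (K0 * 2 ^ j) p.1 with hDD
  have hesc := escape (D := DD) (ne := fun p : {p // p ∈ Ports n d} => ne p.1) (J := J) hK0 hc
    (fun j hj => hP _ (hge j) (hscale j hj))
    (fun p h => qv E K0 p.1 h) (M0 := M0) (by linarith) haJ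
    (by
      intro p h
      have hp := mem_Ports.1 p.2
      have h1 : qv E K0 p.1 h ≤ n / K0 :=
        norm_Res_le_div (Stab269.Hm_symm _ _ _) hn hK0 h.1
      have h2 : (n : ℝ) / K0 ≤ 2 ^ (J + 1) := hJ2.le
      have h3 : (0 : ℝ) < 2 ^ (J + 1) := by positivity
      nlinarith)
    (by
      intro p h j hj hlt
      by_contra hcon
      push Not at hcon
      have hp := mem_Ports.1 p.2
      have h1 := hR (K0 * 2 ^ (j + a)) p.1 h (hge _) hp hcon
      have h2 : qv E K0 p.1 h ≤ 2 ^ (j + a) * qv E (K0 * 2 ^ (j + a)) p.1 h :=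
        norm_Res_scale (Stab269.Hm_symm _ _ _) hn hK0 (hge _) (le_of_eq (mul_comm _ _)) h.1
      have h3 : (0 : ℝ) < 2 ^ (j + a) := by positivity
      nlinarith)
  have hgood := prob_not_good (D := DD) (J := J) hK0 he1
    (fun j hj => hEV _ (hge j) (hscale j hj))
  -- Markov
  have hM : (av fun p : {p // p ∈ Ports n d} => if ε < (av fun h => if ne p.1 h ∧
        M0 * 2 ^ a < qv E K0 p.1 h then qv E K0 p.1 h else 0) then (1 : ℝ) else 0) ≤
      (av fun p : {p // p ∈ Ports n d} => (if Good DD K0 J p then (0 : ℝ) else 1)) +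
      (av fun p : {p // p ∈ Ports n d} => if Good DD K0 J p then (av fun h => if ne p.1 h ∧
        M0 * 2 ^ a < qv E K0 p.1 h then qv E K0 p.1 h else 0) else 0) / ε := by
    rw [div_eq_mul_inv, ← av_mul_right, ← av_add]
    apply av_mono
    intro p
    have hnn : 0 ≤ (av fun h => if ne p.1 h ∧
        M0 * 2 ^ a < qv E K0 p.1 h then qv E K0 p.1 h else 0) :=
      av_nonneg fun h => by
        split_ifs
        · exact qv_nonneg _ _ _ _
        · exact le_rfl
    by_cases hg : Good DD K0 J p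
    · rw [if_pos hg, if_pos hg, zero_add]
      split_ifs with h
      · rw [← div_eq_mul_inv, le_div_iff₀ hε, one_mul]
        exact h.le
      · exact mul_nonneg hnn (inv_nonneg.2 hε.le)
    · rw [if_neg hg, if_neg hg, zero_mul, add_zero]
      split_ifs <;> norm_num
  refine hM.trans ?_
  have h1 : (av fun p : {p // p ∈ Ports n d} => if ∀ j, j ≤ J → VV (DD j) p ≤ v then (0 : ℝ)
      else 1) ≤ (av fun p : {p // p ∈ Ports n d} => if ∀ K, K0 ≤ K → K ≤ n →
        VV (fun p : {p // p ∈ Ports n d} => D K p.1) p ≤ v then (0 : ℝ) else 1) := by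
    apply av_mono
    intro p
    by_cases h : ∀ K, K0 ≤ K → K ≤ n → VV (fun p : {p // p ∈ Ports n d} => D K p.1) p ≤ v
    · rw [if_pos h, if_pos]
      intro j hj
      exact h _ (hge j) (hscale j hj)
    · rw [if_neg h]
      split_ifs <;> norm_num
  have h2 : (av fun p : {p // p ∈ Ports n d} => if Good DD K0 J p then (av fun h => if ne p.1 h ∧
        M0 * 2 ^ a < qv E K0 p.1 h then qv E K0 p.1 h else 0) else 0) / ε ≤
      8 * M0 * c / (K0 * Real.sqrt K0) * ((Real.sqrt 2)⁻¹) ^ a / ε :=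
    div_le_div_of_nonneg_right hesc hε.le
  linarith

end ports

end Crest.Agent.R166.Clean566
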