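import Mathlib
import Crest.Agent.R166.UppFin_724
import Crest.Agent.R166.Count_674
import Crest.Agent.R166.NoiseVol_547

/-!
# R166, 40.7 (U), part 6: the upper inequality with the exact count of helper674 (helper724)
-/

set_option autoImplicit false
set_option linter.unusedSectionVars false
set_option linter.unusedSimpArgs false

namespace Crest.Agent.R166.Upp724

open Finset MeasureTheory PairCount356

lemma starOf_eq {V S : Type} {d : ℕ} (p : Equiv.Perm (V × Fin d)) (c : V → S) :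
    starOf (⇑p) c = Count674.starOf p c := rfl

lemma clsCard_eq {n d : ℕ} {S : Type} [Fintype S] [DecidableEq S]
    (p0 : Equiv.Perm (Fin n × Fin d)) (c0 : Fin n → S) :
    clsCard p0 c0 = (Count674.cls (Fin n) (Count674.starCnt p0 c0)).card := by
  classical
  have h1 : ∀ (p : Equiv.Perm (Fin n × Fin d)) (c : Fin n → S),
      c ∈ FF (⇑p) p0 c0 ↔ Count674.starCnt p c = Count674.starCnt p0 c0 := by
    intro p c
    rw [mem_FF, funext_iff]
    refine forall_congr' fun t => ?_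
    unfold cnt Count674.starCnt
    rw [starOf_eq, starOf_eq]
    constructor
    · intro h
      convert h using 3
    · intro h
      convert h using 3
  have h2 : Count674.cls (Fin n) (Count674.starCnt p0 c0) =
      (pairings (Fin n × Fin d)).biUnion fun p => (FF (⇑p) p0 c0).image fun c => (p, c) := by
    ext ⟨p, c⟩
    simp only [Count674.cls, mem_filter, mem_product, mem_univ, and_true, mem_biUnion, mem_image,
      Prod.mk.injEq]
    constructor
    · rintro ⟨hp, hc⟩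
      exact ⟨p, hp, c, (h1 p c).2 hc, rfl, rfl⟩
    · rintro ⟨p', hp', c', hc', rfl, rfl⟩
      exact ⟨hp', (h1 _ _).1 hc'⟩
  rw [h2, card_biUnion, clsCard]
  · refine sum_congr rfl fun p _ => ?_
    rw [card_image_of_injective]
    intro c c' h
    exact (Prod.mk.inj h).2
  · intro p _ p' _ hne
    simp only [Function.onFun]
    rw [disjoint_left]
    rintro ⟨x, c⟩ hx hx'
    rw [mem_image] at hx hx'
    obtain ⟨_, _, h3⟩ := hx
    obtain ⟨_, _, h4⟩ := hx'
    exact hne ((Prod.mk.inj h3).1.trans (Prod.mk.inj h4).1.symm)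

/-- the ellipsoid volume in the form used here (from helper547's `ellipsoid_vol_le`) -/
theorem ellVol {n d k : ℕ} (p : Fin n × Fin d → Fin n × Fin d) (hp : ∀ x, p (p x) = x)
    (s E η c : ℝ) (hη : 0 < η) (hc : 0 < c) (ω : Fin n → ℝ) (q : ℝ) (hq : 0 < q) :
    EllVol k p hp s E η c ω q := by
  unfold EllVol
  set hH := Hp_isHermitian p hp s ω with hHdef
  have hg : ∀ i, 0 < Noise547.geta E η c (hH.eigenvalues i) := fun i => Noise547.geta_pos hη hc _
  have hcη : 0 < c * η := mul_pos hc hη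
  have hvol := Noise547.ellipsoid_vol_le hH hg hq k
  have hquad : ∀ y : Fin n → Fin k → ℝ, ∑ v, Qs k p s E η ω y v =
      c * η * ∑ κ, ∑ x, ∑ z, y x κ * Noise547.fM hH (fun t => (Noise547.geta E η c t)⁻¹) x z *
        y z κ := by
    intro y
    rw [sum_Qs, mul_sum]
    refine sum_congr rfl fun κ _ => ?_
    have h1 := Noise547.geta_inv_quad hH (E := E) hη hc (fun v => y v κ)
    rw [h1, ← mul_assoc, mul_inv_cancel₀ hcη.ne', one_mul]
    rfl
  have hmeas : MeasurableSet {x : Fin n × Fin k → ℝ |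
      ∑ v, Qs k p s E η ω (fun v κ => x (v, κ)) v ≤ c * η * (Fintype.card (Fin n) * k * q)} := by
    refine measurableSet_le ?_ measurable_const
    unfold Qs
    fun_prop
  rw [← Noise547.uncurry_volume, Measure.map_apply (by fun_prop) hmeas]
  have hset : ((fun (y : Fin n → Fin k → ℝ) (p : Fin n × Fin k) => y p.1 p.2) ⁻¹'
      {x : Fin n × Fin k → ℝ | ∑ v, Qs k p s E η ω (fun v κ => x (v, κ)) v ≤
        c * η * (Fintype.card (Fin n) * k * q)}) = {y : Fin n → Fin k → ℝ |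
        ∑ κ, ∑ x, ∑ z, y x κ * Noise547.fM hH (fun t => (Noise547.geta E η c t)⁻¹) x z * y z κ ≤
          (Fintype.card (Fin n) * k : ℝ) * q} := by
    ext y
    simp only [Set.mem_preimage, Set.mem_ofPred_eq]
    rw [hquad y]
    exact mul_le_mul_iff_right₀ hcη
  rw [hset]
  refine hvol.trans (ENNReal.ofReal_le_ofReal (Real.exp_le_exp.2 (le_of_eq ?_)))
  unfold logdet
  ring

/-- (U) = section 40.7: the upper inequality; the radius `a0` does not depend on the cells. -/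
theorem upper_unif (d k : ℕ) (W : ℝ) (hW0 : 0 ≤ W) (s E η c : ℝ) (hη : 0 < η) (hc : 0 < c)
    (ε : ℝ) (hε : 0 < ε) :
    ∃ a0 : ℕ, ∀ (M : ℕ) (A : Type) [Fintype A] (w : A → ℝ) (_ : ∀ x, |w x| ≤ W)
      (L D : ℝ) (_ : 0 < D) (qmin : ℝ) (_ : 0 < qmin),
      ∀ a ≥ a0, ∃ ε' : ℝ, 0 < ε' ∧ ∃ N : ℕ, ∀ n ≥ N,
      ∀ (p0 : Equiv.Perm (Fin n × Fin d)) (hp0 : IsPairing p0),
      (nBad a ⇑p0 : ℝ) ≤ ε' * n → ∀ (o : Fin n → A) (y : Fin n → Fin k → Fin M) (q : ℝ),
      qmin ≤ q →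
      (1 + D) * ∑ v, Qs k ⇑p0 s E η (w ∘ o) (fun v κ => lo L D (y v κ)) v +
        n * (k * errQ d E s W η D) ≤ c * η * (n * k * q) →
      Count674.Psi n (Count674.starCnt p0 (fun v => ((viewOf (⇑p0) o a v, y v) :
          View A (Fin d) a × (Fin k → Fin M)))) ≤
      Real.log (Fintype.card A) - k * Real.log D +
        k / 2 * Real.log (2 * Real.pi * Real.exp 1 * q) +
        k / 2 * (logdet (Hp_isHermitian ⇑p0 hp0.1 s (w ∘ o)) E η c / n) + ε := by
  obtain ⟨a0, h0⟩ := upper_unif_of d k W hW0 s E η c hη hc ε hε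
    fun _ p hp ω q _ hq => ellVol p hp s E η c hη hc ω q hq
  refine ⟨a0, fun M A _ w hW L D hD qmin hqmin a ha => ?_⟩
  obtain ⟨ε', hε', h1⟩ := h0 M A w hW L D hD qmin hqmin a ha
  refine ⟨ε', hε', ?_⟩
  obtain ⟨N, hN⟩ := h1 (Count674.cC (View A (Fin d) a × (Fin k → Fin M)) d)
  refine ⟨max N 1, fun n hn p0 hp0 hbad o y q hq hQ => ?_⟩
  have hn1 : 1 ≤ n := (le_max_right _ _).trans hn
  refine hN n ((le_max_left _ _).trans hn) p0 hp0 hbad o y q hq hQ _ ?_
  rw [clsCard_eq]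
  have h2 := Count674.card_cls_ge (V := Fin n) (Count674.starCnt p0
    (fun v => ((viewOf (⇑p0) o a v, y v) : View A (Fin d) a × (Fin k → Fin M))))
    (by simpa using hn1) ⟨(p0, _), by
      simp only [Count674.cls, mem_filter, mem_product, mem_univ, and_true]
      exact ⟨(mem_pairings p0).2 hp0, rfl⟩⟩
  simpa using h2

/-- (U) = section 40.7: the upper inequality. -/
theorem upper {d k M : ℕ} {A : Type} [Fintype A] (w : A → ℝ) (W : ℝ) (hW : ∀ x, |w x| ≤ W)
    (hW0 : 0 ≤ W) (s E η c : ℝ) (hη : 0 < η) (hc : 0 < c) (L D : ℝ) (hD : 0 < D)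
    (qmin : ℝ) (hqmin : 0 < qmin) (ε : ℝ) (hε : 0 < ε) :
    ∃ a0 : ℕ, ∀ a ≥ a0, ∃ ε' : ℝ, 0 < ε' ∧ ∃ N : ℕ, ∀ n ≥ N,
      ∀ (p0 : Equiv.Perm (Fin n × Fin d)) (hp0 : IsPairing p0),
      (nBad a ⇑p0 : ℝ) ≤ ε' * n → ∀ (o : Fin n → A) (y : Fin n → Fin k → Fin M) (q : ℝ),
      qmin ≤ q →
      (1 + D) * ∑ v, Qs k ⇑p0 s E η (w ∘ o) (fun v κ => lo L D (y v κ)) v +
        n * (k * errQ d E s W η D) ≤ c * η * (n * k * q) →
      Count674.Psi n (Count674.starCnt p0 (fun v => ((viewOf (⇑p0) o a v, y v) :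
          View A (Fin d) a × (Fin k → Fin M)))) ≤
      Real.log (Fintype.card A) - k * Real.log D +
        k / 2 * Real.log (2 * Real.pi * Real.exp 1 * q) +
        k / 2 * (logdet (Hp_isHermitian ⇑p0 hp0.1 s (w ∘ o)) E η c / n) + ε := by
  obtain ⟨a0, h⟩ := upper_unif d k W hW0 s E η c hη hc ε hε
  exact ⟨a0, h M A w hW L D hD qmin hqmin⟩

end Crest.Agent.R166.Upp724
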