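import Mathlib
import Crest.Agent.R166.Upp_724
import Crest.Agent.R166.Lev_47

/-!
# R166, 40.7 (U) -> limit, part 1: the deterministic core (helper724)
-/

set_option autoImplicit false
set_option linter.unusedSectionVars false
set_option linter.unusedSimpArgs false

namespace Crest.Agent.R166.Upp724

open Finset MeasureTheory PairCount356

/-! ### Comparison of log-determinants for two diagonals -/

section trace
variable {V : Type} [Fintype V] [DecidableEq V]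

/-- maximal absolute row sum -/
def RowLe (M : Matrix V V ℝ) (R : ℝ) : Prop := ∀ x, ∑ y, |M x y| ≤ R

lemma RowLe.mul {M N : Matrix V V ℝ} {R S : ℝ} (hM : RowLe M R) (hN : RowLe N S) (hS : 0 ≤ S) :
    RowLe (M * N) (R * S) := by
  intro x
  calc ∑ y, |(M * N) x y| ≤ ∑ y, ∑ z, |M x z| * |N z y| := by
        refine sum_le_sum fun y _ => ?_
        rw [Matrix.mul_apply]
        refine (abs_sum_le_sum_abs _ _).trans (sum_le_sum fun z _ => ?_)
        rw [abs_mul]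
    _ = ∑ z, |M x z| * ∑ y, |N z y| := by
        rw [sum_comm]
        exact sum_congr rfl fun z _ => by rw [mul_sum]
    _ ≤ ∑ z, |M x z| * S := by
        refine sum_le_sum fun z _ => ?_
        exact mul_le_mul_of_nonneg_left (hN z) (abs_nonneg _)
    _ ≤ R * S := by
        rw [← sum_mul]
        exact mul_le_mul_of_nonneg_right (hM x) hS

lemma RowLe.add {M N : Matrix V V ℝ} {R S : ℝ} (hM : RowLe M R) (hN : RowLe N S) :
    RowLe (M + N) (R + S) := by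
  intro x
  calc ∑ y, |(M + N) x y| ≤ ∑ y, (|M x y| + |N x y|) :=
        sum_le_sum fun y _ => abs_add_le _ _
    _ ≤ R + S := by rw [sum_add_distrib]; exact add_le_add (hM x) (hN x)

lemma RowLe.mono {M : Matrix V V ℝ} {R S : ℝ} (hM : RowLe M R) (h : R ≤ S) : RowLe M S :=
  fun x => (hM x).trans h

lemma rowLe_one : RowLe (1 : Matrix V V ℝ) 1 := by
  intro x
  rw [sum_eq_single x]
  · simp
  · intro y _ hy
    rw [Matrix.one_apply_ne (Ne.symm hy), abs_zero]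
  · simp

lemma RowLe.pow {M : Matrix V V ℝ} {R : ℝ} (hM : RowLe M R) (hR : 0 ≤ R) (j : ℕ) :
    RowLe (M ^ j) (R ^ j) := by
  induction j with
  | zero => simpa using rowLe_one
  | succ j ih =>
    rw [pow_succ, pow_succ]
    exact ih.mul hM hR

lemma RowLe.pow_sub {M N : Matrix V V ℝ} {R δ : ℝ} (hM : RowLe M R) (hN : RowLe N R)
    (hR : 0 ≤ R) (hδ : 0 ≤ δ) (h : RowLe (M - N) δ) (j : ℕ) :
    RowLe (M ^ j - N ^ j) (j * (R + 1) ^ j * δ) := by
  induction j with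
  | zero =>
    intro x
    simp
  | succ j ih =>
    have e : M ^ (j + 1) - N ^ (j + 1) = (M ^ j - N ^ j) * M + N ^ j * (M - N) := by
      rw [pow_succ, pow_succ]
      noncomm_ring
    rw [e]
    refine ((ih.mul hM hR).add ((hN.pow hR j).mul h hδ)).mono ?_
    push_cast
    have h1 : R ^ j ≤ (R + 1) ^ j := pow_le_pow_left₀ hR (by linarith) _
    have h2 : 0 ≤ (R + 1) ^ j * δ := by positivity
    have h3 : R ^ j * δ ≤ (R + 1) ^ j * δ := mul_le_mul_of_nonneg_right h1 hδ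
    have h4 : (R + 1) ^ j * δ ≤ (R + 1) * ((R + 1) ^ j * δ) := by nlinarith
    have h5 : (j : ℝ) * (R + 1) ^ j * δ * R ≤ (j : ℝ) * ((R + 1) * ((R + 1) ^ j * δ)) := by
      have : (0 : ℝ) ≤ j := by positivity
      nlinarith [mul_nonneg this h2]
    calc (j : ℝ) * (R + 1) ^ j * δ * R + R ^ j * δ ≤
        (j : ℝ) * ((R + 1) * ((R + 1) ^ j * δ)) + (R + 1) * ((R + 1) ^ j * δ) := by linarith
      _ = _ := by ring

lemma RowLe.trace {M : Matrix V V ℝ} {R : ℝ} (hM : RowLe M R) :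
    |M.trace| ≤ Fintype.card V * R := by
  calc |M.trace| ≤ ∑ x, |M x x| := abs_sum_le_sum_abs _ _
    _ ≤ ∑ _x : V, R := by
        refine sum_le_sum fun x _ => ?_
        exact (single_le_sum (f := fun y => |M x y|) (fun y _ => abs_nonneg _)
          (mem_univ x)).trans (hM x)
    _ = Fintype.card V * R := by rw [sum_const, card_univ, nsmul_eq_mul]

/-- constant in the trace comparison -/
noncomputable def cP (P : Polynomial ℝ) (R : ℝ) : ℝ :=
  ∑ j ∈ P.support, |P.coeff j| * (j * (R + 1) ^ j)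

lemma trace_aeval_sub {M N : Matrix V V ℝ} {R δ : ℝ} (hM : RowLe M R) (hN : RowLe N R)
    (hR : 0 ≤ R) (hδ : 0 ≤ δ) (h : RowLe (M - N) δ) (P : Polynomial ℝ) :
    |(Polynomial.aeval M P).trace - (Polynomial.aeval N P).trace| ≤
      Fintype.card V * (cP P R * δ) := by
  have e : ∀ M : Matrix V V ℝ, (Polynomial.aeval M P).trace =
      ∑ j ∈ P.support, P.coeff j * (M ^ j).trace := by
    intro M
    rw [Polynomial.aeval_eq_sum_range' (lt_add_one _), Matrix.trace_sum]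
    rw [← Finset.sum_subset (Polynomial.supp_subset_range_natDegree_succ (p := P))]
    · exact sum_congr rfl fun j _ => by rw [Matrix.trace_smul, smul_eq_mul]
    · intro j _ hj
      rw [Polynomial.notMem_support_iff.1 hj]
      simp
  rw [e, e, ← sum_sub_distrib]
  refine (abs_sum_le_sum_abs _ _).trans ?_
  rw [cP, sum_mul, mul_sum]
  refine sum_le_sum fun j _ => ?_
  rw [← mul_sub, abs_mul, ← Matrix.trace_sub]
  calc |P.coeff j| * |(M ^ j - N ^ j).trace| ≤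
      |P.coeff j| * (Fintype.card V * (j * (R + 1) ^ j * δ)) :=
        mul_le_mul_of_nonneg_left ((hM.pow_sub hN hR hδ h j).trace) (abs_nonneg _)
    _ = _ := by ring

end trace

section
variable {V I : Type} [Fintype V] [DecidableEq V] [Fintype I] [DecidableEq I]

lemma rowLe_Hp (p : V × I → V × I) (s : ℝ) {ω : V → ℝ} (hω : ∀ v, |ω v| ≤ 1) :
    RowLe (Hp p s ω) (Fintype.card I + |s|) := by
  intro v
  have h1 : ∀ w, |Hp p s ω v w| ≤ (∑ i, if (p (v, i)).1 = w then (1 : ℝ) else 0) +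
      if v = w then |s| else 0 := by
    intro w
    rw [Hp, Matrix.add_apply, Matrix.smul_apply, adjP, smul_eq_mul]
    refine (abs_add_le _ _).trans (add_le_add (le_of_eq (abs_of_nonneg ?_)) ?_)
    · exact sum_nonneg fun i _ => by split_ifs <;> norm_num
    · by_cases h : v = w
      · subst h
        rw [Matrix.diagonal_apply_eq, if_pos rfl, abs_mul]
        exact mul_le_of_le_one_right (abs_nonneg _) (hω v)
      · rw [Matrix.diagonal_apply_ne _ h, if_neg h]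
        simp
  refine (sum_le_sum fun w _ => h1 w).trans (le_of_eq ?_)
  rw [sum_add_distrib, sum_comm]
  simp

lemma rowLe_Hp_sub (p : V × I → V × I) (s : ℝ) {ω ω' : V → ℝ} {δ : ℝ}
    (h : ∀ v, |ω v - ω' v| ≤ δ) :
    RowLe (Hp p s ω - Hp p s ω') (|s| * δ) := by
  intro v
  rw [sum_eq_single v]
  · simp only [Hp, Matrix.sub_apply, Matrix.add_apply, Matrix.smul_apply, smul_eq_mul,
      Matrix.diagonal_apply_eq]
    have e : adjP p v v + s * ω v - (adjP p v v + s * ω' v) = s * (ω v - ω' v) := by ring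
    rw [e, abs_mul]
    exact mul_le_mul_of_nonneg_left (h v) (abs_nonneg _)
  · intro w _ hw
    simp only [Hp, Matrix.sub_apply, Matrix.add_apply, Matrix.smul_apply, smul_eq_mul,
      Matrix.diagonal_apply_ne _ (Ne.symm hw)]
    simp
  · simp

end

/-- the log-determinant is continuous in the potential, uniformly in the graph -/
theorem logdet_cont (d : ℕ) (s E η c : ℝ) (hη : 0 < η) (hc : 0 < c) (ε : ℝ) (hε : 0 < ε) :
    ∃ δ : ℝ, 0 < δ ∧ ∀ (n : ℕ) (p : Fin n × Fin d → Fin n × Fin d) (hp : ∀ x, p (p x) = x)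
      (ω ω' : Fin n → ℝ), (∀ v, |ω v| ≤ 1) → (∀ v, |ω' v| ≤ 1) → (∀ v, |ω v - ω' v| ≤ δ) →
      |logdet (Hp_isHermitian p hp s ω) E η c - logdet (Hp_isHermitian p hp s ω') E η c| ≤
        ε * n := by
  set f : ℝ → ℝ := fun x => Real.log (Noise547.geta E η c x) with hf
  have hfc : Continuous f := (Noise547.continuous_geta hη).log fun x =>
    (Noise547.geta_pos hη hc x).ne'
  set R : ℝ := d + |s| with hR
  have hR0 : 0 ≤ R := by positivity
  obtain ⟨P, hP⟩ := Noise547.exists_poly hfc R (ε := ε / 3) (by positivity)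
  have hcP : 0 ≤ cP P R := sum_nonneg fun j _ => by positivity
  refine ⟨ε / 3 / (cP P R * |s| + 1), by positivity, fun n p hp ω ω' hω hω' hδ => ?_⟩
  rcases Nat.eq_zero_or_pos n with hn | hn
  · subst hn
    simp [logdet]
  have : Nonempty (Fin n) := ⟨⟨0, hn⟩⟩
  have hn' : (0 : ℝ) < n := by exact_mod_cast hn
  have key : ∀ ω : Fin n → ℝ, (∀ v, |ω v| ≤ 1) →
      |logdet (Hp_isHermitian p hp s ω) E η c - (Polynomial.aeval (Hp p s ω) P).trace| ≤
        ε / 3 * n := by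
    intro ω hω
    have h1 := Noise547.logdet_poly (Hp_isHermitian p hp s ω) (f := f) P (ε := ε / 3) (by
      intro i
      refine hP _ (Noise547.eig_abs_le (Hp_isHermitian p hp s ω) (L := R) ?_ i)
      intro x
      have := rowLe_Hp p s hω x
      simpa using this)
    rw [← sub_div, abs_div, Fintype.card_fin, abs_of_pos hn', div_le_iff₀ hn'] at h1
    exact h1
  have h2 := trace_aeval_sub (R := R) (δ := |s| * (ε / 3 / (cP P R * |s| + 1)))
    (by simpa using rowLe_Hp p s hω) (by simpa using rowLe_Hp p s hω')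
    hR0 (by positivity) (rowLe_Hp_sub p s hδ) P
  have h3 : cP P R * (|s| * (ε / 3 / (cP P R * |s| + 1))) ≤ ε / 3 := by
    have h5 : (0 : ℝ) < cP P R * |s| + 1 := by positivity
    calc cP P R * (|s| * (ε / 3 / (cP P R * |s| + 1))) =
        (ε / 3) * ((cP P R * |s|) / (cP P R * |s| + 1)) := by ring
      _ ≤ (ε / 3) * 1 := by
        refine mul_le_mul_of_nonneg_left ?_ (by positivity)
        rw [div_le_one h5]
        linarith
      _ = ε / 3 := mul_one _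
  have h4 := key ω hω
  have h5 := key ω' hω'
  rw [Fintype.card_fin] at h2
  have h6 : (n : ℝ) * (cP P R * (|s| * (ε / 3 / (cP P R * |s| + 1)))) ≤ n * (ε / 3) :=
    mul_le_mul_of_nonneg_left h3 hn'.le
  rw [abs_le] at h2 h4 h5 ⊢
  constructor <;> nlinarith [h2.1, h2.2, h4.1, h4.2, h5.1, h5.2]

/-! ### Comparison of the quadratic forms -/

lemma sum_move {V I : Type} [Fintype V] [Fintype I] (p : Equiv.Perm (V × I)) (f : V → ℝ) :
    ∑ v, ∑ i, f (p (v, i)).1 = Fintype.card I * ∑ v, f v := by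
  have h1 : ∑ v, ∑ i, f (p (v, i)).1 = ∑ x : V × I, f (p x).1 := by
    rw [Fintype.sum_prod_type]
  rw [h1, Equiv.sum_comp p (fun x => f x.1), Fintype.sum_prod_type, mul_sum]
  exact sum_congr rfl fun v _ => by simp only [sum_const, card_univ, nsmul_eq_mul]

lemma sum_b1_sq {V I : Type} [Fintype V] [Fintype I] (p : Equiv.Perm (V × I)) (s E : ℝ)
    (ω : V → ℝ) (hω : ∀ v, |ω v| ≤ 1) (e : V → ℝ) :
    ∑ v, (∑ i, e (p (v, i)).1 - (E - s * ω v) * e v) ^ 2 ≤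
      2 * ((Fintype.card I : ℝ) ^ 2 + (|E| + |s|) ^ 2) * ∑ v, e v ^ 2 := by
  have h1 : ∀ v, (∑ i, e (p (v, i)).1 - (E - s * ω v) * e v) ^ 2 ≤
      2 * (Fintype.card I * ∑ i, (fun u => e u ^ 2) (p (v, i)).1) +
        2 * ((|E| + |s|) ^ 2 * e v ^ 2) := by
    intro v
    have h2 : (∑ i, e (p (v, i)).1) ^ 2 ≤ Fintype.card I * ∑ i, e (p (v, i)).1 ^ 2 := by
      have := sq_sum_le_card_mul_sum_sq (s := (univ : Finset I)) (f := fun i => e (p (v, i)).1)
      simpa using this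
    have h3 : |E - s * ω v| ≤ |E| + |s| := by
      refine (abs_sub _ _).trans (add_le_add le_rfl ?_)
      rw [abs_mul]
      exact mul_le_of_le_one_right (abs_nonneg _) (hω v)
    have h4 : ((E - s * ω v) * e v) ^ 2 ≤ (|E| + |s|) ^ 2 * e v ^ 2 := by
      rw [mul_pow]
      refine mul_le_mul_of_nonneg_right ?_ (sq_nonneg _)
      rw [← sq_abs]
      exact pow_le_pow_left₀ (abs_nonneg _) h3 2
    nlinarith [sq_nonneg (∑ i, e (p (v, i)).1 + (E - s * ω v) * e v)]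
  refine (sum_le_sum fun v _ => h1 v).trans (le_of_eq ?_)
  rw [sum_add_distrib, ← mul_sum, ← mul_sum, ← mul_sum, ← mul_sum, sum_move p (fun u => e u ^ 2)]
  ring

lemma Qs_cells {V I : Type} [Fintype V] [DecidableEq V] [Fintype I] [DecidableEq I] (k : ℕ)
    (p : Equiv.Perm (V × I)) (s E η : ℝ)
    (ω ω' : V → ℝ) (hω' : ∀ v, |ω' v| ≤ 1) {δ : ℝ} (hδ : 0 ≤ δ) (h : ∀ v, |ω' v - ω v| ≤ δ)
    (x x' : V → Fin k → ℝ) {τ : ℝ} (hτ : 0 < τ) :
    ∑ v, Qs k p s E η ω' x' v ≤ (1 + τ) * ∑ v, Qs k p s E η ω x v +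
      (1 + 1 / τ) * ((4 * ((Fintype.card I : ℝ) ^ 2 + (|E| + |s|) ^ 2) + η ^ 2) *
        ∑ κ, ∑ v, (x' v κ - x v κ) ^ 2 + 2 * s ^ 2 * δ ^ 2 * ∑ κ, ∑ v, x v κ ^ 2) := by
  have hy : ∀ a b : ℝ, (a + b) ^ 2 ≤ (1 + τ) * a ^ 2 + (1 + 1 / τ) * b ^ 2 := by
    intro a b
    have h1 : 0 ≤ (τ * a - b) ^ 2 / τ := by positivity
    have h2 : (τ * a - b) ^ 2 / τ = τ * a ^ 2 - 2 * a * b + 1 / τ * b ^ 2 := by
      field_simp
      try ring
    nlinarith
  unfold Qs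
  rw [sum_comm, sum_comm (f := fun v κ => ((∑ i, x (p (v, i)).1 κ - (E - s * ω v) * x v κ) ^ 2 +
    η ^ 2 * (x v κ) ^ 2))]
  have hκ : ∀ κ, ∑ v, ((∑ i, x' (p (v, i)).1 κ - (E - s * ω' v) * x' v κ) ^ 2 +
      η ^ 2 * (x' v κ) ^ 2) ≤
      (1 + τ) * ∑ v, ((∑ i, x (p (v, i)).1 κ - (E - s * ω v) * x v κ) ^ 2 +
        η ^ 2 * (x v κ) ^ 2) +
      (1 + 1 / τ) * ((4 * ((Fintype.card I : ℝ) ^ 2 + (|E| + |s|) ^ 2) + η ^ 2) *
        ∑ v, (x' v κ - x v κ) ^ 2 + 2 * s ^ 2 * δ ^ 2 * ∑ v, x v κ ^ 2) := by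
    intro κ
    have h1 : ∀ v, (∑ i, x' (p (v, i)).1 κ - (E - s * ω' v) * x' v κ) ^ 2 +
        η ^ 2 * (x' v κ) ^ 2 ≤
        (1 + τ) * ((∑ i, x (p (v, i)).1 κ - (E - s * ω v) * x v κ) ^ 2 +
          η ^ 2 * (x v κ) ^ 2) +
        (1 + 1 / τ) * (2 * (∑ i, (fun u => x' u κ - x u κ) (p (v, i)).1 -
          (E - s * ω' v) * (fun u => x' u κ - x u κ) v) ^ 2 +
          η ^ 2 * (x' v κ - x v κ) ^ 2 + 2 * s ^ 2 * δ ^ 2 * x v κ ^ 2) := by
      intro v
      have e1 : ∑ i, x' (p (v, i)).1 κ - (E - s * ω' v) * x' v κ =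
          (∑ i, x (p (v, i)).1 κ - (E - s * ω v) * x v κ) +
          ((∑ i, (fun u => x' u κ - x u κ) (p (v, i)).1 -
          (E - s * ω' v) * (fun u => x' u κ - x u κ) v) + s * (ω' v - ω v) * x v κ) := by
        simp only [sum_sub_distrib]
        ring
      have e2 : x' v κ = x v κ + (x' v κ - x v κ) := by ring
      set a := ∑ i, x (p (v, i)).1 κ - (E - s * ω v) * x v κ
      set b := ∑ i, (fun u => x' u κ - x u κ) (p (v, i)).1 -
          (E - s * ω' v) * (fun u => x' u κ - x u κ) v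
      have h2 := hy a (b + s * (ω' v - ω v) * x v κ)
      have h3 := hy (x v κ) (x' v κ - x v κ)
      rw [← e2] at h3
      have h4 : (b + s * (ω' v - ω v) * x v κ) ^ 2 ≤ 2 * b ^ 2 + 2 * s ^ 2 * δ ^ 2 * x v κ ^ 2 := by
        have h5 : (s * (ω' v - ω v) * x v κ) ^ 2 ≤ s ^ 2 * δ ^ 2 * x v κ ^ 2 := by
          rw [mul_pow, mul_pow]
          refine mul_le_mul_of_nonneg_right (mul_le_mul_of_nonneg_left ?_ (sq_nonneg _))
            (sq_nonneg _)
          rw [← sq_abs]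
          exact pow_le_pow_left₀ (abs_nonneg _) (h v) 2
        nlinarith [sq_nonneg (b - s * (ω' v - ω v) * x v κ)]
      rw [e1]
      have h6 : (1 + 1 / τ) * (b + s * (ω' v - ω v) * x v κ) ^ 2 ≤
          (1 + 1 / τ) * (2 * b ^ 2 + 2 * s ^ 2 * δ ^ 2 * x v κ ^ 2) :=
        mul_le_mul_of_nonneg_left h4 (by positivity)
      have h7 := mul_le_mul_of_nonneg_left h3 (sq_nonneg η)
      nlinarith
    refine (sum_le_sum fun v _ => h1 v).trans ?_
    simp only [sum_add_distrib, ← mul_sum]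
    have h2 := sum_b1_sq p s E ω' hω' (fun u => x' u κ - x u κ)
    have h3 : (0 : ℝ) ≤ 1 + 1 / τ := by positivity
    refine add_le_add le_rfl (mul_le_mul_of_nonneg_left ?_ h3)
    have h4 : ∑ v, (fun u => x' u κ - x u κ) v ^ 2 = ∑ v, (x' v κ - x v κ) ^ 2 := rfl
    rw [h4] at h2
    nlinarith
  refine (sum_le_sum fun κ _ => hκ κ).trans (le_of_eq ?_)
  rw [sum_add_distrib, ← mul_sum, ← mul_sum, sum_add_distrib, ← mul_sum, ← mul_sum]

lemma sum_sq_le_Qs {V I : Type} [Fintype V] [DecidableEq V] [Fintype I] [DecidableEq I] (k : ℕ)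
    (p : V × I → V × I) (s E η : ℝ) (ω : V → ℝ) (x : V → Fin k → ℝ) :
    η ^ 2 * ∑ κ, ∑ v, x v κ ^ 2 ≤ ∑ v, Qs k p s E η ω x v := by
  rw [sum_comm, mul_sum]
  refine sum_le_sum fun v _ => ?_
  rw [Qs, mul_sum]
  refine sum_le_sum fun κ _ => ?_
  nlinarith [sq_nonneg (∑ i, x (p (v, i)).1 κ - (E - s * ω v) * x v κ)]

open Lev47 in
lemma cell_err {L D : ℝ} (hD : 0 < D) (hL : D ≤ L) {M : ℕ} [NeZero M] (hM : D * M = 2 * L)
    (x : ℝ) : (lo L D (cell L D M x) - x) ^ 2 ≤ D ^ 2 + 9 * (if L < |x| then x ^ 2 else 0) := by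
  split_ifs with h
  · have h1 := abs_lo_cell_le hD (hD.le.trans hL) hM x
    have h2 : |lo L D (cell L D M x) - x| ≤ 3 * |x| := by
      refine (abs_sub _ _).trans ?_
      linarith
    have h3 := pow_le_pow_left₀ (abs_nonneg _) h2 2
    rw [sq_abs, mul_pow, sq_abs] at h3
    nlinarith [sq_nonneg D]
  · have h' := abs_le.1 (not_lt.1 h)
    have h1 := abs_lo_sub hD (M := M) h'.1 (by linarith)
    have h3 := pow_le_pow_left₀ (abs_nonneg _) h1 2
    rw [sq_abs] at h3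
    linarith

/-- the deterministic core of (U) -> limit -/
theorem upp_core (d k : ℕ) (s E η c : ℝ) (hη : 0 < η) (hc : 0 < c) (q : ℝ) (hq : 0 < q) (ε : ℝ)
    (hε : 0 < ε) :
    ∃ δ : ℝ, 0 < δ ∧ ∃ a0 : ℕ, ∀ (A : Type) [Fintype A] (w : A → ℝ) (_ : ∀ x, |w x| ≤ 1)
      (qo : ℝ → A) (_ : ∀ x, |x| ≤ 1 → |w (qo x) - x| ≤ δ) (L D : ℝ) (M : ℕ) [NeZero M]
      (_ : 0 < D) (_ : D ≤ δ) (_ : D ≤ L) (_ : D * M = 2 * L),
      ∀ a ≥ a0, ∃ ε' : ℝ, 0 < ε' ∧ ∃ N : ℕ, ∀ n ≥ N,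
      ∀ (p0 : Equiv.Perm (Fin n × Fin d)) (hp0 : IsPairing p0),
      (nBad a ⇑p0 : ℝ) ≤ ε' * n → ∀ (ω : Fin n → ℝ) (_ : ∀ v, |ω v| ≤ 1)
        (Y : Fin n → Fin k → ℝ),
      ∑ v, Qs k ⇑p0 s E η ω Y v ≤ c * η * (n * k * (q + δ)) →
      ∑ κ, ∑ v, (if L < |Y v κ| then Y v κ ^ 2 else 0) ≤ δ * (n * k) →
      Count674.Psi n (Count674.starCnt p0 (fun v => ((viewOf (⇑p0) (fun u => qo (ω u)) a v,
          fun κ => Lev47.cell L D M (Y v κ)) : View A (Fin d) a × (Fin k → Fin M)))) ≤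
      Real.log (Fintype.card A) - k * Real.log D +
        k / 2 * Real.log (2 * Real.pi * Real.exp 1 * q) +
        k / 2 * (logdet (Hp_isHermitian ⇑p0 hp0.1 s ω) E η c / n) + ε := by
  -- the tolerance in `q`
  set ε2 : ℝ := 2 * ε / (3 * (k + 1)) with hε2
  have hε2p : 0 < ε2 := by positivity
  have hk2 : (k : ℝ) / 2 * ε2 ≤ ε / 3 := by
    rw [hε2]
    have h1 : (0 : ℝ) < k + 1 := by positivity
    rw [div_mul_div_comm, div_le_div_iff₀ (by positivity) (by norm_num)]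
    nlinarith
  obtain ⟨δ1, hδ1, hld⟩ := logdet_cont d s E η c hη hc (2 * ε / (3 * (k + 1))) hε2p
  -- the polynomial
  set K1 : ℝ := 4 * ((d : ℝ) ^ 2 + (|E| + |s|) ^ 2) + η ^ 2 with hK1
  set φ : ℝ → ℝ := fun τ => (1 + τ ^ 2) * ((1 + τ) * (c * η * (q + τ ^ 2)) +
    (τ + τ ^ 2) * (K1 * (τ ^ 2 + 9) + 2 * s ^ 2 * τ ^ 2 * (c * (q + τ ^ 2) / η))) +
    τ ^ 2 * (1 + τ ^ 2) * (((d : ℝ) + |E| + |s| * 1) ^ 2 + η ^ 2) with hφ
  have hφc : Continuous φ := by rw [hφ]; fun_prop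
  have hφ0 : φ 0 < c * η * (q * (1 + ε2)) := by
    have : φ 0 = c * η * q := by rw [hφ]; simp
    rw [this]
    have h1 : 0 < c * η * q := by positivity
    nlinarith [mul_pos h1 hε2p]
  obtain ⟨τ, hτ0, hτ⟩ : ∃ τ : ℝ, (0 < τ ∧ τ ^ 2 ≤ δ1) ∧ φ τ < c * η * (q * (1 + ε2)) := by
    have h1 : ∀ᶠ τ in nhdsWithin (0 : ℝ) (Set.Ioi 0), φ τ < c * η * (q * (1 + ε2)) :=
      (hφc.continuousAt.eventually_lt continuousAt_const hφ0).filter_mono nhdsWithin_le_nhds
    have h2 : ∀ᶠ τ in nhdsWithin (0 : ℝ) (Set.Ioi 0), τ ^ 2 < δ1 := by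
      refine Filter.Eventually.filter_mono nhdsWithin_le_nhds ?_
      refine ContinuousAt.eventually_lt (by fun_prop) continuousAt_const ?_
      simpa using hδ1
    obtain ⟨τ, h3, h4, h5⟩ := (h1.and (h2.and self_mem_nhdsWithin)).exists
    exact ⟨τ, ⟨h5, h4.le⟩, h3⟩
  obtain ⟨a0, ha0⟩ := upper_unif d k 1 zero_le_one s E η c hη hc (ε / 3) (by positivity)
  refine ⟨τ ^ 2, by have := hτ0.1; positivity, a0,
    fun A _ w hw qo hqo L D M _ hD hDδ hDL hM a ha => ?_⟩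
  have hτp : 0 < τ := hτ0.1
  obtain ⟨ε', hε', N, hN⟩ := ha0 M A w hw L D hD (q * (1 + ε2)) (by positivity) a ha
  refine ⟨ε', hε', max N 1, fun n hn p0 hp0 hbad ω hω Y hQ hT => ?_⟩
  have hn1 : 1 ≤ n := (le_max_right _ _).trans hn
  have hn' : (0 : ℝ) < n := by exact_mod_cast hn1
  set ω' : Fin n → ℝ := fun u => w (qo (ω u)) with hω'
  have hω'1 : ∀ v, |ω' v| ≤ 1 := fun v => hw _
  have hωω' : ∀ v, |ω' v - ω v| ≤ τ ^ 2 := fun v => hqo _ (hω v)
  -- the quadratic form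
  set X' : Fin n → Fin k → ℝ := fun v κ => lo L D (Lev47.cell L D M (Y v κ)) with hX'
  have h1 := Qs_cells k p0 s E η ω ω' hω'1 (sq_nonneg τ) hωω' Y X' hτp
  have h2 : ∑ κ, ∑ v, (X' v κ - Y v κ) ^ 2 ≤ (n * k) * (τ ^ 4 + 9 * τ ^ 2) := by
    calc ∑ κ, ∑ v, (X' v κ - Y v κ) ^ 2 ≤
        ∑ κ : Fin k, ∑ v : Fin n, (D ^ 2 + 9 * (if L < |Y v κ| then Y v κ ^ 2 else 0)) :=
          sum_le_sum fun κ _ => sum_le_sum fun v _ => cell_err hD hDL hM _
      _ = (n * k) * D ^ 2 + 9 * ∑ κ, ∑ v, (if L < |Y v κ| then Y v κ ^ 2 else 0) := by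
          simp only [sum_add_distrib, ← mul_sum, sum_const, card_univ, Fintype.card_fin,
            nsmul_eq_mul]
          ring
      _ ≤ (n * k) * (τ ^ 2) ^ 2 + 9 * (τ ^ 2 * (n * k)) := by
          refine add_le_add (mul_le_mul_of_nonneg_left (pow_le_pow_left₀ hD.le hDδ 2)
            (by positivity)) (by linarith)
      _ = _ := by ring
  have h3 : ∑ κ, ∑ v, Y v κ ^ 2 ≤ (n * k) * (c * (q + τ ^ 2) / η) := by
    have h4 := (sum_sq_le_Qs k (⇑p0) s E η ω Y).trans hQ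
    have h5 : c * η * (n * k * (q + τ ^ 2)) = η ^ 2 * ((n * k) * (c * (q + τ ^ 2) / η)) := by
      field_simp
    rw [h5] at h4
    exact le_of_mul_le_mul_left h4 (by positivity)
  have h4 : (1 + D) * ∑ v, Qs k ⇑p0 s E η ω' X' v + n * (k * errQ d E s 1 η D) ≤
      (n * k) * φ τ := by
    have hQ0 : 0 ≤ ∑ v, Qs k ⇑p0 s E η ω' X' v := sum_nonneg fun v _ => Qs_nonneg _ _ _ _ _ _ _ _
    have h5 : ∑ v, Qs k ⇑p0 s E η ω' X' v ≤ (n * k) * ((1 + τ) * (c * η * (q + τ ^ 2)) +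
        (τ + τ ^ 2) * (K1 * (τ ^ 2 + 9) + 2 * s ^ 2 * τ ^ 2 * (c * (q + τ ^ 2) / η))) := by
      rw [Fintype.card_fin, ← hK1] at h1
      have hK0 : 0 ≤ K1 := by rw [hK1]; positivity
      have h6 : (1 + τ) * ∑ v, Qs k (⇑p0) s E η ω Y v ≤
          (1 + τ) * (c * η * (n * k * (q + τ ^ 2))) :=
        mul_le_mul_of_nonneg_left hQ (by positivity)
      have h7 : K1 * ∑ κ, ∑ v, (X' v κ - Y v κ) ^ 2 ≤ K1 * ((n * k) * (τ ^ 4 + 9 * τ ^ 2)) :=
        mul_le_mul_of_nonneg_left h2 hK0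
      have h8 : 2 * s ^ 2 * (τ ^ 2) ^ 2 * ∑ κ, ∑ v, Y v κ ^ 2 ≤
          2 * s ^ 2 * (τ ^ 2) ^ 2 * ((n * k) * (c * (q + τ ^ 2) / η)) :=
        mul_le_mul_of_nonneg_left h3 (by positivity)
      have h9 : (1 + 1 / τ) * (K1 * ∑ κ, ∑ v, (X' v κ - Y v κ) ^ 2 +
          2 * s ^ 2 * (τ ^ 2) ^ 2 * ∑ κ, ∑ v, Y v κ ^ 2) ≤
          (1 + 1 / τ) * (K1 * ((n * k) * (τ ^ 4 + 9 * τ ^ 2)) +
          2 * s ^ 2 * (τ ^ 2) ^ 2 * ((n * k) * (c * (q + τ ^ 2) / η))) :=
        mul_le_mul_of_nonneg_left (add_le_add h7 h8) (by positivity)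
      refine h1.trans ((add_le_add h6 h9).trans (le_of_eq ?_))
      field_simp
      ring
    have h10 : 0 ≤ ((d : ℝ) + |E| + |s| * 1) ^ 2 + η ^ 2 := by positivity
    have h11 : errQ d E s 1 η D ≤ τ ^ 2 * (1 + τ ^ 2) *
        (((d : ℝ) + |E| + |s| * 1) ^ 2 + η ^ 2) := by
      unfold errQ
      refine mul_le_mul_of_nonneg_right ?_ h10
      exact mul_le_mul hDδ (by linarith) (by positivity) (by positivity)
    have h12 : (1 + D) * ∑ v, Qs k ⇑p0 s E η ω' X' v ≤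
        (1 + τ ^ 2) * ((n * k) * ((1 + τ) * (c * η * (q + τ ^ 2)) +
        (τ + τ ^ 2) * (K1 * (τ ^ 2 + 9) + 2 * s ^ 2 * τ ^ 2 * (c * (q + τ ^ 2) / η)))) :=
      mul_le_mul (by linarith) h5 hQ0 (by positivity)
    have h13 : (n : ℝ) * (k * errQ d E s 1 η D) ≤ n * (k * (τ ^ 2 * (1 + τ ^ 2) *
        (((d : ℝ) + |E| + |s| * 1) ^ 2 + η ^ 2))) :=
      mul_le_mul_of_nonneg_left (mul_le_mul_of_nonneg_left h11 (by positivity)) (by positivity)
    refine (add_le_add h12 h13).trans (le_of_eq ?_)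
    rw [hφ]
    ring
  have h5 : (n * k : ℝ) * φ τ ≤ c * η * (n * k * (q * (1 + ε2))) := by
    have := mul_le_mul_of_nonneg_left hτ.le (by positivity : (0 : ℝ) ≤ n * k)
    refine this.trans (le_of_eq (by ring))
  have h6 := hN n ((le_max_left _ _).trans hn) p0 hp0 hbad (fun u => qo (ω u))
    (fun v κ => Lev47.cell L D M (Y v κ)) (q * (1 + ε2)) le_rfl (h4.trans h5)
  refine h6.trans ?_
  have h7 : Real.log (2 * Real.pi * Real.exp 1 * (q * (1 + ε2))) ≤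
      Real.log (2 * Real.pi * Real.exp 1 * q) + ε2 := by
    have e1 := Real.exp_pos 1
    have e2 := Real.pi_pos
    rw [← mul_assoc, Real.log_mul (by positivity) (by positivity)]
    have := Real.log_le_sub_one_of_pos (by positivity : (0 : ℝ) < 1 + ε2)
    linarith
  have h8 := hld n (⇑p0) hp0.1 ω' ω hω'1 hω (fun v => (hωω' v).trans hτ0.2)
  have h9 : logdet (Hp_isHermitian ⇑p0 hp0.1 s (w ∘ fun u => qo (ω u))) E η c / n ≤
      logdet (Hp_isHermitian ⇑p0 hp0.1 s ω) E η c / n + ε2 := by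
    rw [← sub_le_iff_le_add', ← sub_div, div_le_iff₀ hn']
    exact (le_abs_self _).trans h8
  have hk0 : (0 : ℝ) ≤ (k : ℝ) / 2 := by positivity
  have h10 := mul_le_mul_of_nonneg_left h7 hk0
  have h11 := mul_le_mul_of_nonneg_left h9 hk0
  nlinarith

end Crest.Agent.R166.Upp724
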