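import Mathlib
import Crest.Agent.R166.EllVol_547
import Crest.Agent.R166.Upp_724

/-!
Row 166 (helper547): (U) of 40.7 without open input.
-/

set_option autoImplicit false
set_option maxHeartbeats 400000

namespace Crest.Agent.R166.Upper547

open Matrix MeasureTheory
open Crest.Agent.R166 Crest.Agent.R166.Noise547 Crest.Agent.R166.Upp724 Crest.Agent.R166.EllVol547 PairCount356

/-- (U), unconditional. -/
theorem upper {d k M : ℕ} {A : Type} [Fintype A] (w : A → ℝ) (W : ℝ) (hW : ∀ x, |w x| ≤ W)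
    (hW0 : 0 ≤ W) (s E η c : ℝ) (hη : 0 < η) (hc : 0 < c) (L D : ℝ) (hD : 0 < D)
    (hMD : D * M ≤ 2 * L) (qmin : ℝ) (hqmin : 0 < qmin) (ε : ℝ) (hε : 0 < ε) :
    ∃ a0 : ℕ, ∀ a ≥ a0, ∃ ε' : ℝ, 0 < ε' ∧ ∃ N : ℕ, ∀ n ≥ N,
      ∀ (p0 : Equiv.Perm (Fin n × Fin d)) (hp0 : IsPairing p0),
      (nBad a ⇑p0 : ℝ) ≤ ε' * n → ∀ (o : Fin n → A) (y : Fin n → Fin k → Fin M) (q : ℝ),
      qmin ≤ q →
      ∑ v, Qs k ⇑p0 s E η (w ∘ o) (fun v κ => lo L D (y v κ)) v +
        n * (k * errQ d E s W η L D) ≤ c * η * (n * k * q) →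
      Count674.Psi n (Count674.starCnt p0 (fun v => ((viewOf (⇑p0) o a v, y v) :
          View A (Fin d) a × (Fin k → Fin M)))) ≤
        Real.log (Fintype.card A) - k * Real.log D +
        k / 2 * Real.log (2 * Real.pi * Real.exp 1 * q) +
        k / 2 * (logdet (Hp_isHermitian ⇑p0 hp0.1 s (w ∘ o)) E η c / n) + ε :=
  upper_ell w W hW hW0 s E η c hη hc L D hD hMD qmin hqmin ε hε
    (fun n p hp ω q _ hq => ellVol (V := Fin n) (I := Fin d) k p hp s E hη hc ω hq)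

end Crest.Agent.R166.Upper547
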