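import Crest.Agent.R166.View_47
import Crest.Agent.R166.Spec_B2_385

/-!
Row 166, sections 40.8-40.10 (helper47): what a vertex view knows; one-sided views and outward
words; refinement.
-/

set_option autoImplicit false

namespace Crest.Agent.R166.View47

open MeasureTheory Crest.Agent.R166.Words955 Crest.Agent.R166.Upp724
  Crest.Agent.R166.EntTree397 Crest.Agent.R166.Ent397 Crest.Agent.R166.Lim47

section det

variable {d : ℕ} [NeZero d] {T : Type*} {A A' : Type}

theorem len_cr_le (w : TW d) : (TW.cr w).len ≤ w.len + 1 := by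
  obtain ⟨w, hw⟩ := w
  cases w with
  | nil => simp [TW.cr, TW.crL, TW.len]
  | cons a w =>
    by_cases ha : a = 0
    · simp only [TW.cr, TW.crL, ha, if_true, TW.len, List.length_cons]; omega
    · simp [TW.cr, TW.crL, ha, TW.len]

theorem rotn_congr {r : ℕ} {ξ ξ' : Conf d (Fin d × T)} (h : ∀ w : TW d, w.len ≤ r → ξ w = ξ' w)
    (j : Fin d) : ∀ w : TW d, w.len ≤ r → rotn j ξ w = rotn j ξ' w := by
  intro w hw
  by_cases h0 : w = TW.nil
  · subst h0
    simp only [rotn, if_true, h _ hw]
  · simp only [rotn, h0, if_false]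
    exact h _ (by rw [TW.len_rt]; exact hw)

theorem step_congr {r : ℕ} {ξ ξ' : Conf d (Fin d × T)}
    (h : ∀ w : TW d, w.len ≤ r + 1 → ξ w = ξ' w) (j : Fin d) :
    ∀ w : TW d, w.len ≤ r → step j ξ w = step j ξ' w := by
  intro w hw
  exact rotn_congr h j _ ((len_cr_le w).trans (by omega))

/-- the view is determined by the values on the ball -/
theorem vview_congr (r : ℕ) {ξ ξ' : Conf d (Fin d × A)}
    (h : ∀ w : TW d, w.len ≤ r → ξ w = ξ' w) : vview r ξ = vview r ξ' := by
  induction r generalizing ξ ξ' with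
  | zero =>
    rw [vview_zero, vview_zero, dt, dt, h TW.nil (by simp [TW.len, TW.nil])]
  | succ r ih =>
    have h0 : ξ TW.nil = ξ' TW.nil := h TW.nil (by simp [TW.len, TW.nil])
    have hd : dt ξ = dt ξ' := by rw [dt, dt, h0]
    have hl : lb ξ = lb ξ' := by rw [lb, lb, h0]
    rw [vview_succ, vview_succ, hd, hl]
    have h2 : (fun i => (lb (step (i - lb ξ') ξ), vview r (step (i - lb ξ') ξ))) =
        fun i => (lb (step (i - lb ξ') ξ'), vview r (step (i - lb ξ') ξ')) := by
      funext i
      have h3 := step_congr (r := r) h (i - lb ξ')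
      have h4 : lb (step (i - lb ξ') ξ) = lb (step (i - lb ξ') ξ') :=
        congrArg Prod.fst (h3 TW.nil (by simp [TW.len, TW.nil]))
      rw [ih h3, h4]
    rw [h2]

/-- the pair (label, view) determines the values on the ball -/
theorem ball_of_vview (r : ℕ) {ξ ξ' : Conf d (Fin d × A)} (hl : lb ξ = lb ξ')
    (hv : vview r ξ = vview r ξ') : ∀ w : TW d, w.len ≤ r → ξ w = ξ' w := by
  intro w hw
  rw [← nav_vview_TW r w hw ξ, ← nav_vview_TW r w hw ξ', hl, hv]

/-- refinement of views -/
theorem vview_ref {r r' : ℕ} (hr : r ≤ r') (q : T → A) (q' : T → A')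
    (hq : ∀ x x', q' x = q' x' → q x = q x') {ξ ξ' : Conf d (Fin d × T)}
    (hl : lb ξ = lb ξ') (hv : vview r' (mapC q' ξ) = vview r' (mapC q' ξ')) :
    vview r (mapC q ξ) = vview r (mapC q ξ') := by
  refine vview_congr r fun w hw => ?_
  have h := ball_of_vview r' (ξ := mapC q' ξ) (ξ' := mapC q' ξ') hl hv w (hw.trans hr)
  simp only [mapC, Prod.mk.injEq] at h ⊢
  exact ⟨h.1, hq _ _ h.2⟩

end det

section meas

variable {d : ℕ} [NeZero d] {T : Type*} [MeasurableSpace T] {A : Type} [Finite A]

theorem measurable_lb : Measurable (lb : Conf d (Fin d × T) → Fin d) :=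
  measurable_fst.comp (measurable_pi_apply _)

theorem measurable_dt : Measurable (dt : Conf d (Fin d × T) → T) :=
  measurable_snd.comp (measurable_pi_apply _)

theorem measurable_rs (i : Fin d) : Measurable (PortAct.rs i : Fin d × T → Fin d × T) := by
  refine Measurable.prodMk ?_ measurable_snd
  exact (measurable_from_top (f := fun l : Fin d => l + i)).comp measurable_fst

theorem measurable_step (i : Fin d) :
    Measurable (step i : Conf d (Fin d × T) → Conf d (Fin d × T)) :=
  measurable_cross.comp (measurable_rotn measurable_rs i)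

theorem FM_lb : FM (lb : Conf d (Fin d × T) → Fin d) := fun a =>
  measurable_lb (measurableSet_singleton a)

theorem FM_vview (r : ℕ) {q : T → A} (hq : FM q) :
    FM (fun ξ : Conf d (Fin d × T) => vview r (mapC q ξ)) := by
  by_cases hT : Nonempty (Conf d (Fin d × T))
  · have hY : FM (fun ξ : Conf d (Fin d × T) => fun w : TW.ball d r => mapC q ξ w.1) := by
      refine FM.pi fun w => ?_
      refine FM.pair (X := fun ξ : Conf d (Fin d × T) => (ξ w.1).1)
        (Y := fun ξ : Conf d (Fin d × T) => q (ξ w.1).2) ?_ ?_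
      · intro a
        exact (measurable_fst.comp (measurable_pi_apply w.1)) (measurableSet_singleton a)
      · exact hq.comp_right (measurable_snd.comp (measurable_pi_apply w.1))
    refine FM_of_det hY fun ξ ξ' h => vview_congr r fun w hw => ?_
    exact congrFun h ⟨w, TW.mem_ball.2 hw⟩
  · intro a
    have : (fun ξ : Conf d (Fin d × T) => vview r (mapC q ξ)) ⁻¹' {a} = ∅ := by
      ext ξ
      exact absurd ⟨ξ⟩ hT
    rw [this]; exact MeasurableSet.empty

end meas

section outward

variable {Ω : Type*} {A B : Type} {m : ℕ}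

/-- one-sided views are monotone in the information of the colour -/
theorem S_ref {c : Ω → A} {c' : Ω → B} {π ρ : Ω → Ω} (hc : ∀ h h', c' h = c' h' → c h = c h')
    (r : ℕ) : ∀ h h' : Ω, (S c' π ρ r h : ST B m r) = S c' π ρ r h' →
      (S c π ρ r h : ST A m r) = S c π ρ r h' := by
  induction r with
  | zero => exact hc
  | succ r ih =>
    intro h h' e
    rw [S_succ_eq_iff] at e ⊢
    exact ⟨hc _ _ e.1, fun k => ih _ _ (e.2 k)⟩

/-- the one-sided view determines the colours at the outward words -/
theorem S_wd {c : Ω → A} {π ρ : Ω → Ω} (w : List ℕ) (hw : B2.OutW (m + 1) w) :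
    ∀ (R : ℕ), w.length ≤ R → ∀ h h' : Ω, (S c π ρ R h : ST A m R) = S c π ρ R h' →
      c (B2.wd π ρ w h) = c (B2.wd π ρ w h') := by
  induction w with
  | nil =>
    intro R _ h h' e
    exact S_det_zero c π ρ R h h' e
  | cons j w ih =>
    intro R hR h h' e
    cases R with
    | zero => simp at hR
    | succ R =>
      rw [S_succ_eq_iff] at e
      obtain ⟨h1, h2⟩ := hw j (by simp)
      have h3 := e.2 ⟨j - 1, by omega⟩
      have h4 : j - 1 + 1 = j := by omega
      simp only [h4] at h3
      exact ih (fun i hi => hw i (by simp [hi])) R (by simpa using hR) _ _ h3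

end outward

end Crest.Agent.R166.View47
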