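import Crest.Agent.R166.Words_955
import Crest.Agent.R166.UppView_724
import Crest.Agent.R166.EntTree_397
import Crest.Agent.R166.Lim2_47

/-!
Row 166, sections 40.8-40.10 (helper47): vertex views of configurations on the tree and the
σ-algebras they generate.
-/

set_option autoImplicit false

namespace Crest.Agent.R166.View47

open MeasureTheory Crest.Agent.R166.Words955 Crest.Agent.R166.Upp724
  Crest.Agent.R166.EntTree397 Crest.Agent.R166.Ent397 Crest.Agent.R166.Lim47

variable {d : ℕ} [NeZero d] {T : Type*} {A : Type}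

/-- label of the root half-edge -/
def lb (ξ : Conf d (Fin d × T)) : Fin d := (ξ TW.nil).1

/-- vertex datum at the root -/
def dt (ξ : Conf d (Fin d × T)) : T := (ξ TW.nil).2

/-- apply a map to the vertex data -/
def mapC {T' : Type*} (q : T → T') (ξ : Conf d (Fin d × T)) : Conf d (Fin d × T') :=
  fun w => ((ξ w).1, q (ξ w).2)

/-- vertex view of radius `r`, in absolute port numbering -/
def vview : (r : ℕ) → Conf d (Fin d × A) → View A (Fin d) r
  | 0, ξ => dt ξ
  | r + 1, ξ => (dt ξ, fun i => (lb (step (i - lb ξ) ξ), vview r (step (i - lb ξ) ξ)))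

theorem lb_conf {V : Type*} (p : V × Fin d → V × Fin d) (f : V → T) (h : V × Fin d) :
    lb (conf p (lab f) h) = h.2 := rfl

theorem dt_conf {V : Type*} (p : V × Fin d → V × Fin d) (f : V → T) (h : V × Fin d) :
    dt (conf p (lab f) h) = f h.1 := rfl

theorem mapC_conf {V : Type*} {T' : Type*} (q : T → T') (p : V × Fin d → V × Fin d) (f : V → T)
    (h : V × Fin d) : mapC q (conf p (lab f) h) = conf p (lab fun v => q (f v)) h := rfl

theorem mapC_cross {T' : Type*} (q : T → T') (ξ : Conf d (Fin d × T)) :
    mapC q (cross ξ) = cross (mapC q ξ) := rfl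

theorem mapC_rotn {T' : Type*} (q : T → T') (i : Fin d) (ξ : Conf d (Fin d × T)) :
    mapC q (rotn i ξ) = rotn i (mapC q ξ) := by
  funext w
  by_cases h : w = TW.nil
  · simp only [mapC, rotn, h, if_true]; rfl
  · simp only [mapC, rotn, h, if_false]

theorem mapC_step {T' : Type*} (q : T → T') (i : Fin d) (ξ : Conf d (Fin d × T)) :
    mapC q (step i ξ) = step i (mapC q ξ) := by
  rw [step, mapC_cross, mapC_rotn]; rfl

theorem lb_mapC {T' : Type*} (q : T → T') (ξ : Conf d (Fin d × T)) : lb (mapC q ξ) = lb ξ := rfl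

theorem dt_mapC {T' : Type*} (q : T → T') (ξ : Conf d (Fin d × T)) :
    dt (mapC q ξ) = q (dt ξ) := rfl

theorem lb_rotn (i : Fin d) (ξ : Conf d (Fin d × T)) : lb (rotn i ξ) = lb ξ + i := by
  simp only [lb, rotn, if_true]; rfl

theorem dt_rotn (i : Fin d) (ξ : Conf d (Fin d × T)) : dt (rotn i ξ) = dt ξ := by
  simp only [dt, rotn, if_true]; rfl

theorem step_rotn (i j : Fin d) (ξ : Conf d (Fin d × T)) :
    step i (rotn j ξ) = step (i + j) ξ := by
  rw [step, rotn_rotn]; rfl

theorem vview_zero (ξ : Conf d (Fin d × A)) : vview 0 ξ = dt ξ := rfl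

theorem vview_succ (r : ℕ) (ξ : Conf d (Fin d × A)) : vview (r + 1) ξ =
    (dt ξ, fun i => (lb (step (i - lb ξ) ξ), vview r (step (i - lb ξ) ξ))) := rfl

/-- the vertex view does not depend on the root port -/
theorem vview_rotn (r : ℕ) (j : Fin d) (ξ : Conf d (Fin d × A)) :
    vview r (rotn j ξ) = vview r ξ := by
  cases r with
  | zero => exact dt_rotn j ξ
  | succ r =>
    rw [vview_succ, vview_succ, dt_rotn, lb_rotn]
    have : ∀ i : Fin d, step (i - (lb ξ + j)) (rotn j ξ) = step (i - lb ξ) ξ := fun i => by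
      rw [step_rotn]
      congr 1
      abel
    exact congrArg (fun f => ((dt ξ, f) : A × (Fin d → Fin d × View A (Fin d) r)))
      (funext fun i => by rw [this])

/-- the view of a finite graph -/
theorem vview_conf {V : Type} (p : V × Fin d → V × Fin d) (hp : ∀ h, p (p h) = h)
    (f : V → A) (r : ℕ) (h : V × Fin d) : vview r (conf p (lab f) h) = viewOf p f r h.1 := by
  induction r generalizing h with
  | zero => rfl
  | succ r ih =>
    have h1 : ∀ i : Fin d, step (i - lb (conf p (lab f) h)) (conf p (lab f) h) =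
        conf p (lab f) (p (h.1, i)) := fun i => by
      rw [lb_conf, ← conf_step p hp (lab f) (fun v l i => lab_rot f v l i)]
      congr 3
      abel
    rw [vview_succ, dt_conf]
    have h2 : (fun i => (lb (step (i - lb (conf p (lab f) h)) (conf p (lab f) h)),
        vview r (step (i - lb (conf p (lab f) h)) (conf p (lab f) h)))) =
        fun i => ((p (h.1, i)).2, viewOf p f r (p (h.1, i)).1) := by
      funext i
      rw [h1, ih, lb_conf]
    rw [h2]
    rfl

/-- navigation in a view: label and datum reached by the word `w` (relative to the root label) -/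
def nav : (r : ℕ) → Fin d → View A (Fin d) r → List (Fin d) → Fin d × A
  | 0, l, x, _ => (l, x)
  | _ + 1, l, x, [] => (l, x.1)
  | r + 1, l, x, i :: w => nav r (x.2 (i + l)).1 (x.2 (i + l)).2 w

theorem nav_vview (r : ℕ) (w : List (Fin d)) (hw : w.length ≤ r) (ξ : Conf d (Fin d × A)) :
    nav r (lb ξ) (vview r ξ) w = reroot w ξ TW.nil := by
  induction r generalizing w ξ with
  | zero =>
    have : w = [] := List.length_eq_zero_iff.1 (Nat.le_zero.1 hw)
    subst this
    rfl
  | succ r ih =>
    cases w with
    | nil => rfl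
    | cons i w =>
      have hw' : w.length ≤ r := by simpa using hw
      rw [vview_succ]
      show nav r (lb (step (i + lb ξ - lb ξ) ξ)) (vview r (step (i + lb ξ - lb ξ) ξ)) w = _
      rw [add_sub_cancel_right, ih w hw' (step i ξ)]
      rfl

/-- label and datum at the tree vertex `w` from the view -/
theorem nav_vview_TW (r : ℕ) (w : TW d) (hw : w.len ≤ r) (ξ : Conf d (Fin d × A)) :
    nav r (lb ξ) (vview r ξ) w.1 = ξ w := by
  rw [nav_vview r w.1 hw, reroot_nil]

/-- iterates of the unit rotation -/
theorem rotn_iterate (k : ℕ) (ξ : Conf d (Fin d × T)) :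
    (rotn (1 : Fin d))^[k] ξ = rotn (Fin.ofNat d k) ξ := by
  induction k with
  | zero =>
    have : (Fin.ofNat d 0) = 0 := rfl
    rw [this, rotn_zero]; rfl
  | succ k ih =>
    rw [Function.iterate_succ_apply', ih, rotn_rotn]
    congr 1
    apply Fin.ext
    simp [Fin.ofNat, Fin.val_add, add_comm]

end Crest.Agent.R166.View47
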